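import Vale.Agent.Lib.P154.PChain.BG.R3_0

set_option linter.all false

namespace Vale.Agent.Lib.P154.PChain.BG.S4

open Vale.Agent.Lib.P154.Chain

noncomputable def pc0 : PT := (PT.nd (nat_lit 6707844) (PT.nd (nat_lit 6389448) (PT.nd (nat_lit 6283134) (PT.nd (nat_lit 6177054) (PT.nd (nat_lit 6124014) (PT.nd (nat_lit 6123936) PT.nil (PT.lf (nat_lit 76) (nat_lit 6) (nat_lit 1) (nat_lit 3) (nat_lit 197) (nat_lit 115) (nat_lit 198))) (PT.nd (nat_lit 52962) (PT.lf (nat_lit 76) (nat_lit 6) (nat_lit 1) (nat_lit 1) (nat_lit 198) (nat_lit 115) (nat_lit 197)) (PT.lf (nat_lit 152) (nat_lit 6) (nat_lit 2) (nat_lit 3) (nat_lit 196) (nat_lit 116) (nat_lit 198)))) (PT.nd (nat_lit 53040) (PT.nd (nat_lit 78) (PT.lf (nat_lit 228) (nat_lit 3) (nat_lit 3) (nat_lit 1) (nat_lit 197) (nat_lit 116) (nat_lit 197)) (PT.lf (nat_lit 152) (nat_lit 6) (nat_lit 2) (nat_lit 1) (nat_lit 198) (nat_lit 116) (nat_lit 196)))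 (PT.nd (nat_lit 78) (PT.lf (nat_lit 304) (nat_lit 6) (nat_lit 4) (nat_lit 3) (nat_lit 196) (nat_lit 117) (nat_lit 197)) (PT.lf (nat_lit 304) (nat_lit 6) (nat_lit 4) (nat_lit 1) (nat_lit 197) (nat_lit 117) (nat_lit 196))))) (PT.nd (nat_lit 53118) (PT.nd (nat_lit 78) (PT.lf (nat_lit 380) (nat_lit 6) (nat_lit 5) (nat_lit 3) (nat_lit 195) (nat_lit 118) (nat_lit 197)) (PT.nd (nat_lit 78) (PT.lf (nat_lit 456) (nat_lit 3) (nat_lit 6) (nat_lit 1) (nat_lit 196) (nat_lit 118) (nat_lit 196)) (PT.lf (nat_lit 380) (nat_lit 6) (nat_lit 5) (nat_lit 1) (nat_lit 197) (nat_lit 118) (nat_lit 195)))) (PT.nd (nat_lit 53040) (PT.nd (nat_lit 78) (PT.lf (nat_lit 532) (nat_lit 6) (nat_lit 7) (nat_lit 3) (nat_lit 195) (nat_lit 119) (nat_lit 196)) (PT.lf (nat_lit 532) (nat_lit 6) (nat_lit 7) (nat_lit 1) (nat_lit 196) (nat_lit 119) (nat_lit 195))) (PT.nd (nat_lit 78) (PT.lf (nat_lit 608) (nat_lit 6) (nat_lit 8) (nat_lit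 3) (nat_lit 194) (nat_lit 120) (nat_lit 196)) (PT.lf (nat_lit 684) (nat_lit 3) (nat_lit 9) (nat_lit 1) (nat_lit 195) (nat_lit 120) (nat_lit 195)))))) (PT.nd (nat_lit 159198) (PT.nd (nat_lit 106002) (PT.nd (nat_lit 52962) (PT.lf (nat_lit 608) (nat_lit 6) (nat_lit 8) (nat_lit 1) (nat_lit 196) (nat_lit 120) (nat_lit 194)) (PT.nd (nat_lit 78) (PT.lf (nat_lit 760) (nat_lit 6) (nat_lit 10) (nat_lit 3) (nat_lit 194) (nat_lit 121) (nat_lit 195)) (PT.lf (nat_lit 760) (nat_lit 6) (nat_lit 10) (nat_lit 1) (nat_lit 195) (nat_lit 121) (nat_lit 194)))) (PT.nd (nat_lit 156) (PT.nd (nat_lit 78) (PT.lf (nat_lit 836) (nat_lit 6) (nat_lit 11) (nat_lit 3) (nat_lit 193) (nat_lit 122) (nat_lit 195)) (PT.lf (nat_lit 912) (nat_lit 3) (nat_lit 12) (nat_lit 1) (nat_lit 194) (nat_lit 122) (nat_lit 194))) (PT.nd (nat_lit 52962) (PT.lf (nat_lit 836) (nat_lit 6) (nat_lit 11) (nat_lit 1) (nat_lit 195) (nat_lit 122) (nat_lit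 193)) (PT.lf (nat_lit 988) (nat_lit 6) (nat_lit 13) (nat_lit 3) (nat_lit 193) (nat_lit 123) (nat_lit 194))))) (PT.nd (nat_lit 53118) (PT.nd (nat_lit 52962) (PT.lf (nat_lit 988) (nat_lit 6) (nat_lit 13) (nat_lit 1) (nat_lit 194) (nat_lit 123) (nat_lit 193)) (PT.nd (nat_lit 78) (PT.lf (nat_lit 1064) (nat_lit 6) (nat_lit 14) (nat_lit 3) (nat_lit 192) (nat_lit 124) (nat_lit 194)) (PT.lf (nat_lit 1140) (nat_lit 3) (nat_lit 15) (nat_lit 1) (nat_lit 193) (nat_lit 124) (nat_lit 193)))) (PT.nd (nat_lit 53040) (PT.nd (nat_lit 52962) (PT.lf (nat_lit 1064) (nat_lit 6) (nat_lit 14) (nat_lit 1) (nat_lit 194) (nat_lit 124) (nat_lit 192)) (PT.lf (nat_lit 1216) (nat_lit 6) (nat_lit 16) (nat_lit 3) (nat_lit 192) (nat_lit 125) (nat_lit 193))) (PT.nd (nat_lit 52962) (PT.lf (nat_lit 1216) (nat_lit 6) (nat_lit 16) (nat_lit 1) (nat_lit 193) (nat_lit 125) (nat_lit 192)) (PT.lf (nat_lit 1292) (nat_lit 6) (nat_lit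 17) (nat_lit 3) (nat_lit 191) (nat_lit 126) (nat_lit 193))))))) (PT.nd (nat_lit 318396) (PT.nd (nat_lit 159198) (PT.nd (nat_lit 53118) (PT.nd (nat_lit 78) (PT.lf (nat_lit 1368) (nat_lit 3) (nat_lit 18) (nat_lit 1) (nat_lit 192) (nat_lit 126) (nat_lit 192)) (PT.nd (nat_lit 52962) (PT.lf (nat_lit 1292) (nat_lit 6) (nat_lit 17) (nat_lit 1) (nat_lit 193) (nat_lit 126) (nat_lit 191)) (PT.lf (nat_lit 1444) (nat_lit 6) (nat_lit 19) (nat_lit 3) (nat_lit 191) (nat_lit 127) (nat_lit 192)))) (PT.nd (nat_lit 53040) (PT.nd (nat_lit 52962) (PT.lf (nat_lit 1444) (nat_lit 6) (nat_lit 19) (nat_lit 1) (nat_lit 192) (nat_lit 127) (nat_lit 191)) (PT.lf (nat_lit 1520) (nat_lit 6) (nat_lit 20) (nat_lit 3) (nat_lit 190) (nat_lit 128) (nat_lit 192))) (PT.nd (nat_lit 78) (PT.lf (nat_lit 1596) (nat_lit 3) (nat_lit 21) (nat_lit 1) (nat_lit 191) (nat_lit 128) (nat_lit 191)) (PT.lf (nat_lit 1520) (nat_lit 6) (nat_lit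 20) (nat_lit 1) (nat_lit 192) (nat_lit 128) (nat_lit 190))))) (PT.nd (nat_lit 53118) (PT.nd (nat_lit 78) (PT.lf (nat_lit 1672) (nat_lit 6) (nat_lit 22) (nat_lit 3) (nat_lit 190) (nat_lit 129) (nat_lit 191)) (PT.nd (nat_lit 52962) (PT.lf (nat_lit 1672) (nat_lit 6) (nat_lit 22) (nat_lit 1) (nat_lit 191) (nat_lit 129) (nat_lit 190)) (PT.lf (nat_lit 1748) (nat_lit 6) (nat_lit 23) (nat_lit 3) (nat_lit 189) (nat_lit 130) (nat_lit 191)))) (PT.nd (nat_lit 53040) (PT.nd (nat_lit 78) (PT.lf (nat_lit 1824) (nat_lit 3) (nat_lit 24) (nat_lit 1) (nat_lit 190) (nat_lit 130) (nat_lit 190)) (PT.lf (nat_lit 1748) (nat_lit 6) (nat_lit 23) (nat_lit 1) (nat_lit 191) (nat_lit 130) (nat_lit 189))) (PT.nd (nat_lit 78) (PT.lf (nat_lit 1900) (nat_lit 6) (nat_lit 25) (nat_lit 3) (nat_lit 189) (nat_lit 131) (nat_lit 190)) (PT.lf (nat_lit 1900) (nat_lit 6) (nat_lit 25) (nat_lit 1) (nat_lit 190) (nat_lit 131) (nat_lit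 189)))))) (PT.nd (nat_lit 106314) (PT.nd (nat_lit 53118) (PT.nd (nat_lit 78) (PT.lf (nat_lit 1976) (nat_lit 6) (nat_lit 26) (nat_lit 3) (nat_lit 188) (nat_lit 132) (nat_lit 190)) (PT.nd (nat_lit 78) (PT.lf (nat_lit 2052) (nat_lit 3) (nat_lit 27) (nat_lit 1) (nat_lit 189) (nat_lit 132) (nat_lit 189)) (PT.lf (nat_lit 1976) (nat_lit 6) (nat_lit 26) (nat_lit 1) (nat_lit 190) (nat_lit 132) (nat_lit 188)))) (PT.nd (nat_lit 53040) (PT.nd (nat_lit 78) (PT.lf (nat_lit 2128) (nat_lit 6) (nat_lit 28) (nat_lit 3) (nat_lit 188) (nat_lit 133) (nat_lit 189)) (PT.lf (nat_lit 2128) (nat_lit 6) (nat_lit 28) (nat_lit 1) (nat_lit 189) (nat_lit 133) (nat_lit 188))) (PT.nd (nat_lit 78) (PT.lf (nat_lit 2204) (nat_lit 6) (nat_lit 29) (nat_lit 3) (nat_lit 187) (nat_lit 134) (nat_lit 189)) (PT.lf (nat_lit 2280) (nat_lit 3) (nat_lit 30) (nat_lit 1) (nat_lit 188) (nat_lit 134) (nat_lit 188))))) (PT.nd (nat_lit 53118)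 (PT.nd (nat_lit 52962) (PT.nd (nat_lit 52884) (PT.lf (nat_lit 2204) (nat_lit 6) (nat_lit 29) (nat_lit 1) (nat_lit 189) (nat_lit 134) (nat_lit 187)) (PT.lf (nat_lit 2356) (nat_lit 6) (nat_lit 31) (nat_lit 3) (nat_lit 186) (nat_lit 135) (nat_lit 189))) (PT.nd (nat_lit 78) (PT.lf (nat_lit 2432) (nat_lit 6) (nat_lit 32) (nat_lit 3) (nat_lit 187) (nat_lit 135) (nat_lit 188)) (PT.lf (nat_lit 2432) (nat_lit 6) (nat_lit 32) (nat_lit 1) (nat_lit 188) (nat_lit 135) (nat_lit 187)))) (PT.nd (nat_lit 52962) (PT.nd (nat_lit 52884) (PT.lf (nat_lit 2356) (nat_lit 6) (nat_lit 31) (nat_lit 1) (nat_lit 189) (nat_lit 135) (nat_lit 186)) (PT.lf (nat_lit 2508) (nat_lit 6) (nat_lit 33) (nat_lit 3) (nat_lit 186) (nat_lit 136) (nat_lit 188))) (PT.nd (nat_lit 78) (PT.lf (nat_lit 2584) (nat_lit 3) (nat_lit 34) (nat_lit 1) (nat_lit 187) (nat_lit 136) (nat_lit 187)) (PT.lf (nat_lit 2508) (nat_lit 6) (nat_lit 33) (nat_lit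 1) (nat_lit 188) (nat_lit 136) (nat_lit 186))))))))
noncomputable def pc1 : PT := (PT.nd (nat_lit 371592) (PT.nd (nat_lit 212316) (PT.nd (nat_lit 106158) (PT.nd (nat_lit 234) (PT.nd (nat_lit 78) (PT.lf (nat_lit 2660) (nat_lit 6) (nat_lit 35) (nat_lit 3) (nat_lit 185) (nat_lit 137) (nat_lit 188)) (PT.nd (nat_lit 78) (PT.lf (nat_lit 2736) (nat_lit 6) (nat_lit 36) (nat_lit 3) (nat_lit 186) (nat_lit 137) (nat_lit 187)) (PT.lf (nat_lit 2736) (nat_lit 6) (nat_lit 36) (nat_lit 1) (nat_lit 187) (nat_lit 137) (nat_lit 186)))) (PT.nd (nat_lit 52962) (PT.nd (nat_lit 52884) (PT.lf (nat_lit 2660) (nat_lit 6) (nat_lit 35) (nat_lit 1) (nat_lit 188) (nat_lit 137) (nat_lit 185)) (PT.lf (nat_lit 2812) (nat_lit 6) (nat_lit 37) (nat_lit 3) (nat_lit 185) (nat_lit 138) (nat_lit 187))) (PT.nd (nat_lit 78) (PT.lf (nat_lit 2888) (nat_lit 3) (nat_lit 38) (nat_lit 1) (nat_lit 186) (nat_lit 138) (nat_lit 186)) (PT.lf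 (nat_lit 2812) (nat_lit 6) (nat_lit 37) (nat_lit 1) (nat_lit 187) (nat_lit 138) (nat_lit 185))))) (PT.nd (nat_lit 234) (PT.nd (nat_lit 78) (PT.lf (nat_lit 2964) (nat_lit 6) (nat_lit 39) (nat_lit 3) (nat_lit 184) (nat_lit 139) (nat_lit 187)) (PT.nd (nat_lit 78) (PT.lf (nat_lit 3040) (nat_lit 6) (nat_lit 40) (nat_lit 3) (nat_lit 185) (nat_lit 139) (nat_lit 186)) (PT.lf (nat_lit 3040) (nat_lit 6) (nat_lit 40) (nat_lit 1) (nat_lit 186) (nat_lit 139) (nat_lit 185)))) (PT.nd (nat_lit 52962) (PT.nd (nat_lit 52884) (PT.lf (nat_lit 2964) (nat_lit 6) (nat_lit 39) (nat_lit 1) (nat_lit 187) (nat_lit 139) (nat_lit 184)) (PT.lf (nat_lit 3116) (nat_lit 6) (nat_lit 41) (nat_lit 3) (nat_lit 184) (nat_lit 140) (nat_lit 186))) (PT.nd (nat_lit 78) (PT.lf (nat_lit 3192) (nat_lit 3) (nat_lit 42) (nat_lit 1) (nat_lit 185) (nat_lit 140) (nat_lit 185)) (PT.lf (nat_lit 3116) (nat_lit 6) (nat_lit 41) (nat_lit 1) (nat_lit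 186) (nat_lit 140) (nat_lit 184)))))) (PT.nd (nat_lit 53274) (PT.nd (nat_lit 234) (PT.nd (nat_lit 78) (PT.lf (nat_lit 3268) (nat_lit 6) (nat_lit 43) (nat_lit 3) (nat_lit 183) (nat_lit 141) (nat_lit 186)) (PT.nd (nat_lit 78) (PT.lf (nat_lit 3344) (nat_lit 6) (nat_lit 44) (nat_lit 3) (nat_lit 184) (nat_lit 141) (nat_lit 185)) (PT.lf (nat_lit 3344) (nat_lit 6) (nat_lit 44) (nat_lit 1) (nat_lit 185) (nat_lit 141) (nat_lit 184)))) (PT.nd (nat_lit 52884) (PT.nd (nat_lit 52806) (PT.lf (nat_lit 3268) (nat_lit 6) (nat_lit 43) (nat_lit 1) (nat_lit 186) (nat_lit 141) (nat_lit 183)) (PT.lf (nat_lit 3420) (nat_lit 6) (nat_lit 45) (nat_lit 3) (nat_lit 182) (nat_lit 142) (nat_lit 186))) (PT.nd (nat_lit 78) (PT.lf (nat_lit 3496) (nat_lit 6) (nat_lit 46) (nat_lit 3) (nat_lit 183) (nat_lit 142) (nat_lit 185)) (PT.lf (nat_lit 3572) (nat_lit 3) (nat_lit 47) (nat_lit 1) (nat_lit 184) (nat_lit 142) (nat_lit 184)))))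 (PT.nd (nat_lit 52962) (PT.nd (nat_lit 78) (PT.lf (nat_lit 3496) (nat_lit 6) (nat_lit 46) (nat_lit 1) (nat_lit 185) (nat_lit 142) (nat_lit 183)) (PT.nd (nat_lit 52806) (PT.lf (nat_lit 3420) (nat_lit 6) (nat_lit 45) (nat_lit 1) (nat_lit 186) (nat_lit 142) (nat_lit 182)) (PT.lf (nat_lit 3648) (nat_lit 6) (nat_lit 48) (nat_lit 3) (nat_lit 182) (nat_lit 143) (nat_lit 185)))) (PT.nd (nat_lit 156) (PT.nd (nat_lit 78) (PT.lf (nat_lit 3724) (nat_lit 6) (nat_lit 49) (nat_lit 3) (nat_lit 183) (nat_lit 143) (nat_lit 184)) (PT.lf (nat_lit 3724) (nat_lit 6) (nat_lit 49) (nat_lit 1) (nat_lit 184) (nat_lit 143) (nat_lit 183))) (PT.nd (nat_lit 52806) (PT.lf (nat_lit 3648) (nat_lit 6) (nat_lit 48) (nat_lit 1) (nat_lit 185) (nat_lit 143) (nat_lit 182)) (PT.lf (nat_lit 3800) (nat_lit 6) (nat_lit 50) (nat_lit 3) (nat_lit 181) (nat_lit 144) (nat_lit 185))))))) (PT.nd (nat_lit 159198) (PT.nd (nat_lit 53274) (PT.nd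 (nat_lit 234) (PT.nd (nat_lit 78) (PT.lf (nat_lit 3876) (nat_lit 6) (nat_lit 51) (nat_lit 3) (nat_lit 182) (nat_lit 144) (nat_lit 184)) (PT.nd (nat_lit 78) (PT.lf (nat_lit 3952) (nat_lit 3) (nat_lit 52) (nat_lit 1) (nat_lit 183) (nat_lit 144) (nat_lit 183)) (PT.lf (nat_lit 3876) (nat_lit 6) (nat_lit 51) (nat_lit 1) (nat_lit 184) (nat_lit 144) (nat_lit 182)))) (PT.nd (nat_lit 52884) (PT.nd (nat_lit 52806) (PT.lf (nat_lit 3800) (nat_lit 6) (nat_lit 50) (nat_lit 1) (nat_lit 185) (nat_lit 144) (nat_lit 181)) (PT.lf (nat_lit 4028) (nat_lit 6) (nat_lit 53) (nat_lit 3) (nat_lit 181) (nat_lit 145) (nat_lit 184))) (PT.nd (nat_lit 78) (PT.lf (nat_lit 4104) (nat_lit 6) (nat_lit 54) (nat_lit 3) (nat_lit 182) (nat_lit 145) (nat_lit 183)) (PT.lf (nat_lit 4104) (nat_lit 6) (nat_lit 54) (nat_lit 1) (nat_lit 183) (nat_lit 145) (nat_lit 182))))) (PT.nd (nat_lit 52962) (PT.nd (nat_lit 52806) (PT.lf (nat_lit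 4028) (nat_lit 6) (nat_lit 53) (nat_lit 1) (nat_lit 184) (nat_lit 145) (nat_lit 181)) (PT.nd (nat_lit 78) (PT.lf (nat_lit 4180) (nat_lit 6) (nat_lit 55) (nat_lit 3) (nat_lit 180) (nat_lit 146) (nat_lit 184)) (PT.lf (nat_lit 4256) (nat_lit 6) (nat_lit 56) (nat_lit 3) (nat_lit 181) (nat_lit 146) (nat_lit 183)))) (PT.nd (nat_lit 156) (PT.nd (nat_lit 78) (PT.lf (nat_lit 4332) (nat_lit 3) (nat_lit 57) (nat_lit 1) (nat_lit 182) (nat_lit 146) (nat_lit 182)) (PT.lf (nat_lit 4256) (nat_lit 6) (nat_lit 56) (nat_lit 1) (nat_lit 183) (nat_lit 146) (nat_lit 181))) (PT.nd (nat_lit 52728) (PT.lf (nat_lit 4180) (nat_lit 6) (nat_lit 55) (nat_lit 1) (nat_lit 184) (nat_lit 146) (nat_lit 180)) (PT.lf (nat_lit 4408) (nat_lit 6) (nat_lit 58) (nat_lit 3) (nat_lit 179) (nat_lit 147) (nat_lit 184)))))) (PT.nd (nat_lit 53196) (PT.nd (nat_lit 234) (PT.nd (nat_lit 78) (PT.lf (nat_lit 4484) (nat_lit 6) (nat_lit 59)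 (nat_lit 3) (nat_lit 180) (nat_lit 147) (nat_lit 183)) (PT.nd (nat_lit 78) (PT.lf (nat_lit 4560) (nat_lit 6) (nat_lit 60) (nat_lit 3) (nat_lit 181) (nat_lit 147) (nat_lit 182)) (PT.lf (nat_lit 4560) (nat_lit 6) (nat_lit 60) (nat_lit 1) (nat_lit 182) (nat_lit 147) (nat_lit 181)))) (PT.nd (nat_lit 52806) (PT.nd (nat_lit 78) (PT.lf (nat_lit 4484) (nat_lit 6) (nat_lit 59) (nat_lit 1) (nat_lit 183) (nat_lit 147) (nat_lit 180)) (PT.lf (nat_lit 4408) (nat_lit 6) (nat_lit 58) (nat_lit 1) (nat_lit 184) (nat_lit 147) (nat_lit 179))) (PT.nd (nat_lit 78) (PT.lf (nat_lit 4636) (nat_lit 6) (nat_lit 61) (nat_lit 3) (nat_lit 179) (nat_lit 148) (nat_lit 183)) (PT.lf (nat_lit 4712) (nat_lit 6) (nat_lit 62) (nat_lit 3) (nat_lit 180) (nat_lit 148) (nat_lit 182))))) (PT.nd (nat_lit 52962) (PT.nd (nat_lit 156) (PT.nd (nat_lit 78) (PT.lf (nat_lit 4788) (nat_lit 3) (nat_lit 63) (nat_lit 1) (nat_lit 181) (nat_lit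 148) (nat_lit 181)) (PT.lf (nat_lit 4712) (nat_lit 6) (nat_lit 62) (nat_lit 1) (nat_lit 182) (nat_lit 148) (nat_lit 180))) (PT.nd (nat_lit 52728) (PT.lf (nat_lit 4636) (nat_lit 6) (nat_lit 61) (nat_lit 1) (nat_lit 183) (nat_lit 148) (nat_lit 179)) (PT.lf (nat_lit 4864) (nat_lit 6) (nat_lit 64) (nat_lit 3) (nat_lit 178) (nat_lit 149) (nat_lit 183)))) (PT.nd (nat_lit 156) (PT.nd (nat_lit 78) (PT.lf (nat_lit 4940) (nat_lit 6) (nat_lit 65) (nat_lit 3) (nat_lit 179) (nat_lit 149) (nat_lit 182)) (PT.lf (nat_lit 5016) (nat_lit 6) (nat_lit 66) (nat_lit 3) (nat_lit 180) (nat_lit 149) (nat_lit 181))) (PT.nd (nat_lit 78) (PT.lf (nat_lit 5016) (nat_lit 6) (nat_lit 66) (nat_lit 1) (nat_lit 181) (nat_lit 149) (nat_lit 180)) (PT.lf (nat_lit 4940) (nat_lit 6) (nat_lit 65) (nat_lit 1) (nat_lit 182) (nat_lit 149) (nat_lit 179))))))))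
noncomputable def pc2 : PT := (PT.nd (nat_lit 212394) (PT.nd (nat_lit 158808) (PT.nd (nat_lit 53118) (PT.nd (nat_lit 52806) (PT.nd (nat_lit 52650) (PT.lf (nat_lit 4864) (nat_lit 6) (nat_lit 64) (nat_lit 1) (nat_lit 183) (nat_lit 149) (nat_lit 178)) (PT.nd (nat_lit 78) (PT.lf (nat_lit 5092) (nat_lit 6) (nat_lit 67) (nat_lit 3) (nat_lit 177) (nat_lit 150) (nat_lit 183)) (PT.lf (nat_lit 5168) (nat_lit 6) (nat_lit 68) (nat_lit 3) (nat_lit 178) (nat_lit 150) (nat_lit 182)))) (PT.nd (nat_lit 156) (PT.nd (nat_lit 78) (PT.lf (nat_lit 5244) (nat_lit 6) (nat_lit 69) (nat_lit 3) (nat_lit 179) (nat_lit 150) (nat_lit 181)) (PT.lf (nat_lit 5320) (nat_lit 3) (nat_lit 70) (nat_lit 1) (nat_lit 180) (nat_lit 150) (nat_lit 180))) (PT.nd (nat_lit 78) (PT.lf (nat_lit 5244) (nat_lit 6) (nat_lit 69) (nat_lit 1) (nat_lit 181) (nat_lit 150) (nat_lit 179)) (PT.lf (nat_lit 5168) (nat_lit 6) (nat_lit 68) (nat_lit 1)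 (nat_lit 182) (nat_lit 150) (nat_lit 178))))) (PT.nd (nat_lit 52806) (PT.nd (nat_lit 52650) (PT.lf (nat_lit 5092) (nat_lit 6) (nat_lit 67) (nat_lit 1) (nat_lit 183) (nat_lit 150) (nat_lit 177)) (PT.nd (nat_lit 78) (PT.lf (nat_lit 5396) (nat_lit 6) (nat_lit 71) (nat_lit 3) (nat_lit 177) (nat_lit 151) (nat_lit 182)) (PT.lf (nat_lit 5472) (nat_lit 6) (nat_lit 72) (nat_lit 3) (nat_lit 178) (nat_lit 151) (nat_lit 181)))) (PT.nd (nat_lit 156) (PT.nd (nat_lit 78) (PT.lf (nat_lit 5548) (nat_lit 6) (nat_lit 73) (nat_lit 3) (nat_lit 179) (nat_lit 151) (nat_lit 180)) (PT.lf (nat_lit 5548) (nat_lit 6) (nat_lit 73) (nat_lit 1) (nat_lit 180) (nat_lit 151) (nat_lit 179))) (PT.nd (nat_lit 78) (PT.lf (nat_lit 5472) (nat_lit 6) (nat_lit 72) (nat_lit 1) (nat_lit 181) (nat_lit 151) (nat_lit 178)) (PT.lf (nat_lit 5396) (nat_lit 6) (nat_lit 71) (nat_lit 1) (nat_lit 182) (nat_lit 151) (nat_lit 177)))))) (PT.nd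 (nat_lit 53040) (PT.nd (nat_lit 234) (PT.nd (nat_lit 78) (PT.lf (nat_lit 5624) (nat_lit 6) (nat_lit 74) (nat_lit 3) (nat_lit 176) (nat_lit 152) (nat_lit 182)) (PT.nd (nat_lit 78) (PT.lf (nat_lit 5700) (nat_lit 6) (nat_lit 75) (nat_lit 3) (nat_lit 177) (nat_lit 152) (nat_lit 181)) (PT.lf (nat_lit 5776) (nat_lit 6) (nat_lit 76) (nat_lit 3) (nat_lit 178) (nat_lit 152) (nat_lit 180)))) (PT.nd (nat_lit 156) (PT.nd (nat_lit 78) (PT.lf (nat_lit 5852) (nat_lit 3) (nat_lit 77) (nat_lit 1) (nat_lit 179) (nat_lit 152) (nat_lit 179)) (PT.lf (nat_lit 5776) (nat_lit 6) (nat_lit 76) (nat_lit 1) (nat_lit 180) (nat_lit 152) (nat_lit 178))) (PT.nd (nat_lit 78) (PT.lf (nat_lit 5700) (nat_lit 6) (nat_lit 75) (nat_lit 1) (nat_lit 181) (nat_lit 152) (nat_lit 177)) (PT.lf (nat_lit 5624) (nat_lit 6) (nat_lit 74) (nat_lit 1) (nat_lit 182) (nat_lit 152) (nat_lit 176))))) (PT.nd (nat_lit 234) (PT.nd (nat_lit 78) (PT.lf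 (nat_lit 5928) (nat_lit 6) (nat_lit 78) (nat_lit 3) (nat_lit 175) (nat_lit 153) (nat_lit 182)) (PT.nd (nat_lit 78) (PT.lf (nat_lit 6004) (nat_lit 6) (nat_lit 79) (nat_lit 3) (nat_lit 176) (nat_lit 153) (nat_lit 181)) (PT.lf (nat_lit 6080) (nat_lit 6) (nat_lit 80) (nat_lit 3) (nat_lit 177) (nat_lit 153) (nat_lit 180)))) (PT.nd (nat_lit 156) (PT.nd (nat_lit 78) (PT.lf (nat_lit 6156) (nat_lit 6) (nat_lit 81) (nat_lit 3) (nat_lit 178) (nat_lit 153) (nat_lit 179)) (PT.lf (nat_lit 6156) (nat_lit 6) (nat_lit 81) (nat_lit 1) (nat_lit 179) (nat_lit 153) (nat_lit 178))) (PT.nd (nat_lit 78) (PT.lf (nat_lit 6080) (nat_lit 6) (nat_lit 80) (nat_lit 1) (nat_lit 180) (nat_lit 153) (nat_lit 177)) (PT.lf (nat_lit 6004) (nat_lit 6) (nat_lit 79) (nat_lit 1) (nat_lit 181) (nat_lit 153) (nat_lit 176))))))) (PT.nd (nat_lit 106080) (PT.nd (nat_lit 53040) (PT.nd (nat_lit 52728) (PT.nd (nat_lit 52572) (PT.lf (nat_lit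 5928) (nat_lit 6) (nat_lit 78) (nat_lit 1) (nat_lit 182) (nat_lit 153) (nat_lit 175)) (PT.nd (nat_lit 78) (PT.lf (nat_lit 6232) (nat_lit 6) (nat_lit 82) (nat_lit 3) (nat_lit 175) (nat_lit 154) (nat_lit 181)) (PT.lf (nat_lit 6308) (nat_lit 6) (nat_lit 83) (nat_lit 3) (nat_lit 176) (nat_lit 154) (nat_lit 180)))) (PT.nd (nat_lit 156) (PT.nd (nat_lit 78) (PT.lf (nat_lit 6384) (nat_lit 6) (nat_lit 84) (nat_lit 3) (nat_lit 177) (nat_lit 154) (nat_lit 179)) (PT.lf (nat_lit 6460) (nat_lit 3) (nat_lit 85) (nat_lit 1) (nat_lit 178) (nat_lit 154) (nat_lit 178))) (PT.nd (nat_lit 78) (PT.lf (nat_lit 6384) (nat_lit 6) (nat_lit 84) (nat_lit 1) (nat_lit 179) (nat_lit 154) (nat_lit 177)) (PT.lf (nat_lit 6308) (nat_lit 6) (nat_lit 83) (nat_lit 1) (nat_lit 180) (nat_lit 154) (nat_lit 176))))) (PT.nd (nat_lit 52728) (PT.nd (nat_lit 52572) (PT.lf (nat_lit 6232) (nat_lit 6) (nat_lit 82) (nat_lit 1) (nat_lit 181)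 (nat_lit 154) (nat_lit 175)) (PT.nd (nat_lit 78) (PT.lf (nat_lit 6536) (nat_lit 6) (nat_lit 86) (nat_lit 3) (nat_lit 174) (nat_lit 155) (nat_lit 181)) (PT.lf (nat_lit 6612) (nat_lit 6) (nat_lit 87) (nat_lit 3) (nat_lit 175) (nat_lit 155) (nat_lit 180)))) (PT.nd (nat_lit 156) (PT.nd (nat_lit 78) (PT.lf (nat_lit 6688) (nat_lit 6) (nat_lit 88) (nat_lit 3) (nat_lit 176) (nat_lit 155) (nat_lit 179)) (PT.lf (nat_lit 6764) (nat_lit 6) (nat_lit 89) (nat_lit 3) (nat_lit 177) (nat_lit 155) (nat_lit 178))) (PT.nd (nat_lit 78) (PT.lf (nat_lit 6764) (nat_lit 6) (nat_lit 89) (nat_lit 1) (nat_lit 178) (nat_lit 155) (nat_lit 177)) (PT.lf (nat_lit 6688) (nat_lit 6) (nat_lit 88) (nat_lit 1) (nat_lit 179) (nat_lit 155) (nat_lit 176)))))) (PT.nd (nat_lit 52962) (PT.nd (nat_lit 52650) (PT.nd (nat_lit 78) (PT.lf (nat_lit 6612) (nat_lit 6) (nat_lit 87) (nat_lit 1) (nat_lit 180) (nat_lit 155) (nat_lit 175)) (PT.nd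 (nat_lit 52494) (PT.lf (nat_lit 6536) (nat_lit 6) (nat_lit 86) (nat_lit 1) (nat_lit 181) (nat_lit 155) (nat_lit 174)) (PT.lf (nat_lit 6840) (nat_lit 6) (nat_lit 90) (nat_lit 3) (nat_lit 173) (nat_lit 156) (nat_lit 181)))) (PT.nd (nat_lit 156) (PT.nd (nat_lit 78) (PT.lf (nat_lit 6916) (nat_lit 6) (nat_lit 91) (nat_lit 3) (nat_lit 174) (nat_lit 156) (nat_lit 180)) (PT.lf (nat_lit 6992) (nat_lit 6) (nat_lit 92) (nat_lit 3) (nat_lit 175) (nat_lit 156) (nat_lit 179))) (PT.nd (nat_lit 78) (PT.lf (nat_lit 7068) (nat_lit 6) (nat_lit 93) (nat_lit 3) (nat_lit 176) (nat_lit 156) (nat_lit 178)) (PT.lf (nat_lit 7144) (nat_lit 3) (nat_lit 94) (nat_lit 1) (nat_lit 177) (nat_lit 156) (nat_lit 177))))) (PT.nd (nat_lit 52650) (PT.nd (nat_lit 156) (PT.nd (nat_lit 78) (PT.lf (nat_lit 7068) (nat_lit 6) (nat_lit 93) (nat_lit 1) (nat_lit 178) (nat_lit 156) (nat_lit 176)) (PT.lf (nat_lit 6992) (nat_lit 6) (nat_lit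 92) (nat_lit 1) (nat_lit 179) (nat_lit 156) (nat_lit 175))) (PT.nd (nat_lit 78) (PT.lf (nat_lit 6916) (nat_lit 6) (nat_lit 91) (nat_lit 1) (nat_lit 180) (nat_lit 156) (nat_lit 174)) (PT.lf (nat_lit 6840) (nat_lit 6) (nat_lit 90) (nat_lit 1) (nat_lit 181) (nat_lit 156) (nat_lit 173)))) (PT.nd (nat_lit 156) (PT.nd (nat_lit 78) (PT.lf (nat_lit 7220) (nat_lit 6) (nat_lit 95) (nat_lit 3) (nat_lit 172) (nat_lit 157) (nat_lit 181)) (PT.lf (nat_lit 7296) (nat_lit 6) (nat_lit 96) (nat_lit 3) (nat_lit 173) (nat_lit 157) (nat_lit 180))) (PT.nd (nat_lit 78) (PT.lf (nat_lit 7372) (nat_lit 6) (nat_lit 97) (nat_lit 3) (nat_lit 174) (nat_lit 157) (nat_lit 179)) (PT.lf (nat_lit 7448) (nat_lit 6) (nat_lit 98) (nat_lit 3) (nat_lit 175) (nat_lit 157) (nat_lit 178))))))))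
noncomputable def pc3 : PT := (PT.nd (nat_lit 159198) (PT.nd (nat_lit 53430) (PT.nd (nat_lit 52884) (PT.nd (nat_lit 234) (PT.nd (nat_lit 78) (PT.lf (nat_lit 7524) (nat_lit 6) (nat_lit 99) (nat_lit 3) (nat_lit 176) (nat_lit 157) (nat_lit 177)) (PT.nd (nat_lit 78) (PT.lf (nat_lit 7524) (nat_lit 6) (nat_lit 99) (nat_lit 1) (nat_lit 177) (nat_lit 157) (nat_lit 176)) (PT.lf (nat_lit 7448) (nat_lit 6) (nat_lit 98) (nat_lit 1) (nat_lit 178) (nat_lit 157) (nat_lit 175)))) (PT.nd (nat_lit 156) (PT.nd (nat_lit 78) (PT.lf (nat_lit 7372) (nat_lit 6) (nat_lit 97) (nat_lit 1) (nat_lit 179) (nat_lit 157) (nat_lit 174)) (PT.lf (nat_lit 7296) (nat_lit 6) (nat_lit 96) (nat_lit 1) (nat_lit 180) (nat_lit 157) (nat_lit 173))) (PT.nd (nat_lit 52416) (PT.lf (nat_lit 7220) (nat_lit 6) (nat_lit 95) (nat_lit 1) (nat_lit 181) (nat_lit 157) (nat_lit 172)) (PT.lf (nat_lit 7600) (nat_lit 6) (nat_lit 100) (nat_lit 3)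 (nat_lit 172) (nat_lit 158) (nat_lit 180))))) (PT.nd (nat_lit 234) (PT.nd (nat_lit 78) (PT.lf (nat_lit 7676) (nat_lit 6) (nat_lit 101) (nat_lit 3) (nat_lit 173) (nat_lit 158) (nat_lit 179)) (PT.nd (nat_lit 78) (PT.lf (nat_lit 7752) (nat_lit 6) (nat_lit 102) (nat_lit 3) (nat_lit 174) (nat_lit 158) (nat_lit 178)) (PT.lf (nat_lit 7828) (nat_lit 6) (nat_lit 103) (nat_lit 3) (nat_lit 175) (nat_lit 158) (nat_lit 177)))) (PT.nd (nat_lit 156) (PT.nd (nat_lit 78) (PT.lf (nat_lit 7904) (nat_lit 3) (nat_lit 104) (nat_lit 1) (nat_lit 176) (nat_lit 158) (nat_lit 176)) (PT.lf (nat_lit 7828) (nat_lit 6) (nat_lit 103) (nat_lit 1) (nat_lit 177) (nat_lit 158) (nat_lit 175))) (PT.nd (nat_lit 78) (PT.lf (nat_lit 7752) (nat_lit 6) (nat_lit 102) (nat_lit 1) (nat_lit 178) (nat_lit 158) (nat_lit 174)) (PT.lf (nat_lit 7676) (nat_lit 6) (nat_lit 101) (nat_lit 1) (nat_lit 179) (nat_lit 158) (nat_lit 173)))))) (PT.nd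 (nat_lit 52884) (PT.nd (nat_lit 52572) (PT.nd (nat_lit 52416) (PT.lf (nat_lit 7600) (nat_lit 6) (nat_lit 100) (nat_lit 1) (nat_lit 180) (nat_lit 158) (nat_lit 172)) (PT.nd (nat_lit 78) (PT.lf (nat_lit 7980) (nat_lit 6) (nat_lit 105) (nat_lit 3) (nat_lit 171) (nat_lit 159) (nat_lit 180)) (PT.lf (nat_lit 8056) (nat_lit 6) (nat_lit 106) (nat_lit 3) (nat_lit 172) (nat_lit 159) (nat_lit 179)))) (PT.nd (nat_lit 156) (PT.nd (nat_lit 78) (PT.lf (nat_lit 8132) (nat_lit 6) (nat_lit 107) (nat_lit 3) (nat_lit 173) (nat_lit 159) (nat_lit 178)) (PT.lf (nat_lit 8208) (nat_lit 6) (nat_lit 108) (nat_lit 3) (nat_lit 174) (nat_lit 159) (nat_lit 177))) (PT.nd (nat_lit 78) (PT.lf (nat_lit 8284) (nat_lit 6) (nat_lit 109) (nat_lit 3) (nat_lit 175) (nat_lit 159) (nat_lit 176)) (PT.lf (nat_lit 8284) (nat_lit 6) (nat_lit 109) (nat_lit 1) (nat_lit 176) (nat_lit 159) (nat_lit 175))))) (PT.nd (nat_lit 52572) (PT.nd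 (nat_lit 156) (PT.nd (nat_lit 78) (PT.lf (nat_lit 8208) (nat_lit 6) (nat_lit 108) (nat_lit 1) (nat_lit 177) (nat_lit 159) (nat_lit 174)) (PT.lf (nat_lit 8132) (nat_lit 6) (nat_lit 107) (nat_lit 1) (nat_lit 178) (nat_lit 159) (nat_lit 173))) (PT.nd (nat_lit 78) (PT.lf (nat_lit 8056) (nat_lit 6) (nat_lit 106) (nat_lit 1) (nat_lit 179) (nat_lit 159) (nat_lit 172)) (PT.lf (nat_lit 7980) (nat_lit 6) (nat_lit 105) (nat_lit 1) (nat_lit 180) (nat_lit 159) (nat_lit 171)))) (PT.nd (nat_lit 156) (PT.nd (nat_lit 78) (PT.lf (nat_lit 8740) (nat_lit 6) (nat_lit 115) (nat_lit 3) (nat_lit 170) (nat_lit 160) (nat_lit 180)) (PT.lf (nat_lit 8816) (nat_lit 6) (nat_lit 116) (nat_lit 3) (nat_lit 171) (nat_lit 160) (nat_lit 179))) (PT.nd (nat_lit 78) (PT.lf (nat_lit 8892) (nat_lit 6) (nat_lit 117) (nat_lit 3) (nat_lit 172) (nat_lit 160) (nat_lit 178)) (PT.lf (nat_lit 8968) (nat_lit 6) (nat_lit 118) (nat_lit 3)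 (nat_lit 173) (nat_lit 160) (nat_lit 177))))))) (PT.nd (nat_lit 53274) (PT.nd (nat_lit 52728) (PT.nd (nat_lit 234) (PT.nd (nat_lit 78) (PT.lf (nat_lit 9044) (nat_lit 6) (nat_lit 119) (nat_lit 3) (nat_lit 174) (nat_lit 160) (nat_lit 176)) (PT.nd (nat_lit 78) (PT.lf (nat_lit 9120) (nat_lit 3) (nat_lit 120) (nat_lit 1) (nat_lit 175) (nat_lit 160) (nat_lit 175)) (PT.lf (nat_lit 9044) (nat_lit 6) (nat_lit 119) (nat_lit 1) (nat_lit 176) (nat_lit 160) (nat_lit 174)))) (PT.nd (nat_lit 156) (PT.nd (nat_lit 78) (PT.lf (nat_lit 8968) (nat_lit 6) (nat_lit 118) (nat_lit 1) (nat_lit 177) (nat_lit 160) (nat_lit 173)) (PT.lf (nat_lit 8892) (nat_lit 6) (nat_lit 117) (nat_lit 1) (nat_lit 178) (nat_lit 160) (nat_lit 172))) (PT.nd (nat_lit 78) (PT.lf (nat_lit 8816) (nat_lit 6) (nat_lit 116) (nat_lit 1) (nat_lit 179) (nat_lit 160) (nat_lit 171)) (PT.lf (nat_lit 8740) (nat_lit 6) (nat_lit 115) (nat_lit 1) (nat_lit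 180) (nat_lit 160) (nat_lit 170))))) (PT.nd (nat_lit 234) (PT.nd (nat_lit 78) (PT.lf (nat_lit 8664) (nat_lit 6) (nat_lit 114) (nat_lit 3) (nat_lit 169) (nat_lit 161) (nat_lit 180)) (PT.nd (nat_lit 78) (PT.lf (nat_lit 9500) (nat_lit 6) (nat_lit 125) (nat_lit 3) (nat_lit 170) (nat_lit 161) (nat_lit 179)) (PT.lf (nat_lit 9576) (nat_lit 6) (nat_lit 126) (nat_lit 3) (nat_lit 171) (nat_lit 161) (nat_lit 178)))) (PT.nd (nat_lit 156) (PT.nd (nat_lit 78) (PT.lf (nat_lit 9652) (nat_lit 6) (nat_lit 127) (nat_lit 3) (nat_lit 172) (nat_lit 161) (nat_lit 177)) (PT.lf (nat_lit 9728) (nat_lit 6) (nat_lit 128) (nat_lit 3) (nat_lit 173) (nat_lit 161) (nat_lit 176))) (PT.nd (nat_lit 78) (PT.lf (nat_lit 9804) (nat_lit 6) (nat_lit 129) (nat_lit 3) (nat_lit 174) (nat_lit 161) (nat_lit 175)) (PT.lf (nat_lit 9804) (nat_lit 6) (nat_lit 129) (nat_lit 1) (nat_lit 175) (nat_lit 161) (nat_lit 174)))))) (PT.nd (nat_lit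 52650) (PT.nd (nat_lit 234) (PT.nd (nat_lit 78) (PT.lf (nat_lit 9728) (nat_lit 6) (nat_lit 128) (nat_lit 1) (nat_lit 176) (nat_lit 161) (nat_lit 173)) (PT.nd (nat_lit 78) (PT.lf (nat_lit 9652) (nat_lit 6) (nat_lit 127) (nat_lit 1) (nat_lit 177) (nat_lit 161) (nat_lit 172)) (PT.lf (nat_lit 9576) (nat_lit 6) (nat_lit 126) (nat_lit 1) (nat_lit 178) (nat_lit 161) (nat_lit 171)))) (PT.nd (nat_lit 52260) (PT.nd (nat_lit 78) (PT.lf (nat_lit 9500) (nat_lit 6) (nat_lit 125) (nat_lit 1) (nat_lit 179) (nat_lit 161) (nat_lit 170)) (PT.lf (nat_lit 8664) (nat_lit 6) (nat_lit 114) (nat_lit 1) (nat_lit 180) (nat_lit 161) (nat_lit 169))) (PT.nd (nat_lit 78) (PT.lf (nat_lit 8588) (nat_lit 6) (nat_lit 113) (nat_lit 3) (nat_lit 168) (nat_lit 162) (nat_lit 180)) (PT.lf (nat_lit 9424) (nat_lit 6) (nat_lit 124) (nat_lit 3) (nat_lit 169) (nat_lit 162) (nat_lit 179))))) (PT.nd (nat_lit 312) (PT.nd (nat_lit 156)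 (PT.nd (nat_lit 78) (PT.lf (nat_lit 10184) (nat_lit 6) (nat_lit 134) (nat_lit 3) (nat_lit 170) (nat_lit 162) (nat_lit 178)) (PT.lf (nat_lit 10260) (nat_lit 6) (nat_lit 135) (nat_lit 3) (nat_lit 171) (nat_lit 162) (nat_lit 177))) (PT.nd (nat_lit 78) (PT.lf (nat_lit 10336) (nat_lit 6) (nat_lit 136) (nat_lit 3) (nat_lit 172) (nat_lit 162) (nat_lit 176)) (PT.lf (nat_lit 10412) (nat_lit 6) (nat_lit 137) (nat_lit 3) (nat_lit 173) (nat_lit 162) (nat_lit 175)))) (PT.nd (nat_lit 156) (PT.nd (nat_lit 78) (PT.lf (nat_lit 10488) (nat_lit 3) (nat_lit 138) (nat_lit 1) (nat_lit 174) (nat_lit 162) (nat_lit 174)) (PT.lf (nat_lit 10412) (nat_lit 6) (nat_lit 137) (nat_lit 1) (nat_lit 175) (nat_lit 162) (nat_lit 173))) (PT.nd (nat_lit 78) (PT.lf (nat_lit 10336) (nat_lit 6) (nat_lit 136) (nat_lit 1) (nat_lit 176) (nat_lit 162) (nat_lit 172)) (PT.lf (nat_lit 10260) (nat_lit 6) (nat_lit 135) (nat_lit 1) (nat_lit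 177) (nat_lit 162) (nat_lit 171))))))))
noncomputable def pc4 : PT := (PT.nd (nat_lit 106158) (PT.nd (nat_lit 53118) (PT.nd (nat_lit 52572) (PT.nd (nat_lit 52260) (PT.nd (nat_lit 78) (PT.lf (nat_lit 10184) (nat_lit 6) (nat_lit 134) (nat_lit 1) (nat_lit 178) (nat_lit 162) (nat_lit 170)) (PT.nd (nat_lit 78) (PT.lf (nat_lit 9424) (nat_lit 6) (nat_lit 124) (nat_lit 1) (nat_lit 179) (nat_lit 162) (nat_lit 169)) (PT.lf (nat_lit 8588) (nat_lit 6) (nat_lit 113) (nat_lit 1) (nat_lit 180) (nat_lit 162) (nat_lit 168)))) (PT.nd (nat_lit 156) (PT.nd (nat_lit 78) (PT.lf (nat_lit 8512) (nat_lit 6) (nat_lit 112) (nat_lit 3) (nat_lit 167) (nat_lit 163) (nat_lit 180)) (PT.lf (nat_lit 9348) (nat_lit 6) (nat_lit 123) (nat_lit 3) (nat_lit 168) (nat_lit 163) (nat_lit 179))) (PT.nd (nat_lit 78) (PT.lf (nat_lit 10108) (nat_lit 6) (nat_lit 133) (nat_lit 3) (nat_lit 169) (nat_lit 163) (nat_lit 178)) (PT.lf (nat_lit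 10792) (nat_lit 6) (nat_lit 142) (nat_lit 3) (nat_lit 170) (nat_lit 163) (nat_lit 177))))) (PT.nd (nat_lit 234) (PT.nd (nat_lit 78) (PT.lf (nat_lit 10868) (nat_lit 6) (nat_lit 143) (nat_lit 3) (nat_lit 171) (nat_lit 163) (nat_lit 176)) (PT.nd (nat_lit 78) (PT.lf (nat_lit 10944) (nat_lit 6) (nat_lit 144) (nat_lit 3) (nat_lit 172) (nat_lit 163) (nat_lit 175)) (PT.lf (nat_lit 11020) (nat_lit 6) (nat_lit 145) (nat_lit 3) (nat_lit 173) (nat_lit 163) (nat_lit 174)))) (PT.nd (nat_lit 156) (PT.nd (nat_lit 78) (PT.lf (nat_lit 11020) (nat_lit 6) (nat_lit 145) (nat_lit 1) (nat_lit 174) (nat_lit 163) (nat_lit 173)) (PT.lf (nat_lit 10944) (nat_lit 6) (nat_lit 144) (nat_lit 1) (nat_lit 175) (nat_lit 163) (nat_lit 172))) (PT.nd (nat_lit 78) (PT.lf (nat_lit 10868) (nat_lit 6) (nat_lit 143) (nat_lit 1) (nat_lit 176) (nat_lit 163) (nat_lit 171)) (PT.lf (nat_lit 10792) (nat_lit 6) (nat_lit 142) (nat_lit 1)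 (nat_lit 177) (nat_lit 163) (nat_lit 170)))))) (PT.nd (nat_lit 52494) (PT.nd (nat_lit 52182) (PT.nd (nat_lit 78) (PT.lf (nat_lit 10108) (nat_lit 6) (nat_lit 133) (nat_lit 1) (nat_lit 178) (nat_lit 163) (nat_lit 169)) (PT.nd (nat_lit 78) (PT.lf (nat_lit 9348) (nat_lit 6) (nat_lit 123) (nat_lit 1) (nat_lit 179) (nat_lit 163) (nat_lit 168)) (PT.lf (nat_lit 8512) (nat_lit 6) (nat_lit 112) (nat_lit 1) (nat_lit 180) (nat_lit 163) (nat_lit 167)))) (PT.nd (nat_lit 156) (PT.nd (nat_lit 78) (PT.lf (nat_lit 8436) (nat_lit 6) (nat_lit 111) (nat_lit 3) (nat_lit 166) (nat_lit 164) (nat_lit 180)) (PT.lf (nat_lit 9272) (nat_lit 6) (nat_lit 122) (nat_lit 3) (nat_lit 167) (nat_lit 164) (nat_lit 179))) (PT.nd (nat_lit 78) (PT.lf (nat_lit 10032) (nat_lit 6) (nat_lit 132) (nat_lit 3) (nat_lit 168) (nat_lit 164) (nat_lit 178)) (PT.lf (nat_lit 10716) (nat_lit 6) (nat_lit 141) (nat_lit 3) (nat_lit 169) (nat_lit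 164) (nat_lit 177))))) (PT.nd (nat_lit 234) (PT.nd (nat_lit 78) (PT.lf (nat_lit 11324) (nat_lit 6) (nat_lit 149) (nat_lit 3) (nat_lit 170) (nat_lit 164) (nat_lit 176)) (PT.nd (nat_lit 78) (PT.lf (nat_lit 11400) (nat_lit 6) (nat_lit 150) (nat_lit 3) (nat_lit 171) (nat_lit 164) (nat_lit 175)) (PT.lf (nat_lit 11476) (nat_lit 6) (nat_lit 151) (nat_lit 3) (nat_lit 172) (nat_lit 164) (nat_lit 174)))) (PT.nd (nat_lit 156) (PT.nd (nat_lit 78) (PT.lf (nat_lit 11552) (nat_lit 3) (nat_lit 152) (nat_lit 1) (nat_lit 173) (nat_lit 164) (nat_lit 173)) (PT.lf (nat_lit 11476) (nat_lit 6) (nat_lit 151) (nat_lit 1) (nat_lit 174) (nat_lit 164) (nat_lit 172))) (PT.nd (nat_lit 78) (PT.lf (nat_lit 11400) (nat_lit 6) (nat_lit 150) (nat_lit 1) (nat_lit 175) (nat_lit 164) (nat_lit 171)) (PT.lf (nat_lit 11324) (nat_lit 6) (nat_lit 149) (nat_lit 1) (nat_lit 176) (nat_lit 164) (nat_lit 170))))))) (PT.nd (nat_lit 52962)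 (PT.nd (nat_lit 52416) (PT.nd (nat_lit 234) (PT.nd (nat_lit 78) (PT.lf (nat_lit 10716) (nat_lit 6) (nat_lit 141) (nat_lit 1) (nat_lit 177) (nat_lit 164) (nat_lit 169)) (PT.nd (nat_lit 78) (PT.lf (nat_lit 10032) (nat_lit 6) (nat_lit 132) (nat_lit 1) (nat_lit 178) (nat_lit 164) (nat_lit 168)) (PT.lf (nat_lit 9272) (nat_lit 6) (nat_lit 122) (nat_lit 1) (nat_lit 179) (nat_lit 164) (nat_lit 167)))) (PT.nd (nat_lit 52026) (PT.nd (nat_lit 51948) (PT.lf (nat_lit 8436) (nat_lit 6) (nat_lit 111) (nat_lit 1) (nat_lit 180) (nat_lit 164) (nat_lit 166)) (PT.lf (nat_lit 8360) (nat_lit 3) (nat_lit 110) (nat_lit 3) (nat_lit 165) (nat_lit 165) (nat_lit 180))) (PT.nd (nat_lit 78) (PT.lf (nat_lit 9196) (nat_lit 6) (nat_lit 121) (nat_lit 3) (nat_lit 166) (nat_lit 165) (nat_lit 179)) (PT.lf (nat_lit 9956) (nat_lit 6) (nat_lit 131) (nat_lit 3) (nat_lit 167) (nat_lit 165) (nat_lit 178))))) (PT.nd (nat_lit 234)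 (PT.nd (nat_lit 78) (PT.lf (nat_lit 10640) (nat_lit 6) (nat_lit 140) (nat_lit 3) (nat_lit 168) (nat_lit 165) (nat_lit 177)) (PT.nd (nat_lit 78) (PT.lf (nat_lit 11248) (nat_lit 6) (nat_lit 148) (nat_lit 3) (nat_lit 169) (nat_lit 165) (nat_lit 176)) (PT.lf (nat_lit 11780) (nat_lit 6) (nat_lit 155) (nat_lit 3) (nat_lit 170) (nat_lit 165) (nat_lit 175)))) (PT.nd (nat_lit 156) (PT.nd (nat_lit 78) (PT.lf (nat_lit 11856) (nat_lit 6) (nat_lit 156) (nat_lit 3) (nat_lit 171) (nat_lit 165) (nat_lit 174)) (PT.lf (nat_lit 11932) (nat_lit 6) (nat_lit 157) (nat_lit 3) (nat_lit 172) (nat_lit 165) (nat_lit 173))) (PT.nd (nat_lit 78) (PT.lf (nat_lit 11932) (nat_lit 6) (nat_lit 157) (nat_lit 1) (nat_lit 173) (nat_lit 165) (nat_lit 172)) (PT.lf (nat_lit 11856) (nat_lit 6) (nat_lit 156) (nat_lit 1) (nat_lit 174) (nat_lit 165) (nat_lit 171)))))) (PT.nd (nat_lit 52338) (PT.nd (nat_lit 234) (PT.nd (nat_lit 78)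 (PT.lf (nat_lit 11780) (nat_lit 6) (nat_lit 155) (nat_lit 1) (nat_lit 175) (nat_lit 165) (nat_lit 170)) (PT.nd (nat_lit 78) (PT.lf (nat_lit 11248) (nat_lit 6) (nat_lit 148) (nat_lit 1) (nat_lit 176) (nat_lit 165) (nat_lit 169)) (PT.lf (nat_lit 10640) (nat_lit 6) (nat_lit 140) (nat_lit 1) (nat_lit 177) (nat_lit 165) (nat_lit 168)))) (PT.nd (nat_lit 156) (PT.nd (nat_lit 78) (PT.lf (nat_lit 9956) (nat_lit 6) (nat_lit 131) (nat_lit 1) (nat_lit 178) (nat_lit 165) (nat_lit 167)) (PT.lf (nat_lit 9196) (nat_lit 6) (nat_lit 121) (nat_lit 1) (nat_lit 179) (nat_lit 165) (nat_lit 166))) (PT.nd (nat_lit 51870) (PT.lf (nat_lit 8360) (nat_lit 3) (nat_lit 110) (nat_lit 0) (nat_lit 180) (nat_lit 165) (nat_lit 165)) (PT.lf (nat_lit 8436) (nat_lit 6) (nat_lit 111) (nat_lit 5) (nat_lit 164) (nat_lit 166) (nat_lit 180))))) (PT.nd (nat_lit 312) (PT.nd (nat_lit 156) (PT.nd (nat_lit 78) (PT.lf (nat_lit 9196) (nat_lit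 6) (nat_lit 121) (nat_lit 5) (nat_lit 165) (nat_lit 166) (nat_lit 179)) (PT.lf (nat_lit 9880) (nat_lit 3) (nat_lit 130) (nat_lit 3) (nat_lit 166) (nat_lit 166) (nat_lit 178))) (PT.nd (nat_lit 78) (PT.lf (nat_lit 10564) (nat_lit 6) (nat_lit 139) (nat_lit 3) (nat_lit 167) (nat_lit 166) (nat_lit 177)) (PT.lf (nat_lit 11172) (nat_lit 6) (nat_lit 147) (nat_lit 3) (nat_lit 168) (nat_lit 166) (nat_lit 176)))) (PT.nd (nat_lit 156) (PT.nd (nat_lit 78) (PT.lf (nat_lit 11704) (nat_lit 6) (nat_lit 154) (nat_lit 3) (nat_lit 169) (nat_lit 166) (nat_lit 175)) (PT.lf (nat_lit 12160) (nat_lit 6) (nat_lit 160) (nat_lit 3) (nat_lit 170) (nat_lit 166) (nat_lit 174))) (PT.nd (nat_lit 78) (PT.lf (nat_lit 12236) (nat_lit 6) (nat_lit 161) (nat_lit 3) (nat_lit 171) (nat_lit 166) (nat_lit 173)) (PT.lf (nat_lit 12312) (nat_lit 3) (nat_lit 162) (nat_lit 1) (nat_lit 172) (nat_lit 166) (nat_lit 172))))))))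
noncomputable def pc5 : PT := (PT.nd (nat_lit 105612) (PT.nd (nat_lit 52806) (PT.nd (nat_lit 546) (PT.nd (nat_lit 234) (PT.nd (nat_lit 78) (PT.lf (nat_lit 12236) (nat_lit 6) (nat_lit 161) (nat_lit 1) (nat_lit 173) (nat_lit 166) (nat_lit 171)) (PT.nd (nat_lit 78) (PT.lf (nat_lit 12160) (nat_lit 6) (nat_lit 160) (nat_lit 1) (nat_lit 174) (nat_lit 166) (nat_lit 170)) (PT.lf (nat_lit 11704) (nat_lit 6) (nat_lit 154) (nat_lit 1) (nat_lit 175) (nat_lit 166) (nat_lit 169)))) (PT.nd (nat_lit 156) (PT.nd (nat_lit 78) (PT.lf (nat_lit 11172) (nat_lit 6) (nat_lit 147) (nat_lit 1) (nat_lit 176) (nat_lit 166) (nat_lit 168)) (PT.lf (nat_lit 10564) (nat_lit 6) (nat_lit 139) (nat_lit 1) (nat_lit 177) (nat_lit 166) (nat_lit 167))) (PT.nd (nat_lit 78) (PT.lf (nat_lit 9880) (nat_lit 3) (nat_lit 130) (nat_lit 0) (nat_lit 178) (nat_lit 166) (nat_lit 166)) (PT.lf (nat_lit 9196) (nat_lit 6) (nat_lit 121) (nat_lit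 0) (nat_lit 179) (nat_lit 166) (nat_lit 165))))) (PT.nd (nat_lit 51948) (PT.nd (nat_lit 51792) (PT.lf (nat_lit 8436) (nat_lit 6) (nat_lit 111) (nat_lit 0) (nat_lit 180) (nat_lit 166) (nat_lit 164)) (PT.nd (nat_lit 78) (PT.lf (nat_lit 8512) (nat_lit 6) (nat_lit 112) (nat_lit 5) (nat_lit 163) (nat_lit 167) (nat_lit 180)) (PT.lf (nat_lit 9272) (nat_lit 6) (nat_lit 122) (nat_lit 5) (nat_lit 164) (nat_lit 167) (nat_lit 179)))) (PT.nd (nat_lit 156) (PT.nd (nat_lit 78) (PT.lf (nat_lit 9956) (nat_lit 6) (nat_lit 131) (nat_lit 5) (nat_lit 165) (nat_lit 167) (nat_lit 178)) (PT.lf (nat_lit 10564) (nat_lit 6) (nat_lit 139) (nat_lit 5) (nat_lit 166) (nat_lit 167) (nat_lit 177))) (PT.nd (nat_lit 78) (PT.lf (nat_lit 11096) (nat_lit 3) (nat_lit 146) (nat_lit 3) (nat_lit 167) (nat_lit 167) (nat_lit 176)) (PT.lf (nat_lit 11628) (nat_lit 6) (nat_lit 153) (nat_lit 3) (nat_lit 168) (nat_lit 167) (nat_lit 175))))))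 (PT.nd (nat_lit 546) (PT.nd (nat_lit 234) (PT.nd (nat_lit 78) (PT.lf (nat_lit 12084) (nat_lit 6) (nat_lit 159) (nat_lit 3) (nat_lit 169) (nat_lit 167) (nat_lit 174)) (PT.nd (nat_lit 78) (PT.lf (nat_lit 12464) (nat_lit 6) (nat_lit 164) (nat_lit 3) (nat_lit 170) (nat_lit 167) (nat_lit 173)) (PT.lf (nat_lit 12540) (nat_lit 6) (nat_lit 165) (nat_lit 3) (nat_lit 171) (nat_lit 167) (nat_lit 172)))) (PT.nd (nat_lit 156) (PT.nd (nat_lit 78) (PT.lf (nat_lit 12540) (nat_lit 6) (nat_lit 165) (nat_lit 1) (nat_lit 172) (nat_lit 167) (nat_lit 171)) (PT.lf (nat_lit 12464) (nat_lit 6) (nat_lit 164) (nat_lit 1) (nat_lit 173) (nat_lit 167) (nat_lit 170))) (PT.nd (nat_lit 78) (PT.lf (nat_lit 12084) (nat_lit 6) (nat_lit 159) (nat_lit 1) (nat_lit 174) (nat_lit 167) (nat_lit 169)) (PT.lf (nat_lit 11628) (nat_lit 6) (nat_lit 153) (nat_lit 1) (nat_lit 175) (nat_lit 167) (nat_lit 168))))) (PT.nd (nat_lit 312) (PT.nd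 (nat_lit 156) (PT.nd (nat_lit 78) (PT.lf (nat_lit 11096) (nat_lit 3) (nat_lit 146) (nat_lit 0) (nat_lit 176) (nat_lit 167) (nat_lit 167)) (PT.lf (nat_lit 10564) (nat_lit 6) (nat_lit 139) (nat_lit 0) (nat_lit 177) (nat_lit 167) (nat_lit 166))) (PT.nd (nat_lit 78) (PT.lf (nat_lit 9956) (nat_lit 6) (nat_lit 131) (nat_lit 0) (nat_lit 178) (nat_lit 167) (nat_lit 165)) (PT.lf (nat_lit 9272) (nat_lit 6) (nat_lit 122) (nat_lit 0) (nat_lit 179) (nat_lit 167) (nat_lit 164)))) (PT.nd (nat_lit 51792) (PT.nd (nat_lit 51714) (PT.lf (nat_lit 8512) (nat_lit 6) (nat_lit 112) (nat_lit 0) (nat_lit 180) (nat_lit 167) (nat_lit 163)) (PT.lf (nat_lit 8588) (nat_lit 6) (nat_lit 113) (nat_lit 5) (nat_lit 162) (nat_lit 168) (nat_lit 180))) (PT.nd (nat_lit 78) (PT.lf (nat_lit 9348) (nat_lit 6) (nat_lit 123) (nat_lit 5) (nat_lit 163) (nat_lit 168) (nat_lit 179)) (PT.lf (nat_lit 10032) (nat_lit 6) (nat_lit 132) (nat_lit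 5) (nat_lit 164) (nat_lit 168) (nat_lit 178))))))) (PT.nd (nat_lit 1092) (PT.nd (nat_lit 546) (PT.nd (nat_lit 234) (PT.nd (nat_lit 78) (PT.lf (nat_lit 10640) (nat_lit 6) (nat_lit 140) (nat_lit 5) (nat_lit 165) (nat_lit 168) (nat_lit 177)) (PT.nd (nat_lit 78) (PT.lf (nat_lit 11172) (nat_lit 6) (nat_lit 147) (nat_lit 5) (nat_lit 166) (nat_lit 168) (nat_lit 176)) (PT.lf (nat_lit 11628) (nat_lit 6) (nat_lit 153) (nat_lit 5) (nat_lit 167) (nat_lit 168) (nat_lit 175)))) (PT.nd (nat_lit 156) (PT.nd (nat_lit 78) (PT.lf (nat_lit 12008) (nat_lit 3) (nat_lit 158) (nat_lit 3) (nat_lit 168) (nat_lit 168) (nat_lit 174)) (PT.lf (nat_lit 12388) (nat_lit 6) (nat_lit 163) (nat_lit 3) (nat_lit 169) (nat_lit 168) (nat_lit 173))) (PT.nd (nat_lit 78) (PT.lf (nat_lit 12692) (nat_lit 6) (nat_lit 167) (nat_lit 3) (nat_lit 170) (nat_lit 168) (nat_lit 172)) (PT.lf (nat_lit 12768) (nat_lit 3) (nat_lit 168) (nat_lit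 1) (nat_lit 171) (nat_lit 168) (nat_lit 171))))) (PT.nd (nat_lit 234) (PT.nd (nat_lit 78) (PT.lf (nat_lit 12692) (nat_lit 6) (nat_lit 167) (nat_lit 1) (nat_lit 172) (nat_lit 168) (nat_lit 170)) (PT.nd (nat_lit 78) (PT.lf (nat_lit 12388) (nat_lit 6) (nat_lit 163) (nat_lit 1) (nat_lit 173) (nat_lit 168) (nat_lit 169)) (PT.lf (nat_lit 12008) (nat_lit 3) (nat_lit 158) (nat_lit 0) (nat_lit 174) (nat_lit 168) (nat_lit 168)))) (PT.nd (nat_lit 156) (PT.nd (nat_lit 78) (PT.lf (nat_lit 11628) (nat_lit 6) (nat_lit 153) (nat_lit 0) (nat_lit 175) (nat_lit 168) (nat_lit 167)) (PT.lf (nat_lit 11172) (nat_lit 6) (nat_lit 147) (nat_lit 0) (nat_lit 176) (nat_lit 168) (nat_lit 166))) (PT.nd (nat_lit 78) (PT.lf (nat_lit 10640) (nat_lit 6) (nat_lit 140) (nat_lit 0) (nat_lit 177) (nat_lit 168) (nat_lit 165)) (PT.lf (nat_lit 10032) (nat_lit 6) (nat_lit 132) (nat_lit 0) (nat_lit 178) (nat_lit 168) (nat_lit 164))))))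 (PT.nd (nat_lit 52104) (PT.nd (nat_lit 51792) (PT.nd (nat_lit 78) (PT.lf (nat_lit 9348) (nat_lit 6) (nat_lit 123) (nat_lit 0) (nat_lit 179) (nat_lit 168) (nat_lit 163)) (PT.nd (nat_lit 51636) (PT.lf (nat_lit 8588) (nat_lit 6) (nat_lit 113) (nat_lit 0) (nat_lit 180) (nat_lit 168) (nat_lit 162)) (PT.lf (nat_lit 8664) (nat_lit 6) (nat_lit 114) (nat_lit 5) (nat_lit 161) (nat_lit 169) (nat_lit 180)))) (PT.nd (nat_lit 156) (PT.nd (nat_lit 78) (PT.lf (nat_lit 9424) (nat_lit 6) (nat_lit 124) (nat_lit 5) (nat_lit 162) (nat_lit 169) (nat_lit 179)) (PT.lf (nat_lit 10108) (nat_lit 6) (nat_lit 133) (nat_lit 5) (nat_lit 163) (nat_lit 169) (nat_lit 178))) (PT.nd (nat_lit 78) (PT.lf (nat_lit 10716) (nat_lit 6) (nat_lit 141) (nat_lit 5) (nat_lit 164) (nat_lit 169) (nat_lit 177)) (PT.lf (nat_lit 11248) (nat_lit 6) (nat_lit 148) (nat_lit 5) (nat_lit 165) (nat_lit 169) (nat_lit 176))))) (PT.nd (nat_lit 312)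 (PT.nd (nat_lit 156) (PT.nd (nat_lit 78) (PT.lf (nat_lit 11704) (nat_lit 6) (nat_lit 154) (nat_lit 5) (nat_lit 166) (nat_lit 169) (nat_lit 175)) (PT.lf (nat_lit 12084) (nat_lit 6) (nat_lit 159) (nat_lit 5) (nat_lit 167) (nat_lit 169) (nat_lit 174))) (PT.nd (nat_lit 78) (PT.lf (nat_lit 12388) (nat_lit 6) (nat_lit 163) (nat_lit 5) (nat_lit 168) (nat_lit 169) (nat_lit 173)) (PT.lf (nat_lit 12616) (nat_lit 3) (nat_lit 166) (nat_lit 3) (nat_lit 169) (nat_lit 169) (nat_lit 172)))) (PT.nd (nat_lit 156) (PT.nd (nat_lit 78) (PT.lf (nat_lit 12844) (nat_lit 6) (nat_lit 169) (nat_lit 3) (nat_lit 170) (nat_lit 169) (nat_lit 171)) (PT.lf (nat_lit 12844) (nat_lit 6) (nat_lit 169) (nat_lit 1) (nat_lit 171) (nat_lit 169) (nat_lit 170))) (PT.nd (nat_lit 78) (PT.lf (nat_lit 12616) (nat_lit 3) (nat_lit 166) (nat_lit 0) (nat_lit 172) (nat_lit 169) (nat_lit 169)) (PT.lf (nat_lit 12388) (nat_lit 6) (nat_lit 163)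 (nat_lit 0) (nat_lit 173) (nat_lit 169) (nat_lit 168))))))))
noncomputable def pc6 : PT := (PT.nd (nat_lit 105066) (PT.nd (nat_lit 52572) (PT.nd (nat_lit 52026) (PT.nd (nat_lit 234) (PT.nd (nat_lit 78) (PT.lf (nat_lit 12084) (nat_lit 6) (nat_lit 159) (nat_lit 0) (nat_lit 174) (nat_lit 169) (nat_lit 167)) (PT.nd (nat_lit 78) (PT.lf (nat_lit 11704) (nat_lit 6) (nat_lit 154) (nat_lit 0) (nat_lit 175) (nat_lit 169) (nat_lit 166)) (PT.lf (nat_lit 11248) (nat_lit 6) (nat_lit 148) (nat_lit 0) (nat_lit 176) (nat_lit 169) (nat_lit 165)))) (PT.nd (nat_lit 156) (PT.nd (nat_lit 78) (PT.lf (nat_lit 10716) (nat_lit 6) (nat_lit 141) (nat_lit 0) (nat_lit 177) (nat_lit 169) (nat_lit 164)) (PT.lf (nat_lit 10108) (nat_lit 6) (nat_lit 133) (nat_lit 0) (nat_lit 178) (nat_lit 169) (nat_lit 163))) (PT.nd (nat_lit 78) (PT.lf (nat_lit 9424) (nat_lit 6) (nat_lit 124) (nat_lit 0) (nat_lit 179) (nat_lit 169) (nat_lit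 162)) (PT.lf (nat_lit 8664) (nat_lit 6) (nat_lit 114) (nat_lit 0) (nat_lit 180) (nat_lit 169) (nat_lit 161))))) (PT.nd (nat_lit 234) (PT.nd (nat_lit 78) (PT.lf (nat_lit 8740) (nat_lit 6) (nat_lit 115) (nat_lit 5) (nat_lit 160) (nat_lit 170) (nat_lit 180)) (PT.nd (nat_lit 78) (PT.lf (nat_lit 9500) (nat_lit 6) (nat_lit 125) (nat_lit 5) (nat_lit 161) (nat_lit 170) (nat_lit 179)) (PT.lf (nat_lit 10184) (nat_lit 6) (nat_lit 134) (nat_lit 5) (nat_lit 162) (nat_lit 170) (nat_lit 178)))) (PT.nd (nat_lit 156) (PT.nd (nat_lit 78) (PT.lf (nat_lit 10792) (nat_lit 6) (nat_lit 142) (nat_lit 5) (nat_lit 163) (nat_lit 170) (nat_lit 177)) (PT.lf (nat_lit 11324) (nat_lit 6) (nat_lit 149) (nat_lit 5) (nat_lit 164) (nat_lit 170) (nat_lit 176))) (PT.nd (nat_lit 78) (PT.lf (nat_lit 11780) (nat_lit 6) (nat_lit 155) (nat_lit 5) (nat_lit 165) (nat_lit 170) (nat_lit 175)) (PT.lf (nat_lit 12160) (nat_lit 6) (nat_lit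 160) (nat_lit 5) (nat_lit 166) (nat_lit 170) (nat_lit 174)))))) (PT.nd (nat_lit 546) (PT.nd (nat_lit 234) (PT.nd (nat_lit 78) (PT.lf (nat_lit 12464) (nat_lit 6) (nat_lit 164) (nat_lit 5) (nat_lit 167) (nat_lit 170) (nat_lit 173)) (PT.nd (nat_lit 78) (PT.lf (nat_lit 12692) (nat_lit 6) (nat_lit 167) (nat_lit 5) (nat_lit 168) (nat_lit 170) (nat_lit 172)) (PT.lf (nat_lit 12844) (nat_lit 6) (nat_lit 169) (nat_lit 5) (nat_lit 169) (nat_lit 170) (nat_lit 171)))) (PT.nd (nat_lit 156) (PT.nd (nat_lit 78) (PT.lf (nat_lit 12920) (nat_lit 1) (nat_lit 170) (nat_lit 0) (nat_lit 170) (nat_lit 170) (nat_lit 170)) (PT.lf (nat_lit 12844) (nat_lit 6) (nat_lit 169) (nat_lit 0) (nat_lit 171) (nat_lit 170) (nat_lit 169))) (PT.nd (nat_lit 78) (PT.lf (nat_lit 12692) (nat_lit 6) (nat_lit 167) (nat_lit 0) (nat_lit 172) (nat_lit 170) (nat_lit 168)) (PT.lf (nat_lit 12464) (nat_lit 6) (nat_lit 164) (nat_lit 0) (nat_lit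 173) (nat_lit 170) (nat_lit 167))))) (PT.nd (nat_lit 234) (PT.nd (nat_lit 78) (PT.lf (nat_lit 12160) (nat_lit 6) (nat_lit 160) (nat_lit 0) (nat_lit 174) (nat_lit 170) (nat_lit 166)) (PT.nd (nat_lit 78) (PT.lf (nat_lit 11780) (nat_lit 6) (nat_lit 155) (nat_lit 0) (nat_lit 175) (nat_lit 170) (nat_lit 165)) (PT.lf (nat_lit 11324) (nat_lit 6) (nat_lit 149) (nat_lit 0) (nat_lit 176) (nat_lit 170) (nat_lit 164)))) (PT.nd (nat_lit 156) (PT.nd (nat_lit 78) (PT.lf (nat_lit 10792) (nat_lit 6) (nat_lit 142) (nat_lit 0) (nat_lit 177) (nat_lit 170) (nat_lit 163)) (PT.lf (nat_lit 10184) (nat_lit 6) (nat_lit 134) (nat_lit 0) (nat_lit 178) (nat_lit 170) (nat_lit 162))) (PT.nd (nat_lit 78) (PT.lf (nat_lit 9500) (nat_lit 6) (nat_lit 125) (nat_lit 0) (nat_lit 179) (nat_lit 170) (nat_lit 161)) (PT.lf (nat_lit 8740) (nat_lit 6) (nat_lit 115) (nat_lit 0) (nat_lit 180) (nat_lit 170) (nat_lit 160))))))) (PT.nd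 (nat_lit 1092) (PT.nd (nat_lit 546) (PT.nd (nat_lit 234) (PT.nd (nat_lit 78) (PT.lf (nat_lit 7980) (nat_lit 6) (nat_lit 105) (nat_lit 5) (nat_lit 159) (nat_lit 171) (nat_lit 180)) (PT.nd (nat_lit 78) (PT.lf (nat_lit 8816) (nat_lit 6) (nat_lit 116) (nat_lit 5) (nat_lit 160) (nat_lit 171) (nat_lit 179)) (PT.lf (nat_lit 9576) (nat_lit 6) (nat_lit 126) (nat_lit 5) (nat_lit 161) (nat_lit 171) (nat_lit 178)))) (PT.nd (nat_lit 156) (PT.nd (nat_lit 78) (PT.lf (nat_lit 10260) (nat_lit 6) (nat_lit 135) (nat_lit 5) (nat_lit 162) (nat_lit 171) (nat_lit 177)) (PT.lf (nat_lit 10868) (nat_lit 6) (nat_lit 143) (nat_lit 5) (nat_lit 163) (nat_lit 171) (nat_lit 176))) (PT.nd (nat_lit 78) (PT.lf (nat_lit 11400) (nat_lit 6) (nat_lit 150) (nat_lit 5) (nat_lit 164) (nat_lit 171) (nat_lit 175)) (PT.lf (nat_lit 11856) (nat_lit 6) (nat_lit 156) (nat_lit 5) (nat_lit 165) (nat_lit 171) (nat_lit 174))))) (PT.nd (nat_lit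 234) (PT.nd (nat_lit 78) (PT.lf (nat_lit 12236) (nat_lit 6) (nat_lit 161) (nat_lit 5) (nat_lit 166) (nat_lit 171) (nat_lit 173)) (PT.nd (nat_lit 78) (PT.lf (nat_lit 12540) (nat_lit 6) (nat_lit 165) (nat_lit 5) (nat_lit 167) (nat_lit 171) (nat_lit 172)) (PT.lf (nat_lit 12768) (nat_lit 3) (nat_lit 168) (nat_lit 4) (nat_lit 168) (nat_lit 171) (nat_lit 171)))) (PT.nd (nat_lit 156) (PT.nd (nat_lit 78) (PT.lf (nat_lit 12844) (nat_lit 6) (nat_lit 169) (nat_lit 4) (nat_lit 169) (nat_lit 171) (nat_lit 170)) (PT.lf (nat_lit 12844) (nat_lit 6) (nat_lit 169) (nat_lit 2) (nat_lit 170) (nat_lit 171) (nat_lit 169))) (PT.nd (nat_lit 78) (PT.lf (nat_lit 12768) (nat_lit 3) (nat_lit 168) (nat_lit 0) (nat_lit 171) (nat_lit 171) (nat_lit 168)) (PT.lf (nat_lit 12540) (nat_lit 6) (nat_lit 165) (nat_lit 0) (nat_lit 172) (nat_lit 171) (nat_lit 167)))))) (PT.nd (nat_lit 546) (PT.nd (nat_lit 234) (PT.nd (nat_lit 78)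 (PT.lf (nat_lit 12236) (nat_lit 6) (nat_lit 161) (nat_lit 0) (nat_lit 173) (nat_lit 171) (nat_lit 166)) (PT.nd (nat_lit 78) (PT.lf (nat_lit 11856) (nat_lit 6) (nat_lit 156) (nat_lit 0) (nat_lit 174) (nat_lit 171) (nat_lit 165)) (PT.lf (nat_lit 11400) (nat_lit 6) (nat_lit 150) (nat_lit 0) (nat_lit 175) (nat_lit 171) (nat_lit 164)))) (PT.nd (nat_lit 156) (PT.nd (nat_lit 78) (PT.lf (nat_lit 10868) (nat_lit 6) (nat_lit 143) (nat_lit 0) (nat_lit 176) (nat_lit 171) (nat_lit 163)) (PT.lf (nat_lit 10260) (nat_lit 6) (nat_lit 135) (nat_lit 0) (nat_lit 177) (nat_lit 171) (nat_lit 162))) (PT.nd (nat_lit 78) (PT.lf (nat_lit 9576) (nat_lit 6) (nat_lit 126) (nat_lit 0) (nat_lit 178) (nat_lit 171) (nat_lit 161)) (PT.lf (nat_lit 8816) (nat_lit 6) (nat_lit 116) (nat_lit 0) (nat_lit 179) (nat_lit 171) (nat_lit 160))))) (PT.nd (nat_lit 51558) (PT.nd (nat_lit 51402) (PT.nd (nat_lit 51324) (PT.lf (nat_lit 7980)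 (nat_lit 6) (nat_lit 105) (nat_lit 0) (nat_lit 180) (nat_lit 171) (nat_lit 159)) (PT.lf (nat_lit 7220) (nat_lit 6) (nat_lit 95) (nat_lit 5) (nat_lit 157) (nat_lit 172) (nat_lit 181))) (PT.nd (nat_lit 78) (PT.lf (nat_lit 7600) (nat_lit 6) (nat_lit 100) (nat_lit 5) (nat_lit 158) (nat_lit 172) (nat_lit 180)) (PT.lf (nat_lit 8056) (nat_lit 6) (nat_lit 106) (nat_lit 5) (nat_lit 159) (nat_lit 172) (nat_lit 179)))) (PT.nd (nat_lit 156) (PT.nd (nat_lit 78) (PT.lf (nat_lit 8892) (nat_lit 6) (nat_lit 117) (nat_lit 5) (nat_lit 160) (nat_lit 172) (nat_lit 178)) (PT.lf (nat_lit 9652) (nat_lit 6) (nat_lit 127) (nat_lit 5) (nat_lit 161) (nat_lit 172) (nat_lit 177))) (PT.nd (nat_lit 78) (PT.lf (nat_lit 10336) (nat_lit 6) (nat_lit 136) (nat_lit 5) (nat_lit 162) (nat_lit 172) (nat_lit 176)) (PT.lf (nat_lit 10944) (nat_lit 6) (nat_lit 144) (nat_lit 5) (nat_lit 163) (nat_lit 172) (nat_lit 175))))))))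
noncomputable def pc7 : PT := (PT.nd (nat_lit 53352) (PT.nd (nat_lit 1092) (PT.nd (nat_lit 546) (PT.nd (nat_lit 234) (PT.nd (nat_lit 78) (PT.lf (nat_lit 11476) (nat_lit 6) (nat_lit 151) (nat_lit 5) (nat_lit 164) (nat_lit 172) (nat_lit 174)) (PT.nd (nat_lit 78) (PT.lf (nat_lit 11932) (nat_lit 6) (nat_lit 157) (nat_lit 5) (nat_lit 165) (nat_lit 172) (nat_lit 173)) (PT.lf (nat_lit 12312) (nat_lit 3) (nat_lit 162) (nat_lit 4) (nat_lit 166) (nat_lit 172) (nat_lit 172)))) (PT.nd (nat_lit 156) (PT.nd (nat_lit 78) (PT.lf (nat_lit 12540) (nat_lit 6) (nat_lit 165) (nat_lit 4) (nat_lit 167) (nat_lit 172) (nat_lit 171)) (PT.lf (nat_lit 12692) (nat_lit 6) (nat_lit 167) (nat_lit 4) (nat_lit 168) (nat_lit 172) (nat_lit 170))) (PT.nd (nat_lit 78) (PT.lf (nat_lit 12616) (nat_lit 3) (nat_lit 166) (nat_lit 2) (nat_lit 169) (nat_lit 172) (nat_lit 169)) (PT.lf (nat_lit 12692) (nat_lit 6) (nat_lit 167) (nat_lit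 2) (nat_lit 170) (nat_lit 172) (nat_lit 168))))) (PT.nd (nat_lit 234) (PT.nd (nat_lit 78) (PT.lf (nat_lit 12540) (nat_lit 6) (nat_lit 165) (nat_lit 2) (nat_lit 171) (nat_lit 172) (nat_lit 167)) (PT.nd (nat_lit 78) (PT.lf (nat_lit 12312) (nat_lit 3) (nat_lit 162) (nat_lit 0) (nat_lit 172) (nat_lit 172) (nat_lit 166)) (PT.lf (nat_lit 11932) (nat_lit 6) (nat_lit 157) (nat_lit 0) (nat_lit 173) (nat_lit 172) (nat_lit 165)))) (PT.nd (nat_lit 156) (PT.nd (nat_lit 78) (PT.lf (nat_lit 11476) (nat_lit 6) (nat_lit 151) (nat_lit 0) (nat_lit 174) (nat_lit 172) (nat_lit 164)) (PT.lf (nat_lit 10944) (nat_lit 6) (nat_lit 144) (nat_lit 0) (nat_lit 175) (nat_lit 172) (nat_lit 163))) (PT.nd (nat_lit 78) (PT.lf (nat_lit 10336) (nat_lit 6) (nat_lit 136) (nat_lit 0) (nat_lit 176) (nat_lit 172) (nat_lit 162)) (PT.lf (nat_lit 9652) (nat_lit 6) (nat_lit 127) (nat_lit 0) (nat_lit 177) (nat_lit 172) (nat_lit 161))))))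 (PT.nd (nat_lit 51636) (PT.nd (nat_lit 234) (PT.nd (nat_lit 78) (PT.lf (nat_lit 8892) (nat_lit 6) (nat_lit 117) (nat_lit 0) (nat_lit 178) (nat_lit 172) (nat_lit 160)) (PT.nd (nat_lit 78) (PT.lf (nat_lit 8056) (nat_lit 6) (nat_lit 106) (nat_lit 0) (nat_lit 179) (nat_lit 172) (nat_lit 159)) (PT.lf (nat_lit 7600) (nat_lit 6) (nat_lit 100) (nat_lit 0) (nat_lit 180) (nat_lit 172) (nat_lit 158)))) (PT.nd (nat_lit 51246) (PT.nd (nat_lit 51168) (PT.lf (nat_lit 7220) (nat_lit 6) (nat_lit 95) (nat_lit 0) (nat_lit 181) (nat_lit 172) (nat_lit 157)) (PT.lf (nat_lit 6840) (nat_lit 6) (nat_lit 90) (nat_lit 5) (nat_lit 156) (nat_lit 173) (nat_lit 181))) (PT.nd (nat_lit 78) (PT.lf (nat_lit 7296) (nat_lit 6) (nat_lit 96) (nat_lit 5) (nat_lit 157) (nat_lit 173) (nat_lit 180)) (PT.lf (nat_lit 7676) (nat_lit 6) (nat_lit 101) (nat_lit 5) (nat_lit 158) (nat_lit 173) (nat_lit 179))))) (PT.nd (nat_lit 312) (PT.nd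 (nat_lit 156) (PT.nd (nat_lit 78) (PT.lf (nat_lit 8132) (nat_lit 6) (nat_lit 107) (nat_lit 5) (nat_lit 159) (nat_lit 173) (nat_lit 178)) (PT.lf (nat_lit 8968) (nat_lit 6) (nat_lit 118) (nat_lit 5) (nat_lit 160) (nat_lit 173) (nat_lit 177))) (PT.nd (nat_lit 78) (PT.lf (nat_lit 9728) (nat_lit 6) (nat_lit 128) (nat_lit 5) (nat_lit 161) (nat_lit 173) (nat_lit 176)) (PT.lf (nat_lit 10412) (nat_lit 6) (nat_lit 137) (nat_lit 5) (nat_lit 162) (nat_lit 173) (nat_lit 175)))) (PT.nd (nat_lit 156) (PT.nd (nat_lit 78) (PT.lf (nat_lit 11020) (nat_lit 6) (nat_lit 145) (nat_lit 5) (nat_lit 163) (nat_lit 173) (nat_lit 174)) (PT.lf (nat_lit 11552) (nat_lit 3) (nat_lit 152) (nat_lit 4) (nat_lit 164) (nat_lit 173) (nat_lit 173))) (PT.nd (nat_lit 78) (PT.lf (nat_lit 11932) (nat_lit 6) (nat_lit 157) (nat_lit 4) (nat_lit 165) (nat_lit 173) (nat_lit 172)) (PT.lf (nat_lit 12236) (nat_lit 6) (nat_lit 161) (nat_lit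 4) (nat_lit 166) (nat_lit 173) (nat_lit 171))))))) (PT.nd (nat_lit 1092) (PT.nd (nat_lit 546) (PT.nd (nat_lit 234) (PT.nd (nat_lit 78) (PT.lf (nat_lit 12464) (nat_lit 6) (nat_lit 164) (nat_lit 4) (nat_lit 167) (nat_lit 173) (nat_lit 170)) (PT.nd (nat_lit 78) (PT.lf (nat_lit 12388) (nat_lit 6) (nat_lit 163) (nat_lit 4) (nat_lit 168) (nat_lit 173) (nat_lit 169)) (PT.lf (nat_lit 12388) (nat_lit 6) (nat_lit 163) (nat_lit 2) (nat_lit 169) (nat_lit 173) (nat_lit 168)))) (PT.nd (nat_lit 156) (PT.nd (nat_lit 78) (PT.lf (nat_lit 12464) (nat_lit 6) (nat_lit 164) (nat_lit 2) (nat_lit 170) (nat_lit 173) (nat_lit 167)) (PT.lf (nat_lit 12236) (nat_lit 6) (nat_lit 161) (nat_lit 2) (nat_lit 171) (nat_lit 173) (nat_lit 166))) (PT.nd (nat_lit 78) (PT.lf (nat_lit 11932) (nat_lit 6) (nat_lit 157) (nat_lit 2) (nat_lit 172) (nat_lit 173) (nat_lit 165)) (PT.lf (nat_lit 11552) (nat_lit 3) (nat_lit 152) (nat_lit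 0) (nat_lit 173) (nat_lit 173) (nat_lit 164))))) (PT.nd (nat_lit 234) (PT.nd (nat_lit 78) (PT.lf (nat_lit 11020) (nat_lit 6) (nat_lit 145) (nat_lit 0) (nat_lit 174) (nat_lit 173) (nat_lit 163)) (PT.nd (nat_lit 78) (PT.lf (nat_lit 10412) (nat_lit 6) (nat_lit 137) (nat_lit 0) (nat_lit 175) (nat_lit 173) (nat_lit 162)) (PT.lf (nat_lit 9728) (nat_lit 6) (nat_lit 128) (nat_lit 0) (nat_lit 176) (nat_lit 173) (nat_lit 161)))) (PT.nd (nat_lit 156) (PT.nd (nat_lit 78) (PT.lf (nat_lit 8968) (nat_lit 6) (nat_lit 118) (nat_lit 0) (nat_lit 177) (nat_lit 173) (nat_lit 160)) (PT.lf (nat_lit 8132) (nat_lit 6) (nat_lit 107) (nat_lit 0) (nat_lit 178) (nat_lit 173) (nat_lit 159))) (PT.nd (nat_lit 78) (PT.lf (nat_lit 7676) (nat_lit 6) (nat_lit 101) (nat_lit 0) (nat_lit 179) (nat_lit 173) (nat_lit 158)) (PT.lf (nat_lit 7296) (nat_lit 6) (nat_lit 96) (nat_lit 0) (nat_lit 180) (nat_lit 173) (nat_lit 157))))))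 (PT.nd (nat_lit 51558) (PT.nd (nat_lit 51246) (PT.nd (nat_lit 51090) (PT.lf (nat_lit 6840) (nat_lit 6) (nat_lit 90) (nat_lit 0) (nat_lit 181) (nat_lit 173) (nat_lit 156)) (PT.nd (nat_lit 78) (PT.lf (nat_lit 6536) (nat_lit 6) (nat_lit 86) (nat_lit 5) (nat_lit 155) (nat_lit 174) (nat_lit 181)) (PT.lf (nat_lit 6916) (nat_lit 6) (nat_lit 91) (nat_lit 5) (nat_lit 156) (nat_lit 174) (nat_lit 180)))) (PT.nd (nat_lit 156) (PT.nd (nat_lit 78) (PT.lf (nat_lit 7372) (nat_lit 6) (nat_lit 97) (nat_lit 5) (nat_lit 157) (nat_lit 174) (nat_lit 179)) (PT.lf (nat_lit 7752) (nat_lit 6) (nat_lit 102) (nat_lit 5) (nat_lit 158) (nat_lit 174) (nat_lit 178))) (PT.nd (nat_lit 78) (PT.lf (nat_lit 8208) (nat_lit 6) (nat_lit 108) (nat_lit 5) (nat_lit 159) (nat_lit 174) (nat_lit 177)) (PT.lf (nat_lit 9044) (nat_lit 6) (nat_lit 119) (nat_lit 5) (nat_lit 160) (nat_lit 174) (nat_lit 176))))) (PT.nd (nat_lit 312) (PT.nd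 (nat_lit 156) (PT.nd (nat_lit 78) (PT.lf (nat_lit 9804) (nat_lit 6) (nat_lit 129) (nat_lit 5) (nat_lit 161) (nat_lit 174) (nat_lit 175)) (PT.lf (nat_lit 10488) (nat_lit 3) (nat_lit 138) (nat_lit 4) (nat_lit 162) (nat_lit 174) (nat_lit 174))) (PT.nd (nat_lit 78) (PT.lf (nat_lit 11020) (nat_lit 6) (nat_lit 145) (nat_lit 4) (nat_lit 163) (nat_lit 174) (nat_lit 173)) (PT.lf (nat_lit 11476) (nat_lit 6) (nat_lit 151) (nat_lit 4) (nat_lit 164) (nat_lit 174) (nat_lit 172)))) (PT.nd (nat_lit 156) (PT.nd (nat_lit 78) (PT.lf (nat_lit 11856) (nat_lit 6) (nat_lit 156) (nat_lit 4) (nat_lit 165) (nat_lit 174) (nat_lit 171)) (PT.lf (nat_lit 12160) (nat_lit 6) (nat_lit 160) (nat_lit 4) (nat_lit 166) (nat_lit 174) (nat_lit 170))) (PT.nd (nat_lit 78) (PT.lf (nat_lit 12084) (nat_lit 6) (nat_lit 159) (nat_lit 4) (nat_lit 167) (nat_lit 174) (nat_lit 169)) (PT.lf (nat_lit 12008) (nat_lit 3) (nat_lit 158) (nat_lit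 2) (nat_lit 168) (nat_lit 174) (nat_lit 168))))))))
noncomputable def pc8 : PT := (PT.nd (nat_lit 53040) (PT.nd (nat_lit 51948) (PT.nd (nat_lit 546) (PT.nd (nat_lit 234) (PT.nd (nat_lit 78) (PT.lf (nat_lit 12084) (nat_lit 6) (nat_lit 159) (nat_lit 2) (nat_lit 169) (nat_lit 174) (nat_lit 167)) (PT.nd (nat_lit 78) (PT.lf (nat_lit 12160) (nat_lit 6) (nat_lit 160) (nat_lit 2) (nat_lit 170) (nat_lit 174) (nat_lit 166)) (PT.lf (nat_lit 11856) (nat_lit 6) (nat_lit 156) (nat_lit 2) (nat_lit 171) (nat_lit 174) (nat_lit 165)))) (PT.nd (nat_lit 156) (PT.nd (nat_lit 78) (PT.lf (nat_lit 11476) (nat_lit 6) (nat_lit 151) (nat_lit 2) (nat_lit 172) (nat_lit 174) (nat_lit 164)) (PT.lf (nat_lit 11020) (nat_lit 6) (nat_lit 145) (nat_lit 2) (nat_lit 173) (nat_lit 174) (nat_lit 163))) (PT.nd (nat_lit 78) (PT.lf (nat_lit 10488) (nat_lit 3) (nat_lit 138) (nat_lit 0) (nat_lit 174) (nat_lit 174) (nat_lit 162)) (PT.lf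 (nat_lit 9804) (nat_lit 6) (nat_lit 129) (nat_lit 0) (nat_lit 175) (nat_lit 174) (nat_lit 161))))) (PT.nd (nat_lit 234) (PT.nd (nat_lit 78) (PT.lf (nat_lit 9044) (nat_lit 6) (nat_lit 119) (nat_lit 0) (nat_lit 176) (nat_lit 174) (nat_lit 160)) (PT.nd (nat_lit 78) (PT.lf (nat_lit 8208) (nat_lit 6) (nat_lit 108) (nat_lit 0) (nat_lit 177) (nat_lit 174) (nat_lit 159)) (PT.lf (nat_lit 7752) (nat_lit 6) (nat_lit 102) (nat_lit 0) (nat_lit 178) (nat_lit 174) (nat_lit 158)))) (PT.nd (nat_lit 156) (PT.nd (nat_lit 78) (PT.lf (nat_lit 7372) (nat_lit 6) (nat_lit 97) (nat_lit 0) (nat_lit 179) (nat_lit 174) (nat_lit 157)) (PT.lf (nat_lit 6916) (nat_lit 6) (nat_lit 91) (nat_lit 0) (nat_lit 180) (nat_lit 174) (nat_lit 156))) (PT.nd (nat_lit 50934) (PT.lf (nat_lit 6536) (nat_lit 6) (nat_lit 86) (nat_lit 0) (nat_lit 181) (nat_lit 174) (nat_lit 155)) (PT.lf (nat_lit 5928) (nat_lit 6) (nat_lit 78) (nat_lit 5)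 (nat_lit 153) (nat_lit 175) (nat_lit 182)))))) (PT.nd (nat_lit 546) (PT.nd (nat_lit 234) (PT.nd (nat_lit 78) (PT.lf (nat_lit 6232) (nat_lit 6) (nat_lit 82) (nat_lit 5) (nat_lit 154) (nat_lit 175) (nat_lit 181)) (PT.nd (nat_lit 78) (PT.lf (nat_lit 6612) (nat_lit 6) (nat_lit 87) (nat_lit 5) (nat_lit 155) (nat_lit 175) (nat_lit 180)) (PT.lf (nat_lit 6992) (nat_lit 6) (nat_lit 92) (nat_lit 5) (nat_lit 156) (nat_lit 175) (nat_lit 179)))) (PT.nd (nat_lit 156) (PT.nd (nat_lit 78) (PT.lf (nat_lit 7448) (nat_lit 6) (nat_lit 98) (nat_lit 5) (nat_lit 157) (nat_lit 175) (nat_lit 178)) (PT.lf (nat_lit 7828) (nat_lit 6) (nat_lit 103) (nat_lit 5) (nat_lit 158) (nat_lit 175) (nat_lit 177))) (PT.nd (nat_lit 78) (PT.lf (nat_lit 8284) (nat_lit 6) (nat_lit 109) (nat_lit 5) (nat_lit 159) (nat_lit 175) (nat_lit 176)) (PT.lf (nat_lit 9120) (nat_lit 3) (nat_lit 120) (nat_lit 4) (nat_lit 160) (nat_lit 175) (nat_lit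 175))))) (PT.nd (nat_lit 234) (PT.nd (nat_lit 78) (PT.lf (nat_lit 9804) (nat_lit 6) (nat_lit 129) (nat_lit 4) (nat_lit 161) (nat_lit 175) (nat_lit 174)) (PT.nd (nat_lit 78) (PT.lf (nat_lit 10412) (nat_lit 6) (nat_lit 137) (nat_lit 4) (nat_lit 162) (nat_lit 175) (nat_lit 173)) (PT.lf (nat_lit 10944) (nat_lit 6) (nat_lit 144) (nat_lit 4) (nat_lit 163) (nat_lit 175) (nat_lit 172)))) (PT.nd (nat_lit 156) (PT.nd (nat_lit 78) (PT.lf (nat_lit 11400) (nat_lit 6) (nat_lit 150) (nat_lit 4) (nat_lit 164) (nat_lit 175) (nat_lit 171)) (PT.lf (nat_lit 11780) (nat_lit 6) (nat_lit 155) (nat_lit 4) (nat_lit 165) (nat_lit 175) (nat_lit 170))) (PT.nd (nat_lit 78) (PT.lf (nat_lit 11704) (nat_lit 6) (nat_lit 154) (nat_lit 4) (nat_lit 166) (nat_lit 175) (nat_lit 169)) (PT.lf (nat_lit 11628) (nat_lit 6) (nat_lit 153) (nat_lit 4) (nat_lit 167) (nat_lit 175) (nat_lit 168))))))) (PT.nd (nat_lit 1092) (PT.nd (nat_lit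 546) (PT.nd (nat_lit 234) (PT.nd (nat_lit 78) (PT.lf (nat_lit 11628) (nat_lit 6) (nat_lit 153) (nat_lit 2) (nat_lit 168) (nat_lit 175) (nat_lit 167)) (PT.nd (nat_lit 78) (PT.lf (nat_lit 11704) (nat_lit 6) (nat_lit 154) (nat_lit 2) (nat_lit 169) (nat_lit 175) (nat_lit 166)) (PT.lf (nat_lit 11780) (nat_lit 6) (nat_lit 155) (nat_lit 2) (nat_lit 170) (nat_lit 175) (nat_lit 165)))) (PT.nd (nat_lit 156) (PT.nd (nat_lit 78) (PT.lf (nat_lit 11400) (nat_lit 6) (nat_lit 150) (nat_lit 2) (nat_lit 171) (nat_lit 175) (nat_lit 164)) (PT.lf (nat_lit 10944) (nat_lit 6) (nat_lit 144) (nat_lit 2) (nat_lit 172) (nat_lit 175) (nat_lit 163))) (PT.nd (nat_lit 78) (PT.lf (nat_lit 10412) (nat_lit 6) (nat_lit 137) (nat_lit 2) (nat_lit 173) (nat_lit 175) (nat_lit 162)) (PT.lf (nat_lit 9804) (nat_lit 6) (nat_lit 129) (nat_lit 2) (nat_lit 174) (nat_lit 175) (nat_lit 161))))) (PT.nd (nat_lit 234) (PT.nd (nat_lit 78)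 (PT.lf (nat_lit 9120) (nat_lit 3) (nat_lit 120) (nat_lit 0) (nat_lit 175) (nat_lit 175) (nat_lit 160)) (PT.nd (nat_lit 78) (PT.lf (nat_lit 8284) (nat_lit 6) (nat_lit 109) (nat_lit 0) (nat_lit 176) (nat_lit 175) (nat_lit 159)) (PT.lf (nat_lit 7828) (nat_lit 6) (nat_lit 103) (nat_lit 0) (nat_lit 177) (nat_lit 175) (nat_lit 158)))) (PT.nd (nat_lit 156) (PT.nd (nat_lit 78) (PT.lf (nat_lit 7448) (nat_lit 6) (nat_lit 98) (nat_lit 0) (nat_lit 178) (nat_lit 175) (nat_lit 157)) (PT.lf (nat_lit 6992) (nat_lit 6) (nat_lit 92) (nat_lit 0) (nat_lit 179) (nat_lit 175) (nat_lit 156))) (PT.nd (nat_lit 78) (PT.lf (nat_lit 6612) (nat_lit 6) (nat_lit 87) (nat_lit 0) (nat_lit 180) (nat_lit 175) (nat_lit 155)) (PT.lf (nat_lit 6232) (nat_lit 6) (nat_lit 82) (nat_lit 0) (nat_lit 181) (nat_lit 175) (nat_lit 154)))))) (PT.nd (nat_lit 51246) (PT.nd (nat_lit 50934) (PT.nd (nat_lit 50778) (PT.lf (nat_lit 5928) (nat_lit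 6) (nat_lit 78) (nat_lit 0) (nat_lit 182) (nat_lit 175) (nat_lit 153)) (PT.nd (nat_lit 78) (PT.lf (nat_lit 5624) (nat_lit 6) (nat_lit 74) (nat_lit 5) (nat_lit 152) (nat_lit 176) (nat_lit 182)) (PT.lf (nat_lit 6004) (nat_lit 6) (nat_lit 79) (nat_lit 5) (nat_lit 153) (nat_lit 176) (nat_lit 181)))) (PT.nd (nat_lit 156) (PT.nd (nat_lit 78) (PT.lf (nat_lit 6308) (nat_lit 6) (nat_lit 83) (nat_lit 5) (nat_lit 154) (nat_lit 176) (nat_lit 180)) (PT.lf (nat_lit 6688) (nat_lit 6) (nat_lit 88) (nat_lit 5) (nat_lit 155) (nat_lit 176) (nat_lit 179))) (PT.nd (nat_lit 78) (PT.lf (nat_lit 7068) (nat_lit 6) (nat_lit 93) (nat_lit 5) (nat_lit 156) (nat_lit 176) (nat_lit 178)) (PT.lf (nat_lit 7524) (nat_lit 6) (nat_lit 99) (nat_lit 5) (nat_lit 157) (nat_lit 176) (nat_lit 177))))) (PT.nd (nat_lit 312) (PT.nd (nat_lit 156) (PT.nd (nat_lit 78) (PT.lf (nat_lit 7904) (nat_lit 3) (nat_lit 104) (nat_lit 4) (nat_lit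 158) (nat_lit 176) (nat_lit 176)) (PT.lf (nat_lit 8284) (nat_lit 6) (nat_lit 109) (nat_lit 4) (nat_lit 159) (nat_lit 176) (nat_lit 175))) (PT.nd (nat_lit 78) (PT.lf (nat_lit 9044) (nat_lit 6) (nat_lit 119) (nat_lit 4) (nat_lit 160) (nat_lit 176) (nat_lit 174)) (PT.lf (nat_lit 9728) (nat_lit 6) (nat_lit 128) (nat_lit 4) (nat_lit 161) (nat_lit 176) (nat_lit 173)))) (PT.nd (nat_lit 156) (PT.nd (nat_lit 78) (PT.lf (nat_lit 10336) (nat_lit 6) (nat_lit 136) (nat_lit 4) (nat_lit 162) (nat_lit 176) (nat_lit 172)) (PT.lf (nat_lit 10868) (nat_lit 6) (nat_lit 143) (nat_lit 4) (nat_lit 163) (nat_lit 176) (nat_lit 171))) (PT.nd (nat_lit 78) (PT.lf (nat_lit 11324) (nat_lit 6) (nat_lit 149) (nat_lit 4) (nat_lit 164) (nat_lit 176) (nat_lit 170)) (PT.lf (nat_lit 11248) (nat_lit 6) (nat_lit 148) (nat_lit 4) (nat_lit 165) (nat_lit 176) (nat_lit 169))))))))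
noncomputable def pc9 : PT := (PT.nd (nat_lit 52806) (PT.nd (nat_lit 1092) (PT.nd (nat_lit 546) (PT.nd (nat_lit 234) (PT.nd (nat_lit 78) (PT.lf (nat_lit 11172) (nat_lit 6) (nat_lit 147) (nat_lit 4) (nat_lit 166) (nat_lit 176) (nat_lit 168)) (PT.nd (nat_lit 78) (PT.lf (nat_lit 11096) (nat_lit 3) (nat_lit 146) (nat_lit 2) (nat_lit 167) (nat_lit 176) (nat_lit 167)) (PT.lf (nat_lit 11172) (nat_lit 6) (nat_lit 147) (nat_lit 2) (nat_lit 168) (nat_lit 176) (nat_lit 166)))) (PT.nd (nat_lit 156) (PT.nd (nat_lit 78) (PT.lf (nat_lit 11248) (nat_lit 6) (nat_lit 148) (nat_lit 2) (nat_lit 169) (nat_lit 176) (nat_lit 165)) (PT.lf (nat_lit 11324) (nat_lit 6) (nat_lit 149) (nat_lit 2) (nat_lit 170) (nat_lit 176) (nat_lit 164))) (PT.nd (nat_lit 78) (PT.lf (nat_lit 10868) (nat_lit 6) (nat_lit 143) (nat_lit 2) (nat_lit 171) (nat_lit 176) (nat_lit 163)) (PT.lf (nat_lit 10336) (nat_lit 6) (nat_lit 136) (nat_lit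 2) (nat_lit 172) (nat_lit 176) (nat_lit 162))))) (PT.nd (nat_lit 234) (PT.nd (nat_lit 78) (PT.lf (nat_lit 9728) (nat_lit 6) (nat_lit 128) (nat_lit 2) (nat_lit 173) (nat_lit 176) (nat_lit 161)) (PT.nd (nat_lit 78) (PT.lf (nat_lit 9044) (nat_lit 6) (nat_lit 119) (nat_lit 2) (nat_lit 174) (nat_lit 176) (nat_lit 160)) (PT.lf (nat_lit 8284) (nat_lit 6) (nat_lit 109) (nat_lit 2) (nat_lit 175) (nat_lit 176) (nat_lit 159)))) (PT.nd (nat_lit 156) (PT.nd (nat_lit 78) (PT.lf (nat_lit 7904) (nat_lit 3) (nat_lit 104) (nat_lit 0) (nat_lit 176) (nat_lit 176) (nat_lit 158)) (PT.lf (nat_lit 7524) (nat_lit 6) (nat_lit 99) (nat_lit 0) (nat_lit 177) (nat_lit 176) (nat_lit 157))) (PT.nd (nat_lit 78) (PT.lf (nat_lit 7068) (nat_lit 6) (nat_lit 93) (nat_lit 0) (nat_lit 178) (nat_lit 176) (nat_lit 156)) (PT.lf (nat_lit 6688) (nat_lit 6) (nat_lit 88) (nat_lit 0) (nat_lit 179) (nat_lit 176) (nat_lit 155)))))) (PT.nd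 (nat_lit 51090) (PT.nd (nat_lit 50778) (PT.nd (nat_lit 78) (PT.lf (nat_lit 6308) (nat_lit 6) (nat_lit 83) (nat_lit 0) (nat_lit 180) (nat_lit 176) (nat_lit 154)) (PT.nd (nat_lit 78) (PT.lf (nat_lit 6004) (nat_lit 6) (nat_lit 79) (nat_lit 0) (nat_lit 181) (nat_lit 176) (nat_lit 153)) (PT.lf (nat_lit 5624) (nat_lit 6) (nat_lit 74) (nat_lit 0) (nat_lit 182) (nat_lit 176) (nat_lit 152)))) (PT.nd (nat_lit 156) (PT.nd (nat_lit 78) (PT.lf (nat_lit 5092) (nat_lit 6) (nat_lit 67) (nat_lit 5) (nat_lit 150) (nat_lit 177) (nat_lit 183)) (PT.lf (nat_lit 5396) (nat_lit 6) (nat_lit 71) (nat_lit 5) (nat_lit 151) (nat_lit 177) (nat_lit 182))) (PT.nd (nat_lit 78) (PT.lf (nat_lit 5700) (nat_lit 6) (nat_lit 75) (nat_lit 5) (nat_lit 152) (nat_lit 177) (nat_lit 181)) (PT.lf (nat_lit 6080) (nat_lit 6) (nat_lit 80) (nat_lit 5) (nat_lit 153) (nat_lit 177) (nat_lit 180))))) (PT.nd (nat_lit 312) (PT.nd (nat_lit 156)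 (PT.nd (nat_lit 78) (PT.lf (nat_lit 6384) (nat_lit 6) (nat_lit 84) (nat_lit 5) (nat_lit 154) (nat_lit 177) (nat_lit 179)) (PT.lf (nat_lit 6764) (nat_lit 6) (nat_lit 89) (nat_lit 5) (nat_lit 155) (nat_lit 177) (nat_lit 178))) (PT.nd (nat_lit 78) (PT.lf (nat_lit 7144) (nat_lit 3) (nat_lit 94) (nat_lit 4) (nat_lit 156) (nat_lit 177) (nat_lit 177)) (PT.lf (nat_lit 7524) (nat_lit 6) (nat_lit 99) (nat_lit 4) (nat_lit 157) (nat_lit 177) (nat_lit 176)))) (PT.nd (nat_lit 156) (PT.nd (nat_lit 78) (PT.lf (nat_lit 7828) (nat_lit 6) (nat_lit 103) (nat_lit 4) (nat_lit 158) (nat_lit 177) (nat_lit 175)) (PT.lf (nat_lit 8208) (nat_lit 6) (nat_lit 108) (nat_lit 4) (nat_lit 159) (nat_lit 177) (nat_lit 174))) (PT.nd (nat_lit 78) (PT.lf (nat_lit 8968) (nat_lit 6) (nat_lit 118) (nat_lit 4) (nat_lit 160) (nat_lit 177) (nat_lit 173)) (PT.lf (nat_lit 9652) (nat_lit 6) (nat_lit 127) (nat_lit 4) (nat_lit 161) (nat_lit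 177) (nat_lit 172))))))) (PT.nd (nat_lit 1092) (PT.nd (nat_lit 546) (PT.nd (nat_lit 234) (PT.nd (nat_lit 78) (PT.lf (nat_lit 10260) (nat_lit 6) (nat_lit 135) (nat_lit 4) (nat_lit 162) (nat_lit 177) (nat_lit 171)) (PT.nd (nat_lit 78) (PT.lf (nat_lit 10792) (nat_lit 6) (nat_lit 142) (nat_lit 4) (nat_lit 163) (nat_lit 177) (nat_lit 170)) (PT.lf (nat_lit 10716) (nat_lit 6) (nat_lit 141) (nat_lit 4) (nat_lit 164) (nat_lit 177) (nat_lit 169)))) (PT.nd (nat_lit 156) (PT.nd (nat_lit 78) (PT.lf (nat_lit 10640) (nat_lit 6) (nat_lit 140) (nat_lit 4) (nat_lit 165) (nat_lit 177) (nat_lit 168)) (PT.lf (nat_lit 10564) (nat_lit 6) (nat_lit 139) (nat_lit 4) (nat_lit 166) (nat_lit 177) (nat_lit 167))) (PT.nd (nat_lit 78) (PT.lf (nat_lit 10564) (nat_lit 6) (nat_lit 139) (nat_lit 2) (nat_lit 167) (nat_lit 177) (nat_lit 166)) (PT.lf (nat_lit 10640) (nat_lit 6) (nat_lit 140) (nat_lit 2) (nat_lit 168) (nat_lit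 177) (nat_lit 165))))) (PT.nd (nat_lit 234) (PT.nd (nat_lit 78) (PT.lf (nat_lit 10716) (nat_lit 6) (nat_lit 141) (nat_lit 2) (nat_lit 169) (nat_lit 177) (nat_lit 164)) (PT.nd (nat_lit 78) (PT.lf (nat_lit 10792) (nat_lit 6) (nat_lit 142) (nat_lit 2) (nat_lit 170) (nat_lit 177) (nat_lit 163)) (PT.lf (nat_lit 10260) (nat_lit 6) (nat_lit 135) (nat_lit 2) (nat_lit 171) (nat_lit 177) (nat_lit 162)))) (PT.nd (nat_lit 156) (PT.nd (nat_lit 78) (PT.lf (nat_lit 9652) (nat_lit 6) (nat_lit 127) (nat_lit 2) (nat_lit 172) (nat_lit 177) (nat_lit 161)) (PT.lf (nat_lit 8968) (nat_lit 6) (nat_lit 118) (nat_lit 2) (nat_lit 173) (nat_lit 177) (nat_lit 160))) (PT.nd (nat_lit 78) (PT.lf (nat_lit 8208) (nat_lit 6) (nat_lit 108) (nat_lit 2) (nat_lit 174) (nat_lit 177) (nat_lit 159)) (PT.lf (nat_lit 7828) (nat_lit 6) (nat_lit 103) (nat_lit 2) (nat_lit 175) (nat_lit 177) (nat_lit 158)))))) (PT.nd (nat_lit 546) (PT.nd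 (nat_lit 234) (PT.nd (nat_lit 78) (PT.lf (nat_lit 7524) (nat_lit 6) (nat_lit 99) (nat_lit 2) (nat_lit 176) (nat_lit 177) (nat_lit 157)) (PT.nd (nat_lit 78) (PT.lf (nat_lit 7144) (nat_lit 3) (nat_lit 94) (nat_lit 0) (nat_lit 177) (nat_lit 177) (nat_lit 156)) (PT.lf (nat_lit 6764) (nat_lit 6) (nat_lit 89) (nat_lit 0) (nat_lit 178) (nat_lit 177) (nat_lit 155)))) (PT.nd (nat_lit 156) (PT.nd (nat_lit 78) (PT.lf (nat_lit 6384) (nat_lit 6) (nat_lit 84) (nat_lit 0) (nat_lit 179) (nat_lit 177) (nat_lit 154)) (PT.lf (nat_lit 6080) (nat_lit 6) (nat_lit 80) (nat_lit 0) (nat_lit 180) (nat_lit 177) (nat_lit 153))) (PT.nd (nat_lit 78) (PT.lf (nat_lit 5700) (nat_lit 6) (nat_lit 75) (nat_lit 0) (nat_lit 181) (nat_lit 177) (nat_lit 152)) (PT.lf (nat_lit 5396) (nat_lit 6) (nat_lit 71) (nat_lit 0) (nat_lit 182) (nat_lit 177) (nat_lit 151))))) (PT.nd (nat_lit 50700) (PT.nd (nat_lit 50544) (PT.nd (nat_lit 50466)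 (PT.lf (nat_lit 5092) (nat_lit 6) (nat_lit 67) (nat_lit 0) (nat_lit 183) (nat_lit 177) (nat_lit 150)) (PT.lf (nat_lit 4864) (nat_lit 6) (nat_lit 64) (nat_lit 5) (nat_lit 149) (nat_lit 178) (nat_lit 183))) (PT.nd (nat_lit 78) (PT.lf (nat_lit 5168) (nat_lit 6) (nat_lit 68) (nat_lit 5) (nat_lit 150) (nat_lit 178) (nat_lit 182)) (PT.lf (nat_lit 5472) (nat_lit 6) (nat_lit 72) (nat_lit 5) (nat_lit 151) (nat_lit 178) (nat_lit 181)))) (PT.nd (nat_lit 156) (PT.nd (nat_lit 78) (PT.lf (nat_lit 5776) (nat_lit 6) (nat_lit 76) (nat_lit 5) (nat_lit 152) (nat_lit 178) (nat_lit 180)) (PT.lf (nat_lit 6156) (nat_lit 6) (nat_lit 81) (nat_lit 5) (nat_lit 153) (nat_lit 178) (nat_lit 179))) (PT.nd (nat_lit 78) (PT.lf (nat_lit 6460) (nat_lit 3) (nat_lit 85) (nat_lit 4) (nat_lit 154) (nat_lit 178) (nat_lit 178)) (PT.lf (nat_lit 6764) (nat_lit 6) (nat_lit 89) (nat_lit 4) (nat_lit 155) (nat_lit 178) (nat_lit 177))))))))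
noncomputable def pc10 : PT := (PT.nd (nat_lit 52416) (PT.nd (nat_lit 1092) (PT.nd (nat_lit 546) (PT.nd (nat_lit 234) (PT.nd (nat_lit 78) (PT.lf (nat_lit 7068) (nat_lit 6) (nat_lit 93) (nat_lit 4) (nat_lit 156) (nat_lit 178) (nat_lit 176)) (PT.nd (nat_lit 78) (PT.lf (nat_lit 7448) (nat_lit 6) (nat_lit 98) (nat_lit 4) (nat_lit 157) (nat_lit 178) (nat_lit 175)) (PT.lf (nat_lit 7752) (nat_lit 6) (nat_lit 102) (nat_lit 4) (nat_lit 158) (nat_lit 178) (nat_lit 174)))) (PT.nd (nat_lit 156) (PT.nd (nat_lit 78) (PT.lf (nat_lit 8132) (nat_lit 6) (nat_lit 107) (nat_lit 4) (nat_lit 159) (nat_lit 178) (nat_lit 173)) (PT.lf (nat_lit 8892) (nat_lit 6) (nat_lit 117) (nat_lit 4) (nat_lit 160) (nat_lit 178) (nat_lit 172))) (PT.nd (nat_lit 78) (PT.lf (nat_lit 9576) (nat_lit 6) (nat_lit 126) (nat_lit 4) (nat_lit 161) (nat_lit 178) (nat_lit 171)) (PT.lf (nat_lit 10184) (nat_lit 6) (nat_lit 134) (nat_lit 4) (nat_lit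 162) (nat_lit 178) (nat_lit 170))))) (PT.nd (nat_lit 234) (PT.nd (nat_lit 78) (PT.lf (nat_lit 10108) (nat_lit 6) (nat_lit 133) (nat_lit 4) (nat_lit 163) (nat_lit 178) (nat_lit 169)) (PT.nd (nat_lit 78) (PT.lf (nat_lit 10032) (nat_lit 6) (nat_lit 132) (nat_lit 4) (nat_lit 164) (nat_lit 178) (nat_lit 168)) (PT.lf (nat_lit 9956) (nat_lit 6) (nat_lit 131) (nat_lit 4) (nat_lit 165) (nat_lit 178) (nat_lit 167)))) (PT.nd (nat_lit 156) (PT.nd (nat_lit 78) (PT.lf (nat_lit 9880) (nat_lit 3) (nat_lit 130) (nat_lit 2) (nat_lit 166) (nat_lit 178) (nat_lit 166)) (PT.lf (nat_lit 9956) (nat_lit 6) (nat_lit 131) (nat_lit 2) (nat_lit 167) (nat_lit 178) (nat_lit 165))) (PT.nd (nat_lit 78) (PT.lf (nat_lit 10032) (nat_lit 6) (nat_lit 132) (nat_lit 2) (nat_lit 168) (nat_lit 178) (nat_lit 164)) (PT.lf (nat_lit 10108) (nat_lit 6) (nat_lit 133) (nat_lit 2) (nat_lit 169) (nat_lit 178) (nat_lit 163)))))) (PT.nd (nat_lit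 546) (PT.nd (nat_lit 234) (PT.nd (nat_lit 78) (PT.lf (nat_lit 10184) (nat_lit 6) (nat_lit 134) (nat_lit 2) (nat_lit 170) (nat_lit 178) (nat_lit 162)) (PT.nd (nat_lit 78) (PT.lf (nat_lit 9576) (nat_lit 6) (nat_lit 126) (nat_lit 2) (nat_lit 171) (nat_lit 178) (nat_lit 161)) (PT.lf (nat_lit 8892) (nat_lit 6) (nat_lit 117) (nat_lit 2) (nat_lit 172) (nat_lit 178) (nat_lit 160)))) (PT.nd (nat_lit 156) (PT.nd (nat_lit 78) (PT.lf (nat_lit 8132) (nat_lit 6) (nat_lit 107) (nat_lit 2) (nat_lit 173) (nat_lit 178) (nat_lit 159)) (PT.lf (nat_lit 7752) (nat_lit 6) (nat_lit 102) (nat_lit 2) (nat_lit 174) (nat_lit 178) (nat_lit 158))) (PT.nd (nat_lit 78) (PT.lf (nat_lit 7448) (nat_lit 6) (nat_lit 98) (nat_lit 2) (nat_lit 175) (nat_lit 178) (nat_lit 157)) (PT.lf (nat_lit 7068) (nat_lit 6) (nat_lit 93) (nat_lit 2) (nat_lit 176) (nat_lit 178) (nat_lit 156))))) (PT.nd (nat_lit 234) (PT.nd (nat_lit 78) (PT.lf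 (nat_lit 6764) (nat_lit 6) (nat_lit 89) (nat_lit 2) (nat_lit 177) (nat_lit 178) (nat_lit 155)) (PT.nd (nat_lit 78) (PT.lf (nat_lit 6460) (nat_lit 3) (nat_lit 85) (nat_lit 0) (nat_lit 178) (nat_lit 178) (nat_lit 154)) (PT.lf (nat_lit 6156) (nat_lit 6) (nat_lit 81) (nat_lit 0) (nat_lit 179) (nat_lit 178) (nat_lit 153)))) (PT.nd (nat_lit 156) (PT.nd (nat_lit 78) (PT.lf (nat_lit 5776) (nat_lit 6) (nat_lit 76) (nat_lit 0) (nat_lit 180) (nat_lit 178) (nat_lit 152)) (PT.lf (nat_lit 5472) (nat_lit 6) (nat_lit 72) (nat_lit 0) (nat_lit 181) (nat_lit 178) (nat_lit 151))) (PT.nd (nat_lit 78) (PT.lf (nat_lit 5168) (nat_lit 6) (nat_lit 68) (nat_lit 0) (nat_lit 182) (nat_lit 178) (nat_lit 150)) (PT.lf (nat_lit 4864) (nat_lit 6) (nat_lit 64) (nat_lit 0) (nat_lit 183) (nat_lit 178) (nat_lit 149))))))) (PT.nd (nat_lit 1092) (PT.nd (nat_lit 546) (PT.nd (nat_lit 234) (PT.nd (nat_lit 78) (PT.lf (nat_lit 4408)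 (nat_lit 6) (nat_lit 58) (nat_lit 5) (nat_lit 147) (nat_lit 179) (nat_lit 184)) (PT.nd (nat_lit 78) (PT.lf (nat_lit 4636) (nat_lit 6) (nat_lit 61) (nat_lit 5) (nat_lit 148) (nat_lit 179) (nat_lit 183)) (PT.lf (nat_lit 4940) (nat_lit 6) (nat_lit 65) (nat_lit 5) (nat_lit 149) (nat_lit 179) (nat_lit 182)))) (PT.nd (nat_lit 156) (PT.nd (nat_lit 78) (PT.lf (nat_lit 5244) (nat_lit 6) (nat_lit 69) (nat_lit 5) (nat_lit 150) (nat_lit 179) (nat_lit 181)) (PT.lf (nat_lit 5548) (nat_lit 6) (nat_lit 73) (nat_lit 5) (nat_lit 151) (nat_lit 179) (nat_lit 180))) (PT.nd (nat_lit 78) (PT.lf (nat_lit 5852) (nat_lit 3) (nat_lit 77) (nat_lit 4) (nat_lit 152) (nat_lit 179) (nat_lit 179)) (PT.lf (nat_lit 6156) (nat_lit 6) (nat_lit 81) (nat_lit 4) (nat_lit 153) (nat_lit 179) (nat_lit 178))))) (PT.nd (nat_lit 234) (PT.nd (nat_lit 78) (PT.lf (nat_lit 6384) (nat_lit 6) (nat_lit 84) (nat_lit 4) (nat_lit 154) (nat_lit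 179) (nat_lit 177)) (PT.nd (nat_lit 78) (PT.lf (nat_lit 6688) (nat_lit 6) (nat_lit 88) (nat_lit 4) (nat_lit 155) (nat_lit 179) (nat_lit 176)) (PT.lf (nat_lit 6992) (nat_lit 6) (nat_lit 92) (nat_lit 4) (nat_lit 156) (nat_lit 179) (nat_lit 175)))) (PT.nd (nat_lit 156) (PT.nd (nat_lit 78) (PT.lf (nat_lit 7372) (nat_lit 6) (nat_lit 97) (nat_lit 4) (nat_lit 157) (nat_lit 179) (nat_lit 174)) (PT.lf (nat_lit 7676) (nat_lit 6) (nat_lit 101) (nat_lit 4) (nat_lit 158) (nat_lit 179) (nat_lit 173))) (PT.nd (nat_lit 78) (PT.lf (nat_lit 8056) (nat_lit 6) (nat_lit 106) (nat_lit 4) (nat_lit 159) (nat_lit 179) (nat_lit 172)) (PT.lf (nat_lit 8816) (nat_lit 6) (nat_lit 116) (nat_lit 4) (nat_lit 160) (nat_lit 179) (nat_lit 171)))))) (PT.nd (nat_lit 546) (PT.nd (nat_lit 234) (PT.nd (nat_lit 78) (PT.lf (nat_lit 9500) (nat_lit 6) (nat_lit 125) (nat_lit 4) (nat_lit 161) (nat_lit 179) (nat_lit 170)) (PT.nd (nat_lit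 78) (PT.lf (nat_lit 9424) (nat_lit 6) (nat_lit 124) (nat_lit 4) (nat_lit 162) (nat_lit 179) (nat_lit 169)) (PT.lf (nat_lit 9348) (nat_lit 6) (nat_lit 123) (nat_lit 4) (nat_lit 163) (nat_lit 179) (nat_lit 168)))) (PT.nd (nat_lit 156) (PT.nd (nat_lit 78) (PT.lf (nat_lit 9272) (nat_lit 6) (nat_lit 122) (nat_lit 4) (nat_lit 164) (nat_lit 179) (nat_lit 167)) (PT.lf (nat_lit 9196) (nat_lit 6) (nat_lit 121) (nat_lit 4) (nat_lit 165) (nat_lit 179) (nat_lit 166))) (PT.nd (nat_lit 78) (PT.lf (nat_lit 9196) (nat_lit 6) (nat_lit 121) (nat_lit 2) (nat_lit 166) (nat_lit 179) (nat_lit 165)) (PT.lf (nat_lit 9272) (nat_lit 6) (nat_lit 122) (nat_lit 2) (nat_lit 167) (nat_lit 179) (nat_lit 164))))) (PT.nd (nat_lit 312) (PT.nd (nat_lit 156) (PT.nd (nat_lit 78) (PT.lf (nat_lit 9348) (nat_lit 6) (nat_lit 123) (nat_lit 2) (nat_lit 168) (nat_lit 179) (nat_lit 163)) (PT.lf (nat_lit 9424) (nat_lit 6) (nat_lit 124)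 (nat_lit 2) (nat_lit 169) (nat_lit 179) (nat_lit 162))) (PT.nd (nat_lit 78) (PT.lf (nat_lit 9500) (nat_lit 6) (nat_lit 125) (nat_lit 2) (nat_lit 170) (nat_lit 179) (nat_lit 161)) (PT.lf (nat_lit 8816) (nat_lit 6) (nat_lit 116) (nat_lit 2) (nat_lit 171) (nat_lit 179) (nat_lit 160)))) (PT.nd (nat_lit 156) (PT.nd (nat_lit 78) (PT.lf (nat_lit 8056) (nat_lit 6) (nat_lit 106) (nat_lit 2) (nat_lit 172) (nat_lit 179) (nat_lit 159)) (PT.lf (nat_lit 7676) (nat_lit 6) (nat_lit 101) (nat_lit 2) (nat_lit 173) (nat_lit 179) (nat_lit 158))) (PT.nd (nat_lit 78) (PT.lf (nat_lit 7372) (nat_lit 6) (nat_lit 97) (nat_lit 2) (nat_lit 174) (nat_lit 179) (nat_lit 157)) (PT.lf (nat_lit 6992) (nat_lit 6) (nat_lit 92) (nat_lit 2) (nat_lit 175) (nat_lit 179) (nat_lit 156))))))))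
noncomputable def pc11 : PT := (PT.nd (nat_lit 52338) (PT.nd (nat_lit 51168) (PT.nd (nat_lit 546) (PT.nd (nat_lit 234) (PT.nd (nat_lit 78) (PT.lf (nat_lit 6688) (nat_lit 6) (nat_lit 88) (nat_lit 2) (nat_lit 176) (nat_lit 179) (nat_lit 155)) (PT.nd (nat_lit 78) (PT.lf (nat_lit 6384) (nat_lit 6) (nat_lit 84) (nat_lit 2) (nat_lit 177) (nat_lit 179) (nat_lit 154)) (PT.lf (nat_lit 6156) (nat_lit 6) (nat_lit 81) (nat_lit 2) (nat_lit 178) (nat_lit 179) (nat_lit 153)))) (PT.nd (nat_lit 156) (PT.nd (nat_lit 78) (PT.lf (nat_lit 5852) (nat_lit 3) (nat_lit 77) (nat_lit 0) (nat_lit 179) (nat_lit 179) (nat_lit 152)) (PT.lf (nat_lit 5548) (nat_lit 6) (nat_lit 73) (nat_lit 0) (nat_lit 180) (nat_lit 179) (nat_lit 151))) (PT.nd (nat_lit 78) (PT.lf (nat_lit 5244) (nat_lit 6) (nat_lit 69) (nat_lit 0) (nat_lit 181) (nat_lit 179) (nat_lit 150)) (PT.lf (nat_lit 4940) (nat_lit 6) (nat_lit 65) (nat_lit 0) (nat_lit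 182) (nat_lit 179) (nat_lit 149))))) (PT.nd (nat_lit 50310) (PT.nd (nat_lit 78) (PT.lf (nat_lit 4636) (nat_lit 6) (nat_lit 61) (nat_lit 0) (nat_lit 183) (nat_lit 179) (nat_lit 148)) (PT.nd (nat_lit 50154) (PT.lf (nat_lit 4408) (nat_lit 6) (nat_lit 58) (nat_lit 0) (nat_lit 184) (nat_lit 179) (nat_lit 147)) (PT.lf (nat_lit 4180) (nat_lit 6) (nat_lit 55) (nat_lit 5) (nat_lit 146) (nat_lit 180) (nat_lit 184)))) (PT.nd (nat_lit 156) (PT.nd (nat_lit 78) (PT.lf (nat_lit 4484) (nat_lit 6) (nat_lit 59) (nat_lit 5) (nat_lit 147) (nat_lit 180) (nat_lit 183)) (PT.lf (nat_lit 4712) (nat_lit 6) (nat_lit 62) (nat_lit 5) (nat_lit 148) (nat_lit 180) (nat_lit 182))) (PT.nd (nat_lit 78) (PT.lf (nat_lit 5016) (nat_lit 6) (nat_lit 66) (nat_lit 5) (nat_lit 149) (nat_lit 180) (nat_lit 181)) (PT.lf (nat_lit 5320) (nat_lit 3) (nat_lit 70) (nat_lit 4) (nat_lit 150) (nat_lit 180) (nat_lit 180)))))) (PT.nd (nat_lit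 546) (PT.nd (nat_lit 234) (PT.nd (nat_lit 78) (PT.lf (nat_lit 5548) (nat_lit 6) (nat_lit 73) (nat_lit 4) (nat_lit 151) (nat_lit 180) (nat_lit 179)) (PT.nd (nat_lit 78) (PT.lf (nat_lit 5776) (nat_lit 6) (nat_lit 76) (nat_lit 4) (nat_lit 152) (nat_lit 180) (nat_lit 178)) (PT.lf (nat_lit 6080) (nat_lit 6) (nat_lit 80) (nat_lit 4) (nat_lit 153) (nat_lit 180) (nat_lit 177)))) (PT.nd (nat_lit 156) (PT.nd (nat_lit 78) (PT.lf (nat_lit 6308) (nat_lit 6) (nat_lit 83) (nat_lit 4) (nat_lit 154) (nat_lit 180) (nat_lit 176)) (PT.lf (nat_lit 6612) (nat_lit 6) (nat_lit 87) (nat_lit 4) (nat_lit 155) (nat_lit 180) (nat_lit 175))) (PT.nd (nat_lit 78) (PT.lf (nat_lit 6916) (nat_lit 6) (nat_lit 91) (nat_lit 4) (nat_lit 156) (nat_lit 180) (nat_lit 174)) (PT.lf (nat_lit 7296) (nat_lit 6) (nat_lit 96) (nat_lit 4) (nat_lit 157) (nat_lit 180) (nat_lit 173))))) (PT.nd (nat_lit 312) (PT.nd (nat_lit 156) (PT.nd (nat_lit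 78) (PT.lf (nat_lit 7600) (nat_lit 6) (nat_lit 100) (nat_lit 4) (nat_lit 158) (nat_lit 180) (nat_lit 172)) (PT.lf (nat_lit 7980) (nat_lit 6) (nat_lit 105) (nat_lit 4) (nat_lit 159) (nat_lit 180) (nat_lit 171))) (PT.nd (nat_lit 78) (PT.lf (nat_lit 8740) (nat_lit 6) (nat_lit 115) (nat_lit 4) (nat_lit 160) (nat_lit 180) (nat_lit 170)) (PT.lf (nat_lit 8664) (nat_lit 6) (nat_lit 114) (nat_lit 4) (nat_lit 161) (nat_lit 180) (nat_lit 169)))) (PT.nd (nat_lit 156) (PT.nd (nat_lit 78) (PT.lf (nat_lit 8588) (nat_lit 6) (nat_lit 113) (nat_lit 4) (nat_lit 162) (nat_lit 180) (nat_lit 168)) (PT.lf (nat_lit 8512) (nat_lit 6) (nat_lit 112) (nat_lit 4) (nat_lit 163) (nat_lit 180) (nat_lit 167))) (PT.nd (nat_lit 78) (PT.lf (nat_lit 8436) (nat_lit 6) (nat_lit 111) (nat_lit 4) (nat_lit 164) (nat_lit 180) (nat_lit 166)) (PT.lf (nat_lit 8360) (nat_lit 3) (nat_lit 110) (nat_lit 2) (nat_lit 165) (nat_lit 180) (nat_lit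 165))))))) (PT.nd (nat_lit 1092) (PT.nd (nat_lit 546) (PT.nd (nat_lit 234) (PT.nd (nat_lit 78) (PT.lf (nat_lit 8436) (nat_lit 6) (nat_lit 111) (nat_lit 2) (nat_lit 166) (nat_lit 180) (nat_lit 164)) (PT.nd (nat_lit 78) (PT.lf (nat_lit 8512) (nat_lit 6) (nat_lit 112) (nat_lit 2) (nat_lit 167) (nat_lit 180) (nat_lit 163)) (PT.lf (nat_lit 8588) (nat_lit 6) (nat_lit 113) (nat_lit 2) (nat_lit 168) (nat_lit 180) (nat_lit 162)))) (PT.nd (nat_lit 156) (PT.nd (nat_lit 78) (PT.lf (nat_lit 8664) (nat_lit 6) (nat_lit 114) (nat_lit 2) (nat_lit 169) (nat_lit 180) (nat_lit 161)) (PT.lf (nat_lit 8740) (nat_lit 6) (nat_lit 115) (nat_lit 2) (nat_lit 170) (nat_lit 180) (nat_lit 160))) (PT.nd (nat_lit 78) (PT.lf (nat_lit 7980) (nat_lit 6) (nat_lit 105) (nat_lit 2) (nat_lit 171) (nat_lit 180) (nat_lit 159)) (PT.lf (nat_lit 7600) (nat_lit 6) (nat_lit 100) (nat_lit 2) (nat_lit 172) (nat_lit 180) (nat_lit 158)))))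 (PT.nd (nat_lit 234) (PT.nd (nat_lit 78) (PT.lf (nat_lit 7296) (nat_lit 6) (nat_lit 96) (nat_lit 2) (nat_lit 173) (nat_lit 180) (nat_lit 157)) (PT.nd (nat_lit 78) (PT.lf (nat_lit 6916) (nat_lit 6) (nat_lit 91) (nat_lit 2) (nat_lit 174) (nat_lit 180) (nat_lit 156)) (PT.lf (nat_lit 6612) (nat_lit 6) (nat_lit 87) (nat_lit 2) (nat_lit 175) (nat_lit 180) (nat_lit 155)))) (PT.nd (nat_lit 156) (PT.nd (nat_lit 78) (PT.lf (nat_lit 6308) (nat_lit 6) (nat_lit 83) (nat_lit 2) (nat_lit 176) (nat_lit 180) (nat_lit 154)) (PT.lf (nat_lit 6080) (nat_lit 6) (nat_lit 80) (nat_lit 2) (nat_lit 177) (nat_lit 180) (nat_lit 153))) (PT.nd (nat_lit 78) (PT.lf (nat_lit 5776) (nat_lit 6) (nat_lit 76) (nat_lit 2) (nat_lit 178) (nat_lit 180) (nat_lit 152)) (PT.lf (nat_lit 5548) (nat_lit 6) (nat_lit 73) (nat_lit 2) (nat_lit 179) (nat_lit 180) (nat_lit 151)))))) (PT.nd (nat_lit 50466) (PT.nd (nat_lit 234) (PT.nd (nat_lit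 78) (PT.lf (nat_lit 5320) (nat_lit 3) (nat_lit 70) (nat_lit 0) (nat_lit 180) (nat_lit 180) (nat_lit 150)) (PT.nd (nat_lit 78) (PT.lf (nat_lit 5016) (nat_lit 6) (nat_lit 66) (nat_lit 0) (nat_lit 181) (nat_lit 180) (nat_lit 149)) (PT.lf (nat_lit 4712) (nat_lit 6) (nat_lit 62) (nat_lit 0) (nat_lit 182) (nat_lit 180) (nat_lit 148)))) (PT.nd (nat_lit 50076) (PT.nd (nat_lit 78) (PT.lf (nat_lit 4484) (nat_lit 6) (nat_lit 59) (nat_lit 0) (nat_lit 183) (nat_lit 180) (nat_lit 147)) (PT.lf (nat_lit 4180) (nat_lit 6) (nat_lit 55) (nat_lit 0) (nat_lit 184) (nat_lit 180) (nat_lit 146))) (PT.nd (nat_lit 78) (PT.lf (nat_lit 3800) (nat_lit 6) (nat_lit 50) (nat_lit 5) (nat_lit 144) (nat_lit 181) (nat_lit 185)) (PT.lf (nat_lit 4028) (nat_lit 6) (nat_lit 53) (nat_lit 5) (nat_lit 145) (nat_lit 181) (nat_lit 184))))) (PT.nd (nat_lit 312) (PT.nd (nat_lit 156) (PT.nd (nat_lit 78) (PT.lf (nat_lit 4256) (nat_lit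 6) (nat_lit 56) (nat_lit 5) (nat_lit 146) (nat_lit 181) (nat_lit 183)) (PT.lf (nat_lit 4560) (nat_lit 6) (nat_lit 60) (nat_lit 5) (nat_lit 147) (nat_lit 181) (nat_lit 182))) (PT.nd (nat_lit 78) (PT.lf (nat_lit 4788) (nat_lit 3) (nat_lit 63) (nat_lit 4) (nat_lit 148) (nat_lit 181) (nat_lit 181)) (PT.lf (nat_lit 5016) (nat_lit 6) (nat_lit 66) (nat_lit 4) (nat_lit 149) (nat_lit 181) (nat_lit 180)))) (PT.nd (nat_lit 156) (PT.nd (nat_lit 78) (PT.lf (nat_lit 5244) (nat_lit 6) (nat_lit 69) (nat_lit 4) (nat_lit 150) (nat_lit 181) (nat_lit 179)) (PT.lf (nat_lit 5472) (nat_lit 6) (nat_lit 72) (nat_lit 4) (nat_lit 151) (nat_lit 181) (nat_lit 178))) (PT.nd (nat_lit 78) (PT.lf (nat_lit 5700) (nat_lit 6) (nat_lit 75) (nat_lit 4) (nat_lit 152) (nat_lit 181) (nat_lit 177)) (PT.lf (nat_lit 6004) (nat_lit 6) (nat_lit 79) (nat_lit 4) (nat_lit 153) (nat_lit 181) (nat_lit 176))))))))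
noncomputable def pc12 : PT := (PT.nd (nat_lit 52962) (PT.nd (nat_lit 2184) (PT.nd (nat_lit 1638) (PT.nd (nat_lit 234) (PT.nd (nat_lit 78) (PT.lf (nat_lit 6232) (nat_lit 6) (nat_lit 82) (nat_lit 4) (nat_lit 154) (nat_lit 181) (nat_lit 175)) (PT.nd (nat_lit 78) (PT.lf (nat_lit 6536) (nat_lit 6) (nat_lit 86) (nat_lit 4) (nat_lit 155) (nat_lit 181) (nat_lit 174)) (PT.lf (nat_lit 6840) (nat_lit 6) (nat_lit 90) (nat_lit 4) (nat_lit 156) (nat_lit 181) (nat_lit 173)))) (PT.nd (nat_lit 1248) (PT.nd (nat_lit 1170) (PT.lf (nat_lit 7220) (nat_lit 6) (nat_lit 95) (nat_lit 4) (nat_lit 157) (nat_lit 181) (nat_lit 172)) (PT.lf (nat_lit 7220) (nat_lit 6) (nat_lit 95) (nat_lit 2) (nat_lit 172) (nat_lit 181) (nat_lit 157))) (PT.nd (nat_lit 78) (PT.lf (nat_lit 6840) (nat_lit 6) (nat_lit 90) (nat_lit 2) (nat_lit 173) (nat_lit 181) (nat_lit 156)) (PT.lf (nat_lit 6536) (nat_lit 6) (nat_lit 86) (nat_lit 2) (nat_lit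 174) (nat_lit 181) (nat_lit 155))))) (PT.nd (nat_lit 234) (PT.nd (nat_lit 78) (PT.lf (nat_lit 6232) (nat_lit 6) (nat_lit 82) (nat_lit 2) (nat_lit 175) (nat_lit 181) (nat_lit 154)) (PT.nd (nat_lit 78) (PT.lf (nat_lit 6004) (nat_lit 6) (nat_lit 79) (nat_lit 2) (nat_lit 176) (nat_lit 181) (nat_lit 153)) (PT.lf (nat_lit 5700) (nat_lit 6) (nat_lit 75) (nat_lit 2) (nat_lit 177) (nat_lit 181) (nat_lit 152)))) (PT.nd (nat_lit 156) (PT.nd (nat_lit 78) (PT.lf (nat_lit 5472) (nat_lit 6) (nat_lit 72) (nat_lit 2) (nat_lit 178) (nat_lit 181) (nat_lit 151)) (PT.lf (nat_lit 5244) (nat_lit 6) (nat_lit 69) (nat_lit 2) (nat_lit 179) (nat_lit 181) (nat_lit 150))) (PT.nd (nat_lit 78) (PT.lf (nat_lit 5016) (nat_lit 6) (nat_lit 66) (nat_lit 2) (nat_lit 180) (nat_lit 181) (nat_lit 149)) (PT.lf (nat_lit 4788) (nat_lit 3) (nat_lit 63) (nat_lit 0) (nat_lit 181) (nat_lit 181) (nat_lit 148)))))) (PT.nd (nat_lit 50232)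 (PT.nd (nat_lit 234) (PT.nd (nat_lit 78) (PT.lf (nat_lit 4560) (nat_lit 6) (nat_lit 60) (nat_lit 0) (nat_lit 182) (nat_lit 181) (nat_lit 147)) (PT.nd (nat_lit 78) (PT.lf (nat_lit 4256) (nat_lit 6) (nat_lit 56) (nat_lit 0) (nat_lit 183) (nat_lit 181) (nat_lit 146)) (PT.lf (nat_lit 4028) (nat_lit 6) (nat_lit 53) (nat_lit 0) (nat_lit 184) (nat_lit 181) (nat_lit 145)))) (PT.nd (nat_lit 49842) (PT.nd (nat_lit 49764) (PT.lf (nat_lit 3800) (nat_lit 6) (nat_lit 50) (nat_lit 0) (nat_lit 185) (nat_lit 181) (nat_lit 144)) (PT.lf (nat_lit 3420) (nat_lit 6) (nat_lit 45) (nat_lit 5) (nat_lit 142) (nat_lit 182) (nat_lit 186))) (PT.nd (nat_lit 78) (PT.lf (nat_lit 3648) (nat_lit 6) (nat_lit 48) (nat_lit 5) (nat_lit 143) (nat_lit 182) (nat_lit 185)) (PT.lf (nat_lit 3876) (nat_lit 6) (nat_lit 51) (nat_lit 5) (nat_lit 144) (nat_lit 182) (nat_lit 184))))) (PT.nd (nat_lit 234) (PT.nd (nat_lit 78) (PT.lf (nat_lit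 4104) (nat_lit 6) (nat_lit 54) (nat_lit 5) (nat_lit 145) (nat_lit 182) (nat_lit 183)) (PT.nd (nat_lit 78) (PT.lf (nat_lit 4332) (nat_lit 3) (nat_lit 57) (nat_lit 4) (nat_lit 146) (nat_lit 182) (nat_lit 182)) (PT.lf (nat_lit 4560) (nat_lit 6) (nat_lit 60) (nat_lit 4) (nat_lit 147) (nat_lit 182) (nat_lit 181)))) (PT.nd (nat_lit 156) (PT.nd (nat_lit 78) (PT.lf (nat_lit 4712) (nat_lit 6) (nat_lit 62) (nat_lit 4) (nat_lit 148) (nat_lit 182) (nat_lit 180)) (PT.lf (nat_lit 4940) (nat_lit 6) (nat_lit 65) (nat_lit 4) (nat_lit 149) (nat_lit 182) (nat_lit 179))) (PT.nd (nat_lit 78) (PT.lf (nat_lit 5168) (nat_lit 6) (nat_lit 68) (nat_lit 4) (nat_lit 150) (nat_lit 182) (nat_lit 178)) (PT.lf (nat_lit 5396) (nat_lit 6) (nat_lit 71) (nat_lit 4) (nat_lit 151) (nat_lit 182) (nat_lit 177))))))) (PT.nd (nat_lit 52260) (PT.nd (nat_lit 2184) (PT.nd (nat_lit 1872) (PT.nd (nat_lit 78) (PT.lf (nat_lit 5624) (nat_lit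 6) (nat_lit 74) (nat_lit 4) (nat_lit 152) (nat_lit 182) (nat_lit 176)) (PT.nd (nat_lit 1716) (PT.lf (nat_lit 5928) (nat_lit 6) (nat_lit 78) (nat_lit 4) (nat_lit 153) (nat_lit 182) (nat_lit 175)) (PT.lf (nat_lit 5928) (nat_lit 6) (nat_lit 78) (nat_lit 2) (nat_lit 175) (nat_lit 182) (nat_lit 153)))) (PT.nd (nat_lit 156) (PT.nd (nat_lit 78) (PT.lf (nat_lit 5624) (nat_lit 6) (nat_lit 74) (nat_lit 2) (nat_lit 176) (nat_lit 182) (nat_lit 152)) (PT.lf (nat_lit 5396) (nat_lit 6) (nat_lit 71) (nat_lit 2) (nat_lit 177) (nat_lit 182) (nat_lit 151))) (PT.nd (nat_lit 78) (PT.lf (nat_lit 5168) (nat_lit 6) (nat_lit 68) (nat_lit 2) (nat_lit 178) (nat_lit 182) (nat_lit 150)) (PT.lf (nat_lit 4940) (nat_lit 6) (nat_lit 65) (nat_lit 2) (nat_lit 179) (nat_lit 182) (nat_lit 149))))) (PT.nd (nat_lit 234) (PT.nd (nat_lit 78) (PT.lf (nat_lit 4712) (nat_lit 6) (nat_lit 62) (nat_lit 2) (nat_lit 180) (nat_lit 182)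 (nat_lit 148)) (PT.nd (nat_lit 78) (PT.lf (nat_lit 4560) (nat_lit 6) (nat_lit 60) (nat_lit 2) (nat_lit 181) (nat_lit 182) (nat_lit 147)) (PT.lf (nat_lit 4332) (nat_lit 3) (nat_lit 57) (nat_lit 0) (nat_lit 182) (nat_lit 182) (nat_lit 146)))) (PT.nd (nat_lit 156) (PT.nd (nat_lit 78) (PT.lf (nat_lit 4104) (nat_lit 6) (nat_lit 54) (nat_lit 0) (nat_lit 183) (nat_lit 182) (nat_lit 145)) (PT.lf (nat_lit 3876) (nat_lit 6) (nat_lit 51) (nat_lit 0) (nat_lit 184) (nat_lit 182) (nat_lit 144))) (PT.nd (nat_lit 78) (PT.lf (nat_lit 3648) (nat_lit 6) (nat_lit 48) (nat_lit 0) (nat_lit 185) (nat_lit 182) (nat_lit 143)) (PT.lf (nat_lit 3420) (nat_lit 6) (nat_lit 45) (nat_lit 0) (nat_lit 186) (nat_lit 182) (nat_lit 142)))))) (PT.nd (nat_lit 546) (PT.nd (nat_lit 234) (PT.nd (nat_lit 78) (PT.lf (nat_lit 3268) (nat_lit 6) (nat_lit 43) (nat_lit 5) (nat_lit 141) (nat_lit 183) (nat_lit 186)) (PT.nd (nat_lit 78) (PT.lf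 (nat_lit 3496) (nat_lit 6) (nat_lit 46) (nat_lit 5) (nat_lit 142) (nat_lit 183) (nat_lit 185)) (PT.lf (nat_lit 3724) (nat_lit 6) (nat_lit 49) (nat_lit 5) (nat_lit 143) (nat_lit 183) (nat_lit 184)))) (PT.nd (nat_lit 156) (PT.nd (nat_lit 78) (PT.lf (nat_lit 3952) (nat_lit 3) (nat_lit 52) (nat_lit 4) (nat_lit 144) (nat_lit 183) (nat_lit 183)) (PT.lf (nat_lit 4104) (nat_lit 6) (nat_lit 54) (nat_lit 4) (nat_lit 145) (nat_lit 183) (nat_lit 182))) (PT.nd (nat_lit 78) (PT.lf (nat_lit 4256) (nat_lit 6) (nat_lit 56) (nat_lit 4) (nat_lit 146) (nat_lit 183) (nat_lit 181)) (PT.lf (nat_lit 4484) (nat_lit 6) (nat_lit 59) (nat_lit 4) (nat_lit 147) (nat_lit 183) (nat_lit 180))))) (PT.nd (nat_lit 2340) (PT.nd (nat_lit 156) (PT.nd (nat_lit 78) (PT.lf (nat_lit 4636) (nat_lit 6) (nat_lit 61) (nat_lit 4) (nat_lit 148) (nat_lit 183) (nat_lit 179)) (PT.lf (nat_lit 4864) (nat_lit 6) (nat_lit 64) (nat_lit 4) (nat_lit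 149) (nat_lit 183) (nat_lit 178))) (PT.nd (nat_lit 2106) (PT.lf (nat_lit 5092) (nat_lit 6) (nat_lit 67) (nat_lit 4) (nat_lit 150) (nat_lit 183) (nat_lit 177)) (PT.lf (nat_lit 5092) (nat_lit 6) (nat_lit 67) (nat_lit 2) (nat_lit 177) (nat_lit 183) (nat_lit 150)))) (PT.nd (nat_lit 156) (PT.nd (nat_lit 78) (PT.lf (nat_lit 4864) (nat_lit 6) (nat_lit 64) (nat_lit 2) (nat_lit 178) (nat_lit 183) (nat_lit 149)) (PT.lf (nat_lit 4636) (nat_lit 6) (nat_lit 61) (nat_lit 2) (nat_lit 179) (nat_lit 183) (nat_lit 148))) (PT.nd (nat_lit 78) (PT.lf (nat_lit 4484) (nat_lit 6) (nat_lit 59) (nat_lit 2) (nat_lit 180) (nat_lit 183) (nat_lit 147)) (PT.lf (nat_lit 4256) (nat_lit 6) (nat_lit 56) (nat_lit 2) (nat_lit 181) (nat_lit 183) (nat_lit 146))))))))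
noncomputable def pc13 : PT := (PT.nd (nat_lit 103194) (PT.nd (nat_lit 52884) (PT.nd (nat_lit 49920) (PT.nd (nat_lit 234) (PT.nd (nat_lit 78) (PT.lf (nat_lit 4104) (nat_lit 6) (nat_lit 54) (nat_lit 2) (nat_lit 182) (nat_lit 183) (nat_lit 145)) (PT.nd (nat_lit 78) (PT.lf (nat_lit 3952) (nat_lit 3) (nat_lit 52) (nat_lit 0) (nat_lit 183) (nat_lit 183) (nat_lit 144)) (PT.lf (nat_lit 3724) (nat_lit 6) (nat_lit 49) (nat_lit 0) (nat_lit 184) (nat_lit 183) (nat_lit 143)))) (PT.nd (nat_lit 49530) (PT.nd (nat_lit 78) (PT.lf (nat_lit 3496) (nat_lit 6) (nat_lit 46) (nat_lit 0) (nat_lit 185) (nat_lit 183) (nat_lit 142)) (PT.lf (nat_lit 3268) (nat_lit 6) (nat_lit 43) (nat_lit 0) (nat_lit 186) (nat_lit 183) (nat_lit 141))) (PT.nd (nat_lit 78) (PT.lf (nat_lit 2964) (nat_lit 6) (nat_lit 39) (nat_lit 5) (nat_lit 139) (nat_lit 184) (nat_lit 187)) (PT.lf (nat_lit 3116) (nat_lit 6) (nat_lit 41) (nat_lit 5) (nat_lit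 140) (nat_lit 184) (nat_lit 186))))) (PT.nd (nat_lit 234) (PT.nd (nat_lit 78) (PT.lf (nat_lit 3344) (nat_lit 6) (nat_lit 44) (nat_lit 5) (nat_lit 141) (nat_lit 184) (nat_lit 185)) (PT.nd (nat_lit 78) (PT.lf (nat_lit 3572) (nat_lit 3) (nat_lit 47) (nat_lit 4) (nat_lit 142) (nat_lit 184) (nat_lit 184)) (PT.lf (nat_lit 3724) (nat_lit 6) (nat_lit 49) (nat_lit 4) (nat_lit 143) (nat_lit 184) (nat_lit 183)))) (PT.nd (nat_lit 156) (PT.nd (nat_lit 78) (PT.lf (nat_lit 3876) (nat_lit 6) (nat_lit 51) (nat_lit 4) (nat_lit 144) (nat_lit 184) (nat_lit 182)) (PT.lf (nat_lit 4028) (nat_lit 6) (nat_lit 53) (nat_lit 4) (nat_lit 145) (nat_lit 184) (nat_lit 181))) (PT.nd (nat_lit 78) (PT.lf (nat_lit 4180) (nat_lit 6) (nat_lit 55) (nat_lit 4) (nat_lit 146) (nat_lit 184) (nat_lit 180)) (PT.lf (nat_lit 4408) (nat_lit 6) (nat_lit 58) (nat_lit 4) (nat_lit 147) (nat_lit 184) (nat_lit 179)))))) (PT.nd (nat_lit 546)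 (PT.nd (nat_lit 234) (PT.nd (nat_lit 78) (PT.lf (nat_lit 4408) (nat_lit 6) (nat_lit 58) (nat_lit 2) (nat_lit 179) (nat_lit 184) (nat_lit 147)) (PT.nd (nat_lit 78) (PT.lf (nat_lit 4180) (nat_lit 6) (nat_lit 55) (nat_lit 2) (nat_lit 180) (nat_lit 184) (nat_lit 146)) (PT.lf (nat_lit 4028) (nat_lit 6) (nat_lit 53) (nat_lit 2) (nat_lit 181) (nat_lit 184) (nat_lit 145)))) (PT.nd (nat_lit 156) (PT.nd (nat_lit 78) (PT.lf (nat_lit 3876) (nat_lit 6) (nat_lit 51) (nat_lit 2) (nat_lit 182) (nat_lit 184) (nat_lit 144)) (PT.lf (nat_lit 3724) (nat_lit 6) (nat_lit 49) (nat_lit 2) (nat_lit 183) (nat_lit 184) (nat_lit 143))) (PT.nd (nat_lit 78) (PT.lf (nat_lit 3572) (nat_lit 3) (nat_lit 47) (nat_lit 0) (nat_lit 184) (nat_lit 184) (nat_lit 142)) (PT.lf (nat_lit 3344) (nat_lit 6) (nat_lit 44) (nat_lit 0) (nat_lit 185) (nat_lit 184) (nat_lit 141))))) (PT.nd (nat_lit 49452) (PT.nd (nat_lit 49296) (PT.nd (nat_lit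 78) (PT.lf (nat_lit 3116) (nat_lit 6) (nat_lit 41) (nat_lit 0) (nat_lit 186) (nat_lit 184) (nat_lit 140)) (PT.lf (nat_lit 2964) (nat_lit 6) (nat_lit 39) (nat_lit 0) (nat_lit 187) (nat_lit 184) (nat_lit 139))) (PT.nd (nat_lit 78) (PT.lf (nat_lit 2660) (nat_lit 6) (nat_lit 35) (nat_lit 5) (nat_lit 137) (nat_lit 185) (nat_lit 188)) (PT.lf (nat_lit 2812) (nat_lit 6) (nat_lit 37) (nat_lit 5) (nat_lit 138) (nat_lit 185) (nat_lit 187)))) (PT.nd (nat_lit 156) (PT.nd (nat_lit 78) (PT.lf (nat_lit 3040) (nat_lit 6) (nat_lit 40) (nat_lit 5) (nat_lit 139) (nat_lit 185) (nat_lit 186)) (PT.lf (nat_lit 3192) (nat_lit 3) (nat_lit 42) (nat_lit 4) (nat_lit 140) (nat_lit 185) (nat_lit 185))) (PT.nd (nat_lit 78) (PT.lf (nat_lit 3344) (nat_lit 6) (nat_lit 44) (nat_lit 4) (nat_lit 141) (nat_lit 185) (nat_lit 184)) (PT.lf (nat_lit 3496) (nat_lit 6) (nat_lit 46) (nat_lit 4) (nat_lit 142) (nat_lit 185) (nat_lit 183)))))))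 (PT.nd (nat_lit 52806) (PT.nd (nat_lit 3354) (PT.nd (nat_lit 3042) (PT.nd (nat_lit 78) (PT.lf (nat_lit 3648) (nat_lit 6) (nat_lit 48) (nat_lit 4) (nat_lit 143) (nat_lit 185) (nat_lit 182)) (PT.nd (nat_lit 2886) (PT.lf (nat_lit 3800) (nat_lit 6) (nat_lit 50) (nat_lit 4) (nat_lit 144) (nat_lit 185) (nat_lit 181)) (PT.lf (nat_lit 3800) (nat_lit 6) (nat_lit 50) (nat_lit 2) (nat_lit 181) (nat_lit 185) (nat_lit 144)))) (PT.nd (nat_lit 156) (PT.nd (nat_lit 78) (PT.lf (nat_lit 3648) (nat_lit 6) (nat_lit 48) (nat_lit 2) (nat_lit 182) (nat_lit 185) (nat_lit 143)) (PT.lf (nat_lit 3496) (nat_lit 6) (nat_lit 46) (nat_lit 2) (nat_lit 183) (nat_lit 185) (nat_lit 142))) (PT.nd (nat_lit 78) (PT.lf (nat_lit 3344) (nat_lit 6) (nat_lit 44) (nat_lit 2) (nat_lit 184) (nat_lit 185) (nat_lit 141)) (PT.lf (nat_lit 3192) (nat_lit 3) (nat_lit 42) (nat_lit 0) (nat_lit 185) (nat_lit 185) (nat_lit 140))))) (PT.nd (nat_lit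 49140) (PT.nd (nat_lit 78) (PT.lf (nat_lit 3040) (nat_lit 6) (nat_lit 40) (nat_lit 0) (nat_lit 186) (nat_lit 185) (nat_lit 139)) (PT.nd (nat_lit 78) (PT.lf (nat_lit 2812) (nat_lit 6) (nat_lit 37) (nat_lit 0) (nat_lit 187) (nat_lit 185) (nat_lit 138)) (PT.lf (nat_lit 2660) (nat_lit 6) (nat_lit 35) (nat_lit 0) (nat_lit 188) (nat_lit 185) (nat_lit 137)))) (PT.nd (nat_lit 156) (PT.nd (nat_lit 78) (PT.lf (nat_lit 2356) (nat_lit 6) (nat_lit 31) (nat_lit 5) (nat_lit 135) (nat_lit 186) (nat_lit 189)) (PT.lf (nat_lit 2508) (nat_lit 6) (nat_lit 33) (nat_lit 5) (nat_lit 136) (nat_lit 186) (nat_lit 188))) (PT.nd (nat_lit 78) (PT.lf (nat_lit 2736) (nat_lit 6) (nat_lit 36) (nat_lit 5) (nat_lit 137) (nat_lit 186) (nat_lit 187)) (PT.lf (nat_lit 2888) (nat_lit 3) (nat_lit 38) (nat_lit 4) (nat_lit 138) (nat_lit 186) (nat_lit 186)))))) (PT.nd (nat_lit 3588) (PT.nd (nat_lit 234) (PT.nd (nat_lit 78) (PT.lf (nat_lit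 3040) (nat_lit 6) (nat_lit 40) (nat_lit 4) (nat_lit 139) (nat_lit 186) (nat_lit 185)) (PT.nd (nat_lit 78) (PT.lf (nat_lit 3116) (nat_lit 6) (nat_lit 41) (nat_lit 4) (nat_lit 140) (nat_lit 186) (nat_lit 184)) (PT.lf (nat_lit 3268) (nat_lit 6) (nat_lit 43) (nat_lit 4) (nat_lit 141) (nat_lit 186) (nat_lit 183)))) (PT.nd (nat_lit 3198) (PT.nd (nat_lit 3120) (PT.lf (nat_lit 3420) (nat_lit 6) (nat_lit 45) (nat_lit 4) (nat_lit 142) (nat_lit 186) (nat_lit 182)) (PT.lf (nat_lit 3420) (nat_lit 6) (nat_lit 45) (nat_lit 2) (nat_lit 182) (nat_lit 186) (nat_lit 142))) (PT.nd (nat_lit 78) (PT.lf (nat_lit 3268) (nat_lit 6) (nat_lit 43) (nat_lit 2) (nat_lit 183) (nat_lit 186) (nat_lit 141)) (PT.lf (nat_lit 3116) (nat_lit 6) (nat_lit 41) (nat_lit 2) (nat_lit 184) (nat_lit 186) (nat_lit 140))))) (PT.nd (nat_lit 312) (PT.nd (nat_lit 156) (PT.nd (nat_lit 78) (PT.lf (nat_lit 3040) (nat_lit 6) (nat_lit 40) (nat_lit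 2) (nat_lit 185) (nat_lit 186) (nat_lit 139)) (PT.lf (nat_lit 2888) (nat_lit 3) (nat_lit 38) (nat_lit 0) (nat_lit 186) (nat_lit 186) (nat_lit 138))) (PT.nd (nat_lit 78) (PT.lf (nat_lit 2736) (nat_lit 6) (nat_lit 36) (nat_lit 0) (nat_lit 187) (nat_lit 186) (nat_lit 137)) (PT.lf (nat_lit 2508) (nat_lit 6) (nat_lit 33) (nat_lit 0) (nat_lit 188) (nat_lit 186) (nat_lit 136)))) (PT.nd (nat_lit 48906) (PT.nd (nat_lit 48828) (PT.lf (nat_lit 2356) (nat_lit 6) (nat_lit 31) (nat_lit 0) (nat_lit 189) (nat_lit 186) (nat_lit 135)) (PT.lf (nat_lit 2204) (nat_lit 6) (nat_lit 29) (nat_lit 5) (nat_lit 134) (nat_lit 187) (nat_lit 189))) (PT.nd (nat_lit 78) (PT.lf (nat_lit 2432) (nat_lit 6) (nat_lit 32) (nat_lit 5) (nat_lit 135) (nat_lit 187) (nat_lit 188)) (PT.lf (nat_lit 2584) (nat_lit 3) (nat_lit 34) (nat_lit 4) (nat_lit 136) (nat_lit 187) (nat_lit 187))))))))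
noncomputable def pc14 : PT := (PT.nd (nat_lit 110136) (PT.nd (nat_lit 53118) (PT.nd (nat_lit 3978) (PT.nd (nat_lit 3666) (PT.nd (nat_lit 78) (PT.lf (nat_lit 2736) (nat_lit 6) (nat_lit 36) (nat_lit 4) (nat_lit 137) (nat_lit 187) (nat_lit 186)) (PT.nd (nat_lit 78) (PT.lf (nat_lit 2812) (nat_lit 6) (nat_lit 37) (nat_lit 4) (nat_lit 138) (nat_lit 187) (nat_lit 185)) (PT.lf (nat_lit 2964) (nat_lit 6) (nat_lit 39) (nat_lit 4) (nat_lit 139) (nat_lit 187) (nat_lit 184)))) (PT.nd (nat_lit 156) (PT.nd (nat_lit 78) (PT.lf (nat_lit 2964) (nat_lit 6) (nat_lit 39) (nat_lit 2) (nat_lit 184) (nat_lit 187) (nat_lit 139)) (PT.lf (nat_lit 2812) (nat_lit 6) (nat_lit 37) (nat_lit 2) (nat_lit 185) (nat_lit 187) (nat_lit 138))) (PT.nd (nat_lit 78) (PT.lf (nat_lit 2736) (nat_lit 6) (nat_lit 36) (nat_lit 2) (nat_lit 186) (nat_lit 187) (nat_lit 137)) (PT.lf (nat_lit 2584) (nat_lit 3) (nat_lit 34) (nat_lit 0) (nat_lit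 187) (nat_lit 187) (nat_lit 136))))) (PT.nd (nat_lit 48828) (PT.nd (nat_lit 78) (PT.lf (nat_lit 2432) (nat_lit 6) (nat_lit 32) (nat_lit 0) (nat_lit 188) (nat_lit 187) (nat_lit 135)) (PT.nd (nat_lit 48672) (PT.lf (nat_lit 2204) (nat_lit 6) (nat_lit 29) (nat_lit 0) (nat_lit 189) (nat_lit 187) (nat_lit 134)) (PT.lf (nat_lit 1976) (nat_lit 6) (nat_lit 26) (nat_lit 5) (nat_lit 132) (nat_lit 188) (nat_lit 190)))) (PT.nd (nat_lit 156) (PT.nd (nat_lit 78) (PT.lf (nat_lit 2128) (nat_lit 6) (nat_lit 28) (nat_lit 5) (nat_lit 133) (nat_lit 188) (nat_lit 189)) (PT.lf (nat_lit 2280) (nat_lit 3) (nat_lit 30) (nat_lit 4) (nat_lit 134) (nat_lit 188) (nat_lit 188))) (PT.nd (nat_lit 78) (PT.lf (nat_lit 2432) (nat_lit 6) (nat_lit 32) (nat_lit 4) (nat_lit 135) (nat_lit 188) (nat_lit 187)) (PT.lf (nat_lit 2508) (nat_lit 6) (nat_lit 33) (nat_lit 4) (nat_lit 136) (nat_lit 188) (nat_lit 186)))))) (PT.nd (nat_lit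 52572) (PT.nd (nat_lit 3900) (PT.nd (nat_lit 3744) (PT.lf (nat_lit 2660) (nat_lit 6) (nat_lit 35) (nat_lit 4) (nat_lit 137) (nat_lit 188) (nat_lit 185)) (PT.nd (nat_lit 78) (PT.lf (nat_lit 2660) (nat_lit 6) (nat_lit 35) (nat_lit 2) (nat_lit 185) (nat_lit 188) (nat_lit 137)) (PT.lf (nat_lit 2508) (nat_lit 6) (nat_lit 33) (nat_lit 2) (nat_lit 186) (nat_lit 188) (nat_lit 136)))) (PT.nd (nat_lit 156) (PT.nd (nat_lit 78) (PT.lf (nat_lit 2432) (nat_lit 6) (nat_lit 32) (nat_lit 2) (nat_lit 187) (nat_lit 188) (nat_lit 135)) (PT.lf (nat_lit 2280) (nat_lit 3) (nat_lit 30) (nat_lit 0) (nat_lit 188) (nat_lit 188) (nat_lit 134))) (PT.nd (nat_lit 78) (PT.lf (nat_lit 2128) (nat_lit 6) (nat_lit 28) (nat_lit 0) (nat_lit 189) (nat_lit 188) (nat_lit 133)) (PT.lf (nat_lit 1976) (nat_lit 6) (nat_lit 26) (nat_lit 0) (nat_lit 190) (nat_lit 188) (nat_lit 132))))) (PT.nd (nat_lit 234) (PT.nd (nat_lit 78) (PT.lf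 (nat_lit 1748) (nat_lit 6) (nat_lit 23) (nat_lit 5) (nat_lit 130) (nat_lit 189) (nat_lit 191)) (PT.nd (nat_lit 78) (PT.lf (nat_lit 1900) (nat_lit 6) (nat_lit 25) (nat_lit 5) (nat_lit 131) (nat_lit 189) (nat_lit 190)) (PT.lf (nat_lit 2052) (nat_lit 3) (nat_lit 27) (nat_lit 4) (nat_lit 132) (nat_lit 189) (nat_lit 189)))) (PT.nd (nat_lit 156) (PT.nd (nat_lit 78) (PT.lf (nat_lit 2128) (nat_lit 6) (nat_lit 28) (nat_lit 4) (nat_lit 133) (nat_lit 189) (nat_lit 188)) (PT.lf (nat_lit 2204) (nat_lit 6) (nat_lit 29) (nat_lit 4) (nat_lit 134) (nat_lit 189) (nat_lit 187))) (PT.nd (nat_lit 3978) (PT.lf (nat_lit 2356) (nat_lit 6) (nat_lit 31) (nat_lit 4) (nat_lit 135) (nat_lit 189) (nat_lit 186)) (PT.lf (nat_lit 2356) (nat_lit 6) (nat_lit 31) (nat_lit 2) (nat_lit 186) (nat_lit 189) (nat_lit 135))))))) (PT.nd (nat_lit 53508) (PT.nd (nat_lit 48672) (PT.nd (nat_lit 234) (PT.nd (nat_lit 78) (PT.lf (nat_lit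 2204) (nat_lit 6) (nat_lit 29) (nat_lit 2) (nat_lit 187) (nat_lit 189) (nat_lit 134)) (PT.nd (nat_lit 78) (PT.lf (nat_lit 2128) (nat_lit 6) (nat_lit 28) (nat_lit 2) (nat_lit 188) (nat_lit 189) (nat_lit 133)) (PT.lf (nat_lit 2052) (nat_lit 3) (nat_lit 27) (nat_lit 0) (nat_lit 189) (nat_lit 189) (nat_lit 132)))) (PT.nd (nat_lit 48282) (PT.nd (nat_lit 78) (PT.lf (nat_lit 1900) (nat_lit 6) (nat_lit 25) (nat_lit 0) (nat_lit 190) (nat_lit 189) (nat_lit 131)) (PT.lf (nat_lit 1748) (nat_lit 6) (nat_lit 23) (nat_lit 0) (nat_lit 191) (nat_lit 189) (nat_lit 130))) (PT.nd (nat_lit 78) (PT.lf (nat_lit 1520) (nat_lit 6) (nat_lit 20) (nat_lit 5) (nat_lit 128) (nat_lit 190) (nat_lit 192)) (PT.lf (nat_lit 1672) (nat_lit 6) (nat_lit 22) (nat_lit 5) (nat_lit 129) (nat_lit 190) (nat_lit 191))))) (PT.nd (nat_lit 4524) (PT.nd (nat_lit 78) (PT.lf (nat_lit 1824) (nat_lit 3) (nat_lit 24) (nat_lit 4) (nat_lit 130)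 (nat_lit 190) (nat_lit 190)) (PT.nd (nat_lit 78) (PT.lf (nat_lit 1900) (nat_lit 6) (nat_lit 25) (nat_lit 4) (nat_lit 131) (nat_lit 190) (nat_lit 189)) (PT.lf (nat_lit 1976) (nat_lit 6) (nat_lit 26) (nat_lit 4) (nat_lit 132) (nat_lit 190) (nat_lit 188)))) (PT.nd (nat_lit 156) (PT.nd (nat_lit 78) (PT.lf (nat_lit 1976) (nat_lit 6) (nat_lit 26) (nat_lit 2) (nat_lit 188) (nat_lit 190) (nat_lit 132)) (PT.lf (nat_lit 1900) (nat_lit 6) (nat_lit 25) (nat_lit 2) (nat_lit 189) (nat_lit 190) (nat_lit 131))) (PT.nd (nat_lit 78) (PT.lf (nat_lit 1824) (nat_lit 3) (nat_lit 24) (nat_lit 0) (nat_lit 190) (nat_lit 190) (nat_lit 130)) (PT.lf (nat_lit 1672) (nat_lit 6) (nat_lit 22) (nat_lit 0) (nat_lit 191) (nat_lit 190) (nat_lit 129)))))) (PT.nd (nat_lit 52962) (PT.nd (nat_lit 48126) (PT.nd (nat_lit 47970) (PT.lf (nat_lit 1520) (nat_lit 6) (nat_lit 20) (nat_lit 0) (nat_lit 192) (nat_lit 190) (nat_lit 128))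 (PT.nd (nat_lit 78) (PT.lf (nat_lit 1292) (nat_lit 6) (nat_lit 17) (nat_lit 5) (nat_lit 126) (nat_lit 191) (nat_lit 193)) (PT.lf (nat_lit 1444) (nat_lit 6) (nat_lit 19) (nat_lit 5) (nat_lit 127) (nat_lit 191) (nat_lit 192)))) (PT.nd (nat_lit 156) (PT.nd (nat_lit 78) (PT.lf (nat_lit 1596) (nat_lit 3) (nat_lit 21) (nat_lit 4) (nat_lit 128) (nat_lit 191) (nat_lit 191)) (PT.lf (nat_lit 1672) (nat_lit 6) (nat_lit 22) (nat_lit 4) (nat_lit 129) (nat_lit 191) (nat_lit 190))) (PT.nd (nat_lit 4602) (PT.lf (nat_lit 1748) (nat_lit 6) (nat_lit 23) (nat_lit 4) (nat_lit 130) (nat_lit 191) (nat_lit 189)) (PT.lf (nat_lit 1748) (nat_lit 6) (nat_lit 23) (nat_lit 2) (nat_lit 189) (nat_lit 191) (nat_lit 130))))) (PT.nd (nat_lit 47970) (PT.nd (nat_lit 156) (PT.nd (nat_lit 78) (PT.lf (nat_lit 1672) (nat_lit 6) (nat_lit 22) (nat_lit 2) (nat_lit 190) (nat_lit 191) (nat_lit 129)) (PT.lf (nat_lit 1596) (nat_lit 3)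 (nat_lit 21) (nat_lit 0) (nat_lit 191) (nat_lit 191) (nat_lit 128))) (PT.nd (nat_lit 78) (PT.lf (nat_lit 1444) (nat_lit 6) (nat_lit 19) (nat_lit 0) (nat_lit 192) (nat_lit 191) (nat_lit 127)) (PT.lf (nat_lit 1292) (nat_lit 6) (nat_lit 17) (nat_lit 0) (nat_lit 193) (nat_lit 191) (nat_lit 126)))) (PT.nd (nat_lit 156) (PT.nd (nat_lit 78) (PT.lf (nat_lit 1064) (nat_lit 6) (nat_lit 14) (nat_lit 5) (nat_lit 124) (nat_lit 192) (nat_lit 194)) (PT.lf (nat_lit 1216) (nat_lit 6) (nat_lit 16) (nat_lit 5) (nat_lit 125) (nat_lit 192) (nat_lit 193))) (PT.nd (nat_lit 78) (PT.lf (nat_lit 1368) (nat_lit 3) (nat_lit 18) (nat_lit 4) (nat_lit 126) (nat_lit 192) (nat_lit 192)) (PT.lf (nat_lit 1444) (nat_lit 6) (nat_lit 19) (nat_lit 4) (nat_lit 127) (nat_lit 192) (nat_lit 191))))))))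
noncomputable def pc15 : PT := (PT.nd (nat_lit 158808) (PT.nd (nat_lit 58266) (PT.nd (nat_lit 52728) (PT.nd (nat_lit 4992) (PT.nd (nat_lit 4836) (PT.lf (nat_lit 1520) (nat_lit 6) (nat_lit 20) (nat_lit 4) (nat_lit 128) (nat_lit 192) (nat_lit 190)) (PT.nd (nat_lit 78) (PT.lf (nat_lit 1520) (nat_lit 6) (nat_lit 20) (nat_lit 2) (nat_lit 190) (nat_lit 192) (nat_lit 128)) (PT.lf (nat_lit 1444) (nat_lit 6) (nat_lit 19) (nat_lit 2) (nat_lit 191) (nat_lit 192) (nat_lit 127)))) (PT.nd (nat_lit 156) (PT.nd (nat_lit 78) (PT.lf (nat_lit 1368) (nat_lit 3) (nat_lit 18) (nat_lit 0) (nat_lit 192) (nat_lit 192) (nat_lit 126)) (PT.lf (nat_lit 1216) (nat_lit 6) (nat_lit 16) (nat_lit 0) (nat_lit 193) (nat_lit 192) (nat_lit 125))) (PT.nd (nat_lit 47502) (PT.lf (nat_lit 1064) (nat_lit 6) (nat_lit 14) (nat_lit 0) (nat_lit 194) (nat_lit 192) (nat_lit 124)) (PT.lf (nat_lit 836) (nat_lit 6) (nat_lit 11) (nat_lit 5)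 (nat_lit 122) (nat_lit 193) (nat_lit 195))))) (PT.nd (nat_lit 234) (PT.nd (nat_lit 78) (PT.lf (nat_lit 988) (nat_lit 6) (nat_lit 13) (nat_lit 5) (nat_lit 123) (nat_lit 193) (nat_lit 194)) (PT.nd (nat_lit 78) (PT.lf (nat_lit 1140) (nat_lit 3) (nat_lit 15) (nat_lit 4) (nat_lit 124) (nat_lit 193) (nat_lit 193)) (PT.lf (nat_lit 1216) (nat_lit 6) (nat_lit 16) (nat_lit 4) (nat_lit 125) (nat_lit 193) (nat_lit 192)))) (PT.nd (nat_lit 5148) (PT.nd (nat_lit 5070) (PT.lf (nat_lit 1292) (nat_lit 6) (nat_lit 17) (nat_lit 4) (nat_lit 126) (nat_lit 193) (nat_lit 191)) (PT.lf (nat_lit 1292) (nat_lit 6) (nat_lit 17) (nat_lit 2) (nat_lit 191) (nat_lit 193) (nat_lit 126))) (PT.nd (nat_lit 78) (PT.lf (nat_lit 1216) (nat_lit 6) (nat_lit 16) (nat_lit 2) (nat_lit 192) (nat_lit 193) (nat_lit 125)) (PT.lf (nat_lit 1140) (nat_lit 3) (nat_lit 15) (nat_lit 0) (nat_lit 193) (nat_lit 193) (nat_lit 124)))))) (PT.nd (nat_lit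 52962) (PT.nd (nat_lit 47424) (PT.nd (nat_lit 78) (PT.lf (nat_lit 988) (nat_lit 6) (nat_lit 13) (nat_lit 0) (nat_lit 194) (nat_lit 193) (nat_lit 123)) (PT.nd (nat_lit 47268) (PT.lf (nat_lit 836) (nat_lit 6) (nat_lit 11) (nat_lit 0) (nat_lit 195) (nat_lit 193) (nat_lit 122)) (PT.lf (nat_lit 608) (nat_lit 6) (nat_lit 8) (nat_lit 5) (nat_lit 120) (nat_lit 194) (nat_lit 196)))) (PT.nd (nat_lit 156) (PT.nd (nat_lit 78) (PT.lf (nat_lit 760) (nat_lit 6) (nat_lit 10) (nat_lit 5) (nat_lit 121) (nat_lit 194) (nat_lit 195)) (PT.lf (nat_lit 912) (nat_lit 3) (nat_lit 12) (nat_lit 4) (nat_lit 122) (nat_lit 194) (nat_lit 194))) (PT.nd (nat_lit 78) (PT.lf (nat_lit 988) (nat_lit 6) (nat_lit 13) (nat_lit 4) (nat_lit 123) (nat_lit 194) (nat_lit 193)) (PT.lf (nat_lit 1064) (nat_lit 6) (nat_lit 14) (nat_lit 4) (nat_lit 124) (nat_lit 194) (nat_lit 192))))) (PT.nd (nat_lit 312) (PT.nd (nat_lit 156) (PT.nd (nat_lit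 78) (PT.lf (nat_lit 1064) (nat_lit 6) (nat_lit 14) (nat_lit 2) (nat_lit 192) (nat_lit 194) (nat_lit 124)) (PT.lf (nat_lit 988) (nat_lit 6) (nat_lit 13) (nat_lit 2) (nat_lit 193) (nat_lit 194) (nat_lit 123))) (PT.nd (nat_lit 78) (PT.lf (nat_lit 912) (nat_lit 3) (nat_lit 12) (nat_lit 0) (nat_lit 194) (nat_lit 194) (nat_lit 122)) (PT.lf (nat_lit 760) (nat_lit 6) (nat_lit 10) (nat_lit 0) (nat_lit 195) (nat_lit 194) (nat_lit 121)))) (PT.nd (nat_lit 47112) (PT.nd (nat_lit 47034) (PT.lf (nat_lit 608) (nat_lit 6) (nat_lit 8) (nat_lit 0) (nat_lit 196) (nat_lit 194) (nat_lit 120)) (PT.lf (nat_lit 380) (nat_lit 6) (nat_lit 5) (nat_lit 5) (nat_lit 118) (nat_lit 195) (nat_lit 197))) (PT.nd (nat_lit 78) (PT.lf (nat_lit 532) (nat_lit 6) (nat_lit 7) (nat_lit 5) (nat_lit 119) (nat_lit 195) (nat_lit 196)) (PT.lf (nat_lit 684) (nat_lit 3) (nat_lit 9) (nat_lit 4) (nat_lit 120) (nat_lit 195) (nat_lit 195)))))))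 (PT.nd (nat_lit 58968) (PT.nd (nat_lit 52728) (PT.nd (nat_lit 5694) (PT.nd (nat_lit 78) (PT.lf (nat_lit 760) (nat_lit 6) (nat_lit 10) (nat_lit 4) (nat_lit 121) (nat_lit 195) (nat_lit 194)) (PT.nd (nat_lit 5538) (PT.lf (nat_lit 836) (nat_lit 6) (nat_lit 11) (nat_lit 4) (nat_lit 122) (nat_lit 195) (nat_lit 193)) (PT.lf (nat_lit 836) (nat_lit 6) (nat_lit 11) (nat_lit 2) (nat_lit 193) (nat_lit 195) (nat_lit 122)))) (PT.nd (nat_lit 156) (PT.nd (nat_lit 78) (PT.lf (nat_lit 760) (nat_lit 6) (nat_lit 10) (nat_lit 2) (nat_lit 194) (nat_lit 195) (nat_lit 121)) (PT.lf (nat_lit 684) (nat_lit 3) (nat_lit 9) (nat_lit 0) (nat_lit 195) (nat_lit 195) (nat_lit 120))) (PT.nd (nat_lit 78) (PT.lf (nat_lit 532) (nat_lit 6) (nat_lit 7) (nat_lit 0) (nat_lit 196) (nat_lit 195) (nat_lit 119)) (PT.lf (nat_lit 380) (nat_lit 6) (nat_lit 5) (nat_lit 0) (nat_lit 197) (nat_lit 195) (nat_lit 118))))) (PT.nd (nat_lit 234)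 (PT.nd (nat_lit 78) (PT.lf (nat_lit 152) (nat_lit 6) (nat_lit 2) (nat_lit 5) (nat_lit 116) (nat_lit 196) (nat_lit 198)) (PT.nd (nat_lit 78) (PT.lf (nat_lit 304) (nat_lit 6) (nat_lit 4) (nat_lit 5) (nat_lit 117) (nat_lit 196) (nat_lit 197)) (PT.lf (nat_lit 456) (nat_lit 3) (nat_lit 6) (nat_lit 4) (nat_lit 118) (nat_lit 196) (nat_lit 196)))) (PT.nd (nat_lit 5850) (PT.nd (nat_lit 78) (PT.lf (nat_lit 532) (nat_lit 6) (nat_lit 7) (nat_lit 4) (nat_lit 119) (nat_lit 196) (nat_lit 195)) (PT.lf (nat_lit 608) (nat_lit 6) (nat_lit 8) (nat_lit 4) (nat_lit 120) (nat_lit 196) (nat_lit 194))) (PT.nd (nat_lit 78) (PT.lf (nat_lit 608) (nat_lit 6) (nat_lit 8) (nat_lit 2) (nat_lit 194) (nat_lit 196) (nat_lit 120)) (PT.lf (nat_lit 532) (nat_lit 6) (nat_lit 7) (nat_lit 2) (nat_lit 195) (nat_lit 196) (nat_lit 119)))))) (PT.nd (nat_lit 53040) (PT.nd (nat_lit 46800) (PT.nd (nat_lit 78) (PT.lf (nat_lit 456) (nat_lit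 3) (nat_lit 6) (nat_lit 0) (nat_lit 196) (nat_lit 196) (nat_lit 118)) (PT.nd (nat_lit 78) (PT.lf (nat_lit 304) (nat_lit 6) (nat_lit 4) (nat_lit 0) (nat_lit 197) (nat_lit 196) (nat_lit 117)) (PT.lf (nat_lit 152) (nat_lit 6) (nat_lit 2) (nat_lit 0) (nat_lit 198) (nat_lit 196) (nat_lit 116)))) (PT.nd (nat_lit 156) (PT.nd (nat_lit 78) (PT.lf (nat_lit 76) (nat_lit 6) (nat_lit 1) (nat_lit 5) (nat_lit 115) (nat_lit 197) (nat_lit 198)) (PT.lf (nat_lit 228) (nat_lit 3) (nat_lit 3) (nat_lit 4) (nat_lit 116) (nat_lit 197) (nat_lit 197))) (PT.nd (nat_lit 78) (PT.lf (nat_lit 304) (nat_lit 6) (nat_lit 4) (nat_lit 4) (nat_lit 117) (nat_lit 197) (nat_lit 196)) (PT.lf (nat_lit 380) (nat_lit 6) (nat_lit 5) (nat_lit 4) (nat_lit 118) (nat_lit 197) (nat_lit 195))))) (PT.nd (nat_lit 46878) (PT.nd (nat_lit 156) (PT.nd (nat_lit 78) (PT.lf (nat_lit 380) (nat_lit 6) (nat_lit 5) (nat_lit 2) (nat_lit 195) (nat_lit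 197) (nat_lit 118)) (PT.lf (nat_lit 304) (nat_lit 6) (nat_lit 4) (nat_lit 2) (nat_lit 196) (nat_lit 197) (nat_lit 117))) (PT.nd (nat_lit 78) (PT.lf (nat_lit 228) (nat_lit 3) (nat_lit 3) (nat_lit 0) (nat_lit 197) (nat_lit 197) (nat_lit 116)) (PT.lf (nat_lit 76) (nat_lit 6) (nat_lit 1) (nat_lit 0) (nat_lit 198) (nat_lit 197) (nat_lit 115)))) (PT.nd (nat_lit 6318) (PT.nd (nat_lit 78) (PT.lf (nat_lit 76) (nat_lit 6) (nat_lit 1) (nat_lit 4) (nat_lit 115) (nat_lit 198) (nat_lit 197)) (PT.lf (nat_lit 152) (nat_lit 6) (nat_lit 2) (nat_lit 4) (nat_lit 116) (nat_lit 198) (nat_lit 196))) (PT.nd (nat_lit 78) (PT.lf (nat_lit 152) (nat_lit 6) (nat_lit 2) (nat_lit 2) (nat_lit 196) (nat_lit 198) (nat_lit 116)) (PT.lf (nat_lit 76) (nat_lit 6) (nat_lit 1) (nat_lit 2) (nat_lit 197) (nat_lit 198) (nat_lit 115))))))))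
noncomputable def xc0 : XT := (XT.nd (nat_lit 212238) (nat_lit 0) (nat_lit 0) (XT.nd (nat_lit 158886) (nat_lit 0) (nat_lit 0) (XT.nd (nat_lit 105924) (nat_lit 0) (nat_lit 0) (XT.nd (nat_lit 53040) (nat_lit 0) (nat_lit 0) (XT.nd (nat_lit 78) (nat_lit 0) (nat_lit 0) (XT.lf (nat_lit 0) (nat_lit 139312857632) (nat_lit 152) (nat_lit 110204528321) (nat_lit 0) (nat_lit 139312857632) (nat_lit 1) (nat_lit 5) (nat_lit 3) (nat_lit 4) (nat_lit 1) (nat_lit 4) (nat_lit 480) (nat_lit 270) (nat_lit 270)) (XT.nd (nat_lit 52884) (nat_lit 0) (nat_lit 0) (XT.lf (nat_lit 0) (nat_lit 294041972282) (nat_lit 152) (nat_lit 228410140909) (nat_lit 0) (nat_lit 294015694866) (nat_lit 1) (nat_lit 5) (nat_lit 3) (nat_lit 4) (nat_lit 1) (nat_lit 4) (nat_lit 481) (nat_lit 270) (nat_lit 269)) (XT.lf (nat_lit 0) (nat_lit 124935384085) (nat_lit 152) (nat_lit 102883044451) (nat_lit 0) (nat_lit 124935384085) (nat_lit 1) (nat_lit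 5) (nat_lit 3) (nat_lit 4) (nat_lit 1) (nat_lit 4) (nat_lit 478) (nat_lit 271) (nat_lit 271)))) (XT.nd (nat_lit 78) (nat_lit 0) (nat_lit 0) (XT.lf (nat_lit 0) (nat_lit 263923526395) (nat_lit 152) (nat_lit 212884056353) (nat_lit 0) (nat_lit 263895935108) (nat_lit 1) (nat_lit 5) (nat_lit 3) (nat_lit 4) (nat_lit 1) (nat_lit 4) (nat_lit 479) (nat_lit 271) (nat_lit 270)) (XT.nd (nat_lit 78) (nat_lit 0) (nat_lit 0) (XT.lf (nat_lit 0) (nat_lit 278628910382) (nat_lit 152) (nat_lit 220457756136) (nat_lit 0) (nat_lit 278575041679) (nat_lit 1) (nat_lit 5) (nat_lit 3) (nat_lit 4) (nat_lit 1) (nat_lit 4) (nat_lit 480) (nat_lit 271) (nat_lit 269)) (XT.lf (nat_lit 0) (nat_lit 294021932952) (nat_lit 152) (nat_lit 228505220871) (nat_lit 0) (nat_lit 293943038138) (nat_lit 1) (nat_lit 5) (nat_lit 3) (nat_lit 4) (nat_lit 1) (nat_lit 4) (nat_lit 481) (nat_lit 271) (nat_lit 268))))) (XT.nd (nat_lit 234) (nat_lit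 0) (nat_lit 0) (XT.nd (nat_lit 78) (nat_lit 0) (nat_lit 0) (XT.lf (nat_lit 0) (nat_lit 111823317525) (nat_lit 152) (nat_lit 96388457185) (nat_lit 0) (nat_lit 111823317525) (nat_lit 1) (nat_lit 5) (nat_lit 3) (nat_lit 4) (nat_lit 1) (nat_lit 4) (nat_lit 476) (nat_lit 272) (nat_lit 272)) (XT.nd (nat_lit 78) (nat_lit 0) (nat_lit 0) (XT.lf (nat_lit 0) (nat_lit 236466147610) (nat_lit 152) (nat_lit 199086906245) (nat_lit 0) (nat_lit 236437176759) (nat_lit 1) (nat_lit 5) (nat_lit 3) (nat_lit 4) (nat_lit 1) (nat_lit 4) (nat_lit 477) (nat_lit 272) (nat_lit 271)) (XT.lf (nat_lit 0) (nat_lit 249874123042) (nat_lit 152) (nat_lit 205817223371) (nat_lit 0) (nat_lit 249817560904) (nat_lit 1) (nat_lit 5) (nat_lit 3) (nat_lit 4) (nat_lit 1) (nat_lit 4) (nat_lit 478) (nat_lit 272) (nat_lit 270)))) (XT.nd (nat_lit 78) (nat_lit 0) (nat_lit 0) (XT.lf (nat_lit 0) (nat_lit 263902485097) (nat_lit 152) (nat_lit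 212983890314) (nat_lit 0) (nat_lit 263819645543) (nat_lit 1) (nat_lit 5) (nat_lit 3) (nat_lit 4) (nat_lit 1) (nat_lit 4) (nat_lit 479) (nat_lit 272) (nat_lit 269)) (XT.nd (nat_lit 78) (nat_lit 0) (nat_lit 0) (XT.lf (nat_lit 0) (nat_lit 278584634637) (nat_lit 152) (nat_lit 220603970566) (nat_lit 0) (nat_lit 278476768973) (nat_lit 1) (nat_lit 5) (nat_lit 3) (nat_lit 4) (nat_lit 1) (nat_lit 4) (nat_lit 480) (nat_lit 272) (nat_lit 268)) (XT.lf (nat_lit 0) (nat_lit 293955529161) (nat_lit 152) (nat_lit 228695607177) (nat_lit 0) (nat_lit 293823829106) (nat_lit 1) (nat_lit 5) (nat_lit 3) (nat_lit 4) (nat_lit 1) (nat_lit 4) (nat_lit 481) (nat_lit 272) (nat_lit 267)))))) (XT.nd (nat_lit 468) (nat_lit 0) (nat_lit 0) (XT.nd (nat_lit 234) (nat_lit 0) (nat_lit 0) (XT.nd (nat_lit 78) (nat_lit 0) (nat_lit 0) (XT.lf (nat_lit 0) (nat_lit 99855448695) (nat_lit 152) (nat_lit 90651200236) (nat_lit 0) (nat_lit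 99855448695) (nat_lit 1) (nat_lit 5) (nat_lit 3) (nat_lit 4) (nat_lit 1) (nat_lit 4) (nat_lit 474) (nat_lit 273) (nat_lit 273)) (XT.nd (nat_lit 78) (nat_lit 0) (nat_lit 0) (XT.lf (nat_lit 0) (nat_lit 211415482108) (nat_lit 152) (nat_lit 186872223960) (nat_lit 0) (nat_lit 211385062714) (nat_lit 1) (nat_lit 5) (nat_lit 3) (nat_lit 4) (nat_lit 1) (nat_lit 4) (nat_lit 475) (nat_lit 273) (nat_lit 272)) (XT.lf (nat_lit 0) (nat_lit 223650157667) (nat_lit 152) (nat_lit 192830605562) (nat_lit 0) (nat_lit 223590767422) (nat_lit 1) (nat_lit 5) (nat_lit 3) (nat_lit 4) (nat_lit 1) (nat_lit 4) (nat_lit 476) (nat_lit 273) (nat_lit 271)))) (XT.nd (nat_lit 78) (nat_lit 0) (nat_lit 0) (XT.lf (nat_lit 0) (nat_lit 236444054248) (nat_lit 152) (nat_lit 199191731903) (nat_lit 0) (nat_lit 236357072717) (nat_lit 1) (nat_lit 5) (nat_lit 3) (nat_lit 4) (nat_lit 1) (nat_lit 4) (nat_lit 477) (nat_lit 273) (nat_lit 270))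 (XT.nd (nat_lit 78) (nat_lit 0) (nat_lit 0) (XT.lf (nat_lit 0) (nat_lit 249827633510) (nat_lit 152) (nat_lit 205970748522) (nat_lit 0) (nat_lit 249714374562) (nat_lit 1) (nat_lit 5) (nat_lit 3) (nat_lit 4) (nat_lit 1) (nat_lit 4) (nat_lit 478) (nat_lit 273) (nat_lit 269)) (XT.lf (nat_lit 0) (nat_lit 263832761117) (nat_lit 152) (nat_lit 213183795935) (nat_lit 0) (nat_lit 263694476059) (nat_lit 1) (nat_lit 5) (nat_lit 3) (nat_lit 4) (nat_lit 1) (nat_lit 4) (nat_lit 479) (nat_lit 273) (nat_lit 268))))) (XT.nd (nat_lit 52572) (nat_lit 0) (nat_lit 0) (XT.nd (nat_lit 78) (nat_lit 0) (nat_lit 0) (XT.lf (nat_lit 0) (nat_lit 278492782612) (nat_lit 152) (nat_lit 220848048063) (nat_lit 0) (nat_lit 278330663163) (nat_lit 1) (nat_lit 5) (nat_lit 3) (nat_lit 4) (nat_lit 1) (nat_lit 4) (nat_lit 480) (nat_lit 273) (nat_lit 267)) (XT.nd (nat_lit 52416) (nat_lit 0) (nat_lit 0) (XT.lf (nat_lit 0) (nat_lit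 293842602807) (nat_lit 152) (nat_lit 228981753127) (nat_lit 0) (nat_lit 293657783938) (nat_lit 1) (nat_lit 5) (nat_lit 3) (nat_lit 4) (nat_lit 1) (nat_lit 4) (nat_lit 481) (nat_lit 273) (nat_lit 266)) (XT.lf (nat_lit 0) (nat_lit 88921659038) (nat_lit 152) (nat_lit 85608540467) (nat_lit 0) (nat_lit 88921659038) (nat_lit 1) (nat_lit 5) (nat_lit 3) (nat_lit 4) (nat_lit 1) (nat_lit 4) (nat_lit 472) (nat_lit 274) (nat_lit 274)))) (XT.nd (nat_lit 156) (nat_lit 0) (nat_lit 0) (XT.nd (nat_lit 78) (nat_lit 0) (nat_lit 0) (XT.lf (nat_lit 0) (nat_lit 188540475820) (nat_lit 152) (nat_lit 176107873618) (nat_lit 0) (nat_lit 188508535457) (nat_lit 1) (nat_lit 5) (nat_lit 3) (nat_lit 4) (nat_lit 1) (nat_lit 4) (nat_lit 473) (nat_lit 274) (nat_lit 273)) (XT.lf (nat_lit 0) (nat_lit 199714596138) (nat_lit 152) (nat_lit 181358776224) (nat_lit 0) (nat_lit 199652236381) (nat_lit 1) (nat_lit 5) (nat_lit 3) (nat_lit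 4) (nat_lit 1) (nat_lit 4) (nat_lit 474) (nat_lit 274) (nat_lit 272))) (XT.nd (nat_lit 78) (nat_lit 0) (nat_lit 0) (XT.lf (nat_lit 0) (nat_lit 211392284077) (nat_lit 152) (nat_lit 186982290901) (nat_lit 0) (nat_lit 211300953469) (nat_lit 1) (nat_lit 5) (nat_lit 3) (nat_lit 4) (nat_lit 1) (nat_lit 4) (nat_lit 475) (nat_lit 274) (nat_lit 271)) (XT.lf (nat_lit 0) (nat_lit 223601343658) (nat_lit 152) (nat_lit 192991806971) (nat_lit 0) (nat_lit 223482421763) (nat_lit 1) (nat_lit 5) (nat_lit 3) (nat_lit 4) (nat_lit 1) (nat_lit 4) (nat_lit 476) (nat_lit 274) (nat_lit 270))))))) (XT.nd (nat_lit 53196) (nat_lit 0) (nat_lit 0) (XT.nd (nat_lit 52650) (nat_lit 0) (nat_lit 0) (XT.nd (nat_lit 234) (nat_lit 0) (nat_lit 0) (XT.nd (nat_lit 78) (nat_lit 0) (nat_lit 0) (XT.lf (nat_lit 0) (nat_lit 236370844069) (nat_lit 152) (nat_lit 199401632806) (nat_lit 0) (nat_lit 236225644758) (nat_lit 1) (nat_lit 5) (nat_lit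 3) (nat_lit 4) (nat_lit 1) (nat_lit 4) (nat_lit 477) (nat_lit 274) (nat_lit 269)) (XT.nd (nat_lit 78) (nat_lit 0) (nat_lit 0) (XT.lf (nat_lit 0) (nat_lit 249731188883) (nat_lit 152) (nat_lit 206227029894) (nat_lit 0) (nat_lit 249560963462) (nat_lit 1) (nat_lit 5) (nat_lit 3) (nat_lit 4) (nat_lit 1) (nat_lit 4) (nat_lit 478) (nat_lit 274) (nat_lit 268)) (XT.lf (nat_lit 0) (nat_lit 263714188445) (nat_lit 152) (nat_lit 213484249183) (nat_lit 0) (nat_lit 263520128633) (nat_lit 1) (nat_lit 5) (nat_lit 3) (nat_lit 4) (nat_lit 1) (nat_lit 4) (nat_lit 479) (nat_lit 274) (nat_lit 267)))) (XT.nd (nat_lit 78) (nat_lit 0) (nat_lit 0) (XT.lf (nat_lit 0) (nat_lit 278353135611) (nat_lit 152) (nat_lit 221190569764) (nat_lit 0) (nat_lit 278136376379) (nat_lit 1) (nat_lit 5) (nat_lit 3) (nat_lit 4) (nat_lit 1) (nat_lit 4) (nat_lit 480) (nat_lit 274) (nat_lit 266)) (XT.nd (nat_lit 52260) (nat_lit 0) (nat_lit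 0) (XT.lf (nat_lit 0) (nat_lit 293682885017) (nat_lit 152) (nat_lit 229364340021) (nat_lit 0) (nat_lit 293444507289) (nat_lit 1) (nat_lit 5) (nat_lit 3) (nat_lit 4) (nat_lit 1) (nat_lit 4) (nat_lit 481) (nat_lit 274) (nat_lit 265)) (XT.lf (nat_lit 0) (nat_lit 78921880682) (nat_lit 152) (nat_lit 81203960887) (nat_lit 0) (nat_lit 78921880682) (nat_lit 1) (nat_lit 5) (nat_lit 3) (nat_lit 4) (nat_lit 1) (nat_lit 4) (nat_lit 470) (nat_lit 275) (nat_lit 275))))) (XT.nd (nat_lit 234) (nat_lit 0) (nat_lit 0) (XT.nd (nat_lit 78) (nat_lit 0) (nat_lit 0) (XT.lf (nat_lit 0) (nat_lit 167631190865) (nat_lit 152) (nat_lit 166674753431) (nat_lit 0) (nat_lit 167597653483) (nat_lit 1) (nat_lit 5) (nat_lit 3) (nat_lit 4) (nat_lit 1) (nat_lit 4) (nat_lit 471) (nat_lit 275) (nat_lit 274)) (XT.nd (nat_lit 78) (nat_lit 0) (nat_lit 0) (XT.lf (nat_lit 0) (nat_lit 177847201761) (nat_lit 152) (nat_lit 171276275473)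 (nat_lit 0) (nat_lit 177781724016) (nat_lit 1) (nat_lit 5) (nat_lit 3) (nat_lit 4) (nat_lit 1) (nat_lit 4) (nat_lit 472) (nat_lit 275) (nat_lit 273)) (XT.lf (nat_lit 0) (nat_lit 188516117888) (nat_lit 152) (nat_lit 176223443907) (nat_lit 0) (nat_lit 188420220750) (nat_lit 1) (nat_lit 5) (nat_lit 3) (nat_lit 4) (nat_lit 1) (nat_lit 4) (nat_lit 473) (nat_lit 275) (nat_lit 272)))) (XT.nd (nat_lit 156) (nat_lit 0) (nat_lit 0) (XT.nd (nat_lit 78) (nat_lit 0) (nat_lit 0) (XT.lf (nat_lit 0) (nat_lit 199663341428) (nat_lit 152) (nat_lit 181528037703) (nat_lit 0) (nat_lit 199538473439) (nat_lit 1) (nat_lit 5) (nat_lit 3) (nat_lit 4) (nat_lit 1) (nat_lit 4) (nat_lit 474) (nat_lit 275) (nat_lit 271)) (XT.lf (nat_lit 0) (nat_lit 211315413389) (nat_lit 152) (nat_lit 187202686849) (nat_lit 0) (nat_lit 211162954113) (nat_lit 1) (nat_lit 5) (nat_lit 3) (nat_lit 4) (nat_lit 1) (nat_lit 4) (nat_lit 475) (nat_lit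 275) (nat_lit 270))) (XT.nd (nat_lit 78) (nat_lit 0) (nat_lit 0) (XT.lf (nat_lit 0) (nat_lit 223500076800) (nat_lit 152) (nat_lit 193260902412) (nat_lit 0) (nat_lit 223321340108) (nat_lit 1) (nat_lit 5) (nat_lit 3) (nat_lit 4) (nat_lit 1) (nat_lit 4) (nat_lit 476) (nat_lit 275) (nat_lit 269)) (XT.lf (nat_lit 0) (nat_lit 236246342764) (nat_lit 152) (nat_lit 199717108716) (nat_lit 0) (nat_lit 236042579961) (nat_lit 1) (nat_lit 5) (nat_lit 3) (nat_lit 4) (nat_lit 1) (nat_lit 4) (nat_lit 477) (nat_lit 275) (nat_lit 268)))))) (XT.nd (nat_lit 52494) (nat_lit 0) (nat_lit 0) (XT.nd (nat_lit 234) (nat_lit 0) (nat_lit 0) (XT.nd (nat_lit 78) (nat_lit 0) (nat_lit 0) (XT.lf (nat_lit 0) (nat_lit 249584559533) (nat_lit 152) (nat_lit 206586677680) (nat_lit 0) (nat_lit 249356962339) (nat_lit 1) (nat_lit 5) (nat_lit 3) (nat_lit 4) (nat_lit 1) (nat_lit 4) (nat_lit 478) (nat_lit 275) (nat_lit 267)) (XT.nd (nat_lit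 78) (nat_lit 0) (nat_lit 0) (XT.lf (nat_lit 0) (nat_lit 263546484766) (nat_lit 152) (nat_lit 213885965421) (nat_lit 0) (nat_lit 263296188152) (nat_lit 1) (nat_lit 5) (nat_lit 3) (nat_lit 4) (nat_lit 1) (nat_lit 4) (nat_lit 479) (nat_lit 275) (nat_lit 266)) (XT.lf (nat_lit 0) (nat_lit 278165361142) (nat_lit 152) (nat_lit 221632351196) (nat_lit 0) (nat_lit 277893446033) (nat_lit 1) (nat_lit 5) (nat_lit 3) (nat_lit 4) (nat_lit 1) (nat_lit 4) (nat_lit 480) (nat_lit 275) (nat_lit 265)))) (XT.nd (nat_lit 52104) (nat_lit 0) (nat_lit 0) (XT.lf (nat_lit 0) (nat_lit 293475995510) (nat_lit 152) (nat_lit 229844278781) (nat_lit 0) (nat_lit 293183491358) (nat_lit 1) (nat_lit 5) (nat_lit 3) (nat_lit 4) (nat_lit 1) (nat_lit 4) (nat_lit 481) (nat_lit 275) (nat_lit 264)) (XT.nd (nat_lit 78) (nat_lit 0) (nat_lit 0) (XT.lf (nat_lit 0) (nat_lit 69765152668) (nat_lit 152) (nat_lit 77386601921) (nat_lit 0) (nat_lit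 69765152668) (nat_lit 1) (nat_lit 5) (nat_lit 3) (nat_lit 4) (nat_lit 1) (nat_lit 4) (nat_lit 468) (nat_lit 276) (nat_lit 276)) (XT.lf (nat_lit 0) (nat_lit 148496824107) (nat_lit 152) (nat_lit 158465621381) (nat_lit 0) (nat_lit 148461609857) (nat_lit 1) (nat_lit 5) (nat_lit 3) (nat_lit 4) (nat_lit 1) (nat_lit 4) (nat_lit 469) (nat_lit 276) (nat_lit 275))))) (XT.nd (nat_lit 234) (nat_lit 0) (nat_lit 0) (XT.nd (nat_lit 78) (nat_lit 0) (nat_lit 0) (XT.lf (nat_lit 0) (nat_lit 157847839233) (nat_lit 152) (nat_lit 162470076039) (nat_lit 0) (nat_lit 157779087601) (nat_lit 1) (nat_lit 5) (nat_lit 3) (nat_lit 4) (nat_lit 1) (nat_lit 4) (nat_lit 470) (nat_lit 276) (nat_lit 274)) (XT.nd (nat_lit 78) (nat_lit 0) (nat_lit 0) (XT.lf (nat_lit 0) (nat_lit 167605615036) (nat_lit 152) (nat_lit 166796102234) (nat_lit 0) (nat_lit 167504923041) (nat_lit 1) (nat_lit 5) (nat_lit 3) (nat_lit 4) (nat_lit 1) (nat_lit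 4) (nat_lit 471) (nat_lit 276) (nat_lit 273)) (XT.lf (nat_lit 0) (nat_lit 177793384316) (nat_lit 152) (nat_lit 171454000027) (nat_lit 0) (nat_lit 177662272927) (nat_lit 1) (nat_lit 5) (nat_lit 3) (nat_lit 4) (nat_lit 1) (nat_lit 4) (nat_lit 472) (nat_lit 276) (nat_lit 272)))) (XT.nd (nat_lit 156) (nat_lit 0) (nat_lit 0) (XT.nd (nat_lit 78) (nat_lit 0) (nat_lit 0) (XT.lf (nat_lit 0) (nat_lit 188435403666) (nat_lit 152) (nat_lit 176454859652) (nat_lit 0) (nat_lit 188275321426) (nat_lit 1) (nat_lit 5) (nat_lit 3) (nat_lit 4) (nat_lit 1) (nat_lit 4) (nat_lit 473) (nat_lit 276) (nat_lit 271)) (XT.lf (nat_lit 0) (nat_lit 199557011228) (nat_lit 152) (nat_lit 181810587916) (nat_lit 0) (nat_lit 199369337701) (nat_lit 1) (nat_lit 5) (nat_lit 3) (nat_lit 4) (nat_lit 1) (nat_lit 4) (nat_lit 474) (nat_lit 276) (nat_lit 270))) (XT.nd (nat_lit 78) (nat_lit 0) (nat_lit 0) (XT.lf (nat_lit 0) (nat_lit 211184687019)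 (nat_lit 152) (nat_lit 187533936554) (nat_lit 0) (nat_lit 210970736076) (nat_lit 1) (nat_lit 5) (nat_lit 3) (nat_lit 4) (nat_lit 1) (nat_lit 4) (nat_lit 475) (nat_lit 276) (nat_lit 269)) (XT.lf (nat_lit 0) (nat_lit 223346115982) (nat_lit 152) (nat_lit 193638532587) (nat_lit 0) (nat_lit 223107138928) (nat_lit 1) (nat_lit 5) (nat_lit 3) (nat_lit 4) (nat_lit 1) (nat_lit 4) (nat_lit 476) (nat_lit 276) (nat_lit 268))))))))
noncomputable def xc1 : XT := (XT.nd (nat_lit 105534) (nat_lit 0) (nat_lit 0) (XT.nd (nat_lit 52806) (nat_lit 0) (nat_lit 0) (XT.nd (nat_lit 52338) (nat_lit 0) (nat_lit 0) (XT.nd (nat_lit 234) (nat_lit 0) (nat_lit 0) (XT.nd (nat_lit 78) (nat_lit 0) (nat_lit 0) (XT.lf (nat_lit 0) (nat_lit 236070253900) (nat_lit 152) (nat_lit 200138910766) (nat_lit 0) (nat_lit 235807442456) (nat_lit 1) (nat_lit 5) (nat_lit 3) (nat_lit 4) (nat_lit 1) (nat_lit 4) (nat_lit 477) (nat_lit 276) (nat_lit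 267)) (XT.nd (nat_lit 78) (nat_lit 0) (nat_lit 0) (XT.lf (nat_lit 0) (nat_lit 249387396340) (nat_lit 152) (nat_lit 207050548184) (nat_lit 0) (nat_lit 249101885476) (nat_lit 1) (nat_lit 5) (nat_lit 3) (nat_lit 4) (nat_lit 1) (nat_lit 4) (nat_lit 478) (nat_lit 276) (nat_lit 266)) (XT.lf (nat_lit 0) (nat_lit 263329250784) (nat_lit 152) (nat_lit 214389901119) (nat_lit 0) (nat_lit 263022121424) (nat_lit 1) (nat_lit 5) (nat_lit 3) (nat_lit 4) (nat_lit 1) (nat_lit 4) (nat_lit 479) (nat_lit 276) (nat_lit 265)))) (XT.nd (nat_lit 78) (nat_lit 0) (nat_lit 0) (XT.lf (nat_lit 0) (nat_lit 277929012122) (nat_lit 152) (nat_lit 222174444221) (nat_lit 0) (nat_lit 277601293720) (nat_lit 1) (nat_lit 5) (nat_lit 3) (nat_lit 4) (nat_lit 1) (nat_lit 4) (nat_lit 480) (nat_lit 276) (nat_lit 264)) (XT.nd (nat_lit 51948) (nat_lit 0) (nat_lit 0) (XT.lf (nat_lit 0) (nat_lit 293221441693) (nat_lit 152) (nat_lit 230422712117)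 (nat_lit 0) (nat_lit 292874114678) (nat_lit 1) (nat_lit 5) (nat_lit 3) (nat_lit 4) (nat_lit 1) (nat_lit 4) (nat_lit 481) (nat_lit 276) (nat_lit 263)) (XT.lf (nat_lit 0) (nat_lit 61368764453) (nat_lit 152) (nat_lit 74110755591) (nat_lit 0) (nat_lit 61368764453) (nat_lit 1) (nat_lit 5) (nat_lit 3) (nat_lit 4) (nat_lit 1) (nat_lit 4) (nat_lit 466) (nat_lit 277) (nat_lit 277))))) (XT.nd (nat_lit 234) (nat_lit 0) (nat_lit 0) (XT.nd (nat_lit 78) (nat_lit 0) (nat_lit 0) (XT.lf (nat_lit 0) (nat_lit 130963909031) (nat_lit 152) (nat_lit 151384031954) (nat_lit 0) (nat_lit 130926934068) (nat_lit 1) (nat_lit 5) (nat_lit 3) (nat_lit 4) (nat_lit 1) (nat_lit 4) (nat_lit 467) (nat_lit 277) (nat_lit 276)) (XT.nd (nat_lit 78) (nat_lit 0) (nat_lit 0) (XT.lf (nat_lit 0) (nat_lit 139534587099) (nat_lit 152) (nat_lit 154838465821) (nat_lit 0) (nat_lit 139462397885) (nat_lit 1) (nat_lit 5) (nat_lit 3) (nat_lit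 4) (nat_lit 1) (nat_lit 4) (nat_lit 468) (nat_lit 277) (nat_lit 275)) (XT.lf (nat_lit 0) (nat_lit 148469969487) (nat_lit 152) (nat_lit 158593037624) (nat_lit 0) (nat_lit 148364242892) (nat_lit 1) (nat_lit 5) (nat_lit 3) (nat_lit 4) (nat_lit 1) (nat_lit 4) (nat_lit 469) (nat_lit 277) (nat_lit 274)))) (XT.nd (nat_lit 78) (nat_lit 0) (nat_lit 0) (XT.lf (nat_lit 0) (nat_lit 157791330916) (nat_lit 152) (nat_lit 162656686821) (nat_lit 0) (nat_lit 157653663957) (nat_lit 1) (nat_lit 5) (nat_lit 3) (nat_lit 4) (nat_lit 1) (nat_lit 4) (nat_lit 470) (nat_lit 277) (nat_lit 273)) (XT.nd (nat_lit 78) (nat_lit 0) (nat_lit 0) (XT.lf (nat_lit 0) (nat_lit 167520865103) (nat_lit 152) (nat_lit 167039088766) (nat_lit 0) (nat_lit 167352778751) (nat_lit 1) (nat_lit 5) (nat_lit 3) (nat_lit 4) (nat_lit 1) (nat_lit 4) (nat_lit 471) (nat_lit 277) (nat_lit 272)) (XT.lf (nat_lit 0) (nat_lit 177681737605) (nat_lit 152)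 (nat_lit 171750677750) (nat_lit 0) (nat_lit 177484680402) (nat_lit 1) (nat_lit 5) (nat_lit 3) (nat_lit 4) (nat_lit 1) (nat_lit 4) (nat_lit 472) (nat_lit 277) (nat_lit 271)))))) (XT.nd (nat_lit 468) (nat_lit 0) (nat_lit 0) (XT.nd (nat_lit 234) (nat_lit 0) (nat_lit 0) (XT.nd (nat_lit 78) (nat_lit 0) (nat_lit 0) (XT.lf (nat_lit 0) (nat_lit 188298140977) (nat_lit 152) (nat_lit 176802671842) (nat_lit 0) (nat_lit 188073492487) (nat_lit 1) (nat_lit 5) (nat_lit 3) (nat_lit 4) (nat_lit 1) (nat_lit 4) (nat_lit 473) (nat_lit 277) (nat_lit 270)) (XT.nd (nat_lit 78) (nat_lit 0) (nat_lit 0) (XT.lf (nat_lit 0) (nat_lit 199395352368) (nat_lit 152) (nat_lit 182207099600) (nat_lit 0) (nat_lit 199144426462) (nat_lit 1) (nat_lit 5) (nat_lit 3) (nat_lit 4) (nat_lit 1) (nat_lit 4) (nat_lit 474) (nat_lit 277) (nat_lit 269)) (XT.lf (nat_lit 0) (nat_lit 210999793712) (nat_lit 152) (nat_lit 187976828707) (nat_lit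 0) (nat_lit 210723841695) (nat_lit 1) (nat_lit 5) (nat_lit 3) (nat_lit 4) (nat_lit 1) (nat_lit 4) (nat_lit 475) (nat_lit 277) (nat_lit 268)))) (XT.nd (nat_lit 78) (nat_lit 0) (nat_lit 0) (XT.lf (nat_lit 0) (nat_lit 223139094630) (nat_lit 152) (nat_lit 194125596616) (nat_lit 0) (nat_lit 222839308222) (nat_lit 1) (nat_lit 5) (nat_lit 3) (nat_lit 4) (nat_lit 1) (nat_lit 4) (nat_lit 476) (nat_lit 277) (nat_lit 267)) (XT.nd (nat_lit 78) (nat_lit 0) (nat_lit 0) (XT.lf (nat_lit 0) (nat_lit 235842158219) (nat_lit 152) (nat_lit 200668043249) (nat_lit 0) (nat_lit 235519672391) (nat_lit 1) (nat_lit 5) (nat_lit 3) (nat_lit 4) (nat_lit 1) (nat_lit 4) (nat_lit 477) (nat_lit 277) (nat_lit 266)) (XT.lf (nat_lit 0) (nat_lit 249139229869) (nat_lit 152) (nat_lit 207619745859) (nat_lit 0) (nat_lit 248795125547) (nat_lit 1) (nat_lit 5) (nat_lit 3) (nat_lit 4) (nat_lit 1) (nat_lit 4) (nat_lit 478) (nat_lit 277)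 (nat_lit 265))))) (XT.nd (nat_lit 51948) (nat_lit 0) (nat_lit 0) (XT.nd (nat_lit 78) (nat_lit 0) (nat_lit 0) (XT.lf (nat_lit 0) (nat_lit 263061969275) (nat_lit 152) (nat_lit 214997256121) (nat_lit 0) (nat_lit 262697275910) (nat_lit 1) (nat_lit 5) (nat_lit 3) (nat_lit 4) (nat_lit 1) (nat_lit 4) (nat_lit 479) (nat_lit 277) (nat_lit 264)) (XT.nd (nat_lit 78) (nat_lit 0) (nat_lit 0) (XT.lf (nat_lit 0) (nat_lit 277643525816) (nat_lit 152) (nat_lit 222818139535) (nat_lit 0) (nat_lit 277259223838) (nat_lit 1) (nat_lit 5) (nat_lit 3) (nat_lit 4) (nat_lit 1) (nat_lit 4) (nat_lit 480) (nat_lit 277) (nat_lit 263)) (XT.lf (nat_lit 0) (nat_lit 292918617484) (nat_lit 152) (nat_lit 231101017251) (nat_lit 0) (nat_lit 292515640637) (nat_lit 1) (nat_lit 5) (nat_lit 3) (nat_lit 4) (nat_lit 1) (nat_lit 4) (nat_lit 481) (nat_lit 277) (nat_lit 262)))) (XT.nd (nat_lit 156) (nat_lit 0) (nat_lit 0) (XT.nd (nat_lit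 78) (nat_lit 0) (nat_lit 0) (XT.lf (nat_lit 0) (nat_lit 53657478550) (nat_lit 152) (nat_lit 71335407722) (nat_lit 0) (nat_lit 53657478550) (nat_lit 1) (nat_lit 5) (nat_lit 3) (nat_lit 4) (nat_lit 1) (nat_lit 4) (nat_lit 464) (nat_lit 278) (nat_lit 278)) (XT.lf (nat_lit 0) (nat_lit 114874683819) (nat_lit 152) (nat_lit 145343373692) (nat_lit 0) (nat_lit 114835860107) (nat_lit 1) (nat_lit 5) (nat_lit 3) (nat_lit 4) (nat_lit 1) (nat_lit 4) (nat_lit 465) (nat_lit 278) (nat_lit 277))) (XT.nd (nat_lit 78) (nat_lit 0) (nat_lit 0) (XT.lf (nat_lit 0) (nat_lit 122742024757) (nat_lit 152) (nat_lit 148290036259) (nat_lit 0) (nat_lit 122666226083) (nat_lit 1) (nat_lit 5) (nat_lit 3) (nat_lit 4) (nat_lit 1) (nat_lit 4) (nat_lit 466) (nat_lit 278) (nat_lit 276)) (XT.lf (nat_lit 0) (nat_lit 130935711680) (nat_lit 152) (nat_lit 151517819010) (nat_lit 0) (nat_lit 130824698755) (nat_lit 1) (nat_lit 5) (nat_lit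 3) (nat_lit 4) (nat_lit 1) (nat_lit 4) (nat_lit 467) (nat_lit 278) (nat_lit 275))))))) (XT.nd (nat_lit 1014) (nat_lit 0) (nat_lit 0) (XT.nd (nat_lit 468) (nat_lit 0) (nat_lit 0) (XT.nd (nat_lit 234) (nat_lit 0) (nat_lit 0) (XT.nd (nat_lit 78) (nat_lit 0) (nat_lit 0) (XT.lf (nat_lit 0) (nat_lit 139475253366) (nat_lit 152) (nat_lit 155034407141) (nat_lit 0) (nat_lit 139330703059) (nat_lit 1) (nat_lit 5) (nat_lit 3) (nat_lit 4) (nat_lit 1) (nat_lit 4) (nat_lit 468) (nat_lit 278) (nat_lit 274)) (XT.nd (nat_lit 78) (nat_lit 0) (nat_lit 0) (XT.lf (nat_lit 0) (nat_lit 148380982057) (nat_lit 152) (nat_lit 158848173483) (nat_lit 0) (nat_lit 148204491387) (nat_lit 1) (nat_lit 5) (nat_lit 3) (nat_lit 4) (nat_lit 1) (nat_lit 4) (nat_lit 469) (nat_lit 278) (nat_lit 273)) (XT.lf (nat_lit 0) (nat_lit 157674101870) (nat_lit 152) (nat_lit 162968198430) (nat_lit 0) (nat_lit 157467191806) (nat_lit 1) (nat_lit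 5) (nat_lit 3) (nat_lit 4) (nat_lit 1) (nat_lit 4) (nat_lit 470) (nat_lit 278) (nat_lit 272)))) (XT.nd (nat_lit 78) (nat_lit 0) (nat_lit 0) (XT.lf (nat_lit 0) (nat_lit 167376739279) (nat_lit 152) (nat_lit 167404291566) (nat_lit 0) (nat_lit 167140858364) (nat_lit 1) (nat_lit 5) (nat_lit 3) (nat_lit 4) (nat_lit 1) (nat_lit 4) (nat_lit 471) (nat_lit 278) (nat_lit 271)) (XT.nd (nat_lit 78) (nat_lit 0) (nat_lit 0) (XT.lf (nat_lit 0) (nat_lit 177511995803) (nat_lit 152) (nat_lit 172167015018) (nat_lit 0) (nat_lit 177248523601) (nat_lit 1) (nat_lit 5) (nat_lit 3) (nat_lit 4) (nat_lit 1) (nat_lit 4) (nat_lit 472) (nat_lit 278) (nat_lit 270)) (XT.lf (nat_lit 0) (nat_lit 188104003004) (nat_lit 152) (nat_lit 177267708603) (nat_lit 0) (nat_lit 187814253387) (nat_lit 1) (nat_lit 5) (nat_lit 3) (nat_lit 4) (nat_lit 1) (nat_lit 4) (nat_lit 473) (nat_lit 278) (nat_lit 269))))) (XT.nd (nat_lit 234) (nat_lit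 0) (nat_lit 0) (XT.nd (nat_lit 78) (nat_lit 0) (nat_lit 0) (XT.lf (nat_lit 0) (nat_lit 199177979948) (nat_lit 152) (nat_lit 182718516830) (nat_lit 0) (nat_lit 198863204221) (nat_lit 1) (nat_lit 5) (nat_lit 3) (nat_lit 4) (nat_lit 1) (nat_lit 4) (nat_lit 474) (nat_lit 278) (nat_lit 268)) (XT.nd (nat_lit 78) (nat_lit 0) (nat_lit 0) (XT.lf (nat_lit 0) (nat_lit 210760293247) (nat_lit 152) (nat_lit 188532417814) (nat_lit 0) (nat_lit 210421683128) (nat_lit 1) (nat_lit 5) (nat_lit 3) (nat_lit 4) (nat_lit 1) (nat_lit 4) (nat_lit 475) (nat_lit 278) (nat_lit 267)) (XT.lf (nat_lit 0) (nat_lit 222878519835) (nat_lit 152) (nat_lit 194723254175) (nat_lit 0) (nat_lit 222517210297) (nat_lit 1) (nat_lit 5) (nat_lit 3) (nat_lit 4) (nat_lit 1) (nat_lit 4) (nat_lit 476) (nat_lit 278) (nat_lit 266)))) (XT.nd (nat_lit 156) (nat_lit 0) (nat_lit 0) (XT.nd (nat_lit 78) (nat_lit 0) (nat_lit 0) (XT.lf (nat_lit 0)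 (nat_lit 235561512635) (nat_lit 152) (nat_lit 201305766001) (nat_lit 0) (nat_lit 235178584601) (nat_lit 1) (nat_lit 5) (nat_lit 3) (nat_lit 4) (nat_lit 1) (nat_lit 4) (nat_lit 477) (nat_lit 278) (nat_lit 265)) (XT.lf (nat_lit 0) (nat_lit 248839469248) (nat_lit 152) (nat_lit 208295625939) (nat_lit 0) (nat_lit 248435952171) (nat_lit 1) (nat_lit 5) (nat_lit 3) (nat_lit 4) (nat_lit 1) (nat_lit 4) (nat_lit 478) (nat_lit 278) (nat_lit 264))) (XT.nd (nat_lit 78) (nat_lit 0) (nat_lit 0) (XT.lf (nat_lit 0) (nat_lit 262744003856) (nat_lit 152) (nat_lit 215709476513) (nat_lit 0) (nat_lit 262320878167) (nat_lit 1) (nat_lit 5) (nat_lit 3) (nat_lit 4) (nat_lit 1) (nat_lit 4) (nat_lit 479) (nat_lit 278) (nat_lit 263)) (XT.lf (nat_lit 0) (nat_lit 277308222495) (nat_lit 152) (nat_lit 223564969747) (nat_lit 0) (nat_lit 276866421937) (nat_lit 1) (nat_lit 5) (nat_lit 3) (nat_lit 4) (nat_lit 1) (nat_lit 4) (nat_lit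 480) (nat_lit 278) (nat_lit 262)))))) (XT.nd (nat_lit 52026) (nat_lit 0) (nat_lit 0) (XT.nd (nat_lit 51792) (nat_lit 0) (nat_lit 0) (XT.nd (nat_lit 51636) (nat_lit 0) (nat_lit 0) (XT.lf (nat_lit 0) (nat_lit 292566801875) (nat_lit 152) (nat_lit 231880809197) (nat_lit 0) (nat_lit 292107215727) (nat_lit 1) (nat_lit 5) (nat_lit 3) (nat_lit 4) (nat_lit 1) (nat_lit 4) (nat_lit 481) (nat_lit 278) (nat_lit 261)) (XT.nd (nat_lit 78) (nat_lit 0) (nat_lit 0) (XT.lf (nat_lit 0) (nat_lit 46562824926) (nat_lit 152) (nat_lit 69023823780) (nat_lit 0) (nat_lit 46562824926) (nat_lit 1) (nat_lit 5) (nat_lit 3) (nat_lit 4) (nat_lit 1) (nat_lit 4) (nat_lit 462) (nat_lit 279) (nat_lit 279)) (XT.lf (nat_lit 0) (nat_lit 100085610151) (nat_lit 152) (nat_lit 140265998286) (nat_lit 0) (nat_lit 100044845254) (nat_lit 1) (nat_lit 5) (nat_lit 3) (nat_lit 4) (nat_lit 1) (nat_lit 4) (nat_lit 463) (nat_lit 279) (nat_lit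 278)))) (XT.nd (nat_lit 78) (nat_lit 0) (nat_lit 0) (XT.lf (nat_lit 0) (nat_lit 107319677744) (nat_lit 152) (nat_lit 142742766776) (nat_lit 0) (nat_lit 107240089135) (nat_lit 1) (nat_lit 5) (nat_lit 3) (nat_lit 4) (nat_lit 1) (nat_lit 4) (nat_lit 464) (nat_lit 279) (nat_lit 277)) (XT.nd (nat_lit 78) (nat_lit 0) (nat_lit 0) (XT.lf (nat_lit 0) (nat_lit 114845076600) (nat_lit 152) (nat_lit 145483850100) (nat_lit 0) (nat_lit 114728513029) (nat_lit 1) (nat_lit 5) (nat_lit 3) (nat_lit 4) (nat_lit 1) (nat_lit 4) (nat_lit 465) (nat_lit 279) (nat_lit 276)) (XT.lf (nat_lit 0) (nat_lit 122679724337) (nat_lit 152) (nat_lit 148495774645) (nat_lit 0) (nat_lit 122527946516) (nat_lit 1) (nat_lit 5) (nat_lit 3) (nat_lit 4) (nat_lit 1) (nat_lit 4) (nat_lit 466) (nat_lit 279) (nat_lit 275))))) (XT.nd (nat_lit 234) (nat_lit 0) (nat_lit 0) (XT.nd (nat_lit 78) (nat_lit 0) (nat_lit 0) (XT.lf (nat_lit 0) (nat_lit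 130842274878) (nat_lit 152) (nat_lit 151785711661) (nat_lit 0) (nat_lit 130656959675) (nat_lit 1) (nat_lit 5) (nat_lit 3) (nat_lit 4) (nat_lit 1) (nat_lit 4) (nat_lit 467) (nat_lit 279) (nat_lit 274)) (XT.nd (nat_lit 78) (nat_lit 0) (nat_lit 0) (XT.lf (nat_lit 0) (nat_lit 139352162867) (nat_lit 152) (nat_lit 155361494331) (nat_lit 0) (nat_lit 139134907301) (nat_lit 1) (nat_lit 5) (nat_lit 3) (nat_lit 4) (nat_lit 1) (nat_lit 4) (nat_lit 468) (nat_lit 279) (nat_lit 273)) (XT.lf (nat_lit 0) (nat_lit 148229649942) (nat_lit 152) (nat_lit 159231636423) (nat_lit 0) (nat_lit 147981974982) (nat_lit 1) (nat_lit 5) (nat_lit 3) (nat_lit 4) (nat_lit 1) (nat_lit 4) (nat_lit 469) (nat_lit 279) (nat_lit 272)))) (XT.nd (nat_lit 156) (nat_lit 0) (nat_lit 0) (XT.nd (nat_lit 78) (nat_lit 0) (nat_lit 0) (XT.lf (nat_lit 0) (nat_lit 157495872977) (nat_lit 152) (nat_lit 163405352562) (nat_lit 0) (nat_lit 157219227166)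 (nat_lit 1) (nat_lit 5) (nat_lit 3) (nat_lit 4) (nat_lit 1) (nat_lit 4) (nat_lit 470) (nat_lit 279) (nat_lit 271)) (XT.lf (nat_lit 0) (nat_lit 167172894408) (nat_lit 152) (nat_lit 167892580165) (nat_lit 0) (nat_lit 166868657310) (nat_lit 1) (nat_lit 5) (nat_lit 3) (nat_lit 4) (nat_lit 1) (nat_lit 4) (nat_lit 471) (nat_lit 279) (nat_lit 270))) (XT.nd (nat_lit 78) (nat_lit 0) (nat_lit 0) (XT.lf (nat_lit 0) (nat_lit 177283754762) (nat_lit 152) (nat_lit 172704003110) (nat_lit 0) (nat_lit 176953240248) (nat_lit 1) (nat_lit 5) (nat_lit 3) (nat_lit 4) (nat_lit 1) (nat_lit 4) (nat_lit 472) (nat_lit 279) (nat_lit 269)) (XT.lf (nat_lit 0) (nat_lit 187852527516) (nat_lit 152) (nat_lit 177851077165) (nat_lit 0) (nat_lit 187496986891) (nat_lit 1) (nat_lit 5) (nat_lit 3) (nat_lit 4) (nat_lit 1) (nat_lit 4) (nat_lit 473) (nat_lit 279) (nat_lit 268))))))))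
noncomputable def xc2 : XT := (XT.nd (nat_lit 53352) (nat_lit 0) (nat_lit 0) (XT.nd (nat_lit 52338) (nat_lit 0) (nat_lit 0) (XT.nd (nat_lit 468) (nat_lit 0) (nat_lit 0) (XT.nd (nat_lit 234) (nat_lit 0) (nat_lit 0) (XT.nd (nat_lit 78) (nat_lit 0) (nat_lit 0) (XT.lf (nat_lit 0) (nat_lit 198904376414) (nat_lit 152) (nat_lit 183346057268) (nat_lit 0) (nat_lit 198525001399) (nat_lit 1) (nat_lit 5) (nat_lit 3) (nat_lit 4) (nat_lit 1) (nat_lit 4) (nat_lit 474) (nat_lit 279) (nat_lit 267)) (XT.nd (nat_lit 78) (nat_lit 0) (nat_lit 0) (XT.lf (nat_lit 0) (nat_lit 210465615384) (nat_lit 152) (nat_lit 189202026704) (nat_lit 0) (nat_lit 210063540948) (nat_lit 1) (nat_lit 5) (nat_lit 3) (nat_lit 4) (nat_lit 1) (nat_lit 4) (nat_lit 475) (nat_lit 279) (nat_lit 266)) (XT.lf (nat_lit 0) (nat_lit 222563771183) (nat_lit 152) (nat_lit 195432928259) (nat_lit 0) (nat_lit 222140078252) (nat_lit 1) (nat_lit 5) (nat_lit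 3) (nat_lit 4) (nat_lit 1) (nat_lit 4) (nat_lit 476) (nat_lit 279) (nat_lit 265)))) (XT.nd (nat_lit 78) (nat_lit 0) (nat_lit 0) (XT.lf (nat_lit 0) (nat_lit 235227648945) (nat_lit 152) (nat_lit 202053597412) (nat_lit 0) (nat_lit 234783366972) (nat_lit 1) (nat_lit 5) (nat_lit 3) (nat_lit 4) (nat_lit 1) (nat_lit 4) (nat_lit 477) (nat_lit 279) (nat_lit 264)) (XT.nd (nat_lit 78) (nat_lit 0) (nat_lit 0) (XT.lf (nat_lit 0) (nat_lit 248487400761) (nat_lit 152) (nat_lit 209079797662) (nat_lit 0) (nat_lit 248023510175) (nat_lit 1) (nat_lit 5) (nat_lit 3) (nat_lit 4) (nat_lit 1) (nat_lit 4) (nat_lit 478) (nat_lit 279) (nat_lit 263)) (XT.lf (nat_lit 0) (nat_lit 262374597466) (nat_lit 152) (nat_lit 216528258056) (nat_lit 0) (nat_lit 261892032011) (nat_lit 1) (nat_lit 5) (nat_lit 3) (nat_lit 4) (nat_lit 1) (nat_lit 4) (nat_lit 479) (nat_lit 279) (nat_lit 262))))) (XT.nd (nat_lit 51636) (nat_lit 0) (nat_lit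 0) (XT.nd (nat_lit 78) (nat_lit 0) (nat_lit 0) (XT.lf (nat_lit 0) (nat_lit 276922303817) (nat_lit 152) (nat_lit 224416713023) (nat_lit 0) (nat_lit 276421952772) (nat_lit 1) (nat_lit 5) (nat_lit 3) (nat_lit 4) (nat_lit 1) (nat_lit 4) (nat_lit 480) (nat_lit 279) (nat_lit 261)) (XT.nd (nat_lit 51480) (nat_lit 0) (nat_lit 0) (XT.lf (nat_lit 0) (nat_lit 292165157208) (nat_lit 152) (nat_lit 232763944601) (nat_lit 0) (nat_lit 291647867507) (nat_lit 1) (nat_lit 5) (nat_lit 3) (nat_lit 4) (nat_lit 1) (nat_lit 4) (nat_lit 481) (nat_lit 279) (nat_lit 260)) (XT.lf (nat_lit 0) (nat_lit 40022460457) (nat_lit 152) (nat_lit 67143174307) (nat_lit 0) (nat_lit 40022460457) (nat_lit 1) (nat_lit 5) (nat_lit 3) (nat_lit 4) (nat_lit 1) (nat_lit 4) (nat_lit 460) (nat_lit 280) (nat_lit 280)))) (XT.nd (nat_lit 78) (nat_lit 0) (nat_lit 0) (XT.lf (nat_lit 0) (nat_lit 86466028656) (nat_lit 152) (nat_lit 136082432811)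 (nat_lit 0) (nat_lit 86423225514) (nat_lit 1) (nat_lit 5) (nat_lit 3) (nat_lit 4) (nat_lit 1) (nat_lit 4) (nat_lit 461) (nat_lit 280) (nat_lit 279)) (XT.nd (nat_lit 78) (nat_lit 0) (nat_lit 0) (XT.lf (nat_lit 0) (nat_lit 93130606528) (nat_lit 152) (nat_lit 138123196457) (nat_lit 0) (nat_lit 93047038489) (nat_lit 1) (nat_lit 5) (nat_lit 3) (nat_lit 4) (nat_lit 1) (nat_lit 4) (nat_lit 462) (nat_lit 280) (nat_lit 278)) (XT.lf (nat_lit 0) (nat_lit 100054522572) (nat_lit 152) (nat_lit 140413498514) (nat_lit 0) (nat_lit 99932130822) (nat_lit 1) (nat_lit 5) (nat_lit 3) (nat_lit 4) (nat_lit 1) (nat_lit 4) (nat_lit 463) (nat_lit 280) (nat_lit 277)))))) (XT.nd (nat_lit 468) (nat_lit 0) (nat_lit 0) (XT.nd (nat_lit 234) (nat_lit 0) (nat_lit 0) (XT.nd (nat_lit 78) (nat_lit 0) (nat_lit 0) (XT.lf (nat_lit 0) (nat_lit 107254262303) (nat_lit 152) (nat_lit 142958792082) (nat_lit 0) (nat_lit 107094895590)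 (nat_lit 1) (nat_lit 5) (nat_lit 3) (nat_lit 4) (nat_lit 1) (nat_lit 4) (nat_lit 464) (nat_lit 280) (nat_lit 276)) (XT.nd (nat_lit 78) (nat_lit 0) (nat_lit 0) (XT.lf (nat_lit 0) (nat_lit 114746967959) (nat_lit 152) (nat_lit 145765137384) (nat_lit 0) (nat_lit 114552386995) (nat_lit 1) (nat_lit 5) (nat_lit 3) (nat_lit 4) (nat_lit 1) (nat_lit 4) (nat_lit 465) (nat_lit 280) (nat_lit 275)) (XT.lf (nat_lit 0) (nat_lit 122550479314) (nat_lit 152) (nat_lit 148839216195) (nat_lit 0) (nat_lit 122322360969) (nat_lit 1) (nat_lit 5) (nat_lit 3) (nat_lit 4) (nat_lit 1) (nat_lit 4) (nat_lit 466) (nat_lit 280) (nat_lit 274)))) (XT.nd (nat_lit 78) (nat_lit 0) (nat_lit 0) (XT.lf (nat_lit 0) (nat_lit 130683376158) (nat_lit 152) (nat_lit 152188347749) (nat_lit 0) (nat_lit 130423317449) (nat_lit 1) (nat_lit 5) (nat_lit 3) (nat_lit 4) (nat_lit 1) (nat_lit 4) (nat_lit 467) (nat_lit 280) (nat_lit 273)) (XT.nd (nat_lit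 78) (nat_lit 0) (nat_lit 0) (XT.lf (nat_lit 0) (nat_lit 139165022530) (nat_lit 152) (nat_lit 155820506169) (nat_lit 0) (nat_lit 138874544428) (nat_lit 1) (nat_lit 5) (nat_lit 3) (nat_lit 4) (nat_lit 1) (nat_lit 4) (nat_lit 468) (nat_lit 280) (nat_lit 272)) (XT.lf (nat_lit 0) (nat_lit 148015612828) (nat_lit 152) (nat_lit 159744339452) (nat_lit 0) (nat_lit 147696163875) (nat_lit 1) (nat_lit 5) (nat_lit 3) (nat_lit 4) (nat_lit 1) (nat_lit 4) (nat_lit 469) (nat_lit 280) (nat_lit 271))))) (XT.nd (nat_lit 234) (nat_lit 0) (nat_lit 0) (XT.nd (nat_lit 78) (nat_lit 0) (nat_lit 0) (XT.lf (nat_lit 0) (nat_lit 157256219884) (nat_lit 152) (nat_lit 163969190058) (nat_lit 0) (nat_lit 156909179644) (nat_lit 1) (nat_lit 5) (nat_lit 3) (nat_lit 4) (nat_lit 1) (nat_lit 4) (nat_lit 470) (nat_lit 280) (nat_lit 270)) (XT.nd (nat_lit 78) (nat_lit 0) (nat_lit 0) (XT.lf (nat_lit 0) (nat_lit 166908845145) (nat_lit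 152) (nat_lit 168505117155) (nat_lit 0) (nat_lit 166535527489) (nat_lit 1) (nat_lit 5) (nat_lit 3) (nat_lit 4) (nat_lit 1) (nat_lit 4) (nat_lit 471) (nat_lit 280) (nat_lit 269)) (XT.lf (nat_lit 0) (nat_lit 176996471051) (nat_lit 152) (nat_lit 173362920569) (nat_lit 0) (nat_lit 176598127285) (nat_lit 1) (nat_lit 5) (nat_lit 3) (nat_lit 4) (nat_lit 1) (nat_lit 4) (nat_lit 472) (nat_lit 280) (nat_lit 268)))) (XT.nd (nat_lit 156) (nat_lit 0) (nat_lit 0) (XT.nd (nat_lit 78) (nat_lit 0) (nat_lit 0) (XT.lf (nat_lit 0) (nat_lit 187543115760) (nat_lit 152) (nat_lit 178554166500) (nat_lit 0) (nat_lit 187120937603) (nat_lit 1) (nat_lit 5) (nat_lit 3) (nat_lit 4) (nat_lit 1) (nat_lit 4) (nat_lit 473) (nat_lit 280) (nat_lit 267)) (XT.lf (nat_lit 0) (nat_lit 198573890330) (nat_lit 152) (nat_lit 184091215056) (nat_lit 0) (nat_lit 198129012752) (nat_lit 1) (nat_lit 5) (nat_lit 3) (nat_lit 4) (nat_lit 1)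 (nat_lit 4) (nat_lit 474) (nat_lit 280) (nat_lit 266))) (XT.nd (nat_lit 78) (nat_lit 0) (nat_lit 0) (XT.lf (nat_lit 0) (nat_lit 210115058509) (nat_lit 152) (nat_lit 189987249686) (nat_lit 0) (nat_lit 209648562437) (nat_lit 1) (nat_lit 5) (nat_lit 3) (nat_lit 4) (nat_lit 1) (nat_lit 4) (nat_lit 475) (nat_lit 280) (nat_lit 265)) (XT.lf (nat_lit 0) (nat_lit 222194099271) (nat_lit 152) (nat_lit 196256308568) (nat_lit 0) (nat_lit 221707014156) (nat_lit 1) (nat_lit 5) (nat_lit 3) (nat_lit 4) (nat_lit 1) (nat_lit 4) (nat_lit 476) (nat_lit 280) (nat_lit 264))))))) (XT.nd (nat_lit 52260) (nat_lit 0) (nat_lit 0) (XT.nd (nat_lit 51714) (nat_lit 0) (nat_lit 0) (XT.nd (nat_lit 234) (nat_lit 0) (nat_lit 0) (XT.nd (nat_lit 78) (nat_lit 0) (nat_lit 0) (XT.lf (nat_lit 0) (nat_lit 234839772236) (nat_lit 152) (nat_lit 202913318032) (nat_lit 0) (nat_lit 234333078508) (nat_lit 1) (nat_lit 5) (nat_lit 3) (nat_lit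 4) (nat_lit 1) (nat_lit 4) (nat_lit 477) (nat_lit 280) (nat_lit 263)) (XT.nd (nat_lit 78) (nat_lit 0) (nat_lit 0) (XT.lf (nat_lit 0) (nat_lit 248082186149) (nat_lit 152) (nat_lit 209974128102) (nat_lit 0) (nat_lit 247556817552) (nat_lit 1) (nat_lit 5) (nat_lit 3) (nat_lit 4) (nat_lit 1) (nat_lit 4) (nat_lit 478) (nat_lit 280) (nat_lit 262)) (XT.lf (nat_lit 0) (nat_lit 261952870566) (nat_lit 152) (nat_lit 217455550230) (nat_lit 0) (nat_lit 261409716380) (nat_lit 1) (nat_lit 5) (nat_lit 3) (nat_lit 4) (nat_lit 1) (nat_lit 4) (nat_lit 479) (nat_lit 280) (nat_lit 261)))) (XT.nd (nat_lit 78) (nat_lit 0) (nat_lit 0) (XT.lf (nat_lit 0) (nat_lit 276484850928) (nat_lit 152) (nat_lit 225375397325) (nat_lit 0) (nat_lit 275924758085) (nat_lit 1) (nat_lit 5) (nat_lit 3) (nat_lit 4) (nat_lit 1) (nat_lit 4) (nat_lit 480) (nat_lit 280) (nat_lit 260)) (XT.nd (nat_lit 51324) (nat_lit 0) (nat_lit 0) (XT.lf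 (nat_lit 0) (nat_lit 291712727187) (nat_lit 152) (nat_lit 233752526167) (nat_lit 0) (nat_lit 291136502290) (nat_lit 1) (nat_lit 5) (nat_lit 3) (nat_lit 4) (nat_lit 1) (nat_lit 4) (nat_lit 481) (nat_lit 280) (nat_lit 259)) (XT.lf (nat_lit 0) (nat_lit 33979587366) (nat_lit 152) (nat_lit 65664196369) (nat_lit 0) (nat_lit 33979587366) (nat_lit 1) (nat_lit 5) (nat_lit 3) (nat_lit 4) (nat_lit 1) (nat_lit 4) (nat_lit 458) (nat_lit 281) (nat_lit 281))))) (XT.nd (nat_lit 234) (nat_lit 0) (nat_lit 0) (XT.nd (nat_lit 78) (nat_lit 0) (nat_lit 0) (XT.lf (nat_lit 0) (nat_lit 73896938249) (nat_lit 152) (nat_lit 132730667478) (nat_lit 0) (nat_lit 73851994951) (nat_lit 1) (nat_lit 5) (nat_lit 3) (nat_lit 4) (nat_lit 1) (nat_lit 4) (nat_lit 459) (nat_lit 281) (nat_lit 280)) (XT.nd (nat_lit 78) (nat_lit 0) (nat_lit 0) (XT.lf (nat_lit 0) (nat_lit 80050125423) (nat_lit 152) (nat_lit 134365674958) (nat_lit 0)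 (nat_lit 79962378982) (nat_lit 1) (nat_lit 5) (nat_lit 3) (nat_lit 4) (nat_lit 1) (nat_lit 4) (nat_lit 460) (nat_lit 281) (nat_lit 279)) (XT.lf (nat_lit 0) (nat_lit 86433386698) (nat_lit 152) (nat_lit 136237308052) (nat_lit 0) (nat_lit 86304875360) (nat_lit 1) (nat_lit 5) (nat_lit 3) (nat_lit 4) (nat_lit 1) (nat_lit 4) (nat_lit 461) (nat_lit 281) (nat_lit 278)))) (XT.nd (nat_lit 156) (nat_lit 0) (nat_lit 0) (XT.nd (nat_lit 78) (nat_lit 0) (nat_lit 0) (XT.lf (nat_lit 0) (nat_lit 93061920315) (nat_lit 152) (nat_lit 138350023029) (nat_lit 0) (nat_lit 92894585267) (nat_lit 1) (nat_lit 5) (nat_lit 3) (nat_lit 4) (nat_lit 1) (nat_lit 4) (nat_lit 462) (nat_lit 281) (nat_lit 277)) (XT.lf (nat_lit 0) (nat_lit 99951508498) (nat_lit 152) (nat_lit 140708850163) (nat_lit 0) (nat_lit 99747198487) (nat_lit 1) (nat_lit 5) (nat_lit 3) (nat_lit 4) (nat_lit 1) (nat_lit 4) (nat_lit 463) (nat_lit 281) (nat_lit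 276))) (XT.nd (nat_lit 78) (nat_lit 0) (nat_lit 0) (XT.lf (nat_lit 0) (nat_lit 107118555028) (nat_lit 152) (nat_lit 143319405709) (nat_lit 0) (nat_lit 106879030766) (nat_lit 1) (nat_lit 5) (nat_lit 3) (nat_lit 4) (nat_lit 1) (nat_lit 4) (nat_lit 464) (nat_lit 281) (nat_lit 275)) (XT.lf (nat_lit 0) (nat_lit 114580124302) (nat_lit 152) (nat_lit 146187905276) (nat_lit 0) (nat_lit 114307062658) (nat_lit 1) (nat_lit 5) (nat_lit 3) (nat_lit 4) (nat_lit 1) (nat_lit 4) (nat_lit 465) (nat_lit 281) (nat_lit 274)))))) (XT.nd (nat_lit 468) (nat_lit 0) (nat_lit 0) (XT.nd (nat_lit 234) (nat_lit 0) (nat_lit 0) (XT.nd (nat_lit 78) (nat_lit 0) (nat_lit 0) (XT.lf (nat_lit 0) (nat_lit 122353981960) (nat_lit 152) (nat_lit 149321178624) (nat_lit 0) (nat_lit 122048979953) (nat_lit 1) (nat_lit 5) (nat_lit 3) (nat_lit 4) (nat_lit 1) (nat_lit 4) (nat_lit 466) (nat_lit 281) (nat_lit 273)) (XT.nd (nat_lit 78) (nat_lit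 0) (nat_lit 0) (XT.lf (nat_lit 0) (nat_lit 130458637188) (nat_lit 152) (nat_lit 152726685929) (nat_lit 0) (nat_lit 130123215787) (nat_lit 1) (nat_lit 5) (nat_lit 3) (nat_lit 4) (nat_lit 1) (nat_lit 4) (nat_lit 467) (nat_lit 281) (nat_lit 272)) (XT.lf (nat_lit 0) (nat_lit 138913386783) (nat_lit 152) (nat_lit 156412535541) (nat_lit 0) (nat_lit 138548994531) (nat_lit 1) (nat_lit 5) (nat_lit 3) (nat_lit 4) (nat_lit 1) (nat_lit 4) (nat_lit 468) (nat_lit 281) (nat_lit 271)))) (XT.nd (nat_lit 78) (nat_lit 0) (nat_lit 0) (XT.lf (nat_lit 0) (nat_lit 147738361102) (nat_lit 152) (nat_lit 160387503291) (nat_lit 0) (nat_lit 147346377563) (nat_lit 1) (nat_lit 5) (nat_lit 3) (nat_lit 4) (nat_lit 1) (nat_lit 4) (nat_lit 469) (nat_lit 281) (nat_lit 270)) (XT.nd (nat_lit 78) (nat_lit 0) (nat_lit 0) (XT.lf (nat_lit 0) (nat_lit 156954571988) (nat_lit 152) (nat_lit 164661053390) (nat_lit 0) (nat_lit 156536311034)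 (nat_lit 1) (nat_lit 5) (nat_lit 3) (nat_lit 4) (nat_lit 1) (nat_lit 4) (nat_lit 470) (nat_lit 281) (nat_lit 269)) (XT.lf (nat_lit 0) (nat_lit 166583962801) (nat_lit 152) (nat_lit 169243360957) (nat_lit 0) (nat_lit 166140675736) (nat_lit 1) (nat_lit 5) (nat_lit 3) (nat_lit 4) (nat_lit 1) (nat_lit 4) (nat_lit 471) (nat_lit 281) (nat_lit 268))))) (XT.nd (nat_lit 234) (nat_lit 0) (nat_lit 0) (XT.nd (nat_lit 78) (nat_lit 0) (nat_lit 0) (XT.lf (nat_lit 0) (nat_lit 176649460662) (nat_lit 152) (nat_lit 174145336247) (nat_lit 0) (nat_lit 176182339206) (nat_lit 1) (nat_lit 5) (nat_lit 3) (nat_lit 4) (nat_lit 1) (nat_lit 4) (nat_lit 472) (nat_lit 281) (nat_lit 267)) (XT.nd (nat_lit 78) (nat_lit 0) (nat_lit 0) (XT.lf (nat_lit 0) (nat_lit 187175031042) (nat_lit 152) (nat_lit 179378650630) (nat_lit 0) (nat_lit 186685210166) (nat_lit 1) (nat_lit 5) (nat_lit 3) (nat_lit 4) (nat_lit 1) (nat_lit 4) (nat_lit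 473) (nat_lit 281) (nat_lit 266)) (XT.lf (nat_lit 0) (nat_lit 198185734822) (nat_lit 152) (nat_lit 184955764380) (nat_lit 0) (nat_lit 197674295451) (nat_lit 1) (nat_lit 5) (nat_lit 3) (nat_lit 4) (nat_lit 1) (nat_lit 4) (nat_lit 474) (nat_lit 281) (nat_lit 265)))) (XT.nd (nat_lit 156) (nat_lit 0) (nat_lit 0) (XT.nd (nat_lit 78) (nat_lit 0) (nat_lit 0) (XT.lf (nat_lit 0) (nat_lit 209707787964) (nat_lit 152) (nat_lit 190889956337) (nat_lit 0) (nat_lit 209175759550) (nat_lit 1) (nat_lit 5) (nat_lit 3) (nat_lit 4) (nat_lit 1) (nat_lit 4) (nat_lit 475) (nat_lit 281) (nat_lit 264)) (XT.lf (nat_lit 0) (nat_lit 221768623929) (nat_lit 152) (nat_lit 197195355530) (nat_lit 0) (nat_lit 221216986902) (nat_lit 1) (nat_lit 5) (nat_lit 3) (nat_lit 4) (nat_lit 1) (nat_lit 4) (nat_lit 476) (nat_lit 281) (nat_lit 263))) (XT.nd (nat_lit 78) (nat_lit 0) (nat_lit 0) (XT.lf (nat_lit 0) (nat_lit 234396958991) (nat_lit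 152) (nat_lit 203886974815) (nat_lit 0) (nat_lit 233826647095) (nat_lit 1) (nat_lit 5) (nat_lit 3) (nat_lit 4) (nat_lit 1) (nat_lit 4) (nat_lit 477) (nat_lit 281) (nat_lit 262)) (XT.lf (nat_lit 0) (nat_lit 247622860615) (nat_lit 152) (nat_lit 210980746619) (nat_lit 0) (nat_lit 247034763130) (nat_lit 1) (nat_lit 5) (nat_lit 3) (nat_lit 4) (nat_lit 1) (nat_lit 4) (nat_lit 478) (nat_lit 281) (nat_lit 261))))))))
noncomputable def xc3 : XT := (XT.nd (nat_lit 53040) (nat_lit 0) (nat_lit 0) (XT.nd (nat_lit 52026) (nat_lit 0) (nat_lit 0) (XT.nd (nat_lit 51558) (nat_lit 0) (nat_lit 0) (XT.nd (nat_lit 51324) (nat_lit 0) (nat_lit 0) (XT.nd (nat_lit 78) (nat_lit 0) (nat_lit 0) (XT.lf (nat_lit 0) (nat_lit 261477819044) (nat_lit 152) (nat_lit 218493560874) (nat_lit 0) (nat_lit 260872782903) (nat_lit 1) (nat_lit 5) (nat_lit 3) (nat_lit 4) (nat_lit 1) (nat_lit 4) (nat_lit 479) (nat_lit 281) (nat_lit 260))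 (XT.nd (nat_lit 78) (nat_lit 0) (nat_lit 0) (XT.lf (nat_lit 0) (nat_lit 275994822274) (nat_lit 152) (nat_lit 226443305233) (nat_lit 0) (nat_lit 275373654078) (nat_lit 1) (nat_lit 5) (nat_lit 3) (nat_lit 4) (nat_lit 1) (nat_lit 4) (nat_lit 480) (nat_lit 281) (nat_lit 259)) (XT.lf (nat_lit 0) (nat_lit 291208434597) (nat_lit 152) (nat_lit 234848907660) (nat_lit 0) (nat_lit 290571902541) (nat_lit 1) (nat_lit 5) (nat_lit 3) (nat_lit 4) (nat_lit 1) (nat_lit 4) (nat_lit 481) (nat_lit 281) (nat_lit 258)))) (XT.nd (nat_lit 78) (nat_lit 0) (nat_lit 0) (XT.lf (nat_lit 0) (nat_lit 28382425134) (nat_lit 152) (nat_lit 64560887680) (nat_lit 0) (nat_lit 28382425134) (nat_lit 1) (nat_lit 5) (nat_lit 3) (nat_lit 4) (nat_lit 1) (nat_lit 4) (nat_lit 456) (nat_lit 282) (nat_lit 282)) (XT.nd (nat_lit 78) (nat_lit 0) (nat_lit 0) (XT.lf (nat_lit 0) (nat_lit 62269887802) (nat_lit 152) (nat_lit 130155511987) (nat_lit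 0) (nat_lit 62222697338) (nat_lit 1) (nat_lit 5) (nat_lit 3) (nat_lit 4) (nat_lit 1) (nat_lit 4) (nat_lit 457) (nat_lit 282) (nat_lit 281)) (XT.lf (nat_lit 0) (nat_lit 67964639466) (nat_lit 152) (nat_lit 131411685398) (nat_lit 0) (nat_lit 67872505703) (nat_lit 1) (nat_lit 5) (nat_lit 3) (nat_lit 4) (nat_lit 1) (nat_lit 4) (nat_lit 458) (nat_lit 282) (nat_lit 280))))) (XT.nd (nat_lit 234) (nat_lit 0) (nat_lit 0) (XT.nd (nat_lit 78) (nat_lit 0) (nat_lit 0) (XT.lf (nat_lit 0) (nat_lit 73862664193) (nat_lit 152) (nat_lit 132893286480) (nat_lit 0) (nat_lit 73727727289) (nat_lit 1) (nat_lit 5) (nat_lit 3) (nat_lit 4) (nat_lit 1) (nat_lit 4) (nat_lit 459) (nat_lit 282) (nat_lit 279)) (XT.nd (nat_lit 78) (nat_lit 0) (nat_lit 0) (XT.lf (nat_lit 0) (nat_lit 79978004900) (nat_lit 152) (nat_lit 134603842858) (nat_lit 0) (nat_lit 79802303098) (nat_lit 1) (nat_lit 5) (nat_lit 3) (nat_lit 4) (nat_lit 1)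 (nat_lit 4) (nat_lit 460) (nat_lit 282) (nat_lit 278)) (XT.lf (nat_lit 0) (nat_lit 86325221920) (nat_lit 152) (nat_lit 136547427282) (nat_lit 0) (nat_lit 86110696408) (nat_lit 1) (nat_lit 5) (nat_lit 3) (nat_lit 4) (nat_lit 1) (nat_lit 4) (nat_lit 461) (nat_lit 282) (nat_lit 277)))) (XT.nd (nat_lit 78) (nat_lit 0) (nat_lit 0) (XT.lf (nat_lit 0) (nat_lit 92919427677) (nat_lit 152) (nat_lit 138728667337) (nat_lit 0) (nat_lit 92667927201) (nat_lit 1) (nat_lit 5) (nat_lit 3) (nat_lit 4) (nat_lit 1) (nat_lit 4) (nat_lit 462) (nat_lit 282) (nat_lit 276)) (XT.nd (nat_lit 78) (nat_lit 0) (nat_lit 0) (XT.lf (nat_lit 0) (nat_lit 99776322659) (nat_lit 152) (nat_lit 141152756449) (nat_lit 0) (nat_lit 99489607933) (nat_lit 1) (nat_lit 5) (nat_lit 3) (nat_lit 4) (nat_lit 1) (nat_lit 4) (nat_lit 463) (nat_lit 282) (nat_lit 275)) (XT.lf (nat_lit 0) (nat_lit 106912232807) (nat_lit 152) (nat_lit 143825466260)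 (nat_lit 0) (nat_lit 106591980699) (nat_lit 1) (nat_lit 5) (nat_lit 3) (nat_lit 4) (nat_lit 1) (nat_lit 4) (nat_lit 464) (nat_lit 282) (nat_lit 274)))))) (XT.nd (nat_lit 468) (nat_lit 0) (nat_lit 0) (XT.nd (nat_lit 234) (nat_lit 0) (nat_lit 0) (XT.nd (nat_lit 78) (nat_lit 0) (nat_lit 0) (XT.lf (nat_lit 0) (nat_lit 114344148383) (nat_lit 152) (nat_lit 146753160365) (nat_lit 0) (nat_lit 113991955912) (nat_lit 1) (nat_lit 5) (nat_lit 3) (nat_lit 4) (nat_lit 1) (nat_lit 4) (nat_lit 465) (nat_lit 282) (nat_lit 273)) (XT.nd (nat_lit 78) (nat_lit 0) (nat_lit 0) (XT.lf (nat_lit 0) (nat_lit 122089764425) (nat_lit 152) (nat_lit 149942809464) (nat_lit 0) (nat_lit 121707152560) (nat_lit 1) (nat_lit 5) (nat_lit 3) (nat_lit 4) (nat_lit 1) (nat_lit 4) (nat_lit 466) (nat_lit 282) (nat_lit 272)) (XT.lf (nat_lit 0) (nat_lit 130167522875) (nat_lit 152) (nat_lit 153402007960) (nat_lit 0) (nat_lit 129755940159)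 (nat_lit 1) (nat_lit 5) (nat_lit 3) (nat_lit 4) (nat_lit 1) (nat_lit 4) (nat_lit 467) (nat_lit 282) (nat_lit 271)))) (XT.nd (nat_lit 78) (nat_lit 0) (nat_lit 0) (XT.lf (nat_lit 0) (nat_lit 138596656492) (nat_lit 152) (nat_lit 157138992039) (nat_lit 0) (nat_lit 138157482489) (nat_lit 1) (nat_lit 5) (nat_lit 3) (nat_lit 4) (nat_lit 1) (nat_lit 4) (nat_lit 468) (nat_lit 282) (nat_lit 270)) (XT.nd (nat_lit 78) (nat_lit 0) (nat_lit 0) (XT.lf (nat_lit 0) (nat_lit 147397234641) (nat_lit 152) (nat_lit 161162659283) (nat_lit 0) (nat_lit 146931783223) (nat_lit 1) (nat_lit 5) (nat_lit 3) (nat_lit 4) (nat_lit 1) (nat_lit 4) (nat_lit 469) (nat_lit 282) (nat_lit 269)) (XT.lf (nat_lit 0) (nat_lit 156590211080) (nat_lit 152) (nat_lit 165482589852) (nat_lit 0) (nat_lit 156099733551) (nat_lit 1) (nat_lit 5) (nat_lit 3) (nat_lit 4) (nat_lit 1) (nat_lit 4) (nat_lit 470) (nat_lit 282) (nat_lit 268))))) (XT.nd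 (nat_lit 234) (nat_lit 0) (nat_lit 0) (XT.nd (nat_lit 78) (nat_lit 0) (nat_lit 0) (XT.lf (nat_lit 0) (nat_lit 166197473848) (nat_lit 152) (nat_lit 170109069294) (nat_lit 0) (nat_lit 165683161928) (nat_lit 1) (nat_lit 5) (nat_lit 3) (nat_lit 4) (nat_lit 1) (nat_lit 4) (nat_lit 471) (nat_lit 282) (nat_lit 267)) (XT.nd (nat_lit 78) (nat_lit 0) (nat_lit 0) (XT.lf (nat_lit 0) (nat_lit 176241897380) (nat_lit 152) (nat_lit 175053113037) (nat_lit 0) (nat_lit 175704886040) (nat_lit 1) (nat_lit 5) (nat_lit 3) (nat_lit 4) (nat_lit 1) (nat_lit 4) (nat_lit 472) (nat_lit 282) (nat_lit 266)) (XT.lf (nat_lit 0) (nat_lit 186747396970) (nat_lit 152) (nat_lit 180326492614) (nat_lit 0) (nat_lit 186188767135) (nat_lit 1) (nat_lit 5) (nat_lit 3) (nat_lit 4) (nat_lit 1) (nat_lit 4) (nat_lit 473) (nat_lit 282) (nat_lit 265)))) (XT.nd (nat_lit 156) (nat_lit 0) (nat_lit 0) (XT.nd (nat_lit 78) (nat_lit 0) (nat_lit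 0) (XT.lf (nat_lit 0) (nat_lit 197738985712) (nat_lit 152) (nat_lit 185941763690) (nat_lit 0) (nat_lit 197159766835) (nat_lit 1) (nat_lit 5) (nat_lit 3) (nat_lit 4) (nat_lit 1) (nat_lit 4) (nat_lit 474) (nat_lit 282) (nat_lit 264)) (XT.lf (nat_lit 0) (nat_lit 209242834057) (nat_lit 152) (nat_lit 191912295959) (nat_lit 0) (nat_lit 208644006567) (nat_lit 1) (nat_lit 5) (nat_lit 3) (nat_lit 4) (nat_lit 1) (nat_lit 4) (nat_lit 475) (nat_lit 282) (nat_lit 263))) (XT.nd (nat_lit 78) (nat_lit 0) (nat_lit 0) (XT.lf (nat_lit 0) (nat_lit 221286332119) (nat_lit 152) (nat_lit 198252304973) (nat_lit 0) (nat_lit 220668829759) (nat_lit 1) (nat_lit 5) (nat_lit 3) (nat_lit 4) (nat_lit 1) (nat_lit 4) (nat_lit 476) (nat_lit 282) (nat_lit 262)) (XT.lf (nat_lit 0) (nat_lit 233898154893) (nat_lit 152) (nat_lit 204976885992) (nat_lit 0) (nat_lit 233262866944) (nat_lit 1) (nat_lit 5) (nat_lit 3) (nat_lit 4) (nat_lit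 1) (nat_lit 4) (nat_lit 477) (nat_lit 282) (nat_lit 261))))))) (XT.nd (nat_lit 51948) (nat_lit 0) (nat_lit 0) (XT.nd (nat_lit 51402) (nat_lit 0) (nat_lit 0) (XT.nd (nat_lit 234) (nat_lit 0) (nat_lit 0) (XT.nd (nat_lit 78) (nat_lit 0) (nat_lit 0) (XT.lf (nat_lit 0) (nat_lit 247108330528) (nat_lit 152) (nat_lit 212102049923) (nat_lit 0) (nat_lit 246456103923) (nat_lit 1) (nat_lit 5) (nat_lit 3) (nat_lit 4) (nat_lit 1) (nat_lit 4) (nat_lit 478) (nat_lit 282) (nat_lit 260)) (XT.nd (nat_lit 78) (nat_lit 0) (nat_lit 0) (XT.lf (nat_lit 0) (nat_lit 260948311825) (nat_lit 152) (nat_lit 219644761442) (nat_lit 0) (nat_lit 260279953166) (nat_lit 1) (nat_lit 5) (nat_lit 3) (nat_lit 4) (nat_lit 1) (nat_lit 4) (nat_lit 479) (nat_lit 282) (nat_lit 259)) (XT.lf (nat_lit 0) (nat_lit 275451051119) (nat_lit 152) (nat_lit 227622979386) (nat_lit 0) (nat_lit 274767328599) (nat_lit 1) (nat_lit 5) (nat_lit 3) (nat_lit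 4) (nat_lit 1) (nat_lit 4) (nat_lit 480) (nat_lit 282) (nat_lit 258)))) (XT.nd (nat_lit 51012) (nat_lit 0) (nat_lit 0) (XT.lf (nat_lit 0) (nat_lit 290651078743) (nat_lit 152) (nat_lit 236055699513) (nat_lit 0) (nat_lit 289952723974) (nat_lit 1) (nat_lit 5) (nat_lit 3) (nat_lit 4) (nat_lit 1) (nat_lit 4) (nat_lit 481) (nat_lit 282) (nat_lit 257)) (XT.nd (nat_lit 78) (nat_lit 0) (nat_lit 0) (XT.lf (nat_lit 0) (nat_lit 23183730880) (nat_lit 152) (nat_lit 63810230470) (nat_lit 0) (nat_lit 23183730880) (nat_lit 1) (nat_lit 5) (nat_lit 3) (nat_lit 4) (nat_lit 1) (nat_lit 4) (nat_lit 454) (nat_lit 283) (nat_lit 283)) (XT.lf (nat_lit 0) (nat_lit 51485969620) (nat_lit 152) (nat_lit 128308014240) (nat_lit 0) (nat_lit 51436419634) (nat_lit 1) (nat_lit 5) (nat_lit 3) (nat_lit 4) (nat_lit 1) (nat_lit 4) (nat_lit 455) (nat_lit 283) (nat_lit 282))))) (XT.nd (nat_lit 234) (nat_lit 0) (nat_lit 0) (XT.nd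 (nat_lit 78) (nat_lit 0) (nat_lit 0) (XT.lf (nat_lit 0) (nat_lit 56770588239) (nat_lit 152) (nat_lit 129209232653) (nat_lit 0) (nat_lit 56673847788) (nat_lit 1) (nat_lit 5) (nat_lit 3) (nat_lit 4) (nat_lit 1) (nat_lit 4) (nat_lit 456) (nat_lit 283) (nat_lit 281)) (XT.nd (nat_lit 78) (nat_lit 0) (nat_lit 0) (XT.lf (nat_lit 0) (nat_lit 62233900043) (nat_lit 152) (nat_lit 130326261939) (nat_lit 0) (nat_lit 62092216293) (nat_lit 1) (nat_lit 5) (nat_lit 3) (nat_lit 4) (nat_lit 1) (nat_lit 4) (nat_lit 457) (nat_lit 283) (nat_lit 280)) (XT.lf (nat_lit 0) (nat_lit 67888912916) (nat_lit 152) (nat_lit 131661761692) (nat_lit 0) (nat_lit 67704426025) (nat_lit 1) (nat_lit 5) (nat_lit 3) (nat_lit 4) (nat_lit 1) (nat_lit 4) (nat_lit 458) (nat_lit 283) (nat_lit 279)))) (XT.nd (nat_lit 156) (nat_lit 0) (nat_lit 0) (XT.nd (nat_lit 78) (nat_lit 0) (nat_lit 0) (XT.lf (nat_lit 0) (nat_lit 73749091177) (nat_lit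 152) (nat_lit 133218911673) (nat_lit 0) (nat_lit 73523839389) (nat_lit 1) (nat_lit 5) (nat_lit 3) (nat_lit 4) (nat_lit 1) (nat_lit 4) (nat_lit 459) (nat_lit 283) (nat_lit 278)) (XT.lf (nat_lit 0) (nat_lit 79828387629) (nat_lit 152) (nat_lit 135001419381) (nat_lit 0) (nat_lit 79564312130) (nat_lit 1) (nat_lit 5) (nat_lit 3) (nat_lit 4) (nat_lit 1) (nat_lit 4) (nat_lit 460) (nat_lit 283) (nat_lit 277))) (XT.nd (nat_lit 78) (nat_lit 0) (nat_lit 0) (XT.lf (nat_lit 0) (nat_lit 86141276789) (nat_lit 152) (nat_lit 137013528883) (nat_lit 0) (nat_lit 85840226326) (nat_lit 1) (nat_lit 5) (nat_lit 3) (nat_lit 4) (nat_lit 1) (nat_lit 4) (nat_lit 461) (nat_lit 283) (nat_lit 276)) (XT.lf (nat_lit 0) (nat_lit 92702789344) (nat_lit 152) (nat_lit 139260030915) (nat_lit 0) (nat_lit 92366524631) (nat_lit 1) (nat_lit 5) (nat_lit 3) (nat_lit 4) (nat_lit 1) (nat_lit 4) (nat_lit 462) (nat_lit 283) (nat_lit 275))))))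 (XT.nd (nat_lit 468) (nat_lit 0) (nat_lit 0) (XT.nd (nat_lit 234) (nat_lit 0) (nat_lit 0) (XT.nd (nat_lit 78) (nat_lit 0) (nat_lit 0) (XT.lf (nat_lit 0) (nat_lit 99528547944) (nat_lit 152) (nat_lit 141746274293) (nat_lit 0) (nat_lit 99158745850) (nat_lit 1) (nat_lit 5) (nat_lit 3) (nat_lit 4) (nat_lit 1) (nat_lit 4) (nat_lit 463) (nat_lit 283) (nat_lit 274)) (XT.nd (nat_lit 78) (nat_lit 0) (nat_lit 0) (XT.lf (nat_lit 0) (nat_lit 106634804395) (nat_lit 152) (nat_lit 144478178642) (nat_lit 0) (nat_lit 106233061937) (nat_lit 1) (nat_lit 5) (nat_lit 3) (nat_lit 4) (nat_lit 1) (nat_lit 4) (nat_lit 464) (nat_lit 283) (nat_lit 273)) (XT.lf (nat_lit 0) (nat_lit 114038478355) (nat_lit 152) (nat_lit 147462248498) (nat_lit 0) (nat_lit 113606316504) (nat_lit 1) (nat_lit 5) (nat_lit 3) (nat_lit 4) (nat_lit 1) (nat_lit 4) (nat_lit 465) (nat_lit 283) (nat_lit 272)))) (XT.nd (nat_lit 78) (nat_lit 0) (nat_lit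 0) (XT.lf (nat_lit 0) (nat_lit 121757197620) (nat_lit 152) (nat_lit 150705588788) (nat_lit 0) (nat_lit 121296064917) (nat_lit 1) (nat_lit 5) (nat_lit 3) (nat_lit 4) (nat_lit 1) (nat_lit 4) (nat_lit 466) (nat_lit 283) (nat_lit 271)) (XT.nd (nat_lit 78) (nat_lit 0) (nat_lit 0) (XT.lf (nat_lit 0) (nat_lit 129809340091) (nat_lit 152) (nat_lit 154215921751) (nat_lit 0) (nat_lit 129320616102) (nat_lit 1) (nat_lit 5) (nat_lit 3) (nat_lit 4) (nat_lit 1) (nat_lit 4) (nat_lit 467) (nat_lit 283) (nat_lit 270)) (XT.lf (nat_lit 0) (nat_lit 138214077538) (nat_lit 152) (nat_lit 158001605324) (nat_lit 0) (nat_lit 137699076133) (nat_lit 1) (nat_lit 5) (nat_lit 3) (nat_lit 4) (nat_lit 1) (nat_lit 4) (nat_lit 468) (nat_lit 283) (nat_lit 269))))) (XT.nd (nat_lit 234) (nat_lit 0) (nat_lit 0) (XT.nd (nat_lit 78) (nat_lit 0) (nat_lit 0) (XT.lf (nat_lit 0) (nat_lit 146991421239) (nat_lit 152) (nat_lit 162071653037)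 (nat_lit 0) (nat_lit 146451393724) (nat_lit 1) (nat_lit 5) (nat_lit 3) (nat_lit 4) (nat_lit 1) (nat_lit 4) (nat_lit 469) (nat_lit 283) (nat_lit 268)) (XT.nd (nat_lit 78) (nat_lit 0) (nat_lit 0) (XT.lf (nat_lit 0) (nat_lit 156162269633) (nat_lit 152) (nat_lit 166435755481) (nat_lit 0) (nat_lit 155598407726) (nat_lit 1) (nat_lit 5) (nat_lit 3) (nat_lit 4) (nat_lit 1) (nat_lit 4) (nat_lit 470) (nat_lit 283) (nat_lit 267)) (XT.lf (nat_lit 0) (nat_lit 165748458072) (nat_lit 152) (nat_lit 171104303377) (nat_lit 0) (nat_lit 165161896745) (nat_lit 1) (nat_lit 5) (nat_lit 3) (nat_lit 4) (nat_lit 1) (nat_lit 4) (nat_lit 471) (nat_lit 283) (nat_lit 266)))) (XT.nd (nat_lit 156) (nat_lit 0) (nat_lit 0) (XT.nd (nat_lit 78) (nat_lit 0) (nat_lit 0) (XT.lf (nat_lit 0) (nat_lit 175772810814) (nat_lit 152) (nat_lit 176088412313) (nat_lit 0) (nat_lit 175164630992) (nat_lit 1) (nat_lit 5) (nat_lit 3) (nat_lit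 4) (nat_lit 1) (nat_lit 4) (nat_lit 472) (nat_lit 283) (nat_lit 265)) (XT.lf (nat_lit 0) (nat_lit 186259195367) (nat_lit 152) (nat_lit 181399949217) (nat_lit 0) (nat_lit 185630426502) (nat_lit 1) (nat_lit 5) (nat_lit 3) (nat_lit 4) (nat_lit 1) (nat_lit 4) (nat_lit 473) (nat_lit 283) (nat_lit 264))) (XT.nd (nat_lit 78) (nat_lit 0) (nat_lit 0) (XT.lf (nat_lit 0) (nat_lit 197232579312) (nat_lit 152) (nat_lit 187051560605) (nat_lit 0) (nat_lit 196584201835) (nat_lit 1) (nat_lit 5) (nat_lit 3) (nat_lit 4) (nat_lit 1) (nat_lit 4) (nat_lit 474) (nat_lit 283) (nat_lit 263)) (XT.lf (nat_lit 0) (nat_lit 208719089754) (nat_lit 152) (nat_lit 193056702694) (nat_lit 0) (nat_lit 208052037408) (nat_lit 1) (nat_lit 5) (nat_lit 3) (nat_lit 4) (nat_lit 1) (nat_lit 4) (nat_lit 475) (nat_lit 283) (nat_lit 262))))))))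
noncomputable def xc4 : XT := (XT.nd (nat_lit 52728) (nat_lit 0) (nat_lit 0) (XT.nd (nat_lit 51714) (nat_lit 0) (nat_lit 0) (XT.nd (nat_lit 51246) (nat_lit 0) (nat_lit 0) (XT.nd (nat_lit 234) (nat_lit 0) (nat_lit 0) (XT.nd (nat_lit 78) (nat_lit 0) (nat_lit 0) (XT.lf (nat_lit 0) (nat_lit 220746075527) (nat_lit 152) (nat_lit 199429673442) (nat_lit 0) (nat_lit 220061237592) (nat_lit 1) (nat_lit 5) (nat_lit 3) (nat_lit 4) (nat_lit 1) (nat_lit 4) (nat_lit 476) (nat_lit 283) (nat_lit 261)) (XT.nd (nat_lit 78) (nat_lit 0) (nat_lit 0) (XT.lf (nat_lit 0) (nat_lit 233342172313) (nat_lit 152) (nat_lit 206185646588) (nat_lit 0) (nat_lit 232640395720) (nat_lit 1) (nat_lit 5) (nat_lit 3) (nat_lit 4) (nat_lit 1) (nat_lit 4) (nat_lit 477) (nat_lit 283) (nat_lit 260)) (XT.lf (nat_lit 0) (nat_lit 246537370816) (nat_lit 152) (nat_lit 213340707783) (nat_lit 0) (nat_lit 245819462170) (nat_lit 1) (nat_lit 5)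 (nat_lit 3) (nat_lit 4) (nat_lit 1) (nat_lit 4) (nat_lit 478) (nat_lit 283) (nat_lit 259)))) (XT.nd (nat_lit 78) (nat_lit 0) (nat_lit 0) (XT.lf (nat_lit 0) (nat_lit 260363088178) (nat_lit 152) (nat_lit 220911892888) (nat_lit 0) (nat_lit 259629815671) (nat_lit 1) (nat_lit 5) (nat_lit 3) (nat_lit 4) (nat_lit 1) (nat_lit 4) (nat_lit 479) (nat_lit 283) (nat_lit 258)) (XT.nd (nat_lit 78) (nat_lit 0) (nat_lit 0) (XT.lf (nat_lit 0) (nat_lit 274852242772) (nat_lit 152) (nat_lit 228917228532) (nat_lit 0) (nat_lit 274104338016) (nat_lit 1) (nat_lit 5) (nat_lit 3) (nat_lit 4) (nat_lit 1) (nat_lit 4) (nat_lit 480) (nat_lit 283) (nat_lit 257)) (XT.lf (nat_lit 0) (nat_lit 290039332585) (nat_lit 152) (nat_lit 237375775039) (nat_lit 0) (nat_lit 289277492355) (nat_lit 1) (nat_lit 5) (nat_lit 3) (nat_lit 4) (nat_lit 1) (nat_lit 4) (nat_lit 481) (nat_lit 283) (nat_lit 256))))) (XT.nd (nat_lit 234) (nat_lit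 0) (nat_lit 0) (XT.nd (nat_lit 78) (nat_lit 0) (nat_lit 0) (XT.lf (nat_lit 0) (nat_lit 18340363674) (nat_lit 152) (nat_lit 63391942362) (nat_lit 0) (nat_lit 18340363674) (nat_lit 1) (nat_lit 5) (nat_lit 3) (nat_lit 4) (nat_lit 1) (nat_lit 4) (nat_lit 452) (nat_lit 284) (nat_lit 284)) (XT.nd (nat_lit 78) (nat_lit 0) (nat_lit 0) (XT.lf (nat_lit 0) (nat_lit 41454905225) (nat_lit 152) (nat_lit 127144935725) (nat_lit 0) (nat_lit 41402877739) (nat_lit 1) (nat_lit 5) (nat_lit 3) (nat_lit 4) (nat_lit 1) (nat_lit 4) (nat_lit 453) (nat_lit 284) (nat_lit 283)) (XT.lf (nat_lit 0) (nat_lit 46373486631) (nat_lit 152) (nat_lit 127712291098) (nat_lit 0) (nat_lit 46271909158) (nat_lit 1) (nat_lit 5) (nat_lit 3) (nat_lit 4) (nat_lit 1) (nat_lit 4) (nat_lit 454) (nat_lit 284) (nat_lit 282)))) (XT.nd (nat_lit 78) (nat_lit 0) (nat_lit 0) (XT.lf (nat_lit 0) (nat_lit 51448182473) (nat_lit 152) (nat_lit 128487301689)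 (nat_lit 0) (nat_lit 51299414537) (nat_lit 1) (nat_lit 5) (nat_lit 3) (nat_lit 4) (nat_lit 1) (nat_lit 4) (nat_lit 455) (nat_lit 284) (nat_lit 281)) (XT.nd (nat_lit 78) (nat_lit 0) (nat_lit 0) (XT.lf (nat_lit 0) (nat_lit 56691075362) (nat_lit 152) (nat_lit 129471812763) (nat_lit 0) (nat_lit 56497364127) (nat_lit 1) (nat_lit 5) (nat_lit 3) (nat_lit 4) (nat_lit 1) (nat_lit 4) (nat_lit 456) (nat_lit 284) (nat_lit 280)) (XT.lf (nat_lit 0) (nat_lit 62114648376) (nat_lit 152) (nat_lit 130668168391) (nat_lit 0) (nat_lit 61878133998) (nat_lit 1) (nat_lit 5) (nat_lit 3) (nat_lit 4) (nat_lit 1) (nat_lit 4) (nat_lit 457) (nat_lit 284) (nat_lit 279)))))) (XT.nd (nat_lit 468) (nat_lit 0) (nat_lit 0) (XT.nd (nat_lit 234) (nat_lit 0) (nat_lit 0) (XT.nd (nat_lit 78) (nat_lit 0) (nat_lit 0) (XT.lf (nat_lit 0) (nat_lit 67731814783) (nat_lit 152) (nat_lit 132079217042) (nat_lit 0) (nat_lit 67454535508) (nat_lit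 1) (nat_lit 5) (nat_lit 3) (nat_lit 4) (nat_lit 1) (nat_lit 4) (nat_lit 458) (nat_lit 284) (nat_lit 278)) (XT.nd (nat_lit 78) (nat_lit 0) (nat_lit 0) (XT.lf (nat_lit 0) (nat_lit 73555948789) (nat_lit 152) (nat_lit 133708318353) (nat_lit 0) (nat_lit 73239845803) (nat_lit 1) (nat_lit 5) (nat_lit 3) (nat_lit 4) (nat_lit 1) (nat_lit 4) (nat_lit 459) (nat_lit 284) (nat_lit 277)) (XT.lf (nat_lit 0) (nat_lit 79600917380) (nat_lit 152) (nat_lit 135559351139) (nat_lit 0) (nat_lit 79247839431) (nat_lit 1) (nat_lit 5) (nat_lit 3) (nat_lit 4) (nat_lit 1) (nat_lit 4) (nat_lit 460) (nat_lit 284) (nat_lit 276)))) (XT.nd (nat_lit 78) (nat_lit 0) (nat_lit 0) (XT.lf (nat_lit 0) (nat_lit 85881113338) (nat_lit 152) (nat_lit 137636722619) (nat_lit 0) (nat_lit 85492821139) (nat_lit 1) (nat_lit 5) (nat_lit 3) (nat_lit 4) (nat_lit 1) (nat_lit 4) (nat_lit 461) (nat_lit 284) (nat_lit 275)) (XT.nd (nat_lit 78) (nat_lit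 0) (nat_lit 0) (XT.lf (nat_lit 0) (nat_lit 92411489512) (nat_lit 152) (nat_lit 139945378917) (nat_lit 0) (nat_lit 91989659931) (nat_lit 1) (nat_lit 5) (nat_lit 3) (nat_lit 4) (nat_lit 1) (nat_lit 4) (nat_lit 462) (nat_lit 284) (nat_lit 274)) (XT.lf (nat_lit 0) (nat_lit 99207594415) (nat_lit 152) (nat_lit 142490816832) (nat_lit 0) (nat_lit 98753824471) (nat_lit 1) (nat_lit 5) (nat_lit 3) (nat_lit 4) (nat_lit 1) (nat_lit 4) (nat_lit 463) (nat_lit 284) (nat_lit 273))))) (XT.nd (nat_lit 234) (nat_lit 0) (nat_lit 0) (XT.nd (nat_lit 78) (nat_lit 0) (nat_lit 0) (XT.lf (nat_lit 0) (nat_lit 106285609249) (nat_lit 152) (nat_lit 145279096932) (nat_lit 0) (nat_lit 105801419912) (nat_lit 1) (nat_lit 5) (nat_lit 3) (nat_lit 4) (nat_lit 1) (nat_lit 4) (nat_lit 464) (nat_lit 284) (nat_lit 272)) (XT.nd (nat_lit 78) (nat_lit 0) (nat_lit 0) (XT.lf (nat_lit 0) (nat_lit 113662386432) (nat_lit 152) (nat_lit 148316857979)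 (nat_lit 0) (nat_lit 113149226243) (nat_lit 1) (nat_lit 5) (nat_lit 3) (nat_lit 4) (nat_lit 1) (nat_lit 4) (nat_lit 465) (nat_lit 284) (nat_lit 271)) (XT.lf (nat_lit 0) (nat_lit 121355489718) (nat_lit 152) (nat_lit 151611332737) (nat_lit 0) (nat_lit 120814738242) (nat_lit 1) (nat_lit 5) (nat_lit 3) (nat_lit 4) (nat_lit 1) (nat_lit 4) (nat_lit 466) (nat_lit 284) (nat_lit 270)))) (XT.nd (nat_lit 156) (nat_lit 0) (nat_lit 0) (XT.nd (nat_lit 78) (nat_lit 0) (nat_lit 0) (XT.lf (nat_lit 0) (nat_lit 129383236020) (nat_lit 152) (nat_lit 155170365193) (nat_lit 0) (nat_lit 128816207128) (nat_lit 1) (nat_lit 5) (nat_lit 3) (nat_lit 4) (nat_lit 1) (nat_lit 4) (nat_lit 467) (nat_lit 284) (nat_lit 269)) (XT.lf (nat_lit 0) (nat_lit 137764739019) (nat_lit 152) (nat_lit 159002429235) (nat_lit 0) (nat_lit 137172684017) (nat_lit 1) (nat_lit 5) (nat_lit 3) (nat_lit 4) (nat_lit 1) (nat_lit 4) (nat_lit 468) (nat_lit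 284) (nat_lit 268))) (XT.nd (nat_lit 78) (nat_lit 0) (nat_lit 0) (XT.lf (nat_lit 0) (nat_lit 146519954675) (nat_lit 152) (nat_lit 163116648824) (nat_lit 0) (nat_lit 145904065282) (nat_lit 1) (nat_lit 5) (nat_lit 3) (nat_lit 4) (nat_lit 1) (nat_lit 4) (nat_lit 469) (nat_lit 284) (nat_lit 267)) (XT.lf (nat_lit 0) (nat_lit 155669728739) (nat_lit 152) (nat_lit 167522819721) (nat_lit 0) (nat_lit 155031139926) (nat_lit 1) (nat_lit 5) (nat_lit 3) (nat_lit 4) (nat_lit 1) (nat_lit 4) (nat_lit 470) (nat_lit 284) (nat_lit 266))))))) (XT.nd (nat_lit 51636) (nat_lit 0) (nat_lit 0) (XT.nd (nat_lit 468) (nat_lit 0) (nat_lit 0) (XT.nd (nat_lit 234) (nat_lit 0) (nat_lit 0) (XT.nd (nat_lit 78) (nat_lit 0) (nat_lit 0) (XT.lf (nat_lit 0) (nat_lit 165235846389) (nat_lit 152) (nat_lit 172231432810) (nat_lit 0) (nat_lit 164575639081) (nat_lit 1) (nat_lit 5) (nat_lit 3) (nat_lit 4) (nat_lit 1) (nat_lit 4) (nat_lit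 471) (nat_lit 284) (nat_lit 265)) (XT.nd (nat_lit 78) (nat_lit 0) (nat_lit 0) (XT.lf (nat_lit 0) (nat_lit 175241084094) (nat_lit 152) (nat_lit 177253699074) (nat_lit 0) (nat_lit 174560287743) (nat_lit 1) (nat_lit 5) (nat_lit 3) (nat_lit 4) (nat_lit 1) (nat_lit 4) (nat_lit 472) (nat_lit 284) (nat_lit 264)) (XT.lf (nat_lit 0) (nat_lit 185709263849) (nat_lit 152) (nat_lit 182601576289) (nat_lit 0) (nat_lit 185008858885) (nat_lit 1) (nat_lit 5) (nat_lit 3) (nat_lit 4) (nat_lit 1) (nat_lit 4) (nat_lit 473) (nat_lit 284) (nat_lit 263)))) (XT.nd (nat_lit 78) (nat_lit 0) (nat_lit 0) (XT.lf (nat_lit 0) (nat_lit 196665309891) (nat_lit 152) (nat_lit 188287797497) (nat_lit 0) (nat_lit 195946230059) (nat_lit 1) (nat_lit 5) (nat_lit 3) (nat_lit 4) (nat_lit 1) (nat_lit 4) (nat_lit 474) (nat_lit 284) (nat_lit 262)) (XT.nd (nat_lit 78) (nat_lit 0) (nat_lit 0) (XT.lf (nat_lit 0) (nat_lit 208135308045) (nat_lit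 152) (nat_lit 194325901320) (nat_lit 0) (nat_lit 207398442623) (nat_lit 1) (nat_lit 5) (nat_lit 3) (nat_lit 4) (nat_lit 1) (nat_lit 4) (nat_lit 475) (nat_lit 284) (nat_lit 261)) (XT.lf (nat_lit 0) (nat_lit 220146567830) (nat_lit 152) (nat_lit 200730264195) (nat_lit 0) (nat_lit 219392763751) (nat_lit 1) (nat_lit 5) (nat_lit 3) (nat_lit 4) (nat_lit 1) (nat_lit 4) (nat_lit 476) (nat_lit 284) (nat_lit 260))))) (XT.nd (nat_lit 234) (nat_lit 0) (nat_lit 0) (XT.nd (nat_lit 78) (nat_lit 0) (nat_lit 0) (XT.lf (nat_lit 0) (nat_lit 232727687483) (nat_lit 152) (nat_lit 207516134606) (nat_lit 0) (nat_lit 231957751350) (nat_lit 1) (nat_lit 5) (nat_lit 3) (nat_lit 4) (nat_lit 1) (nat_lit 4) (nat_lit 477) (nat_lit 284) (nat_lit 259)) (XT.nd (nat_lit 78) (nat_lit 0) (nat_lit 0) (XT.lf (nat_lit 0) (nat_lit 245908622051) (nat_lit 152) (nat_lit 214699669386) (nat_lit 0) (nat_lit 245123322058) (nat_lit 1) (nat_lit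 5) (nat_lit 3) (nat_lit 4) (nat_lit 1) (nat_lit 4) (nat_lit 478) (nat_lit 284) (nat_lit 258)) (XT.lf (nat_lit 0) (nat_lit 259720754712) (nat_lit 152) (nat_lit 222297972190) (nat_lit 0) (nat_lit 258920822471) (nat_lit 1) (nat_lit 5) (nat_lit 3) (nat_lit 4) (nat_lit 1) (nat_lit 4) (nat_lit 479) (nat_lit 284) (nat_lit 257)))) (XT.nd (nat_lit 50778) (nat_lit 0) (nat_lit 0) (XT.nd (nat_lit 78) (nat_lit 0) (nat_lit 0) (XT.lf (nat_lit 0) (nat_lit 274196971496) (nat_lit 152) (nat_lit 230329134216) (nat_lit 0) (nat_lit 273383103780) (nat_lit 1) (nat_lit 5) (nat_lit 3) (nat_lit 4) (nat_lit 1) (nat_lit 4) (nat_lit 480) (nat_lit 284) (nat_lit 256)) (XT.lf (nat_lit 0) (nat_lit 289371739586) (nat_lit 152) (nat_lit 238812277276) (nat_lit 0) (nat_lit 288544599989) (nat_lit 1) (nat_lit 5) (nat_lit 3) (nat_lit 4) (nat_lit 1) (nat_lit 4) (nat_lit 481) (nat_lit 284) (nat_lit 255))) (XT.nd (nat_lit 78) (nat_lit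 0) (nat_lit 0) (XT.lf (nat_lit 0) (nat_lit 13812888660) (nat_lit 152) (nat_lit 63288251833) (nat_lit 0) (nat_lit 13812888660) (nat_lit 1) (nat_lit 5) (nat_lit 3) (nat_lit 4) (nat_lit 1) (nat_lit 4) (nat_lit 450) (nat_lit 285) (nat_lit 285)) (XT.lf (nat_lit 0) (nat_lit 32094214770) (nat_lit 152) (nat_lit 126628278452) (nat_lit 0) (nat_lit 32039585910) (nat_lit 1) (nat_lit 5) (nat_lit 3) (nat_lit 4) (nat_lit 1) (nat_lit 4) (nat_lit 451) (nat_lit 285) (nat_lit 284)))))) (XT.nd (nat_lit 468) (nat_lit 0) (nat_lit 0) (XT.nd (nat_lit 234) (nat_lit 0) (nat_lit 0) (XT.nd (nat_lit 78) (nat_lit 0) (nat_lit 0) (XT.lf (nat_lit 0) (nat_lit 36687053461) (nat_lit 152) (nat_lit 126880306390) (nat_lit 0) (nat_lit 36580397114) (nat_lit 1) (nat_lit 5) (nat_lit 3) (nat_lit 4) (nat_lit 1) (nat_lit 4) (nat_lit 452) (nat_lit 285) (nat_lit 283)) (XT.nd (nat_lit 78) (nat_lit 0) (nat_lit 0) (XT.lf (nat_lit 0) (nat_lit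 41415228720) (nat_lit 152) (nat_lit 127333187548) (nat_lit 0) (nat_lit 41259022387) (nat_lit 1) (nat_lit 5) (nat_lit 3) (nat_lit 4) (nat_lit 1) (nat_lit 4) (nat_lit 453) (nat_lit 285) (nat_lit 282)) (XT.lf (nat_lit 0) (nat_lit 46289998110) (nat_lit 152) (nat_lit 127988000213) (nat_lit 0) (nat_lit 46086601313) (nat_lit 1) (nat_lit 5) (nat_lit 3) (nat_lit 4) (nat_lit 1) (nat_lit 4) (nat_lit 454) (nat_lit 285) (nat_lit 281)))) (XT.nd (nat_lit 78) (nat_lit 0) (nat_lit 0) (XT.lf (nat_lit 0) (nat_lit 51322968223) (nat_lit 152) (nat_lit 128846303464) (nat_lit 0) (nat_lit 51074628127) (nat_lit 1) (nat_lit 5) (nat_lit 3) (nat_lit 4) (nat_lit 1) (nat_lit 4) (nat_lit 455) (nat_lit 285) (nat_lit 280)) (XT.nd (nat_lit 78) (nat_lit 0) (nat_lit 0) (XT.lf (nat_lit 0) (nat_lit 56526122322) (nat_lit 152) (nat_lit 129910140880) (nat_lit 0) (nat_lit 56234979084) (nat_lit 1) (nat_lit 5) (nat_lit 3) (nat_lit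 4) (nat_lit 1) (nat_lit 4) (nat_lit 456) (nat_lit 285) (nat_lit 279)) (XT.lf (nat_lit 0) (nat_lit 61911848868) (nat_lit 152) (nat_lit 131182045406) (nat_lit 0) (nat_lit 61579940733) (nat_lit 1) (nat_lit 5) (nat_lit 3) (nat_lit 4) (nat_lit 1) (nat_lit 4) (nat_lit 457) (nat_lit 285) (nat_lit 278))))) (XT.nd (nat_lit 234) (nat_lit 0) (nat_lit 0) (XT.nd (nat_lit 78) (nat_lit 0) (nat_lit 0) (XT.lf (nat_lit 0) (nat_lit 67492971021) (nat_lit 152) (nat_lit 132665045388) (nat_lit 0) (nat_lit 67122239175) (nat_lit 1) (nat_lit 5) (nat_lit 3) (nat_lit 4) (nat_lit 1) (nat_lit 4) (nat_lit 458) (nat_lit 285) (nat_lit 277)) (XT.nd (nat_lit 78) (nat_lit 0) (nat_lit 0) (XT.lf (nat_lit 0) (nat_lit 73282777166) (nat_lit 152) (nat_lit 134362671776) (nat_lit 0) (nat_lit 72875070357) (nat_lit 1) (nat_lit 5) (nat_lit 3) (nat_lit 4) (nat_lit 1) (nat_lit 4) (nat_lit 459) (nat_lit 285) (nat_lit 276)) (XT.lf (nat_lit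 0) (nat_lit 79295052556) (nat_lit 152) (nat_lit 136278966540) (nat_lit 0) (nat_lit 78852131496) (nat_lit 1) (nat_lit 5) (nat_lit 3) (nat_lit 4) (nat_lit 1) (nat_lit 4) (nat_lit 460) (nat_lit 285) (nat_lit 275)))) (XT.nd (nat_lit 156) (nat_lit 0) (nat_lit 0) (XT.nd (nat_lit 78) (nat_lit 0) (nat_lit 0) (XT.lf (nat_lit 0) (nat_lit 85544112132) (nat_lit 152) (nat_lit 138418492285) (nat_lit 0) (nat_lit 85067653691) (nat_lit 1) (nat_lit 5) (nat_lit 3) (nat_lit 4) (nat_lit 1) (nat_lit 4) (nat_lit 461) (nat_lit 285) (nat_lit 274)) (XT.lf (nat_lit 0) (nat_lit 92044834609) (nat_lit 152) (nat_lit 140786343121) (nat_lit 0) (nat_lit 91536435804) (nat_lit 1) (nat_lit 5) (nat_lit 3) (nat_lit 4) (nat_lit 1) (nat_lit 4) (nat_lit 462) (nat_lit 285) (nat_lit 273))) (XT.nd (nat_lit 78) (nat_lit 0) (nat_lit 0) (XT.lf (nat_lit 0) (nat_lit 98812697895) (nat_lit 152) (nat_lit 143388156787) (nat_lit 0) (nat_lit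 98273879697) (nat_lit 1) (nat_lit 5) (nat_lit 3) (nat_lit 4) (nat_lit 1) (nat_lit 4) (nat_lit 463) (nat_lit 285) (nat_lit 272)) (XT.lf (nat_lit 0) (nat_lit 105863815953) (nat_lit 152) (nat_lit 146230128078) (nat_lit 0) (nat_lit 105296026903) (nat_lit 1) (nat_lit 5) (nat_lit 3) (nat_lit 4) (nat_lit 1) (nat_lit 4) (nat_lit 464) (nat_lit 285) (nat_lit 271))))))))
noncomputable def xc5 : XT := (XT.nd (nat_lit 52416) (nat_lit 0) (nat_lit 0) (XT.nd (nat_lit 936) (nat_lit 0) (nat_lit 0) (XT.nd (nat_lit 468) (nat_lit 0) (nat_lit 0) (XT.nd (nat_lit 234) (nat_lit 0) (nat_lit 0) (XT.nd (nat_lit 78) (nat_lit 0) (nat_lit 0) (XT.lf (nat_lit 0) (nat_lit 113214977157) (nat_lit 152) (nat_lit 149319023593) (nat_lit 0) (nat_lit 112619596821) (nat_lit 1) (nat_lit 5) (nat_lit 3) (nat_lit 4) (nat_lit 1) (nat_lit 4) (nat_lit 465) (nat_lit 285) (nat_lit 270)) (XT.nd (nat_lit 78) (nat_lit 0) (nat_lit 0) (XT.lf (nat_lit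 0) (nat_lit 120883684273) (nat_lit 152) (nat_lit 152662197843) (nat_lit 0) (nat_lit 120262026521) (nat_lit 1) (nat_lit 5) (nat_lit 3) (nat_lit 4) (nat_lit 1) (nat_lit 4) (nat_lit 466) (nat_lit 285) (nat_lit 269)) (XT.lf (nat_lit 0) (nat_lit 128888196127) (nat_lit 152) (nat_lit 156267610769) (nat_lit 0) (nat_lit 128241512264) (nat_lit 1) (nat_lit 5) (nat_lit 3) (nat_lit 4) (nat_lit 1) (nat_lit 4) (nat_lit 467) (nat_lit 285) (nat_lit 268)))) (XT.nd (nat_lit 78) (nat_lit 0) (nat_lit 0) (XT.lf (nat_lit 0) (nat_lit 137247571080) (nat_lit 152) (nat_lit 160143846687) (nat_lit 0) (nat_lit 136577052827) (nat_lit 1) (nat_lit 5) (nat_lit 3) (nat_lit 4) (nat_lit 1) (nat_lit 4) (nat_lit 468) (nat_lit 285) (nat_lit 267)) (XT.nd (nat_lit 78) (nat_lit 0) (nat_lit 0) (XT.lf (nat_lit 0) (nat_lit 145981712408) (nat_lit 152) (nat_lit 164300134729) (nat_lit 0) (nat_lit 145288494734) (nat_lit 1) (nat_lit 5) (nat_lit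 3) (nat_lit 4) (nat_lit 1) (nat_lit 4) (nat_lit 469) (nat_lit 285) (nat_lit 266)) (XT.lf (nat_lit 0) (nat_lit 155111415683) (nat_lit 152) (nat_lit 168746370820) (nat_lit 0) (nat_lit 154396579514) (nat_lit 1) (nat_lit 5) (nat_lit 3) (nat_lit 4) (nat_lit 1) (nat_lit 4) (nat_lit 470) (nat_lit 285) (nat_lit 265))))) (XT.nd (nat_lit 234) (nat_lit 0) (nat_lit 0) (XT.nd (nat_lit 78) (nat_lit 0) (nat_lit 0) (XT.lf (nat_lit 0) (nat_lit 164658418295) (nat_lit 152) (nat_lit 173493141236) (nat_lit 0) (nat_lit 163922993083) (nat_lit 1) (nat_lit 5) (nat_lit 3) (nat_lit 4) (nat_lit 1) (nat_lit 4) (nat_lit 471) (nat_lit 285) (nat_lit 264)) (XT.nd (nat_lit 78) (nat_lit 0) (nat_lit 0) (XT.lf (nat_lit 0) (nat_lit 174645451202) (nat_lit 152) (nat_lit 178551747811) (nat_lit 0) (nat_lit 173890417378) (nat_lit 1) (nat_lit 5) (nat_lit 3) (nat_lit 4) (nat_lit 1) (nat_lit 4) (nat_lit 472) (nat_lit 285) (nat_lit 263))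 (XT.lf (nat_lit 0) (nat_lit 185096293054) (nat_lit 152) (nat_lit 183934234847) (nat_lit 0) (nat_lit 184322584361) (nat_lit 1) (nat_lit 5) (nat_lit 3) (nat_lit 4) (nat_lit 1) (nat_lit 4) (nat_lit 473) (nat_lit 285) (nat_lit 262)))) (XT.nd (nat_lit 78) (nat_lit 0) (nat_lit 0) (XT.lf (nat_lit 0) (nat_lit 196035826809) (nat_lit 152) (nat_lit 189653417789) (nat_lit 0) (nat_lit 195244332526) (nat_lit 1) (nat_lit 5) (nat_lit 3) (nat_lit 4) (nat_lit 1) (nat_lit 4) (nat_lit 474) (nat_lit 285) (nat_lit 261)) (XT.nd (nat_lit 78) (nat_lit 0) (nat_lit 0) (XT.lf (nat_lit 0) (nat_lit 207490098974) (nat_lit 152) (nat_lit 195722913739) (nat_lit 0) (nat_lit 206681666035) (nat_lit 1) (nat_lit 5) (nat_lit 3) (nat_lit 4) (nat_lit 1) (nat_lit 4) (nat_lit 475) (nat_lit 285) (nat_lit 260)) (XT.lf (nat_lit 0) (nat_lit 219486381626) (nat_lit 152) (nat_lit 202157173878) (nat_lit 0) (nat_lit 218661816633) (nat_lit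 1) (nat_lit 5) (nat_lit 3) (nat_lit 4) (nat_lit 1) (nat_lit 4) (nat_lit 476) (nat_lit 285) (nat_lit 259)))))) (XT.nd (nat_lit 50934) (nat_lit 0) (nat_lit 0) (XT.nd (nat_lit 234) (nat_lit 0) (nat_lit 0) (XT.nd (nat_lit 78) (nat_lit 0) (nat_lit 0) (XT.lf (nat_lit 0) (nat_lit 232053237344) (nat_lit 152) (nat_lit 208971517874) (nat_lit 0) (nat_lit 231213308490) (nat_lit 1) (nat_lit 5) (nat_lit 3) (nat_lit 4) (nat_lit 1) (nat_lit 4) (nat_lit 477) (nat_lit 285) (nat_lit 258)) (XT.nd (nat_lit 78) (nat_lit 0) (nat_lit 0) (XT.lf (nat_lit 0) (nat_lit 245220587212) (nat_lit 152) (nat_lit 216182170354) (nat_lit 0) (nat_lit 244366026110) (nat_lit 1) (nat_lit 5) (nat_lit 3) (nat_lit 4) (nat_lit 1) (nat_lit 4) (nat_lit 478) (nat_lit 285) (nat_lit 257)) (XT.lf (nat_lit 0) (nat_lit 259019782063) (nat_lit 152) (nat_lit 223806299539) (nat_lit 0) (nat_lit 258151285487) (nat_lit 1) (nat_lit 5) (nat_lit 3) (nat_lit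 4) (nat_lit 1) (nat_lit 4) (nat_lit 479) (nat_lit 285) (nat_lit 256)))) (XT.nd (nat_lit 78) (nat_lit 0) (nat_lit 0) (XT.lf (nat_lit 0) (nat_lit 273483677124) (nat_lit 152) (nat_lit 231862058118) (nat_lit 0) (nat_lit 272601908666) (nat_lit 1) (nat_lit 5) (nat_lit 3) (nat_lit 4) (nat_lit 1) (nat_lit 4) (nat_lit 480) (nat_lit 285) (nat_lit 255)) (XT.nd (nat_lit 50544) (nat_lit 0) (nat_lit 0) (XT.lf (nat_lit 0) (nat_lit 288646710239) (nat_lit 152) (nat_lit 240368626467) (nat_lit 0) (nat_lit 287752301895) (nat_lit 1) (nat_lit 5) (nat_lit 3) (nat_lit 4) (nat_lit 1) (nat_lit 4) (nat_lit 481) (nat_lit 285) (nat_lit 254)) (XT.lf (nat_lit 0) (nat_lit 9565217267) (nat_lit 152) (nat_lit 63483696036) (nat_lit 0) (nat_lit 9565217267) (nat_lit 1) (nat_lit 5) (nat_lit 3) (nat_lit 4) (nat_lit 1) (nat_lit 4) (nat_lit 448) (nat_lit 286) (nat_lit 286))))) (XT.nd (nat_lit 234) (nat_lit 0) (nat_lit 0) (XT.nd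 (nat_lit 78) (nat_lit 0) (nat_lit 0) (XT.lf (nat_lit 0) (nat_lit 23328462275) (nat_lit 152) (nat_lit 126724858760) (nat_lit 0) (nat_lit 23271101971) (nat_lit 1) (nat_lit 5) (nat_lit 3) (nat_lit 4) (nat_lit 1) (nat_lit 4) (nat_lit 449) (nat_lit 286) (nat_lit 285)) (XT.nd (nat_lit 78) (nat_lit 0) (nat_lit 0) (XT.lf (nat_lit 0) (nat_lit 27632419738) (nat_lit 152) (nat_lit 126677746414) (nat_lit 0) (nat_lit 27520430574) (nat_lit 1) (nat_lit 5) (nat_lit 3) (nat_lit 4) (nat_lit 1) (nat_lit 4) (nat_lit 450) (nat_lit 286) (nat_lit 284)) (XT.lf (nat_lit 0) (nat_lit 32052554441) (nat_lit 152) (nat_lit 126825942865) (nat_lit 0) (nat_lit 31888537790) (nat_lit 1) (nat_lit 5) (nat_lit 3) (nat_lit 4) (nat_lit 1) (nat_lit 4) (nat_lit 451) (nat_lit 286) (nat_lit 283)))) (XT.nd (nat_lit 156) (nat_lit 0) (nat_lit 0) (XT.nd (nat_lit 78) (nat_lit 0) (nat_lit 0) (XT.lf (nat_lit 0) (nat_lit 36599390514) (nat_lit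 152) (nat_lit 127169800961) (nat_lit 0) (nat_lit 36385823877) (nat_lit 1) (nat_lit 5) (nat_lit 3) (nat_lit 4) (nat_lit 1) (nat_lit 4) (nat_lit 452) (nat_lit 286) (nat_lit 282)) (XT.lf (nat_lit 0) (nat_lit 41283753758) (nat_lit 152) (nat_lit 127710139411) (nat_lit 0) (nat_lit 41022996657) (nat_lit 1) (nat_lit 5) (nat_lit 3) (nat_lit 4) (nat_lit 1) (nat_lit 4) (nat_lit 453) (nat_lit 286) (nat_lit 281))) (XT.nd (nat_lit 78) (nat_lit 0) (nat_lit 0) (XT.lf (nat_lit 0) (nat_lit 46116797417) (nat_lit 152) (nat_lit 128448244736) (nat_lit 0) (nat_lit 45811097018) (nat_lit 1) (nat_lit 5) (nat_lit 3) (nat_lit 4) (nat_lit 1) (nat_lit 4) (nat_lit 454) (nat_lit 286) (nat_lit 280)) (XT.lf (nat_lit 0) (nat_lit 51110028740) (nat_lit 152) (nat_lit 129385874329) (nat_lit 0) (nat_lit 50761525199) (nat_lit 1) (nat_lit 5) (nat_lit 3) (nat_lit 4) (nat_lit 1) (nat_lit 4) (nat_lit 455) (nat_lit 286) (nat_lit 279)))))))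 (XT.nd (nat_lit 1014) (nat_lit 0) (nat_lit 0) (XT.nd (nat_lit 468) (nat_lit 0) (nat_lit 0) (XT.nd (nat_lit 234) (nat_lit 0) (nat_lit 0) (XT.nd (nat_lit 78) (nat_lit 0) (nat_lit 0) (XT.lf (nat_lit 0) (nat_lit 56275336372) (nat_lit 152) (nat_lit 130525260643) (nat_lit 0) (nat_lit 55886067934) (nat_lit 1) (nat_lit 5) (nat_lit 3) (nat_lit 4) (nat_lit 1) (nat_lit 4) (nat_lit 456) (nat_lit 286) (nat_lit 278)) (XT.nd (nat_lit 78) (nat_lit 0) (nat_lit 0) (XT.lf (nat_lit 0) (nat_lit 61625018664) (nat_lit 152) (nat_lit 131869116500) (nat_lit 0) (nat_lit 61196926515) (nat_lit 1) (nat_lit 5) (nat_lit 3) (nat_lit 4) (nat_lit 1) (nat_lit 4) (nat_lit 457) (nat_lit 286) (nat_lit 277)) (XT.lf (nat_lit 0) (nat_lit 67171812956) (nat_lit 152) (nat_lit 133420641559) (nat_lit 0) (nat_lit 66706745843) (nat_lit 1) (nat_lit 5) (nat_lit 3) (nat_lit 4) (nat_lit 1) (nat_lit 4) (nat_lit 458) (nat_lit 286) (nat_lit 276))))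 (XT.nd (nat_lit 78) (nat_lit 0) (nat_lit 0) (XT.lf (nat_lit 0) (nat_lit 72928925900) (nat_lit 152) (nat_lit 135183529926) (nat_lit 0) (nat_lit 72428644536) (nat_lit 1) (nat_lit 5) (nat_lit 3) (nat_lit 4) (nat_lit 1) (nat_lit 4) (nat_lit 459) (nat_lit 286) (nat_lit 275)) (XT.nd (nat_lit 78) (nat_lit 0) (nat_lit 0) (XT.lf (nat_lit 0) (nat_lit 78910064908) (nat_lit 152) (nat_lit 137161978955) (nat_lit 0) (nat_lit 78376246163) (nat_lit 1) (nat_lit 5) (nat_lit 3) (nat_lit 4) (nat_lit 1) (nat_lit 4) (nat_lit 460) (nat_lit 286) (nat_lit 274)) (XT.lf (nat_lit 0) (nat_lit 85129470787) (nat_lit 152) (nat_lit 139360699238) (nat_lit 0) (nat_lit 84563711679) (nat_lit 1) (nat_lit 5) (nat_lit 3) (nat_lit 4) (nat_lit 1) (nat_lit 4) (nat_lit 461) (nat_lit 286) (nat_lit 273))))) (XT.nd (nat_lit 234) (nat_lit 0) (nat_lit 0) (XT.nd (nat_lit 78) (nat_lit 0) (nat_lit 0) (XT.lf (nat_lit 0) (nat_lit 91601951647)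 (nat_lit 152) (nat_lit 141784925824) (nat_lit 0) (nat_lit 91005773145) (nat_lit 1) (nat_lit 5) (nat_lit 3) (nat_lit 4) (nat_lit 1) (nat_lit 4) (nat_lit 462) (nat_lit 286) (nat_lit 272)) (XT.nd (nat_lit 78) (nat_lit 0) (nat_lit 0) (XT.lf (nat_lit 0) (nat_lit 98342918156) (nat_lit 152) (nat_lit 144440430681) (nat_lit 0) (nat_lit 97717768803) (nat_lit 1) (nat_lit 5) (nat_lit 3) (nat_lit 4) (nat_lit 1) (nat_lit 4) (nat_lit 463) (nat_lit 286) (nat_lit 271)) (XT.lf (nat_lit 0) (nat_lit 105368420235) (nat_lit 152) (nat_lit 147333536440) (nat_lit 0) (nat_lit 104715679595) (nat_lit 1) (nat_lit 5) (nat_lit 3) (nat_lit 4) (nat_lit 1) (nat_lit 4) (nat_lit 464) (nat_lit 286) (nat_lit 270)))) (XT.nd (nat_lit 156) (nat_lit 0) (nat_lit 0) (XT.nd (nat_lit 78) (nat_lit 0) (nat_lit 0) (XT.lf (nat_lit 0) (nat_lit 112695185269) (nat_lit 152) (nat_lit 150471131448) (nat_lit 0) (nat_lit 112016167214) (nat_lit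 1) (nat_lit 5) (nat_lit 3) (nat_lit 4) (nat_lit 1) (nat_lit 4) (nat_lit 465) (nat_lit 286) (nat_lit 269)) (XT.lf (nat_lit 0) (nat_lit 120340657937) (nat_lit 152) (nat_lit 153860686168) (nat_lit 0) (nat_lit 119636613771) (nat_lit 1) (nat_lit 5) (nat_lit 3) (nat_lit 4) (nat_lit 1) (nat_lit 4) (nat_lit 466) (nat_lit 286) (nat_lit 268))) (XT.nd (nat_lit 78) (nat_lit 0) (nat_lit 0) (XT.lf (nat_lit 0) (nat_lit 128323041746) (nat_lit 152) (nat_lit 157510270970) (nat_lit 0) (nat_lit 127595163189) (nat_lit 1) (nat_lit 5) (nat_lit 3) (nat_lit 4) (nat_lit 1) (nat_lit 4) (nat_lit 467) (nat_lit 286) (nat_lit 267)) (XT.lf (nat_lit 0) (nat_lit 136661342371) (nat_lit 152) (nat_lit 161428575340) (nat_lit 0) (nat_lit 135910764394) (nat_lit 1) (nat_lit 5) (nat_lit 3) (nat_lit 4) (nat_lit 1) (nat_lit 4) (nat_lit 468) (nat_lit 286) (nat_lit 266)))))) (XT.nd (nat_lit 468) (nat_lit 0) (nat_lit 0) (XT.nd (nat_lit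 234) (nat_lit 0) (nat_lit 0) (XT.nd (nat_lit 78) (nat_lit 0) (nat_lit 0) (XT.lf (nat_lit 0) (nat_lit 145375412909) (nat_lit 152) (nat_lit 165624928576) (nat_lit 0) (nat_lit 144603216437) (nat_lit 1) (nat_lit 5) (nat_lit 3) (nat_lit 4) (nat_lit 1) (nat_lit 4) (nat_lit 469) (nat_lit 286) (nat_lit 265)) (XT.nd (nat_lit 78) (nat_lit 0) (nat_lit 0) (XT.lf (nat_lit 0) (nat_lit 154486001146) (nat_lit 152) (nat_lit 170109321994) (nat_lit 0) (nat_lit 153693215631) (nat_lit 1) (nat_lit 5) (nat_lit 3) (nat_lit 4) (nat_lit 1) (nat_lit 4) (nat_lit 470) (nat_lit 286) (nat_lit 264)) (XT.lf (nat_lit 0) (nat_lit 164014798960) (nat_lit 152) (nat_lit 174892432721) (nat_lit 0) (nat_lit 163202404833) (nat_lit 1) (nat_lit 5) (nat_lit 3) (nat_lit 4) (nat_lit 1) (nat_lit 4) (nat_lit 471) (nat_lit 286) (nat_lit 263)))) (XT.nd (nat_lit 78) (nat_lit 0) (nat_lit 0) (XT.lf (nat_lit 0) (nat_lit 173984493965) (nat_lit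 152) (nat_lit 179985649117) (nat_lit 0) (nat_lit 173153424969) (nat_lit 1) (nat_lit 5) (nat_lit 3) (nat_lit 4) (nat_lit 1) (nat_lit 4) (nat_lit 472) (nat_lit 286) (nat_lit 262)) (XT.nd (nat_lit 78) (nat_lit 0) (nat_lit 0) (XT.lf (nat_lit 0) (nat_lit 184418823529) (nat_lit 152) (nat_lit 185401097886) (nat_lit 0) (nat_lit 183569968944) (nat_lit 1) (nat_lit 5) (nat_lit 3) (nat_lit 4) (nat_lit 1) (nat_lit 4) (nat_lit 473) (nat_lit 286) (nat_lit 261)) (XT.lf (nat_lit 0) (nat_lit 195342631295) (nat_lit 152) (nat_lit 191151672956) (nat_lit 0) (nat_lit 194476838052) (nat_lit 1) (nat_lit 5) (nat_lit 3) (nat_lit 4) (nat_lit 1) (nat_lit 4) (nat_lit 474) (nat_lit 286) (nat_lit 260))))) (XT.nd (nat_lit 234) (nat_lit 0) (nat_lit 0) (XT.nd (nat_lit 78) (nat_lit 0) (nat_lit 0) (XT.lf (nat_lit 0) (nat_lit 206781926328) (nat_lit 152) (nat_lit 197251066170) (nat_lit 0) (nat_lit 205900001032) (nat_lit 1) (nat_lit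 5) (nat_lit 3) (nat_lit 4) (nat_lit 1) (nat_lit 4) (nat_lit 475) (nat_lit 286) (nat_lit 259)) (XT.nd (nat_lit 78) (nat_lit 0) (nat_lit 0) (XT.lf (nat_lit 0) (nat_lit 218763945045) (nat_lit 152) (nat_lit 203713799895) (nat_lit 0) (nat_lit 217866655888) (nat_lit 1) (nat_lit 5) (nat_lit 3) (nat_lit 4) (nat_lit 1) (nat_lit 4) (nat_lit 476) (nat_lit 286) (nat_lit 258)) (XT.lf (nat_lit 0) (nat_lit 231317216063) (nat_lit 152) (nat_lit 210555261590) (nat_lit 0) (nat_lit 230405294657) (nat_lit 1) (nat_lit 5) (nat_lit 3) (nat_lit 4) (nat_lit 1) (nat_lit 4) (nat_lit 477) (nat_lit 286) (nat_lit 257)))) (XT.nd (nat_lit 156) (nat_lit 0) (nat_lit 0) (XT.nd (nat_lit 78) (nat_lit 0) (nat_lit 0) (XT.lf (nat_lit 0) (nat_lit 244471628121) (nat_lit 152) (nat_lit 217791740451) (nat_lit 0) (nat_lit 243545771241) (nat_lit 1) (nat_lit 5) (nat_lit 3) (nat_lit 4) (nat_lit 1) (nat_lit 4) (nat_lit 478) (nat_lit 286)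 (nat_lit 256)) (XT.lf (nat_lit 0) (nat_lit 258258501249) (nat_lit 152) (nat_lit 225440466190) (nat_lit 0) (nat_lit 257319372487) (nat_lit 1) (nat_lit 5) (nat_lit 3) (nat_lit 4) (nat_lit 1) (nat_lit 4) (nat_lit 479) (nat_lit 286) (nat_lit 255))) (XT.nd (nat_lit 78) (nat_lit 0) (nat_lit 0) (XT.lf (nat_lit 0) (nat_lit 272710661334) (nat_lit 152) (nat_lit 233519650057) (nat_lit 0) (nat_lit 271758892687) (nat_lit 1) (nat_lit 5) (nat_lit 3) (nat_lit 4) (nat_lit 1) (nat_lit 4) (nat_lit 480) (nat_lit 286) (nat_lit 254)) (XT.lf (nat_lit 0) (nat_lit 287862518283) (nat_lit 152) (nat_lit 242048528205) (nat_lit 0) (nat_lit 286898711648) (nat_lit 1) (nat_lit 5) (nat_lit 3) (nat_lit 4) (nat_lit 1) (nat_lit 4) (nat_lit 481) (nat_lit 286) (nat_lit 253))))))))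
noncomputable def xc6 : XT := (XT.nd (nat_lit 1950) (nat_lit 0) (nat_lit 0) (XT.nd (nat_lit 936) (nat_lit 0) (nat_lit 0) (XT.nd (nat_lit 468) (nat_lit 0) (nat_lit 0) (XT.nd (nat_lit 234) (nat_lit 0) (nat_lit 0) (XT.nd (nat_lit 78) (nat_lit 0) (nat_lit 0) (XT.lf (nat_lit 0) (nat_lit 5564280102) (nat_lit 152) (nat_lit 63964938990) (nat_lit 0) (nat_lit 5564280102) (nat_lit 1) (nat_lit 5) (nat_lit 3) (nat_lit 4) (nat_lit 1) (nat_lit 4) (nat_lit 446) (nat_lit 287) (nat_lit 287)) (XT.nd (nat_lit 78) (nat_lit 0) (nat_lit 0) (XT.lf (nat_lit 0) (nat_lit 15088569530) (nat_lit 152) (nat_lit 127405923816) (nat_lit 0) (nat_lit 15028341211) (nat_lit 1) (nat_lit 5) (nat_lit 3) (nat_lit 4) (nat_lit 1) (nat_lit 4) (nat_lit 447) (nat_lit 287) (nat_lit 286)) (XT.lf (nat_lit 0) (nat_lit 19137409073) (nat_lit 152) (nat_lit 127073696959) (nat_lit 0) (nat_lit 19019820451) (nat_lit 1) (nat_lit 5) (nat_lit 3) (nat_lit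 4) (nat_lit 1) (nat_lit 4) (nat_lit 448) (nat_lit 287) (nat_lit 285)))) (XT.nd (nat_lit 78) (nat_lit 0) (nat_lit 0) (XT.lf (nat_lit 0) (nat_lit 23284718929) (nat_lit 152) (nat_lit 126932406394) (nat_lit 0) (nat_lit 23112501446) (nat_lit 1) (nat_lit 5) (nat_lit 3) (nat_lit 4) (nat_lit 1) (nat_lit 4) (nat_lit 449) (nat_lit 287) (nat_lit 284)) (XT.nd (nat_lit 78) (nat_lit 0) (nat_lit 0) (XT.lf (nat_lit 0) (nat_lit 27540373644) (nat_lit 152) (nat_lit 126981715713) (nat_lit 0) (nat_lit 27316128675) (nat_lit 1) (nat_lit 5) (nat_lit 3) (nat_lit 4) (nat_lit 1) (nat_lit 4) (nat_lit 450) (nat_lit 287) (nat_lit 283)) (XT.lf (nat_lit 0) (nat_lit 31914505730) (nat_lit 152) (nat_lit 127221742321) (nat_lit 0) (nat_lit 31640710774) (nat_lit 1) (nat_lit 5) (nat_lit 3) (nat_lit 4) (nat_lit 1) (nat_lit 4) (nat_lit 451) (nat_lit 287) (nat_lit 282))))) (XT.nd (nat_lit 234) (nat_lit 0) (nat_lit 0) (XT.nd (nat_lit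 78) (nat_lit 0) (nat_lit 0) (XT.lf (nat_lit 0) (nat_lit 36417529787) (nat_lit 152) (nat_lit 127653057710) (nat_lit 0) (nat_lit 36096544367) (nat_lit 1) (nat_lit 5) (nat_lit 3) (nat_lit 4) (nat_lit 1) (nat_lit 4) (nat_lit 452) (nat_lit 287) (nat_lit 281)) (XT.nd (nat_lit 78) (nat_lit 0) (nat_lit 0) (XT.lf (nat_lit 0) (nat_lit 41060167301) (nat_lit 152) (nat_lit 128276688820) (nat_lit 0) (nat_lit 40694238582) (nat_lit 1) (nat_lit 5) (nat_lit 3) (nat_lit 4) (nat_lit 1) (nat_lit 4) (nat_lit 453) (nat_lit 287) (nat_lit 280)) (XT.lf (nat_lit 0) (nat_lit 45853472170) (nat_lit 152) (nat_lit 129094120487) (nat_lit 0) (nat_lit 45444740310) (nat_lit 1) (nat_lit 5) (nat_lit 3) (nat_lit 4) (nat_lit 1) (nat_lit 4) (nat_lit 454) (nat_lit 287) (nat_lit 279)))) (XT.nd (nat_lit 78) (nat_lit 0) (nat_lit 0) (XT.lf (nat_lit 0) (nat_lit 50808857026) (nat_lit 152) (nat_lit 130107298978) (nat_lit 0) (nat_lit 50359360269)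 (nat_lit 1) (nat_lit 5) (nat_lit 3) (nat_lit 4) (nat_lit 1) (nat_lit 4) (nat_lit 455) (nat_lit 287) (nat_lit 278)) (XT.nd (nat_lit 78) (nat_lit 0) (nat_lit 0) (XT.lf (nat_lit 0) (nat_lit 55938120404) (nat_lit 152) (nat_lit 131318636622) (nat_lit 0) (nat_lit 55449799935) (nat_lit 1) (nat_lit 5) (nat_lit 3) (nat_lit 4) (nat_lit 1) (nat_lit 4) (nat_lit 456) (nat_lit 287) (nat_lit 277)) (XT.lf (nat_lit 0) (nat_lit 61253474835) (nat_lit 152) (nat_lit 132731017557) (nat_lit 0) (nat_lit 60728179403) (nat_lit 1) (nat_lit 5) (nat_lit 3) (nat_lit 4) (nat_lit 1) (nat_lit 4) (nat_lit 457) (nat_lit 287) (nat_lit 276)))))) (XT.nd (nat_lit 468) (nat_lit 0) (nat_lit 0) (XT.nd (nat_lit 234) (nat_lit 0) (nat_lit 0) (XT.nd (nat_lit 78) (nat_lit 0) (nat_lit 0) (XT.lf (nat_lit 0) (nat_lit 66767575925) (nat_lit 152) (nat_lit 134347804594) (nat_lit 0) (nat_lit 66207066243) (nat_lit 1) (nat_lit 5) (nat_lit 3) (nat_lit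 4) (nat_lit 1) (nat_lit 4) (nat_lit 458) (nat_lit 287) (nat_lit 275)) (XT.nd (nat_lit 78) (nat_lit 0) (nat_lit 0) (XT.lf (nat_lit 0) (nat_lit 72493552487) (nat_lit 152) (nat_lit 136172847226) (nat_lit 0) (nat_lit 71899505424) (nat_lit 1) (nat_lit 5) (nat_lit 3) (nat_lit 4) (nat_lit 1) (nat_lit 4) (nat_lit 459) (nat_lit 287) (nat_lit 274)) (XT.lf (nat_lit 0) (nat_lit 78445037798) (nat_lit 152) (nat_lit 138210490793) (nat_lit 0) (nat_lit 77819050371) (nat_lit 1) (nat_lit 5) (nat_lit 3) (nat_lit 4) (nat_lit 1) (nat_lit 4) (nat_lit 460) (nat_lit 287) (nat_lit 273)))) (XT.nd (nat_lit 78) (nat_lit 0) (nat_lit 0) (XT.lf (nat_lit 0) (nat_lit 84636202061) (nat_lit 152) (nat_lit 140465586827) (nat_lit 0) (nat_lit 83979795241) (nat_lit 1) (nat_lit 5) (nat_lit 3) (nat_lit 4) (nat_lit 1) (nat_lit 4) (nat_lit 461) (nat_lit 287) (nat_lit 272)) (XT.nd (nat_lit 78) (nat_lit 0) (nat_lit 0) (XT.lf (nat_lit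 0) (nat_lit 91081786144) (nat_lit 152) (nat_lit 142943504604) (nat_lit 0) (nat_lit 90396408472) (nat_lit 1) (nat_lit 5) (nat_lit 3) (nat_lit 4) (nat_lit 1) (nat_lit 4) (nat_lit 462) (nat_lit 287) (nat_lit 271)) (XT.lf (nat_lit 0) (nat_lit 97797136674) (nat_lit 152) (nat_lit 145650143929) (nat_lit 0) (nat_lit 97084167716) (nat_lit 1) (nat_lit 5) (nat_lit 3) (nat_lit 4) (nat_lit 1) (nat_lit 4) (nat_lit 463) (nat_lit 287) (nat_lit 270))))) (XT.nd (nat_lit 234) (nat_lit 0) (nat_lit 0) (XT.nd (nat_lit 78) (nat_lit 0) (nat_lit 0) (XT.lf (nat_lit 0) (nat_lit 104798242583) (nat_lit 152) (nat_lit 148591949181) (nat_lit 0) (nat_lit 104058996209) (nat_lit 1) (nat_lit 5) (nat_lit 3) (nat_lit 4) (nat_lit 1) (nat_lit 4) (nat_lit 464) (nat_lit 287) (nat_lit 269)) (XT.nd (nat_lit 78) (nat_lit 0) (nat_lit 0) (XT.lf (nat_lit 0) (nat_lit 112101773170) (nat_lit 152) (nat_lit 151775924658) (nat_lit 0) (nat_lit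 111337500685) (nat_lit 1) (nat_lit 5) (nat_lit 3) (nat_lit 4) (nat_lit 1) (nat_lit 4) (nat_lit 465) (nat_lit 287) (nat_lit 268)) (XT.lf (nat_lit 0) (nat_lit 119725117793) (nat_lit 152) (nat_lit 155209651254) (nat_lit 0) (nat_lit 118937010917) (nat_lit 1) (nat_lit 5) (nat_lit 3) (nat_lit 4) (nat_lit 1) (nat_lit 4) (nat_lit 466) (nat_lit 287) (nat_lit 267)))) (XT.nd (nat_lit 156) (nat_lit 0) (nat_lit 0) (XT.nd (nat_lit 78) (nat_lit 0) (nat_lit 0) (XT.lf (nat_lit 0) (nat_lit 127686427272) (nat_lit 152) (nat_lit 158901304509) (nat_lit 0) (nat_lit 126875620977) (nat_lit 1) (nat_lit 5) (nat_lit 3) (nat_lit 4) (nat_lit 1) (nat_lit 4) (nat_lit 467) (nat_lit 287) (nat_lit 266)) (XT.lf (nat_lit 0) (nat_lit 136004657108) (nat_lit 152) (nat_lit 162859674073) (nat_lit 0) (nat_lit 135172232317) (nat_lit 1) (nat_lit 5) (nat_lit 3) (nat_lit 4) (nat_lit 1) (nat_lit 4) (nat_lit 468) (nat_lit 287) (nat_lit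 265))) (XT.nd (nat_lit 78) (nat_lit 0) (nat_lit 0) (XT.lf (nat_lit 0) (nat_lit 144699612608) (nat_lit 152) (nat_lit 167094184636) (nat_lit 0) (nat_lit 143846598774) (nat_lit 1) (nat_lit 5) (nat_lit 3) (nat_lit 4) (nat_lit 1) (nat_lit 4) (nat_lit 469) (nat_lit 287) (nat_lit 264)) (XT.lf (nat_lit 0) (nat_lit 153791996048) (nat_lit 152) (nat_lit 171614918365) (nat_lit 0) (nat_lit 152919373601) (nat_lit 1) (nat_lit 5) (nat_lit 3) (nat_lit 4) (nat_lit 1) (nat_lit 4) (nat_lit 470) (nat_lit 287) (nat_lit 263))))))) (XT.nd (nat_lit 51168) (nat_lit 0) (nat_lit 0) (XT.nd (nat_lit 468) (nat_lit 0) (nat_lit 0) (XT.nd (nat_lit 234) (nat_lit 0) (nat_lit 0) (XT.nd (nat_lit 78) (nat_lit 0) (nat_lit 0) (XT.lf (nat_lit 0) (nat_lit 163303455959) (nat_lit 152) (nat_lit 176432638913) (nat_lit 0) (nat_lit 162412158644) (nat_lit 1) (nat_lit 5) (nat_lit 3) (nat_lit 4) (nat_lit 1) (nat_lit 4) (nat_lit 471) (nat_lit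 287) (nat_lit 262)) (XT.nd (nat_lit 78) (nat_lit 0) (nat_lit 0) (XT.lf (nat_lit 0) (nat_lit 173256638676) (nat_lit 152) (nat_lit 181558817042) (nat_lit 0) (nat_lit 172347555771) (nat_lit 1) (nat_lit 5) (nat_lit 3) (nat_lit 4) (nat_lit 1) (nat_lit 4) (nat_lit 472) (nat_lit 287) (nat_lit 261)) (XT.lf (nat_lit 0) (nat_lit 183675242251) (nat_lit 152) (nat_lit 187005657939) (nat_lit 0) (nat_lit 182749220690) (nat_lit 1) (nat_lit 5) (nat_lit 3) (nat_lit 4) (nat_lit 1) (nat_lit 4) (nat_lit 473) (nat_lit 287) (nat_lit 260)))) (XT.nd (nat_lit 78) (nat_lit 0) (nat_lit 0) (XT.lf (nat_lit 0) (nat_lit 194584072885) (nat_lit 152) (nat_lit 192786130273) (nat_lit 0) (nat_lit 193641919270) (nat_lit 1) (nat_lit 5) (nat_lit 3) (nat_lit 4) (nat_lit 1) (nat_lit 4) (nat_lit 474) (nat_lit 287) (nat_lit 259)) (XT.nd (nat_lit 78) (nat_lit 0) (nat_lit 0) (XT.lf (nat_lit 0) (nat_lit 206009103983) (nat_lit 152) (nat_lit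 198913997072) (nat_lit 0) (nat_lit 205051586507) (nat_lit 1) (nat_lit 5) (nat_lit 3) (nat_lit 4) (nat_lit 1) (nat_lit 4) (nat_lit 475) (nat_lit 287) (nat_lit 258)) (XT.lf (nat_lit 0) (nat_lit 217977538000) (nat_lit 152) (nat_lit 205403848497) (nat_lit 0) (nat_lit 217005388275) (nat_lit 1) (nat_lit 5) (nat_lit 3) (nat_lit 4) (nat_lit 1) (nat_lit 4) (nat_lit 476) (nat_lit 287) (nat_lit 257))))) (XT.nd (nat_lit 234) (nat_lit 0) (nat_lit 0) (XT.nd (nat_lit 78) (nat_lit 0) (nat_lit 0) (XT.lf (nat_lit 0) (nat_lit 230517871207) (nat_lit 152) (nat_lit 212271136573) (nat_lit 0) (nat_lit 229531786008) (nat_lit 1) (nat_lit 5) (nat_lit 3) (nat_lit 4) (nat_lit 1) (nat_lit 4) (nat_lit 477) (nat_lit 287) (nat_lit 256)) (XT.nd (nat_lit 78) (nat_lit 0) (nat_lit 0) (XT.lf (nat_lit 0) (nat_lit 243659961542) (nat_lit 152) (nat_lit 219532211987) (nat_lit 0) (nat_lit 242660604462) (nat_lit 1) (nat_lit 5) (nat_lit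 3) (nat_lit 4) (nat_lit 1) (nat_lit 4) (nat_lit 478) (nat_lit 287) (nat_lit 255)) (XT.lf (nat_lit 0) (nat_lit 257435099695) (nat_lit 152) (nat_lit 227204363014) (nat_lit 0) (nat_lit 256423102728) (nat_lit 1) (nat_lit 5) (nat_lit 3) (nat_lit 4) (nat_lit 1) (nat_lit 4) (nat_lit 479) (nat_lit 287) (nat_lit 254)))) (XT.nd (nat_lit 50310) (nat_lit 0) (nat_lit 0) (XT.nd (nat_lit 78) (nat_lit 0) (nat_lit 0) (XT.lf (nat_lit 0) (nat_lit 271876083614) (nat_lit 152) (nat_lit 235305856681) (nat_lit 0) (nat_lit 270852048660) (nat_lit 1) (nat_lit 5) (nat_lit 3) (nat_lit 4) (nat_lit 1) (nat_lit 4) (nat_lit 480) (nat_lit 287) (nat_lit 253)) (XT.lf (nat_lit 0) (nat_lit 287017296594) (nat_lit 152) (nat_lit 243855982256) (nat_lit 0) (nat_lit 285981796891) (nat_lit 1) (nat_lit 5) (nat_lit 3) (nat_lit 4) (nat_lit 1) (nat_lit 4) (nat_lit 481) (nat_lit 287) (nat_lit 252))) (XT.nd (nat_lit 78) (nat_lit 0) (nat_lit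 0) (XT.lf (nat_lit 0) (nat_lit 1779729456) (nat_lit 152) (nat_lit 64720608299) (nat_lit 0) (nat_lit 1779729456) (nat_lit 1) (nat_lit 5) (nat_lit 3) (nat_lit 4) (nat_lit 1) (nat_lit 4) (nat_lit 444) (nat_lit 288) (nat_lit 288)) (XT.lf (nat_lit 0) (nat_lit 7311192239) (nat_lit 152) (nat_lit 128646806962) (nat_lit 0) (nat_lit 7247952504) (nat_lit 1) (nat_lit 5) (nat_lit 3) (nat_lit 4) (nat_lit 1) (nat_lit 4) (nat_lit 445) (nat_lit 288) (nat_lit 287)))))) (XT.nd (nat_lit 468) (nat_lit 0) (nat_lit 0) (XT.nd (nat_lit 234) (nat_lit 0) (nat_lit 0) (XT.nd (nat_lit 78) (nat_lit 0) (nat_lit 0) (XT.lf (nat_lit 0) (nat_lit 11135883471) (nat_lit 152) (nat_lit 128041498110) (nat_lit 0) (nat_lit 11012415417) (nat_lit 1) (nat_lit 5) (nat_lit 3) (nat_lit 4) (nat_lit 1) (nat_lit 4) (nat_lit 446) (nat_lit 288) (nat_lit 286)) (XT.nd (nat_lit 78) (nat_lit 0) (nat_lit 0) (XT.lf (nat_lit 0) (nat_lit 15042639016)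 (nat_lit 152) (nat_lit 127623848832) (nat_lit 0) (nat_lit 14861810659) (nat_lit 1) (nat_lit 5) (nat_lit 3) (nat_lit 4) (nat_lit 1) (nat_lit 4) (nat_lit 447) (nat_lit 288) (nat_lit 285)) (XT.lf (nat_lit 0) (nat_lit 19040760674) (nat_lit 152) (nat_lit 127392864723) (nat_lit 0) (nat_lit 18805303457) (nat_lit 1) (nat_lit 5) (nat_lit 3) (nat_lit 4) (nat_lit 1) (nat_lit 4) (nat_lit 448) (nat_lit 288) (nat_lit 284)))) (XT.nd (nat_lit 78) (nat_lit 0) (nat_lit 0) (XT.lf (nat_lit 0) (nat_lit 23139767782) (nat_lit 152) (nat_lit 127347995823) (nat_lit 0) (nat_lit 22852283078) (nat_lit 1) (nat_lit 5) (nat_lit 3) (nat_lit 4) (nat_lit 1) (nat_lit 4) (nat_lit 449) (nat_lit 288) (nat_lit 283)) (XT.nd (nat_lit 78) (nat_lit 0) (nat_lit 0) (XT.lf (nat_lit 0) (nat_lit 27349419880) (nat_lit 152) (nat_lit 127489135300) (nat_lit 0) (nat_lit 27012385189) (nat_lit 1) (nat_lit 5) (nat_lit 3) (nat_lit 4) (nat_lit 1)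 (nat_lit 4) (nat_lit 450) (nat_lit 288) (nat_lit 282)) (XT.lf (nat_lit 0) (nat_lit 31679739950) (nat_lit 152) (nat_lit 127816619201) (nat_lit 0) (nat_lit 31295514795) (nat_lit 1) (nat_lit 5) (nat_lit 3) (nat_lit 4) (nat_lit 1) (nat_lit 4) (nat_lit 451) (nat_lit 288) (nat_lit 281))))) (XT.nd (nat_lit 234) (nat_lit 0) (nat_lit 0) (XT.nd (nat_lit 78) (nat_lit 0) (nat_lit 0) (XT.lf (nat_lit 0) (nat_lit 36141038277) (nat_lit 152) (nat_lit 128331227248) (nat_lit 0) (nat_lit 35711869824) (nat_lit 1) (nat_lit 5) (nat_lit 3) (nat_lit 4) (nat_lit 1) (nat_lit 4) (nat_lit 452) (nat_lit 288) (nat_lit 280)) (XT.nd (nat_lit 78) (nat_lit 0) (nat_lit 0) (XT.lf (nat_lit 0) (nat_lit 40743937001) (nat_lit 152) (nat_lit 129034184701) (nat_lit 0) (nat_lit 40271965406) (nat_lit 1) (nat_lit 5) (nat_lit 3) (nat_lit 4) (nat_lit 1) (nat_lit 4) (nat_lit 453) (nat_lit 288) (nat_lit 279)) (XT.lf (nat_lit 0) (nat_lit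 45499395403) (nat_lit 152) (nat_lit 129927165266) (nat_lit 0) (nat_lit 44986658912) (nat_lit 1) (nat_lit 5) (nat_lit 3) (nat_lit 4) (nat_lit 1) (nat_lit 4) (nat_lit 454) (nat_lit 288) (nat_lit 278)))) (XT.nd (nat_lit 156) (nat_lit 0) (nat_lit 0) (XT.nd (nat_lit 78) (nat_lit 0) (nat_lit 0) (XT.lf (nat_lit 0) (nat_lit 50418736005) (nat_lit 152) (nat_lit 131012295088) (nat_lit 0) (nat_lit 49867175802) (nat_lit 1) (nat_lit 5) (nat_lit 3) (nat_lit 4) (nat_lit 1) (nat_lit 4) (nat_lit 455) (nat_lit 288) (nat_lit 277)) (XT.lf (nat_lit 0) (nat_lit 55513671521) (nat_lit 152) (nat_lit 132292157810) (nat_lit 0) (nat_lit 54925136355) (nat_lit 1) (nat_lit 5) (nat_lit 3) (nat_lit 4) (nat_lit 1) (nat_lit 4) (nat_lit 456) (nat_lit 288) (nat_lit 276))) (XT.nd (nat_lit 78) (nat_lit 0) (nat_lit 0) (XT.lf (nat_lit 0) (nat_lit 60796332751) (nat_lit 152) (nat_lit 133769800723) (nat_lit 0) (nat_lit 60172583335)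 (nat_lit 1) (nat_lit 5) (nat_lit 3) (nat_lit 4) (nat_lit 1) (nat_lit 4) (nat_lit 457) (nat_lit 288) (nat_lit 275)) (XT.lf (nat_lit 0) (nat_lit 66279297460) (nat_lit 152) (nat_lit 135448742025) (nat_lit 0) (nat_lit 65622010662) (nat_lit 1) (nat_lit 5) (nat_lit 3) (nat_lit 4) (nat_lit 1) (nat_lit 4) (nat_lit 458) (nat_lit 288) (nat_lit 274))))))))
noncomputable def xc7 : XT := (XT.nd (nat_lit 51948) (nat_lit 0) (nat_lit 0) (XT.nd (nat_lit 936) (nat_lit 0) (nat_lit 0) (XT.nd (nat_lit 468) (nat_lit 0) (nat_lit 0) (XT.nd (nat_lit 234) (nat_lit 0) (nat_lit 0) (XT.nd (nat_lit 78) (nat_lit 0) (nat_lit 0) (XT.lf (nat_lit 0) (nat_lit 71975620325) (nat_lit 152) (nat_lit 137332979195) (nat_lit 0) (nat_lit 71286393163) (nat_lit 1) (nat_lit 5) (nat_lit 3) (nat_lit 4) (nat_lit 1) (nat_lit 4) (nat_lit 459) (nat_lit 288) (nat_lit 273)) (XT.nd (nat_lit 78) (nat_lit 0) (nat_lit 0) (XT.lf (nat_lit 0) (nat_lit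 77898864020) (nat_lit 152) (nat_lit 139426998512) (nat_lit 0) (nat_lit 77179217464) (nat_lit 1) (nat_lit 5) (nat_lit 3) (nat_lit 4) (nat_lit 1) (nat_lit 4) (nat_lit 460) (nat_lit 288) (nat_lit 272)) (XT.lf (nat_lit 0) (nat_lit 84063131505) (nat_lit 152) (nat_lit 141735785737) (nat_lit 0) (nat_lit 83314514099) (nat_lit 1) (nat_lit 5) (nat_lit 3) (nat_lit 4) (nat_lit 1) (nat_lit 4) (nat_lit 461) (nat_lit 288) (nat_lit 271)))) (XT.nd (nat_lit 78) (nat_lit 0) (nat_lit 0) (XT.lf (nat_lit 0) (nat_lit 90483099609) (nat_lit 152) (nat_lit 144264837982) (nat_lit 0) (nat_lit 89706890916) (nat_lit 1) (nat_lit 5) (nat_lit 3) (nat_lit 4) (nat_lit 1) (nat_lit 4) (nat_lit 462) (nat_lit 288) (nat_lit 270)) (XT.nd (nat_lit 78) (nat_lit 0) (nat_lit 0) (XT.lf (nat_lit 0) (nat_lit 97174053970) (nat_lit 152) (nat_lit 147020176800) (nat_lit 0) (nat_lit 96371567861) (nat_lit 1) (nat_lit 5) (nat_lit 3) (nat_lit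 4) (nat_lit 1) (nat_lit 4) (nat_lit 463) (nat_lit 288) (nat_lit 269)) (XT.lf (nat_lit 0) (nat_lit 104151925431) (nat_lit 152) (nat_lit 150008362522) (nat_lit 0) (nat_lit 103324413211) (nat_lit 1) (nat_lit 5) (nat_lit 3) (nat_lit 4) (nat_lit 1) (nat_lit 4) (nat_lit 464) (nat_lit 288) (nat_lit 268))))) (XT.nd (nat_lit 234) (nat_lit 0) (nat_lit 0) (XT.nd (nat_lit 78) (nat_lit 0) (nat_lit 0) (XT.lf (nat_lit 0) (nat_lit 111433327972) (nat_lit 152) (nat_lit 153236509874) (nat_lit 0) (nat_lit 110581981362) (nat_lit 1) (nat_lit 5) (nat_lit 3) (nat_lit 4) (nat_lit 1) (nat_lit 4) (nat_lit 465) (nat_lit 288) (nat_lit 267)) (XT.nd (nat_lit 78) (nat_lit 0) (nat_lit 0) (XT.lf (nat_lit 0) (nat_lit 119035598266) (nat_lit 152) (nat_lit 156712304923) (nat_lit 0) (nat_lit 118161552236) (nat_lit 1) (nat_lit 5) (nat_lit 3) (nat_lit 4) (nat_lit 1) (nat_lit 4) (nat_lit 466) (nat_lit 288) (nat_lit 266)) (XT.lf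 (nat_lit 0) (nat_lit 126976836956) (nat_lit 152) (nat_lit 160444023372) (nat_lit 0) (nat_lit 126081172431) (nat_lit 1) (nat_lit 5) (nat_lit 3) (nat_lit 4) (nat_lit 1) (nat_lit 4) (nat_lit 467) (nat_lit 288) (nat_lit 265)))) (XT.nd (nat_lit 78) (nat_lit 0) (nat_lit 0) (XT.lf (nat_lit 0) (nat_lit 135275951754) (nat_lit 152) (nat_lit 164440550263) (nat_lit 0) (nat_lit 134359698186) (nat_lit 1) (nat_lit 5) (nat_lit 3) (nat_lit 4) (nat_lit 1) (nat_lit 4) (nat_lit 468) (nat_lit 288) (nat_lit 264)) (XT.nd (nat_lit 78) (nat_lit 0) (nat_lit 0) (XT.lf (nat_lit 0) (nat_lit 143952702457) (nat_lit 152) (nat_lit 168711401137) (nat_lit 0) (nat_lit 143016840276) (nat_lit 1) (nat_lit 5) (nat_lit 3) (nat_lit 4) (nat_lit 1) (nat_lit 4) (nat_lit 469) (nat_lit 288) (nat_lit 263)) (XT.lf (nat_lit 0) (nat_lit 153027747994) (nat_lit 152) (nat_lit 173266744687) (nat_lit 0) (nat_lit 152073210944) (nat_lit 1) (nat_lit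 5) (nat_lit 3) (nat_lit 4) (nat_lit 1) (nat_lit 4) (nat_lit 470) (nat_lit 288) (nat_lit 262)))))) (XT.nd (nat_lit 468) (nat_lit 0) (nat_lit 0) (XT.nd (nat_lit 234) (nat_lit 0) (nat_lit 0) (XT.nd (nat_lit 78) (nat_lit 0) (nat_lit 0) (XT.lf (nat_lit 0) (nat_lit 162522695618) (nat_lit 152) (nat_lit 178117426968) (nat_lit 0) (nat_lit 161550372978) (nat_lit 1) (nat_lit 5) (nat_lit 3) (nat_lit 4) (nat_lit 1) (nat_lit 4) (nat_lit 471) (nat_lit 288) (nat_lit 261)) (XT.nd (nat_lit 78) (nat_lit 0) (nat_lit 0) (XT.lf (nat_lit 0) (nat_lit 172460152345) (nat_lit 152) (nat_lit 183274997225) (nat_lit 0) (nat_lit 171470891049) (nat_lit 1) (nat_lit 5) (nat_lit 3) (nat_lit 4) (nat_lit 1) (nat_lit 4) (nat_lit 472) (nat_lit 288) (nat_lit 260)) (XT.lf (nat_lit 0) (nat_lit 182863778789) (nat_lit 152) (nat_lit 188751735386) (nat_lit 0) (nat_lit 181858385439) (nat_lit 1) (nat_lit 5) (nat_lit 3) (nat_lit 4) (nat_lit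 1) (nat_lit 4) (nat_lit 473) (nat_lit 288) (nat_lit 259)))) (XT.nd (nat_lit 78) (nat_lit 0) (nat_lit 0) (XT.lf (nat_lit 0) (nat_lit 193758345487) (nat_lit 152) (nat_lit 194560681305) (nat_lit 0) (nat_lit 192737588276) (nat_lit 1) (nat_lit 5) (nat_lit 3) (nat_lit 4) (nat_lit 1) (nat_lit 4) (nat_lit 474) (nat_lit 288) (nat_lit 258)) (XT.nd (nat_lit 78) (nat_lit 0) (nat_lit 0) (XT.lf (nat_lit 0) (nat_lit 205169791884) (nat_lit 152) (nat_lit 200715665804) (nat_lit 0) (nat_lit 204134402425) (nat_lit 1) (nat_lit 5) (nat_lit 3) (nat_lit 4) (nat_lit 1) (nat_lit 4) (nat_lit 475) (nat_lit 288) (nat_lit 257)) (XT.lf (nat_lit 0) (nat_lit 217125288092) (nat_lit 152) (nat_lit 207231343609) (nat_lit 0) (nat_lit 216075963158) (nat_lit 1) (nat_lit 5) (nat_lit 3) (nat_lit 4) (nat_lit 1) (nat_lit 4) (nat_lit 476) (nat_lit 288) (nat_lit 256))))) (XT.nd (nat_lit 234) (nat_lit 0) (nat_lit 0) (XT.nd (nat_lit 78)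 (nat_lit 0) (nat_lit 0) (XT.lf (nat_lit 0) (nat_lit 229653299576) (nat_lit 152) (nat_lit 214123228239) (nat_lit 0) (nat_lit 228590702761) (nat_lit 1) (nat_lit 5) (nat_lit 3) (nat_lit 4) (nat_lit 1) (nat_lit 4) (nat_lit 477) (nat_lit 288) (nat_lit 255)) (XT.nd (nat_lit 78) (nat_lit 0) (nat_lit 0) (XT.lf (nat_lit 0) (nat_lit 242783654935) (nat_lit 152) (nat_lit 221407728942) (nat_lit 0) (nat_lit 241708418234) (nat_lit 1) (nat_lit 5) (nat_lit 3) (nat_lit 4) (nat_lit 1) (nat_lit 4) (nat_lit 478) (nat_lit 288) (nat_lit 254)) (XT.lf (nat_lit 0) (nat_lit 256547616921) (nat_lit 152) (nat_lit 229102189768) (nat_lit 0) (nat_lit 255460342233) (nat_lit 1) (nat_lit 5) (nat_lit 3) (nat_lit 4) (nat_lit 1) (nat_lit 4) (nat_lit 479) (nat_lit 288) (nat_lit 253)))) (XT.nd (nat_lit 50154) (nat_lit 0) (nat_lit 152) (XT.nd (nat_lit 78) (nat_lit 0) (nat_lit 0) (XT.lf (nat_lit 0) (nat_lit 270977956872) (nat_lit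 152) (nat_lit 237224930862) (nat_lit 0) (nat_lit 269879217435) (nat_lit 1) (nat_lit 5) (nat_lit 3) (nat_lit 4) (nat_lit 1) (nat_lit 4) (nat_lit 480) (nat_lit 288) (nat_lit 252)) (XT.lf (nat_lit 0) (nat_lit 286109032740) (nat_lit 152) (nat_lit 245795292083) (nat_lit 0) (nat_lit 284999374493) (nat_lit 1) (nat_lit 5) (nat_lit 3) (nat_lit 4) (nat_lit 1) (nat_lit 4) (nat_lit 481) (nat_lit 288) (nat_lit 251))) (XT.nd (nat_lit 78) (nat_lit 0) (nat_lit 0) (XT.lf (nat_lit 0) (nat_lit 58528695002) (nat_lit 76) (nat_lit 1787035706) (nat_lit 76) (nat_lit 1787035706) (nat_lit 3) (nat_lit 4) (nat_lit 4) (nat_lit 5) (nat_lit 4) (nat_lit 4) (nat_lit 442) (nat_lit 289) (nat_lit 289)) (XT.lf (nat_lit 0) (nat_lit 130049191859) (nat_lit 76) (nat_lit 128376211) (nat_lit 76) (nat_lit 58654403) (nat_lit 3) (nat_lit 4) (nat_lit 4) (nat_lit 5) (nat_lit 4) (nat_lit 4) (nat_lit 443) (nat_lit 289) (nat_lit 288)))))))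 (XT.nd (nat_lit 1014) (nat_lit 0) (nat_lit 0) (XT.nd (nat_lit 468) (nat_lit 0) (nat_lit 0) (XT.nd (nat_lit 234) (nat_lit 0) (nat_lit 0) (XT.nd (nat_lit 78) (nat_lit 0) (nat_lit 0) (XT.lf (nat_lit 0) (nat_lit 3567148342) (nat_lit 152) (nat_lit 129558417735) (nat_lit 0) (nat_lit 3437506886) (nat_lit 1) (nat_lit 5) (nat_lit 3) (nat_lit 4) (nat_lit 1) (nat_lit 4) (nat_lit 444) (nat_lit 289) (nat_lit 287)) (XT.nd (nat_lit 78) (nat_lit 0) (nat_lit 0) (XT.lf (nat_lit 0) (nat_lit 7262965200) (nat_lit 152) (nat_lit 128875628229) (nat_lit 0) (nat_lit 7073095425) (nat_lit 1) (nat_lit 5) (nat_lit 3) (nat_lit 4) (nat_lit 1) (nat_lit 4) (nat_lit 445) (nat_lit 289) (nat_lit 286)) (XT.lf (nat_lit 0) (nat_lit 11034402652) (nat_lit 152) (nat_lit 128376624263) (nat_lit 0) (nat_lit 10787172574) (nat_lit 1) (nat_lit 5) (nat_lit 3) (nat_lit 4) (nat_lit 1) (nat_lit 4) (nat_lit 446) (nat_lit 289) (nat_lit 285))))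 (XT.nd (nat_lit 78) (nat_lit 0) (nat_lit 0) (XT.lf (nat_lit 0) (nat_lit 14890440312) (nat_lit 152) (nat_lit 128060217732) (nat_lit 0) (nat_lit 14588581373) (nat_lit 1) (nat_lit 5) (nat_lit 3) (nat_lit 4) (nat_lit 1) (nat_lit 4) (nat_lit 447) (nat_lit 289) (nat_lit 284)) (XT.nd (nat_lit 78) (nat_lit 0) (nat_lit 0) (XT.lf (nat_lit 0) (nat_lit 18840259222) (nat_lit 152) (nat_lit 127925655289) (nat_lit 0) (nat_lit 18486372797) (nat_lit 1) (nat_lit 5) (nat_lit 3) (nat_lit 4) (nat_lit 1) (nat_lit 4) (nat_lit 448) (nat_lit 289) (nat_lit 283)) (XT.lf (nat_lit 0) (nat_lit 22893263713) (nat_lit 152) (nat_lit 127972616546) (nat_lit 0) (nat_lit 22489827301) (nat_lit 1) (nat_lit 5) (nat_lit 3) (nat_lit 4) (nat_lit 1) (nat_lit 4) (nat_lit 449) (nat_lit 289) (nat_lit 282))))) (XT.nd (nat_lit 234) (nat_lit 0) (nat_lit 0) (XT.nd (nat_lit 78) (nat_lit 0) (nat_lit 0) (XT.lf (nat_lit 0) (nat_lit 27059103795)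 (nat_lit 152) (nat_lit 128201213316) (nat_lit 0) (nat_lit 26608476919) (nat_lit 1) (nat_lit 5) (nat_lit 3) (nat_lit 4) (nat_lit 1) (nat_lit 4) (nat_lit 450) (nat_lit 289) (nat_lit 281)) (XT.nd (nat_lit 78) (nat_lit 0) (nat_lit 0) (XT.lf (nat_lit 0) (nat_lit 31347698135) (nat_lit 152) (nat_lit 128611989876) (nat_lit 0) (nat_lit 30852127960) (nat_lit 1) (nat_lit 5) (nat_lit 3) (nat_lit 4) (nat_lit 1) (nat_lit 4) (nat_lit 451) (nat_lit 289) (nat_lit 280)) (XT.lf (nat_lit 0) (nat_lit 35769257672) (nat_lit 152) (nat_lit 129205924266) (nat_lit 0) (nat_lit 35230884356) (nat_lit 1) (nat_lit 5) (nat_lit 3) (nat_lit 4) (nat_lit 1) (nat_lit 4) (nat_lit 452) (nat_lit 289) (nat_lit 279)))) (XT.nd (nat_lit 156) (nat_lit 0) (nat_lit 0) (XT.nd (nat_lit 78) (nat_lit 0) (nat_lit 0) (XT.lf (nat_lit 0) (nat_lit 40334309929) (nat_lit 152) (nat_lit 129984430616) (nat_lit 0) (nat_lit 39755171715) (nat_lit 1) (nat_lit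 5) (nat_lit 3) (nat_lit 4) (nat_lit 1) (nat_lit 4) (nat_lit 453) (nat_lit 289) (nat_lit 278)) (XT.lf (nat_lit 0) (nat_lit 45053724077) (nat_lit 152) (nat_lit 130949362512) (nat_lit 0) (nat_lit 44435762153) (nat_lit 1) (nat_lit 5) (nat_lit 3) (nat_lit 4) (nat_lit 1) (nat_lit 4) (nat_lit 454) (nat_lit 289) (nat_lit 277))) (XT.nd (nat_lit 78) (nat_lit 0) (nat_lit 0) (XT.lf (nat_lit 0) (nat_lit 49938736818) (nat_lit 152) (nat_lit 132103017412) (nat_lit 0) (nat_lit 49283799930) (nat_lit 1) (nat_lit 5) (nat_lit 3) (nat_lit 4) (nat_lit 1) (nat_lit 4) (nat_lit 455) (nat_lit 289) (nat_lit 276)) (XT.lf (nat_lit 0) (nat_lit 55000979133) (nat_lit 152) (nat_lit 133448142111) (nat_lit 0) (nat_lit 54310827995) (nat_lit 1) (nat_lit 5) (nat_lit 3) (nat_lit 4) (nat_lit 1) (nat_lit 4) (nat_lit 456) (nat_lit 289) (nat_lit 275)))))) (XT.nd (nat_lit 468) (nat_lit 0) (nat_lit 0) (XT.nd (nat_lit 234) (nat_lit 0)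 (nat_lit 0) (XT.nd (nat_lit 78) (nat_lit 0) (nat_lit 0) (XT.lf (nat_lit 0) (nat_lit 60252503981) (nat_lit 152) (nat_lit 134987939290) (nat_lit 0) (nat_lit 59528815461) (nat_lit 1) (nat_lit 5) (nat_lit 3) (nat_lit 4) (nat_lit 1) (nat_lit 4) (nat_lit 457) (nat_lit 289) (nat_lit 274)) (XT.nd (nat_lit 78) (nat_lit 0) (nat_lit 0) (XT.lf (nat_lit 0) (nat_lit 65705814993) (nat_lit 152) (nat_lit 136726075130) (nat_lit 0) (nat_lit 64950186109) (nat_lit 1) (nat_lit 5) (nat_lit 3) (nat_lit 4) (nat_lit 1) (nat_lit 4) (nat_lit 458) (nat_lit 289) (nat_lit 273)) (XT.lf (nat_lit 0) (nat_lit 71373896241) (nat_lit 152) (nat_lit 138666688050) (nat_lit 0) (nat_lit 70587847964) (nat_lit 1) (nat_lit 5) (nat_lit 3) (nat_lit 4) (nat_lit 1) (nat_lit 4) (nat_lit 459) (nat_lit 289) (nat_lit 272)))) (XT.nd (nat_lit 78) (nat_lit 0) (nat_lit 0) (XT.lf (nat_lit 0) (nat_lit 77270243158) (nat_lit 152) (nat_lit 140814398559)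 (nat_lit 0) (nat_lit 76455224030) (nat_lit 1) (nat_lit 5) (nat_lit 3) (nat_lit 4) (nat_lit 1) (nat_lit 4) (nat_lit 460) (nat_lit 289) (nat_lit 271)) (XT.nd (nat_lit 78) (nat_lit 0) (nat_lit 0) (XT.lf (nat_lit 0) (nat_lit 83408894665) (nat_lit 152) (nat_lit 143174320252) (nat_lit 0) (nat_lit 82566284251) (nat_lit 1) (nat_lit 5) (nat_lit 3) (nat_lit 4) (nat_lit 1) (nat_lit 4) (nat_lit 461) (nat_lit 289) (nat_lit 270)) (XT.lf (nat_lit 0) (nat_lit 89804466599) (nat_lit 152) (nat_lit 145752071990) (nat_lit 0) (nat_lit 88935578769) (nat_lit 1) (nat_lit 5) (nat_lit 3) (nat_lit 4) (nat_lit 1) (nat_lit 4) (nat_lit 462) (nat_lit 289) (nat_lit 269))))) (XT.nd (nat_lit 234) (nat_lit 0) (nat_lit 0) (XT.nd (nat_lit 78) (nat_lit 0) (nat_lit 0) (XT.lf (nat_lit 0) (nat_lit 96472186513) (nat_lit 152) (nat_lit 148553791277) (nat_lit 0) (nat_lit 95578272572) (nat_lit 1) (nat_lit 5) (nat_lit 3) (nat_lit 4) (nat_lit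 1) (nat_lit 4) (nat_lit 463) (nat_lit 289) (nat_lit 268)) (XT.nd (nat_lit 78) (nat_lit 0) (nat_lit 0) (XT.lf (nat_lit 0) (nat_lit 103427929928) (nat_lit 152) (nat_lit 151586148874) (nat_lit 0) (nat_lit 102510181596) (nat_lit 1) (nat_lit 5) (nat_lit 3) (nat_lit 4) (nat_lit 1) (nat_lit 4) (nat_lit 464) (nat_lit 289) (nat_lit 267)) (XT.lf (nat_lit 0) (nat_lit 110688258141) (nat_lit 152) (nat_lit 154856364680) (nat_lit 0) (nat_lit 109747810389) (nat_lit 1) (nat_lit 5) (nat_lit 3) (nat_lit 4) (nat_lit 1) (nat_lit 4) (nat_lit 465) (nat_lit 289) (nat_lit 266)))) (XT.nd (nat_lit 156) (nat_lit 0) (nat_lit 0) (XT.nd (nat_lit 78) (nat_lit 0) (nat_lit 0) (XT.lf (nat_lit 0) (nat_lit 118270457645) (nat_lit 152) (nat_lit 158372224923) (nat_lit 0) (nat_lit 117308391398) (nat_lit 1) (nat_lit 5) (nat_lit 3) (nat_lit 4) (nat_lit 1) (nat_lit 4) (nat_lit 466) (nat_lit 289) (nat_lit 265)) (XT.lf (nat_lit 0) (nat_lit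 126192581298) (nat_lit 152) (nat_lit 162142100698) (nat_lit 0) (nat_lit 125209926008) (nat_lit 1) (nat_lit 5) (nat_lit 3) (nat_lit 4) (nat_lit 1) (nat_lit 4) (nat_lit 467) (nat_lit 289) (nat_lit 264))) (XT.nd (nat_lit 78) (nat_lit 0) (nat_lit 0) (XT.lf (nat_lit 0) (nat_lit 134473491298) (nat_lit 152) (nat_lit 166174967900) (nat_lit 0) (nat_lit 133471227396) (nat_lit 1) (nat_lit 5) (nat_lit 3) (nat_lit 4) (nat_lit 1) (nat_lit 4) (nat_lit 468) (nat_lit 289) (nat_lit 263)) (XT.lf (nat_lit 0) (nat_lit 143132904098) (nat_lit 152) (nat_lit 170480428595) (nat_lit 0) (nat_lit 142111965327) (nat_lit 1) (nat_lit 5) (nat_lit 3) (nat_lit 4) (nat_lit 1) (nat_lit 4) (nat_lit 469) (nat_lit 289) (nat_lit 262))))))))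
noncomputable def xc8 : XT := (XT.nd (nat_lit 51792) (nat_lit 0) (nat_lit 0) (XT.nd (nat_lit 50778) (nat_lit 0) (nat_lit 0) (XT.nd (nat_lit 468) (nat_lit 0) (nat_lit 0) (XT.nd (nat_lit 234) (nat_lit 0) (nat_lit 0) (XT.nd (nat_lit 78) (nat_lit 0) (nat_lit 0) (XT.lf (nat_lit 0) (nat_lit 152191437347) (nat_lit 152) (nat_lit 175068733879) (nat_lit 0) (nat_lit 151152712986) (nat_lit 1) (nat_lit 5) (nat_lit 3) (nat_lit 4) (nat_lit 1) (nat_lit 4) (nat_lit 470) (nat_lit 289) (nat_lit 261)) (XT.nd (nat_lit 78) (nat_lit 0) (nat_lit 0) (XT.lf (nat_lit 0) (nat_lit 161670658982) (nat_lit 152) (nat_lit 179950808288) (nat_lit 0) (nat_lit 160614995964) (nat_lit 1) (nat_lit 5) (nat_lit 3) (nat_lit 4) (nat_lit 1) (nat_lit 4) (nat_lit 471) (nat_lit 289) (nat_lit 260)) (XT.lf (nat_lit 0) (nat_lit 171593138578) (nat_lit 152) (nat_lit 185138275809) (nat_lit 0) (nat_lit 170521343506) (nat_lit 1) (nat_lit 5) (nat_lit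 3) (nat_lit 4) (nat_lit 1) (nat_lit 4) (nat_lit 472) (nat_lit 289) (nat_lit 259)))) (XT.nd (nat_lit 78) (nat_lit 0) (nat_lit 0) (XT.lf (nat_lit 0) (nat_lit 181982501086) (nat_lit 152) (nat_lit 190643487555) (nat_lit 0) (nat_lit 180895342153) (nat_lit 1) (nat_lit 5) (nat_lit 3) (nat_lit 4) (nat_lit 1) (nat_lit 4) (nat_lit 473) (nat_lit 289) (nat_lit 258)) (XT.nd (nat_lit 78) (nat_lit 0) (nat_lit 0) (XT.lf (nat_lit 0) (nat_lit 192863483084) (nat_lit 152) (nat_lit 196479551173) (nat_lit 0) (nat_lit 191761691903) (nat_lit 1) (nat_lit 5) (nat_lit 3) (nat_lit 4) (nat_lit 1) (nat_lit 4) (nat_lit 474) (nat_lit 289) (nat_lit 257)) (XT.lf (nat_lit 0) (nat_lit 204261991671) (nat_lit 152) (nat_lit 202660362054) (nat_lit 0) (nat_lit 203146265016) (nat_lit 1) (nat_lit 5) (nat_lit 3) (nat_lit 4) (nat_lit 1) (nat_lit 4) (nat_lit 475) (nat_lit 289) (nat_lit 256))))) (XT.nd (nat_lit 234) (nat_lit 0) (nat_lit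 0) (XT.nd (nat_lit 78) (nat_lit 0) (nat_lit 0) (XT.lf (nat_lit 0) (nat_lit 216205166155) (nat_lit 152) (nat_lit 209200636412) (nat_lit 0) (nat_lit 215076167619) (nat_lit 1) (nat_lit 5) (nat_lit 3) (nat_lit 4) (nat_lit 1) (nat_lit 4) (nat_lit 476) (nat_lit 289) (nat_lit 255)) (XT.nd (nat_lit 78) (nat_lit 0) (nat_lit 0) (XT.lf (nat_lit 0) (nat_lit 228721442664) (nat_lit 152) (nat_lit 216115946331) (nat_lit 0) (nat_lit 227579804241) (nat_lit 1) (nat_lit 5) (nat_lit 3) (nat_lit 4) (nat_lit 1) (nat_lit 4) (nat_lit 477) (nat_lit 289) (nat_lit 254)) (XT.lf (nat_lit 0) (nat_lit 241840621857) (nat_lit 152) (nat_lit 223422756833) (nat_lit 0) (nat_lit 240686945447) (nat_lit 1) (nat_lit 5) (nat_lit 3) (nat_lit 4) (nat_lit 1) (nat_lit 4) (nat_lit 478) (nat_lit 289) (nat_lit 253)))) (XT.nd (nat_lit 78) (nat_lit 0) (nat_lit 0) (XT.lf (nat_lit 0) (nat_lit 255593939875) (nat_lit 152) (nat_lit 231138465086)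 (nat_lit 0) (nat_lit 254428798716) (nat_lit 1) (nat_lit 5) (nat_lit 3) (nat_lit 4) (nat_lit 1) (nat_lit 4) (nat_lit 479) (nat_lit 289) (nat_lit 252)) (XT.nd (nat_lit 78) (nat_lit 0) (nat_lit 0) (XT.lf (nat_lit 0) (nat_lit 270014142713) (nat_lit 152) (nat_lit 239281441825) (nat_lit 0) (nat_lit 268838082745) (nat_lit 1) (nat_lit 5) (nat_lit 3) (nat_lit 4) (nat_lit 1) (nat_lit 4) (nat_lit 480) (nat_lit 289) (nat_lit 251)) (XT.lf (nat_lit 0) (nat_lit 285135564188) (nat_lit 152) (nat_lit 247871075089) (nat_lit 0) (nat_lit 283949105354) (nat_lit 1) (nat_lit 5) (nat_lit 3) (nat_lit 4) (nat_lit 1) (nat_lit 4) (nat_lit 481) (nat_lit 289) (nat_lit 250)))))) (XT.nd (nat_lit 468) (nat_lit 0) (nat_lit 0) (XT.nd (nat_lit 234) (nat_lit 152) (nat_lit 0) (XT.nd (nat_lit 78) (nat_lit 0) (nat_lit 0) (XT.lf (nat_lit 0) (nat_lit 46173124437) (nat_lit 76) (nat_lit 5164923596) (nat_lit 76) (nat_lit 5164923596)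 (nat_lit 3) (nat_lit 4) (nat_lit 4) (nat_lit 5) (nat_lit 4) (nat_lit 4) (nat_lit 440) (nat_lit 290) (nat_lit 290)) (XT.nd (nat_lit 78) (nat_lit 0) (nat_lit 0) (XT.lf (nat_lit 0) (nat_lit 104459440290) (nat_lit 76) (nat_lit 7040720842) (nat_lit 76) (nat_lit 6967512944) (nat_lit 3) (nat_lit 4) (nat_lit 4) (nat_lit 5) (nat_lit 4) (nat_lit 4) (nat_lit 441) (nat_lit 290) (nat_lit 289)) (XT.lf (nat_lit 0) (nat_lit 116942245934) (nat_lit 76) (nat_lit 3704556582) (nat_lit 76) (nat_lit 3561626876) (nat_lit 3) (nat_lit 4) (nat_lit 4) (nat_lit 5) (nat_lit 4) (nat_lit 4) (nat_lit 442) (nat_lit 290) (nat_lit 288)))) (XT.nd (nat_lit 78) (nat_lit 152) (nat_lit 0) (XT.lf (nat_lit 0) (nat_lit 129824386770) (nat_lit 76) (nat_lit 313411164) (nat_lit 76) (nat_lit 104079737) (nat_lit 3) (nat_lit 4) (nat_lit 4) (nat_lit 5) (nat_lit 4) (nat_lit 4) (nat_lit 443) (nat_lit 290) (nat_lit 287)) (XT.nd (nat_lit 78)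 (nat_lit 0) (nat_lit 0) (XT.lf (nat_lit 0) (nat_lit 3460593482) (nat_lit 152) (nat_lit 129910300195) (nat_lit 0) (nat_lit 3201001900) (nat_lit 1) (nat_lit 5) (nat_lit 3) (nat_lit 4) (nat_lit 1) (nat_lit 4) (nat_lit 444) (nat_lit 290) (nat_lit 286)) (XT.lf (nat_lit 0) (nat_lit 7103156561) (nat_lit 152) (nat_lit 129333815574) (nat_lit 0) (nat_lit 6786204675) (nat_lit 1) (nat_lit 5) (nat_lit 3) (nat_lit 4) (nat_lit 1) (nat_lit 4) (nat_lit 445) (nat_lit 290) (nat_lit 285))))) (XT.nd (nat_lit 234) (nat_lit 0) (nat_lit 0) (XT.nd (nat_lit 78) (nat_lit 0) (nat_lit 0) (XT.lf (nat_lit 0) (nat_lit 10823876128) (nat_lit 152) (nat_lit 128936054357) (nat_lit 0) (nat_lit 10452295381) (nat_lit 1) (nat_lit 5) (nat_lit 3) (nat_lit 4) (nat_lit 1) (nat_lit 4) (nat_lit 446) (nat_lit 290) (nat_lit 284)) (XT.nd (nat_lit 78) (nat_lit 0) (nat_lit 0) (XT.lf (nat_lit 0) (nat_lit 14631611040) (nat_lit 152) (nat_lit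 128716069492) (nat_lit 0) (nat_lit 14208002807) (nat_lit 1) (nat_lit 5) (nat_lit 3) (nat_lit 4) (nat_lit 1) (nat_lit 4) (nat_lit 447) (nat_lit 290) (nat_lit 283)) (XT.lf (nat_lit 0) (nat_lit 18535427333) (nat_lit 152) (nat_lit 128673337206) (nat_lit 0) (nat_lit 18062269113) (nat_lit 1) (nat_lit 5) (nat_lit 3) (nat_lit 4) (nat_lit 1) (nat_lit 4) (nat_lit 448) (nat_lit 290) (nat_lit 282)))) (XT.nd (nat_lit 156) (nat_lit 0) (nat_lit 0) (XT.nd (nat_lit 78) (nat_lit 0) (nat_lit 0) (XT.lf (nat_lit 0) (nat_lit 22544619807) (nat_lit 152) (nat_lit 128807755755) (nat_lit 0) (nat_lit 22024271124) (nat_lit 1) (nat_lit 5) (nat_lit 3) (nat_lit 4) (nat_lit 1) (nat_lit 4) (nat_lit 449) (nat_lit 290) (nat_lit 281)) (XT.lf (nat_lit 0) (nat_lit 26668734160) (nat_lit 152) (nat_lit 129119645184) (nat_lit 0) (nat_lit 26103442177) (nat_lit 1) (nat_lit 5) (nat_lit 3) (nat_lit 4) (nat_lit 1) (nat_lit 4) (nat_lit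 450) (nat_lit 290) (nat_lit 280))) (XT.nd (nat_lit 78) (nat_lit 0) (nat_lit 0) (XT.lf (nat_lit 0) (nat_lit 30917589709) (nat_lit 152) (nat_lit 129609748087) (nat_lit 0) (nat_lit 30309494586) (nat_lit 1) (nat_lit 5) (nat_lit 3) (nat_lit 4) (nat_lit 1) (nat_lit 4) (nat_lit 451) (nat_lit 290) (nat_lit 279)) (XT.lf (nat_lit 0) (nat_lit 35301302779) (nat_lit 152) (nat_lit 130279231375) (nat_lit 0) (nat_lit 34652442759) (nat_lit 1) (nat_lit 5) (nat_lit 3) (nat_lit 4) (nat_lit 1) (nat_lit 4) (nat_lit 452) (nat_lit 290) (nat_lit 278))))))) (XT.nd (nat_lit 1014) (nat_lit 0) (nat_lit 0) (XT.nd (nat_lit 468) (nat_lit 0) (nat_lit 0) (XT.nd (nat_lit 234) (nat_lit 0) (nat_lit 0) (XT.nd (nat_lit 78) (nat_lit 0) (nat_lit 0) (XT.lf (nat_lit 0) (nat_lit 39830310782) (nat_lit 152) (nat_lit 131129689056) (nat_lit 0) (nat_lit 39142627050) (nat_lit 1) (nat_lit 5) (nat_lit 3) (nat_lit 4) (nat_lit 1) (nat_lit 4)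 (nat_lit 453) (nat_lit 290) (nat_lit 277)) (XT.nd (nat_lit 78) (nat_lit 0) (nat_lit 0) (XT.lf (nat_lit 0) (nat_lit 44515397069) (nat_lit 152) (nat_lit 132163146030) (nat_lit 0) (nat_lit 43790738374) (nat_lit 1) (nat_lit 5) (nat_lit 3) (nat_lit 4) (nat_lit 1) (nat_lit 4) (nat_lit 454) (nat_lit 290) (nat_lit 276)) (XT.lf (nat_lit 0) (nat_lit 49367716609) (nat_lit 152) (nat_lit 133382062907) (nat_lit 0) (nat_lit 48607843663) (nat_lit 1) (nat_lit 5) (nat_lit 3) (nat_lit 4) (nat_lit 1) (nat_lit 4) (nat_lit 455) (nat_lit 290) (nat_lit 275)))) (XT.nd (nat_lit 78) (nat_lit 0) (nat_lit 0) (XT.lf (nat_lit 0) (nat_lit 54398822542) (nat_lit 152) (nat_lit 134789341872) (nat_lit 0) (nat_lit 53605412215) (nat_lit 1) (nat_lit 5) (nat_lit 3) (nat_lit 4) (nat_lit 1) (nat_lit 4) (nat_lit 456) (nat_lit 290) (nat_lit 274)) (XT.nd (nat_lit 78) (nat_lit 0) (nat_lit 0) (XT.lf (nat_lit 0) (nat_lit 59620693693) (nat_lit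 152) (nat_lit 136388333588) (nat_lit 0) (nat_lit 58795343003) (nat_lit 1) (nat_lit 5) (nat_lit 3) (nat_lit 4) (nat_lit 1) (nat_lit 4) (nat_lit 457) (nat_lit 290) (nat_lit 273)) (XT.lf (nat_lit 0) (nat_lit 65045763088) (nat_lit 152) (nat_lit 138182845179) (nat_lit 0) (nat_lit 64189993004) (nat_lit 1) (nat_lit 5) (nat_lit 3) (nat_lit 4) (nat_lit 1) (nat_lit 4) (nat_lit 458) (nat_lit 290) (nat_lit 272))))) (XT.nd (nat_lit 234) (nat_lit 0) (nat_lit 0) (XT.nd (nat_lit 78) (nat_lit 0) (nat_lit 0) (XT.lf (nat_lit 0) (nat_lit 70686947559) (nat_lit 152) (nat_lit 140177149291) (nat_lit 0) (nat_lit 69802206624) (nat_lit 1) (nat_lit 5) (nat_lit 3) (nat_lit 4) (nat_lit 1) (nat_lit 4) (nat_lit 459) (nat_lit 290) (nat_lit 271)) (XT.nd (nat_lit 78) (nat_lit 0) (nat_lit 0) (XT.lf (nat_lit 0) (nat_lit 76557678498) (nat_lit 152) (nat_lit 142375994267) (nat_lit 0) (nat_lit 75645346276) (nat_lit 1) (nat_lit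 5) (nat_lit 3) (nat_lit 4) (nat_lit 1) (nat_lit 4) (nat_lit 460) (nat_lit 290) (nat_lit 270)) (XT.lf (nat_lit 0) (nat_lit 82671933835) (nat_lit 152) (nat_lit 144784615453) (nat_lit 0) (nat_lit 81733324197) (nat_lit 1) (nat_lit 5) (nat_lit 3) (nat_lit 4) (nat_lit 1) (nat_lit 4) (nat_lit 461) (nat_lit 290) (nat_lit 269)))) (XT.nd (nat_lit 156) (nat_lit 0) (nat_lit 0) (XT.nd (nat_lit 78) (nat_lit 0) (nat_lit 0) (XT.lf (nat_lit 0) (nat_lit 89044271322) (nat_lit 152) (nat_lit 147408747660) (nat_lit 0) (nat_lit 88080635573) (nat_lit 1) (nat_lit 5) (nat_lit 3) (nat_lit 4) (nat_lit 1) (nat_lit 4) (nat_lit 462) (nat_lit 290) (nat_lit 268)) (XT.lf (nat_lit 0) (nat_lit 95689863189) (nat_lit 152) (nat_lit 150254638823) (nat_lit 0) (nat_lit 94702393050) (nat_lit 1) (nat_lit 5) (nat_lit 3) (nat_lit 4) (nat_lit 1) (nat_lit 4) (nat_lit 463) (nat_lit 290) (nat_lit 267))) (XT.nd (nat_lit 78) (nat_lit 0) (nat_lit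 0) (XT.lf (nat_lit 0) (nat_lit 102624532276) (nat_lit 152) (nat_lit 153329064873) (nat_lit 0) (nat_lit 101614362717) (nat_lit 1) (nat_lit 5) (nat_lit 3) (nat_lit 4) (nat_lit 1) (nat_lit 4) (nat_lit 464) (nat_lit 290) (nat_lit 266)) (XT.lf (nat_lit 0) (nat_lit 109864789699) (nat_lit 152) (nat_lit 156639345873) (nat_lit 0) (nat_lit 108833001644) (nat_lit 1) (nat_lit 5) (nat_lit 3) (nat_lit 4) (nat_lit 1) (nat_lit 4) (nat_lit 465) (nat_lit 290) (nat_lit 265)))))) (XT.nd (nat_lit 468) (nat_lit 0) (nat_lit 0) (XT.nd (nat_lit 234) (nat_lit 0) (nat_lit 0) (XT.nd (nat_lit 78) (nat_lit 0) (nat_lit 0) (XT.lf (nat_lit 0) (nat_lit 117427874166) (nat_lit 152) (nat_lit 160193363442) (nat_lit 0) (nat_lit 116375497068) (nat_lit 1) (nat_lit 5) (nat_lit 3) (nat_lit 4) (nat_lit 1) (nat_lit 4) (nat_lit 466) (nat_lit 290) (nat_lit 264)) (XT.nd (nat_lit 78) (nat_lit 0) (nat_lit 0) (XT.lf (nat_lit 0) (nat_lit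 125331793021) (nat_lit 152) (nat_lit 163999579529) (nat_lit 0) (nat_lit 124259807311) (nat_lit 1) (nat_lit 5) (nat_lit 3) (nat_lit 4) (nat_lit 1) (nat_lit 4) (nat_lit 467) (nat_lit 290) (nat_lit 263)) (XT.lf (nat_lit 0) (nat_lit 133595365119) (nat_lit 152) (nat_lit 168067056552) (nat_lit 0) (nat_lit 132504704540) (nat_lit 1) (nat_lit 5) (nat_lit 3) (nat_lit 4) (nat_lit 1) (nat_lit 4) (nat_lit 468) (nat_lit 290) (nat_lit 262)))) (XT.nd (nat_lit 78) (nat_lit 0) (nat_lit 0) (XT.lf (nat_lit 0) (nat_lit 142238265630) (nat_lit 152) (nat_lit 172405478980) (nat_lit 0) (nat_lit 141129819462) (nat_lit 1) (nat_lit 5) (nat_lit 3) (nat_lit 4) (nat_lit 1) (nat_lit 4) (nat_lit 469) (nat_lit 290) (nat_lit 261)) (XT.nd (nat_lit 78) (nat_lit 0) (nat_lit 0) (XT.lf (nat_lit 0) (nat_lit 151281072891) (nat_lit 152) (nat_lit 177025176391) (nat_lit 0) (nat_lit 150155688066) (nat_lit 1) (nat_lit 5) (nat_lit 3) (nat_lit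 4) (nat_lit 1) (nat_lit 4) (nat_lit 470) (nat_lit 290) (nat_lit 260)) (XT.lf (nat_lit 0) (nat_lit 160745317394) (nat_lit 152) (nat_lit 181937148065) (nat_lit 0) (nat_lit 159603800515) (nat_lit 1) (nat_lit 5) (nat_lit 3) (nat_lit 4) (nat_lit 1) (nat_lit 4) (nat_lit 471) (nat_lit 290) (nat_lit 259))))) (XT.nd (nat_lit 234) (nat_lit 0) (nat_lit 0) (XT.nd (nat_lit 78) (nat_lit 0) (nat_lit 0) (XT.lf (nat_lit 0) (nat_lit 170653533054) (nat_lit 152) (nat_lit 187153089171) (nat_lit 0) (nat_lit 169496652314) (nat_lit 1) (nat_lit 5) (nat_lit 3) (nat_lit 4) (nat_lit 1) (nat_lit 4) (nat_lit 472) (nat_lit 290) (nat_lit 258)) (XT.nd (nat_lit 78) (nat_lit 0) (nat_lit 0) (XT.lf (nat_lit 0) (nat_lit 181029310862) (nat_lit 152) (nat_lit 192685418617) (nat_lit 0) (nat_lit 179857797874) (nat_lit 1) (nat_lit 5) (nat_lit 3) (nat_lit 4) (nat_lit 1) (nat_lit 4) (nat_lit 473) (nat_lit 290) (nat_lit 257)) (XT.lf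 (nat_lit 0) (nat_lit 191897355050) (nat_lit 152) (nat_lit 198547308616) (nat_lit 0) (nat_lit 190711906587) (nat_lit 1) (nat_lit 5) (nat_lit 3) (nat_lit 4) (nat_lit 1) (nat_lit 4) (nat_lit 474) (nat_lit 290) (nat_lit 256)))) (XT.nd (nat_lit 156) (nat_lit 0) (nat_lit 0) (XT.nd (nat_lit 78) (nat_lit 0) (nat_lit 0) (XT.lf (nat_lit 0) (nat_lit 203283541914) (nat_lit 152) (nat_lit 204752716050) (nat_lit 0) (nat_lit 202084821570) (nat_lit 1) (nat_lit 5) (nat_lit 3) (nat_lit 4) (nat_lit 1) (nat_lit 4) (nat_lit 475) (nat_lit 290) (nat_lit 255)) (XT.lf (nat_lit 0) (nat_lit 215214981422) (nat_lit 152) (nat_lit 211316415697) (nat_lit 0) (nat_lit 214003621192) (nat_lit 1) (nat_lit 5) (nat_lit 3) (nat_lit 4) (nat_lit 1) (nat_lit 4) (nat_lit 476) (nat_lit 290) (nat_lit 254))) (XT.nd (nat_lit 78) (nat_lit 0) (nat_lit 0) (XT.lf (nat_lit 0) (nat_lit 227720081765) (nat_lit 152) (nat_lit 218254035414) (nat_lit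 0) (nat_lit 226496683548) (nat_lit 1) (nat_lit 5) (nat_lit 3) (nat_lit 4) (nat_lit 1) (nat_lit 4) (nat_lit 477) (nat_lit 290) (nat_lit 253)) (XT.lf (nat_lit 0) (nat_lit 240828616990) (nat_lit 152) (nat_lit 225582093344) (nat_lit 0) (nat_lit 239593754023) (nat_lit 1) (nat_lit 5) (nat_lit 3) (nat_lit 4) (nat_lit 1) (nat_lit 4) (nat_lit 478) (nat_lit 290) (nat_lit 252))))))))
noncomputable def xc9 : XT := (XT.nd (nat_lit 51636) (nat_lit 0) (nat_lit 0) (XT.nd (nat_lit 50622) (nat_lit 0) (nat_lit 0) (XT.nd (nat_lit 50154) (nat_lit 0) (nat_lit 0) (XT.nd (nat_lit 49920) (nat_lit 0) (nat_lit 152) (XT.nd (nat_lit 78) (nat_lit 0) (nat_lit 0) (XT.lf (nat_lit 0) (nat_lit 254571797895) (nat_lit 152) (nat_lit 233318037243) (nat_lit 0) (nat_lit 253326016120) (nat_lit 1) (nat_lit 5) (nat_lit 3) (nat_lit 4) (nat_lit 1) (nat_lit 4) (nat_lit 479) (nat_lit 290) (nat_lit 251)) (XT.nd (nat_lit 78) (nat_lit 0)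 (nat_lit 0) (XT.lf (nat_lit 0) (nat_lit 268982346341) (nat_lit 152) (nat_lit 241480286025) (nat_lit 0) (nat_lit 267726165699) (nat_lit 1) (nat_lit 5) (nat_lit 3) (nat_lit 4) (nat_lit 1) (nat_lit 4) (nat_lit 480) (nat_lit 290) (nat_lit 250)) (XT.lf (nat_lit 0) (nat_lit 284094573155) (nat_lit 152) (nat_lit 250088273615) (nat_lit 0) (nat_lit 282828488832) (nat_lit 1) (nat_lit 5) (nat_lit 3) (nat_lit 4) (nat_lit 1) (nat_lit 4) (nat_lit 481) (nat_lit 290) (nat_lit 249)))) (XT.nd (nat_lit 78) (nat_lit 0) (nat_lit 0) (XT.lf (nat_lit 0) (nat_lit 34620551348) (nat_lit 76) (nat_lit 8405968964) (nat_lit 76) (nat_lit 8405968964) (nat_lit 3) (nat_lit 4) (nat_lit 4) (nat_lit 5) (nat_lit 4) (nat_lit 4) (nat_lit 438) (nat_lit 291) (nat_lit 291)) (XT.nd (nat_lit 78) (nat_lit 0) (nat_lit 0) (XT.lf (nat_lit 0) (nat_lit 80573830752) (nat_lit 76) (nat_lit 13656635179) (nat_lit 76) (nat_lit 13579766887) (nat_lit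 3) (nat_lit 4) (nat_lit 4) (nat_lit 5) (nat_lit 4) (nat_lit 4) (nat_lit 439) (nat_lit 291) (nat_lit 290)) (XT.lf (nat_lit 0) (nat_lit 92225347600) (nat_lit 76) (nat_lit 10466856621) (nat_lit 76) (nat_lit 10316780430) (nat_lit 3) (nat_lit 4) (nat_lit 4) (nat_lit 5) (nat_lit 4) (nat_lit 4) (nat_lit 440) (nat_lit 291) (nat_lit 289))))) (XT.nd (nat_lit 234) (nat_lit 152) (nat_lit 0) (XT.nd (nat_lit 78) (nat_lit 0) (nat_lit 0) (XT.lf (nat_lit 0) (nat_lit 104223394946) (nat_lit 76) (nat_lit 7235007543) (nat_lit 76) (nat_lit 7015209544) (nat_lit 3) (nat_lit 4) (nat_lit 4) (nat_lit 5) (nat_lit 4) (nat_lit 4) (nat_lit 441) (nat_lit 291) (nat_lit 288)) (XT.nd (nat_lit 78) (nat_lit 0) (nat_lit 0) (XT.lf (nat_lit 0) (nat_lit 116596539570) (nat_lit 76) (nat_lit 3953393065) (nat_lit 76) (nat_lit 3667193346) (nat_lit 3) (nat_lit 4) (nat_lit 4) (nat_lit 5) (nat_lit 4) (nat_lit 4) (nat_lit 442) (nat_lit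 291) (nat_lit 287)) (XT.lf (nat_lit 0) (nat_lit 129374241340) (nat_lit 76) (nat_lit 614199822) (nat_lit 76) (nat_lit 264760367) (nat_lit 3) (nat_lit 4) (nat_lit 4) (nat_lit 5) (nat_lit 4) (nat_lit 4) (nat_lit 443) (nat_lit 291) (nat_lit 286)))) (XT.nd (nat_lit 78) (nat_lit 0) (nat_lit 0) (XT.lf (nat_lit 0) (nat_lit 3239540632) (nat_lit 152) (nat_lit 130497701794) (nat_lit 0) (nat_lit 2849380848) (nat_lit 1) (nat_lit 5) (nat_lit 3) (nat_lit 4) (nat_lit 1) (nat_lit 4) (nat_lit 444) (nat_lit 291) (nat_lit 285)) (XT.nd (nat_lit 78) (nat_lit 0) (nat_lit 0) (XT.lf (nat_lit 0) (nat_lit 6831385825) (nat_lit 152) (nat_lit 130022459922) (nat_lit 0) (nat_lit 6386597180) (nat_lit 1) (nat_lit 5) (nat_lit 3) (nat_lit 4) (nat_lit 1) (nat_lit 4) (nat_lit 445) (nat_lit 291) (nat_lit 284)) (XT.lf (nat_lit 0) (nat_lit 10503802644) (nat_lit 152) (nat_lit 129721120369) (nat_lit 0) (nat_lit 10006986513) (nat_lit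 1) (nat_lit 5) (nat_lit 3) (nat_lit 4) (nat_lit 1) (nat_lit 4) (nat_lit 446) (nat_lit 291) (nat_lit 283)))))) (XT.nd (nat_lit 468) (nat_lit 0) (nat_lit 0) (XT.nd (nat_lit 234) (nat_lit 0) (nat_lit 0) (XT.nd (nat_lit 78) (nat_lit 0) (nat_lit 0) (XT.lf (nat_lit 0) (nat_lit 14265534939) (nat_lit 152) (nat_lit 129592965661) (nat_lit 0) (nat_lit 13719168822) (nat_lit 1) (nat_lit 5) (nat_lit 3) (nat_lit 4) (nat_lit 1) (nat_lit 4) (nat_lit 447) (nat_lit 291) (nat_lit 282)) (XT.nd (nat_lit 78) (nat_lit 0) (nat_lit 0) (XT.lf (nat_lit 0) (nat_lit 18125539216) (nat_lit 152) (nat_lit 129637690668) (nat_lit 0) (nat_lit 17531982635) (nat_lit 1) (nat_lit 5) (nat_lit 3) (nat_lit 4) (nat_lit 1) (nat_lit 4) (nat_lit 448) (nat_lit 291) (nat_lit 281)) (XT.lf (nat_lit 0) (nat_lit 22093005961) (nat_lit 152) (nat_lit 129855401877) (nat_lit 0) (nat_lit 21454506081) (nat_lit 1) (nat_lit 5) (nat_lit 3) (nat_lit 4)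 (nat_lit 1) (nat_lit 4) (nat_lit 449) (nat_lit 291) (nat_lit 280)))) (XT.nd (nat_lit 78) (nat_lit 0) (nat_lit 0) (XT.lf (nat_lit 0) (nat_lit 26177381522) (nat_lit 152) (nat_lit 130246617648) (nat_lit 0) (nat_lit 25496078501) (nat_lit 1) (nat_lit 5) (nat_lit 3) (nat_lit 4) (nat_lit 1) (nat_lit 4) (nat_lit 450) (nat_lit 291) (nat_lit 279)) (XT.nd (nat_lit 78) (nat_lit 0) (nat_lit 0) (XT.lf (nat_lit 0) (nat_lit 30388390605) (nat_lit 152) (nat_lit 130812269449) (nat_lit 0) (nat_lit 29666322687) (nat_lit 1) (nat_lit 5) (nat_lit 3) (nat_lit 4) (nat_lit 1) (nat_lit 4) (nat_lit 451) (nat_lit 291) (nat_lit 278)) (XT.lf (nat_lit 0) (nat_lit 34736059421) (nat_lit 152) (nat_lit 131553704068) (nat_lit 0) (nat_lit 33975167791) (nat_lit 1) (nat_lit 5) (nat_lit 3) (nat_lit 4) (nat_lit 1) (nat_lit 4) (nat_lit 452) (nat_lit 291) (nat_lit 277))))) (XT.nd (nat_lit 234) (nat_lit 0) (nat_lit 0) (XT.nd (nat_lit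 78) (nat_lit 0) (nat_lit 0) (XT.lf (nat_lit 0) (nat_lit 39230739563) (nat_lit 152) (nat_lit 132472686826) (nat_lit 0) (nat_lit 38432872970) (nat_lit 1) (nat_lit 5) (nat_lit 3) (nat_lit 4) (nat_lit 1) (nat_lit 4) (nat_lit 453) (nat_lit 291) (nat_lit 276)) (XT.nd (nat_lit 78) (nat_lit 0) (nat_lit 0) (XT.lf (nat_lit 0) (nat_lit 43883132649) (nat_lit 152) (nat_lit 133571405778) (nat_lit 0) (nat_lit 43050051805) (nat_lit 1) (nat_lit 5) (nat_lit 3) (nat_lit 4) (nat_lit 1) (nat_lit 4) (nat_lit 454) (nat_lit 291) (nat_lit 275)) (XT.lf (nat_lit 0) (nat_lit 48704315806) (nat_lit 152) (nat_lit 134852476920) (nat_lit 0) (nat_lit 47837697581) (nat_lit 1) (nat_lit 5) (nat_lit 3) (nat_lit 4) (nat_lit 1) (nat_lit 4) (nat_lit 455) (nat_lit 291) (nat_lit 274)))) (XT.nd (nat_lit 156) (nat_lit 0) (nat_lit 0) (XT.nd (nat_lit 78) (nat_lit 0) (nat_lit 0) (XT.lf (nat_lit 0) (nat_lit 53705768043) (nat_lit 152) (nat_lit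 136318950423) (nat_lit 0) (nat_lit 52807209454) (nat_lit 1) (nat_lit 5) (nat_lit 3) (nat_lit 4) (nat_lit 1) (nat_lit 4) (nat_lit 456) (nat_lit 291) (nat_lit 273)) (XT.lf (nat_lit 0) (nat_lit 58899397577) (nat_lit 152) (nat_lit 137974317890) (nat_lit 0) (nat_lit 57970419595) (nat_lit 1) (nat_lit 5) (nat_lit 3) (nat_lit 4) (nat_lit 1) (nat_lit 4) (nat_lit 457) (nat_lit 291) (nat_lit 272))) (XT.nd (nat_lit 78) (nat_lit 0) (nat_lit 0) (XT.lf (nat_lit 0) (nat_lit 64297570195) (nat_lit 152) (nat_lit 139822520672) (nat_lit 0) (nat_lit 63339621362) (nat_lit 1) (nat_lit 5) (nat_lit 3) (nat_lit 4) (nat_lit 1) (nat_lit 4) (nat_lit 458) (nat_lit 291) (nat_lit 271)) (XT.lf (nat_lit 0) (nat_lit 69913138688) (nat_lit 152) (nat_lit 141867959251) (nat_lit 0) (nat_lit 68927598568) (nat_lit 1) (nat_lit 5) (nat_lit 3) (nat_lit 4) (nat_lit 1) (nat_lit 4) (nat_lit 459) (nat_lit 291) (nat_lit 270))))))) (XT.nd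 (nat_lit 1014) (nat_lit 0) (nat_lit 0) (XT.nd (nat_lit 468) (nat_lit 0) (nat_lit 0) (XT.nd (nat_lit 234) (nat_lit 0) (nat_lit 0) (XT.nd (nat_lit 78) (nat_lit 0) (nat_lit 0) (XT.lf (nat_lit 0) (nat_lit 75759473456) (nat_lit 152) (nat_lit 144115503721) (nat_lit 0) (nat_lit 74747655920) (nat_lit 1) (nat_lit 5) (nat_lit 3) (nat_lit 4) (nat_lit 1) (nat_lit 4) (nat_lit 460) (nat_lit 291) (nat_lit 269)) (XT.nd (nat_lit 78) (nat_lit 0) (nat_lit 0) (XT.lf (nat_lit 0) (nat_lit 81850494346) (nat_lit 152) (nat_lit 146570505376) (nat_lit 0) (nat_lit 80813650699) (nat_lit 1) (nat_lit 5) (nat_lit 3) (nat_lit 4) (nat_lit 1) (nat_lit 4) (nat_lit 461) (nat_lit 291) (nat_lit 268)) (XT.lf (nat_lit 0) (nat_lit 88200703787) (nat_lit 152) (nat_lit 149238809459) (nat_lit 0) (nat_lit 87140025750) (nat_lit 1) (nat_lit 5) (nat_lit 3) (nat_lit 4) (nat_lit 1) (nat_lit 4) (nat_lit 462) (nat_lit 291) (nat_lit 267))))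 (XT.nd (nat_lit 78) (nat_lit 0) (nat_lit 0) (XT.lf (nat_lit 0) (nat_lit 94825221326) (nat_lit 152) (nat_lit 152126769075) (nat_lit 0) (nat_lit 93741843868) (nat_lit 1) (nat_lit 5) (nat_lit 3) (nat_lit 4) (nat_lit 1) (nat_lit 4) (nat_lit 463) (nat_lit 291) (nat_lit 266)) (XT.nd (nat_lit 78) (nat_lit 0) (nat_lit 0) (XT.lf (nat_lit 0) (nat_lit 101739819623) (nat_lit 152) (nat_lit 155241260319) (nat_lit 0) (nat_lit 100634823671) (nat_lit 1) (nat_lit 5) (nat_lit 3) (nat_lit 4) (nat_lit 1) (nat_lit 4) (nat_lit 464) (nat_lit 291) (nat_lit 265)) (XT.lf (nat_lit 0) (nat_lit 108960962008) (nat_lit 152) (nat_lit 158589698645) (nat_lit 0) (nat_lit 107835377013) (nat_lit 1) (nat_lit 5) (nat_lit 3) (nat_lit 4) (nat_lit 1) (nat_lit 4) (nat_lit 465) (nat_lit 291) (nat_lit 264))))) (XT.nd (nat_lit 234) (nat_lit 0) (nat_lit 0) (XT.nd (nat_lit 78) (nat_lit 0) (nat_lit 0) (XT.lf (nat_lit 0) (nat_lit 116505841678)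 (nat_lit 152) (nat_lit 162180056527) (nat_lit 0) (nat_lit 115360648070) (nat_lit 1) (nat_lit 5) (nat_lit 3) (nat_lit 4) (nat_lit 1) (nat_lit 4) (nat_lit 466) (nat_lit 291) (nat_lit 263)) (XT.nd (nat_lit 78) (nat_lit 0) (nat_lit 0) (XT.lf (nat_lit 0) (nat_lit 124392422630) (nat_lit 152) (nat_lit 166020882434) (nat_lit 0) (nat_lit 123228554153) (nat_lit 1) (nat_lit 5) (nat_lit 3) (nat_lit 4) (nat_lit 1) (nat_lit 4) (nat_lit 467) (nat_lit 291) (nat_lit 262)) (XT.lf (nat_lit 0) (nat_lit 132639482439) (nat_lit 152) (nat_lit 170121321191) (nat_lit 0) (nat_lit 131457828373) (nat_lit 1) (nat_lit 5) (nat_lit 3) (nat_lit 4) (nat_lit 1) (nat_lit 4) (nat_lit 468) (nat_lit 291) (nat_lit 261)))) (XT.nd (nat_lit 156) (nat_lit 0) (nat_lit 0) (XT.nd (nat_lit 78) (nat_lit 0) (nat_lit 0) (XT.lf (nat_lit 0) (nat_lit 141266656963) (nat_lit 152) (nat_lit 174491135746) (nat_lit 0) (nat_lit 140068064240) (nat_lit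 1) (nat_lit 5) (nat_lit 3) (nat_lit 4) (nat_lit 1) (nat_lit 4) (nat_lit 469) (nat_lit 291) (nat_lit 260)) (XT.lf (nat_lit 0) (nat_lit 150294487091) (nat_lit 152) (nat_lit 179140730422) (nat_lit 0) (nat_lit 149079762314) (nat_lit 1) (nat_lit 5) (nat_lit 3) (nat_lit 4) (nat_lit 1) (nat_lit 4) (nat_lit 470) (nat_lit 291) (nat_lit 259))) (XT.nd (nat_lit 78) (nat_lit 0) (nat_lit 0) (XT.lf (nat_lit 0) (nat_lit 159744467658) (nat_lit 152) (nat_lit 184081175680) (nat_lit 0) (nat_lit 158514379021) (nat_lit 1) (nat_lit 5) (nat_lit 3) (nat_lit 4) (nat_lit 1) (nat_lit 4) (nat_lit 471) (nat_lit 291) (nat_lit 258)) (XT.lf (nat_lit 0) (nat_lit 169639098618) (nat_lit 152) (nat_lit 189324234486) (nat_lit 0) (nat_lit 168394377732) (nat_lit 1) (nat_lit 5) (nat_lit 3) (nat_lit 4) (nat_lit 1) (nat_lit 4) (nat_lit 472) (nat_lit 291) (nat_lit 257)))))) (XT.nd (nat_lit 468) (nat_lit 0) (nat_lit 0) (XT.nd (nat_lit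 234) (nat_lit 0) (nat_lit 0) (XT.nd (nat_lit 78) (nat_lit 0) (nat_lit 0) (XT.lf (nat_lit 0) (nat_lit 180001938616) (nat_lit 152) (nat_lit 194882390313) (nat_lit 0) (nat_lit 178743282256) (nat_lit 1) (nat_lit 5) (nat_lit 3) (nat_lit 4) (nat_lit 1) (nat_lit 4) (nat_lit 473) (nat_lit 291) (nat_lit 256)) (XT.nd (nat_lit 78) (nat_lit 0) (nat_lit 0) (XT.lf (nat_lit 0) (nat_lit 190857661081) (nat_lit 152) (nat_lit 200768876865) (nat_lit 0) (nat_lit 189585732839) (nat_lit 1) (nat_lit 5) (nat_lit 3) (nat_lit 4) (nat_lit 1) (nat_lit 4) (nat_lit 474) (nat_lit 291) (nat_lit 255)) (XT.lf (nat_lit 0) (nat_lit 202232112970) (nat_lit 152) (nat_lit 206997709588) (nat_lit 0) (nat_lit 200947544842) (nat_lit 1) (nat_lit 5) (nat_lit 3) (nat_lit 4) (nat_lit 1) (nat_lit 4) (nat_lit 475) (nat_lit 291) (nat_lit 254)))) (XT.nd (nat_lit 78) (nat_lit 0) (nat_lit 0) (XT.lf (nat_lit 0) (nat_lit 214152376312) (nat_lit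 152) (nat_lit 213583719034) (nat_lit 0) (nat_lit 212855770197) (nat_lit 1) (nat_lit 5) (nat_lit 3) (nat_lit 4) (nat_lit 1) (nat_lit 4) (nat_lit 476) (nat_lit 291) (nat_lit 253)) (XT.nd (nat_lit 78) (nat_lit 0) (nat_lit 0) (XT.lf (nat_lit 0) (nat_lit 226646832686) (nat_lit 152) (nat_lit 220542586179) (nat_lit 0) (nat_lit 225338761822) (nat_lit 1) (nat_lit 5) (nat_lit 3) (nat_lit 4) (nat_lit 1) (nat_lit 4) (nat_lit 477) (nat_lit 291) (nat_lit 252)) (XT.lf (nat_lit 0) (nat_lit 239745230799) (nat_lit 152) (nat_lit 227890879754) (nat_lit 0) (nat_lit 238426241125) (nat_lit 1) (nat_lit 5) (nat_lit 3) (nat_lit 4) (nat_lit 1) (nat_lit 4) (nat_lit 478) (nat_lit 291) (nat_lit 251))))) (XT.nd (nat_lit 49764) (nat_lit 0) (nat_lit 152) (XT.nd (nat_lit 78) (nat_lit 0) (nat_lit 0) (XT.lf (nat_lit 0) (nat_lit 253478757311) (nat_lit 152) (nat_lit 235646095695) (nat_lit 0) (nat_lit 252149368772) (nat_lit 1)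 (nat_lit 5) (nat_lit 3) (nat_lit 4) (nat_lit 1) (nat_lit 4) (nat_lit 479) (nat_lit 291) (nat_lit 250)) (XT.nd (nat_lit 78) (nat_lit 0) (nat_lit 0) (XT.lf (nat_lit 0) (nat_lit 267880111097) (nat_lit 152) (nat_lit 243826698804) (nat_lit 0) (nat_lit 266540818876) (nat_lit 1) (nat_lit 5) (nat_lit 3) (nat_lit 4) (nat_lit 1) (nat_lit 4) (nat_lit 480) (nat_lit 291) (nat_lit 249)) (XT.lf (nat_lit 0) (nat_lit 282983581092) (nat_lit 152) (nat_lit 252452166706) (nat_lit 0) (nat_lit 281634856794) (nat_lit 1) (nat_lit 5) (nat_lit 3) (nat_lit 4) (nat_lit 1) (nat_lit 4) (nat_lit 481) (nat_lit 291) (nat_lit 248)))) (XT.nd (nat_lit 156) (nat_lit 0) (nat_lit 0) (XT.nd (nat_lit 78) (nat_lit 0) (nat_lit 0) (XT.lf (nat_lit 0) (nat_lit 23779035323) (nat_lit 76) (nat_lit 11531754204) (nat_lit 76) (nat_lit 11531754204) (nat_lit 3) (nat_lit 4) (nat_lit 4) (nat_lit 5) (nat_lit 4) (nat_lit 4) (nat_lit 436) (nat_lit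 292) (nat_lit 292)) (XT.lf (nat_lit 0) (nat_lit 58200180746) (nat_lit 76) (nat_lit 20020989202) (nat_lit 76) (nat_lit 19940277494) (nat_lit 3) (nat_lit 4) (nat_lit 4) (nat_lit 5) (nat_lit 4) (nat_lit 4) (nat_lit 437) (nat_lit 292) (nat_lit 291))) (XT.nd (nat_lit 78) (nat_lit 0) (nat_lit 0) (XT.lf (nat_lit 0) (nat_lit 69114156359) (nat_lit 76) (nat_lit 16955797829) (nat_lit 76) (nat_lit 16798217828) (nat_lit 3) (nat_lit 4) (nat_lit 4) (nat_lit 5) (nat_lit 4) (nat_lit 4) (nat_lit 438) (nat_lit 292) (nat_lit 290)) (XT.lf (nat_lit 0) (nat_lit 80325983141) (nat_lit 76) (nat_lit 13860636215) (nat_lit 76) (nat_lit 13629848317) (nat_lit 3) (nat_lit 4) (nat_lit 4) (nat_lit 5) (nat_lit 4) (nat_lit 4) (nat_lit 439) (nat_lit 292) (nat_lit 289))))))))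
noncomputable def xc10 : XT := (XT.nd (nat_lit 1950) (nat_lit 0) (nat_lit 0) (XT.nd (nat_lit 936) (nat_lit 0) (nat_lit 0) (XT.nd (nat_lit 468) (nat_lit 0) (nat_lit 0) (XT.nd (nat_lit 234) (nat_lit 152) (nat_lit 0) (XT.nd (nat_lit 78) (nat_lit 0) (nat_lit 0) (XT.lf (nat_lit 0) (nat_lit 91862355919) (nat_lit 76) (nat_lit 10728134929) (nat_lit 76) (nat_lit 10427625223) (nat_lit 3) (nat_lit 4) (nat_lit 4) (nat_lit 5) (nat_lit 4) (nat_lit 4) (nat_lit 440) (nat_lit 292) (nat_lit 288)) (XT.nd (nat_lit 78) (nat_lit 0) (nat_lit 0) (XT.lf (nat_lit 0) (nat_lit 103750742246) (nat_lit 76) (nat_lit 7550835633) (nat_lit 76) (nat_lit 7183924206) (nat_lit 3) (nat_lit 4) (nat_lit 4) (nat_lit 5) (nat_lit 4) (nat_lit 4) (nat_lit 441) (nat_lit 292) (nat_lit 287)) (XT.lf (nat_lit 0) (nat_lit 116019447804) (nat_lit 76) (nat_lit 4321173331) (nat_lit 76) (nat_lit 3891022169) (nat_lit 3) (nat_lit 4) (nat_lit 4) (nat_lit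 5) (nat_lit 4) (nat_lit 4) (nat_lit 442) (nat_lit 292) (nat_lit 286)))) (XT.nd (nat_lit 78) (nat_lit 152) (nat_lit 0) (XT.lf (nat_lit 0) (nat_lit 128697683797) (nat_lit 76) (nat_lit 1031458348) (nat_lit 76) (nat_lit 541078868) (nat_lit 3) (nat_lit 4) (nat_lit 4) (nat_lit 5) (nat_lit 4) (nat_lit 4) (nat_lit 443) (nat_lit 292) (nat_lit 285)) (XT.nd (nat_lit 78) (nat_lit 0) (nat_lit 0) (XT.lf (nat_lit 0) (nat_lit 2903463474) (nat_lit 152) (nat_lit 131322021107) (nat_lit 0) (nat_lit 2381806536) (nat_lit 1) (nat_lit 5) (nat_lit 3) (nat_lit 4) (nat_lit 1) (nat_lit 4) (nat_lit 444) (nat_lit 292) (nat_lit 284)) (XT.lf (nat_lit 0) (nat_lit 6447005919) (nat_lit 152) (nat_lit 130943200900) (nat_lit 0) (nat_lit 5873321495) (nat_lit 1) (nat_lit 5) (nat_lit 3) (nat_lit 4) (nat_lit 1) (nat_lit 4) (nat_lit 445) (nat_lit 292) (nat_lit 283))))) (XT.nd (nat_lit 234) (nat_lit 0) (nat_lit 0) (XT.nd (nat_lit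 78) (nat_lit 0) (nat_lit 0) (XT.lf (nat_lit 0) (nat_lit 10073420121) (nat_lit 152) (nat_lit 130733691504) (nat_lit 0) (nat_lit 9450185711) (nat_lit 1) (nat_lit 5) (nat_lit 3) (nat_lit 4) (nat_lit 1) (nat_lit 4) (nat_lit 446) (nat_lit 292) (nat_lit 282)) (XT.nd (nat_lit 78) (nat_lit 0) (nat_lit 0) (XT.lf (nat_lit 0) (nat_lit 13791340400) (nat_lit 152) (nat_lit 130692994089) (nat_lit 0) (nat_lit 13120915526) (nat_lit 1) (nat_lit 5) (nat_lit 3) (nat_lit 4) (nat_lit 1) (nat_lit 4) (nat_lit 447) (nat_lit 292) (nat_lit 281)) (XT.lf (nat_lit 0) (nat_lit 17609618947) (nat_lit 152) (nat_lit 130821011755) (nat_lit 0) (nat_lit 16894250774) (nat_lit 1) (nat_lit 5) (nat_lit 3) (nat_lit 4) (nat_lit 1) (nat_lit 4) (nat_lit 448) (nat_lit 292) (nat_lit 280)))) (XT.nd (nat_lit 78) (nat_lit 0) (nat_lit 0) (XT.lf (nat_lit 0) (nat_lit 21537346901) (nat_lit 152) (nat_lit 131118049307) (nat_lit 0) (nat_lit 20779175587)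 (nat_lit 1) (nat_lit 5) (nat_lit 3) (nat_lit 4) (nat_lit 1) (nat_lit 4) (nat_lit 449) (nat_lit 292) (nat_lit 279)) (XT.nd (nat_lit 78) (nat_lit 0) (nat_lit 0) (XT.lf (nat_lit 0) (nat_lit 25583875996) (nat_lit 152) (nat_lit 131584813976) (nat_lit 0) (nat_lit 24784939785) (nat_lit 1) (nat_lit 5) (nat_lit 3) (nat_lit 4) (nat_lit 1) (nat_lit 4) (nat_lit 450) (nat_lit 292) (nat_lit 278)) (XT.lf (nat_lit 0) (nat_lit 29758840825) (nat_lit 152) (nat_lit 132222417107) (nat_lit 0) (nat_lit 28921080902) (nat_lit 1) (nat_lit 5) (nat_lit 3) (nat_lit 4) (nat_lit 1) (nat_lit 4) (nat_lit 451) (nat_lit 292) (nat_lit 277)))))) (XT.nd (nat_lit 468) (nat_lit 0) (nat_lit 0) (XT.nd (nat_lit 234) (nat_lit 0) (nat_lit 0) (XT.nd (nat_lit 78) (nat_lit 0) (nat_lit 0) (XT.lf (nat_lit 0) (nat_lit 34072181780) (nat_lit 152) (nat_lit 133032376804) (nat_lit 0) (nat_lit 33197446894) (nat_lit 1) (nat_lit 5) (nat_lit 3) (nat_lit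 4) (nat_lit 1) (nat_lit 4) (nat_lit 452) (nat_lit 292) (nat_lit 276)) (XT.nd (nat_lit 78) (nat_lit 0) (nat_lit 0) (XT.lf (nat_lit 0) (nat_lit 38534168720) (nat_lit 152) (nat_lit 134016621540) (nat_lit 0) (nat_lit 37624219584) (nat_lit 1) (nat_lit 5) (nat_lit 3) (nat_lit 4) (nat_lit 1) (nat_lit 4) (nat_lit 453) (nat_lit 292) (nat_lit 275)) (XT.lf (nat_lit 0) (nat_lit 43155425424) (nat_lit 152) (nat_lit 135177494757) (nat_lit 0) (nat_lit 42211938906) (nat_lit 1) (nat_lit 5) (nat_lit 3) (nat_lit 4) (nat_lit 1) (nat_lit 4) (nat_lit 454) (nat_lit 292) (nat_lit 274)))) (XT.nd (nat_lit 78) (nat_lit 0) (nat_lit 0) (XT.lf (nat_lit 0) (nat_lit 47946954885) (nat_lit 152) (nat_lit 136517760438) (nat_lit 0) (nat_lit 46971528004) (nat_lit 1) (nat_lit 5) (nat_lit 3) (nat_lit 4) (nat_lit 1) (nat_lit 4) (nat_lit 455) (nat_lit 292) (nat_lit 273)) (XT.nd (nat_lit 78) (nat_lit 0) (nat_lit 0) (XT.lf (nat_lit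 0) (nat_lit 52920165505) (nat_lit 152) (nat_lit 138040609691) (nat_lit 0) (nat_lit 51914319230) (nat_lit 1) (nat_lit 5) (nat_lit 3) (nat_lit 4) (nat_lit 1) (nat_lit 4) (nat_lit 456) (nat_lit 292) (nat_lit 272)) (XT.lf (nat_lit 0) (nat_lit 58086898262) (nat_lit 152) (nat_lit 139749668349) (nat_lit 0) (nat_lit 57052081136) (nat_lit 1) (nat_lit 5) (nat_lit 3) (nat_lit 4) (nat_lit 1) (nat_lit 4) (nat_lit 457) (nat_lit 292) (nat_lit 271))))) (XT.nd (nat_lit 234) (nat_lit 0) (nat_lit 0) (XT.nd (nat_lit 78) (nat_lit 0) (nat_lit 0) (XT.lf (nat_lit 0) (nat_lit 63459454901) (nat_lit 152) (nat_lit 141649005598) (nat_lit 0) (nat_lit 62397046488) (nat_lit 1) (nat_lit 5) (nat_lit 3) (nat_lit 4) (nat_lit 1) (nat_lit 4) (nat_lit 458) (nat_lit 292) (nat_lit 270)) (XT.nd (nat_lit 78) (nat_lit 0) (nat_lit 0) (XT.lf (nat_lit 0) (nat_lit 69050627224) (nat_lit 152) (nat_lit 143743143671) (nat_lit 0) (nat_lit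 67961941395) (nat_lit 1) (nat_lit 5) (nat_lit 3) (nat_lit 4) (nat_lit 1) (nat_lit 4) (nat_lit 459) (nat_lit 292) (nat_lit 269)) (XT.lf (nat_lit 0) (nat_lit 74873727545) (nat_lit 152) (nat_lit 146037068610) (nat_lit 0) (nat_lit 73760015606) (nat_lit 1) (nat_lit 5) (nat_lit 3) (nat_lit 4) (nat_lit 1) (nat_lit 4) (nat_lit 460) (nat_lit 292) (nat_lit 268)))) (XT.nd (nat_lit 156) (nat_lit 0) (nat_lit 0) (XT.nd (nat_lit 78) (nat_lit 0) (nat_lit 0) (XT.lf (nat_lit 0) (nat_lit 80942620389) (nat_lit 152) (nat_lit 148536242141) (nat_lit 0) (nat_lit 79805074059) (nat_lit 1) (nat_lit 5) (nat_lit 3) (nat_lit 4) (nat_lit 1) (nat_lit 4) (nat_lit 461) (nat_lit 292) (nat_lit 267)) (XT.lf (nat_lit 0) (nat_lit 87271755501) (nat_lit 152) (nat_lit 151246614677) (nat_lit 0) (nat_lit 86111509751) (nat_lit 1) (nat_lit 5) (nat_lit 3) (nat_lit 4) (nat_lit 1) (nat_lit 4) (nat_lit 462) (nat_lit 292) (nat_lit 266)))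 (XT.nd (nat_lit 78) (nat_lit 0) (nat_lit 0) (XT.lf (nat_lit 0) (nat_lit 93876202250) (nat_lit 152) (nat_lit 154174639487) (nat_lit 0) (nat_lit 92694338005) (nat_lit 1) (nat_lit 5) (nat_lit 3) (nat_lit 4) (nat_lit 1) (nat_lit 4) (nat_lit 463) (nat_lit 292) (nat_lit 265)) (XT.lf (nat_lit 0) (nat_lit 100771685510) (nat_lit 152) (nat_lit 157327288058) (nat_lit 0) (nat_lit 99569232222) (nat_lit 1) (nat_lit 5) (nat_lit 3) (nat_lit 4) (nat_lit 1) (nat_lit 4) (nat_lit 464) (nat_lit 292) (nat_lit 264))))))) (XT.nd (nat_lit 1014) (nat_lit 0) (nat_lit 0) (XT.nd (nat_lit 468) (nat_lit 0) (nat_lit 0) (XT.nd (nat_lit 234) (nat_lit 0) (nat_lit 0) (XT.nd (nat_lit 78) (nat_lit 0) (nat_lit 0) (XT.lf (nat_lit 0) (nat_lit 107974623098) (nat_lit 152) (nat_lit 160712066695) (nat_lit 0) (nat_lit 106752561197) (nat_lit 1) (nat_lit 5) (nat_lit 3) (nat_lit 4) (nat_lit 1) (nat_lit 4) (nat_lit 465) (nat_lit 292) (nat_lit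 263)) (XT.nd (nat_lit 78) (nat_lit 0) (nat_lit 0) (XT.lf (nat_lit 0) (nat_lit 115502164865) (nat_lit 152) (nat_lit 164337034397) (nat_lit 0) (nat_lit 114261428095) (nat_lit 1) (nat_lit 5) (nat_lit 3) (nat_lit 4) (nat_lit 1) (nat_lit 4) (nat_lit 466) (nat_lit 292) (nat_lit 262)) (XT.lf (nat_lit 0) (nat_lit 123372233529) (nat_lit 152) (nat_lit 168210822038) (nat_lit 0) (nat_lit 122113711170) (nat_lit 1) (nat_lit 5) (nat_lit 3) (nat_lit 4) (nat_lit 1) (nat_lit 4) (nat_lit 467) (nat_lit 292) (nat_lit 261)))) (XT.nd (nat_lit 78) (nat_lit 0) (nat_lit 0) (XT.lf (nat_lit 0) (nat_lit 131603567350) (nat_lit 152) (nat_lit 172342652922) (nat_lit 0) (nat_lit 130328106334) (nat_lit 1) (nat_lit 5) (nat_lit 3) (nat_lit 4) (nat_lit 1) (nat_lit 4) (nat_lit 468) (nat_lit 292) (nat_lit 260)) (XT.nd (nat_lit 78) (nat_lit 0) (nat_lit 0) (XT.lf (nat_lit 0) (nat_lit 140215764741) (nat_lit 152) (nat_lit 176742364742)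 (nat_lit 0) (nat_lit 138924171671) (nat_lit 1) (nat_lit 5) (nat_lit 3) (nat_lit 4) (nat_lit 1) (nat_lit 4) (nat_lit 469) (nat_lit 292) (nat_lit 259)) (XT.lf (nat_lit 0) (nat_lit 149229330934) (nat_lit 152) (nat_lit 181420433002) (nat_lit 0) (nat_lit 147922374003) (nat_lit 1) (nat_lit 5) (nat_lit 3) (nat_lit 4) (nat_lit 1) (nat_lit 4) (nat_lit 470) (nat_lit 292) (nat_lit 258))))) (XT.nd (nat_lit 234) (nat_lit 0) (nat_lit 0) (XT.nd (nat_lit 78) (nat_lit 0) (nat_lit 0) (XT.lf (nat_lit 0) (nat_lit 158665726801) (nat_lit 152) (nat_lit 186387995960) (nat_lit 0) (nat_lit 157344137622) (nat_lit 1) (nat_lit 5) (nat_lit 3) (nat_lit 4) (nat_lit 1) (nat_lit 4) (nat_lit 471) (nat_lit 292) (nat_lit 257)) (XT.nd (nat_lit 78) (nat_lit 0) (nat_lit 0) (XT.lf (nat_lit 0) (nat_lit 168547419951) (nat_lit 152) (nat_lit 191656881147) (nat_lit 0) (nat_lit 167211895297) (nat_lit 1) (nat_lit 5) (nat_lit 3) (nat_lit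 4) (nat_lit 1) (nat_lit 4) (nat_lit 472) (nat_lit 292) (nat_lit 256)) (XT.lf (nat_lit 0) (nat_lit 178897938225) (nat_lit 152) (nat_lit 197239633528) (nat_lit 0) (nat_lit 177549141691) (nat_lit 1) (nat_lit 5) (nat_lit 3) (nat_lit 4) (nat_lit 1) (nat_lit 4) (nat_lit 473) (nat_lit 292) (nat_lit 255)))) (XT.nd (nat_lit 156) (nat_lit 0) (nat_lit 0) (XT.nd (nat_lit 78) (nat_lit 0) (nat_lit 0) (XT.lf (nat_lit 0) (nat_lit 189741925715) (nat_lit 152) (nat_lit 203149545369) (nat_lit 0) (nat_lit 188380489294) (nat_lit 1) (nat_lit 5) (nat_lit 3) (nat_lit 4) (nat_lit 1) (nat_lit 4) (nat_lit 474) (nat_lit 292) (nat_lit 254)) (XT.lf (nat_lit 0) (nat_lit 201105201437) (nat_lit 152) (nat_lit 209400687890) (nat_lit 0) (nat_lit 199731727030) (nat_lit 1) (nat_lit 5) (nat_lit 3) (nat_lit 4) (nat_lit 1) (nat_lit 4) (nat_lit 475) (nat_lit 292) (nat_lit 253))) (XT.nd (nat_lit 78) (nat_lit 0) (nat_lit 0) (XT.lf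 (nat_lit 0) (nat_lit 213014820811) (nat_lit 152) (nat_lit 216007944764) (nat_lit 0) (nat_lit 211629881654) (nat_lit 1) (nat_lit 5) (nat_lit 3) (nat_lit 4) (nat_lit 1) (nat_lit 4) (nat_lit 476) (nat_lit 292) (nat_lit 252)) (XT.lf (nat_lit 0) (nat_lit 225499140073) (nat_lit 152) (nat_lit 222987047554) (nat_lit 0) (nat_lit 224103282107) (nat_lit 1) (nat_lit 5) (nat_lit 3) (nat_lit 4) (nat_lit 1) (nat_lit 4) (nat_lit 477) (nat_lit 292) (nat_lit 251)))))) (XT.nd (nat_lit 49842) (nat_lit 0) (nat_lit 152) (XT.nd (nat_lit 234) (nat_lit 0) (nat_lit 0) (XT.nd (nat_lit 78) (nat_lit 0) (nat_lit 0) (XT.lf (nat_lit 0) (nat_lit 238587883792) (nat_lit 152) (nat_lit 230354613172) (nat_lit 0) (nat_lit 237181626960) (nat_lit 1) (nat_lit 5) (nat_lit 3) (nat_lit 4) (nat_lit 1) (nat_lit 4) (nat_lit 478) (nat_lit 292) (nat_lit 250)) (XT.nd (nat_lit 78) (nat_lit 0) (nat_lit 0) (XT.lf (nat_lit 0) (nat_lit 252312215645)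 (nat_lit 152) (nat_lit 238128183440) (nat_lit 0) (nat_lit 250896055131) (nat_lit 1) (nat_lit 5) (nat_lit 3) (nat_lit 4) (nat_lit 1) (nat_lit 4) (nat_lit 479) (nat_lit 292) (nat_lit 249)) (XT.lf (nat_lit 0) (nat_lit 266704812612) (nat_lit 152) (nat_lit 246326266860) (nat_lit 0) (nat_lit 265279220020) (nat_lit 1) (nat_lit 5) (nat_lit 3) (nat_lit 4) (nat_lit 1) (nat_lit 4) (nat_lit 480) (nat_lit 292) (nat_lit 248)))) (XT.nd (nat_lit 49452) (nat_lit 0) (nat_lit 152) (XT.lf (nat_lit 0) (nat_lit 281799942780) (nat_lit 152) (nat_lit 254968382678) (nat_lit 0) (nat_lit 280365367257) (nat_lit 1) (nat_lit 5) (nat_lit 3) (nat_lit 4) (nat_lit 1) (nat_lit 4) (nat_lit 481) (nat_lit 292) (nat_lit 247)) (XT.nd (nat_lit 78) (nat_lit 0) (nat_lit 0) (XT.lf (nat_lit 0) (nat_lit 13564319431) (nat_lit 76) (nat_lit 14562298189) (nat_lit 76) (nat_lit 14562298189) (nat_lit 3) (nat_lit 4) (nat_lit 4) (nat_lit 5) (nat_lit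 4) (nat_lit 4) (nat_lit 434) (nat_lit 293) (nat_lit 293)) (XT.lf (nat_lit 0) (nat_lit 37162487702) (nat_lit 76) (nat_lit 26175346837) (nat_lit 76) (nat_lit 26090599545) (nat_lit 3) (nat_lit 4) (nat_lit 4) (nat_lit 5) (nat_lit 4) (nat_lit 4) (nat_lit 435) (nat_lit 293) (nat_lit 292))))) (XT.nd (nat_lit 234) (nat_lit 0) (nat_lit 0) (XT.nd (nat_lit 78) (nat_lit 0) (nat_lit 0) (XT.lf (nat_lit 0) (nat_lit 47424776992) (nat_lit 76) (nat_lit 23214561304) (nat_lit 76) (nat_lit 23049102304) (nat_lit 3) (nat_lit 4) (nat_lit 4) (nat_lit 5) (nat_lit 4) (nat_lit 4) (nat_lit 436) (nat_lit 293) (nat_lit 291)) (XT.nd (nat_lit 78) (nat_lit 0) (nat_lit 0) (XT.lf (nat_lit 0) (nat_lit 57939940754) (nat_lit 76) (nat_lit 20235190289) (nat_lit 76) (nat_lit 19992862996) (nat_lit 3) (nat_lit 4) (nat_lit 4) (nat_lit 5) (nat_lit 4) (nat_lit 4) (nat_lit 437) (nat_lit 293) (nat_lit 290)) (XT.lf (nat_lit 0) (nat_lit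 68733015093) (nat_lit 76) (nat_lit 17230140052) (nat_lit 76) (nat_lit 16914604861) (nat_lit 3) (nat_lit 4) (nat_lit 4) (nat_lit 5) (nat_lit 4) (nat_lit 4) (nat_lit 438) (nat_lit 293) (nat_lit 289)))) (XT.nd (nat_lit 156) (nat_lit 0) (nat_lit 0) (XT.nd (nat_lit 78) (nat_lit 0) (nat_lit 0) (XT.lf (nat_lit 0) (nat_lit 79829697805) (nat_lit 76) (nat_lit 14192255711) (nat_lit 76) (nat_lit 13806998712) (nat_lit 3) (nat_lit 4) (nat_lit 4) (nat_lit 5) (nat_lit 4) (nat_lit 4) (nat_lit 439) (nat_lit 293) (nat_lit 288)) (XT.lf (nat_lit 0) (nat_lit 91256409564) (nat_lit 76) (nat_lit 11114304207) (nat_lit 76) (nat_lit 10662645488) (nat_lit 3) (nat_lit 4) (nat_lit 4) (nat_lit 5) (nat_lit 4) (nat_lit 4) (nat_lit 440) (nat_lit 293) (nat_lit 287))) (XT.nd (nat_lit 78) (nat_lit 0) (nat_lit 0) (XT.lf (nat_lit 0) (nat_lit 103040356825) (nat_lit 76) (nat_lit 7988957086) (nat_lit 76) (nat_lit 7474058632) (nat_lit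 3) (nat_lit 4) (nat_lit 4) (nat_lit 5) (nat_lit 4) (nat_lit 4) (nat_lit 441) (nat_lit 293) (nat_lit 286)) (XT.lf (nat_lit 0) (nat_lit 115209596606) (nat_lit 76) (nat_lit 4808773045) (nat_lit 76) (nat_lit 4233646271) (nat_lit 3) (nat_lit 4) (nat_lit 4) (nat_lit 5) (nat_lit 4) (nat_lit 4) (nat_lit 442) (nat_lit 293) (nat_lit 285))))))))
noncomputable def xc11 : XT := (XT.nd (nat_lit 1950) (nat_lit 0) (nat_lit 0) (XT.nd (nat_lit 936) (nat_lit 0) (nat_lit 0) (XT.nd (nat_lit 468) (nat_lit 0) (nat_lit 0) (XT.nd (nat_lit 234) (nat_lit 0) (nat_lit 0) (XT.nd (nat_lit 78) (nat_lit 152) (nat_lit 0) (XT.lf (nat_lit 0) (nat_lit 127793103287) (nat_lit 76) (nat_lit 1566180216) (nat_lit 76) (nat_lit 933693139) (nat_lit 3) (nat_lit 4) (nat_lit 4) (nat_lit 5) (nat_lit 4) (nat_lit 4) (nat_lit 443) (nat_lit 293) (nat_lit 284)) (XT.nd (nat_lit 78) (nat_lit 0) (nat_lit 0) (XT.lf (nat_lit 0) (nat_lit 2451561825)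 (nat_lit 152) (nat_lit 132385220799) (nat_lit 0) (nat_lit 1797165694) (nat_lit 1) (nat_lit 5) (nat_lit 3) (nat_lit 4) (nat_lit 1) (nat_lit 4) (nat_lit 444) (nat_lit 293) (nat_lit 283)) (XT.lf (nat_lit 0) (nat_lit 5949101652) (nat_lit 152) (nat_lit 132098230749) (nat_lit 0) (nat_lit 5245155535) (nat_lit 1) (nat_lit 5) (nat_lit 3) (nat_lit 4) (nat_lit 1) (nat_lit 4) (nat_lit 445) (nat_lit 293) (nat_lit 282)))) (XT.nd (nat_lit 78) (nat_lit 0) (nat_lit 0) (XT.lf (nat_lit 0) (nat_lit 9531703838) (nat_lit 152) (nat_lit 131976178646) (nat_lit 0) (nat_lit 8780567257) (nat_lit 1) (nat_lit 5) (nat_lit 3) (nat_lit 4) (nat_lit 1) (nat_lit 4) (nat_lit 446) (nat_lit 293) (nat_lit 281)) (XT.nd (nat_lit 78) (nat_lit 0) (nat_lit 0) (XT.lf (nat_lit 0) (nat_lit 13207898388) (nat_lit 152) (nat_lit 132018773890) (nat_lit 0) (nat_lit 12411818508) (nat_lit 1) (nat_lit 5) (nat_lit 3) (nat_lit 4) (nat_lit 1) (nat_lit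 4) (nat_lit 447) (nat_lit 293) (nat_lit 280)) (XT.lf (nat_lit 0) (nat_lit 16986438145) (nat_lit 152) (nat_lit 132226117899) (nat_lit 0) (nat_lit 16147555123) (nat_lit 1) (nat_lit 5) (nat_lit 3) (nat_lit 4) (nat_lit 1) (nat_lit 4) (nat_lit 448) (nat_lit 293) (nat_lit 279))))) (XT.nd (nat_lit 234) (nat_lit 0) (nat_lit 0) (XT.nd (nat_lit 78) (nat_lit 0) (nat_lit 0) (XT.lf (nat_lit 0) (nat_lit 20876319632) (nat_lit 152) (nat_lit 132598704348) (nat_lit 0) (nat_lit 19996671713) (nat_lit 1) (nat_lit 5) (nat_lit 3) (nat_lit 4) (nat_lit 1) (nat_lit 4) (nat_lit 449) (nat_lit 293) (nat_lit 278)) (XT.nd (nat_lit 78) (nat_lit 0) (nat_lit 0) (XT.lf (nat_lit 0) (nat_lit 24886804473) (nat_lit 152) (nat_lit 133137420349) (nat_lit 0) (nat_lit 23968332843) (nat_lit 1) (nat_lit 5) (nat_lit 3) (nat_lit 4) (nat_lit 1) (nat_lit 4) (nat_lit 450) (nat_lit 293) (nat_lit 277)) (XT.lf (nat_lit 0) (nat_lit 29027441440)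 (nat_lit 152) (nat_lit 133843548557) (nat_lit 0) (nat_lit 28071994847) (nat_lit 1) (nat_lit 5) (nat_lit 3) (nat_lit 4) (nat_lit 1) (nat_lit 4) (nat_lit 451) (nat_lit 293) (nat_lit 276)))) (XT.nd (nat_lit 78) (nat_lit 0) (nat_lit 0) (XT.lf (nat_lit 0) (nat_lit 33308089194) (nat_lit 152) (nat_lit 134718770232) (nat_lit 0) (nat_lit 32317428350) (nat_lit 1) (nat_lit 5) (nat_lit 3) (nat_lit 4) (nat_lit 1) (nat_lit 4) (nat_lit 452) (nat_lit 293) (nat_lit 275)) (XT.nd (nat_lit 78) (nat_lit 0) (nat_lit 0) (XT.lf (nat_lit 0) (nat_lit 37738939752) (nat_lit 152) (nat_lit 135765169233) (nat_lit 0) (nat_lit 36714741527) (nat_lit 1) (nat_lit 5) (nat_lit 3) (nat_lit 4) (nat_lit 1) (nat_lit 4) (nat_lit 453) (nat_lit 293) (nat_lit 274)) (XT.lf (nat_lit 0) (nat_lit 42330542760) (nat_lit 152) (nat_lit 136985236988) (nat_lit 0) (nat_lit 41274404171) (nat_lit 1) (nat_lit 5) (nat_lit 3) (nat_lit 4) (nat_lit 1)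 (nat_lit 4) (nat_lit 454) (nat_lit 293) (nat_lit 273)))))) (XT.nd (nat_lit 468) (nat_lit 0) (nat_lit 0) (XT.nd (nat_lit 234) (nat_lit 0) (nat_lit 0) (XT.nd (nat_lit 78) (nat_lit 0) (nat_lit 0) (XT.lf (nat_lit 0) (nat_lit 47093830604) (nat_lit 152) (nat_lit 138381878420) (nat_lit 0) (nat_lit 46007272621) (nat_lit 1) (nat_lit 5) (nat_lit 3) (nat_lit 4) (nat_lit 1) (nat_lit 4) (nat_lit 455) (nat_lit 293) (nat_lit 272)) (XT.nd (nat_lit 78) (nat_lit 0) (nat_lit 0) (XT.lf (nat_lit 0) (nat_lit 52040144446) (nat_lit 152) (nat_lit 139958418864) (nat_lit 0) (nat_lit 50924615613) (nat_lit 1) (nat_lit 5) (nat_lit 3) (nat_lit 4) (nat_lit 1) (nat_lit 4) (nat_lit 456) (nat_lit 293) (nat_lit 271)) (XT.lf (nat_lit 0) (nat_lit 57181261225) (nat_lit 152) (nat_lit 141718611990) (nat_lit 0) (nat_lit 56038141105) (nat_lit 1) (nat_lit 5) (nat_lit 3) (nat_lit 4) (nat_lit 1) (nat_lit 4) (nat_lit 457) (nat_lit 293)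 (nat_lit 270)))) (XT.nd (nat_lit 78) (nat_lit 0) (nat_lit 0) (XT.lf (nat_lit 0) (nat_lit 62529421694) (nat_lit 152) (nat_lit 143666648732) (nat_lit 0) (nat_lit 61360024158) (nat_lit 1) (nat_lit 5) (nat_lit 3) (nat_lit 4) (nat_lit 1) (nat_lit 4) (nat_lit 458) (nat_lit 293) (nat_lit 269)) (XT.nd (nat_lit 78) (nat_lit 0) (nat_lit 0) (XT.lf (nat_lit 0) (nat_lit 68097359569) (nat_lit 152) (nat_lit 145807167274) (nat_lit 0) (nat_lit 66902935922) (nat_lit 1) (nat_lit 5) (nat_lit 3) (nat_lit 4) (nat_lit 1) (nat_lit 4) (nat_lit 459) (nat_lit 293) (nat_lit 268)) (XT.lf (nat_lit 0) (nat_lit 73898331845) (nat_lit 152) (nat_lit 148145264089) (nat_lit 0) (nat_lit 72680073807) (nat_lit 1) (nat_lit 5) (nat_lit 3) (nat_lit 4) (nat_lit 1) (nat_lit 4) (nat_lit 460) (nat_lit 293) (nat_lit 267))))) (XT.nd (nat_lit 234) (nat_lit 0) (nat_lit 0) (XT.nd (nat_lit 78) (nat_lit 0) (nat_lit 0) (XT.lf (nat_lit 0) (nat_lit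 79946150360) (nat_lit 152) (nat_lit 150686506073) (nat_lit 0) (nat_lit 78705192903) (nat_lit 1) (nat_lit 5) (nat_lit 3) (nat_lit 4) (nat_lit 1) (nat_lit 4) (nat_lit 461) (nat_lit 293) (nat_lit 266)) (XT.nd (nat_lit 78) (nat_lit 0) (nat_lit 0) (XT.lf (nat_lit 0) (nat_lit 86255214683) (nat_lit 152) (nat_lit 153436943803) (nat_lit 0) (nat_lit 84992638730) (nat_lit 1) (nat_lit 5) (nat_lit 3) (nat_lit 4) (nat_lit 1) (nat_lit 4) (nat_lit 462) (nat_lit 293) (nat_lit 265)) (XT.lf (nat_lit 0) (nat_lit 92840546394) (nat_lit 152) (nat_lit 156403125939) (nat_lit 0) (nat_lit 91557381399) (nat_lit 1) (nat_lit 5) (nat_lit 3) (nat_lit 4) (nat_lit 1) (nat_lit 4) (nat_lit 463) (nat_lit 293) (nat_lit 264)))) (XT.nd (nat_lit 156) (nat_lit 0) (nat_lit 0) (XT.nd (nat_lit 78) (nat_lit 0) (nat_lit 0) (XT.lf (nat_lit 0) (nat_lit 99717824857) (nat_lit 152) (nat_lit 159592114821) (nat_lit 0) (nat_lit 98415051249)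 (nat_lit 1) (nat_lit 5) (nat_lit 3) (nat_lit 4) (nat_lit 1) (nat_lit 4) (nat_lit 464) (nat_lit 293) (nat_lit 263)) (XT.lf (nat_lit 0) (nat_lit 106903424542) (nat_lit 152) (nat_lit 163011503280) (nat_lit 0) (nat_lit 105581976065) (nat_lit 1) (nat_lit 5) (nat_lit 3) (nat_lit 4) (nat_lit 1) (nat_lit 4) (nat_lit 465) (nat_lit 293) (nat_lit 262))) (XT.nd (nat_lit 78) (nat_lit 0) (nat_lit 0) (XT.lf (nat_lit 0) (nat_lit 114414454020) (nat_lit 152) (nat_lit 166669432715) (nat_lit 0) (nat_lit 113075219954) (nat_lit 1) (nat_lit 5) (nat_lit 3) (nat_lit 4) (nat_lit 1) (nat_lit 4) (nat_lit 466) (nat_lit 293) (nat_lit 261)) (XT.lf (nat_lit 0) (nat_lit 122268796696) (nat_lit 152) (nat_lit 170574612483) (nat_lit 0) (nat_lit 120912623973) (nat_lit 1) (nat_lit 5) (nat_lit 3) (nat_lit 4) (nat_lit 1) (nat_lit 4) (nat_lit 467) (nat_lit 293) (nat_lit 260))))))) (XT.nd (nat_lit 1014) (nat_lit 0) (nat_lit 0) (XT.nd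 (nat_lit 468) (nat_lit 0) (nat_lit 0) (XT.nd (nat_lit 234) (nat_lit 0) (nat_lit 0) (XT.nd (nat_lit 78) (nat_lit 0) (nat_lit 0) (XT.lf (nat_lit 0) (nat_lit 130485153384) (nat_lit 152) (nat_lit 174736340632) (nat_lit 0) (nat_lit 129112848608) (nat_lit 1) (nat_lit 5) (nat_lit 3) (nat_lit 4) (nat_lit 1) (nat_lit 4) (nat_lit 468) (nat_lit 293) (nat_lit 259)) (XT.nd (nat_lit 78) (nat_lit 0) (nat_lit 0) (XT.lf (nat_lit 0) (nat_lit 139083086840) (nat_lit 152) (nat_lit 179164526037) (nat_lit 0) (nat_lit 137695418202) (nat_lit 1) (nat_lit 5) (nat_lit 3) (nat_lit 4) (nat_lit 1) (nat_lit 4) (nat_lit 469) (nat_lit 293) (nat_lit 258)) (XT.lf (nat_lit 0) (nat_lit 148083068333) (nat_lit 152) (nat_lit 183869711997) (nat_lit 0) (nat_lit 146680767447) (nat_lit 1) (nat_lit 5) (nat_lit 3) (nat_lit 4) (nat_lit 1) (nat_lit 4) (nat_lit 470) (nat_lit 293) (nat_lit 257)))) (XT.nd (nat_lit 78) (nat_lit 0) (nat_lit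 0) (XT.lf (nat_lit 0) (nat_lit 157506526390) (nat_lit 152) (nat_lit 188863101336) (nat_lit 0) (nat_lit 156090290029) (nat_lit 1) (nat_lit 5) (nat_lit 3) (nat_lit 4) (nat_lit 1) (nat_lit 4) (nat_lit 471) (nat_lit 293) (nat_lit 256)) (XT.nd (nat_lit 78) (nat_lit 0) (nat_lit 0) (XT.lf (nat_lit 0) (nat_lit 167375897817) (nat_lit 152) (nat_lit 194156583076) (nat_lit 0) (nat_lit 165946389575) (nat_lit 1) (nat_lit 5) (nat_lit 3) (nat_lit 4) (nat_lit 1) (nat_lit 4) (nat_lit 472) (nat_lit 293) (nat_lit 255)) (XT.lf (nat_lit 0) (nat_lit 177714681116) (nat_lit 152) (nat_lit 199762760745) (nat_lit 0) (nat_lit 176272532988) (nat_lit 1) (nat_lit 5) (nat_lit 3) (nat_lit 4) (nat_lit 1) (nat_lit 4) (nat_lit 473) (nat_lit 293) (nat_lit 254))))) (XT.nd (nat_lit 234) (nat_lit 0) (nat_lit 0) (XT.nd (nat_lit 78) (nat_lit 0) (nat_lit 0) (XT.lf (nat_lit 0) (nat_lit 188547492439) (nat_lit 152) (nat_lit 205694982386)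 (nat_lit 0) (nat_lit 187093306324) (nat_lit 1) (nat_lit 5) (nat_lit 3) (nat_lit 4) (nat_lit 1) (nat_lit 4) (nat_lit 474) (nat_lit 293) (nat_lit 253)) (XT.nd (nat_lit 78) (nat_lit 0) (nat_lit 0) (XT.lf (nat_lit 0) (nat_lit 199900124193) (nat_lit 152) (nat_lit 211967372334) (nat_lit 0) (nat_lit 198434473329) (nat_lit 1) (nat_lit 5) (nat_lit 3) (nat_lit 4) (nat_lit 1) (nat_lit 4) (nat_lit 475) (nat_lit 293) (nat_lit 252)) (XT.lf (nat_lit 0) (nat_lit 211799606455) (nat_lit 152) (nat_lit 218594864853) (nat_lit 0) (nat_lit 210323036781) (nat_lit 1) (nat_lit 5) (nat_lit 3) (nat_lit 4) (nat_lit 1) (nat_lit 4) (nat_lit 476) (nat_lit 293) (nat_lit 251)))) (XT.nd (nat_lit 156) (nat_lit 0) (nat_lit 0) (XT.nd (nat_lit 78) (nat_lit 0) (nat_lit 0) (XT.lf (nat_lit 0) (nat_lit 224274271324) (nat_lit 152) (nat_lit 225593239686) (nat_lit 0) (nat_lit 222787302784) (nat_lit 1) (nat_lit 5) (nat_lit 3) (nat_lit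 4) (nat_lit 1) (nat_lit 4) (nat_lit 477) (nat_lit 293) (nat_lit 250)) (XT.lf (nat_lit 0) (nat_lit 237353820383) (nat_lit 152) (nat_lit 232979159631) (nat_lit 0) (nat_lit 235856948162) (nat_lit 1) (nat_lit 5) (nat_lit 3) (nat_lit 4) (nat_lit 1) (nat_lit 4) (nat_lit 478) (nat_lit 293) (nat_lit 249))) (XT.nd (nat_lit 78) (nat_lit 0) (nat_lit 0) (XT.lf (nat_lit 0) (nat_lit 251069395417) (nat_lit 152) (nat_lit 240770210211) (nat_lit 0) (nat_lit 249563091118) (nat_lit 1) (nat_lit 5) (nat_lit 3) (nat_lit 4) (nat_lit 1) (nat_lit 4) (nat_lit 479) (nat_lit 293) (nat_lit 248)) (XT.lf (nat_lit 0) (nat_lit 265453652556) (nat_lit 152) (nat_lit 248984941546) (nat_lit 0) (nat_lit 263938365325) (nat_lit 1) (nat_lit 5) (nat_lit 3) (nat_lit 4) (nat_lit 1) (nat_lit 4) (nat_lit 480) (nat_lit 293) (nat_lit 247)))))) (XT.nd (nat_lit 49686) (nat_lit 0) (nat_lit 152) (XT.nd (nat_lit 49452) (nat_lit 0) (nat_lit 152)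 (XT.nd (nat_lit 49296) (nat_lit 0) (nat_lit 152) (XT.lf (nat_lit 0) (nat_lit 280540840031) (nat_lit 152) (nat_lit 257642912521) (nat_lit 0) (nat_lit 279016997628) (nat_lit 1) (nat_lit 5) (nat_lit 3) (nat_lit 4) (nat_lit 1) (nat_lit 4) (nat_lit 481) (nat_lit 293) (nat_lit 246)) (XT.nd (nat_lit 78) (nat_lit 0) (nat_lit 0) (XT.lf (nat_lit 0) (nat_lit 3899072675) (nat_lit 76) (nat_lit 17516223778) (nat_lit 76) (nat_lit 17516223778) (nat_lit 3) (nat_lit 4) (nat_lit 4) (nat_lit 5) (nat_lit 4) (nat_lit 4) (nat_lit 432) (nat_lit 294) (nat_lit 294)) (XT.lf (nat_lit 0) (nat_lit 17299340358) (nat_lit 76) (nat_lit 32158316606) (nat_lit 76) (nat_lit 32069331949) (nat_lit 3) (nat_lit 4) (nat_lit 4) (nat_lit 5) (nat_lit 4) (nat_lit 4) (nat_lit 433) (nat_lit 294) (nat_lit 293)))) (XT.nd (nat_lit 78) (nat_lit 0) (nat_lit 0) (XT.lf (nat_lit 0) (nat_lit 26988680526) (nat_lit 76) (nat_lit 29283201918) (nat_lit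 76) (nat_lit 29109469967) (nat_lit 3) (nat_lit 4) (nat_lit 4) (nat_lit 5) (nat_lit 4) (nat_lit 4) (nat_lit 434) (nat_lit 294) (nat_lit 292)) (XT.nd (nat_lit 78) (nat_lit 0) (nat_lit 0) (XT.lf (nat_lit 0) (nat_lit 36889235711) (nat_lit 76) (nat_lit 26400257979) (nat_lit 76) (nat_lit 26145814322) (nat_lit 3) (nat_lit 4) (nat_lit 4) (nat_lit 5) (nat_lit 4) (nat_lit 4) (nat_lit 435) (nat_lit 294) (nat_lit 291)) (XT.lf (nat_lit 0) (nat_lit 47024578663) (nat_lit 76) (nat_lit 23502620639) (nat_lit 76) (nat_lit 23171308688) (nat_lit 3) (nat_lit 4) (nat_lit 4) (nat_lit 5) (nat_lit 4) (nat_lit 4) (nat_lit 436) (nat_lit 294) (nat_lit 290))))) (XT.nd (nat_lit 234) (nat_lit 0) (nat_lit 0) (XT.nd (nat_lit 78) (nat_lit 0) (nat_lit 0) (XT.lf (nat_lit 0) (nat_lit 57418841151) (nat_lit 76) (nat_lit 20583390760) (nat_lit 76) (nat_lit 20178870911) (nat_lit 3) (nat_lit 4) (nat_lit 4) (nat_lit 5) (nat_lit 4)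 (nat_lit 4) (nat_lit 437) (nat_lit 294) (nat_lit 289)) (XT.nd (nat_lit 78) (nat_lit 0) (nat_lit 0) (XT.lf (nat_lit 0) (nat_lit 68096771420) (nat_lit 76) (nat_lit 17635617794) (nat_lit 76) (nat_lit 17161376138) (nat_lit 3) (nat_lit 4) (nat_lit 4) (nat_lit 5) (nat_lit 4) (nat_lit 4) (nat_lit 438) (nat_lit 294) (nat_lit 288)) (XT.lf (nat_lit 0) (nat_lit 79083793113) (nat_lit 76) (nat_lit 14652283236) (nat_lit 76) (nat_lit 14111639859) (nat_lit 3) (nat_lit 4) (nat_lit 4) (nat_lit 5) (nat_lit 4) (nat_lit 4) (nat_lit 439) (nat_lit 294) (nat_lit 287)))) (XT.nd (nat_lit 156) (nat_lit 0) (nat_lit 0) (XT.nd (nat_lit 78) (nat_lit 0) (nat_lit 0) (XT.lf (nat_lit 0) (nat_lit 90406065806) (nat_lit 76) (nat_lit 11626283907) (nat_lit 76) (nat_lit 11022400795) (nat_lit 3) (nat_lit 4) (nat_lit 4) (nat_lit 5) (nat_lit 4) (nat_lit 4) (nat_lit 440) (nat_lit 294) (nat_lit 286)) (XT.lf (nat_lit 0) (nat_lit 102090547290)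 (nat_lit 76) (nat_lit 8550415047) (nat_lit 76) (nat_lit 7886303616) (nat_lit 3) (nat_lit 4) (nat_lit 4) (nat_lit 5) (nat_lit 4) (nat_lit 4) (nat_lit 441) (nat_lit 294) (nat_lit 285))) (XT.nd (nat_lit 78) (nat_lit 0) (nat_lit 0) (XT.lf (nat_lit 0) (nat_lit 114165057759) (nat_lit 76) (nat_lit 5417353159) (nat_lit 76) (nat_lit 4695881425) (nat_lit 3) (nat_lit 4) (nat_lit 4) (nat_lit 5) (nat_lit 4) (nat_lit 4) (nat_lit 442) (nat_lit 294) (nat_lit 284)) (XT.lf (nat_lit 0) (nat_lit 126658346048) (nat_lit 76) (nat_lit 2219638571) (nat_lit 76) (nat_lit 1443537977) (nat_lit 3) (nat_lit 4) (nat_lit 4) (nat_lit 5) (nat_lit 4) (nat_lit 4) (nat_lit 443) (nat_lit 294) (nat_lit 283))))))))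
noncomputable def xc12 : XT := (XT.nd (nat_lit 1950) (nat_lit 0) (nat_lit 0) (XT.nd (nat_lit 936) (nat_lit 0) (nat_lit 0) (XT.nd (nat_lit 468) (nat_lit 0) (nat_lit 0) (XT.nd (nat_lit 234) (nat_lit 0) (nat_lit 0) (XT.nd (nat_lit 78) (nat_lit 0) (nat_lit 0) (XT.lf (nat_lit 0) (nat_lit 1882759728) (nat_lit 152) (nat_lit 133689832298) (nat_lit 0) (nat_lit 1094066317) (nat_lit 1) (nat_lit 5) (nat_lit 3) (nat_lit 4) (nat_lit 1) (nat_lit 4) (nat_lit 444) (nat_lit 294) (nat_lit 282)) (XT.nd (nat_lit 78) (nat_lit 0) (nat_lit 0) (XT.lf (nat_lit 0) (nat_lit 5336487540) (nat_lit 152) (nat_lit 133490299540) (nat_lit 0) (nat_lit 4500603665) (nat_lit 1) (nat_lit 5) (nat_lit 3) (nat_lit 4) (nat_lit 1) (nat_lit 4) (nat_lit 445) (nat_lit 294) (nat_lit 281)) (XT.lf (nat_lit 0) (nat_lit 8877363996) (nat_lit 152) (nat_lit 133451540097) (nat_lit 0) (nat_lit 7996536823) (nat_lit 1) (nat_lit 5) (nat_lit 3) (nat_lit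 4) (nat_lit 1) (nat_lit 4) (nat_lit 446) (nat_lit 294) (nat_lit 280)))) (XT.nd (nat_lit 78) (nat_lit 0) (nat_lit 0) (XT.lf (nat_lit 0) (nat_lit 12513819755) (nat_lit 152) (nat_lit 133573461684) (nat_lit 0) (nat_lit 11590189440) (nat_lit 1) (nat_lit 5) (nat_lit 3) (nat_lit 4) (nat_lit 1) (nat_lit 4) (nat_lit 447) (nat_lit 294) (nat_lit 279)) (XT.nd (nat_lit 78) (nat_lit 0) (nat_lit 0) (XT.lf (nat_lit 0) (nat_lit 16254513045) (nat_lit 152) (nat_lit 133856354590) (nat_lit 0) (nat_lit 15290117833) (nat_lit 1) (nat_lit 5) (nat_lit 3) (nat_lit 4) (nat_lit 1) (nat_lit 4) (nat_lit 448) (nat_lit 294) (nat_lit 278)) (XT.lf (nat_lit 0) (nat_lit 20108350278) (nat_lit 152) (nat_lit 134300892370) (nat_lit 0) (nat_lit 19105131355) (nat_lit 1) (nat_lit 5) (nat_lit 3) (nat_lit 4) (nat_lit 1) (nat_lit 4) (nat_lit 449) (nat_lit 294) (nat_lit 277))))) (XT.nd (nat_lit 234) (nat_lit 0) (nat_lit 0) (XT.nd (nat_lit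 78) (nat_lit 0) (nat_lit 0) (XT.lf (nat_lit 0) (nat_lit 24084507258) (nat_lit 152) (nat_lit 134908133448) (nat_lit 0) (nat_lit 23044313372) (nat_lit 1) (nat_lit 5) (nat_lit 3) (nat_lit 4) (nat_lit 1) (nat_lit 4) (nat_lit 450) (nat_lit 294) (nat_lit 276)) (XT.nd (nat_lit 78) (nat_lit 0) (nat_lit 0) (XT.lf (nat_lit 0) (nat_lit 28192451024) (nat_lit 152) (nat_lit 135679523635) (nat_lit 0) (nat_lit 27117042888) (nat_lit 1) (nat_lit 5) (nat_lit 3) (nat_lit 4) (nat_lit 1) (nat_lit 4) (nat_lit 451) (nat_lit 294) (nat_lit 275)) (XT.lf (nat_lit 0) (nat_lit 32441962396) (nat_lit 152) (nat_lit 136616899575) (nat_lit 0) (nat_lit 31333016878) (nat_lit 1) (nat_lit 5) (nat_lit 3) (nat_lit 4) (nat_lit 1) (nat_lit 4) (nat_lit 452) (nat_lit 294) (nat_lit 274)))) (XT.nd (nat_lit 78) (nat_lit 0) (nat_lit 0) (XT.lf (nat_lit 0) (nat_lit 36843159257) (nat_lit 152) (nat_lit 137722493114) (nat_lit 0) (nat_lit 35702273376)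 (nat_lit 1) (nat_lit 5) (nat_lit 3) (nat_lit 4) (nat_lit 1) (nat_lit 4) (nat_lit 453) (nat_lit 294) (nat_lit 273)) (XT.nd (nat_lit 78) (nat_lit 0) (nat_lit 0) (XT.lf (nat_lit 0) (nat_lit 41406520648) (nat_lit 152) (nat_lit 138998936620) (nat_lit 0) (nat_lit 40235215373) (nat_lit 1) (nat_lit 5) (nat_lit 3) (nat_lit 4) (nat_lit 1) (nat_lit 4) (nat_lit 454) (nat_lit 294) (nat_lit 272)) (XT.lf (nat_lit 0) (nat_lit 46142911715) (nat_lit 152) (nat_lit 140449269242) (nat_lit 0) (nat_lit 44942635589) (nat_lit 1) (nat_lit 5) (nat_lit 3) (nat_lit 4) (nat_lit 1) (nat_lit 4) (nat_lit 455) (nat_lit 294) (nat_lit 271)))))) (XT.nd (nat_lit 468) (nat_lit 0) (nat_lit 0) (XT.nd (nat_lit 234) (nat_lit 0) (nat_lit 0) (XT.nd (nat_lit 78) (nat_lit 0) (nat_lit 0) (XT.lf (nat_lit 0) (nat_lit 51063609579) (nat_lit 152) (nat_lit 142076944154) (nat_lit 0) (nat_lit 49835742166) (nat_lit 1) (nat_lit 5) (nat_lit 3) (nat_lit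 4) (nat_lit 1) (nat_lit 4) (nat_lit 456) (nat_lit 294) (nat_lit 270)) (XT.nd (nat_lit 78) (nat_lit 0) (nat_lit 0) (XT.lf (nat_lit 0) (nat_lit 56180330187) (nat_lit 152) (nat_lit 143885836773) (nat_lit 0) (nat_lit 54926185359) (nat_lit 1) (nat_lit 5) (nat_lit 3) (nat_lit 4) (nat_lit 1) (nat_lit 4) (nat_lit 457) (nat_lit 294) (nat_lit 269)) (XT.lf (nat_lit 0) (nat_lit 61505256209) (nat_lit 152) (nat_lit 145880253985) (nat_lit 0) (nat_lit 60226085270) (nat_lit 1) (nat_lit 5) (nat_lit 3) (nat_lit 4) (nat_lit 1) (nat_lit 4) (nat_lit 458) (nat_lit 294) (nat_lit 268)))) (XT.nd (nat_lit 78) (nat_lit 0) (nat_lit 0) (XT.lf (nat_lit 0) (nat_lit 67051066039) (nat_lit 152) (nat_lit 148064944403) (nat_lit 0) (nat_lit 65748060708) (nat_lit 1) (nat_lit 5) (nat_lit 3) (nat_lit 4) (nat_lit 1) (nat_lit 4) (nat_lit 459) (nat_lit 294) (nat_lit 267)) (XT.nd (nat_lit 78) (nat_lit 0) (nat_lit 0) (XT.lf (nat_lit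 0) (nat_lit 72830963985) (nat_lit 152) (nat_lit 150445109670) (nat_lit 0) (nat_lit 71505259235) (nat_lit 1) (nat_lit 5) (nat_lit 3) (nat_lit 4) (nat_lit 1) (nat_lit 4) (nat_lit 460) (nat_lit 294) (nat_lit 266)) (XT.lf (nat_lit 0) (nat_lit 78858711711) (nat_lit 152) (nat_lit 153026416848) (nat_lit 0) (nat_lit 77511388466) (nat_lit 1) (nat_lit 5) (nat_lit 3) (nat_lit 4) (nat_lit 1) (nat_lit 4) (nat_lit 461) (nat_lit 294) (nat_lit 265))))) (XT.nd (nat_lit 234) (nat_lit 0) (nat_lit 0) (XT.nd (nat_lit 78) (nat_lit 0) (nat_lit 0) (XT.lf (nat_lit 0) (nat_lit 85148660996) (nat_lit 152) (nat_lit 155815011905) (nat_lit 0) (nat_lit 83780748708) (nat_lit 1) (nat_lit 5) (nat_lit 3) (nat_lit 4) (nat_lit 1) (nat_lit 4) (nat_lit 462) (nat_lit 294) (nat_lit 264)) (XT.nd (nat_lit 78) (nat_lit 0) (nat_lit 0) (XT.lf (nat_lit 0) (nat_lit 91715787910) (nat_lit 152) (nat_lit 158817534353) (nat_lit 0) (nat_lit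 90328267010) (nat_lit 1) (nat_lit 5) (nat_lit 3) (nat_lit 4) (nat_lit 1) (nat_lit 4) (nat_lit 463) (nat_lit 294) (nat_lit 263)) (XT.lf (nat_lit 0) (nat_lit 98575728470) (nat_lit 152) (nat_lit 162041133056) (nat_lit 0) (nat_lit 97169532700) (nat_lit 1) (nat_lit 5) (nat_lit 3) (nat_lit 4) (nat_lit 1) (nat_lit 4) (nat_lit 464) (nat_lit 294) (nat_lit 262)))) (XT.nd (nat_lit 156) (nat_lit 0) (nat_lit 0) (XT.nd (nat_lit 78) (nat_lit 0) (nat_lit 0) (XT.lf (nat_lit 0) (nat_lit 105744815867) (nat_lit 152) (nat_lit 165493483248) (nat_lit 0) (nat_lit 104320834508) (nat_lit 1) (nat_lit 5) (nat_lit 3) (nat_lit 4) (nat_lit 1) (nat_lit 4) (nat_lit 465) (nat_lit 294) (nat_lit 261)) (XT.lf (nat_lit 0) (nat_lit 113240119357) (nat_lit 152) (nat_lit 169182804810) (nat_lit 0) (nat_lit 111799199341) (nat_lit 1) (nat_lit 5) (nat_lit 3) (nat_lit 4) (nat_lit 1) (nat_lit 4) (nat_lit 466) (nat_lit 294) (nat_lit 260)))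 (XT.nd (nat_lit 78) (nat_lit 0) (nat_lit 0) (XT.lf (nat_lit 0) (nat_lit 121079484900) (nat_lit 152) (nat_lit 173117881843) (nat_lit 0) (nat_lit 119622432831) (nat_lit 1) (nat_lit 5) (nat_lit 3) (nat_lit 4) (nat_lit 1) (nat_lit 4) (nat_lit 467) (nat_lit 294) (nat_lit 259)) (XT.lf (nat_lit 0) (nat_lit 129281577654) (nat_lit 152) (nat_lit 177308083576) (nat_lit 0) (nat_lit 127809161723) (nat_lit 1) (nat_lit 5) (nat_lit 3) (nat_lit 4) (nat_lit 1) (nat_lit 4) (nat_lit 468) (nat_lit 294) (nat_lit 258))))))) (XT.nd (nat_lit 50076) (nat_lit 0) (nat_lit 152) (XT.nd (nat_lit 468) (nat_lit 0) (nat_lit 0) (XT.nd (nat_lit 234) (nat_lit 0) (nat_lit 0) (XT.nd (nat_lit 78) (nat_lit 0) (nat_lit 0) (XT.lf (nat_lit 0) (nat_lit 137865926409) (nat_lit 152) (nat_lit 181763386681) (nat_lit 0) (nat_lit 136378878230) (nat_lit 1) (nat_lit 5) (nat_lit 3) (nat_lit 4) (nat_lit 1) (nat_lit 4) (nat_lit 469) (nat_lit 294)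 (nat_lit 257)) (XT.nd (nat_lit 78) (nat_lit 0) (nat_lit 0) (XT.lf (nat_lit 0) (nat_lit 146852970092) (nat_lit 152) (nat_lit 186494399022) (nat_lit 0) (nat_lit 145351986438) (nat_lit 1) (nat_lit 5) (nat_lit 3) (nat_lit 4) (nat_lit 1) (nat_lit 4) (nat_lit 470) (nat_lit 294) (nat_lit 256)) (XT.lf (nat_lit 0) (nat_lit 156264106425) (nat_lit 152) (nat_lit 191512384915) (nat_lit 0) (nat_lit 154749850891) (nat_lit 1) (nat_lit 5) (nat_lit 3) (nat_lit 4) (nat_lit 1) (nat_lit 4) (nat_lit 471) (nat_lit 294) (nat_lit 255)))) (XT.nd (nat_lit 78) (nat_lit 0) (nat_lit 0) (XT.lf (nat_lit 0) (nat_lit 166121742877) (nat_lit 152) (nat_lit 196829291944) (nat_lit 0) (nat_lit 164594847456) (nat_lit 1) (nat_lit 5) (nat_lit 3) (nat_lit 4) (nat_lit 1) (nat_lit 4) (nat_lit 472) (nat_lit 294) (nat_lit 254)) (XT.nd (nat_lit 78) (nat_lit 0) (nat_lit 0) (XT.lf (nat_lit 0) (nat_lit 176449350010) (nat_lit 152) (nat_lit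 202457779412) (nat_lit 0) (nat_lit 174910416602) (nat_lit 1) (nat_lit 5) (nat_lit 3) (nat_lit 4) (nat_lit 1) (nat_lit 4) (nat_lit 473) (nat_lit 294) (nat_lit 253)) (XT.lf (nat_lit 0) (nat_lit 187271517365) (nat_lit 152) (nat_lit 208411248479) (nat_lit 0) (nat_lit 185721119207) (nat_lit 1) (nat_lit 5) (nat_lit 3) (nat_lit 4) (nat_lit 1) (nat_lit 4) (nat_lit 474) (nat_lit 294) (nat_lit 252))))) (XT.nd (nat_lit 234) (nat_lit 0) (nat_lit 0) (XT.nd (nat_lit 78) (nat_lit 0) (nat_lit 0) (XT.lf (nat_lit 0) (nat_lit 198614012006) (nat_lit 152) (nat_lit 214703874073) (nat_lit 0) (nat_lit 197052695040) (nat_lit 1) (nat_lit 5) (nat_lit 3) (nat_lit 4) (nat_lit 1) (nat_lit 4) (nat_lit 475) (nat_lit 294) (nat_lit 251)) (XT.nd (nat_lit 78) (nat_lit 0) (nat_lit 0) (XT.lf (nat_lit 0) (nat_lit 210503839875) (nat_lit 152) (nat_lit 221350638635) (nat_lit 0) (nat_lit 208932124043) (nat_lit 1) (nat_lit 5) (nat_lit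 3) (nat_lit 4) (nat_lit 1) (nat_lit 4) (nat_lit 476) (nat_lit 294) (nat_lit 250)) (XT.lf (nat_lit 0) (nat_lit 222969310084) (nat_lit 152) (nat_lit 228367367795) (nat_lit 0) (nat_lit 221387690570) (nat_lit 1) (nat_lit 5) (nat_lit 3) (nat_lit 4) (nat_lit 1) (nat_lit 4) (nat_lit 477) (nat_lit 294) (nat_lit 249)))) (XT.nd (nat_lit 156) (nat_lit 0) (nat_lit 0) (XT.nd (nat_lit 78) (nat_lit 0) (nat_lit 0) (XT.lf (nat_lit 0) (nat_lit 236040102325) (nat_lit 152) (nat_lit 235770768051) (nat_lit 0) (nat_lit 234449050733) (nat_lit 1) (nat_lit 5) (nat_lit 3) (nat_lit 4) (nat_lit 1) (nat_lit 4) (nat_lit 478) (nat_lit 294) (nat_lit 248)) (XT.lf (nat_lit 0) (nat_lit 249747337531) (nat_lit 152) (nat_lit 243578466546) (nat_lit 0) (nat_lit 248147303008) (nat_lit 1) (nat_lit 5) (nat_lit 3) (nat_lit 4) (nat_lit 1) (nat_lit 4) (nat_lit 479) (nat_lit 294) (nat_lit 247))) (XT.nd (nat_lit 78) (nat_lit 0) (nat_lit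 0) (XT.lf (nat_lit 0) (nat_lit 264123651977) (nat_lit 152) (nat_lit 251809053039) (nat_lit 0) (nat_lit 262515062281) (nat_lit 1) (nat_lit 5) (nat_lit 3) (nat_lit 4) (nat_lit 1) (nat_lit 4) (nat_lit 480) (nat_lit 294) (nat_lit 246)) (XT.lf (nat_lit 0) (nat_lit 279203274983) (nat_lit 152) (nat_lit 260482124164) (nat_lit 0) (nat_lit 277586537503) (nat_lit 1) (nat_lit 5) (nat_lit 3) (nat_lit 4) (nat_lit 1) (nat_lit 4) (nat_lit 481) (nat_lit 294) (nat_lit 245)))))) (XT.nd (nat_lit 468) (nat_lit 0) (nat_lit 0) (XT.nd (nat_lit 234) (nat_lit 0) (nat_lit 0) (XT.nd (nat_lit 78) (nat_lit 76) (nat_lit 0) (XT.lf (nat_lit 0) (nat_lit 15205668938) (nat_lit 152) (nat_lit 5118556694) (nat_lit 0) (nat_lit 15205668938) (nat_lit 4) (nat_lit 5) (nat_lit 6) (nat_lit 4) (nat_lit 4) (nat_lit 4) (nat_lit 430) (nat_lit 295) (nat_lit 295)) (XT.nd (nat_lit 78) (nat_lit 76) (nat_lit 0) (XT.lf (nat_lit 0) (nat_lit 36492350531)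 (nat_lit 152) (nat_lit 1488315944) (nat_lit 0) (nat_lit 36398916640) (nat_lit 4) (nat_lit 5) (nat_lit 6) (nat_lit 4) (nat_lit 4) (nat_lit 4) (nat_lit 431) (nat_lit 295) (nat_lit 294)) (XT.lf (nat_lit 0) (nat_lit 7651189096) (nat_lit 76) (nat_lit 35198983372) (nat_lit 76) (nat_lit 35016564824) (nat_lit 3) (nat_lit 4) (nat_lit 4) (nat_lit 5) (nat_lit 4) (nat_lit 4) (nat_lit 432) (nat_lit 295) (nat_lit 293)))) (XT.nd (nat_lit 78) (nat_lit 0) (nat_lit 0) (XT.lf (nat_lit 0) (nat_lit 17012425767) (nat_lit 76) (nat_lit 32394473305) (nat_lit 76) (nat_lit 32127307464) (nat_lit 3) (nat_lit 4) (nat_lit 4) (nat_lit 5) (nat_lit 4) (nat_lit 4) (nat_lit 433) (nat_lit 295) (nat_lit 292)) (XT.nd (nat_lit 78) (nat_lit 0) (nat_lit 0) (XT.lf (nat_lit 0) (nat_lit 26568472281) (nat_lit 76) (nat_lit 29585664219) (nat_lit 76) (nat_lit 29237786671) (nat_lit 3) (nat_lit 4) (nat_lit 4) (nat_lit 5) (nat_lit 4) (nat_lit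 4) (nat_lit 434) (nat_lit 295) (nat_lit 291)) (XT.lf (nat_lit 0) (nat_lit 36342081128) (nat_lit 76) (nat_lit 26765868473) (nat_lit 76) (nat_lit 26341122632) (nat_lit 3) (nat_lit 4) (nat_lit 4) (nat_lit 5) (nat_lit 4) (nat_lit 4) (nat_lit 435) (nat_lit 295) (nat_lit 290))))) (XT.nd (nat_lit 234) (nat_lit 0) (nat_lit 0) (XT.nd (nat_lit 78) (nat_lit 0) (nat_lit 0) (XT.lf (nat_lit 0) (nat_lit 46356522806) (nat_lit 76) (nat_lit 23928372268) (nat_lit 76) (nat_lit 23430418530) (nat_lit 3) (nat_lit 4) (nat_lit 4) (nat_lit 5) (nat_lit 4) (nat_lit 4) (nat_lit 436) (nat_lit 295) (nat_lit 289)) (XT.nd (nat_lit 78) (nat_lit 0) (nat_lit 0) (XT.lf (nat_lit 0) (nat_lit 56635641225) (nat_lit 76) (nat_lit 21066419661) (nat_lit 76) (nat_lit 20498744115) (nat_lit 3) (nat_lit 4) (nat_lit 4) (nat_lit 5) (nat_lit 4) (nat_lit 4) (nat_lit 437) (nat_lit 295) (nat_lit 288)) (XT.lf (nat_lit 0) (nat_lit 67203910474)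 (nat_lit 76) (nat_lit 18173196479) (nat_lit 76) (nat_lit 17539119211) (nat_lit 3) (nat_lit 4) (nat_lit 4) (nat_lit 5) (nat_lit 4) (nat_lit 4) (nat_lit 438) (nat_lit 295) (nat_lit 287)))) (XT.nd (nat_lit 156) (nat_lit 0) (nat_lit 0) (XT.nd (nat_lit 78) (nat_lit 0) (nat_lit 0) (XT.lf (nat_lit 0) (nat_lit 78086493101) (nat_lit 76) (nat_lit 15241814095) (nat_lit 76) (nat_lit 14544497093) (nat_lit 3) (nat_lit 4) (nat_lit 4) (nat_lit 5) (nat_lit 4) (nat_lit 4) (nat_lit 439) (nat_lit 295) (nat_lit 286)) (XT.lf (nat_lit 0) (nat_lit 89309300017) (nat_lit 76) (nat_lit 12265293027) (nat_lit 76) (nat_lit 11507747706) (nat_lit 3) (nat_lit 4) (nat_lit 4) (nat_lit 5) (nat_lit 4) (nat_lit 4) (nat_lit 440) (nat_lit 295) (nat_lit 285))) (XT.nd (nat_lit 78) (nat_lit 0) (nat_lit 0) (XT.lf (nat_lit 0) (nat_lit 100899052189) (nat_lit 76) (nat_lit 9236546321) (nat_lit 76) (nat_lit 8421640696) (nat_lit 3) (nat_lit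 4) (nat_lit 4) (nat_lit 5) (nat_lit 4) (nat_lit 4) (nat_lit 441) (nat_lit 295) (nat_lit 284)) (XT.lf (nat_lit 0) (nat_lit 112883344266) (nat_lit 76) (nat_lit 6148362674) (nat_lit 76) (nat_lit 5278828189) (nat_lit 3) (nat_lit 4) (nat_lit 4) (nat_lit 5) (nat_lit 4) (nat_lit 4) (nat_lit 442) (nat_lit 295) (nat_lit 283))))))))
noncomputable def xc13 : XT := (XT.nd (nat_lit 1950) (nat_lit 0) (nat_lit 0) (XT.nd (nat_lit 936) (nat_lit 0) (nat_lit 0) (XT.nd (nat_lit 468) (nat_lit 0) (nat_lit 0) (XT.nd (nat_lit 234) (nat_lit 0) (nat_lit 0) (XT.nd (nat_lit 78) (nat_lit 152) (nat_lit 0) (XT.lf (nat_lit 0) (nat_lit 125290710278) (nat_lit 76) (nat_lit 2993389269) (nat_lit 76) (nat_lit 2071827298) (nat_lit 3) (nat_lit 4) (nat_lit 4) (nat_lit 5) (nat_lit 4) (nat_lit 4) (nat_lit 443) (nat_lit 295) (nat_lit 282)) (XT.nd (nat_lit 78) (nat_lit 0) (nat_lit 0) (XT.lf (nat_lit 0) (nat_lit 1195702893) (nat_lit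 152) (nat_lit 135238961821) (nat_lit 0) (nat_lit 270834362) (nat_lit 1) (nat_lit 5) (nat_lit 3) (nat_lit 4) (nat_lit 1) (nat_lit 4) (nat_lit 444) (nat_lit 295) (nat_lit 281)) (XT.lf (nat_lit 0) (nat_lit 4607704975) (nat_lit 152) (nat_lit 135122721723) (nat_lit 0) (nat_lit 3637893145) (nat_lit 1) (nat_lit 5) (nat_lit 3) (nat_lit 4) (nat_lit 1) (nat_lit 4) (nat_lit 445) (nat_lit 295) (nat_lit 280)))) (XT.nd (nat_lit 78) (nat_lit 0) (nat_lit 0) (XT.lf (nat_lit 0) (nat_lit 8108842641) (nat_lit 152) (nat_lit 135163288623) (nat_lit 0) (nat_lit 7096227669) (nat_lit 1) (nat_lit 5) (nat_lit 3) (nat_lit 4) (nat_lit 1) (nat_lit 4) (nat_lit 446) (nat_lit 295) (nat_lit 279)) (XT.nd (nat_lit 78) (nat_lit 0) (nat_lit 0) (XT.lf (nat_lit 0) (nat_lit 11707451933) (nat_lit 152) (nat_lit 135360759107) (nat_lit 0) (nat_lit 10654072064) (nat_lit 1) (nat_lit 5) (nat_lit 3) (nat_lit 4) (nat_lit 1) (nat_lit 4) (nat_lit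 447) (nat_lit 295) (nat_lit 278)) (XT.lf (nat_lit 0) (nat_lit 15412100969) (nat_lit 152) (nat_lit 135715603345) (nat_lit 0) (nat_lit 14319897389) (nat_lit 1) (nat_lit 5) (nat_lit 3) (nat_lit 4) (nat_lit 1) (nat_lit 4) (nat_lit 448) (nat_lit 295) (nat_lit 277))))) (XT.nd (nat_lit 234) (nat_lit 0) (nat_lit 0) (XT.nd (nat_lit 78) (nat_lit 0) (nat_lit 0) (XT.lf (nat_lit 0) (nat_lit 19231610341) (nat_lit 152) (nat_lit 136228666202) (nat_lit 0) (nat_lit 18102431798) (nat_lit 1) (nat_lit 5) (nat_lit 3) (nat_lit 4) (nat_lit 1) (nat_lit 4) (nat_lit 449) (nat_lit 295) (nat_lit 276)) (XT.nd (nat_lit 78) (nat_lit 0) (nat_lit 0) (XT.lf (nat_lit 0) (nat_lit 23175074120) (nat_lit 152) (nat_lit 136901169258) (nat_lit 0) (nat_lit 22010681326) (nat_lit 1) (nat_lit 5) (nat_lit 3) (nat_lit 4) (nat_lit 1) (nat_lit 4) (nat_lit 450) (nat_lit 295) (nat_lit 275)) (XT.lf (nat_lit 0) (nat_lit 27251881504) (nat_lit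 152) (nat_lit 137734713710) (nat_lit 0) (nat_lit 26053951329) (nat_lit 1) (nat_lit 5) (nat_lit 3) (nat_lit 4) (nat_lit 1) (nat_lit 4) (nat_lit 451) (nat_lit 295) (nat_lit 274)))) (XT.nd (nat_lit 78) (nat_lit 0) (nat_lit 0) (XT.lf (nat_lit 0) (nat_lit 31471739179) (nat_lit 152) (nat_lit 138731284188) (nat_lit 0) (nat_lit 30241868640) (nat_lit 1) (nat_lit 5) (nat_lit 3) (nat_lit 4) (nat_lit 1) (nat_lit 4) (nat_lit 452) (nat_lit 295) (nat_lit 273)) (XT.nd (nat_lit 78) (nat_lit 0) (nat_lit 0) (XT.lf (nat_lit 0) (nat_lit 35844694424) (nat_lit 152) (nat_lit 139893253478) (nat_lit 0) (nat_lit 34584404491) (nat_lit 1) (nat_lit 5) (nat_lit 3) (nat_lit 4) (nat_lit 1) (nat_lit 4) (nat_lit 453) (nat_lit 295) (nat_lit 272)) (XT.lf (nat_lit 0) (nat_lit 40381159037) (nat_lit 152) (nat_lit 141223388175) (nat_lit 0) (nat_lit 39091898254) (nat_lit 1) (nat_lit 5) (nat_lit 3) (nat_lit 4) (nat_lit 1) (nat_lit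 4) (nat_lit 454) (nat_lit 295) (nat_lit 271)))))) (XT.nd (nat_lit 468) (nat_lit 0) (nat_lit 0) (XT.nd (nat_lit 234) (nat_lit 0) (nat_lit 0) (XT.nd (nat_lit 78) (nat_lit 0) (nat_lit 0) (XT.lf (nat_lit 0) (nat_lit 45091934125) (nat_lit 152) (nat_lit 142724855265) (nat_lit 0) (nat_lit 43775082055) (nat_lit 1) (nat_lit 5) (nat_lit 3) (nat_lit 4) (nat_lit 1) (nat_lit 4) (nat_lit 455) (nat_lit 295) (nat_lit 270)) (XT.nd (nat_lit 78) (nat_lit 0) (nat_lit 0) (XT.lf (nat_lit 0) (nat_lit 49988235819) (nat_lit 152) (nat_lit 144401229670) (nat_lit 0) (nat_lit 48645106333) (nat_lit 1) (nat_lit 5) (nat_lit 3) (nat_lit 4) (nat_lit 1) (nat_lit 4) (nat_lit 456) (nat_lit 295) (nat_lit 269)) (XT.lf (nat_lit 0) (nat_lit 55081721981) (nat_lit 152) (nat_lit 146256502758) (nat_lit 0) (nat_lit 53713566384) (nat_lit 1) (nat_lit 5) (nat_lit 3) (nat_lit 4) (nat_lit 1) (nat_lit 4) (nat_lit 457) (nat_lit 295) (nat_lit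 268)))) (XT.nd (nat_lit 78) (nat_lit 0) (nat_lit 0) (XT.lf (nat_lit 0) (nat_lit 60384519957) (nat_lit 152) (nat_lit 148295091846) (nat_lit 0) (nat_lit 58992529969) (nat_lit 1) (nat_lit 5) (nat_lit 3) (nat_lit 4) (nat_lit 1) (nat_lit 4) (nat_lit 458) (nat_lit 295) (nat_lit 267)) (XT.nd (nat_lit 78) (nat_lit 0) (nat_lit 0) (XT.lf (nat_lit 0) (nat_lit 65909255457) (nat_lit 152) (nat_lit 150521850717) (nat_lit 0) (nat_lit 64494566050) (nat_lit 1) (nat_lit 5) (nat_lit 3) (nat_lit 4) (nat_lit 1) (nat_lit 4) (nat_lit 459) (nat_lit 295) (nat_lit 266)) (XT.lf (nat_lit 0) (nat_lit 71669082615) (nat_lit 152) (nat_lit 152942081178) (nat_lit 0) (nat_lit 70232774712) (nat_lit 1) (nat_lit 5) (nat_lit 3) (nat_lit 4) (nat_lit 1) (nat_lit 4) (nat_lit 460) (nat_lit 295) (nat_lit 265))))) (XT.nd (nat_lit 234) (nat_lit 0) (nat_lit 0) (XT.nd (nat_lit 78) (nat_lit 0) (nat_lit 0) (XT.lf (nat_lit 0) (nat_lit 77677715303)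 (nat_lit 152) (nat_lit 155561545682) (nat_lit 0) (nat_lit 76220818357) (nat_lit 1) (nat_lit 5) (nat_lit 3) (nat_lit 4) (nat_lit 1) (nat_lit 4) (nat_lit 461) (nat_lit 295) (nat_lit 264)) (XT.nd (nat_lit 78) (nat_lit 0) (nat_lit 0) (XT.lf (nat_lit 0) (nat_lit 83949459790) (nat_lit 152) (nat_lit 158386481050) (nat_lit 0) (nat_lit 82472954232) (nat_lit 1) (nat_lit 5) (nat_lit 3) (nat_lit 4) (nat_lit 1) (nat_lit 4) (nat_lit 462) (nat_lit 295) (nat_lit 263)) (XT.lf (nat_lit 0) (nat_lit 90499248802) (nat_lit 152) (nat_lit 161423613319) (nat_lit 0) (nat_lit 89004068375) (nat_lit 1) (nat_lit 5) (nat_lit 3) (nat_lit 4) (nat_lit 1) (nat_lit 4) (nat_lit 463) (nat_lit 295) (nat_lit 262)))) (XT.nd (nat_lit 156) (nat_lit 0) (nat_lit 0) (XT.nd (nat_lit 78) (nat_lit 0) (nat_lit 0) (XT.lf (nat_lit 0) (nat_lit 97342677073) (nat_lit 152) (nat_lit 164680173756) (nat_lit 0) (nat_lit 95829711057) (nat_lit 1) (nat_lit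 5) (nat_lit 3) (nat_lit 4) (nat_lit 1) (nat_lit 4) (nat_lit 464) (nat_lit 295) (nat_lit 261)) (XT.lf (nat_lit 0) (nat_lit 104496038482) (nat_lit 152) (nat_lit 168163916075) (nat_lit 0) (nat_lit 102966133808) (nat_lit 1) (nat_lit 5) (nat_lit 3) (nat_lit 4) (nat_lit 1) (nat_lit 4) (nat_lit 465) (nat_lit 295) (nat_lit 260))) (XT.nd (nat_lit 78) (nat_lit 0) (nat_lit 0) (XT.lf (nat_lit 0) (nat_lit 111976364839) (nat_lit 152) (nat_lit 171883134902) (nat_lit 0) (nat_lit 110430328112) (nat_lit 1) (nat_lit 5) (nat_lit 3) (nat_lit 4) (nat_lit 1) (nat_lit 4) (nat_lit 466) (nat_lit 295) (nat_lit 259)) (XT.lf (nat_lit 0) (nat_lit 119801466448) (nat_lit 152) (nat_lit 175846685520) (nat_lit 0) (nat_lit 118240065860) (nat_lit 1) (nat_lit 5) (nat_lit 3) (nat_lit 4) (nat_lit 1) (nat_lit 4) (nat_lit 467) (nat_lit 295) (nat_lit 258))))))) (XT.nd (nat_lit 1014) (nat_lit 0) (nat_lit 0) (XT.nd (nat_lit 468) (nat_lit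 0) (nat_lit 0) (XT.nd (nat_lit 234) (nat_lit 0) (nat_lit 0) (XT.nd (nat_lit 78) (nat_lit 0) (nat_lit 0) (XT.lf (nat_lit 0) (nat_lit 127989974501) (nat_lit 152) (nat_lit 180064004953) (nat_lit 0) (nat_lit 126413941664) (nat_lit 1) (nat_lit 5) (nat_lit 3) (nat_lit 4) (nat_lit 1) (nat_lit 4) (nat_lit 468) (nat_lit 295) (nat_lit 257)) (XT.nd (nat_lit 78) (nat_lit 0) (nat_lit 0) (XT.lf (nat_lit 0) (nat_lit 136561385446) (nat_lit 152) (nat_lit 184545134439) (nat_lit 0) (nat_lit 134971417135) (nat_lit 1) (nat_lit 5) (nat_lit 3) (nat_lit 4) (nat_lit 1) (nat_lit 4) (nat_lit 469) (nat_lit 295) (nat_lit 256)) (XT.lf (nat_lit 0) (nat_lit 145536107405) (nat_lit 152) (nat_lit 189300743333) (nat_lit 0) (nat_lit 143932867213) (nat_lit 1) (nat_lit 5) (nat_lit 3) (nat_lit 4) (nat_lit 1) (nat_lit 4) (nat_lit 470) (nat_lit 295) (nat_lit 255)))) (XT.nd (nat_lit 78) (nat_lit 0) (nat_lit 0) (XT.lf (nat_lit 0)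 (nat_lit 154935508764) (nat_lit 152) (nat_lit 194342154514) (nat_lit 0) (nat_lit 153319628686) (nat_lit 1) (nat_lit 5) (nat_lit 3) (nat_lit 4) (nat_lit 1) (nat_lit 4) (nat_lit 471) (nat_lit 295) (nat_lit 254)) (XT.nd (nat_lit 78) (nat_lit 0) (nat_lit 0) (XT.lf (nat_lit 0) (nat_lit 164781969049) (nat_lit 152) (nat_lit 199681371342) (nat_lit 0) (nat_lit 163154050984) (nat_lit 1) (nat_lit 5) (nat_lit 3) (nat_lit 4) (nat_lit 1) (nat_lit 4) (nat_lit 472) (nat_lit 295) (nat_lit 253)) (XT.lf (nat_lit 0) (nat_lit 175098932214) (nat_lit 152) (nat_lit 205331106238) (nat_lit 0) (nat_lit 173459549399) (nat_lit 1) (nat_lit 5) (nat_lit 3) (nat_lit 4) (nat_lit 1) (nat_lit 4) (nat_lit 473) (nat_lit 295) (nat_lit 252))))) (XT.nd (nat_lit 234) (nat_lit 0) (nat_lit 0) (XT.nd (nat_lit 78) (nat_lit 0) (nat_lit 0) (XT.lf (nat_lit 0) (nat_lit 185910962456) (nat_lit 152) (nat_lit 211304810951) (nat_lit 0) (nat_lit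 184260660832) (nat_lit 1) (nat_lit 5) (nat_lit 3) (nat_lit 4) (nat_lit 1) (nat_lit 4) (nat_lit 474) (nat_lit 295) (nat_lit 251)) (XT.nd (nat_lit 78) (nat_lit 0) (nat_lit 0) (XT.lf (nat_lit 0) (nat_lit 197243802705) (nat_lit 152) (nat_lit 217616708588) (nat_lit 0) (nat_lit 195583102215) (nat_lit 1) (nat_lit 5) (nat_lit 3) (nat_lit 4) (nat_lit 1) (nat_lit 4) (nat_lit 475) (nat_lit 295) (nat_lit 250)) (XT.lf (nat_lit 0) (nat_lit 209124435913) (nat_lit 152) (nat_lit 224281827476) (nat_lit 0) (nat_lit 207453831742) (nat_lit 1) (nat_lit 5) (nat_lit 3) (nat_lit 4) (nat_lit 1) (nat_lit 4) (nat_lit 476) (nat_lit 295) (nat_lit 249)))) (XT.nd (nat_lit 156) (nat_lit 0) (nat_lit 0) (XT.nd (nat_lit 78) (nat_lit 0) (nat_lit 0) (XT.lf (nat_lit 0) (nat_lit 221581149304) (nat_lit 152) (nat_lit 231316036947) (nat_lit 0) (nat_lit 219901113054) (nat_lit 1) (nat_lit 5) (nat_lit 3) (nat_lit 4) (nat_lit 1) (nat_lit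 4) (nat_lit 477) (nat_lit 295) (nat_lit 248)) (XT.lf (nat_lit 0) (nat_lit 234643601717) (nat_lit 152) (nat_lit 238736085118) (nat_lit 0) (nat_lit 232954582536) (nat_lit 1) (nat_lit 5) (nat_lit 3) (nat_lit 4) (nat_lit 1) (nat_lit 4) (nat_lit 478) (nat_lit 295) (nat_lit 247))) (XT.nd (nat_lit 78) (nat_lit 0) (nat_lit 0) (XT.lf (nat_lit 0) (nat_lit 248342894230) (nat_lit 152) (nat_lit 246559638771) (nat_lit 0) (nat_lit 246645319877) (nat_lit 1) (nat_lit 5) (nat_lit 3) (nat_lit 4) (nat_lit 1) (nat_lit 4) (nat_lit 479) (nat_lit 295) (nat_lit 246)) (XT.lf (nat_lit 0) (nat_lit 262711644206) (nat_lit 152) (nat_lit 254805325414) (nat_lit 0) (nat_lit 261005922070) (nat_lit 1) (nat_lit 5) (nat_lit 3) (nat_lit 4) (nat_lit 1) (nat_lit 4) (nat_lit 480) (nat_lit 295) (nat_lit 245)))))) (XT.nd (nat_lit 49374) (nat_lit 0) (nat_lit 152) (XT.nd (nat_lit 49140) (nat_lit 0) (nat_lit 152) (XT.nd (nat_lit 48984)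 (nat_lit 0) (nat_lit 228) (XT.lf (nat_lit 0) (nat_lit 277784062956) (nat_lit 152) (nat_lit 263492777634) (nat_lit 0) (nat_lit 276070581025) (nat_lit 1) (nat_lit 5) (nat_lit 3) (nat_lit 4) (nat_lit 1) (nat_lit 4) (nat_lit 481) (nat_lit 295) (nat_lit 244)) (XT.nd (nat_lit 78) (nat_lit 0) (nat_lit 0) (XT.lf (nat_lit 0) (nat_lit 9420398540) (nat_lit 152) (nat_lit 13611716813) (nat_lit 0) (nat_lit 9420398540) (nat_lit 4) (nat_lit 5) (nat_lit 6) (nat_lit 4) (nat_lit 4) (nat_lit 4) (nat_lit 428) (nat_lit 296) (nat_lit 296)) (XT.lf (nat_lit 0) (nat_lit 24571304983) (nat_lit 152) (nat_lit 18860919538) (nat_lit 0) (nat_lit 24473199399) (nat_lit 4) (nat_lit 5) (nat_lit 6) (nat_lit 4) (nat_lit 4) (nat_lit 4) (nat_lit 429) (nat_lit 296) (nat_lit 295)))) (XT.nd (nat_lit 78) (nat_lit 76) (nat_lit 0) (XT.lf (nat_lit 0) (nat_lit 30434305536) (nat_lit 152) (nat_lit 10386478761) (nat_lit 0) (nat_lit 30242766060)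 (nat_lit 4) (nat_lit 5) (nat_lit 6) (nat_lit 4) (nat_lit 4) (nat_lit 4) (nat_lit 430) (nat_lit 296) (nat_lit 294)) (XT.nd (nat_lit 78) (nat_lit 76) (nat_lit 0) (XT.lf (nat_lit 0) (nat_lit 36443758262) (nat_lit 152) (nat_lit 1779934053) (nat_lit 0) (nat_lit 36163234129) (nat_lit 4) (nat_lit 5) (nat_lit 6) (nat_lit 4) (nat_lit 4) (nat_lit 4) (nat_lit 431) (nat_lit 296) (nat_lit 293)) (XT.lf (nat_lit 0) (nat_lit 7209970439) (nat_lit 76) (nat_lit 35516568788) (nat_lit 76) (nat_lit 35151297363) (nat_lit 3) (nat_lit 4) (nat_lit 4) (nat_lit 5) (nat_lit 4) (nat_lit 4) (nat_lit 432) (nat_lit 296) (nat_lit 292))))) (XT.nd (nat_lit 234) (nat_lit 0) (nat_lit 0) (XT.nd (nat_lit 78) (nat_lit 0) (nat_lit 0) (XT.lf (nat_lit 0) (nat_lit 16437913456) (nat_lit 76) (nat_lit 32778364323) (nat_lit 76) (nat_lit 32332381191) (nat_lit 3) (nat_lit 4) (nat_lit 4) (nat_lit 5) (nat_lit 4) (nat_lit 4) (nat_lit 433) (nat_lit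 296) (nat_lit 291)) (XT.nd (nat_lit 78) (nat_lit 0) (nat_lit 0) (XT.lf (nat_lit 0) (nat_lit 25867013632) (nat_lit 76) (nat_lit 30032703430) (nat_lit 76) (nat_lit 29509852004) (nat_lit 3) (nat_lit 4) (nat_lit 4) (nat_lit 5) (nat_lit 4) (nat_lit 4) (nat_lit 434) (nat_lit 296) (nat_lit 290)) (XT.lf (nat_lit 0) (nat_lit 35519721205) (nat_lit 76) (nat_lit 27273048820) (nat_lit 76) (nat_lit 26676989496) (nat_lit 3) (nat_lit 4) (nat_lit 4) (nat_lit 5) (nat_lit 4) (nat_lit 4) (nat_lit 435) (nat_lit 296) (nat_lit 289)))) (XT.nd (nat_lit 156) (nat_lit 0) (nat_lit 0) (XT.nd (nat_lit 78) (nat_lit 0) (nat_lit 0) (XT.lf (nat_lit 0) (nat_lit 45419018813) (nat_lit 76) (nat_lit 24492829887) (nat_lit 76) (nat_lit 23827048756) (nat_lit 3) (nat_lit 4) (nat_lit 4) (nat_lit 5) (nat_lit 4) (nat_lit 4) (nat_lit 436) (nat_lit 296) (nat_lit 288)) (XT.lf (nat_lit 0) (nat_lit 55588476212) (nat_lit 76) (nat_lit 21685427063)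 (nat_lit 76) (nat_lit 20953244211) (nat_lit 3) (nat_lit 4) (nat_lit 4) (nat_lit 5) (nat_lit 4) (nat_lit 4) (nat_lit 437) (nat_lit 296) (nat_lit 287))) (XT.nd (nat_lit 78) (nat_lit 0) (nat_lit 0) (XT.lf (nat_lit 0) (nat_lit 66052306396) (nat_lit 76) (nat_lit 18844156055) (nat_lit 76) (nat_lit 18048733468) (nat_lit 3) (nat_lit 4) (nat_lit 4) (nat_lit 5) (nat_lit 4) (nat_lit 4) (nat_lit 438) (nat_lit 296) (nat_lit 286)) (XT.lf (nat_lit 0) (nat_lit 76835423246) (nat_lit 76) (nat_lit 15962251932) (nat_lit 76) (nat_lit 15106601027) (nat_lit 3) (nat_lit 4) (nat_lit 4) (nat_lit 5) (nat_lit 4) (nat_lit 4) (nat_lit 439) (nat_lit 296) (nat_lit 285))))))))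
noncomputable def xc14 : XT := (XT.nd (nat_lit 1950) (nat_lit 0) (nat_lit 0) (XT.nd (nat_lit 936) (nat_lit 0) (nat_lit 0) (XT.nd (nat_lit 468) (nat_lit 0) (nat_lit 0) (XT.nd (nat_lit 234) (nat_lit 152) (nat_lit 0) (XT.nd (nat_lit 78) (nat_lit 0) (nat_lit 0) (XT.lf (nat_lit 0) (nat_lit 87963500849) (nat_lit 76) (nat_lit 13032853018) (nat_lit 76) (nat_lit 12119841809) (nat_lit 3) (nat_lit 4) (nat_lit 4) (nat_lit 5) (nat_lit 4) (nat_lit 4) (nat_lit 440) (nat_lit 296) (nat_lit 284)) (XT.nd (nat_lit 78) (nat_lit 0) (nat_lit 0) (XT.lf (nat_lit 0) (nat_lit 99463034630) (nat_lit 76) (nat_lit 10048984553) (nat_lit 76) (nat_lit 9081344483) (nat_lit 3) (nat_lit 4) (nat_lit 4) (nat_lit 5) (nat_lit 4) (nat_lit 4) (nat_lit 441) (nat_lit 296) (nat_lit 283)) (XT.lf (nat_lit 0) (nat_lit 111361404429) (nat_lit 76) (nat_lit 7003542089) (nat_lit 76) (nat_lit 5983874533) (nat_lit 3) (nat_lit 4) (nat_lit 4) (nat_lit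 5) (nat_lit 4) (nat_lit 4) (nat_lit 442) (nat_lit 296) (nat_lit 282)))) (XT.nd (nat_lit 78) (nat_lit 152) (nat_lit 0) (XT.lf (nat_lit 0) (nat_lit 123686939699) (nat_lit 76) (nat_lit 3889274572) (nat_lit 76) (nat_lit 2820057029) (nat_lit 3) (nat_lit 4) (nat_lit 4) (nat_lit 5) (nat_lit 4) (nat_lit 4) (nat_lit 443) (nat_lit 296) (nat_lit 281)) (XT.nd (nat_lit 78) (nat_lit 76) (nat_lit 0) (XT.lf (nat_lit 0) (nat_lit 404273809) (nat_lit 152) (nat_lit 287646697) (nat_lit 76) (nat_lit 136057866571) (nat_lit 2) (nat_lit 5) (nat_lit 4) (nat_lit 5) (nat_lit 3) (nat_lit 4) (nat_lit 444) (nat_lit 296) (nat_lit 280)) (XT.lf (nat_lit 0) (nat_lit 3761018763) (nat_lit 152) (nat_lit 136999384018) (nat_lit 0) (nat_lit 2654969900) (nat_lit 1) (nat_lit 5) (nat_lit 3) (nat_lit 4) (nat_lit 1) (nat_lit 4) (nat_lit 445) (nat_lit 296) (nat_lit 279))))) (XT.nd (nat_lit 234) (nat_lit 0) (nat_lit 0) (XT.nd (nat_lit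 78) (nat_lit 0) (nat_lit 0) (XT.lf (nat_lit 0) (nat_lit 7224309962) (nat_lit 152) (nat_lit 137115499815) (nat_lit 0) (nat_lit 6077496202) (nat_lit 1) (nat_lit 5) (nat_lit 3) (nat_lit 4) (nat_lit 1) (nat_lit 4) (nat_lit 446) (nat_lit 296) (nat_lit 278)) (XT.nd (nat_lit 78) (nat_lit 0) (nat_lit 0) (XT.lf (nat_lit 0) (nat_lit 10786875000) (nat_lit 152) (nat_lit 137384921631) (nat_lit 0) (nat_lit 9601237529) (nat_lit 1) (nat_lit 5) (nat_lit 3) (nat_lit 4) (nat_lit 1) (nat_lit 4) (nat_lit 447) (nat_lit 296) (nat_lit 277)) (XT.lf (nat_lit 0) (nat_lit 14457196174) (nat_lit 152) (nat_lit 137808290945) (nat_lit 0) (nat_lit 13234583741) (nat_lit 1) (nat_lit 5) (nat_lit 3) (nat_lit 4) (nat_lit 1) (nat_lit 4) (nat_lit 448) (nat_lit 296) (nat_lit 276)))) (XT.nd (nat_lit 78) (nat_lit 0) (nat_lit 0) (XT.lf (nat_lit 0) (nat_lit 18244012345) (nat_lit 152) (nat_lit 138386615781) (nat_lit 0) (nat_lit 16986185661)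 (nat_lit 1) (nat_lit 5) (nat_lit 3) (nat_lit 4) (nat_lit 1) (nat_lit 4) (nat_lit 449) (nat_lit 296) (nat_lit 275)) (XT.nd (nat_lit 78) (nat_lit 0) (nat_lit 0) (XT.lf (nat_lit 0) (nat_lit 22156339742) (nat_lit 152) (nat_lit 139121273102) (nat_lit 0) (nat_lit 20864975676) (nat_lit 1) (nat_lit 5) (nat_lit 3) (nat_lit 4) (nat_lit 1) (nat_lit 4) (nat_lit 450) (nat_lit 296) (nat_lit 274)) (XT.lf (nat_lit 0) (nat_lit 26203493429) (nat_lit 152) (nat_lit 140014012092) (nat_lit 0) (nat_lit 24880189000) (nat_lit 1) (nat_lit 5) (nat_lit 3) (nat_lit 4) (nat_lit 1) (nat_lit 4) (nat_lit 451) (nat_lit 296) (nat_lit 273)))))) (XT.nd (nat_lit 468) (nat_lit 0) (nat_lit 0) (XT.nd (nat_lit 234) (nat_lit 0) (nat_lit 0) (XT.nd (nat_lit 78) (nat_lit 0) (nat_lit 0) (XT.lf (nat_lit 0) (nat_lit 30395109488) (nat_lit 152) (nat_lit 141066958320) (nat_lit 0) (nat_lit 29041385665) (nat_lit 1) (nat_lit 5) (nat_lit 3) (nat_lit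 4) (nat_lit 1) (nat_lit 4) (nat_lit 452) (nat_lit 296) (nat_lit 272)) (XT.nd (nat_lit 78) (nat_lit 0) (nat_lit 0) (XT.lf (nat_lit 0) (nat_lit 34741167955) (nat_lit 152) (nat_lit 142282618802) (nat_lit 0) (nat_lit 33358473281) (nat_lit 1) (nat_lit 5) (nat_lit 3) (nat_lit 4) (nat_lit 1) (nat_lit 4) (nat_lit 453) (nat_lit 296) (nat_lit 271)) (XT.lf (nat_lit 0) (nat_lit 39252016590) (nat_lit 152) (nat_lit 143663887966) (nat_lit 0) (nat_lit 37841730629) (nat_lit 1) (nat_lit 5) (nat_lit 3) (nat_lit 4) (nat_lit 1) (nat_lit 4) (nat_lit 454) (nat_lit 296) (nat_lit 270)))) (XT.nd (nat_lit 78) (nat_lit 0) (nat_lit 0) (XT.lf (nat_lit 0) (nat_lit 43938395508) (nat_lit 152) (nat_lit 145214054549) (nat_lit 0) (nat_lit 42501832131) (nat_lit 1) (nat_lit 5) (nat_lit 3) (nat_lit 4) (nat_lit 1) (nat_lit 4) (nat_lit 455) (nat_lit 296) (nat_lit 269)) (XT.nd (nat_lit 78) (nat_lit 0) (nat_lit 0) (XT.lf (nat_lit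 0) (nat_lit 48811462755) (nat_lit 152) (nat_lit 146936809424) (nat_lit 0) (nat_lit 47349873267) (nat_lit 1) (nat_lit 5) (nat_lit 3) (nat_lit 4) (nat_lit 1) (nat_lit 4) (nat_lit 456) (nat_lit 296) (nat_lit 268)) (XT.lf (nat_lit 0) (nat_lit 53882820870) (nat_lit 152) (nat_lit 148836254387) (nat_lit 0) (nat_lit 52397396992) (nat_lit 1) (nat_lit 5) (nat_lit 3) (nat_lit 4) (nat_lit 1) (nat_lit 4) (nat_lit 457) (nat_lit 296) (nat_lit 267))))) (XT.nd (nat_lit 234) (nat_lit 0) (nat_lit 0) (XT.nd (nat_lit 78) (nat_lit 0) (nat_lit 0) (XT.lf (nat_lit 0) (nat_lit 59164544517) (nat_lit 152) (nat_lit 150916911928) (nat_lit 0) (nat_lit 57656421220) (nat_lit 1) (nat_lit 5) (nat_lit 3) (nat_lit 4) (nat_lit 1) (nat_lit 4) (nat_lit 458) (nat_lit 296) (nat_lit 266)) (XT.nd (nat_lit 78) (nat_lit 0) (nat_lit 0) (XT.lf (nat_lit 0) (nat_lit 64669209229) (nat_lit 152) (nat_lit 153183735993) (nat_lit 0) (nat_lit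 63139467436) (nat_lit 1) (nat_lit 5) (nat_lit 3) (nat_lit 4) (nat_lit 1) (nat_lit 4) (nat_lit 459) (nat_lit 296) (nat_lit 265)) (XT.lf (nat_lit 0) (nat_lit 70409921349) (nat_lit 152) (nat_lit 155642123781) (nat_lit 0) (nat_lit 68859590513) (nat_lit 1) (nat_lit 5) (nat_lit 3) (nat_lit 4) (nat_lit 1) (nat_lit 4) (nat_lit 460) (nat_lit 296) (nat_lit 264)))) (XT.nd (nat_lit 156) (nat_lit 0) (nat_lit 0) (XT.nd (nat_lit 78) (nat_lit 0) (nat_lit 0) (XT.lf (nat_lit 0) (nat_lit 76400349239) (nat_lit 152) (nat_lit 158297928597) (nat_lit 0) (nat_lit 74830409791) (nat_lit 1) (nat_lit 5) (nat_lit 3) (nat_lit 4) (nat_lit 1) (nat_lit 4) (nat_lit 461) (nat_lit 296) (nat_lit 263)) (XT.lf (nat_lit 0) (nat_lit 82654755824) (nat_lit 152) (nat_lit 161157473785) (nat_lit 0) (nat_lit 81066141507) (nat_lit 1) (nat_lit 5) (nat_lit 3) (nat_lit 4) (nat_lit 1) (nat_lit 4) (nat_lit 462) (nat_lit 296) (nat_lit 262)))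 (XT.nd (nat_lit 78) (nat_lit 0) (nat_lit 0) (XT.lf (nat_lit 0) (nat_lit 89188032547) (nat_lit 152) (nat_lit 164227567788) (nat_lit 0) (nat_lit 87581632641) (nat_lit 1) (nat_lit 5) (nat_lit 3) (nat_lit 4) (nat_lit 1) (nat_lit 4) (nat_lit 463) (nat_lit 296) (nat_lit 261)) (XT.lf (nat_lit 0) (nat_lit 96015734830) (nat_lit 152) (nat_lit 167515520352) (nat_lit 0) (nat_lit 94392396267) (nat_lit 1) (nat_lit 5) (nat_lit 3) (nat_lit 4) (nat_lit 1) (nat_lit 4) (nat_lit 464) (nat_lit 296) (nat_lit 260))))))) (XT.nd (nat_lit 1014) (nat_lit 0) (nat_lit 0) (XT.nd (nat_lit 468) (nat_lit 0) (nat_lit 0) (XT.nd (nat_lit 234) (nat_lit 0) (nat_lit 0) (XT.nd (nat_lit 78) (nat_lit 0) (nat_lit 0) (XT.lf (nat_lit 0) (nat_lit 103154119106) (nat_lit 152) (nat_lit 171029159935) (nat_lit 0) (nat_lit 101514648489) (nat_lit 1) (nat_lit 5) (nat_lit 3) (nat_lit 4) (nat_lit 1) (nat_lit 4) (nat_lit 465) (nat_lit 296) (nat_lit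 259)) (XT.nd (nat_lit 78) (nat_lit 0) (nat_lit 0) (XT.lf (nat_lit 0) (nat_lit 110620181529) (nat_lit 152) (nat_lit 174776852347) (nat_lit 0) (nat_lit 108965347050) (nat_lit 1) (nat_lit 5) (nat_lit 3) (nat_lit 4) (nat_lit 1) (nat_lit 4) (nat_lit 466) (nat_lit 296) (nat_lit 258)) (XT.lf (nat_lit 0) (nat_lit 118431698437) (nat_lit 152) (nat_lit 178767520665) (nat_lit 0) (nat_lit 116762231710) (nat_lit 1) (nat_lit 5) (nat_lit 3) (nat_lit 4) (nat_lit 1) (nat_lit 4) (nat_lit 467) (nat_lit 296) (nat_lit 257)))) (XT.nd (nat_lit 78) (nat_lit 0) (nat_lit 0) (XT.lf (nat_lit 0) (nat_lit 126607268680) (nat_lit 152) (nat_lit 183010666479) (nat_lit 0) (nat_lit 124923866478) (nat_lit 1) (nat_lit 5) (nat_lit 3) (nat_lit 4) (nat_lit 1) (nat_lit 4) (nat_lit 468) (nat_lit 296) (nat_lit 256)) (XT.nd (nat_lit 78) (nat_lit 0) (nat_lit 0) (XT.lf (nat_lit 0) (nat_lit 135166357902) (nat_lit 152) (nat_lit 187516392518)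 (nat_lit 0) (nat_lit 133469683819) (nat_lit 1) (nat_lit 5) (nat_lit 3) (nat_lit 4) (nat_lit 1) (nat_lit 4) (nat_lit 469) (nat_lit 296) (nat_lit 255)) (XT.lf (nat_lit 0) (nat_lit 144129344886) (nat_lit 152) (nat_lit 192295426701) (nat_lit 0) (nat_lit 142420030917) (nat_lit 1) (nat_lit 5) (nat_lit 3) (nat_lit 4) (nat_lit 1) (nat_lit 4) (nat_lit 470) (nat_lit 296) (nat_lit 254))))) (XT.nd (nat_lit 234) (nat_lit 0) (nat_lit 0) (XT.nd (nat_lit 78) (nat_lit 0) (nat_lit 0) (XT.lf (nat_lit 0) (nat_lit 153517570078) (nat_lit 152) (nat_lit 197359147681) (nat_lit 0) (nat_lit 151796218122) (nat_lit 1) (nat_lit 5) (nat_lit 3) (nat_lit 4) (nat_lit 1) (nat_lit 4) (nat_lit 471) (nat_lit 296) (nat_lit 253)) (XT.nd (nat_lit 78) (nat_lit 0) (nat_lit 0) (XT.lf (nat_lit 0) (nat_lit 163353386395) (nat_lit 152) (nat_lit 202719611937) (nat_lit 0) (nat_lit 161620569690) (nat_lit 1) (nat_lit 5) (nat_lit 3) (nat_lit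 4) (nat_lit 1) (nat_lit 4) (nat_lit 472) (nat_lit 296) (nat_lit 252)) (XT.lf (nat_lit 0) (nat_lit 173660212447) (nat_lit 152) (nat_lit 208389582477) (nat_lit 0) (nat_lit 171916476933) (nat_lit 1) (nat_lit 5) (nat_lit 3) (nat_lit 4) (nat_lit 1) (nat_lit 4) (nat_lit 473) (nat_lit 296) (nat_lit 251)))) (XT.nd (nat_lit 156) (nat_lit 0) (nat_lit 0) (XT.nd (nat_lit 78) (nat_lit 0) (nat_lit 0) (XT.lf (nat_lit 0) (nat_lit 184462588296) (nat_lit 152) (nat_lit 214382559234) (nat_lit 0) (nat_lit 182708453916) (nat_lit 1) (nat_lit 5) (nat_lit 3) (nat_lit 4) (nat_lit 1) (nat_lit 4) (nat_lit 474) (nat_lit 296) (nat_lit 250)) (XT.lf (nat_lit 0) (nat_lit 195786233885) (nat_lit 152) (nat_lit 220712811197) (nat_lit 0) (nat_lit 194022195824) (nat_lit 1) (nat_lit 5) (nat_lit 3) (nat_lit 4) (nat_lit 1) (nat_lit 4) (nat_lit 475) (nat_lit 296) (nat_lit 249))) (XT.nd (nat_lit 78) (nat_lit 0) (nat_lit 0) (XT.lf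 (nat_lit 0) (nat_lit 207658110275) (nat_lit 152) (nat_lit 227395410397) (nat_lit 0) (nat_lit 205884640135) (nat_lit 1) (nat_lit 5) (nat_lit 3) (nat_lit 4) (nat_lit 1) (nat_lit 4) (nat_lit 476) (nat_lit 296) (nat_lit 248)) (XT.lf (nat_lit 0) (nat_lit 220106483838) (nat_lit 152) (nat_lit 234446267784) (nat_lit 0) (nat_lit 218324030767) (nat_lit 1) (nat_lit 5) (nat_lit 3) (nat_lit 4) (nat_lit 1) (nat_lit 4) (nat_lit 477) (nat_lit 296) (nat_lit 247)))))) (XT.nd (nat_lit 49218) (nat_lit 0) (nat_lit 152) (XT.nd (nat_lit 234) (nat_lit 0) (nat_lit 0) (XT.nd (nat_lit 78) (nat_lit 0) (nat_lit 0) (XT.lf (nat_lit 0) (nat_lit 233160993558) (nat_lit 152) (nat_lit 241882171112) (nat_lit 0) (nat_lit 231369985314) (nat_lit 1) (nat_lit 5) (nat_lit 3) (nat_lit 4) (nat_lit 1) (nat_lit 4) (nat_lit 478) (nat_lit 296) (nat_lit 246)) (XT.nd (nat_lit 78) (nat_lit 0) (nat_lit 0) (XT.lf (nat_lit 0) (nat_lit 246852721601)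 (nat_lit 152) (nat_lit 249720824915) (nat_lit 0) (nat_lit 245053565575) (nat_lit 1) (nat_lit 5) (nat_lit 3) (nat_lit 4) (nat_lit 1) (nat_lit 4) (nat_lit 479) (nat_lit 296) (nat_lit 245)) (XT.lf (nat_lit 0) (nat_lit 261214267321) (nat_lit 152) (nat_lit 257980892653) (nat_lit 0) (nat_lit 259407351501) (nat_lit 1) (nat_lit 5) (nat_lit 3) (nat_lit 4) (nat_lit 1) (nat_lit 4) (nat_lit 480) (nat_lit 296) (nat_lit 244)))) (XT.nd (nat_lit 48828) (nat_lit 0) (nat_lit 228) (XT.lf (nat_lit 0) (nat_lit 276279824874) (nat_lit 152) (nat_lit 266682041155) (nat_lit 0) (nat_lit 274465518773) (nat_lit 1) (nat_lit 5) (nat_lit 3) (nat_lit 4) (nat_lit 1) (nat_lit 4) (nat_lit 481) (nat_lit 296) (nat_lit 243)) (XT.nd (nat_lit 78) (nat_lit 0) (nat_lit 0) (XT.lf (nat_lit 0) (nat_lit 3954408177) (nat_lit 152) (nat_lit 21763715156) (nat_lit 0) (nat_lit 3954408177) (nat_lit 4) (nat_lit 5) (nat_lit 6) (nat_lit 4) (nat_lit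 4) (nat_lit 4) (nat_lit 426) (nat_lit 297) (nat_lit 297)) (XT.lf (nat_lit 0) (nat_lit 13332148624) (nat_lit 152) (nat_lit 35493931772) (nat_lit 0) (nat_lit 13229137760) (nat_lit 4) (nat_lit 5) (nat_lit 6) (nat_lit 4) (nat_lit 4) (nat_lit 4) (nat_lit 427) (nat_lit 297) (nat_lit 296))))) (XT.nd (nat_lit 234) (nat_lit 76) (nat_lit 0) (XT.nd (nat_lit 78) (nat_lit 0) (nat_lit 0) (XT.lf (nat_lit 0) (nat_lit 18864913123) (nat_lit 152) (nat_lit 27380267268) (nat_lit 0) (nat_lit 18663796674) (nat_lit 4) (nat_lit 5) (nat_lit 6) (nat_lit 4) (nat_lit 4) (nat_lit 4) (nat_lit 428) (nat_lit 297) (nat_lit 295)) (XT.nd (nat_lit 78) (nat_lit 0) (nat_lit 0) (XT.lf (nat_lit 0) (nat_lit 24520283101) (nat_lit 152) (nat_lit 19167118553) (nat_lit 0) (nat_lit 24225732762) (nat_lit 4) (nat_lit 5) (nat_lit 6) (nat_lit 4) (nat_lit 4) (nat_lit 4) (nat_lit 429) (nat_lit 297) (nat_lit 294)) (XT.lf (nat_lit 0) (nat_lit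 30311723725) (nat_lit 152) (nat_lit 10834930511) (nat_lit 0) (nat_lit 29928188728) (nat_lit 4) (nat_lit 5) (nat_lit 6) (nat_lit 4) (nat_lit 4) (nat_lit 4) (nat_lit 430) (nat_lit 297) (nat_lit 293)))) (XT.nd (nat_lit 156) (nat_lit 0) (nat_lit 0) (XT.nd (nat_lit 78) (nat_lit 76) (nat_lit 0) (XT.lf (nat_lit 0) (nat_lit 36253024138) (nat_lit 152) (nat_lit 2363864599) (nat_lit 0) (nat_lit 35784741849) (nat_lit 4) (nat_lit 5) (nat_lit 6) (nat_lit 4) (nat_lit 4) (nat_lit 4) (nat_lit 431) (nat_lit 297) (nat_lit 292)) (XT.lf (nat_lit 0) (nat_lit 6473438857) (nat_lit 76) (nat_lit 35985959960) (nat_lit 76) (nat_lit 35436965963) (nat_lit 3) (nat_lit 4) (nat_lit 4) (nat_lit 5) (nat_lit 4) (nat_lit 4) (nat_lit 432) (nat_lit 297) (nat_lit 291))) (XT.nd (nat_lit 78) (nat_lit 0) (nat_lit 0) (XT.lf (nat_lit 0) (nat_lit 15574435536) (nat_lit 76) (nat_lit 33310903687) (nat_lit 76) (nat_lit 32685041398) (nat_lit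 3) (nat_lit 4) (nat_lit 4) (nat_lit 5) (nat_lit 4) (nat_lit 4) (nat_lit 433) (nat_lit 297) (nat_lit 290)) (XT.lf (nat_lit 0) (nat_lit 24882634439) (nat_lit 76) (nat_lit 30625383929) (nat_lit 76) (nat_lit 29926313742) (nat_lit 3) (nat_lit 4) (nat_lit 4) (nat_lit 5) (nat_lit 4) (nat_lit 4) (nat_lit 434) (nat_lit 297) (nat_lit 289))))))))
noncomputable def xc15 : XT := (XT.nd (nat_lit 1950) (nat_lit 0) (nat_lit 0) (XT.nd (nat_lit 936) (nat_lit 0) (nat_lit 0) (XT.nd (nat_lit 468) (nat_lit 152) (nat_lit 0) (XT.nd (nat_lit 234) (nat_lit 0) (nat_lit 0) (XT.nd (nat_lit 78) (nat_lit 0) (nat_lit 0) (XT.lf (nat_lit 0) (nat_lit 34420197942) (nat_lit 76) (nat_lit 27923006592) (nat_lit 76) (nat_lit 27154214597) (nat_lit 3) (nat_lit 4) (nat_lit 4) (nat_lit 5) (nat_lit 4) (nat_lit 4) (nat_lit 435) (nat_lit 297) (nat_lit 288)) (XT.nd (nat_lit 78) (nat_lit 0) (nat_lit 0) (XT.lf (nat_lit 0) (nat_lit 44209834531)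 (nat_lit 76) (nat_lit 25197337442) (nat_lit 76) (nat_lit 24362143726) (nat_lit 3) (nat_lit 4) (nat_lit 4) (nat_lit 5) (nat_lit 4) (nat_lit 4) (nat_lit 436) (nat_lit 297) (nat_lit 287)) (XT.lf (nat_lit 0) (nat_lit 54274852864) (nat_lit 76) (nat_lit 22441886792) (nat_lit 76) (nat_lit 21543453341) (nat_lit 3) (nat_lit 4) (nat_lit 4) (nat_lit 5) (nat_lit 4) (nat_lit 4) (nat_lit 437) (nat_lit 297) (nat_lit 286)))) (XT.nd (nat_lit 78) (nat_lit 0) (nat_lit 0) (XT.lf (nat_lit 0) (nat_lit 64639217270) (nat_lit 76) (nat_lit 19650094046) (nat_lit 76) (nat_lit 18691432276) (nat_lit 3) (nat_lit 4) (nat_lit 4) (nat_lit 5) (nat_lit 4) (nat_lit 4) (nat_lit 438) (nat_lit 297) (nat_lit 285)) (XT.nd (nat_lit 78) (nat_lit 0) (nat_lit 0) (XT.lf (nat_lit 0) (nat_lit 75327604809) (nat_lit 76) (nat_lit 16815312076) (nat_lit 76) (nat_lit 15799290003) (nat_lit 3) (nat_lit 4) (nat_lit 4) (nat_lit 5) (nat_lit 4) (nat_lit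 4) (nat_lit 439) (nat_lit 297) (nat_lit 284)) (XT.lf (nat_lit 0) (nat_lit 86365464020) (nat_lit 76) (nat_lit 13930791404) (nat_lit 76) (nat_lit 12860140470) (nat_lit 3) (nat_lit 4) (nat_lit 4) (nat_lit 5) (nat_lit 4) (nat_lit 4) (nat_lit 440) (nat_lit 297) (nat_lit 283))))) (XT.nd (nat_lit 234) (nat_lit 152) (nat_lit 0) (XT.nd (nat_lit 78) (nat_lit 0) (nat_lit 0) (XT.lf (nat_lit 0) (nat_lit 97779075523) (nat_lit 76) (nat_lit 10989664121) (nat_lit 76) (nat_lit 9866985701) (nat_lit 3) (nat_lit 4) (nat_lit 4) (nat_lit 5) (nat_lit 4) (nat_lit 4) (nat_lit 441) (nat_lit 297) (nat_lit 282)) (XT.nd (nat_lit 78) (nat_lit 0) (nat_lit 0) (XT.lf (nat_lit 0) (nat_lit 109595614581) (nat_lit 76) (nat_lit 7984927545) (nat_lit 76) (nat_lit 6812699138) (nat_lit 3) (nat_lit 4) (nat_lit 4) (nat_lit 5) (nat_lit 4) (nat_lit 4) (nat_lit 442) (nat_lit 297) (nat_lit 281)) (XT.lf (nat_lit 0) (nat_lit 121843215812)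 (nat_lit 76) (nat_lit 4909427540) (nat_lit 76) (nat_lit 3690008669) (nat_lit 3) (nat_lit 4) (nat_lit 4) (nat_lit 5) (nat_lit 4) (nat_lit 4) (nat_lit 443) (nat_lit 297) (nat_lit 280)))) (XT.nd (nat_lit 78) (nat_lit 152) (nat_lit 0) (XT.lf (nat_lit 0) (nat_lit 134551040172) (nat_lit 76) (nat_lit 1755841488) (nat_lit 76) (nat_lit 491479318) (nat_lit 3) (nat_lit 4) (nat_lit 4) (nat_lit 5) (nat_lit 4) (nat_lit 4) (nat_lit 444) (nat_lit 297) (nat_lit 279)) (XT.nd (nat_lit 78) (nat_lit 0) (nat_lit 0) (XT.lf (nat_lit 0) (nat_lit 2794412982) (nat_lit 152) (nat_lit 139124754667) (nat_lit 0) (nat_lit 1549493638) (nat_lit 1) (nat_lit 5) (nat_lit 3) (nat_lit 4) (nat_lit 1) (nat_lit 4) (nat_lit 445) (nat_lit 297) (nat_lit 278)) (XT.lf (nat_lit 0) (nat_lit 6221659927) (nat_lit 152) (nat_lit 139312821795) (nat_lit 0) (nat_lit 4937916872) (nat_lit 1) (nat_lit 5) (nat_lit 3) (nat_lit 4) (nat_lit 1) (nat_lit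 4) (nat_lit 446) (nat_lit 297) (nat_lit 277)))))) (XT.nd (nat_lit 468) (nat_lit 0) (nat_lit 0) (XT.nd (nat_lit 234) (nat_lit 0) (nat_lit 0) (XT.nd (nat_lit 78) (nat_lit 0) (nat_lit 0) (XT.lf (nat_lit 0) (nat_lit 9749897104) (nat_lit 152) (nat_lit 139650768688) (nat_lit 0) (nat_lit 8429179085) (nat_lit 1) (nat_lit 5) (nat_lit 3) (nat_lit 4) (nat_lit 1) (nat_lit 4) (nat_lit 447) (nat_lit 297) (nat_lit 276)) (XT.nd (nat_lit 78) (nat_lit 0) (nat_lit 0) (XT.lf (nat_lit 0) (nat_lit 13387525077) (nat_lit 152) (nat_lit 140139399981) (nat_lit 0) (nat_lit 12031592808) (nat_lit 1) (nat_lit 5) (nat_lit 3) (nat_lit 4) (nat_lit 1) (nat_lit 4) (nat_lit 448) (nat_lit 297) (nat_lit 275)) (XT.lf (nat_lit 0) (nat_lit 17143204867) (nat_lit 152) (nat_lit 140779879082) (nat_lit 0) (nat_lit 15753735216) (nat_lit 1) (nat_lit 5) (nat_lit 3) (nat_lit 4) (nat_lit 1) (nat_lit 4) (nat_lit 449) (nat_lit 297) (nat_lit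 274)))) (XT.nd (nat_lit 78) (nat_lit 0) (nat_lit 0) (XT.lf (nat_lit 0) (nat_lit 21025878566) (nat_lit 152) (nat_lit 141573730941) (nat_lit 0) (nat_lit 19604468552) (nat_lit 1) (nat_lit 5) (nat_lit 3) (nat_lit 4) (nat_lit 1) (nat_lit 4) (nat_lit 450) (nat_lit 297) (nat_lit 273)) (XT.nd (nat_lit 78) (nat_lit 0) (nat_lit 0) (XT.lf (nat_lit 0) (nat_lit 25044790637) (nat_lit 152) (nat_lit 142522845682) (nat_lit 0) (nat_lit 23592961230) (nat_lit 1) (nat_lit 5) (nat_lit 3) (nat_lit 4) (nat_lit 1) (nat_lit 4) (nat_lit 451) (nat_lit 297) (nat_lit 272)) (XT.lf (nat_lit 0) (nat_lit 29209509918) (nat_lit 152) (nat_lit 143629483101) (nat_lit 0) (nat_lit 27728709659) (nat_lit 1) (nat_lit 5) (nat_lit 3) (nat_lit 4) (nat_lit 1) (nat_lit 4) (nat_lit 452) (nat_lit 297) (nat_lit 271))))) (XT.nd (nat_lit 234) (nat_lit 0) (nat_lit 0) (XT.nd (nat_lit 78) (nat_lit 0) (nat_lit 0) (XT.lf (nat_lit 0) (nat_lit 33529952407)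 (nat_lit 152) (nat_lit 144896278050) (nat_lit 0) (nat_lit 32021560861) (nat_lit 1) (nat_lit 5) (nat_lit 3) (nat_lit 4) (nat_lit 1) (nat_lit 4) (nat_lit 453) (nat_lit 297) (nat_lit 270)) (XT.nd (nat_lit 78) (nat_lit 0) (nat_lit 0) (XT.lf (nat_lit 0) (nat_lit 38016404872) (nat_lit 152) (nat_lit 146326246707) (nat_lit 0) (nat_lit 36481735910) (nat_lit 1) (nat_lit 5) (nat_lit 3) (nat_lit 4) (nat_lit 1) (nat_lit 4) (nat_lit 454) (nat_lit 297) (nat_lit 269)) (XT.lf (nat_lit 0) (nat_lit 42679549342) (nat_lit 152) (nat_lit 147922793760) (nat_lit 0) (nat_lit 41119854270) (nat_lit 1) (nat_lit 5) (nat_lit 3) (nat_lit 4) (nat_lit 1) (nat_lit 4) (nat_lit 455) (nat_lit 297) (nat_lit 268)))) (XT.nd (nat_lit 156) (nat_lit 0) (nat_lit 0) (XT.nd (nat_lit 78) (nat_lit 0) (nat_lit 0) (XT.lf (nat_lit 0) (nat_lit 47530488543) (nat_lit 152) (nat_lit 149689720510) (nat_lit 0) (nat_lit 45946959081) (nat_lit 1) (nat_lit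 5) (nat_lit 3) (nat_lit 4) (nat_lit 1) (nat_lit 4) (nat_lit 456) (nat_lit 297) (nat_lit 267)) (XT.lf (nat_lit 0) (nat_lit 52580772330) (nat_lit 152) (nat_lit 151631233927) (nat_lit 0) (nat_lit 50974543448) (nat_lit 1) (nat_lit 5) (nat_lit 3) (nat_lit 4) (nat_lit 1) (nat_lit 4) (nat_lit 457) (nat_lit 297) (nat_lit 266))) (XT.nd (nat_lit 78) (nat_lit 0) (nat_lit 0) (XT.lf (nat_lit 0) (nat_lit 57842425188) (nat_lit 152) (nat_lit 153751956661) (nat_lit 0) (nat_lit 56214577810) (nat_lit 1) (nat_lit 5) (nat_lit 3) (nat_lit 4) (nat_lit 1) (nat_lit 4) (nat_lit 458) (nat_lit 297) (nat_lit 265)) (XT.lf (nat_lit 0) (nat_lit 63327974862) (nat_lit 152) (nat_lit 156056938053) (nat_lit 0) (nat_lit 61679538441) (nat_lit 1) (nat_lit 5) (nat_lit 3) (nat_lit 4) (nat_lit 1) (nat_lit 4) (nat_lit 459) (nat_lit 297) (nat_lit 264))))))) (XT.nd (nat_lit 1014) (nat_lit 0) (nat_lit 0) (XT.nd (nat_lit 468) (nat_lit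 0) (nat_lit 0) (XT.nd (nat_lit 234) (nat_lit 0) (nat_lit 0) (XT.nd (nat_lit 78) (nat_lit 0) (nat_lit 0) (XT.lf (nat_lit 0) (nat_lit 69050482184) (nat_lit 152) (nat_lit 158551666152) (nat_lit 0) (nat_lit 67382437151) (nat_lit 1) (nat_lit 5) (nat_lit 3) (nat_lit 4) (nat_lit 1) (nat_lit 4) (nat_lit 460) (nat_lit 297) (nat_lit 263)) (XT.nd (nat_lit 78) (nat_lit 0) (nat_lit 0) (XT.lf (nat_lit 0) (nat_lit 75023572172) (nat_lit 152) (nat_lit 161242080789) (nat_lit 0) (nat_lit 73336852270) (nat_lit 1) (nat_lit 5) (nat_lit 3) (nat_lit 4) (nat_lit 1) (nat_lit 4) (nat_lit 461) (nat_lit 297) (nat_lit 262)) (XT.lf (nat_lit 0) (nat_lit 81261466469) (nat_lit 152) (nat_lit 164134587712) (nat_lit 0) (nat_lit 79556960977) (nat_lit 1) (nat_lit 5) (nat_lit 3) (nat_lit 4) (nat_lit 1) (nat_lit 4) (nat_lit 462) (nat_lit 297) (nat_lit 261)))) (XT.nd (nat_lit 78) (nat_lit 0) (nat_lit 0) (XT.lf (nat_lit 0) (nat_lit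 87779017203) (nat_lit 152) (nat_lit 167236073841) (nat_lit 0) (nat_lit 86057573055) (nat_lit 1) (nat_lit 5) (nat_lit 3) (nat_lit 4) (nat_lit 1) (nat_lit 4) (nat_lit 463) (nat_lit 297) (nat_lit 260)) (XT.nd (nat_lit 78) (nat_lit 0) (nat_lit 0) (XT.lf (nat_lit 0) (nat_lit 94591742354) (nat_lit 152) (nat_lit 170553923670) (nat_lit 0) (nat_lit 92854166152) (nat_lit 1) (nat_lit 5) (nat_lit 3) (nat_lit 4) (nat_lit 1) (nat_lit 4) (nat_lit 464) (nat_lit 297) (nat_lit 259)) (XT.lf (nat_lit 0) (nat_lit 101715862695) (nat_lit 152) (nat_lit 174096036838) (nat_lit 0) (nat_lit 99962922632) (nat_lit 1) (nat_lit 5) (nat_lit 3) (nat_lit 4) (nat_lit 1) (nat_lit 4) (nat_lit 465) (nat_lit 297) (nat_lit 258))))) (XT.nd (nat_lit 234) (nat_lit 0) (nat_lit 0) (XT.nd (nat_lit 78) (nat_lit 0) (nat_lit 0) (XT.lf (nat_lit 0) (nat_lit 109168340417) (nat_lit 152) (nat_lit 177870846950) (nat_lit 0) (nat_lit 107400768105)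 (nat_lit 1) (nat_lit 5) (nat_lit 3) (nat_lit 4) (nat_lit 1) (nat_lit 4) (nat_lit 466) (nat_lit 297) (nat_lit 257)) (XT.nd (nat_lit 78) (nat_lit 0) (nat_lit 0) (XT.lf (nat_lit 0) (nat_lit 116966919515) (nat_lit 152) (nat_lit 181887341648) (nat_lit 0) (nat_lit 115185411729) (nat_lit 1) (nat_lit 5) (nat_lit 3) (nat_lit 4) (nat_lit 1) (nat_lit 4) (nat_lit 467) (nat_lit 297) (nat_lit 256)) (XT.lf (nat_lit 0) (nat_lit 125130168034) (nat_lit 152) (nat_lit 186155084016) (nat_lit 0) (nat_lit 123335388367) (nat_lit 1) (nat_lit 5) (nat_lit 3) (nat_lit 4) (nat_lit 1) (nat_lit 4) (nat_lit 468) (nat_lit 297) (nat_lit 255)))) (XT.nd (nat_lit 156) (nat_lit 0) (nat_lit 0) (XT.nd (nat_lit 78) (nat_lit 0) (nat_lit 0) (XT.lf (nat_lit 0) (nat_lit 133677522281) (nat_lit 152) (nat_lit 190684235344) (nat_lit 0) (nat_lit 131870102728) (nat_lit 1) (nat_lit 5) (nat_lit 3) (nat_lit 4) (nat_lit 1) (nat_lit 4) (nat_lit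 469) (nat_lit 297) (nat_lit 254)) (XT.lf (nat_lit 0) (nat_lit 142629333099) (nat_lit 152) (nat_lit 195485579326) (nat_lit 0) (nat_lit 140809875559) (nat_lit 1) (nat_lit 5) (nat_lit 3) (nat_lit 4) (nat_lit 1) (nat_lit 4) (nat_lit 470) (nat_lit 297) (nat_lit 253))) (XT.nd (nat_lit 78) (nat_lit 0) (nat_lit 0) (XT.lf (nat_lit 0) (nat_lit 152006914323) (nat_lit 152) (nat_lit 200570547733) (nat_lit 0) (nat_lit 150175992033) (nat_lit 1) (nat_lit 5) (nat_lit 3) (nat_lit 4) (nat_lit 1) (nat_lit 4) (nat_lit 471) (nat_lit 297) (nat_lit 252)) (XT.lf (nat_lit 0) (nat_lit 161832593527) (nat_lit 152) (nat_lit 205951247634) (nat_lit 0) (nat_lit 159990752428) (nat_lit 1) (nat_lit 5) (nat_lit 3) (nat_lit 4) (nat_lit 1) (nat_lit 4) (nat_lit 472) (nat_lit 297) (nat_lit 251)))))) (XT.nd (nat_lit 468) (nat_lit 0) (nat_lit 0) (XT.nd (nat_lit 234) (nat_lit 0) (nat_lit 0) (XT.nd (nat_lit 78) (nat_lit 0) (nat_lit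 0) (XT.lf (nat_lit 0) (nat_lit 172129765187) (nat_lit 152) (nat_lit 211640490218) (nat_lit 0) (nat_lit 170277525222) (nat_lit 1) (nat_lit 5) (nat_lit 3) (nat_lit 4) (nat_lit 1) (nat_lit 4) (nat_lit 473) (nat_lit 297) (nat_lit 250)) (XT.nd (nat_lit 78) (nat_lit 0) (nat_lit 0) (XT.lf (nat_lit 0) (nat_lit 182922946376) (nat_lit 152) (nat_lit 217651821301) (nat_lit 0) (nat_lit 181060802730) (nat_lit 1) (nat_lit 5) (nat_lit 3) (nat_lit 4) (nat_lit 1) (nat_lit 4) (nat_lit 474) (nat_lit 297) (nat_lit 249)) (XT.lf (nat_lit 0) (nat_lit 194237835146) (nat_lit 152) (nat_lit 223999553575) (nat_lit 0) (nat_lit 192366259422) (nat_lit 1) (nat_lit 5) (nat_lit 3) (nat_lit 4) (nat_lit 1) (nat_lit 4) (nat_lit 475) (nat_lit 297) (nat_lit 248)))) (XT.nd (nat_lit 78) (nat_lit 0) (nat_lit 0) (XT.lf (nat_lit 0) (nat_lit 206101371708) (nat_lit 152) (nat_lit 230698800691) (nat_lit 0) (nat_lit 204220813052) (nat_lit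 1) (nat_lit 5) (nat_lit 3) (nat_lit 4) (nat_lit 1) (nat_lit 4) (nat_lit 476) (nat_lit 297) (nat_lit 247)) (XT.nd (nat_lit 78) (nat_lit 0) (nat_lit 0) (XT.lf (nat_lit 0) (nat_lit 218541802578) (nat_lit 152) (nat_lit 237765513235) (nat_lit 0) (nat_lit 216652688749) (nat_lit 1) (nat_lit 5) (nat_lit 3) (nat_lit 4) (nat_lit 1) (nat_lit 4) (nat_lit 477) (nat_lit 297) (nat_lit 246)) (XT.lf (nat_lit 0) (nat_lit 231588747828) (nat_lit 152) (nat_lit 245216516713) (nat_lit 0) (nat_lit 229691486217) (nat_lit 1) (nat_lit 5) (nat_lit 3) (nat_lit 4) (nat_lit 1) (nat_lit 4) (nat_lit 478) (nat_lit 297) (nat_lit 245))))) (XT.nd (nat_lit 48828) (nat_lit 0) (nat_lit 228) (XT.nd (nat_lit 78) (nat_lit 0) (nat_lit 0) (XT.lf (nat_lit 0) (nat_lit 245273271616) (nat_lit 152) (nat_lit 253069551611) (nat_lit 0) (nat_lit 243368250210) (nat_lit 1) (nat_lit 5) (nat_lit 3) (nat_lit 4) (nat_lit 1) (nat_lit 4) (nat_lit 479)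 (nat_lit 297) (nat_lit 244)) (XT.nd (nat_lit 78) (nat_lit 0) (nat_lit 0) (XT.lf (nat_lit 0) (nat_lit 259627956139) (nat_lit 152) (nat_lit 261343315631) (nat_lit 0) (nat_lit 257715544453) (nat_lit 1) (nat_lit 5) (nat_lit 3) (nat_lit 4) (nat_lit 1) (nat_lit 4) (nat_lit 480) (nat_lit 297) (nat_lit 243)) (XT.lf (nat_lit 0) (nat_lit 274686979218) (nat_lit 152) (nat_lit 270057508209) (nat_lit 0) (nat_lit 272767529171) (nat_lit 1) (nat_lit 5) (nat_lit 3) (nat_lit 4) (nat_lit 1) (nat_lit 4) (nat_lit 481) (nat_lit 297) (nat_lit 242)))) (XT.nd (nat_lit 156) (nat_lit 0) (nat_lit 0) (XT.nd (nat_lit 78) (nat_lit 152) (nat_lit 0) (XT.lf (nat_lit 0) (nat_lit 24732922251) (nat_lit 76) (nat_lit 1213029038) (nat_lit 76) (nat_lit 1213029038) (nat_lit 6) (nat_lit 4) (nat_lit 7) (nat_lit 5) (nat_lit 7) (nat_lit 4) (nat_lit 424) (nat_lit 298) (nat_lit 298)) (XT.lf (nat_lit 0) (nat_lit 2690165026) (nat_lit 152)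 (nat_lit 51499890271) (nat_lit 0) (nat_lit 2582003619) (nat_lit 4) (nat_lit 5) (nat_lit 6) (nat_lit 4) (nat_lit 4) (nat_lit 4) (nat_lit 425) (nat_lit 298) (nat_lit 297))) (XT.nd (nat_lit 78) (nat_lit 0) (nat_lit 0) (XT.lf (nat_lit 0) (nat_lit 7934138199) (nat_lit 152) (nat_lit 43692105637) (nat_lit 0) (nat_lit 7722965928) (nat_lit 4) (nat_lit 5) (nat_lit 6) (nat_lit 4) (nat_lit 4) (nat_lit 4) (nat_lit 426) (nat_lit 298) (nat_lit 296)) (XT.lf (nat_lit 0) (nat_lit 13278575647) (nat_lit 152) (nat_lit 35815440737) (nat_lit 0) (nat_lit 12969297791) (nat_lit 4) (nat_lit 5) (nat_lit 6) (nat_lit 4) (nat_lit 4) (nat_lit 4) (nat_lit 427) (nat_lit 298) (nat_lit 295))))))))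
noncomputable def xc16 : XT := (XT.nd (nat_lit 1950) (nat_lit 0) (nat_lit 0) (XT.nd (nat_lit 936) (nat_lit 152) (nat_lit 0) (XT.nd (nat_lit 468) (nat_lit 0) (nat_lit 0) (XT.nd (nat_lit 234) (nat_lit 76) (nat_lit 0) (XT.nd (nat_lit 78) (nat_lit 0) (nat_lit 0) (XT.lf (nat_lit 0) (nat_lit 18736202222) (nat_lit 152) (nat_lit 27851141605) (nat_lit 0) (nat_lit 18333490476) (nat_lit 4) (nat_lit 5) (nat_lit 6) (nat_lit 4) (nat_lit 4) (nat_lit 4) (nat_lit 428) (nat_lit 298) (nat_lit 294)) (XT.nd (nat_lit 78) (nat_lit 0) (nat_lit 0) (XT.lf (nat_lit 0) (nat_lit 24320012272) (nat_lit 152) (nat_lit 19780245626) (nat_lit 0) (nat_lit 23828315868) (nat_lit 4) (nat_lit 5) (nat_lit 6) (nat_lit 4) (nat_lit 4) (nat_lit 4) (nat_lit 429) (nat_lit 298) (nat_lit 293)) (XT.lf (nat_lit 0) (nat_lit 30043300582) (nat_lit 152) (nat_lit 11583536381) (nat_lit 0) (nat_lit 29466856886) (nat_lit 4) (nat_lit 5) (nat_lit 6)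 (nat_lit 4) (nat_lit 4) (nat_lit 4) (nat_lit 430) (nat_lit 298) (nat_lit 292)))) (XT.nd (nat_lit 78) (nat_lit 76) (nat_lit 0) (XT.lf (nat_lit 0) (nat_lit 35919694031) (nat_lit 152) (nat_lit 3241497894) (nat_lit 0) (nat_lit 35262538627) (nat_lit 4) (nat_lit 5) (nat_lit 6) (nat_lit 4) (nat_lit 4) (nat_lit 4) (nat_lit 431) (nat_lit 298) (nat_lit 291)) (XT.nd (nat_lit 78) (nat_lit 0) (nat_lit 0) (XT.lf (nat_lit 0) (nat_lit 5439840705) (nat_lit 76) (nat_lit 36608274485) (nat_lit 76) (nat_lit 35874250788) (nat_lit 3) (nat_lit 4) (nat_lit 4) (nat_lit 5) (nat_lit 4) (nat_lit 4) (nat_lit 432) (nat_lit 298) (nat_lit 290)) (XT.lf (nat_lit 0) (nat_lit 14419936110) (nat_lit 76) (nat_lit 33993359348) (nat_lit 76) (nat_lit 33186127753) (nat_lit 3) (nat_lit 4) (nat_lit 4) (nat_lit 5) (nat_lit 4) (nat_lit 4) (nat_lit 433) (nat_lit 298) (nat_lit 289))))) (XT.nd (nat_lit 234) (nat_lit 0) (nat_lit 0) (XT.nd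 (nat_lit 78) (nat_lit 0) (nat_lit 0) (XT.lf (nat_lit 0) (nat_lit 23612990942) (nat_lit 76) (nat_lit 31365116862) (nat_lit 76) (nat_lit 30488163460) (nat_lit 3) (nat_lit 4) (nat_lit 4) (nat_lit 5) (nat_lit 4) (nat_lit 4) (nat_lit 434) (nat_lit 298) (nat_lit 288)) (XT.nd (nat_lit 78) (nat_lit 0) (nat_lit 0) (XT.lf (nat_lit 0) (nat_lit 33040893426) (nat_lit 76) (nat_lit 28717289307) (nat_lit 76) (nat_lit 27773934184) (nat_lit 3) (nat_lit 4) (nat_lit 4) (nat_lit 5) (nat_lit 4) (nat_lit 4) (nat_lit 435) (nat_lit 298) (nat_lit 287)) (XT.lf (nat_lit 0) (nat_lit 42726090949) (nat_lit 76) (nat_lit 26043572332) (nat_lit 76) (nat_lit 25036977474) (nat_lit 3) (nat_lit 4) (nat_lit 4) (nat_lit 5) (nat_lit 4) (nat_lit 4) (nat_lit 436) (nat_lit 298) (nat_lit 286)))) (XT.nd (nat_lit 78) (nat_lit 0) (nat_lit 0) (XT.lf (nat_lit 0) (nat_lit 52691643505) (nat_lit 76) (nat_lit 23337599944) (nat_lit 76) (nat_lit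 22270776767) (nat_lit 3) (nat_lit 4) (nat_lit 4) (nat_lit 5) (nat_lit 4) (nat_lit 4) (nat_lit 437) (nat_lit 298) (nat_lit 285)) (XT.nd (nat_lit 78) (nat_lit 0) (nat_lit 0) (XT.lf (nat_lit 0) (nat_lit 62961278600) (nat_lit 76) (nat_lit 20592929350) (nat_lit 76) (nat_lit 19468745870) (nat_lit 3) (nat_lit 4) (nat_lit 4) (nat_lit 5) (nat_lit 4) (nat_lit 4) (nat_lit 438) (nat_lit 298) (nat_lit 284)) (XT.lf (nat_lit 0) (nat_lit 73559447746) (nat_lit 76) (nat_lit 17803025623) (nat_lit 76) (nat_lit 16624213281) (nat_lit 3) (nat_lit 4) (nat_lit 4) (nat_lit 5) (nat_lit 4) (nat_lit 4) (nat_lit 439) (nat_lit 298) (nat_lit 283)))))) (XT.nd (nat_lit 468) (nat_lit 0) (nat_lit 0) (XT.nd (nat_lit 234) (nat_lit 152) (nat_lit 0) (XT.nd (nat_lit 78) (nat_lit 0) (nat_lit 0) (XT.lf (nat_lit 0) (nat_lit 84511384680) (nat_lit 76) (nat_lit 14961246132) (nat_lit 76) (nat_lit 13730406305) (nat_lit 3) (nat_lit 4) (nat_lit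 4) (nat_lit 5) (nat_lit 4) (nat_lit 4) (nat_lit 440) (nat_lit 298) (nat_lit 282)) (XT.nd (nat_lit 78) (nat_lit 0) (nat_lit 0) (XT.lf (nat_lit 0) (nat_lit 95843165441) (nat_lit 76) (nat_lit 12060824738) (nat_lit 76) (nat_lit 10780434923) (nat_lit 3) (nat_lit 4) (nat_lit 4) (nat_lit 5) (nat_lit 4) (nat_lit 4) (nat_lit 441) (nat_lit 298) (nat_lit 281)) (XT.lf (nat_lit 0) (nat_lit 107581770461) (nat_lit 76) (nat_lit 9094855674) (nat_lit 76) (nat_lit 7767275396) (nat_lit 3) (nat_lit 4) (nat_lit 4) (nat_lit 5) (nat_lit 4) (nat_lit 4) (nat_lit 442) (nat_lit 298) (nat_lit 280)))) (XT.nd (nat_lit 78) (nat_lit 152) (nat_lit 0) (XT.lf (nat_lit 0) (nat_lit 119755148798) (nat_lit 76) (nat_lit 6056277109) (nat_lit 76) (nat_lit 4683753533) (nat_lit 3) (nat_lit 4) (nat_lit 4) (nat_lit 5) (nat_lit 4) (nat_lit 4) (nat_lit 443) (nat_lit 298) (nat_lit 279)) (XT.nd (nat_lit 78) (nat_lit 152) (nat_lit 0) (XT.lf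 (nat_lit 0) (nat_lit 132392284686) (nat_lit 76) (nat_lit 2937854333) (nat_lit 76) (nat_lit 1522527615) (nat_lit 3) (nat_lit 4) (nat_lit 4) (nat_lit 5) (nat_lit 4) (nat_lit 4) (nat_lit 444) (nat_lit 298) (nat_lit 278)) (XT.lf (nat_lit 0) (nat_lit 1705586192) (nat_lit 152) (nat_lit 141503894078) (nat_lit 0) (nat_lit 318832272) (nat_lit 1) (nat_lit 5) (nat_lit 3) (nat_lit 4) (nat_lit 1) (nat_lit 4) (nat_lit 445) (nat_lit 298) (nat_lit 277))))) (XT.nd (nat_lit 234) (nat_lit 0) (nat_lit 0) (XT.nd (nat_lit 78) (nat_lit 0) (nat_lit 0) (XT.lf (nat_lit 0) (nat_lit 5098505275) (nat_lit 152) (nat_lit 141760486283) (nat_lit 0) (nat_lit 3674776393) (nat_lit 1) (nat_lit 5) (nat_lit 3) (nat_lit 4) (nat_lit 1) (nat_lit 4) (nat_lit 446) (nat_lit 298) (nat_lit 276)) (XT.nd (nat_lit 78) (nat_lit 0) (nat_lit 0) (XT.lf (nat_lit 0) (nat_lit 8594049251) (nat_lit 152) (nat_lit 142163695154) (nat_lit 0) (nat_lit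 7135106118) (nat_lit 1) (nat_lit 5) (nat_lit 3) (nat_lit 4) (nat_lit 1) (nat_lit 4) (nat_lit 447) (nat_lit 298) (nat_lit 275)) (XT.lf (nat_lit 0) (nat_lit 12200540843) (nat_lit 152) (nat_lit 142714480712) (nat_lit 0) (nat_lit 10708060328) (nat_lit 1) (nat_lit 5) (nat_lit 3) (nat_lit 4) (nat_lit 1) (nat_lit 4) (nat_lit 448) (nat_lit 298) (nat_lit 274)))) (XT.nd (nat_lit 156) (nat_lit 0) (nat_lit 0) (XT.nd (nat_lit 78) (nat_lit 0) (nat_lit 0) (XT.lf (nat_lit 0) (nat_lit 15926566935) (nat_lit 152) (nat_lit 143414154351) (nat_lit 0) (nat_lit 14402146057) (nat_lit 1) (nat_lit 5) (nat_lit 3) (nat_lit 4) (nat_lit 1) (nat_lit 4) (nat_lit 449) (nat_lit 298) (nat_lit 273)) (XT.lf (nat_lit 0) (nat_lit 19780999018) (nat_lit 152) (nat_lit 144264381961) (nat_lit 0) (nat_lit 18226158746) (nat_lit 1) (nat_lit 5) (nat_lit 3) (nat_lit 4) (nat_lit 1) (nat_lit 4) (nat_lit 450) (nat_lit 298) (nat_lit 272)))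 (XT.nd (nat_lit 78) (nat_lit 0) (nat_lit 0) (XT.lf (nat_lit 0) (nat_lit 23773014312) (nat_lit 152) (nat_lit 145267187892) (nat_lit 0) (nat_lit 22189203189) (nat_lit 1) (nat_lit 5) (nat_lit 3) (nat_lit 4) (nat_lit 1) (nat_lit 4) (nat_lit 451) (nat_lit 298) (nat_lit 271)) (XT.lf (nat_lit 0) (nat_lit 27912117614) (nat_lit 152) (nat_lit 146424959779) (nat_lit 0) (nat_lit 26300715204) (nat_lit 1) (nat_lit 5) (nat_lit 3) (nat_lit 4) (nat_lit 1) (nat_lit 4) (nat_lit 452) (nat_lit 298) (nat_lit 270))))))) (XT.nd (nat_lit 1014) (nat_lit 0) (nat_lit 0) (XT.nd (nat_lit 468) (nat_lit 0) (nat_lit 0) (XT.nd (nat_lit 234) (nat_lit 0) (nat_lit 0) (XT.nd (nat_lit 78) (nat_lit 0) (nat_lit 0) (XT.lf (nat_lit 0) (nat_lit 32208163933) (nat_lit 152) (nat_lit 147740454222) (nat_lit 0) (nat_lit 30570484107) (nat_lit 1) (nat_lit 5) (nat_lit 3) (nat_lit 4) (nat_lit 1) (nat_lit 4) (nat_lit 453) (nat_lit 298) (nat_lit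 269)) (XT.nd (nat_lit 78) (nat_lit 0) (nat_lit 0) (XT.lf (nat_lit 0) (nat_lit 36671381950) (nat_lit 152) (nat_lit 149216803348) (nat_lit 0) (nat_lit 35008676014) (nat_lit 1) (nat_lit 5) (nat_lit 3) (nat_lit 4) (nat_lit 1) (nat_lit 4) (nat_lit 454) (nat_lit 298) (nat_lit 268)) (XT.lf (nat_lit 0) (nat_lit 41312398375) (nat_lit 152) (nat_lit 150857522277) (nat_lit 0) (nat_lit 39625858048) (nat_lit 1) (nat_lit 5) (nat_lit 3) (nat_lit 4) (nat_lit 1) (nat_lit 4) (nat_lit 455) (nat_lit 298) (nat_lit 267)))) (XT.nd (nat_lit 78) (nat_lit 0) (nat_lit 0) (XT.lf (nat_lit 0) (nat_lit 46142263247) (nat_lit 152) (nat_lit 152666517480) (nat_lit 0) (nat_lit 44433023501) (nat_lit 1) (nat_lit 5) (nat_lit 3) (nat_lit 4) (nat_lit 1) (nat_lit 4) (nat_lit 456) (nat_lit 298) (nat_lit 266)) (XT.nd (nat_lit 78) (nat_lit 0) (nat_lit 0) (XT.lf (nat_lit 0) (nat_lit 51172476245) (nat_lit 152) (nat_lit 154648096090) (nat_lit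 0) (nat_lit 49441618003) (nat_lit 1) (nat_lit 5) (nat_lit 3) (nat_lit 4) (nat_lit 1) (nat_lit 4) (nat_lit 457) (nat_lit 298) (nat_lit 265)) (XT.lf (nat_lit 0) (nat_lit 56415014065) (nat_lit 152) (nat_lit 156806976152) (nat_lit 0) (nat_lit 54663566780) (nat_lit 1) (nat_lit 5) (nat_lit 3) (nat_lit 4) (nat_lit 1) (nat_lit 4) (nat_lit 458) (nat_lit 298) (nat_lit 264))))) (XT.nd (nat_lit 234) (nat_lit 0) (nat_lit 0) (XT.nd (nat_lit 78) (nat_lit 0) (nat_lit 0) (XT.lf (nat_lit 0) (nat_lit 61882358941) (nat_lit 152) (nat_lit 159148297855) (nat_lit 0) (nat_lit 60111303044) (nat_lit 1) (nat_lit 5) (nat_lit 3) (nat_lit 4) (nat_lit 1) (nat_lit 4) (nat_lit 459) (nat_lit 298) (nat_lit 263)) (XT.nd (nat_lit 78) (nat_lit 0) (nat_lit 0) (XT.lf (nat_lit 0) (nat_lit 67587528361) (nat_lit 152) (nat_lit 161677635775) (nat_lit 0) (nat_lit 65797797594) (nat_lit 1) (nat_lit 5) (nat_lit 3) (nat_lit 4) (nat_lit 1)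 (nat_lit 4) (nat_lit 460) (nat_lit 298) (nat_lit 262)) (XT.lf (nat_lit 0) (nat_lit 73544106061) (nat_lit 152) (nat_lit 164401012145) (nat_lit 0) (nat_lit 71736589705) (nat_lit 1) (nat_lit 5) (nat_lit 3) (nat_lit 4) (nat_lit 1) (nat_lit 4) (nat_lit 461) (nat_lit 298) (nat_lit 261)))) (XT.nd (nat_lit 156) (nat_lit 0) (nat_lit 0) (XT.nd (nat_lit 78) (nat_lit 0) (nat_lit 0) (XT.lf (nat_lit 0) (nat_lit 79766274369) (nat_lit 152) (nat_lit 167324911195) (nat_lit 0) (nat_lit 77941819356) (nat_lit 1) (nat_lit 5) (nat_lit 3) (nat_lit 4) (nat_lit 1) (nat_lit 4) (nat_lit 462) (nat_lit 298) (nat_lit 260)) (XT.lf (nat_lit 0) (nat_lit 86268847971) (nat_lit 152) (nat_lit 170456294589) (nat_lit 0) (nat_lit 84428260905) (nat_lit 1) (nat_lit 5) (nat_lit 3) (nat_lit 4) (nat_lit 1) (nat_lit 4) (nat_lit 463) (nat_lit 298) (nat_lit 259))) (XT.nd (nat_lit 78) (nat_lit 0) (nat_lit 0) (XT.lf (nat_lit 0) (nat_lit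 93067309186) (nat_lit 152) (nat_lit 173802618002) (nat_lit 0) (nat_lit 91211358259) (nat_lit 1) (nat_lit 5) (nat_lit 3) (nat_lit 4) (nat_lit 1) (nat_lit 4) (nat_lit 464) (nat_lit 298) (nat_lit 258)) (XT.lf (nat_lit 0) (nat_lit 100177844827) (nat_lit 152) (nat_lit 177371848871) (nat_lit 0) (nat_lit 98307261651) (nat_lit 1) (nat_lit 5) (nat_lit 3) (nat_lit 4) (nat_lit 1) (nat_lit 4) (nat_lit 465) (nat_lit 298) (nat_lit 257)))))) (XT.nd (nat_lit 468) (nat_lit 0) (nat_lit 0) (XT.nd (nat_lit 234) (nat_lit 0) (nat_lit 0) (XT.nd (nat_lit 78) (nat_lit 0) (nat_lit 0) (XT.lf (nat_lit 0) (nat_lit 107617384739) (nat_lit 152) (nat_lit 181172485364) (nat_lit 0) (nat_lit 105732866089) (nat_lit 1) (nat_lit 5) (nat_lit 3) (nat_lit 4) (nat_lit 1) (nat_lit 4) (nat_lit 466) (nat_lit 298) (nat_lit 256)) (XT.nd (nat_lit 78) (nat_lit 0) (nat_lit 0) (XT.lf (nat_lit 0) (nat_lit 115403642114) (nat_lit 152) (nat_lit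 185213576615) (nat_lit 0) (nat_lit 113505851583) (nat_lit 1) (nat_lit 5) (nat_lit 3) (nat_lit 4) (nat_lit 1) (nat_lit 4) (nat_lit 467) (nat_lit 298) (nat_lit 255)) (XT.lf (nat_lit 0) (nat_lit 123555155658) (nat_lit 152) (nat_lit 189504744272) (nat_lit 0) (nat_lit 121644725241) (nat_lit 1) (nat_lit 5) (nat_lit 3) (nat_lit 4) (nat_lit 1) (nat_lit 4) (nat_lit 468) (nat_lit 298) (nat_lit 254)))) (XT.nd (nat_lit 78) (nat_lit 0) (nat_lit 0) (XT.lf (nat_lit 0) (nat_lit 132091333739) (nat_lit 152) (nat_lit 194056205398) (nat_lit 0) (nat_lit 130168865334) (nat_lit 1) (nat_lit 5) (nat_lit 3) (nat_lit 4) (nat_lit 1) (nat_lit 4) (nat_lit 469) (nat_lit 298) (nat_lit 253)) (XT.nd (nat_lit 78) (nat_lit 0) (nat_lit 0) (XT.lf (nat_lit 0) (nat_lit 141032500588) (nat_lit 152) (nat_lit 198878796808) (nat_lit 0) (nat_lit 139098567434) (nat_lit 1) (nat_lit 5) (nat_lit 3) (nat_lit 4) (nat_lit 1) (nat_lit 4) (nat_lit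 470) (nat_lit 298) (nat_lit 252)) (XT.lf (nat_lit 0) (nat_lit 150399944700) (nat_lit 152) (nat_lit 203984000860) (nat_lit 0) (nat_lit 148455092736) (nat_lit 1) (nat_lit 5) (nat_lit 3) (nat_lit 4) (nat_lit 1) (nat_lit 4) (nat_lit 471) (nat_lit 298) (nat_lit 251))))) (XT.nd (nat_lit 234) (nat_lit 0) (nat_lit 0) (XT.nd (nat_lit 78) (nat_lit 0) (nat_lit 0) (XT.lf (nat_lit 0) (nat_lit 160215969511) (nat_lit 152) (nat_lit 209383972804) (nat_lit 0) (nat_lit 158260718682) (nat_lit 1) (nat_lit 5) (nat_lit 3) (nat_lit 4) (nat_lit 1) (nat_lit 4) (nat_lit 472) (nat_lit 298) (nat_lit 250)) (XT.nd (nat_lit 78) (nat_lit 0) (nat_lit 0) (XT.lf (nat_lit 0) (nat_lit 170503946510) (nat_lit 152) (nat_lit 215091569715) (nat_lit 0) (nat_lit 168538792000) (nat_lit 1) (nat_lit 5) (nat_lit 3) (nat_lit 4) (nat_lit 1) (nat_lit 4) (nat_lit 473) (nat_lit 298) (nat_lit 249)) (XT.lf (nat_lit 0) (nat_lit 181288370881) (nat_lit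 152) (nat_lit 221120381109) (nat_lit 0) (nat_lit 179313784292) (nat_lit 1) (nat_lit 5) (nat_lit 3) (nat_lit 4) (nat_lit 1) (nat_lit 4) (nat_lit 474) (nat_lit 298) (nat_lit 248)))) (XT.nd (nat_lit 156) (nat_lit 0) (nat_lit 0) (XT.nd (nat_lit 78) (nat_lit 0) (nat_lit 0) (XT.lf (nat_lit 0) (nat_lit 192594919823) (nat_lit 152) (nat_lit 227484761299) (nat_lit 0) (nat_lit 190611350304) (nat_lit 1) (nat_lit 5) (nat_lit 3) (nat_lit 4) (nat_lit 1) (nat_lit 4) (nat_lit 475) (nat_lit 298) (nat_lit 247)) (XT.lf (nat_lit 0) (nat_lit 204450513692) (nat_lit 152) (nat_lit 234199863572) (nat_lit 0) (nat_lit 202458389000) (nat_lit 1) (nat_lit 5) (nat_lit 3) (nat_lit 4) (nat_lit 1) (nat_lit 4) (nat_lit 476) (nat_lit 298) (nat_lit 246))) (XT.nd (nat_lit 78) (nat_lit 0) (nat_lit 0) (XT.lf (nat_lit 0) (nat_lit 216883380093) (nat_lit 152) (nat_lit 241281676266) (nat_lit 0) (nat_lit 214883107617) (nat_lit 1) (nat_lit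 5) (nat_lit 3) (nat_lit 4) (nat_lit 1) (nat_lit 4) (nat_lit 477) (nat_lit 298) (nat_lit 245)) (XT.lf (nat_lit 0) (nat_lit 229923121087) (nat_lit 152) (nat_lit 248747060840) (nat_lit 0) (nat_lit 227915088817) (nat_lit 1) (nat_lit 5) (nat_lit 3) (nat_lit 4) (nat_lit 1) (nat_lit 4) (nat_lit 478) (nat_lit 298) (nat_lit 244))))))))
noncomputable def xc17 : XT := (XT.nd (nat_lit 50388) (nat_lit 0) (nat_lit 0) (XT.nd (nat_lit 49374) (nat_lit 0) (nat_lit 152) (XT.nd (nat_lit 48906) (nat_lit 0) (nat_lit 228) (XT.nd (nat_lit 48672) (nat_lit 0) (nat_lit 380) (XT.nd (nat_lit 78) (nat_lit 0) (nat_lit 0) (XT.lf (nat_lit 0) (nat_lit 243600783677) (nat_lit 152) (nat_lit 256613792019) (nat_lit 0) (nat_lit 241585361128) (nat_lit 1) (nat_lit 5) (nat_lit 3) (nat_lit 4) (nat_lit 1) (nat_lit 4) (nat_lit 479) (nat_lit 298) (nat_lit 243)) (XT.nd (nat_lit 78) (nat_lit 0) (nat_lit 0) (XT.lf (nat_lit 0) (nat_lit 257948933727)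 (nat_lit 152) (nat_lit 264900600116) (nat_lit 0) (nat_lit 255926472816) (nat_lit 1) (nat_lit 5) (nat_lit 3) (nat_lit 4) (nat_lit 1) (nat_lit 4) (nat_lit 480) (nat_lit 298) (nat_lit 242)) (XT.lf (nat_lit 0) (nat_lit 273001733499) (nat_lit 152) (nat_lit 273627215625) (nat_lit 0) (nat_lit 270972569386) (nat_lit 1) (nat_lit 5) (nat_lit 3) (nat_lit 4) (nat_lit 1) (nat_lit 4) (nat_lit 481) (nat_lit 298) (nat_lit 241)))) (XT.nd (nat_lit 78) (nat_lit 0) (nat_lit 0) (XT.lf (nat_lit 0) (nat_lit 12720925792) (nat_lit 76) (nat_lit 6079293015) (nat_lit 76) (nat_lit 6079293015) (nat_lit 6) (nat_lit 4) (nat_lit 7) (nat_lit 5) (nat_lit 7) (nat_lit 4) (nat_lit 422) (nat_lit 299) (nat_lit 299)) (XT.nd (nat_lit 78) (nat_lit 0) (nat_lit 0) (XT.lf (nat_lit 0) (nat_lit 37243718899) (nat_lit 76) (nat_lit 7428165102) (nat_lit 76) (nat_lit 7308917151) (nat_lit 6) (nat_lit 4) (nat_lit 7) (nat_lit 5) (nat_lit 7) (nat_lit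 4) (nat_lit 423) (nat_lit 299) (nat_lit 298)) (XT.lf (nat_lit 0) (nat_lit 49304096811) (nat_lit 76) (nat_lit 2625384982) (nat_lit 76) (nat_lit 2392567553) (nat_lit 6) (nat_lit 4) (nat_lit 7) (nat_lit 5) (nat_lit 7) (nat_lit 4) (nat_lit 424) (nat_lit 299) (nat_lit 297))))) (XT.nd (nat_lit 234) (nat_lit 0) (nat_lit 0) (XT.nd (nat_lit 78) (nat_lit 0) (nat_lit 0) (XT.lf (nat_lit 0) (nat_lit 2633913401) (nat_lit 152) (nat_lit 51837474684) (nat_lit 0) (nat_lit 2309171653) (nat_lit 4) (nat_lit 5) (nat_lit 6) (nat_lit 4) (nat_lit 4) (nat_lit 4) (nat_lit 425) (nat_lit 299) (nat_lit 296)) (XT.nd (nat_lit 78) (nat_lit 0) (nat_lit 0) (XT.lf (nat_lit 0) (nat_lit 7798991753) (nat_lit 152) (nat_lit 44186523692) (nat_lit 0) (nat_lit 7376144419) (nat_lit 4) (nat_lit 5) (nat_lit 6) (nat_lit 4) (nat_lit 4) (nat_lit 4) (nat_lit 426) (nat_lit 299) (nat_lit 295)) (XT.lf (nat_lit 0) (nat_lit 13068291276) (nat_lit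 152) (nat_lit 36459224164) (nat_lit 0) (nat_lit 12552010052) (nat_lit 4) (nat_lit 5) (nat_lit 6) (nat_lit 4) (nat_lit 4) (nat_lit 4) (nat_lit 427) (nat_lit 299) (nat_lit 294)))) (XT.nd (nat_lit 78) (nat_lit 0) (nat_lit 0) (XT.lf (nat_lit 0) (nat_lit 18454357922) (nat_lit 152) (nat_lit 28637177769) (nat_lit 0) (nat_lit 17849092041) (nat_lit 4) (nat_lit 5) (nat_lit 6) (nat_lit 4) (nat_lit 4) (nat_lit 4) (nat_lit 428) (nat_lit 299) (nat_lit 293)) (XT.nd (nat_lit 78) (nat_lit 0) (nat_lit 0) (XT.lf (nat_lit 0) (nat_lit 23970015659) (nat_lit 152) (nat_lit 20701760586) (nat_lit 0) (nat_lit 23280002485) (nat_lit 4) (nat_lit 5) (nat_lit 6) (nat_lit 4) (nat_lit 4) (nat_lit 4) (nat_lit 429) (nat_lit 299) (nat_lit 292)) (XT.lf (nat_lit 0) (nat_lit 29628397005) (nat_lit 152) (nat_lit 12634078765) (nat_lit 0) (nat_lit 28857672124) (nat_lit 4) (nat_lit 5) (nat_lit 6) (nat_lit 4) (nat_lit 4) (nat_lit 4)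 (nat_lit 430) (nat_lit 299) (nat_lit 291)))))) (XT.nd (nat_lit 468) (nat_lit 0) (nat_lit 0) (XT.nd (nat_lit 234) (nat_lit 0) (nat_lit 0) (XT.nd (nat_lit 78) (nat_lit 76) (nat_lit 0) (XT.lf (nat_lit 0) (nat_lit 35442974297) (nat_lit 152) (nat_lit 4414923540) (nat_lit 0) (nat_lit 34595381123) (nat_lit 4) (nat_lit 5) (nat_lit 6) (nat_lit 4) (nat_lit 4) (nat_lit 4) (nat_lit 431) (nat_lit 299) (nat_lit 290)) (XT.nd (nat_lit 78) (nat_lit 0) (nat_lit 0) (XT.lf (nat_lit 0) (nat_lit 4106715033) (nat_lit 76) (nat_lit 37384994064) (nat_lit 76) (nat_lit 36464192992) (nat_lit 3) (nat_lit 4) (nat_lit 4) (nat_lit 5) (nat_lit 4) (nat_lit 4) (nat_lit 432) (nat_lit 299) (nat_lit 289)) (XT.lf (nat_lit 0) (nat_lit 12971666369) (nat_lit 76) (nat_lit 34827356199) (nat_lit 76) (nat_lit 33836833320) (nat_lit 3) (nat_lit 4) (nat_lit 4) (nat_lit 5) (nat_lit 4) (nat_lit 4) (nat_lit 433) (nat_lit 299) (nat_lit 288))))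 (XT.nd (nat_lit 78) (nat_lit 0) (nat_lit 0) (XT.lf (nat_lit 0) (nat_lit 22055060181) (nat_lit 76) (nat_lit 32253663497) (nat_lit 76) (nat_lit 31196738896) (nat_lit 3) (nat_lit 4) (nat_lit 4) (nat_lit 5) (nat_lit 4) (nat_lit 4) (nat_lit 434) (nat_lit 299) (nat_lit 287)) (XT.nd (nat_lit 78) (nat_lit 0) (nat_lit 0) (XT.lf (nat_lit 0) (nat_lit 31378523599) (nat_lit 76) (nat_lit 29657788116) (nat_lit 76) (nat_lit 28537623780) (nat_lit 3) (nat_lit 4) (nat_lit 4) (nat_lit 5) (nat_lit 4) (nat_lit 4) (nat_lit 435) (nat_lit 299) (nat_lit 286)) (XT.lf (nat_lit 0) (nat_lit 40964255345) (nat_lit 76) (nat_lit 27033549402) (nat_lit 76) (nat_lit 25853156748) (nat_lit 3) (nat_lit 4) (nat_lit 4) (nat_lit 5) (nat_lit 4) (nat_lit 4) (nat_lit 436) (nat_lit 299) (nat_lit 285))))) (XT.nd (nat_lit 234) (nat_lit 0) (nat_lit 0) (XT.nd (nat_lit 78) (nat_lit 0) (nat_lit 0) (XT.lf (nat_lit 0) (nat_lit 50835078589) (nat_lit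 76) (nat_lit 24374699167) (nat_lit 76) (nat_lit 23136946209) (nat_lit 3) (nat_lit 4) (nat_lit 4) (nat_lit 5) (nat_lit 4) (nat_lit 4) (nat_lit 437) (nat_lit 299) (nat_lit 284)) (XT.nd (nat_lit 78) (nat_lit 0) (nat_lit 0) (XT.lf (nat_lit 0) (nat_lit 61014495292) (nat_lit 76) (nat_lit 21674906816) (nat_lit 76) (nat_lit 20382524997) (nat_lit 3) (nat_lit 4) (nat_lit 4) (nat_lit 5) (nat_lit 4) (nat_lit 4) (nat_lit 438) (nat_lit 299) (nat_lit 283)) (XT.lf (nat_lit 0) (nat_lit 71526742161) (nat_lit 76) (nat_lit 18927744270) (nat_lit 76) (nat_lit 17583334965) (nat_lit 3) (nat_lit 4) (nat_lit 4) (nat_lit 5) (nat_lit 4) (nat_lit 4) (nat_lit 439) (nat_lit 299) (nat_lit 282)))) (XT.nd (nat_lit 156) (nat_lit 0) (nat_lit 0) (XT.nd (nat_lit 78) (nat_lit 0) (nat_lit 0) (XT.lf (nat_lit 0) (nat_lit 82396848353) (nat_lit 76) (nat_lit 16126670668) (nat_lit 76) (nat_lit 14732711376) (nat_lit 3) (nat_lit 4) (nat_lit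 4) (nat_lit 5) (nat_lit 4) (nat_lit 4) (nat_lit 440) (nat_lit 299) (nat_lit 281)) (XT.lf (nat_lit 0) (nat_lit 93650695076) (nat_lit 76) (nat_lit 13265016786) (nat_lit 76) (nat_lit 11823867030) (nat_lit 3) (nat_lit 4) (nat_lit 4) (nat_lit 5) (nat_lit 4) (nat_lit 4) (nat_lit 441) (nat_lit 299) (nat_lit 280))) (XT.nd (nat_lit 78) (nat_lit 0) (nat_lit 0) (XT.lf (nat_lit 0) (nat_lit 105315077201) (nat_lit 76) (nat_lit 10335969162) (nat_lit 76) (nat_lit 8849876108) (nat_lit 3) (nat_lit 4) (nat_lit 4) (nat_lit 5) (nat_lit 4) (nat_lit 4) (nat_lit 442) (nat_lit 299) (nat_lit 279)) (XT.lf (nat_lit 0) (nat_lit 117417767067) (nat_lit 76) (nat_lit 7332553874) (nat_lit 76) (nat_lit 5803657678) (nat_lit 3) (nat_lit 4) (nat_lit 4) (nat_lit 5) (nat_lit 4) (nat_lit 4) (nat_lit 443) (nat_lit 299) (nat_lit 278))))))) (XT.nd (nat_lit 1014) (nat_lit 0) (nat_lit 0) (XT.nd (nat_lit 468) (nat_lit 0) (nat_lit 0)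 (XT.nd (nat_lit 234) (nat_lit 0) (nat_lit 0) (XT.nd (nat_lit 78) (nat_lit 152) (nat_lit 0) (XT.lf (nat_lit 0) (nat_lit 129987580602) (nat_lit 76) (nat_lit 4247619933) (nat_lit 76) (nat_lit 2677958840) (nat_lit 3) (nat_lit 4) (nat_lit 4) (nat_lit 5) (nat_lit 4) (nat_lit 4) (nat_lit 444) (nat_lit 299) (nat_lit 277)) (XT.nd (nat_lit 78) (nat_lit 76) (nat_lit 0) (XT.lf (nat_lit 0) (nat_lit 517550005) (nat_lit 152) (nat_lit 547507293) (nat_lit 76) (nat_lit 142528130970) (nat_lit 2) (nat_lit 5) (nat_lit 4) (nat_lit 5) (nat_lit 3) (nat_lit 4) (nat_lit 445) (nat_lit 299) (nat_lit 276)) (XT.lf (nat_lit 0) (nat_lit 3852171829) (nat_lit 152) (nat_lit 144464321051) (nat_lit 0) (nat_lit 2285067289) (nat_lit 1) (nat_lit 5) (nat_lit 3) (nat_lit 4) (nat_lit 1) (nat_lit 4) (nat_lit 446) (nat_lit 299) (nat_lit 275)))) (XT.nd (nat_lit 78) (nat_lit 0) (nat_lit 0) (XT.lf (nat_lit 0) (nat_lit 7316579423) (nat_lit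 152) (nat_lit 144929684187) (nat_lit 0) (nat_lit 5715937501) (nat_lit 1) (nat_lit 5) (nat_lit 3) (nat_lit 4) (nat_lit 1) (nat_lit 4) (nat_lit 447) (nat_lit 299) (nat_lit 274)) (XT.nd (nat_lit 78) (nat_lit 0) (nat_lit 0) (XT.lf (nat_lit 0) (nat_lit 10893417317) (nat_lit 152) (nat_lit 145539664283) (nat_lit 0) (nat_lit 9260835032) (nat_lit 1) (nat_lit 5) (nat_lit 3) (nat_lit 4) (nat_lit 1) (nat_lit 4) (nat_lit 448) (nat_lit 299) (nat_lit 273)) (XT.lf (nat_lit 0) (nat_lit 14591201793) (nat_lit 152) (nat_lit 146295713672) (nat_lit 0) (nat_lit 12928200114) (nat_lit 1) (nat_lit 5) (nat_lit 3) (nat_lit 4) (nat_lit 1) (nat_lit 4) (nat_lit 449) (nat_lit 299) (nat_lit 272))))) (XT.nd (nat_lit 234) (nat_lit 0) (nat_lit 0) (XT.nd (nat_lit 78) (nat_lit 0) (nat_lit 0) (XT.lf (nat_lit 0) (nat_lit 18418737099) (nat_lit 152) (nat_lit 147199632473) (nat_lit 0) (nat_lit 16726764569) (nat_lit 1) (nat_lit 5)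 (nat_lit 3) (nat_lit 4) (nat_lit 1) (nat_lit 4) (nat_lit 450) (nat_lit 299) (nat_lit 271)) (XT.nd (nat_lit 78) (nat_lit 0) (nat_lit 0) (XT.lf (nat_lit 0) (nat_lit 22385136414) (nat_lit 152) (nat_lit 148253572873) (nat_lit 0) (nat_lit 20665572597) (nat_lit 1) (nat_lit 5) (nat_lit 3) (nat_lit 4) (nat_lit 1) (nat_lit 4) (nat_lit 451) (nat_lit 299) (nat_lit 270)) (XT.lf (nat_lit 0) (nat_lit 26499843546) (nat_lit 152) (nat_lit 149460044253) (nat_lit 0) (nat_lit 24754002313) (nat_lit 1) (nat_lit 5) (nat_lit 3) (nat_lit 4) (nat_lit 1) (nat_lit 4) (nat_lit 452) (nat_lit 299) (nat_lit 269)))) (XT.nd (nat_lit 156) (nat_lit 0) (nat_lit 0) (XT.nd (nat_lit 78) (nat_lit 0) (nat_lit 0) (XT.lf (nat_lit 0) (nat_lit 30772655417) (nat_lit 152) (nat_lit 150821919164) (nat_lit 0) (nat_lit 29001788074) (nat_lit 1) (nat_lit 5) (nat_lit 3) (nat_lit 4) (nat_lit 1) (nat_lit 4) (nat_lit 453) (nat_lit 299) (nat_lit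 268)) (XT.lf (nat_lit 0) (nat_lit 35213745389) (nat_lit 152) (nat_lit 152342440167) (nat_lit 0) (nat_lit 33419043655) (nat_lit 1) (nat_lit 5) (nat_lit 3) (nat_lit 4) (nat_lit 1) (nat_lit 4) (nat_lit 454) (nat_lit 299) (nat_lit 267))) (XT.nd (nat_lit 78) (nat_lit 0) (nat_lit 0) (XT.lf (nat_lit 0) (nat_lit 39833687486) (nat_lit 152) (nat_lit 154025227548) (nat_lit 0) (nat_lit 38016286332) (nat_lit 1) (nat_lit 5) (nat_lit 3) (nat_lit 4) (nat_lit 1) (nat_lit 4) (nat_lit 455) (nat_lit 299) (nat_lit 266)) (XT.lf (nat_lit 0) (nat_lit 44643481568) (nat_lit 152) (nat_lit 155874287945) (nat_lit 0) (nat_lit 42804461919) (nat_lit 1) (nat_lit 5) (nat_lit 3) (nat_lit 4) (nat_lit 1) (nat_lit 4) (nat_lit 456) (nat_lit 299) (nat_lit 265)))))) (XT.nd (nat_lit 468) (nat_lit 0) (nat_lit 0) (XT.nd (nat_lit 234) (nat_lit 0) (nat_lit 0) (XT.nd (nat_lit 78) (nat_lit 0) (nat_lit 0) (XT.lf (nat_lit 0) (nat_lit 49654579528)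 (nat_lit 152) (nat_lit 157894023882) (nat_lit 0) (nat_lit 47794970836) (nat_lit 1) (nat_lit 5) (nat_lit 3) (nat_lit 4) (nat_lit 1) (nat_lit 4) (nat_lit 457) (nat_lit 299) (nat_lit 264)) (XT.nd (nat_lit 78) (nat_lit 0) (nat_lit 0) (XT.lf (nat_lit 0) (nat_lit 54878912551) (nat_lit 152) (nat_lit 160089244255) (nat_lit 0) (nat_lit 52999695246) (nat_lit 1) (nat_lit 5) (nat_lit 3) (nat_lit 4) (nat_lit 1) (nat_lit 4) (nat_lit 458) (nat_lit 299) (nat_lit 263)) (XT.lf (nat_lit 0) (nat_lit 60328919524) (nat_lit 152) (nat_lit 162465175779) (nat_lit 0) (nat_lit 58431027351) (nat_lit 1) (nat_lit 5) (nat_lit 3) (nat_lit 4) (nat_lit 1) (nat_lit 4) (nat_lit 459) (nat_lit 299) (nat_lit 262)))) (XT.nd (nat_lit 78) (nat_lit 0) (nat_lit 0) (XT.lf (nat_lit 0) (nat_lit 66017576656) (nat_lit 152) (nat_lit 165027475433) (nat_lit 0) (nat_lit 64101898893) (nat_lit 1) (nat_lit 5) (nat_lit 3) (nat_lit 4) (nat_lit 1)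 (nat_lit 4) (nat_lit 460) (nat_lit 299) (nat_lit 261)) (XT.nd (nat_lit 78) (nat_lit 0) (nat_lit 0) (XT.lf (nat_lit 0) (nat_lit 71958428367) (nat_lit 152) (nat_lit 167782243930) (nat_lit 0) (nat_lit 70025811947) (nat_lit 1) (nat_lit 5) (nat_lit 3) (nat_lit 4) (nat_lit 1) (nat_lit 4) (nat_lit 461) (nat_lit 299) (nat_lit 260)) (XT.lf (nat_lit 0) (nat_lit 78165619543) (nat_lit 152) (nat_lit 170736040244) (nat_lit 0) (nat_lit 76216871069) (nat_lit 1) (nat_lit 5) (nat_lit 3) (nat_lit 4) (nat_lit 1) (nat_lit 4) (nat_lit 462) (nat_lit 299) (nat_lit 259))))) (XT.nd (nat_lit 234) (nat_lit 0) (nat_lit 0) (XT.nd (nat_lit 78) (nat_lit 0) (nat_lit 0) (XT.lf (nat_lit 0) (nat_lit 84653929210) (nat_lit 152) (nat_lit 173895897224) (nat_lit 0) (nat_lit 82689816876) (nat_lit 1) (nat_lit 5) (nat_lit 3) (nat_lit 4) (nat_lit 1) (nat_lit 4) (nat_lit 463) (nat_lit 299) (nat_lit 258)) (XT.nd (nat_lit 78) (nat_lit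 0) (nat_lit 0) (XT.lf (nat_lit 0) (nat_lit 91438805725) (nat_lit 152) (nat_lit 177269338337) (nat_lit 0) (nat_lit 89460061142) (nat_lit 1) (nat_lit 5) (nat_lit 3) (nat_lit 4) (nat_lit 1) (nat_lit 4) (nat_lit 464) (nat_lit 299) (nat_lit 257)) (XT.lf (nat_lit 0) (nat_lit 98536403556) (nat_lit 152) (nat_lit 180864395586) (nat_lit 0) (nat_lit 96543723498) (nat_lit 1) (nat_lit 5) (nat_lit 3) (nat_lit 4) (nat_lit 1) (nat_lit 4) (nat_lit 465) (nat_lit 299) (nat_lit 256)))) (XT.nd (nat_lit 156) (nat_lit 0) (nat_lit 0) (XT.nd (nat_lit 78) (nat_lit 0) (nat_lit 0) (XT.lf (nat_lit 0) (nat_lit 105963621744) (nat_lit 152) (nat_lit 184689628632) (nat_lit 0) (nat_lit 103957669806) (nat_lit 1) (nat_lit 5) (nat_lit 3) (nat_lit 4) (nat_lit 1) (nat_lit 4) (nat_lit 466) (nat_lit 299) (nat_lit 255)) (XT.lf (nat_lit 0) (nat_lit 113738144144) (nat_lit 152) (nat_lit 188754145173) (nat_lit 0) (nat_lit 111719552319)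 (nat_lit 1) (nat_lit 5) (nat_lit 3) (nat_lit 4) (nat_lit 1) (nat_lit 4) (nat_lit 467) (nat_lit 299) (nat_lit 254))) (XT.nd (nat_lit 78) (nat_lit 0) (nat_lit 0) (XT.lf (nat_lit 0) (nat_lit 121878481522) (nat_lit 152) (nat_lit 193067622628) (nat_lit 0) (nat_lit 119847851710) (nat_lit 1) (nat_lit 5) (nat_lit 3) (nat_lit 4) (nat_lit 1) (nat_lit 4) (nat_lit 468) (nat_lit 299) (nat_lit 253)) (XT.lf (nat_lit 0) (nat_lit 130404015634) (nat_lit 152) (nat_lit 197640331182) (nat_lit 0) (nat_lit 128361921073) (nat_lit 1) (nat_lit 5) (nat_lit 3) (nat_lit 4) (nat_lit 1) (nat_lit 4) (nat_lit 469) (nat_lit 299) (nat_lit 252))))))))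
noncomputable def xc18 : XT := (XT.nd (nat_lit 50232) (nat_lit 0) (nat_lit 0) (XT.nd (nat_lit 49218) (nat_lit 0) (nat_lit 152) (XT.nd (nat_lit 468) (nat_lit 0) (nat_lit 0) (XT.nd (nat_lit 234) (nat_lit 0) (nat_lit 0) (XT.nd (nat_lit 78) (nat_lit 0) (nat_lit 0) (XT.lf (nat_lit 0) (nat_lit 139335045371) (nat_lit 152) (nat_lit 202483158237) (nat_lit 0) (nat_lit 137282032001) (nat_lit 1) (nat_lit 5) (nat_lit 3) (nat_lit 4) (nat_lit 1) (nat_lit 4) (nat_lit 470) (nat_lit 299) (nat_lit 251)) (XT.nd (nat_lit 78) (nat_lit 0) (nat_lit 0) (XT.lf (nat_lit 0) (nat_lit 148692835090) (nat_lit 152) (nat_lit 207607634332) (nat_lit 0) (nat_lit 146629422853) (nat_lit 1) (nat_lit 5) (nat_lit 3) (nat_lit 4) (nat_lit 1) (nat_lit 4) (nat_lit 471) (nat_lit 299) (nat_lit 250)) (XT.lf (nat_lit 0) (nat_lit 158499665241) (nat_lit 152) (nat_lit 213025960603) (nat_lit 0) (nat_lit 156426349323) (nat_lit 1) (nat_lit 5)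 (nat_lit 3) (nat_lit 4) (nat_lit 1) (nat_lit 4) (nat_lit 472) (nat_lit 299) (nat_lit 249)))) (XT.nd (nat_lit 78) (nat_lit 0) (nat_lit 0) (XT.lf (nat_lit 0) (nat_lit 168778885422) (nat_lit 152) (nat_lit 218751037824) (nat_lit 0) (nat_lit 166696137426) (nat_lit 1) (nat_lit 5) (nat_lit 3) (nat_lit 4) (nat_lit 1) (nat_lit 4) (nat_lit 473) (nat_lit 299) (nat_lit 248)) (XT.nd (nat_lit 78) (nat_lit 0) (nat_lit 0) (XT.lf (nat_lit 0) (nat_lit 179554969964) (nat_lit 152) (nat_lit 224796497134) (nat_lit 0) (nat_lit 177463239037) (nat_lit 1) (nat_lit 5) (nat_lit 3) (nat_lit 4) (nat_lit 1) (nat_lit 4) (nat_lit 474) (nat_lit 299) (nat_lit 247)) (XT.lf (nat_lit 0) (nat_lit 190853576214) (nat_lit 152) (nat_lit 231176732482) (nat_lit 0) (nat_lit 188753290114) (nat_lit 1) (nat_lit 5) (nat_lit 3) (nat_lit 4) (nat_lit 1) (nat_lit 4) (nat_lit 475) (nat_lit 299) (nat_lit 246))))) (XT.nd (nat_lit 234) (nat_lit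 0) (nat_lit 0) (XT.nd (nat_lit 78) (nat_lit 0) (nat_lit 0) (XT.lf (nat_lit 0) (nat_lit 202701605614) (nat_lit 152) (nat_lit 237906934905) (nat_lit 0) (nat_lit 200593171731) (nat_lit 1) (nat_lit 5) (nat_lit 3) (nat_lit 4) (nat_lit 1) (nat_lit 4) (nat_lit 476) (nat_lit 299) (nat_lit 245)) (XT.nd (nat_lit 78) (nat_lit 0) (nat_lit 0) (XT.lf (nat_lit 0) (nat_lit 215127267757) (nat_lit 152) (nat_lit 245003128694) (nat_lit 0) (nat_lit 213011074080) (nat_lit 1) (nat_lit 5) (nat_lit 3) (nat_lit 4) (nat_lit 1) (nat_lit 4) (nat_lit 477) (nat_lit 299) (nat_lit 244)) (XT.lf (nat_lit 0) (nat_lit 228160147554) (nat_lit 152) (nat_lit 252482209549) (nat_lit 0) (nat_lit 226036563598) (nat_lit 1) (nat_lit 5) (nat_lit 3) (nat_lit 4) (nat_lit 1) (nat_lit 4) (nat_lit 478) (nat_lit 299) (nat_lit 243)))) (XT.nd (nat_lit 78) (nat_lit 0) (nat_lit 0) (XT.lf (nat_lit 0) (nat_lit 241831275672) (nat_lit 152) (nat_lit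 260361984806) (nat_lit 0) (nat_lit 239700653353) (nat_lit 1) (nat_lit 5) (nat_lit 3) (nat_lit 4) (nat_lit 1) (nat_lit 4) (nat_lit 479) (nat_lit 299) (nat_lit 242)) (XT.nd (nat_lit 78) (nat_lit 0) (nat_lit 0) (XT.lf (nat_lit 0) (nat_lit 256173202414) (nat_lit 152) (nat_lit 268661215833) (nat_lit 0) (nat_lit 254035876894) (nat_lit 1) (nat_lit 5) (nat_lit 3) (nat_lit 4) (nat_lit 1) (nat_lit 4) (nat_lit 480) (nat_lit 299) (nat_lit 241)) (XT.lf (nat_lit 0) (nat_lit 271220075226) (nat_lit 152) (nat_lit 277399662705) (nat_lit 0) (nat_lit 269076365704) (nat_lit 1) (nat_lit 5) (nat_lit 3) (nat_lit 4) (nat_lit 1) (nat_lit 4) (nat_lit 481) (nat_lit 299) (nat_lit 240)))))) (XT.nd (nat_lit 468) (nat_lit 76) (nat_lit 0) (XT.nd (nat_lit 234) (nat_lit 152) (nat_lit 0) (XT.nd (nat_lit 78) (nat_lit 0) (nat_lit 0) (XT.lf (nat_lit 0) (nat_lit 1340062719) (nat_lit 76) (nat_lit 10742089888) (nat_lit 76) (nat_lit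 10742089888) (nat_lit 6) (nat_lit 4) (nat_lit 7) (nat_lit 5) (nat_lit 7) (nat_lit 4) (nat_lit 420) (nat_lit 300) (nat_lit 300)) (XT.nd (nat_lit 78) (nat_lit 0) (nat_lit 0) (XT.lf (nat_lit 0) (nat_lit 13870395183) (nat_lit 76) (nat_lit 16953121024) (nat_lit 76) (nat_lit 16827910675) (nat_lit 6) (nat_lit 4) (nat_lit 7) (nat_lit 5) (nat_lit 7) (nat_lit 4) (nat_lit 421) (nat_lit 300) (nat_lit 299)) (XT.lf (nat_lit 0) (nat_lit 25272016508) (nat_lit 76) (nat_lit 12367879281) (nat_lit 76) (nat_lit 12123420981) (nat_lit 6) (nat_lit 4) (nat_lit 7) (nat_lit 5) (nat_lit 7) (nat_lit 4) (nat_lit 422) (nat_lit 300) (nat_lit 298)))) (XT.nd (nat_lit 78) (nat_lit 152) (nat_lit 0) (XT.lf (nat_lit 0) (nat_lit 36912136131) (nat_lit 76) (nat_lit 7717537306) (nat_lit 76) (nat_lit 7359509528) (nat_lit 6) (nat_lit 4) (nat_lit 7) (nat_lit 5) (nat_lit 7) (nat_lit 4) (nat_lit 423) (nat_lit 300) (nat_lit 297)) (XT.nd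 (nat_lit 78) (nat_lit 152) (nat_lit 0) (XT.lf (nat_lit 0) (nat_lit 48818468622) (nat_lit 76) (nat_lit 2991022856) (nat_lit 76) (nat_lit 2524833671) (nat_lit 6) (nat_lit 4) (nat_lit 7) (nat_lit 5) (nat_lit 7) (nat_lit 4) (nat_lit 424) (nat_lit 300) (nat_lit 296)) (XT.lf (nat_lit 0) (nat_lit 2413114812) (nat_lit 152) (nat_lit 52513447283) (nat_lit 0) (nat_lit 1871019527) (nat_lit 4) (nat_lit 5) (nat_lit 6) (nat_lit 4) (nat_lit 4) (nat_lit 4) (nat_lit 425) (nat_lit 300) (nat_lit 295))))) (XT.nd (nat_lit 234) (nat_lit 76) (nat_lit 0) (XT.nd (nat_lit 78) (nat_lit 0) (nat_lit 0) (XT.lf (nat_lit 0) (nat_lit 7503055239) (nat_lit 152) (nat_lit 45011861663) (nat_lit 0) (nat_lit 6867526063) (nat_lit 4) (nat_lit 5) (nat_lit 6) (nat_lit 4) (nat_lit 4) (nat_lit 4) (nat_lit 426) (nat_lit 300) (nat_lit 294)) (XT.nd (nat_lit 78) (nat_lit 0) (nat_lit 0) (XT.lf (nat_lit 0) (nat_lit 12700794833) (nat_lit 152)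 (nat_lit 37426814872) (nat_lit 0) (nat_lit 11976281000) (nat_lit 4) (nat_lit 5) (nat_lit 6) (nat_lit 4) (nat_lit 4) (nat_lit 4) (nat_lit 427) (nat_lit 300) (nat_lit 293)) (XT.lf (nat_lit 0) (nat_lit 18018709166) (nat_lit 152) (nat_lit 29740247273) (nat_lit 0) (nat_lit 17209448041) (nat_lit 4) (nat_lit 5) (nat_lit 6) (nat_lit 4) (nat_lit 4) (nat_lit 4) (nat_lit 428) (nat_lit 300) (nat_lit 292)))) (XT.nd (nat_lit 156) (nat_lit 76) (nat_lit 0) (XT.nd (nat_lit 78) (nat_lit 0) (nat_lit 0) (XT.lf (nat_lit 0) (nat_lit 23469459939) (nat_lit 152) (nat_lit 21933857515) (nat_lit 0) (nat_lit 22579487105) (nat_lit 4) (nat_lit 5) (nat_lit 6) (nat_lit 4) (nat_lit 4) (nat_lit 4) (nat_lit 429) (nat_lit 300) (nat_lit 291)) (XT.lf (nat_lit 0) (nat_lit 29066025128) (nat_lit 152) (nat_lit 13989058956) (nat_lit 0) (nat_lit 28099184002) (nat_lit 4) (nat_lit 5) (nat_lit 6) (nat_lit 4) (nat_lit 4) (nat_lit 4) (nat_lit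 430) (nat_lit 300) (nat_lit 290))) (XT.nd (nat_lit 78) (nat_lit 76) (nat_lit 0) (XT.lf (nat_lit 0) (nat_lit 34821729890) (nat_lit 152) (nat_lit 5886935409) (nat_lit 0) (nat_lit 33781680866) (nat_lit 4) (nat_lit 5) (nat_lit 6) (nat_lit 4) (nat_lit 4) (nat_lit 4) (nat_lit 431) (nat_lit 300) (nat_lit 289)) (XT.lf (nat_lit 0) (nat_lit 2470887734) (nat_lit 76) (nat_lit 38317968030) (nat_lit 76) (nat_lit 37208197199) (nat_lit 3) (nat_lit 4) (nat_lit 4) (nat_lit 5) (nat_lit 4) (nat_lit 4) (nat_lit 432) (nat_lit 300) (nat_lit 288))))))) (XT.nd (nat_lit 1014) (nat_lit 152) (nat_lit 0) (XT.nd (nat_lit 468) (nat_lit 0) (nat_lit 0) (XT.nd (nat_lit 234) (nat_lit 0) (nat_lit 0) (XT.nd (nat_lit 78) (nat_lit 0) (nat_lit 0) (XT.lf (nat_lit 0) (nat_lit 11226178050) (nat_lit 76) (nat_lit 35814879949) (nat_lit 76) (nat_lit 34638707396) (nat_lit 3) (nat_lit 4) (nat_lit 4) (nat_lit 5) (nat_lit 4) (nat_lit 4)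 (nat_lit 433) (nat_lit 300) (nat_lit 287)) (XT.nd (nat_lit 78) (nat_lit 0) (nat_lit 0) (XT.lf (nat_lit 0) (nat_lit 20205132797) (nat_lit 76) (nat_lit 33293139420) (nat_lit 76) (nat_lit 32053727133) (nat_lit 3) (nat_lit 4) (nat_lit 4) (nat_lit 5) (nat_lit 4) (nat_lit 4) (nat_lit 434) (nat_lit 300) (nat_lit 286)) (XT.lf (nat_lit 0) (nat_lit 29429130438) (nat_lit 76) (nat_lit 30746742301) (nat_lit 76) (nat_lit 29447101695) (nat_lit 3) (nat_lit 4) (nat_lit 4) (nat_lit 5) (nat_lit 4) (nat_lit 4) (nat_lit 435) (nat_lit 300) (nat_lit 285)))) (XT.nd (nat_lit 78) (nat_lit 0) (nat_lit 0) (XT.lf (nat_lit 0) (nat_lit 38920132872) (nat_lit 76) (nat_lit 28169625741) (nat_lit 76) (nat_lit 26812624831) (nat_lit 3) (nat_lit 4) (nat_lit 4) (nat_lit 5) (nat_lit 4) (nat_lit 4) (nat_lit 436) (nat_lit 300) (nat_lit 284)) (XT.nd (nat_lit 78) (nat_lit 0) (nat_lit 0) (XT.lf (nat_lit 0) (nat_lit 48700737725) (nat_lit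 76) (nat_lit 25555653747) (nat_lit 76) (nat_lit 24144023977) (nat_lit 3) (nat_lit 4) (nat_lit 4) (nat_lit 5) (nat_lit 4) (nat_lit 4) (nat_lit 437) (nat_lit 300) (nat_lit 283)) (XT.lf (nat_lit 0) (nat_lit 58794232150) (nat_lit 76) (nat_lit 22898602578) (nat_lit 76) (nat_lit 21434945321) (nat_lit 3) (nat_lit 4) (nat_lit 4) (nat_lit 5) (nat_lit 4) (nat_lit 4) (nat_lit 438) (nat_lit 300) (nat_lit 282))))) (XT.nd (nat_lit 234) (nat_lit 0) (nat_lit 0) (XT.nd (nat_lit 78) (nat_lit 0) (nat_lit 0) (XT.lf (nat_lit 0) (nat_lit 69224648277) (nat_lit 76) (nat_lit 20192145920) (nat_lit 76) (nat_lit 18678938677) (nat_lit 3) (nat_lit 4) (nat_lit 4) (nat_lit 5) (nat_lit 4) (nat_lit 4) (nat_lit 439) (nat_lit 300) (nat_lit 281)) (XT.nd (nat_lit 78) (nat_lit 0) (nat_lit 0) (XT.lf (nat_lit 0) (nat_lit 80016820431) (nat_lit 76) (nat_lit 17429839830) (nat_lit 76) (nat_lit 15869442123) (nat_lit 3) (nat_lit 4) (nat_lit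 4) (nat_lit 5) (nat_lit 4) (nat_lit 4) (nat_lit 440) (nat_lit 300) (nat_lit 280)) (XT.lf (nat_lit 0) (nat_lit 91196444259) (nat_lit 76) (nat_lit 14605107388) (nat_lit 76) (nat_lit 12999766382) (nat_lit 3) (nat_lit 4) (nat_lit 4) (nat_lit 5) (nat_lit 4) (nat_lit 4) (nat_lit 441) (nat_lit 300) (nat_lit 279)))) (XT.nd (nat_lit 156) (nat_lit 0) (nat_lit 0) (XT.nd (nat_lit 78) (nat_lit 0) (nat_lit 0) (XT.lf (nat_lit 0) (nat_lit 102790137913) (nat_lit 76) (nat_lit 11711223041) (nat_lit 76) (nat_lit 10063078894) (nat_lit 3) (nat_lit 4) (nat_lit 4) (nat_lit 5) (nat_lit 4) (nat_lit 4) (nat_lit 442) (nat_lit 300) (nat_lit 278)) (XT.lf (nat_lit 0) (nat_lit 114825505426) (nat_lit 76) (nat_lit 8741296588) (nat_lit 76) (nat_lit 7052387544) (nat_lit 3) (nat_lit 4) (nat_lit 4) (nat_lit 5) (nat_lit 4) (nat_lit 4) (nat_lit 443) (nat_lit 300) (nat_lit 277))) (XT.nd (nat_lit 78) (nat_lit 0) (nat_lit 0) (XT.lf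 (nat_lit 0) (nat_lit 127331202434) (nat_lit 76) (nat_lit 5688256775) (nat_lit 76) (nat_lit 3960524020) (nat_lit 3) (nat_lit 4) (nat_lit 4) (nat_lit 5) (nat_lit 4) (nat_lit 4) (nat_lit 444) (nat_lit 300) (nat_lit 276)) (XT.lf (nat_lit 0) (nat_lit 140337004408) (nat_lit 76) (nat_lit 2544834461) (nat_lit 76) (nat_lit 780126742) (nat_lit 3) (nat_lit 4) (nat_lit 4) (nat_lit 5) (nat_lit 4) (nat_lit 4) (nat_lit 445) (nat_lit 300) (nat_lit 275)))))) (XT.nd (nat_lit 468) (nat_lit 0) (nat_lit 0) (XT.nd (nat_lit 234) (nat_lit 0) (nat_lit 0) (XT.nd (nat_lit 78) (nat_lit 0) (nat_lit 0) (XT.lf (nat_lit 0) (nat_lit 2479692127) (nat_lit 152) (nat_lit 147430763800) (nat_lit 0) (nat_lit 765480728) (nat_lit 1) (nat_lit 5) (nat_lit 3) (nat_lit 4) (nat_lit 1) (nat_lit 4) (nat_lit 446) (nat_lit 300) (nat_lit 274)) (XT.nd (nat_lit 78) (nat_lit 0) (nat_lit 0) (XT.lf (nat_lit 0) (nat_lit 5914446024) (nat_lit 152)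 (nat_lit 147955321474) (nat_lit 0) (nat_lit 4168294261) (nat_lit 1) (nat_lit 5) (nat_lit 3) (nat_lit 4) (nat_lit 1) (nat_lit 4) (nat_lit 447) (nat_lit 300) (nat_lit 273)) (XT.lf (nat_lit 0) (nat_lit 9463042302) (nat_lit 152) (nat_lit 148621677321) (nat_lit 0) (nat_lit 7686471146) (nat_lit 1) (nat_lit 5) (nat_lit 3) (nat_lit 4) (nat_lit 1) (nat_lit 4) (nat_lit 448) (nat_lit 300) (nat_lit 272)))) (XT.nd (nat_lit 78) (nat_lit 0) (nat_lit 0) (XT.lf (nat_lit 0) (nat_lit 13133930000) (nat_lit 152) (nat_lit 149431417902) (nat_lit 0) (nat_lit 11328387993) (nat_lit 1) (nat_lit 5) (nat_lit 3) (nat_lit 4) (nat_lit 1) (nat_lit 4) (nat_lit 449) (nat_lit 300) (nat_lit 271)) (XT.nd (nat_lit 78) (nat_lit 0) (nat_lit 0) (XT.lf (nat_lit 0) (nat_lit 16935849328) (nat_lit 152) (nat_lit 150386471170) (nat_lit 0) (nat_lit 15102716033) (nat_lit 1) (nat_lit 5) (nat_lit 3) (nat_lit 4) (nat_lit 1) (nat_lit 4) (nat_lit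 450) (nat_lit 300) (nat_lit 270)) (XT.lf (nat_lit 0) (nat_lit 20877852473) (nat_lit 152) (nat_lit 151489111062) (nat_lit 0) (nat_lit 19018441762) (nat_lit 1) (nat_lit 5) (nat_lit 3) (nat_lit 4) (nat_lit 1) (nat_lit 4) (nat_lit 451) (nat_lit 300) (nat_lit 269))))) (XT.nd (nat_lit 234) (nat_lit 0) (nat_lit 0) (XT.nd (nat_lit 78) (nat_lit 0) (nat_lit 0) (XT.lf (nat_lit 0) (nat_lit 24969325157) (nat_lit 152) (nat_lit 152741962912) (nat_lit 0) (nat_lit 23084888337) (nat_lit 1) (nat_lit 5) (nat_lit 3) (nat_lit 4) (nat_lit 1) (nat_lit 4) (nat_lit 452) (nat_lit 300) (nat_lit 268)) (XT.nd (nat_lit 78) (nat_lit 0) (nat_lit 0) (XT.lf (nat_lit 0) (nat_lit 29220008983) (nat_lit 152) (nat_lit 154148009699) (nat_lit 0) (nat_lit 27311737772) (nat_lit 1) (nat_lit 5) (nat_lit 3) (nat_lit 4) (nat_lit 1) (nat_lit 4) (nat_lit 453) (nat_lit 300) (nat_lit 267)) (XT.lf (nat_lit 0) (nat_lit 33640024626) (nat_lit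 152) (nat_lit 155710599155) (nat_lit 0) (nat_lit 31709053995) (nat_lit 1) (nat_lit 5) (nat_lit 3) (nat_lit 4) (nat_lit 1) (nat_lit 4) (nat_lit 454) (nat_lit 300) (nat_lit 266)))) (XT.nd (nat_lit 156) (nat_lit 0) (nat_lit 0) (XT.nd (nat_lit 78) (nat_lit 0) (nat_lit 0) (XT.lf (nat_lit 0) (nat_lit 38239895933) (nat_lit 152) (nat_lit 157433451730) (nat_lit 0) (nat_lit 36287306806) (nat_lit 1) (nat_lit 5) (nat_lit 3) (nat_lit 4) (nat_lit 1) (nat_lit 4) (nat_lit 455) (nat_lit 300) (nat_lit 265)) (XT.lf (nat_lit 0) (nat_lit 43030574978) (nat_lit 152) (nat_lit 159320669454) (nat_lit 0) (nat_lit 41057396808) (nat_lit 1) (nat_lit 5) (nat_lit 3) (nat_lit 4) (nat_lit 1) (nat_lit 4) (nat_lit 456) (nat_lit 300) (nat_lit 264))) (XT.nd (nat_lit 78) (nat_lit 0) (nat_lit 0) (XT.lf (nat_lit 0) (nat_lit 48023468140) (nat_lit 152) (nat_lit 161376745703) (nat_lit 0) (nat_lit 46030681358) (nat_lit 1) (nat_lit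 5) (nat_lit 3) (nat_lit 4) (nat_lit 1) (nat_lit 4) (nat_lit 457) (nat_lit 300) (nat_lit 263)) (XT.lf (nat_lit 0) (nat_lit 53230463260) (nat_lit 152) (nat_lit 163606575896) (nat_lit 0) (nat_lit 51219001609) (nat_lit 1) (nat_lit 5) (nat_lit 3) (nat_lit 4) (nat_lit 1) (nat_lit 4) (nat_lit 458) (nat_lit 300) (nat_lit 262))))))))
noncomputable def xc19 : XT := (XT.nd (nat_lit 50076) (nat_lit 0) (nat_lit 152) (XT.nd (nat_lit 936) (nat_lit 0) (nat_lit 0) (XT.nd (nat_lit 468) (nat_lit 0) (nat_lit 0) (XT.nd (nat_lit 234) (nat_lit 0) (nat_lit 0) (XT.nd (nat_lit 78) (nat_lit 0) (nat_lit 0) (XT.lf (nat_lit 0) (nat_lit 58663957946) (nat_lit 152) (nat_lit 166015469153) (nat_lit 0) (nat_lit 56634710705) (nat_lit 1) (nat_lit 5) (nat_lit 3) (nat_lit 4) (nat_lit 1) (nat_lit 4) (nat_lit 459) (nat_lit 300) (nat_lit 261)) (XT.nd (nat_lit 78) (nat_lit 0) (nat_lit 0) (XT.lf (nat_lit 0) (nat_lit 64336889088) (nat_lit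 152) (nat_lit 168609160934) (nat_lit 0) (nat_lit 62290703191) (nat_lit 1) (nat_lit 5) (nat_lit 3) (nat_lit 4) (nat_lit 1) (nat_lit 4) (nat_lit 460) (nat_lit 300) (nat_lit 260)) (XT.lf (nat_lit 0) (nat_lit 70262763668) (nat_lit 152) (nat_lit 171393826696) (nat_lit 0) (nat_lit 68200445716) (nat_lit 1) (nat_lit 5) (nat_lit 3) (nat_lit 4) (nat_lit 1) (nat_lit 4) (nat_lit 461) (nat_lit 300) (nat_lit 259)))) (XT.nd (nat_lit 78) (nat_lit 0) (nat_lit 0) (XT.lf (nat_lit 0) (nat_lit 76455690908) (nat_lit 152) (nat_lit 174376096595) (nat_lit 0) (nat_lit 74378009096) (nat_lit 1) (nat_lit 5) (nat_lit 3) (nat_lit 4) (nat_lit 1) (nat_lit 4) (nat_lit 462) (nat_lit 300) (nat_lit 258)) (XT.nd (nat_lit 78) (nat_lit 0) (nat_lit 0) (XT.lf (nat_lit 0) (nat_lit 82930415875) (nat_lit 152) (nat_lit 177563071274) (nat_lit 0) (nat_lit 80838101815) (nat_lit 1) (nat_lit 5) (nat_lit 3) (nat_lit 4) (nat_lit 1) (nat_lit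 4) (nat_lit 463) (nat_lit 300) (nat_lit 257)) (XT.lf (nat_lit 0) (nat_lit 89702354580) (nat_lit 152) (nat_lit 180962338768) (nat_lit 0) (nat_lit 87596105045) (nat_lit 1) (nat_lit 5) (nat_lit 3) (nat_lit 4) (nat_lit 1) (nat_lit 4) (nat_lit 464) (nat_lit 300) (nat_lit 256))))) (XT.nd (nat_lit 234) (nat_lit 0) (nat_lit 0) (XT.nd (nat_lit 78) (nat_lit 0) (nat_lit 0) (XT.lf (nat_lit 0) (nat_lit 96787630687) (nat_lit 152) (nat_lit 184581992571) (nat_lit 0) (nat_lit 94668109271) (nat_lit 1) (nat_lit 5) (nat_lit 3) (nat_lit 4) (nat_lit 1) (nat_lit 4) (nat_lit 465) (nat_lit 300) (nat_lit 255)) (XT.nd (nat_lit 78) (nat_lit 0) (nat_lit 0) (XT.lf (nat_lit 0) (nat_lit 104203113901) (nat_lit 152) (nat_lit 188430650906) (nat_lit 0) (nat_lit 102070952599) (nat_lit 1) (nat_lit 5) (nat_lit 3) (nat_lit 4) (nat_lit 1) (nat_lit 4) (nat_lit 466) (nat_lit 300) (nat_lit 254)) (XT.lf (nat_lit 0) (nat_lit 111966460134)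 (nat_lit 152) (nat_lit 192517477245) (nat_lit 0) (nat_lit 109822260845) (nat_lit 1) (nat_lit 5) (nat_lit 3) (nat_lit 4) (nat_lit 1) (nat_lit 4) (nat_lit 467) (nat_lit 300) (nat_lit 253)))) (XT.nd (nat_lit 78) (nat_lit 0) (nat_lit 0) (XT.lf (nat_lit 0) (nat_lit 120096153544) (nat_lit 152) (nat_lit 196852202128) (nat_lit 0) (nat_lit 117940489505) (nat_lit 1) (nat_lit 5) (nat_lit 3) (nat_lit 4) (nat_lit 1) (nat_lit 4) (nat_lit 468) (nat_lit 300) (nat_lit 252)) (XT.nd (nat_lit 78) (nat_lit 0) (nat_lit 0) (XT.lf (nat_lit 0) (nat_lit 128611550543) (nat_lit 152) (nat_lit 201445146327) (nat_lit 0) (nat_lit 126444967695) (nat_lit 1) (nat_lit 5) (nat_lit 3) (nat_lit 4) (nat_lit 1) (nat_lit 4) (nat_lit 469) (nat_lit 300) (nat_lit 251)) (XT.lf (nat_lit 0) (nat_lit 137532925888) (nat_lit 152) (nat_lit 206307245425) (nat_lit 0) (nat_lit 135355944174) (nat_lit 1) (nat_lit 5) (nat_lit 3) (nat_lit 4) (nat_lit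 1) (nat_lit 4) (nat_lit 470) (nat_lit 300) (nat_lit 250)))))) (XT.nd (nat_lit 468) (nat_lit 0) (nat_lit 0) (XT.nd (nat_lit 234) (nat_lit 0) (nat_lit 0) (XT.nd (nat_lit 78) (nat_lit 0) (nat_lit 0) (XT.lf (nat_lit 0) (nat_lit 146881520946) (nat_lit 152) (nat_lit 211450075848) (nat_lit 0) (nat_lit 144694635551) (nat_lit 1) (nat_lit 5) (nat_lit 3) (nat_lit 4) (nat_lit 1) (nat_lit 4) (nat_lit 471) (nat_lit 300) (nat_lit 249)) (XT.nd (nat_lit 78) (nat_lit 0) (nat_lit 0) (XT.lf (nat_lit 0) (nat_lit 156679594279) (nat_lit 152) (nat_lit 216885882429) (nat_lit 0) (nat_lit 154483276806) (nat_lit 1) (nat_lit 5) (nat_lit 3) (nat_lit 4) (nat_lit 1) (nat_lit 4) (nat_lit 472) (nat_lit 300) (nat_lit 248)) (XT.lf (nat_lit 0) (nat_lit 166950474632) (nat_lit 152) (nat_lit 222627607566) (nat_lit 0) (nat_lit 164745174227) (nat_lit 1) (nat_lit 5) (nat_lit 3) (nat_lit 4) (nat_lit 1) (nat_lit 4) (nat_lit 473) (nat_lit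 300) (nat_lit 247)))) (XT.nd (nat_lit 78) (nat_lit 0) (nat_lit 0) (XT.lf (nat_lit 0) (nat_lit 177718616482) (nat_lit 152) (nat_lit 228688922033) (nat_lit 0) (nat_lit 175504760904) (nat_lit 1) (nat_lit 5) (nat_lit 3) (nat_lit 4) (nat_lit 1) (nat_lit 4) (nat_lit 474) (nat_lit 300) (nat_lit 246)) (XT.nd (nat_lit 78) (nat_lit 0) (nat_lit 0) (XT.lf (nat_lit 0) (nat_lit 189009658262) (nat_lit 152) (nat_lit 235084257531) (nat_lit 0) (nat_lit 186787654901) (nat_lit 1) (nat_lit 5) (nat_lit 3) (nat_lit 4) (nat_lit 1) (nat_lit 4) (nat_lit 475) (nat_lit 300) (nat_lit 245)) (XT.lf (nat_lit 0) (nat_lit 200850483405) (nat_lit 152) (nat_lit 241828841049) (nat_lit 0) (nat_lit 198620720250) (nat_lit 1) (nat_lit 5) (nat_lit 3) (nat_lit 4) (nat_lit 1) (nat_lit 4) (nat_lit 476) (nat_lit 300) (nat_lit 244))))) (XT.nd (nat_lit 234) (nat_lit 0) (nat_lit 0) (XT.nd (nat_lit 78) (nat_lit 0) (nat_lit 0) (XT.lf (nat_lit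 0) (nat_lit 213269284351) (nat_lit 152) (nat_lit 248938731120) (nat_lit 0) (nat_lit 211032130917) (nat_lit 1) (nat_lit 5) (nat_lit 3) (nat_lit 4) (nat_lit 1) (nat_lit 4) (nat_lit 477) (nat_lit 300) (nat_lit 243)) (XT.nd (nat_lit 78) (nat_lit 0) (nat_lit 0) (XT.lf (nat_lit 0) (nat_lit 226295629676) (nat_lit 152) (nat_lit 256430856052) (nat_lit 0) (nat_lit 224051437880) (nat_lit 1) (nat_lit 5) (nat_lit 3) (nat_lit 4) (nat_lit 1) (nat_lit 4) (nat_lit 478) (nat_lit 300) (nat_lit 242)) (XT.lf (nat_lit 0) (nat_lit 239960534485) (nat_lit 152) (nat_lit 264323054240) (nat_lit 0) (nat_lit 237709639488) (nat_lit 1) (nat_lit 5) (nat_lit 3) (nat_lit 4) (nat_lit 1) (nat_lit 4) (nat_lit 479) (nat_lit 300) (nat_lit 241)))) (XT.nd (nat_lit 48282) (nat_lit 0) (nat_lit 456) (XT.nd (nat_lit 78) (nat_lit 0) (nat_lit 0) (XT.lf (nat_lit 0) (nat_lit 254296534268) (nat_lit 152) (nat_lit 272634116630) (nat_lit 0)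 (nat_lit 252039255269) (nat_lit 1) (nat_lit 5) (nat_lit 3) (nat_lit 4) (nat_lit 1) (nat_lit 4) (nat_lit 480) (nat_lit 300) (nat_lit 240)) (XT.lf (nat_lit 0) (nat_lit 269337762356) (nat_lit 152) (nat_lit 281383831466) (nat_lit 0) (nat_lit 267074403355) (nat_lit 1) (nat_lit 5) (nat_lit 3) (nat_lit 4) (nat_lit 1) (nat_lit 4) (nat_lit 481) (nat_lit 300) (nat_lit 239))) (XT.nd (nat_lit 78) (nat_lit 0) (nat_lit 0) (XT.lf (nat_lit 0) (nat_lit 5888365006) (nat_lit 152) (nat_lit 9188801888) (nat_lit 0) (nat_lit 5888365006) (nat_lit 7) (nat_lit 5) (nat_lit 9) (nat_lit 4) (nat_lit 7) (nat_lit 4) (nat_lit 418) (nat_lit 301) (nat_lit 301)) (XT.lf (nat_lit 0) (nat_lit 17907861809) (nat_lit 152) (nat_lit 8058970271) (nat_lit 0) (nat_lit 17776390943) (nat_lit 7) (nat_lit 5) (nat_lit 9) (nat_lit 4) (nat_lit 7) (nat_lit 4) (nat_lit 419) (nat_lit 301) (nat_lit 300))))))) (XT.nd (nat_lit 1014) (nat_lit 0) (nat_lit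 0) (XT.nd (nat_lit 468) (nat_lit 76) (nat_lit 0) (XT.nd (nat_lit 234) (nat_lit 152) (nat_lit 0) (XT.nd (nat_lit 78) (nat_lit 0) (nat_lit 0) (XT.lf (nat_lit 0) (nat_lit 2501798608) (nat_lit 76) (nat_lit 21703937690) (nat_lit 76) (nat_lit 21447256475) (nat_lit 6) (nat_lit 4) (nat_lit 7) (nat_lit 5) (nat_lit 7) (nat_lit 4) (nat_lit 420) (nat_lit 301) (nat_lit 299)) (XT.nd (nat_lit 78) (nat_lit 0) (nat_lit 0) (XT.lf (nat_lit 0) (nat_lit 13522233276) (nat_lit 76) (nat_lit 17256961839) (nat_lit 76) (nat_lit 16881032672) (nat_lit 6) (nat_lit 4) (nat_lit 7) (nat_lit 5) (nat_lit 7) (nat_lit 4) (nat_lit 421) (nat_lit 301) (nat_lit 298)) (XT.lf (nat_lit 0) (nat_lit 24762106909) (nat_lit 76) (nat_lit 12751799049) (nat_lit 76) (nat_lit 12262300405) (nat_lit 6) (nat_lit 4) (nat_lit 7) (nat_lit 5) (nat_lit 7) (nat_lit 4) (nat_lit 422) (nat_lit 301) (nat_lit 297)))) (XT.nd (nat_lit 78) (nat_lit 152) (nat_lit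 0) (XT.lf (nat_lit 0) (nat_lit 36248181111) (nat_lit 76) (nat_lit 8177722744) (nat_lit 76) (nat_lit 7580062692) (nat_lit 6) (nat_lit 4) (nat_lit 7) (nat_lit 5) (nat_lit 7) (nat_lit 4) (nat_lit 423) (nat_lit 301) (nat_lit 296)) (XT.nd (nat_lit 78) (nat_lit 152) (nat_lit 0) (XT.lf (nat_lit 0) (nat_lit 48007803679) (nat_lit 76) (nat_lit 3523842266) (nat_lit 76) (nat_lit 2823171350) (nat_lit 6) (nat_lit 4) (nat_lit 7) (nat_lit 5) (nat_lit 7) (nat_lit 4) (nat_lit 424) (nat_lit 301) (nat_lit 295)) (XT.lf (nat_lit 0) (nat_lit 2027243547) (nat_lit 152) (nat_lit 53529417526) (nat_lit 0) (nat_lit 1266504022) (nat_lit 4) (nat_lit 5) (nat_lit 6) (nat_lit 4) (nat_lit 4) (nat_lit 4) (nat_lit 425) (nat_lit 301) (nat_lit 294))))) (XT.nd (nat_lit 234) (nat_lit 76) (nat_lit 0) (XT.nd (nat_lit 78) (nat_lit 0) (nat_lit 0) (XT.lf (nat_lit 0) (nat_lit 7045624045) (nat_lit 152) (nat_lit 46170084642) (nat_lit 0)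 (nat_lit 6195899863) (nat_lit 4) (nat_lit 5) (nat_lit 6) (nat_lit 4) (nat_lit 4) (nat_lit 4) (nat_lit 426) (nat_lit 301) (nat_lit 293)) (XT.nd (nat_lit 78) (nat_lit 0) (nat_lit 0) (XT.lf (nat_lit 0) (nat_lit 12175211327) (nat_lit 152) (nat_lit 38720516647) (nat_lit 0) (nat_lit 11240739852) (nat_lit 4) (nat_lit 5) (nat_lit 6) (nat_lit 4) (nat_lit 4) (nat_lit 4) (nat_lit 427) (nat_lit 301) (nat_lit 292)) (XT.lf (nat_lit 0) (nat_lit 17428218695) (nat_lit 152) (nat_lit 31162976473) (nat_lit 0) (nat_lit 16413035513) (nat_lit 4) (nat_lit 5) (nat_lit 6) (nat_lit 4) (nat_lit 4) (nat_lit 4) (nat_lit 428) (nat_lit 301) (nat_lit 291)))) (XT.nd (nat_lit 156) (nat_lit 76) (nat_lit 0) (XT.nd (nat_lit 78) (nat_lit 0) (nat_lit 0) (XT.lf (nat_lit 0) (nat_lit 22817153311) (nat_lit 152) (nat_lit 23479469977) (nat_lit 0) (nat_lit 21725101836) (nat_lit 4) (nat_lit 5) (nat_lit 6) (nat_lit 4) (nat_lit 4) (nat_lit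 4) (nat_lit 429) (nat_lit 301) (nat_lit 290)) (XT.lf (nat_lit 0) (nat_lit 28354845970) (nat_lit 152) (nat_lit 15651703096) (nat_lit 0) (nat_lit 27189586597) (nat_lit 4) (nat_lit 5) (nat_lit 6) (nat_lit 4) (nat_lit 4) (nat_lit 4) (nat_lit 430) (nat_lit 301) (nat_lit 289))) (XT.nd (nat_lit 78) (nat_lit 76) (nat_lit 0) (XT.lf (nat_lit 0) (nat_lit 34054481655) (nat_lit 152) (nat_lit 7661038290) (nat_lit 0) (nat_lit 32819500475) (nat_lit 4) (nat_lit 5) (nat_lit 6) (nat_lit 4) (nat_lit 4) (nat_lit 4) (nat_lit 431) (nat_lit 301) (nat_lit 288)) (XT.lf (nat_lit 0) (nat_lit 528463981) (nat_lit 76) (nat_lit 39409417750) (nat_lit 76) (nat_lit 38108034848) (nat_lit 3) (nat_lit 4) (nat_lit 4) (nat_lit 5) (nat_lit 4) (nat_lit 4) (nat_lit 432) (nat_lit 301) (nat_lit 287)))))) (XT.nd (nat_lit 468) (nat_lit 0) (nat_lit 0) (XT.nd (nat_lit 234) (nat_lit 0) (nat_lit 0) (XT.nd (nat_lit 78) (nat_lit 0) (nat_lit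 0) (XT.lf (nat_lit 0) (nat_lit 9179315231) (nat_lit 76) (nat_lit 36958281843) (nat_lit 76) (nat_lit 35593659206) (nat_lit 3) (nat_lit 4) (nat_lit 4) (nat_lit 5) (nat_lit 4) (nat_lit 4) (nat_lit 433) (nat_lit 301) (nat_lit 286)) (XT.nd (nat_lit 78) (nat_lit 0) (nat_lit 0) (XT.lf (nat_lit 0) (nat_lit 18058804200) (nat_lit 76) (nat_lit 34486019576) (nat_lit 76) (nat_lit 33061168620) (nat_lit 3) (nat_lit 4) (nat_lit 4) (nat_lit 5) (nat_lit 4) (nat_lit 4) (nat_lit 434) (nat_lit 301) (nat_lit 285)) (XT.lf (nat_lit 0) (nat_lit 27188072530) (nat_lit 76) (nat_lit 31986744610) (nat_lit 76) (nat_lit 30504533351) (nat_lit 3) (nat_lit 4) (nat_lit 4) (nat_lit 5) (nat_lit 4) (nat_lit 4) (nat_lit 435) (nat_lit 301) (nat_lit 284)))) (XT.nd (nat_lit 78) (nat_lit 0) (nat_lit 0) (XT.lf (nat_lit 0) (nat_lit 36588856572) (nat_lit 76) (nat_lit 29454506291) (nat_lit 76) (nat_lit 27917666172) (nat_lit 3) (nat_lit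 4) (nat_lit 4) (nat_lit 5) (nat_lit 4) (nat_lit 4) (nat_lit 436) (nat_lit 301) (nat_lit 283)) (XT.nd (nat_lit 78) (nat_lit 0) (nat_lit 0) (XT.lf (nat_lit 0) (nat_lit 46283539147) (nat_lit 76) (nat_lit 26883275480) (nat_lit 76) (nat_lit 25294407874) (nat_lit 3) (nat_lit 4) (nat_lit 4) (nat_lit 5) (nat_lit 4) (nat_lit 4) (nat_lit 437) (nat_lit 301) (nat_lit 282)) (XT.lf (nat_lit 0) (nat_lit 56295202831) (nat_lit 76) (nat_lit 24266930198) (nat_lit 76) (nat_lit 22628512606) (nat_lit 3) (nat_lit 4) (nat_lit 4) (nat_lit 5) (nat_lit 4) (nat_lit 4) (nat_lit 438) (nat_lit 301) (nat_lit 281))))) (XT.nd (nat_lit 234) (nat_lit 0) (nat_lit 0) (XT.nd (nat_lit 78) (nat_lit 0) (nat_lit 0) (XT.lf (nat_lit 0) (nat_lit 66647684919) (nat_lit 76) (nat_lit 21599241053) (nat_lit 76) (nat_lit 19913632997) (nat_lit 3) (nat_lit 4) (nat_lit 4) (nat_lit 5) (nat_lit 4) (nat_lit 4) (nat_lit 439) (nat_lit 301) (nat_lit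 280)) (XT.nd (nat_lit 78) (nat_lit 0) (nat_lit 0) (XT.lf (nat_lit 0) (nat_lit 77365634178) (nat_lit 76) (nat_lit 18873856404) (nat_lit 76) (nat_lit 17143305049) (nat_lit 3) (nat_lit 4) (nat_lit 4) (nat_lit 5) (nat_lit 4) (nat_lit 4) (nat_lit 440) (nat_lit 301) (nat_lit 279)) (XT.lf (nat_lit 0) (nat_lit 88474569535) (nat_lit 76) (nat_lit 16084287238) (nat_lit 76) (nat_lit 14310932742) (nat_lit 3) (nat_lit 4) (nat_lit 4) (nat_lit 5) (nat_lit 4) (nat_lit 4) (nat_lit 441) (nat_lit 301) (nat_lit 278)))) (XT.nd (nat_lit 156) (nat_lit 0) (nat_lit 0) (XT.nd (nat_lit 78) (nat_lit 0) (nat_lit 0) (XT.lf (nat_lit 0) (nat_lit 100000940836) (nat_lit 76) (nat_lit 13223891726) (nat_lit 76) (nat_lit 11409772332) (nat_lit 3) (nat_lit 4) (nat_lit 4) (nat_lit 5) (nat_lit 4) (nat_lit 4) (nat_lit 442) (nat_lit 301) (nat_lit 277)) (XT.lf (nat_lit 0) (nat_lit 111972191823) (nat_lit 76) (nat_lit 10285859401) (nat_lit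 76) (nat_lit 8432916296) (nat_lit 3) (nat_lit 4) (nat_lit 4) (nat_lit 5) (nat_lit 4) (nat_lit 4) (nat_lit 443) (nat_lit 301) (nat_lit 276))) (XT.nd (nat_lit 78) (nat_lit 0) (nat_lit 0) (XT.lf (nat_lit 0) (nat_lit 124416825473) (nat_lit 76) (nat_lit 7263194949) (nat_lit 76) (nat_lit 5373276881) (nat_lit 3) (nat_lit 4) (nat_lit 4) (nat_lit 5) (nat_lit 4) (nat_lit 4) (nat_lit 444) (nat_lit 301) (nat_lit 275)) (XT.lf (nat_lit 0) (nat_lit 137364471866) (nat_lit 76) (nat_lit 4148701548) (nat_lit 76) (nat_lit 2223569230) (nat_lit 3) (nat_lit 4) (nat_lit 4) (nat_lit 5) (nat_lit 4) (nat_lit 4) (nat_lit 445) (nat_lit 301) (nat_lit 274))))))))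
noncomputable def xc20 : XT := (XT.nd (nat_lit 1950) (nat_lit 0) (nat_lit 0) (XT.nd (nat_lit 936) (nat_lit 0) (nat_lit 0) (XT.nd (nat_lit 468) (nat_lit 0) (nat_lit 0) (XT.nd (nat_lit 234) (nat_lit 0) (nat_lit 0) (XT.nd (nat_lit 78) (nat_lit 0) (nat_lit 0) (XT.lf (nat_lit 0) (nat_lit 75165050) (nat_lit 76) (nat_lit 916949461) (nat_lit 152) (nat_lit 149764244179) (nat_lit 1) (nat_lit 5) (nat_lit 2) (nat_lit 5) (nat_lit 3) (nat_lit 4) (nat_lit 446) (nat_lit 301) (nat_lit 273)) (XT.nd (nat_lit 78) (nat_lit 0) (nat_lit 0) (XT.lf (nat_lit 0) (nat_lit 4384310642) (nat_lit 152) (nat_lit 151247810915) (nat_lit 0) (nat_lit 2488491534) (nat_lit 1) (nat_lit 5) (nat_lit 3) (nat_lit 4) (nat_lit 1) (nat_lit 4) (nat_lit 447) (nat_lit 301) (nat_lit 272)) (XT.lf (nat_lit 0) (nat_lit 7906010142) (nat_lit 152) (nat_lit 151967857953) (nat_lit 0) (nat_lit 5981220183) (nat_lit 1) (nat_lit 5) (nat_lit 3) (nat_lit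 4) (nat_lit 1) (nat_lit 4) (nat_lit 448) (nat_lit 301) (nat_lit 271)))) (XT.nd (nat_lit 78) (nat_lit 0) (nat_lit 0) (XT.lf (nat_lit 0) (nat_lit 11551281862) (nat_lit 152) (nat_lit 152828733001) (nat_lit 0) (nat_lit 9598900616) (nat_lit 1) (nat_lit 5) (nat_lit 3) (nat_lit 4) (nat_lit 1) (nat_lit 4) (nat_lit 449) (nat_lit 301) (nat_lit 270)) (XT.nd (nat_lit 78) (nat_lit 0) (nat_lit 0) (XT.lf (nat_lit 0) (nat_lit 15328805019) (nat_lit 152) (nat_lit 153832485762) (nat_lit 0) (nat_lit 13350146357) (nat_lit 1) (nat_lit 5) (nat_lit 3) (nat_lit 4) (nat_lit 1) (nat_lit 4) (nat_lit 450) (nat_lit 301) (nat_lit 269)) (XT.lf (nat_lit 0) (nat_lit 19247573717) (nat_lit 152) (nat_lit 154981506124) (nat_lit 0) (nat_lit 17243888944) (nat_lit 1) (nat_lit 5) (nat_lit 3) (nat_lit 4) (nat_lit 1) (nat_lit 4) (nat_lit 451) (nat_lit 301) (nat_lit 268))))) (XT.nd (nat_lit 234) (nat_lit 0) (nat_lit 0) (XT.nd (nat_lit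 78) (nat_lit 0) (nat_lit 0) (XT.lf (nat_lit 0) (nat_lit 23316918356) (nat_lit 152) (nat_lit 156278529849) (nat_lit 0) (nat_lit 21289399193) (nat_lit 1) (nat_lit 5) (nat_lit 3) (nat_lit 4) (nat_lit 1) (nat_lit 4) (nat_lit 452) (nat_lit 301) (nat_lit 267)) (XT.nd (nat_lit 78) (nat_lit 0) (nat_lit 0) (XT.lf (nat_lit 0) (nat_lit 27546527853) (nat_lit 152) (nat_lit 157726645090) (nat_lit 0) (nat_lit 25496309270) (nat_lit 1) (nat_lit 5) (nat_lit 3) (nat_lit 4) (nat_lit 1) (nat_lit 4) (nat_lit 453) (nat_lit 301) (nat_lit 266)) (XT.lf (nat_lit 0) (nat_lit 31946472707) (nat_lit 152) (nat_lit 159329299739) (nat_lit 0) (nat_lit 29874635628) (nat_lit 1) (nat_lit 5) (nat_lit 3) (nat_lit 4) (nat_lit 1) (nat_lit 4) (nat_lit 454) (nat_lit 301) (nat_lit 265)))) (XT.nd (nat_lit 78) (nat_lit 0) (nat_lit 0) (XT.lf (nat_lit 0) (nat_lit 36527228976) (nat_lit 152) (nat_lit 161090309641) (nat_lit 0) (nat_lit 34434802855)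 (nat_lit 1) (nat_lit 5) (nat_lit 3) (nat_lit 4) (nat_lit 1) (nat_lit 4) (nat_lit 455) (nat_lit 301) (nat_lit 264)) (XT.nd (nat_lit 78) (nat_lit 0) (nat_lit 0) (XT.lf (nat_lit 0) (nat_lit 41299703223) (nat_lit 152) (nat_lit 163013867676) (nat_lit 0) (nat_lit 39187668490) (nat_lit 1) (nat_lit 5) (nat_lit 3) (nat_lit 4) (nat_lit 1) (nat_lit 4) (nat_lit 456) (nat_lit 301) (nat_lit 263)) (XT.lf (nat_lit 0) (nat_lit 46275258483) (nat_lit 152) (nat_lit 165104553746) (nat_lit 0) (nat_lit 44144548880) (nat_lit 1) (nat_lit 5) (nat_lit 3) (nat_lit 4) (nat_lit 1) (nat_lit 4) (nat_lit 457) (nat_lit 301) (nat_lit 262)))))) (XT.nd (nat_lit 468) (nat_lit 0) (nat_lit 0) (XT.nd (nat_lit 234) (nat_lit 0) (nat_lit 0) (XT.nd (nat_lit 78) (nat_lit 0) (nat_lit 0) (XT.lf (nat_lit 0) (nat_lit 51465741315) (nat_lit 152) (nat_lit 167367345673) (nat_lit 0) (nat_lit 49317246123) (nat_lit 1) (nat_lit 5) (nat_lit 3) (nat_lit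 4) (nat_lit 1) (nat_lit 4) (nat_lit 458) (nat_lit 301) (nat_lit 261)) (XT.nd (nat_lit 78) (nat_lit 0) (nat_lit 0) (XT.lf (nat_lit 0) (nat_lit 56883510011) (nat_lit 152) (nat_lit 169807631057) (nat_lit 0) (nat_lit 54718076163) (nat_lit 1) (nat_lit 5) (nat_lit 3) (nat_lit 4) (nat_lit 1) (nat_lit 4) (nat_lit 459) (nat_lit 301) (nat_lit 260)) (XT.lf (nat_lit 0) (nat_lit 62541464022) (nat_lit 152) (nat_lit 172431220103) (nat_lit 0) (nat_lit 60359898120) (nat_lit 1) (nat_lit 5) (nat_lit 3) (nat_lit 4) (nat_lit 1) (nat_lit 4) (nat_lit 460) (nat_lit 301) (nat_lit 259)))) (XT.nd (nat_lit 78) (nat_lit 0) (nat_lit 0) (XT.lf (nat_lit 0) (nat_lit 68453074666) (nat_lit 152) (nat_lit 175244359450) (nat_lit 0) (nat_lit 66256144902) (nat_lit 1) (nat_lit 5) (nat_lit 3) (nat_lit 4) (nat_lit 1) (nat_lit 4) (nat_lit 461) (nat_lit 301) (nat_lit 258)) (XT.nd (nat_lit 78) (nat_lit 0) (nat_lit 0) (XT.lf (nat_lit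 0) (nat_lit 74632417206) (nat_lit 152) (nat_lit 178253747049) (nat_lit 0) (nat_lit 72420855194) (nat_lit 1) (nat_lit 5) (nat_lit 3) (nat_lit 4) (nat_lit 1) (nat_lit 4) (nat_lit 462) (nat_lit 301) (nat_lit 257)) (XT.lf (nat_lit 0) (nat_lit 81094204363) (nat_lit 152) (nat_lit 181466548109) (nat_lit 0) (nat_lit 78868706877) (nat_lit 1) (nat_lit 5) (nat_lit 3) (nat_lit 4) (nat_lit 1) (nat_lit 4) (nat_lit 463) (nat_lit 301) (nat_lit 256))))) (XT.nd (nat_lit 234) (nat_lit 0) (nat_lit 0) (XT.nd (nat_lit 78) (nat_lit 0) (nat_lit 0) (XT.lf (nat_lit 0) (nat_lit 87853821345) (nat_lit 152) (nat_lit 184890412156) (nat_lit 0) (nat_lit 85615051977) (nat_lit 1) (nat_lit 5) (nat_lit 3) (nat_lit 4) (nat_lit 1) (nat_lit 4) (nat_lit 464) (nat_lit 301) (nat_lit 255)) (XT.nd (nat_lit 78) (nat_lit 0) (nat_lit 0) (XT.lf (nat_lit 0) (nat_lit 94927362477) (nat_lit 152) (nat_lit 188533491247) (nat_lit 0) (nat_lit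 92675953223) (nat_lit 1) (nat_lit 5) (nat_lit 3) (nat_lit 4) (nat_lit 1) (nat_lit 4) (nat_lit 465) (nat_lit 301) (nat_lit 254)) (XT.lf (nat_lit 0) (nat_lit 102331669524) (nat_lit 152) (nat_lit 192404459381) (nat_lit 0) (nat_lit 100068222283) (nat_lit 1) (nat_lit 5) (nat_lit 3) (nat_lit 4) (nat_lit 1) (nat_lit 4) (nat_lit 466) (nat_lit 301) (nat_lit 253)))) (XT.nd (nat_lit 156) (nat_lit 0) (nat_lit 0) (XT.nd (nat_lit 78) (nat_lit 0) (nat_lit 0) (XT.lf (nat_lit 0) (nat_lit 110084371789) (nat_lit 152) (nat_lit 196512533148) (nat_lit 0) (nat_lit 107809459798) (nat_lit 1) (nat_lit 5) (nat_lit 3) (nat_lit 4) (nat_lit 1) (nat_lit 4) (nat_lit 467) (nat_lit 301) (nat_lit 252)) (XT.lf (nat_lit 0) (nat_lit 118203928086) (nat_lit 152) (nat_lit 200867493676) (nat_lit 0) (nat_lit 115918097287) (nat_lit 1) (nat_lit 5) (nat_lit 3) (nat_lit 4) (nat_lit 1) (nat_lit 4) (nat_lit 468) (nat_lit 301) (nat_lit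 251))) (XT.nd (nat_lit 78) (nat_lit 0) (nat_lit 0) (XT.lf (nat_lit 0) (nat_lit 126709670693) (nat_lit 152) (nat_lit 205479709918) (nat_lit 0) (nat_lit 124413441028) (nat_lit 1) (nat_lit 5) (nat_lit 3) (nat_lit 4) (nat_lit 1) (nat_lit 4) (nat_lit 469) (nat_lit 301) (nat_lit 250)) (XT.lf (nat_lit 0) (nat_lit 135621851377) (nat_lit 152) (nat_lit 210360163343) (nat_lit 0) (nat_lit 133315718030) (nat_lit 1) (nat_lit 5) (nat_lit 3) (nat_lit 4) (nat_lit 1) (nat_lit 4) (nat_lit 470) (nat_lit 301) (nat_lit 249))))))) (XT.nd (nat_lit 48984) (nat_lit 0) (nat_lit 228) (XT.nd (nat_lit 468) (nat_lit 0) (nat_lit 0) (XT.nd (nat_lit 234) (nat_lit 0) (nat_lit 0) (XT.nd (nat_lit 78) (nat_lit 0) (nat_lit 0) (XT.lf (nat_lit 0) (nat_lit 144961689617) (nat_lit 152) (nat_lit 215520474077) (nat_lit 0) (nat_lit 142646124192) (nat_lit 1) (nat_lit 5) (nat_lit 3) (nat_lit 4) (nat_lit 1) (nat_lit 4) (nat_lit 471) (nat_lit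 301) (nat_lit 248)) (XT.nd (nat_lit 78) (nat_lit 0) (nat_lit 0) (XT.lf (nat_lit 0) (nat_lit 154751423122) (nat_lit 152) (nat_lit 220972928574) (nat_lit 0) (nat_lit 152426874766) (nat_lit 1) (nat_lit 5) (nat_lit 3) (nat_lit 4) (nat_lit 1) (nat_lit 4) (nat_lit 472) (nat_lit 301) (nat_lit 247)) (XT.lf (nat_lit 0) (nat_lit 165014360782) (nat_lit 152) (nat_lit 226730508868) (nat_lit 0) (nat_lit 162681257253) (nat_lit 1) (nat_lit 5) (nat_lit 3) (nat_lit 4) (nat_lit 1) (nat_lit 4) (nat_lit 473) (nat_lit 301) (nat_lit 246)))) (XT.nd (nat_lit 78) (nat_lit 0) (nat_lit 0) (XT.lf (nat_lit 0) (nat_lit 175774938162) (nat_lit 152) (nat_lit 232806923485) (nat_lit 0) (nat_lit 173433686850) (nat_lit 1) (nat_lit 5) (nat_lit 3) (nat_lit 4) (nat_lit 1) (nat_lit 4) (nat_lit 474) (nat_lit 301) (nat_lit 245)) (XT.nd (nat_lit 78) (nat_lit 0) (nat_lit 0) (XT.lf (nat_lit 0) (nat_lit 187058775686) (nat_lit 152) (nat_lit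 239216640078) (nat_lit 0) (nat_lit 184709764580) (nat_lit 1) (nat_lit 5) (nat_lit 3) (nat_lit 4) (nat_lit 1) (nat_lit 4) (nat_lit 475) (nat_lit 301) (nat_lit 244)) (XT.lf (nat_lit 0) (nat_lit 198892739632) (nat_lit 152) (nat_lit 245974919878) (nat_lit 0) (nat_lit 196536338246) (nat_lit 1) (nat_lit 5) (nat_lit 3) (nat_lit 4) (nat_lit 1) (nat_lit 4) (nat_lit 476) (nat_lit 301) (nat_lit 243))))) (XT.nd (nat_lit 234) (nat_lit 0) (nat_lit 0) (XT.nd (nat_lit 78) (nat_lit 0) (nat_lit 0) (XT.lf (nat_lit 0) (nat_lit 211305006106) (nat_lit 152) (nat_lit 253097854026) (nat_lit 0) (nat_lit 208941566358) (nat_lit 1) (nat_lit 5) (nat_lit 3) (nat_lit 4) (nat_lit 1) (nat_lit 4) (nat_lit 477) (nat_lit 301) (nat_lit 242)) (XT.nd (nat_lit 78) (nat_lit 0) (nat_lit 0) (XT.lf (nat_lit 0) (nat_lit 224325128122) (nat_lit 152) (nat_lit 260602401889) (nat_lit 0) (nat_lit 221954985173) (nat_lit 1) (nat_lit 5) (nat_lit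 3) (nat_lit 4) (nat_lit 1) (nat_lit 4) (nat_lit 478) (nat_lit 301) (nat_lit 241)) (XT.lf (nat_lit 0) (nat_lit 237984105972) (nat_lit 152) (nat_lit 268506431439) (nat_lit 0) (nat_lit 235607579021) (nat_lit 1) (nat_lit 5) (nat_lit 3) (nat_lit 4) (nat_lit 1) (nat_lit 4) (nat_lit 479) (nat_lit 301) (nat_lit 240)))) (XT.nd (nat_lit 48126) (nat_lit 0) (nat_lit 456) (XT.nd (nat_lit 78) (nat_lit 0) (nat_lit 0) (XT.lf (nat_lit 0) (nat_lit 252314461031) (nat_lit 152) (nat_lit 276828761793) (nat_lit 0) (nat_lit 249931854079) (nat_lit 1) (nat_lit 5) (nat_lit 3) (nat_lit 4) (nat_lit 1) (nat_lit 4) (nat_lit 480) (nat_lit 301) (nat_lit 239)) (XT.lf (nat_lit 0) (nat_lit 267350313192) (nat_lit 152) (nat_lit 285589208025) (nat_lit 0) (nat_lit 264961915762) (nat_lit 1) (nat_lit 5) (nat_lit 3) (nat_lit 4) (nat_lit 1) (nat_lit 4) (nat_lit 481) (nat_lit 301) (nat_lit 238))) (XT.nd (nat_lit 78) (nat_lit 0) (nat_lit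 0) (XT.lf (nat_lit 0) (nat_lit 36817732) (nat_lit 152) (nat_lit 19218158398) (nat_lit 0) (nat_lit 36817732) (nat_lit 7) (nat_lit 5) (nat_lit 9) (nat_lit 4) (nat_lit 7) (nat_lit 4) (nat_lit 416) (nat_lit 302) (nat_lit 302)) (XT.lf (nat_lit 0) (nat_lit 5896727298) (nat_lit 152) (nat_lit 28558743259) (nat_lit 0) (nat_lit 5758682888) (nat_lit 7) (nat_lit 5) (nat_lit 9) (nat_lit 4) (nat_lit 7) (nat_lit 4) (nat_lit 417) (nat_lit 302) (nat_lit 301)))))) (XT.nd (nat_lit 468) (nat_lit 152) (nat_lit 0) (XT.nd (nat_lit 234) (nat_lit 0) (nat_lit 0) (XT.nd (nat_lit 78) (nat_lit 76) (nat_lit 0) (XT.lf (nat_lit 0) (nat_lit 11823156040) (nat_lit 152) (nat_lit 18558853996) (nat_lit 0) (nat_lit 11553640764) (nat_lit 7) (nat_lit 5) (nat_lit 9) (nat_lit 4) (nat_lit 7) (nat_lit 4) (nat_lit 418) (nat_lit 302) (nat_lit 300)) (XT.nd (nat_lit 78) (nat_lit 76) (nat_lit 0) (XT.lf (nat_lit 0) (nat_lit 17867032235)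 (nat_lit 152) (nat_lit 8412839750) (nat_lit 0) (nat_lit 17472306609) (nat_lit 7) (nat_lit 5) (nat_lit 9) (nat_lit 4) (nat_lit 7) (nat_lit 4) (nat_lit 419) (nat_lit 302) (nat_lit 299)) (XT.lf (nat_lit 0) (nat_lit 1966393530) (nat_lit 76) (nat_lit 22107053447) (nat_lit 76) (nat_lit 21593079870) (nat_lit 6) (nat_lit 4) (nat_lit 7) (nat_lit 5) (nat_lit 7) (nat_lit 4) (nat_lit 420) (nat_lit 302) (nat_lit 298)))) (XT.nd (nat_lit 78) (nat_lit 0) (nat_lit 0) (XT.lf (nat_lit 0) (nat_lit 12825080506) (nat_lit 76) (nat_lit 17740156549) (nat_lit 76) (nat_lit 17112613494) (nat_lit 6) (nat_lit 4) (nat_lit 7) (nat_lit 5) (nat_lit 7) (nat_lit 4) (nat_lit 421) (nat_lit 302) (nat_lit 297)) (XT.nd (nat_lit 78) (nat_lit 0) (nat_lit 0) (XT.lf (nat_lit 0) (nat_lit 23910908718) (nat_lit 76) (nat_lit 13311259429) (nat_lit 76) (nat_lit 12575554968) (nat_lit 6) (nat_lit 4) (nat_lit 7) (nat_lit 5) (nat_lit 7) (nat_lit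 4) (nat_lit 422) (nat_lit 302) (nat_lit 296)) (XT.lf (nat_lit 0) (nat_lit 35250272996) (nat_lit 76) (nat_lit 8809817096) (nat_lit 76) (nat_lit 7971101770) (nat_lit 6) (nat_lit 4) (nat_lit 7) (nat_lit 5) (nat_lit 7) (nat_lit 4) (nat_lit 423) (nat_lit 302) (nat_lit 295))))) (XT.nd (nat_lit 234) (nat_lit 0) (nat_lit 0) (XT.nd (nat_lit 78) (nat_lit 152) (nat_lit 0) (XT.lf (nat_lit 0) (nat_lit 46870171826) (nat_lit 76) (nat_lit 4225111828) (nat_lit 76) (nat_lit 3288290917) (nat_lit 6) (nat_lit 4) (nat_lit 7) (nat_lit 5) (nat_lit 7) (nat_lit 4) (nat_lit 424) (nat_lit 302) (nat_lit 294)) (XT.nd (nat_lit 78) (nat_lit 0) (nat_lit 0) (XT.lf (nat_lit 0) (nat_lit 1475380865) (nat_lit 152) (nat_lit 54887804390) (nat_lit 0) (nat_lit 494185816) (nat_lit 4) (nat_lit 5) (nat_lit 6) (nat_lit 4) (nat_lit 4) (nat_lit 4) (nat_lit 425) (nat_lit 302) (nat_lit 293)) (XT.lf (nat_lit 0) (nat_lit 6425609050) (nat_lit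 152) (nat_lit 47663950302) (nat_lit 0) (nat_lit 5359666709) (nat_lit 4) (nat_lit 5) (nat_lit 6) (nat_lit 4) (nat_lit 4) (nat_lit 4) (nat_lit 426) (nat_lit 302) (nat_lit 292)))) (XT.nd (nat_lit 156) (nat_lit 0) (nat_lit 0) (XT.nd (nat_lit 78) (nat_lit 0) (nat_lit 0) (XT.lf (nat_lit 0) (nat_lit 11490289367) (nat_lit 152) (nat_lit 40343409732) (nat_lit 0) (nat_lit 10343635319) (nat_lit 4) (nat_lit 5) (nat_lit 6) (nat_lit 4) (nat_lit 4) (nat_lit 4) (nat_lit 427) (nat_lit 302) (nat_lit 291)) (XT.lf (nat_lit 0) (nat_lit 16681480579) (nat_lit 152) (nat_lit 32908752820) (nat_lit 0) (nat_lit 15457958237) (nat_lit 4) (nat_lit 5) (nat_lit 6) (nat_lit 4) (nat_lit 4) (nat_lit 4) (nat_lit 428) (nat_lit 302) (nat_lit 290))) (XT.nd (nat_lit 78) (nat_lit 0) (nat_lit 0) (XT.lf (nat_lit 0) (nat_lit 22011542664) (nat_lit 152) (nat_lit 25342278002) (nat_lit 0) (nat_lit 20714812425) (nat_lit 4) (nat_lit 5) (nat_lit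 6) (nat_lit 4) (nat_lit 4) (nat_lit 4) (nat_lit 429) (nat_lit 302) (nat_lit 289)) (XT.lf (nat_lit 0) (nat_lit 27493166247) (nat_lit 152) (nat_lit 17625969862) (nat_lit 0) (nat_lit 26126714200) (nat_lit 4) (nat_lit 5) (nat_lit 6) (nat_lit 4) (nat_lit 4) (nat_lit 4) (nat_lit 430) (nat_lit 302) (nat_lit 288))))))))
noncomputable def xc21 : XT := (XT.nd (nat_lit 1950) (nat_lit 0) (nat_lit 0) (XT.nd (nat_lit 936) (nat_lit 152) (nat_lit 0) (XT.nd (nat_lit 468) (nat_lit 0) (nat_lit 0) (XT.nd (nat_lit 234) (nat_lit 0) (nat_lit 0) (XT.nd (nat_lit 78) (nat_lit 76) (nat_lit 0) (XT.lf (nat_lit 0) (nat_lit 33139402812) (nat_lit 152) (nat_lit 9741456237) (nat_lit 0) (nat_lit 31706549043) (nat_lit 4) (nat_lit 5) (nat_lit 6) (nat_lit 4) (nat_lit 4) (nat_lit 4) (nat_lit 431) (nat_lit 302) (nat_lit 287)) (XT.nd (nat_lit 78) (nat_lit 76) (nat_lit 0) (XT.lf (nat_lit 0) (nat_lit 38963695779) (nat_lit 152) (nat_lit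 1669964477) (nat_lit 0) (nat_lit 37467602276) (nat_lit 4) (nat_lit 5) (nat_lit 6) (nat_lit 4) (nat_lit 4) (nat_lit 4) (nat_lit 432) (nat_lit 302) (nat_lit 286)) (XT.lf (nat_lit 0) (nat_lit 6826204428) (nat_lit 76) (nat_lit 38260284267) (nat_lit 76) (nat_lit 36703962445) (nat_lit 3) (nat_lit 4) (nat_lit 4) (nat_lit 5) (nat_lit 4) (nat_lit 4) (nat_lit 433) (nat_lit 302) (nat_lit 285)))) (XT.nd (nat_lit 78) (nat_lit 0) (nat_lit 0) (XT.lf (nat_lit 0) (nat_lit 15610964086) (nat_lit 76) (nat_lit 35835144153) (nat_lit 76) (nat_lit 34221462028) (nat_lit 3) (nat_lit 4) (nat_lit 4) (nat_lit 5) (nat_lit 4) (nat_lit 4) (nat_lit 434) (nat_lit 302) (nat_lit 284)) (XT.nd (nat_lit 78) (nat_lit 0) (nat_lit 0) (XT.lf (nat_lit 0) (nat_lit 24650014023) (nat_lit 76) (nat_lit 33380747429) (nat_lit 76) (nat_lit 31712436443) (nat_lit 3) (nat_lit 4) (nat_lit 4) (nat_lit 5) (nat_lit 4) (nat_lit 4) (nat_lit 435) (nat_lit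 302) (nat_lit 283)) (XT.lf (nat_lit 0) (nat_lit 33964875787) (nat_lit 76) (nat_lit 30891250293) (nat_lit 76) (nat_lit 29170911820) (nat_lit 3) (nat_lit 4) (nat_lit 4) (nat_lit 5) (nat_lit 4) (nat_lit 4) (nat_lit 436) (nat_lit 302) (nat_lit 282))))) (XT.nd (nat_lit 234) (nat_lit 0) (nat_lit 0) (XT.nd (nat_lit 78) (nat_lit 0) (nat_lit 0) (XT.lf (nat_lit 0) (nat_lit 43577727621) (nat_lit 76) (nat_lit 28360725369) (nat_lit 76) (nat_lit 26590836910) (nat_lit 3) (nat_lit 4) (nat_lit 4) (nat_lit 5) (nat_lit 4) (nat_lit 4) (nat_lit 437) (nat_lit 302) (nat_lit 281)) (XT.nd (nat_lit 78) (nat_lit 0) (nat_lit 0) (XT.lf (nat_lit 0) (nat_lit 53511457266) (nat_lit 76) (nat_lit 25783147600) (nat_lit 76) (nat_lit 23966068678) (nat_lit 3) (nat_lit 4) (nat_lit 4) (nat_lit 5) (nat_lit 4) (nat_lit 4) (nat_lit 438) (nat_lit 302) (nat_lit 280)) (XT.lf (nat_lit 0) (nat_lit 63789716460) (nat_lit 76) (nat_lit 23152379896)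 (nat_lit 76) (nat_lit 21290357674) (nat_lit 3) (nat_lit 4) (nat_lit 4) (nat_lit 5) (nat_lit 4) (nat_lit 4) (nat_lit 439) (nat_lit 302) (nat_lit 279)))) (XT.nd (nat_lit 78) (nat_lit 0) (nat_lit 0) (XT.lf (nat_lit 0) (nat_lit 74436977248) (nat_lit 76) (nat_lit 20462158522) (nat_lit 76) (nat_lit 18557333159) (nat_lit 3) (nat_lit 4) (nat_lit 4) (nat_lit 5) (nat_lit 4) (nat_lit 4) (nat_lit 440) (nat_lit 302) (nat_lit 278)) (XT.nd (nat_lit 78) (nat_lit 0) (nat_lit 0) (XT.lf (nat_lit 0) (nat_lit 85478590252) (nat_lit 76) (nat_lit 17706078192) (nat_lit 76) (nat_lit 15760487932) (nat_lit 3) (nat_lit 4) (nat_lit 4) (nat_lit 5) (nat_lit 4) (nat_lit 4) (nat_lit 441) (nat_lit 302) (nat_lit 277)) (XT.lf (nat_lit 0) (nat_lit 96940845026) (nat_lit 76) (nat_lit 14877576808) (nat_lit 76) (nat_lit 12893162836) (nat_lit 3) (nat_lit 4) (nat_lit 4) (nat_lit 5) (nat_lit 4) (nat_lit 4) (nat_lit 442) (nat_lit 302)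 (nat_lit 276)))))) (XT.nd (nat_lit 468) (nat_lit 0) (nat_lit 0) (XT.nd (nat_lit 234) (nat_lit 152) (nat_lit 0) (XT.nd (nat_lit 78) (nat_lit 0) (nat_lit 0) (XT.lf (nat_lit 0) (nat_lit 108851032654) (nat_lit 76) (nat_lit 11969919843) (nat_lit 76) (nat_lit 9948530909) (nat_lit 3) (nat_lit 4) (nat_lit 4) (nat_lit 5) (nat_lit 4) (nat_lit 4) (nat_lit 443) (nat_lit 302) (nat_lit 275)) (XT.nd (nat_lit 78) (nat_lit 0) (nat_lit 0) (XT.lf (nat_lit 0) (nat_lit 121237510724) (nat_lit 76) (nat_lit 8976184305) (nat_lit 76) (nat_lit 6919581120) (nat_lit 3) (nat_lit 4) (nat_lit 4) (nat_lit 5) (nat_lit 4) (nat_lit 4) (nat_lit 444) (nat_lit 302) (nat_lit 274)) (XT.lf (nat_lit 0) (nat_lit 134129770851) (nat_lit 76) (nat_lit 5889242253) (nat_lit 76) (nat_lit 3799101686) (nat_lit 3) (nat_lit 4) (nat_lit 4) (nat_lit 5) (nat_lit 4) (nat_lit 4) (nat_lit 445) (nat_lit 302) (nat_lit 273)))) (XT.nd (nat_lit 78) (nat_lit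 152) (nat_lit 0) (XT.lf (nat_lit 0) (nat_lit 147558508893) (nat_lit 76) (nat_lit 2701743823) (nat_lit 76) (nat_lit 579662893) (nat_lit 3) (nat_lit 4) (nat_lit 4) (nat_lit 5) (nat_lit 4) (nat_lit 4) (nat_lit 446) (nat_lit 302) (nat_lit 272)) (XT.nd (nat_lit 78) (nat_lit 0) (nat_lit 0) (XT.lf (nat_lit 0) (nat_lit 2722530096) (nat_lit 152) (nat_lit 154814991769) (nat_lit 0) (nat_lit 672529788) (nat_lit 1) (nat_lit 5) (nat_lit 3) (nat_lit 4) (nat_lit 1) (nat_lit 4) (nat_lit 447) (nat_lit 302) (nat_lit 271)) (XT.lf (nat_lit 0) (nat_lit 6218613619) (nat_lit 152) (nat_lit 155586173274) (nat_lit 0) (nat_lit 4141022024) (nat_lit 1) (nat_lit 5) (nat_lit 3) (nat_lit 4) (nat_lit 1) (nat_lit 4) (nat_lit 448) (nat_lit 302) (nat_lit 270))))) (XT.nd (nat_lit 234) (nat_lit 0) (nat_lit 0) (XT.nd (nat_lit 78) (nat_lit 0) (nat_lit 0) (XT.lf (nat_lit 0) (nat_lit 9839489168) (nat_lit 152) (nat_lit 156495747816)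 (nat_lit 0) (nat_lit 7735620157) (nat_lit 1) (nat_lit 5) (nat_lit 3) (nat_lit 4) (nat_lit 1) (nat_lit 4) (nat_lit 449) (nat_lit 302) (nat_lit 269)) (XT.nd (nat_lit 78) (nat_lit 0) (nat_lit 0) (XT.lf (nat_lit 0) (nat_lit 13593777878) (nat_lit 152) (nat_lit 157545881047) (nat_lit 0) (nat_lit 11464882757) (nat_lit 1) (nat_lit 5) (nat_lit 3) (nat_lit 4) (nat_lit 1) (nat_lit 4) (nat_lit 450) (nat_lit 302) (nat_lit 268)) (XT.lf (nat_lit 0) (nat_lit 17490418530) (nat_lit 152) (nat_lit 158739073284) (nat_lit 0) (nat_lit 15337689018) (nat_lit 1) (nat_lit 5) (nat_lit 3) (nat_lit 4) (nat_lit 1) (nat_lit 4) (nat_lit 451) (nat_lit 302) (nat_lit 267)))) (XT.nd (nat_lit 156) (nat_lit 0) (nat_lit 0) (XT.nd (nat_lit 78) (nat_lit 0) (nat_lit 0) (XT.lf (nat_lit 0) (nat_lit 21538688841) (nat_lit 152) (nat_lit 160078165463) (nat_lit 0) (nat_lit 19363259908) (nat_lit 1) (nat_lit 5) (nat_lit 3) (nat_lit 4) (nat_lit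 1) (nat_lit 4) (nat_lit 452) (nat_lit 302) (nat_lit 266)) (XT.lf (nat_lit 0) (nat_lit 25748227548) (nat_lit 152) (nat_lit 161566345897) (nat_lit 0) (nat_lit 23551180121) (nat_lit 1) (nat_lit 5) (nat_lit 3) (nat_lit 4) (nat_lit 1) (nat_lit 4) (nat_lit 453) (nat_lit 302) (nat_lit 265))) (XT.nd (nat_lit 78) (nat_lit 0) (nat_lit 0) (XT.lf (nat_lit 0) (nat_lit 30129057364) (nat_lit 152) (nat_lit 163207157873) (nat_lit 0) (nat_lit 27911420894) (nat_lit 1) (nat_lit 5) (nat_lit 3) (nat_lit 4) (nat_lit 1) (nat_lit 4) (nat_lit 454) (nat_lit 302) (nat_lit 264)) (XT.lf (nat_lit 0) (nat_lit 34691608836) (nat_lit 152) (nat_lit 165004508086) (nat_lit 0) (nat_lit 32454363753) (nat_lit 1) (nat_lit 5) (nat_lit 3) (nat_lit 4) (nat_lit 1) (nat_lit 4) (nat_lit 455) (nat_lit 302) (nat_lit 263))))))) (XT.nd (nat_lit 1014) (nat_lit 0) (nat_lit 0) (XT.nd (nat_lit 468) (nat_lit 0) (nat_lit 0) (XT.nd (nat_lit 234)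 (nat_lit 0) (nat_lit 0) (XT.nd (nat_lit 78) (nat_lit 0) (nat_lit 0) (XT.lf (nat_lit 0) (nat_lit 39446745181) (nat_lit 152) (nat_lit 166962675942) (nat_lit 0) (nat_lit 37190825229) (nat_lit 1) (nat_lit 5) (nat_lit 3) (nat_lit 4) (nat_lit 1) (nat_lit 4) (nat_lit 456) (nat_lit 302) (nat_lit 262)) (XT.nd (nat_lit 78) (nat_lit 0) (nat_lit 0) (XT.lf (nat_lit 0) (nat_lit 44405788152) (nat_lit 152) (nat_lit 169086323745) (nat_lit 0) (nat_lit 42132082611) (nat_lit 1) (nat_lit 5) (nat_lit 3) (nat_lit 4) (nat_lit 1) (nat_lit 4) (nat_lit 457) (nat_lit 302) (nat_lit 261)) (XT.lf (nat_lit 0) (nat_lit 49580544995) (nat_lit 152) (nat_lit 171380507800) (nat_lit 0) (nat_lit 47289900798) (nat_lit 1) (nat_lit 5) (nat_lit 3) (nat_lit 4) (nat_lit 1) (nat_lit 4) (nat_lit 458) (nat_lit 302) (nat_lit 260)))) (XT.nd (nat_lit 78) (nat_lit 0) (nat_lit 0) (XT.lf (nat_lit 0) (nat_lit 54983336560) (nat_lit 152) (nat_lit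 173850690449) (nat_lit 0) (nat_lit 52676560308) (nat_lit 1) (nat_lit 5) (nat_lit 3) (nat_lit 4) (nat_lit 1) (nat_lit 4) (nat_lit 459) (nat_lit 302) (nat_lit 259)) (XT.nd (nat_lit 78) (nat_lit 0) (nat_lit 0) (XT.lf (nat_lit 0) (nat_lit 60627026635) (nat_lit 152) (nat_lit 176502753079) (nat_lit 0) (nat_lit 58304886523) (nat_lit 1) (nat_lit 5) (nat_lit 3) (nat_lit 4) (nat_lit 1) (nat_lit 4) (nat_lit 460) (nat_lit 302) (nat_lit 258)) (XT.lf (nat_lit 0) (nat_lit 66525052578) (nat_lit 152) (nat_lit 179343010126) (nat_lit 0) (nat_lit 64188280217) (nat_lit 1) (nat_lit 5) (nat_lit 3) (nat_lit 4) (nat_lit 1) (nat_lit 4) (nat_lit 461) (nat_lit 302) (nat_lit 257))))) (XT.nd (nat_lit 234) (nat_lit 0) (nat_lit 0) (XT.nd (nat_lit 78) (nat_lit 0) (nat_lit 0) (XT.lf (nat_lit 0) (nat_lit 72691457309) (nat_lit 152) (nat_lit 182378224106) (nat_lit 0) (nat_lit 70340749473) (nat_lit 1) (nat_lit 5) (nat_lit 3)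 (nat_lit 4) (nat_lit 1) (nat_lit 4) (nat_lit 462) (nat_lit 302) (nat_lit 256)) (XT.nd (nat_lit 78) (nat_lit 0) (nat_lit 0) (XT.lf (nat_lit 0) (nat_lit 79140922742) (nat_lit 152) (nat_lit 185615621719) (nat_lit 0) (nat_lit 76776943026) (nat_lit 1) (nat_lit 5) (nat_lit 3) (nat_lit 4) (nat_lit 1) (nat_lit 4) (nat_lit 463) (nat_lit 302) (nat_lit 255)) (XT.lf (nat_lit 0) (nat_lit 85888804749) (nat_lit 152) (nat_lit 189062911055) (nat_lit 0) (nat_lit 83512185146) (nat_lit 1) (nat_lit 5) (nat_lit 3) (nat_lit 4) (nat_lit 1) (nat_lit 4) (nat_lit 464) (nat_lit 302) (nat_lit 254)))) (XT.nd (nat_lit 156) (nat_lit 0) (nat_lit 0) (XT.nd (nat_lit 78) (nat_lit 0) (nat_lit 0) (XT.lf (nat_lit 0) (nat_lit 92951169714) (nat_lit 152) (nat_lit 192728299945) (nat_lit 0) (nat_lit 90562512125) (nat_lit 1) (nat_lit 5) (nat_lit 3) (nat_lit 4) (nat_lit 1) (nat_lit 4) (nat_lit 465) (nat_lit 302) (nat_lit 253)) (XT.lf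 (nat_lit 0) (nat_lit 100344832793) (nat_lit 152) (nat_lit 196620515507) (nat_lit 0) (nat_lit 97944710454) (nat_lit 1) (nat_lit 5) (nat_lit 3) (nat_lit 4) (nat_lit 1) (nat_lit 4) (nat_lit 466) (nat_lit 302) (nat_lit 252))) (XT.nd (nat_lit 78) (nat_lit 0) (nat_lit 0) (XT.lf (nat_lit 0) (nat_lit 108087397946) (nat_lit 152) (nat_lit 200748824919) (nat_lit 0) (nat_lit 105676356797) (nat_lit 1) (nat_lit 5) (nat_lit 3) (nat_lit 4) (nat_lit 1) (nat_lit 4) (nat_lit 467) (nat_lit 302) (nat_lit 251)) (XT.lf (nat_lit 0) (nat_lit 116197299850) (nat_lit 152) (nat_lit 205123057490) (nat_lit 0) (nat_lit 113775859836) (nat_lit 1) (nat_lit 5) (nat_lit 3) (nat_lit 4) (nat_lit 1) (nat_lit 4) (nat_lit 468) (nat_lit 302) (nat_lit 250)))))) (XT.nd (nat_lit 468) (nat_lit 0) (nat_lit 0) (XT.nd (nat_lit 234) (nat_lit 0) (nat_lit 0) (XT.nd (nat_lit 78) (nat_lit 0) (nat_lit 0) (XT.lf (nat_lit 0) (nat_lit 124693847797)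 (nat_lit 152) (nat_lit 209753628059) (nat_lit 0) (nat_lit 122262504101) (nat_lit 1) (nat_lit 5) (nat_lit 3) (nat_lit 4) (nat_lit 1) (nat_lit 4) (nat_lit 469) (nat_lit 302) (nat_lit 249)) (XT.nd (nat_lit 78) (nat_lit 0) (nat_lit 0) (XT.lf (nat_lit 0) (nat_lit 133597271662) (nat_lit 152) (nat_lit 214651561795) (nat_lit 0) (nat_lit 131156495888) (nat_lit 1) (nat_lit 5) (nat_lit 3) (nat_lit 4) (nat_lit 1) (nat_lit 4) (nat_lit 470) (nat_lit 302) (nat_lit 248)) (XT.lf (nat_lit 0) (nat_lit 142928770074) (nat_lit 152) (nat_lit 219828520444) (nat_lit 0) (nat_lit 140479011369) (nat_lit 1) (nat_lit 5) (nat_lit 3) (nat_lit 4) (nat_lit 1) (nat_lit 4) (nat_lit 471) (nat_lit 302) (nat_lit 247)))) (XT.nd (nat_lit 78) (nat_lit 0) (nat_lit 0) (XT.lf (nat_lit 0) (nat_lit 152710560887) (nat_lit 152) (nat_lit 225296830098) (nat_lit 0) (nat_lit 150252247009) (nat_lit 1) (nat_lit 5) (nat_lit 3) (nat_lit 4) (nat_lit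 1) (nat_lit 4) (nat_lit 472) (nat_lit 302) (nat_lit 246)) (XT.nd (nat_lit 78) (nat_lit 0) (nat_lit 0) (XT.lf (nat_lit 0) (nat_lit 162965934077) (nat_lit 152) (nat_lit 231069510543) (nat_lit 0) (nat_lit 160499472416) (nat_lit 1) (nat_lit 5) (nat_lit 3) (nat_lit 4) (nat_lit 1) (nat_lit 4) (nat_lit 473) (nat_lit 302) (nat_lit 245)) (XT.lf (nat_lit 0) (nat_lit 173719307201) (nat_lit 152) (nat_lit 237160306255) (nat_lit 0) (nat_lit 171245085746) (nat_lit 1) (nat_lit 5) (nat_lit 3) (nat_lit 4) (nat_lit 1) (nat_lit 4) (nat_lit 474) (nat_lit 302) (nat_lit 244))))) (XT.nd (nat_lit 234) (nat_lit 0) (nat_lit 0) (XT.nd (nat_lit 78) (nat_lit 0) (nat_lit 0) (XT.lf (nat_lit 0) (nat_lit 184996283528) (nat_lit 152) (nat_lit 243583719129) (nat_lit 0) (nat_lit 182514671793) (nat_lit 1) (nat_lit 5) (nat_lit 3) (nat_lit 4) (nat_lit 1) (nat_lit 4) (nat_lit 475) (nat_lit 302) (nat_lit 243)) (XT.nd (nat_lit 78)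 (nat_lit 0) (nat_lit 0) (XT.lf (nat_lit 0) (nat_lit 196823713001) (nat_lit 152) (nat_lit 250355043006) (nat_lit 0) (nat_lit 194335062904) (nat_lit 1) (nat_lit 5) (nat_lit 3) (nat_lit 4) (nat_lit 1) (nat_lit 4) (nat_lit 476) (nat_lit 302) (nat_lit 242)) (XT.lf (nat_lit 0) (nat_lit 209229756167) (nat_lit 152) (nat_lit 257490400085) (nat_lit 0) (nat_lit 206734402869) (nat_lit 1) (nat_lit 5) (nat_lit 3) (nat_lit 4) (nat_lit 1) (nat_lit 4) (nat_lit 477) (nat_lit 302) (nat_lit 241)))) (XT.nd (nat_lit 156) (nat_lit 0) (nat_lit 0) (XT.nd (nat_lit 78) (nat_lit 0) (nat_lit 0) (XT.lf (nat_lit 0) (nat_lit 222243951223) (nat_lit 152) (nat_lit 265006779311) (nat_lit 0) (nat_lit 219742213924) (nat_lit 1) (nat_lit 5) (nat_lit 3) (nat_lit 4) (nat_lit 1) (nat_lit 4) (nat_lit 478) (nat_lit 302) (nat_lit 240)) (XT.lf (nat_lit 0) (nat_lit 235897284349) (nat_lit 152) (nat_lit 272922076825) (nat_lit 0) (nat_lit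 233389467048) (nat_lit 1) (nat_lit 5) (nat_lit 3) (nat_lit 4) (nat_lit 1) (nat_lit 4) (nat_lit 479) (nat_lit 302) (nat_lit 239))) (XT.nd (nat_lit 78) (nat_lit 0) (nat_lit 0) (XT.lf (nat_lit 0) (nat_lit 250222263481) (nat_lit 152) (nat_lit 281255138574) (nat_lit 0) (nat_lit 247708655703) (nat_lit 1) (nat_lit 5) (nat_lit 3) (nat_lit 4) (nat_lit 1) (nat_lit 4) (nat_lit 480) (nat_lit 302) (nat_lit 238)) (XT.lf (nat_lit 0) (nat_lit 265252995712) (nat_lit 152) (nat_lit 290025805182) (nat_lit 0) (nat_lit 262733873192) (nat_lit 1) (nat_lit 5) (nat_lit 3) (nat_lit 4) (nat_lit 1) (nat_lit 4) (nat_lit 481) (nat_lit 302) (nat_lit 237))))))))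
noncomputable def xc22 : XT := (XT.nd (nat_lit 1950) (nat_lit 152) (nat_lit 0) (XT.nd (nat_lit 936) (nat_lit 76) (nat_lit 0) (XT.nd (nat_lit 468) (nat_lit 228) (nat_lit 0) (XT.nd (nat_lit 234) (nat_lit 76) (nat_lit 0) (XT.nd (nat_lit 78) (nat_lit 76) (nat_lit 0) (XT.lf (nat_lit 0) (nat_lit 6876754720) (nat_lit 76) (nat_lit 5446624361) (nat_lit 76) (nat_lit 5446624361) (nat_lit 9) (nat_lit 4) (nat_lit 10) (nat_lit 5) (nat_lit 10) (nat_lit 4) (nat_lit 414) (nat_lit 303) (nat_lit 303)) (XT.nd (nat_lit 78) (nat_lit 76) (nat_lit 0) (XT.lf (nat_lit 0) (nat_lit 26027697239) (nat_lit 76) (nat_lit 5573486492) (nat_lit 76) (nat_lit 5421292530) (nat_lit 9) (nat_lit 4) (nat_lit 10) (nat_lit 5) (nat_lit 10) (nat_lit 4) (nat_lit 415) (nat_lit 303) (nat_lit 302)) (XT.lf (nat_lit 0) (nat_lit 125612521) (nat_lit 152) (nat_lit 39634922) (nat_lit 76) (nat_lit 38422995145) (nat_lit 8) (nat_lit 5) (nat_lit 10)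 (nat_lit 5) (nat_lit 9) (nat_lit 4) (nat_lit 416) (nat_lit 303) (nat_lit 301)))) (XT.nd (nat_lit 78) (nat_lit 0) (nat_lit 0) (XT.lf (nat_lit 0) (nat_lit 5853856245) (nat_lit 152) (nat_lit 28930306211) (nat_lit 0) (nat_lit 5439394338) (nat_lit 7) (nat_lit 5) (nat_lit 9) (nat_lit 4) (nat_lit 7) (nat_lit 4) (nat_lit 417) (nat_lit 303) (nat_lit 300)) (XT.nd (nat_lit 78) (nat_lit 0) (nat_lit 0) (XT.lf (nat_lit 0) (nat_lit 11693029384) (nat_lit 152) (nat_lit 19103036207) (nat_lit 0) (nat_lit 11153357129) (nat_lit 7) (nat_lit 5) (nat_lit 9) (nat_lit 4) (nat_lit 7) (nat_lit 4) (nat_lit 418) (nat_lit 303) (nat_lit 299)) (XT.lf (nat_lit 0) (nat_lit 17653805005) (nat_lit 152) (nat_lit 9121421254) (nat_lit 0) (nat_lit 16994884798) (nat_lit 7) (nat_lit 5) (nat_lit 9) (nat_lit 4) (nat_lit 7) (nat_lit 4) (nat_lit 419) (nat_lit 303) (nat_lit 298))))) (XT.nd (nat_lit 234) (nat_lit 152) (nat_lit 0) (XT.nd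 (nat_lit 78) (nat_lit 0) (nat_lit 0) (XT.lf (nat_lit 0) (nat_lit 1072635429) (nat_lit 76) (nat_lit 22694486846) (nat_lit 76) (nat_lit 21921997161) (nat_lit 6) (nat_lit 4) (nat_lit 7) (nat_lit 5) (nat_lit 7) (nat_lit 4) (nat_lit 420) (nat_lit 303) (nat_lit 297)) (XT.nd (nat_lit 78) (nat_lit 0) (nat_lit 0) (XT.lf (nat_lit 0) (nat_lit 11777276985) (nat_lit 76) (nat_lit 18403855618) (nat_lit 76) (nat_lit 17523204526) (nat_lit 6) (nat_lit 4) (nat_lit 7) (nat_lit 5) (nat_lit 7) (nat_lit 4) (nat_lit 421) (nat_lit 303) (nat_lit 296)) (XT.lf (nat_lit 0) (nat_lit 22716395273) (nat_lit 76) (nat_lit 14047592470) (nat_lit 76) (nat_lit 13063930514) (nat_lit 6) (nat_lit 4) (nat_lit 7) (nat_lit 5) (nat_lit 7) (nat_lit 4) (nat_lit 422) (nat_lit 303) (nat_lit 295)))) (XT.nd (nat_lit 78) (nat_lit 152) (nat_lit 0) (XT.lf (nat_lit 0) (nat_lit 33916035813) (nat_lit 76) (nat_lit 9615325347) (nat_lit 76) (nat_lit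 8533557806) (nat_lit 6) (nat_lit 4) (nat_lit 7) (nat_lit 5) (nat_lit 7) (nat_lit 4) (nat_lit 423) (nat_lit 303) (nat_lit 294)) (XT.nd (nat_lit 78) (nat_lit 152) (nat_lit 0) (XT.lf (nat_lit 0) (nat_lit 45402864416) (nat_lit 76) (nat_lit 5096501233) (nat_lit 76) (nat_lit 3921299802) (nat_lit 6) (nat_lit 4) (nat_lit 7) (nat_lit 5) (nat_lit 7) (nat_lit 4) (nat_lit 424) (nat_lit 303) (nat_lit 293)) (XT.lf (nat_lit 0) (nat_lit 300855595) (nat_lit 76) (nat_lit 462579372) (nat_lit 152) (nat_lit 56136484917) (nat_lit 4) (nat_lit 5) (nat_lit 5) (nat_lit 5) (nat_lit 6) (nat_lit 4) (nat_lit 425) (nat_lit 303) (nat_lit 292)))))) (XT.nd (nat_lit 468) (nat_lit 76) (nat_lit 0) (XT.nd (nat_lit 234) (nat_lit 0) (nat_lit 0) (XT.nd (nat_lit 78) (nat_lit 0) (nat_lit 0) (XT.lf (nat_lit 0) (nat_lit 5641534028) (nat_lit 152) (nat_lit 49497015467) (nat_lit 0) (nat_lit 4356835569) (nat_lit 4) (nat_lit 5) (nat_lit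 6) (nat_lit 4) (nat_lit 4) (nat_lit 4) (nat_lit 426) (nat_lit 303) (nat_lit 291)) (XT.nd (nat_lit 78) (nat_lit 0) (nat_lit 0) (XT.lf (nat_lit 0) (nat_lit 10644398188) (nat_lit 152) (nat_lit 42299358158) (nat_lit 0) (nat_lit 9282831437) (nat_lit 4) (nat_lit 5) (nat_lit 6) (nat_lit 4) (nat_lit 4) (nat_lit 4) (nat_lit 427) (nat_lit 303) (nat_lit 290)) (XT.lf (nat_lit 0) (nat_lit 15776716870) (nat_lit 152) (nat_lit 34981732924) (nat_lit 0) (nat_lit 14341942221) (nat_lit 4) (nat_lit 5) (nat_lit 6) (nat_lit 4) (nat_lit 4) (nat_lit 4) (nat_lit 428) (nat_lit 303) (nat_lit 289)))) (XT.nd (nat_lit 78) (nat_lit 0) (nat_lit 0) (XT.lf (nat_lit 0) (nat_lit 21050709878) (nat_lit 152) (nat_lit 27526716847) (nat_lit 0) (nat_lit 19546213422) (nat_lit 4) (nat_lit 5) (nat_lit 6) (nat_lit 4) (nat_lit 4) (nat_lit 4) (nat_lit 429) (nat_lit 303) (nat_lit 288)) (XT.nd (nat_lit 78) (nat_lit 0) (nat_lit 0) (XT.lf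 (nat_lit 0) (nat_lit 26478934341) (nat_lit 152) (nat_lit 19916559888) (nat_lit 0) (nat_lit 24908036163) (nat_lit 4) (nat_lit 5) (nat_lit 6) (nat_lit 4) (nat_lit 4) (nat_lit 4) (nat_lit 430) (nat_lit 303) (nat_lit 287)) (XT.lf (nat_lit 0) (nat_lit 32074314600) (nat_lit 152) (nat_lit 12133142628) (nat_lit 0) (nat_lit 30440176688) (nat_lit 4) (nat_lit 5) (nat_lit 6) (nat_lit 4) (nat_lit 4) (nat_lit 4) (nat_lit 431) (nat_lit 303) (nat_lit 286))))) (XT.nd (nat_lit 234) (nat_lit 0) (nat_lit 0) (XT.nd (nat_lit 78) (nat_lit 76) (nat_lit 0) (XT.lf (nat_lit 0) (nat_lit 37850172992) (nat_lit 152) (nat_lit 4157933119) (nat_lit 0) (nat_lit 36155806760) (nat_lit 4) (nat_lit 5) (nat_lit 6) (nat_lit 4) (nat_lit 4) (nat_lit 4) (nat_lit 432) (nat_lit 303) (nat_lit 285)) (XT.nd (nat_lit 78) (nat_lit 0) (nat_lit 0) (XT.lf (nat_lit 0) (nat_lit 4161242995) (nat_lit 76) (nat_lit 39723987227) (nat_lit 76) (nat_lit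 37972260692) (nat_lit 3) (nat_lit 4) (nat_lit 4) (nat_lit 5) (nat_lit 4) (nat_lit 4) (nat_lit 433) (nat_lit 303) (nat_lit 284)) (XT.lf (nat_lit 0) (nat_lit 12855784261) (nat_lit 76) (nat_lit 37343725355) (nat_lit 76) (nat_lit 35537369959) (nat_lit 3) (nat_lit 4) (nat_lit 4) (nat_lit 5) (nat_lit 4) (nat_lit 4) (nat_lit 434) (nat_lit 303) (nat_lit 283)))) (XT.nd (nat_lit 156) (nat_lit 0) (nat_lit 0) (XT.nd (nat_lit 78) (nat_lit 0) (nat_lit 0) (XT.lf (nat_lit 0) (nat_lit 21808911921) (nat_lit 76) (nat_lit 34932069813) (nat_lit 76) (nat_lit 33073686931) (nat_lit 3) (nat_lit 4) (nat_lit 4) (nat_lit 5) (nat_lit 4) (nat_lit 4) (nat_lit 435) (nat_lit 303) (nat_lit 282)) (XT.lf (nat_lit 0) (nat_lit 31041942944) (nat_lit 76) (nat_lit 32483278565) (nat_lit 76) (nat_lit 30575345696) (nat_lit 3) (nat_lit 4) (nat_lit 4) (nat_lit 5) (nat_lit 4) (nat_lit 4) (nat_lit 436) (nat_lit 303) (nat_lit 281))) (XT.nd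 (nat_lit 78) (nat_lit 0) (nat_lit 0) (XT.lf (nat_lit 0) (nat_lit 40576860738) (nat_lit 76) (nat_lit 29991521154) (nat_lit 76) (nat_lit 28036397821) (nat_lit 3) (nat_lit 4) (nat_lit 4) (nat_lit 5) (nat_lit 4) (nat_lit 4) (nat_lit 437) (nat_lit 303) (nat_lit 280)) (XT.lf (nat_lit 0) (nat_lit 50436367489) (nat_lit 76) (nat_lit 27450864825) (nat_lit 76) (nat_lit 25450798194) (nat_lit 3) (nat_lit 4) (nat_lit 4) (nat_lit 5) (nat_lit 4) (nat_lit 4) (nat_lit 438) (nat_lit 303) (nat_lit 279))))))) (XT.nd (nat_lit 1014) (nat_lit 0) (nat_lit 0) (XT.nd (nat_lit 468) (nat_lit 152) (nat_lit 0) (XT.nd (nat_lit 234) (nat_lit 0) (nat_lit 0) (XT.nd (nat_lit 78) (nat_lit 0) (nat_lit 0) (XT.lf (nat_lit 0) (nat_lit 60643938212) (nat_lit 76) (nat_lit 24855260397) (nat_lit 76) (nat_lit 22812390624) (nat_lit 3) (nat_lit 4) (nat_lit 4) (nat_lit 5) (nat_lit 4) (nat_lit 4) (nat_lit 439) (nat_lit 303) (nat_lit 278))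 (XT.nd (nat_lit 78) (nat_lit 0) (nat_lit 0) (XT.lf (nat_lit 0) (nat_lit 71223876647) (nat_lit 76) (nat_lit 22198527858) (nat_lit 76) (nat_lit 20114893189) (nat_lit 3) (nat_lit 4) (nat_lit 4) (nat_lit 5) (nat_lit 4) (nat_lit 4) (nat_lit 440) (nat_lit 303) (nat_lit 277)) (XT.lf (nat_lit 0) (nat_lit 82201373125) (nat_lit 76) (nat_lit 19474341656) (nat_lit 76) (nat_lit 17351883275) (nat_lit 3) (nat_lit 4) (nat_lit 4) (nat_lit 5) (nat_lit 4) (nat_lit 4) (nat_lit 441) (nat_lit 303) (nat_lit 276)))) (XT.nd (nat_lit 78) (nat_lit 0) (nat_lit 0) (XT.lf (nat_lit 0) (nat_lit 93602564540) (nat_lit 76) (nat_lit 16676215632) (nat_lit 76) (nat_lit 14516782288) (nat_lit 3) (nat_lit 4) (nat_lit 4) (nat_lit 5) (nat_lit 4) (nat_lit 4) (nat_lit 442) (nat_lit 303) (nat_lit 275)) (XT.nd (nat_lit 78) (nat_lit 0) (nat_lit 0) (XT.lf (nat_lit 0) (nat_lit 105454596588) (nat_lit 76) (nat_lit 13797487583) (nat_lit 76)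 (nat_lit 11602839988) (nat_lit 3) (nat_lit 4) (nat_lit 4) (nat_lit 5) (nat_lit 4) (nat_lit 4) (nat_lit 443) (nat_lit 303) (nat_lit 274)) (XT.lf (nat_lit 0) (nat_lit 117785688391) (nat_lit 76) (nat_lit 10831303392) (nat_lit 76) (nat_lit 8603118416) (nat_lit 3) (nat_lit 4) (nat_lit 4) (nat_lit 5) (nat_lit 4) (nat_lit 4) (nat_lit 444) (nat_lit 303) (nat_lit 273))))) (XT.nd (nat_lit 234) (nat_lit 76) (nat_lit 0) (XT.nd (nat_lit 78) (nat_lit 76) (nat_lit 0) (XT.lf (nat_lit 0) (nat_lit 130625199693) (nat_lit 76) (nat_lit 7770600717) (nat_lit 76) (nat_lit 5510475378) (nat_lit 3) (nat_lit 4) (nat_lit 4) (nat_lit 5) (nat_lit 4) (nat_lit 4) (nat_lit 445) (nat_lit 303) (nat_lit 272)) (XT.nd (nat_lit 78) (nat_lit 76) (nat_lit 0) (XT.lf (nat_lit 0) (nat_lit 144003700758) (nat_lit 76) (nat_lit 4608092172) (nat_lit 76) (nat_lit 2317547438) (nat_lit 3) (nat_lit 4) (nat_lit 4) (nat_lit 5) (nat_lit 4) (nat_lit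 4) (nat_lit 446) (nat_lit 303) (nat_lit 271)) (XT.lf (nat_lit 0) (nat_lit 951796907) (nat_lit 152) (nat_lit 368331923) (nat_lit 76) (nat_lit 156985129112) (nat_lit 2) (nat_lit 5) (nat_lit 4) (nat_lit 5) (nat_lit 3) (nat_lit 4) (nat_lit 447) (nat_lit 303) (nat_lit 270)))) (XT.nd (nat_lit 156) (nat_lit 0) (nat_lit 0) (XT.nd (nat_lit 78) (nat_lit 0) (nat_lit 0) (XT.lf (nat_lit 0) (nat_lit 4396835120) (nat_lit 152) (nat_lit 159485238323) (nat_lit 0) (nat_lit 2161495243) (nat_lit 1) (nat_lit 5) (nat_lit 3) (nat_lit 4) (nat_lit 1) (nat_lit 4) (nat_lit 448) (nat_lit 303) (nat_lit 269)) (XT.lf (nat_lit 0) (nat_lit 7994476222) (nat_lit 152) (nat_lit 160441193334) (nat_lit 0) (nat_lit 5734110235) (nat_lit 1) (nat_lit 5) (nat_lit 3) (nat_lit 4) (nat_lit 1) (nat_lit 4) (nat_lit 449) (nat_lit 303) (nat_lit 268))) (XT.nd (nat_lit 78) (nat_lit 0) (nat_lit 0) (XT.lf (nat_lit 0) (nat_lit 11726636887) (nat_lit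 152) (nat_lit 161535498441) (nat_lit 0) (nat_lit 9442436508) (nat_lit 1) (nat_lit 5) (nat_lit 3) (nat_lit 4) (nat_lit 1) (nat_lit 4) (nat_lit 450) (nat_lit 303) (nat_lit 267)) (XT.lf (nat_lit 0) (nat_lit 15602203210) (nat_lit 152) (nat_lit 162770759131) (nat_lit 0) (nat_lit 13295303411) (nat_lit 1) (nat_lit 5) (nat_lit 3) (nat_lit 4) (nat_lit 1) (nat_lit 4) (nat_lit 451) (nat_lit 303) (nat_lit 266)))))) (XT.nd (nat_lit 468) (nat_lit 0) (nat_lit 0) (XT.nd (nat_lit 234) (nat_lit 0) (nat_lit 0) (XT.nd (nat_lit 78) (nat_lit 0) (nat_lit 0) (XT.lf (nat_lit 0) (nat_lit 19630402731) (nat_lit 152) (nat_lit 164149916503) (nat_lit 0) (nat_lit 17301884437) (nat_lit 1) (nat_lit 5) (nat_lit 3) (nat_lit 4) (nat_lit 1) (nat_lit 4) (nat_lit 452) (nat_lit 303) (nat_lit 265)) (XT.nd (nat_lit 78) (nat_lit 0) (nat_lit 0) (XT.lf (nat_lit 0) (nat_lit 23820826401) (nat_lit 152) (nat_lit 165676254264) (nat_lit 0)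 (nat_lit 21471719064) (nat_lit 1) (nat_lit 5) (nat_lit 3) (nat_lit 4) (nat_lit 1) (nat_lit 4) (nat_lit 453) (nat_lit 303) (nat_lit 264)) (XT.lf (nat_lit 0) (nat_lit 28183451419) (nat_lit 152) (nat_lit 167353406552) (nat_lit 0) (nat_lit 25814735470) (nat_lit 1) (nat_lit 5) (nat_lit 3) (nat_lit 4) (nat_lit 1) (nat_lit 4) (nat_lit 454) (nat_lit 303) (nat_lit 263)))) (XT.nd (nat_lit 78) (nat_lit 0) (nat_lit 0) (XT.lf (nat_lit 0) (nat_lit 32728664988) (nat_lit 152) (nat_lit 169185366586) (nat_lit 0) (nat_lit 30341274170) (nat_lit 1) (nat_lit 5) (nat_lit 3) (nat_lit 4) (nat_lit 1) (nat_lit 4) (nat_lit 455) (nat_lit 303) (nat_lit 262)) (XT.nd (nat_lit 78) (nat_lit 0) (nat_lit 0) (XT.lf (nat_lit 0) (nat_lit 37467289045) (nat_lit 152) (nat_lit 171176496175) (nat_lit 0) (nat_lit 35062112637) (nat_lit 1) (nat_lit 5) (nat_lit 3) (nat_lit 4) (nat_lit 1) (nat_lit 4) (nat_lit 456) (nat_lit 303) (nat_lit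 261)) (XT.lf (nat_lit 0) (nat_lit 42410606028) (nat_lit 152) (nat_lit 173331536106) (nat_lit 0) (nat_lit 39988490963) (nat_lit 1) (nat_lit 5) (nat_lit 3) (nat_lit 4) (nat_lit 1) (nat_lit 4) (nat_lit 457) (nat_lit 303) (nat_lit 260))))) (XT.nd (nat_lit 234) (nat_lit 0) (nat_lit 0) (XT.nd (nat_lit 78) (nat_lit 0) (nat_lit 0) (XT.lf (nat_lit 0) (nat_lit 47570385739) (nat_lit 152) (nat_lit 175655617425) (nat_lit 0) (nat_lit 45132138621) (nat_lit 1) (nat_lit 5) (nat_lit 3) (nat_lit 4) (nat_lit 1) (nat_lit 4) (nat_lit 458) (nat_lit 303) (nat_lit 259)) (XT.nd (nat_lit 78) (nat_lit 0) (nat_lit 0) (XT.lf (nat_lit 0) (nat_lit 52958913368) (nat_lit 152) (nat_lit 178154273658) (nat_lit 0) (nat_lit 50505302389) (nat_lit 1) (nat_lit 5) (nat_lit 3) (nat_lit 4) (nat_lit 1) (nat_lit 4) (nat_lit 459) (nat_lit 303) (nat_lit 258)) (XT.lf (nat_lit 0) (nat_lit 58589018743) (nat_lit 152) (nat_lit 180833453989)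 (nat_lit 0) (nat_lit 56120775515) (nat_lit 1) (nat_lit 5) (nat_lit 3) (nat_lit 4) (nat_lit 1) (nat_lit 4) (nat_lit 460) (nat_lit 303) (nat_lit 257)))) (XT.nd (nat_lit 156) (nat_lit 0) (nat_lit 0) (XT.nd (nat_lit 78) (nat_lit 0) (nat_lit 0) (XT.lf (nat_lit 0) (nat_lit 64474106877) (nat_lit 152) (nat_lit 183699537417) (nat_lit 0) (nat_lit 61991928174) (nat_lit 1) (nat_lit 5) (nat_lit 3) (nat_lit 4) (nat_lit 1) (nat_lit 4) (nat_lit 461) (nat_lit 303) (nat_lit 256)) (XT.lf (nat_lit 0) (nat_lit 70628189883) (nat_lit 152) (nat_lit 186759347950) (nat_lit 0) (nat_lit 68132739300) (nat_lit 1) (nat_lit 5) (nat_lit 3) (nat_lit 4) (nat_lit 1) (nat_lit 4) (nat_lit 462) (nat_lit 303) (nat_lit 255))) (XT.nd (nat_lit 78) (nat_lit 0) (nat_lit 0) (XT.lf (nat_lit 0) (nat_lit 77065920342) (nat_lit 152) (nat_lit 190020170852) (nat_lit 0) (nat_lit 74557829873) (nat_lit 1) (nat_lit 5) (nat_lit 3) (nat_lit 4) (nat_lit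 1) (nat_lit 4) (nat_lit 463) (nat_lit 303) (nat_lit 254)) (XT.lf (nat_lit 0) (nat_lit 83802626182) (nat_lit 152) (nat_lit 193489769987) (nat_lit 0) (nat_lit 81282497726) (nat_lit 1) (nat_lit 5) (nat_lit 3) (nat_lit 4) (nat_lit 1) (nat_lit 4) (nat_lit 464) (nat_lit 303) (nat_lit 253))))))))
noncomputable def xc23 : XT := (XT.nd (nat_lit 49686) (nat_lit 0) (nat_lit 152) (XT.nd (nat_lit 936) (nat_lit 0) (nat_lit 0) (XT.nd (nat_lit 468) (nat_lit 0) (nat_lit 0) (XT.nd (nat_lit 234) (nat_lit 0) (nat_lit 0) (XT.nd (nat_lit 78) (nat_lit 0) (nat_lit 0) (XT.lf (nat_lit 0) (nat_lit 90854347179) (nat_lit 152) (nat_lit 197176406304) (nat_lit 0) (nat_lit 88322753973) (nat_lit 1) (nat_lit 5) (nat_lit 3) (nat_lit 4) (nat_lit 1) (nat_lit 4) (nat_lit 465) (nat_lit 303) (nat_lit 252)) (XT.nd (nat_lit 78) (nat_lit 0) (nat_lit 0) (XT.lf (nat_lit 0) (nat_lit 98237873146) (nat_lit 152) (nat_lit 201088857511) (nat_lit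 0) (nat_lit 95695361131) (nat_lit 1) (nat_lit 5) (nat_lit 3) (nat_lit 4) (nat_lit 1) (nat_lit 4) (nat_lit 466) (nat_lit 303) (nat_lit 251)) (XT.lf (nat_lit 0) (nat_lit 105970783905) (nat_lit 152) (nat_lit 205236438966) (nat_lit 0) (nat_lit 103417873024) (nat_lit 1) (nat_lit 5) (nat_lit 3) (nat_lit 4) (nat_lit 1) (nat_lit 4) (nat_lit 467) (nat_lit 303) (nat_lit 250)))) (XT.nd (nat_lit 78) (nat_lit 0) (nat_lit 0) (XT.lf (nat_lit 0) (nat_lit 114071491150) (nat_lit 152) (nat_lit 209629025864) (nat_lit 0) (nat_lit 111508676587) (nat_lit 1) (nat_lit 5) (nat_lit 3) (nat_lit 4) (nat_lit 1) (nat_lit 4) (nat_lit 468) (nat_lit 303) (nat_lit 249)) (XT.nd (nat_lit 78) (nat_lit 0) (nat_lit 0) (XT.lf (nat_lit 0) (nat_lit 122559282277) (nat_lit 152) (nat_lit 214277076744) (nat_lit 0) (nat_lit 119987035637) (nat_lit 1) (nat_lit 5) (nat_lit 3) (nat_lit 4) (nat_lit 1) (nat_lit 4) (nat_lit 469) (nat_lit 303)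 (nat_lit 248)) (XT.lf (nat_lit 0) (nat_lit 131454366315) (nat_lit 152) (nat_lit 219191658395) (nat_lit 0) (nat_lit 128873136744) (nat_lit 1) (nat_lit 5) (nat_lit 3) (nat_lit 4) (nat_lit 1) (nat_lit 4) (nat_lit 470) (nat_lit 303) (nat_lit 247))))) (XT.nd (nat_lit 234) (nat_lit 0) (nat_lit 0) (XT.nd (nat_lit 78) (nat_lit 0) (nat_lit 0) (XT.lf (nat_lit 0) (nat_lit 140777922034) (nat_lit 152) (nat_lit 224384472202) (nat_lit 0) (nat_lit 138188137290) (nat_lit 1) (nat_lit 5) (nat_lit 3) (nat_lit 4) (nat_lit 1) (nat_lit 4) (nat_lit 471) (nat_lit 303) (nat_lit 246)) (XT.nd (nat_lit 78) (nat_lit 0) (nat_lit 0) (XT.lf (nat_lit 0) (nat_lit 150552148377) (nat_lit 152) (nat_lit 229867882006) (nat_lit 0) (nat_lit 147954215849) (nat_lit 1) (nat_lit 5) (nat_lit 3) (nat_lit 4) (nat_lit 1) (nat_lit 4) (nat_lit 472) (nat_lit 303) (nat_lit 245)) (XT.lf (nat_lit 0) (nat_lit 160800317311) (nat_lit 152) (nat_lit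 235654943546) (nat_lit 0) (nat_lit 158194624990) (nat_lit 1) (nat_lit 5) (nat_lit 3) (nat_lit 4) (nat_lit 1) (nat_lit 4) (nat_lit 473) (nat_lit 303) (nat_lit 244)))) (XT.nd (nat_lit 78) (nat_lit 0) (nat_lit 0) (XT.lf (nat_lit 0) (nat_lit 171546829238) (nat_lit 152) (nat_lit 241759435540) (nat_lit 0) (nat_lit 168933746637) (nat_lit 1) (nat_lit 5) (nat_lit 3) (nat_lit 4) (nat_lit 1) (nat_lit 4) (nat_lit 474) (nat_lit 303) (nat_lit 243)) (XT.nd (nat_lit 78) (nat_lit 0) (nat_lit 0) (XT.lf (nat_lit 0) (nat_lit 182817271092) (nat_lit 152) (nat_lit 248195892492) (nat_lit 0) (nat_lit 180197150129) (nat_lit 1) (nat_lit 5) (nat_lit 3) (nat_lit 4) (nat_lit 1) (nat_lit 4) (nat_lit 475) (nat_lit 303) (nat_lit 242)) (XT.lf (nat_lit 0) (nat_lit 194638477257) (nat_lit 152) (nat_lit 254979639299) (nat_lit 0) (nat_lit 192011653092) (nat_lit 1) (nat_lit 5) (nat_lit 3) (nat_lit 4) (nat_lit 1) (nat_lit 4) (nat_lit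 476) (nat_lit 303) (nat_lit 241)))))) (XT.nd (nat_lit 48204) (nat_lit 0) (nat_lit 456) (XT.nd (nat_lit 234) (nat_lit 0) (nat_lit 0) (XT.nd (nat_lit 78) (nat_lit 0) (nat_lit 0) (XT.lf (nat_lit 0) (nat_lit 207038593463) (nat_lit 152) (nat_lit 262126827740) (nat_lit 0) (nat_lit 204405385297) (nat_lit 1) (nat_lit 5) (nat_lit 3) (nat_lit 4) (nat_lit 1) (nat_lit 4) (nat_lit 477) (nat_lit 303) (nat_lit 240)) (XT.nd (nat_lit 78) (nat_lit 0) (nat_lit 0) (XT.lf (nat_lit 0) (nat_lit 220047143796) (nat_lit 152) (nat_lit 269654474931) (nat_lit 0) (nat_lit 217407855629) (nat_lit 1) (nat_lit 5) (nat_lit 3) (nat_lit 4) (nat_lit 1) (nat_lit 4) (nat_lit 478) (nat_lit 303) (nat_lit 239)) (XT.lf (nat_lit 0) (nat_lit 233695100995) (nat_lit 152) (nat_lit 277580503840) (nat_lit 0) (nat_lit 231050022350) (nat_lit 1) (nat_lit 5) (nat_lit 3) (nat_lit 4) (nat_lit 1) (nat_lit 4) (nat_lit 479) (nat_lit 303) (nat_lit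 238)))) (XT.nd (nat_lit 47814) (nat_lit 0) (nat_lit 608) (XT.lf (nat_lit 0) (nat_lit 248014960196) (nat_lit 152) (nat_lit 285923785965) (nat_lit 0) (nat_lit 245364366811) (nat_lit 1) (nat_lit 5) (nat_lit 3) (nat_lit 4) (nat_lit 1) (nat_lit 4) (nat_lit 480) (nat_lit 303) (nat_lit 237)) (XT.nd (nat_lit 78) (nat_lit 76) (nat_lit 0) (XT.lf (nat_lit 0) (nat_lit 5787287612) (nat_lit 152) (nat_lit 4824707024) (nat_lit 0) (nat_lit 5787287612) (nat_lit 10) (nat_lit 5) (nat_lit 12) (nat_lit 4) (nat_lit 10) (nat_lit 4) (nat_lit 412) (nat_lit 304) (nat_lit 304)) (XT.lf (nat_lit 0) (nat_lit 1698947325) (nat_lit 76) (nat_lit 16299131206) (nat_lit 76) (nat_lit 16139327546) (nat_lit 9) (nat_lit 4) (nat_lit 10) (nat_lit 5) (nat_lit 10) (nat_lit 4) (nat_lit 413) (nat_lit 304) (nat_lit 303))))) (XT.nd (nat_lit 234) (nat_lit 76) (nat_lit 0) (XT.nd (nat_lit 78) (nat_lit 76) (nat_lit 0) (XT.lf (nat_lit 0) (nat_lit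 13566630209) (nat_lit 76) (nat_lit 11145062399) (nat_lit 76) (nat_lit 10833064777) (nat_lit 9) (nat_lit 4) (nat_lit 10) (nat_lit 5) (nat_lit 10) (nat_lit 4) (nat_lit 414) (nat_lit 304) (nat_lit 302)) (XT.nd (nat_lit 78) (nat_lit 76) (nat_lit 0) (XT.lf (nat_lit 0) (nat_lit 25662837787) (nat_lit 76) (nat_lit 5912928755) (nat_lit 76) (nat_lit 5455984503) (nat_lit 9) (nat_lit 4) (nat_lit 10) (nat_lit 5) (nat_lit 10) (nat_lit 4) (nat_lit 415) (nat_lit 304) (nat_lit 301)) (XT.lf (nat_lit 0) (nat_lit 4564912) (nat_lit 152) (nat_lit 585630591) (nat_lit 76) (nat_lit 38011728331) (nat_lit 8) (nat_lit 5) (nat_lit 10) (nat_lit 5) (nat_lit 9) (nat_lit 4) (nat_lit 416) (nat_lit 304) (nat_lit 300)))) (XT.nd (nat_lit 156) (nat_lit 0) (nat_lit 0) (XT.nd (nat_lit 78) (nat_lit 0) (nat_lit 0) (XT.lf (nat_lit 0) (nat_lit 5629967654) (nat_lit 152) (nat_lit 29674316791) (nat_lit 0) (nat_lit 4938101436) (nat_lit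 7) (nat_lit 5) (nat_lit 9) (nat_lit 4) (nat_lit 7) (nat_lit 4) (nat_lit 417) (nat_lit 304) (nat_lit 299)) (XT.lf (nat_lit 0) (nat_lit 11386040220) (nat_lit 152) (nat_lit 20011446080) (nat_lit 0) (nat_lit 10574926051) (nat_lit 7) (nat_lit 5) (nat_lit 9) (nat_lit 4) (nat_lit 7) (nat_lit 4) (nat_lit 418) (nat_lit 304) (nat_lit 298))) (XT.nd (nat_lit 78) (nat_lit 0) (nat_lit 0) (XT.lf (nat_lit 0) (nat_lit 17267672438) (nat_lit 152) (nat_lit 10186401882) (nat_lit 0) (nat_lit 16342988791) (nat_lit 7) (nat_lit 5) (nat_lit 9) (nat_lit 4) (nat_lit 7) (nat_lit 4) (nat_lit 419) (nat_lit 304) (nat_lit 297)) (XT.lf (nat_lit 0) (nat_lit 23288868193) (nat_lit 152) (nat_lit 175791235) (nat_lit 0) (nat_lit 22256023139) (nat_lit 7) (nat_lit 5) (nat_lit 9) (nat_lit 4) (nat_lit 7) (nat_lit 4) (nat_lit 420) (nat_lit 304) (nat_lit 296))))))) (XT.nd (nat_lit 1014) (nat_lit 0) (nat_lit 0) (XT.nd (nat_lit 468) (nat_lit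 76) (nat_lit 0) (XT.nd (nat_lit 234) (nat_lit 152) (nat_lit 0) (XT.nd (nat_lit 78) (nat_lit 0) (nat_lit 0) (XT.lf (nat_lit 0) (nat_lit 10376327942) (nat_lit 76) (nat_lit 19249639282) (nat_lit 76) (nat_lit 18113783364) (nat_lit 6) (nat_lit 4) (nat_lit 7) (nat_lit 5) (nat_lit 7) (nat_lit 4) (nat_lit 421) (nat_lit 304) (nat_lit 295)) (XT.nd (nat_lit 78) (nat_lit 0) (nat_lit 0) (XT.lf (nat_lit 0) (nat_lit 21175722493) (nat_lit 76) (nat_lit 14962551345) (nat_lit 76) (nat_lit 13728589842) (nat_lit 6) (nat_lit 4) (nat_lit 7) (nat_lit 5) (nat_lit 7) (nat_lit 4) (nat_lit 422) (nat_lit 304) (nat_lit 294)) (XT.lf (nat_lit 0) (nat_lit 32242292806) (nat_lit 76) (nat_lit 10596165376) (nat_lit 76) (nat_lit 9268769983) (nat_lit 6) (nat_lit 4) (nat_lit 7) (nat_lit 5) (nat_lit 7) (nat_lit 4) (nat_lit 423) (nat_lit 304) (nat_lit 293)))) (XT.nd (nat_lit 78) (nat_lit 152) (nat_lit 0) (XT.lf (nat_lit 0) (nat_lit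 43602387861) (nat_lit 76) (nat_lit 6140085217) (nat_lit 76) (nat_lit 4723705167) (nat_lit 6) (nat_lit 4) (nat_lit 7) (nat_lit 5) (nat_lit 7) (nat_lit 4) (nat_lit 424) (nat_lit 304) (nat_lit 292)) (XT.nd (nat_lit 78) (nat_lit 152) (nat_lit 0) (XT.lf (nat_lit 0) (nat_lit 55283055501) (nat_lit 76) (nat_lit 1583701154) (nat_lit 76) (nat_lit 82573811) (nat_lit 6) (nat_lit 4) (nat_lit 7) (nat_lit 5) (nat_lit 7) (nat_lit 4) (nat_lit 425) (nat_lit 304) (nat_lit 291)) (XT.lf (nat_lit 0) (nat_lit 4691532133) (nat_lit 152) (nat_lit 51673644576) (nat_lit 0) (nat_lit 3185018752) (nat_lit 4) (nat_lit 5) (nat_lit 6) (nat_lit 4) (nat_lit 4) (nat_lit 4) (nat_lit 426) (nat_lit 304) (nat_lit 290))))) (XT.nd (nat_lit 234) (nat_lit 76) (nat_lit 0) (XT.nd (nat_lit 78) (nat_lit 0) (nat_lit 0) (XT.lf (nat_lit 0) (nat_lit 9635523764) (nat_lit 152) (nat_lit 44593018945) (nat_lit 0) (nat_lit 8055802484) (nat_lit 4)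 (nat_lit 5) (nat_lit 6) (nat_lit 4) (nat_lit 4) (nat_lit 4) (nat_lit 427) (nat_lit 304) (nat_lit 289)) (XT.nd (nat_lit 78) (nat_lit 0) (nat_lit 0) (XT.lf (nat_lit 0) (nat_lit 14711773368) (nat_lit 152) (nat_lit 37386852452) (nat_lit 0) (nat_lit 13062330281) (nat_lit 4) (nat_lit 5) (nat_lit 6) (nat_lit 4) (nat_lit 4) (nat_lit 4) (nat_lit 428) (nat_lit 304) (nat_lit 288)) (XT.lf (nat_lit 0) (nat_lit 19932367257) (nat_lit 152) (nat_lit 30037987556) (nat_lit 0) (nat_lit 18216522448) (nat_lit 4) (nat_lit 5) (nat_lit 6) (nat_lit 4) (nat_lit 4) (nat_lit 4) (nat_lit 429) (nat_lit 304) (nat_lit 287)))) (XT.nd (nat_lit 156) (nat_lit 76) (nat_lit 0) (XT.nd (nat_lit 78) (nat_lit 0) (nat_lit 0) (XT.lf (nat_lit 0) (nat_lit 25309735414) (nat_lit 152) (nat_lit 22528926962) (nat_lit 0) (nat_lit 23530650871) (nat_lit 4) (nat_lit 5) (nat_lit 6) (nat_lit 4) (nat_lit 4) (nat_lit 4) (nat_lit 430) (nat_lit 304)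 (nat_lit 286)) (XT.lf (nat_lit 0) (nat_lit 30856681097) (nat_lit 152) (nat_lit 14841791952) (nat_lit 0) (nat_lit 29017368235) (nat_lit 4) (nat_lit 5) (nat_lit 6) (nat_lit 4) (nat_lit 4) (nat_lit 4) (nat_lit 431) (nat_lit 304) (nat_lit 285))) (XT.nd (nat_lit 78) (nat_lit 76) (nat_lit 0) (XT.lf (nat_lit 0) (nat_lit 36586411320) (nat_lit 152) (nat_lit 6958279825) (nat_lit 0) (nat_lit 34689738155) (nat_lit 4) (nat_lit 5) (nat_lit 6) (nat_lit 4) (nat_lit 4) (nat_lit 4) (nat_lit 432) (nat_lit 304) (nat_lit 284)) (XT.lf (nat_lit 0) (nat_lit 1178085788) (nat_lit 76) (nat_lit 41352875731) (nat_lit 76) (nat_lit 39401573705) (nat_lit 3) (nat_lit 4) (nat_lit 4) (nat_lit 5) (nat_lit 4) (nat_lit 4) (nat_lit 433) (nat_lit 304) (nat_lit 283)))))) (XT.nd (nat_lit 468) (nat_lit 0) (nat_lit 0) (XT.nd (nat_lit 234) (nat_lit 0) (nat_lit 0) (XT.nd (nat_lit 78) (nat_lit 0) (nat_lit 0) (XT.lf (nat_lit 0) (nat_lit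 9786704776) (nat_lit 76) (nat_lit 39015355041) (nat_lit 76) (nat_lit 37012025529) (nat_lit 3) (nat_lit 4) (nat_lit 4) (nat_lit 5) (nat_lit 4) (nat_lit 4) (nat_lit 434) (nat_lit 304) (nat_lit 282)) (XT.nd (nat_lit 78) (nat_lit 0) (nat_lit 0) (XT.lf (nat_lit 0) (nat_lit 18658001694) (nat_lit 76) (nat_lit 36644405387) (nat_lit 76) (nat_lit 34591525888) (nat_lit 3) (nat_lit 4) (nat_lit 4) (nat_lit 5) (nat_lit 4) (nat_lit 4) (nat_lit 435) (nat_lit 304) (nat_lit 281)) (XT.lf (nat_lit 0) (nat_lit 27813098678) (nat_lit 76) (nat_lit 34234381651) (nat_lit 76) (nat_lit 32134311688) (nat_lit 3) (nat_lit 4) (nat_lit 4) (nat_lit 5) (nat_lit 4) (nat_lit 4) (nat_lit 436) (nat_lit 304) (nat_lit 280)))) (XT.nd (nat_lit 78) (nat_lit 0) (nat_lit 0) (XT.lf (nat_lit 0) (nat_lit 37273793578) (nat_lit 76) (nat_lit 31779545680) (nat_lit 76) (nat_lit 29634532418) (nat_lit 3) (nat_lit 4) (nat_lit 4) (nat_lit 5) (nat_lit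 4) (nat_lit 4) (nat_lit 437) (nat_lit 304) (nat_lit 279)) (XT.nd (nat_lit 78) (nat_lit 0) (nat_lit 0) (XT.lf (nat_lit 0) (nat_lit 47062611858) (nat_lit 76) (nat_lit 29274052628) (nat_lit 76) (nat_lit 27086236225) (nat_lit 3) (nat_lit 4) (nat_lit 4) (nat_lit 5) (nat_lit 4) (nat_lit 4) (nat_lit 438) (nat_lit 304) (nat_lit 278)) (XT.lf (nat_lit 0) (nat_lit 57202860228) (nat_lit 76) (nat_lit 26711937034) (nat_lit 76) (nat_lit 24483355734) (nat_lit 3) (nat_lit 4) (nat_lit 4) (nat_lit 5) (nat_lit 4) (nat_lit 4) (nat_lit 439) (nat_lit 304) (nat_lit 277))))) (XT.nd (nat_lit 234) (nat_lit 0) (nat_lit 0) (XT.nd (nat_lit 78) (nat_lit 0) (nat_lit 0) (XT.lf (nat_lit 0) (nat_lit 67718682137) (nat_lit 76) (nat_lit 24087098624) (nat_lit 76) (nat_lit 21819693613) (nat_lit 3) (nat_lit 4) (nat_lit 4) (nat_lit 5) (nat_lit 4) (nat_lit 4) (nat_lit 440) (nat_lit 304) (nat_lit 276)) (XT.nd (nat_lit 78) (nat_lit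 0) (nat_lit 0) (XT.lf (nat_lit 0) (nat_lit 78635115255) (nat_lit 76) (nat_lit 21393287782) (nat_lit 76) (nat_lit 19088907808) (nat_lit 3) (nat_lit 4) (nat_lit 4) (nat_lit 5) (nat_lit 4) (nat_lit 4) (nat_lit 441) (nat_lit 304) (nat_lit 275)) (XT.lf (nat_lit 0) (nat_lit 89978151091) (nat_lit 76) (nat_lit 18624090673) (nat_lit 76) (nat_lit 16284496448) (nat_lit 3) (nat_lit 4) (nat_lit 4) (nat_lit 5) (nat_lit 4) (nat_lit 4) (nat_lit 442) (nat_lit 304) (nat_lit 274)))) (XT.nd (nat_lit 156) (nat_lit 0) (nat_lit 0) (XT.nd (nat_lit 78) (nat_lit 0) (nat_lit 0) (XT.lf (nat_lit 0) (nat_lit 101774796872) (nat_lit 76) (nat_lit 15772913971) (nat_lit 76) (nat_lit 13399782364) (nat_lit 3) (nat_lit 4) (nat_lit 4) (nat_lit 5) (nat_lit 4) (nat_lit 4) (nat_lit 443) (nat_lit 304) (nat_lit 273)) (XT.lf (nat_lit 0) (nat_lit 114053139850) (nat_lit 76) (nat_lit 12832969158) (nat_lit 76) (nat_lit 10427897188) (nat_lit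 3) (nat_lit 4) (nat_lit 4) (nat_lit 5) (nat_lit 4) (nat_lit 4) (nat_lit 444) (nat_lit 304) (nat_lit 272))) (XT.nd (nat_lit 78) (nat_lit 0) (nat_lit 0) (XT.lf (nat_lit 0) (nat_lit 126842414176) (nat_lit 76) (nat_lit 9797256368) (nat_lit 76) (nat_lit 7361765004) (nat_lit 3) (nat_lit 4) (nat_lit 4) (nat_lit 5) (nat_lit 4) (nat_lit 4) (nat_lit 445) (nat_lit 304) (nat_lit 271)) (XT.lf (nat_lit 0) (nat_lit 140173070501) (nat_lit 76) (nat_lit 6658547712) (nat_lit 76) (nat_lit 4194085497) (nat_lit 3) (nat_lit 4) (nat_lit 4) (nat_lit 5) (nat_lit 4) (nat_lit 4) (nat_lit 446) (nat_lit 304) (nat_lit 270))))))))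
noncomputable def xc24 : XT := (XT.nd (nat_lit 1950) (nat_lit 0) (nat_lit 0) (XT.nd (nat_lit 936) (nat_lit 0) (nat_lit 0) (XT.nd (nat_lit 468) (nat_lit 0) (nat_lit 0) (XT.nd (nat_lit 234) (nat_lit 0) (nat_lit 0) (XT.nd (nat_lit 78) (nat_lit 152) (nat_lit 0) (XT.lf (nat_lit 0) (nat_lit 154076848485) (nat_lit 76) (nat_lit 3409370074) (nat_lit 76) (nat_lit 917316572) (nat_lit 3) (nat_lit 4) (nat_lit 4) (nat_lit 5) (nat_lit 4) (nat_lit 4) (nat_lit 447) (nat_lit 304) (nat_lit 269)) (XT.nd (nat_lit 78) (nat_lit 0) (nat_lit 0) (XT.lf (nat_lit 0) (nat_lit 2436337079) (nat_lit 152) (nat_lit 163674336587) (nat_lit 0) (nat_lit 37926682) (nat_lit 1) (nat_lit 5) (nat_lit 3) (nat_lit 4) (nat_lit 1) (nat_lit 4) (nat_lit 448) (nat_lit 304) (nat_lit 268)) (XT.lf (nat_lit 0) (nat_lit 6011850136) (nat_lit 152) (nat_lit 164674463473) (nat_lit 0) (nat_lit 3589605348) (nat_lit 1) (nat_lit 5) (nat_lit 3) (nat_lit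 4) (nat_lit 1) (nat_lit 4) (nat_lit 449) (nat_lit 304) (nat_lit 267)))) (XT.nd (nat_lit 78) (nat_lit 0) (nat_lit 0) (XT.lf (nat_lit 0) (nat_lit 9722936471) (nat_lit 152) (nat_lit 165810837033) (nat_lit 0) (nat_lit 7277992263) (nat_lit 1) (nat_lit 5) (nat_lit 3) (nat_lit 4) (nat_lit 1) (nat_lit 4) (nat_lit 450) (nat_lit 304) (nat_lit 266)) (XT.nd (nat_lit 78) (nat_lit 0) (nat_lit 0) (XT.lf (nat_lit 0) (nat_lit 13578432005) (nat_lit 152) (nat_lit 167086162917) (nat_lit 0) (nat_lit 11111869302) (nat_lit 1) (nat_lit 5) (nat_lit 3) (nat_lit 4) (nat_lit 1) (nat_lit 4) (nat_lit 451) (nat_lit 304) (nat_lit 265)) (XT.lf (nat_lit 0) (nat_lit 17587516489) (nat_lit 152) (nat_lit 168503477616) (nat_lit 0) (nat_lit 15100364742) (nat_lit 1) (nat_lit 5) (nat_lit 3) (nat_lit 4) (nat_lit 1) (nat_lit 4) (nat_lit 452) (nat_lit 304) (nat_lit 264))))) (XT.nd (nat_lit 234) (nat_lit 0) (nat_lit 0) (XT.nd (nat_lit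 78) (nat_lit 0) (nat_lit 0) (XT.lf (nat_lit 0) (nat_lit 21759735361) (nat_lit 152) (nat_lit 170066155689) (nat_lit 0) (nat_lit 19252975002) (nat_lit 1) (nat_lit 5) (nat_lit 3) (nat_lit 4) (nat_lit 1) (nat_lit 4) (nat_lit 453) (nat_lit 304) (nat_lit 263)) (XT.nd (nat_lit 78) (nat_lit 0) (nat_lit 0) (XT.lf (nat_lit 0) (nat_lit 26105022477) (nat_lit 152) (nat_lit 171777917797) (nat_lit 0) (nat_lit 23579587249) (nat_lit 1) (nat_lit 5) (nat_lit 3) (nat_lit 4) (nat_lit 1) (nat_lit 4) (nat_lit 454) (nat_lit 304) (nat_lit 262)) (XT.lf (nat_lit 0) (nat_lit 30633723758) (nat_lit 152) (nat_lit 173642839564) (nat_lit 0) (nat_lit 28090502940) (nat_lit 1) (nat_lit 5) (nat_lit 3) (nat_lit 4) (nat_lit 1) (nat_lit 4) (nat_lit 455) (nat_lit 304) (nat_lit 261)))) (XT.nd (nat_lit 78) (nat_lit 0) (nat_lit 0) (XT.lf (nat_lit 0) (nat_lit 35356621826) (nat_lit 152) (nat_lit 175665361282) (nat_lit 0) (nat_lit 32796462352)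 (nat_lit 1) (nat_lit 5) (nat_lit 3) (nat_lit 4) (nat_lit 1) (nat_lit 4) (nat_lit 456) (nat_lit 304) (nat_lit 260)) (XT.nd (nat_lit 78) (nat_lit 0) (nat_lit 0) (XT.lf (nat_lit 0) (nat_lit 40284961676) (nat_lit 152) (nat_lit 177850298476) (nat_lit 0) (nat_lit 37708670148) (nat_lit 1) (nat_lit 5) (nat_lit 3) (nat_lit 4) (nat_lit 1) (nat_lit 4) (nat_lit 457) (nat_lit 304) (nat_lit 259)) (XT.lf (nat_lit 0) (nat_lit 45430477452) (nat_lit 152) (nat_lit 180202853380) (nat_lit 0) (nat_lit 42838822063) (nat_lit 1) (nat_lit 5) (nat_lit 3) (nat_lit 4) (nat_lit 1) (nat_lit 4) (nat_lit 458) (nat_lit 304) (nat_lit 258)))))) (XT.nd (nat_lit 468) (nat_lit 0) (nat_lit 0) (XT.nd (nat_lit 234) (nat_lit 0) (nat_lit 0) (XT.nd (nat_lit 78) (nat_lit 0) (nat_lit 0) (XT.lf (nat_lit 0) (nat_lit 50805420381) (nat_lit 152) (nat_lit 182728627314) (nat_lit 0) (nat_lit 48199132744) (nat_lit 1) (nat_lit 5) (nat_lit 3) (nat_lit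 4) (nat_lit 1) (nat_lit 4) (nat_lit 459) (nat_lit 304) (nat_lit 257)) (XT.nd (nat_lit 78) (nat_lit 0) (nat_lit 0) (XT.lf (nat_lit 0) (nat_lit 56422587946) (nat_lit 152) (nat_lit 185433634025) (nat_lit 0) (nat_lit 53802364834) (nat_lit 1) (nat_lit 5) (nat_lit 3) (nat_lit 4) (nat_lit 1) (nat_lit 4) (nat_lit 460) (nat_lit 304) (nat_lit 256)) (XT.lf (nat_lit 0) (nat_lit 62295354356) (nat_lit 152) (nat_lit 188324314006) (nat_lit 0) (nat_lit 59661859363) (nat_lit 1) (nat_lit 5) (nat_lit 3) (nat_lit 4) (nat_lit 1) (nat_lit 4) (nat_lit 461) (nat_lit 304) (nat_lit 255)))) (XT.nd (nat_lit 78) (nat_lit 0) (nat_lit 0) (XT.lf (nat_lit 0) (nat_lit 68437702388) (nat_lit 152) (nat_lit 191407549828) (nat_lit 0) (nat_lit 65791567509) (nat_lit 1) (nat_lit 5) (nat_lit 3) (nat_lit 4) (nat_lit 1) (nat_lit 4) (nat_lit 462) (nat_lit 304) (nat_lit 254)) (XT.nd (nat_lit 78) (nat_lit 0) (nat_lit 0) (XT.lf (nat_lit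 0) (nat_lit 74864256680) (nat_lit 152) (nat_lit 194690682529) (nat_lit 0) (nat_lit 72206083814) (nat_lit 1) (nat_lit 5) (nat_lit 3) (nat_lit 4) (nat_lit 1) (nat_lit 4) (nat_lit 463) (nat_lit 304) (nat_lit 253)) (XT.lf (nat_lit 0) (nat_lit 81590318552) (nat_lit 152) (nat_lit 198181529091) (nat_lit 0) (nat_lit 78920680936) (nat_lit 1) (nat_lit 5) (nat_lit 3) (nat_lit 4) (nat_lit 1) (nat_lit 4) (nat_lit 464) (nat_lit 304) (nat_lit 252))))) (XT.nd (nat_lit 234) (nat_lit 0) (nat_lit 0) (XT.nd (nat_lit 78) (nat_lit 0) (nat_lit 0) (XT.lf (nat_lit 0) (nat_lit 88631902437) (nat_lit 152) (nat_lit 201888401054) (nat_lit 0) (nat_lit 85951346012) (nat_lit 1) (nat_lit 5) (nat_lit 3) (nat_lit 4) (nat_lit 1) (nat_lit 4) (nat_lit 465) (nat_lit 304) (nat_lit 251)) (XT.nd (nat_lit 78) (nat_lit 0) (nat_lit 0) (XT.lf (nat_lit 0) (nat_lit 96005774010) (nat_lit 152) (nat_lit 205820124304) (nat_lit 0) (nat_lit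 93314818719) (nat_lit 1) (nat_lit 5) (nat_lit 3) (nat_lit 4) (nat_lit 1) (nat_lit 4) (nat_lit 466) (nat_lit 304) (nat_lit 250)) (XT.lf (nat_lit 0) (nat_lit 103729490110) (nat_lit 152) (nat_lit 209986060086) (nat_lit 0) (nat_lit 101028631137) (nat_lit 1) (nat_lit 5) (nat_lit 3) (nat_lit 4) (nat_lit 1) (nat_lit 4) (nat_lit 467) (nat_lit 304) (nat_lit 249)))) (XT.nd (nat_lit 156) (nat_lit 0) (nat_lit 0) (XT.nd (nat_lit 78) (nat_lit 0) (nat_lit 0) (XT.lf (nat_lit 0) (nat_lit 111821440535) (nat_lit 152) (nat_lit 214396127295) (nat_lit 0) (nat_lit 109111149485) (nat_lit 1) (nat_lit 5) (nat_lit 3) (nat_lit 4) (nat_lit 1) (nat_lit 4) (nat_lit 468) (nat_lit 304) (nat_lit 248)) (XT.lf (nat_lit 0) (nat_lit 120300891835) (nat_lit 152) (nat_lit 219060826090) (nat_lit 0) (nat_lit 117581617854) (nat_lit 1) (nat_lit 5) (nat_lit 3) (nat_lit 4) (nat_lit 1) (nat_lit 4) (nat_lit 469) (nat_lit 304) (nat_lit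 247))) (XT.nd (nat_lit 78) (nat_lit 0) (nat_lit 0) (XT.lf (nat_lit 0) (nat_lit 129188033180) (nat_lit 152) (nat_lit 223991262899) (nat_lit 0) (nat_lit 126460204026) (nat_lit 1) (nat_lit 5) (nat_lit 3) (nat_lit 4) (nat_lit 1) (nat_lit 4) (nat_lit 470) (nat_lit 304) (nat_lit 246)) (XT.lf (nat_lit 0) (nat_lit 138504024430) (nat_lit 152) (nat_lit 229199176856) (nat_lit 0) (nat_lit 135768047493) (nat_lit 1) (nat_lit 5) (nat_lit 3) (nat_lit 4) (nat_lit 1) (nat_lit 4) (nat_lit 471) (nat_lit 304) (nat_lit 245))))))) (XT.nd (nat_lit 48594) (nat_lit 0) (nat_lit 228) (XT.nd (nat_lit 468) (nat_lit 0) (nat_lit 0) (XT.nd (nat_lit 234) (nat_lit 0) (nat_lit 0) (XT.nd (nat_lit 78) (nat_lit 0) (nat_lit 0) (XT.lf (nat_lit 0) (nat_lit 148271046516) (nat_lit 152) (nat_lit 234696967755) (nat_lit 0) (nat_lit 145527309785) (nat_lit 1) (nat_lit 5) (nat_lit 3) (nat_lit 4) (nat_lit 1) (nat_lit 4) (nat_lit 472) (nat_lit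 304) (nat_lit 244)) (XT.nd (nat_lit 78) (nat_lit 0) (nat_lit 0) (XT.lf (nat_lit 0) (nat_lit 158512354253) (nat_lit 152) (nat_lit 240497725577) (nat_lit 0) (nat_lit 155761227242) (nat_lit 1) (nat_lit 5) (nat_lit 3) (nat_lit 4) (nat_lit 1) (nat_lit 4) (nat_lit 473) (nat_lit 304) (nat_lit 243)) (XT.lf (nat_lit 0) (nat_lit 169252331707) (nat_lit 152) (nat_lit 246615261648) (nat_lit 0) (nat_lit 166494166334) (nat_lit 1) (nat_lit 5) (nat_lit 3) (nat_lit 4) (nat_lit 1) (nat_lit 4) (nat_lit 474) (nat_lit 304) (nat_lit 242)))) (XT.nd (nat_lit 78) (nat_lit 0) (nat_lit 0) (XT.lf (nat_lit 0) (nat_lit 180516550253) (nat_lit 152) (nat_lit 253064141530) (nat_lit 0) (nat_lit 177751681679) (nat_lit 1) (nat_lit 5) (nat_lit 3) (nat_lit 4) (nat_lit 1) (nat_lit 4) (nat_lit 475) (nat_lit 304) (nat_lit 241)) (XT.nd (nat_lit 78) (nat_lit 0) (nat_lit 0) (XT.lf (nat_lit 0) (nat_lit 192331829459) (nat_lit 152) (nat_lit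 259859719700) (nat_lit 0) (nat_lit 189560576883) (nat_lit 1) (nat_lit 5) (nat_lit 3) (nat_lit 4) (nat_lit 1) (nat_lit 4) (nat_lit 476) (nat_lit 304) (nat_lit 240)) (XT.lf (nat_lit 0) (nat_lit 204726300941) (nat_lit 152) (nat_lit 267018176106) (nat_lit 0) (nat_lit 201948968364) (nat_lit 1) (nat_lit 5) (nat_lit 3) (nat_lit 4) (nat_lit 1) (nat_lit 4) (nat_lit 477) (nat_lit 304) (nat_lit 239))))) (XT.nd (nat_lit 47814) (nat_lit 0) (nat_lit 608) (XT.nd (nat_lit 78) (nat_lit 0) (nat_lit 0) (XT.lf (nat_lit 0) (nat_lit 217729475347) (nat_lit 152) (nat_lit 274556554691) (nat_lit 0) (nat_lit 214946352292) (nat_lit 1) (nat_lit 5) (nat_lit 3) (nat_lit 4) (nat_lit 1) (nat_lit 4) (nat_lit 478) (nat_lit 304) (nat_lit 238)) (XT.nd (nat_lit 78) (nat_lit 0) (nat_lit 0) (XT.lf (nat_lit 0) (nat_lit 231372312615) (nat_lit 152) (nat_lit 282492803976) (nat_lit 0) (nat_lit 228583674820) (nat_lit 1) (nat_lit 5)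 (nat_lit 3) (nat_lit 4) (nat_lit 1) (nat_lit 4) (nat_lit 479) (nat_lit 304) (nat_lit 237)) (XT.lf (nat_lit 0) (nat_lit 245687295692) (nat_lit 152) (nat_lit 290845819793) (nat_lit 0) (nat_lit 242893405762) (nat_lit 1) (nat_lit 5) (nat_lit 3) (nat_lit 4) (nat_lit 1) (nat_lit 4) (nat_lit 480) (nat_lit 304) (nat_lit 236)))) (XT.nd (nat_lit 156) (nat_lit 76) (nat_lit 0) (XT.nd (nat_lit 78) (nat_lit 152) (nat_lit 0) (XT.lf (nat_lit 0) (nat_lit 14557118210) (nat_lit 76) (nat_lit 303431980) (nat_lit 76) (nat_lit 303431980) (nat_lit 12) (nat_lit 4) (nat_lit 13) (nat_lit 5) (nat_lit 13) (nat_lit 4) (nat_lit 410) (nat_lit 305) (nat_lit 305)) (XT.lf (nat_lit 0) (nat_lit 5461508500) (nat_lit 152) (nat_lit 20776430467) (nat_lit 0) (nat_lit 5293714657) (nat_lit 10) (nat_lit 5) (nat_lit 12) (nat_lit 4) (nat_lit 10) (nat_lit 4) (nat_lit 411) (nat_lit 305) (nat_lit 304))) (XT.nd (nat_lit 78) (nat_lit 76)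 (nat_lit 0) (XT.lf (nat_lit 0) (nat_lit 11645819985) (nat_lit 152) (nat_lit 9839356873) (nat_lit 0) (nat_lit 11318222482) (nat_lit 10) (nat_lit 5) (nat_lit 12) (nat_lit 4) (nat_lit 10) (nat_lit 4) (nat_lit 412) (nat_lit 305) (nat_lit 303)) (XT.lf (nat_lit 0) (nat_lit 1315844901) (nat_lit 76) (nat_lit 16655545582) (nat_lit 76) (nat_lit 16175754117) (nat_lit 9) (nat_lit 4) (nat_lit 10) (nat_lit 5) (nat_lit 10) (nat_lit 4) (nat_lit 413) (nat_lit 305) (nat_lit 302)))))) (XT.nd (nat_lit 468) (nat_lit 228) (nat_lit 0) (XT.nd (nat_lit 234) (nat_lit 152) (nat_lit 0) (XT.nd (nat_lit 78) (nat_lit 0) (nat_lit 0) (XT.lf (nat_lit 0) (nat_lit 13005547566) (nat_lit 76) (nat_lit 11589105362) (nat_lit 76) (nat_lit 10964367267) (nat_lit 9) (nat_lit 4) (nat_lit 10) (nat_lit 5) (nat_lit 10) (nat_lit 4) (nat_lit 414) (nat_lit 305) (nat_lit 301)) (XT.nd (nat_lit 78) (nat_lit 0) (nat_lit 0) (XT.lf (nat_lit 0)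 (nat_lit 24932250172) (nat_lit 76) (nat_lit 6440427515) (nat_lit 76) (nat_lit 5677645010) (nat_lit 9) (nat_lit 4) (nat_lit 10) (nat_lit 5) (nat_lit 10) (nat_lit 4) (nat_lit 415) (nat_lit 305) (nat_lit 300)) (XT.lf (nat_lit 0) (nat_lit 37124349631) (nat_lit 76) (nat_lit 1197253284) (nat_lit 76) (nat_lit 302999913) (nat_lit 9) (nat_lit 4) (nat_lit 10) (nat_lit 5) (nat_lit 10) (nat_lit 4) (nat_lit 416) (nat_lit 305) (nat_lit 299)))) (XT.nd (nat_lit 78) (nat_lit 0) (nat_lit 0) (XT.lf (nat_lit 0) (nat_lit 5224528458) (nat_lit 152) (nat_lit 30792546450) (nat_lit 0) (nat_lit 4253610629) (nat_lit 7) (nat_lit 5) (nat_lit 9) (nat_lit 4) (nat_lit 7) (nat_lit 4) (nat_lit 417) (nat_lit 305) (nat_lit 298)) (XT.nd (nat_lit 78) (nat_lit 0) (nat_lit 0) (XT.lf (nat_lit 0) (nat_lit 10901457621) (nat_lit 152) (nat_lit 21286246495) (nat_lit 0) (nat_lit 9816970314) (nat_lit 7) (nat_lit 5) (nat_lit 9) (nat_lit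 4) (nat_lit 7) (nat_lit 4) (nat_lit 418) (nat_lit 305) (nat_lit 297)) (XT.lf (nat_lit 0) (nat_lit 16707715168) (nat_lit 152) (nat_lit 11610317302) (nat_lit 0) (nat_lit 15515066454) (nat_lit 7) (nat_lit 5) (nat_lit 9) (nat_lit 4) (nat_lit 7) (nat_lit 4) (nat_lit 419) (nat_lit 305) (nat_lit 296))))) (XT.nd (nat_lit 234) (nat_lit 152) (nat_lit 0) (XT.nd (nat_lit 78) (nat_lit 76) (nat_lit 0) (XT.lf (nat_lit 0) (nat_lit 22657125524) (nat_lit 152) (nat_lit 1741720946) (nat_lit 0) (nat_lit 21361465946) (nat_lit 7) (nat_lit 5) (nat_lit 9) (nat_lit 4) (nat_lit 7) (nat_lit 4) (nat_lit 420) (nat_lit 305) (nat_lit 295)) (XT.nd (nat_lit 78) (nat_lit 0) (nat_lit 0) (XT.lf (nat_lit 0) (nat_lit 8618897786) (nat_lit 76) (nat_lit 20279521312) (nat_lit 76) (nat_lit 18885756149) (nat_lit 6) (nat_lit 4) (nat_lit 7) (nat_lit 5) (nat_lit 7) (nat_lit 4) (nat_lit 421) (nat_lit 305) (nat_lit 294)) (XT.lf (nat_lit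 0) (nat_lit 19285222110) (nat_lit 76) (nat_lit 16058314529) (nat_lit 76) (nat_lit 14571115475) (nat_lit 6) (nat_lit 4) (nat_lit 7) (nat_lit 5) (nat_lit 7) (nat_lit 4) (nat_lit 422) (nat_lit 305) (nat_lit 293)))) (XT.nd (nat_lit 156) (nat_lit 152) (nat_lit 0) (XT.nd (nat_lit 78) (nat_lit 0) (nat_lit 0) (XT.lf (nat_lit 0) (nat_lit 30225058874) (nat_lit 76) (nat_lit 11754672515) (nat_lit 76) (nat_lit 10178488804) (nat_lit 6) (nat_lit 4) (nat_lit 7) (nat_lit 5) (nat_lit 7) (nat_lit 4) (nat_lit 423) (nat_lit 305) (nat_lit 292)) (XT.lf (nat_lit 0) (nat_lit 41464455311) (nat_lit 76) (nat_lit 7358348504) (nat_lit 76) (nat_lit 5697417501) (nat_lit 6) (nat_lit 4) (nat_lit 7) (nat_lit 5) (nat_lit 7) (nat_lit 4) (nat_lit 424) (nat_lit 305) (nat_lit 291))) (XT.nd (nat_lit 78) (nat_lit 152) (nat_lit 0) (XT.lf (nat_lit 0) (nat_lit 53030171886) (nat_lit 76) (nat_lit 2858875059) (nat_lit 76) (nat_lit 1117232348)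 (nat_lit 6) (nat_lit 4) (nat_lit 7) (nat_lit 5) (nat_lit 7) (nat_lit 4) (nat_lit 425) (nat_lit 305) (nat_lit 290)) (XT.lf (nat_lit 0) (nat_lit 3573341457) (nat_lit 152) (nat_lit 54199020080) (nat_lit 0) (nat_lit 1841426216) (nat_lit 4) (nat_lit 5) (nat_lit 6) (nat_lit 4) (nat_lit 4) (nat_lit 4) (nat_lit 426) (nat_lit 305) (nat_lit 289))))))))
noncomputable def xc25 : XT := (XT.nd (nat_lit 1950) (nat_lit 0) (nat_lit 0) (XT.nd (nat_lit 936) (nat_lit 152) (nat_lit 0) (XT.nd (nat_lit 468) (nat_lit 76) (nat_lit 0) (XT.nd (nat_lit 234) (nat_lit 0) (nat_lit 0) (XT.nd (nat_lit 78) (nat_lit 0) (nat_lit 0) (XT.lf (nat_lit 0) (nat_lit 8461264011) (nat_lit 152) (nat_lit 47229853190) (nat_lit 0) (nat_lit 6659626962) (nat_lit 4) (nat_lit 5) (nat_lit 6) (nat_lit 4) (nat_lit 4) (nat_lit 4) (nat_lit 427) (nat_lit 305) (nat_lit 288)) (XT.nd (nat_lit 78) (nat_lit 0) (nat_lit 0) (XT.lf (nat_lit 0) (nat_lit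 13484114495) (nat_lit 152) (nat_lit 40129837879) (nat_lit 0) (nat_lit 11616075725) (nat_lit 4) (nat_lit 5) (nat_lit 6) (nat_lit 4) (nat_lit 4) (nat_lit 4) (nat_lit 428) (nat_lit 305) (nat_lit 287)) (XT.lf (nat_lit 0) (nat_lit 18653852078) (nat_lit 152) (nat_lit 32882069347) (nat_lit 0) (nat_lit 16722573573) (nat_lit 4) (nat_lit 5) (nat_lit 6) (nat_lit 4) (nat_lit 4) (nat_lit 4) (nat_lit 429) (nat_lit 305) (nat_lit 286)))) (XT.nd (nat_lit 78) (nat_lit 0) (nat_lit 0) (XT.lf (nat_lit 0) (nat_lit 23982785659) (nat_lit 152) (nat_lit 25469291004) (nat_lit 0) (nat_lit 21991278835) (nat_lit 4) (nat_lit 5) (nat_lit 6) (nat_lit 4) (nat_lit 4) (nat_lit 4) (nat_lit 430) (nat_lit 305) (nat_lit 285)) (XT.nd (nat_lit 78) (nat_lit 0) (nat_lit 0) (XT.lf (nat_lit 0) (nat_lit 29483603174) (nat_lit 152) (nat_lit 17873853376) (nat_lit 0) (nat_lit 27434736047) (nat_lit 4) (nat_lit 5) (nat_lit 6) (nat_lit 4) (nat_lit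 4) (nat_lit 4) (nat_lit 431) (nat_lit 305) (nat_lit 284)) (XT.lf (nat_lit 0) (nat_lit 35169401809) (nat_lit 152) (nat_lit 10077672089) (nat_lit 0) (nat_lit 33065905821) (nat_lit 4) (nat_lit 5) (nat_lit 6) (nat_lit 4) (nat_lit 4) (nat_lit 4) (nat_lit 432) (nat_lit 305) (nat_lit 283))))) (XT.nd (nat_lit 234) (nat_lit 0) (nat_lit 0) (XT.nd (nat_lit 78) (nat_lit 76) (nat_lit 0) (XT.lf (nat_lit 0) (nat_lit 41053719179) (nat_lit 152) (nat_lit 2062184806) (nat_lit 0) (nat_lit 38898195705) (nat_lit 4) (nat_lit 5) (nat_lit 6) (nat_lit 4) (nat_lit 4) (nat_lit 4) (nat_lit 433) (nat_lit 305) (nat_lit 282)) (XT.nd (nat_lit 78) (nat_lit 0) (nat_lit 0) (XT.lf (nat_lit 0) (nat_lit 6396418297) (nat_lit 76) (nat_lit 40854013281) (nat_lit 76) (nat_lit 38648939820) (nat_lit 3) (nat_lit 4) (nat_lit 4) (nat_lit 5) (nat_lit 4) (nat_lit 4) (nat_lit 434) (nat_lit 305) (nat_lit 281)) (XT.lf (nat_lit 0) (nat_lit 15189781176)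 (nat_lit 76) (nat_lit 38521831140) (nat_lit 76) (nat_lit 36269567215) (nat_lit 3) (nat_lit 4) (nat_lit 4) (nat_lit 5) (nat_lit 4) (nat_lit 4) (nat_lit 435) (nat_lit 305) (nat_lit 280)))) (XT.nd (nat_lit 78) (nat_lit 0) (nat_lit 0) (XT.lf (nat_lit 0) (nat_lit 24270655266) (nat_lit 76) (nat_lit 36148728844) (nat_lit 76) (nat_lit 33851521620) (nat_lit 3) (nat_lit 4) (nat_lit 4) (nat_lit 5) (nat_lit 4) (nat_lit 4) (nat_lit 436) (nat_lit 305) (nat_lit 279)) (XT.nd (nat_lit 78) (nat_lit 0) (nat_lit 0) (XT.lf (nat_lit 0) (nat_lit 33660661696) (nat_lit 76) (nat_lit 33729056150) (nat_lit 76) (nat_lit 31389045784) (nat_lit 3) (nat_lit 4) (nat_lit 4) (nat_lit 5) (nat_lit 4) (nat_lit 4) (nat_lit 437) (nat_lit 305) (nat_lit 278)) (XT.lf (nat_lit 0) (nat_lit 43382157622) (nat_lit 76) (nat_lit 31257051932) (nat_lit 76) (nat_lit 28876276670) (nat_lit 3) (nat_lit 4) (nat_lit 4) (nat_lit 5) (nat_lit 4) (nat_lit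 4) (nat_lit 438) (nat_lit 305) (nat_lit 277)))))) (XT.nd (nat_lit 468) (nat_lit 152) (nat_lit 0) (XT.nd (nat_lit 234) (nat_lit 0) (nat_lit 0) (XT.nd (nat_lit 78) (nat_lit 0) (nat_lit 0) (XT.lf (nat_lit 0) (nat_lit 53458289466) (nat_lit 76) (nat_lit 28726830467) (nat_lit 76) (nat_lit 26307231494) (nat_lit 3) (nat_lit 4) (nat_lit 4) (nat_lit 5) (nat_lit 4) (nat_lit 4) (nat_lit 439) (nat_lit 305) (nat_lit 276)) (XT.nd (nat_lit 78) (nat_lit 0) (nat_lit 0) (XT.lf (nat_lit 0) (nat_lit 63913048015) (nat_lit 76) (nat_lit 26132367417) (nat_lit 76) (nat_lit 23675793481) (nat_lit 3) (nat_lit 4) (nat_lit 4) (nat_lit 5) (nat_lit 4) (nat_lit 4) (nat_lit 440) (nat_lit 305) (nat_lit 275)) (XT.lf (nat_lit 0) (nat_lit 74771325554) (nat_lit 76) (nat_lit 23467485490) (nat_lit 76) (nat_lit 20975697303) (nat_lit 3) (nat_lit 4) (nat_lit 4) (nat_lit 5) (nat_lit 4) (nat_lit 4) (nat_lit 441) (nat_lit 305) (nat_lit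 274)))) (XT.nd (nat_lit 78) (nat_lit 0) (nat_lit 0) (XT.lf (nat_lit 0) (nat_lit 86058975123) (nat_lit 76) (nat_lit 20725839728) (nat_lit 76) (nat_lit 18200514159) (nat_lit 3) (nat_lit 4) (nat_lit 4) (nat_lit 5) (nat_lit 4) (nat_lit 4) (nat_lit 442) (nat_lit 305) (nat_lit 273)) (XT.nd (nat_lit 78) (nat_lit 0) (nat_lit 0) (XT.lf (nat_lit 0) (nat_lit 97802872079) (nat_lit 76) (nat_lit 17900902404) (nat_lit 76) (nat_lit 15343636472) (nat_lit 3) (nat_lit 4) (nat_lit 4) (nat_lit 5) (nat_lit 4) (nat_lit 4) (nat_lit 443) (nat_lit 305) (nat_lit 272)) (XT.lf (nat_lit 0) (nat_lit 110030978080) (nat_lit 76) (nat_lit 14985947476) (nat_lit 76) (nat_lit 12398262150) (nat_lit 3) (nat_lit 4) (nat_lit 4) (nat_lit 5) (nat_lit 4) (nat_lit 4) (nat_lit 444) (nat_lit 305) (nat_lit 271))))) (XT.nd (nat_lit 234) (nat_lit 152) (nat_lit 0) (XT.nd (nat_lit 78) (nat_lit 0) (nat_lit 0) (XT.lf (nat_lit 0) (nat_lit 122772407666)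 (nat_lit 76) (nat_lit 11974034575) (nat_lit 76) (nat_lit 9357378398) (nat_lit 3) (nat_lit 4) (nat_lit 4) (nat_lit 5) (nat_lit 4) (nat_lit 4) (nat_lit 445) (nat_lit 305) (nat_lit 270)) (XT.nd (nat_lit 78) (nat_lit 0) (nat_lit 0) (XT.lf (nat_lit 0) (nat_lit 136057497574) (nat_lit 76) (nat_lit 8857992480) (nat_lit 76) (nat_lit 6213745017) (nat_lit 3) (nat_lit 4) (nat_lit 4) (nat_lit 5) (nat_lit 4) (nat_lit 4) (nat_lit 446) (nat_lit 305) (nat_lit 269)) (XT.lf (nat_lit 0) (nat_lit 149917878969) (nat_lit 76) (nat_lit 5630402044) (nat_lit 76) (nat_lit 2959877164) (nat_lit 3) (nat_lit 4) (nat_lit 4) (nat_lit 5) (nat_lit 4) (nat_lit 4) (nat_lit 447) (nat_lit 305) (nat_lit 268)))) (XT.nd (nat_lit 156) (nat_lit 0) (nat_lit 0) (XT.nd (nat_lit 78) (nat_lit 76) (nat_lit 0) (XT.lf (nat_lit 0) (nat_lit 398786771) (nat_lit 152) (nat_lit 1878038109) (nat_lit 76) (nat_lit 163981012341) (nat_lit 2) (nat_lit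 5) (nat_lit 4) (nat_lit 5) (nat_lit 3) (nat_lit 4) (nat_lit 448) (nat_lit 305) (nat_lit 267)) (XT.lf (nat_lit 0) (nat_lit 3886890371) (nat_lit 152) (nat_lit 169205637449) (nat_lit 0) (nat_lit 1296999532) (nat_lit 1) (nat_lit 5) (nat_lit 3) (nat_lit 4) (nat_lit 1) (nat_lit 4) (nat_lit 449) (nat_lit 305) (nat_lit 266))) (XT.nd (nat_lit 78) (nat_lit 0) (nat_lit 0) (XT.lf (nat_lit 0) (nat_lit 7577905917) (nat_lit 152) (nat_lit 170382076202) (nat_lit 0) (nat_lit 4966396583) (nat_lit 1) (nat_lit 5) (nat_lit 3) (nat_lit 4) (nat_lit 1) (nat_lit 4) (nat_lit 450) (nat_lit 305) (nat_lit 265)) (XT.lf (nat_lit 0) (nat_lit 11414286413) (nat_lit 152) (nat_lit 171695559413) (nat_lit 0) (nat_lit 8782188036) (nat_lit 1) (nat_lit 5) (nat_lit 3) (nat_lit 4) (nat_lit 1) (nat_lit 4) (nat_lit 451) (nat_lit 305) (nat_lit 264))))))) (XT.nd (nat_lit 1014) (nat_lit 0) (nat_lit 0) (XT.nd (nat_lit 468) (nat_lit 0) (nat_lit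 0) (XT.nd (nat_lit 234) (nat_lit 0) (nat_lit 0) (XT.nd (nat_lit 78) (nat_lit 0) (nat_lit 0) (XT.lf (nat_lit 0) (nat_lit 15405166099) (nat_lit 152) (nat_lit 173149214423) (nat_lit 0) (nat_lit 12753459110) (nat_lit 1) (nat_lit 5) (nat_lit 3) (nat_lit 4) (nat_lit 1) (nat_lit 4) (nat_lit 452) (nat_lit 305) (nat_lit 263)) (XT.nd (nat_lit 78) (nat_lit 0) (nat_lit 0) (XT.lf (nat_lit 0) (nat_lit 19560047069) (nat_lit 152) (nat_lit 174746502316) (nat_lit 0) (nat_lit 16889665211) (nat_lit 1) (nat_lit 5) (nat_lit 3) (nat_lit 4) (nat_lit 1) (nat_lit 4) (nat_lit 453) (nat_lit 305) (nat_lit 262)) (XT.lf (nat_lit 0) (nat_lit 23888821897) (nat_lit 152) (nat_lit 176491226158) (nat_lit 0) (nat_lit 21200654449) (nat_lit 1) (nat_lit 5) (nat_lit 3) (nat_lit 4) (nat_lit 1) (nat_lit 4) (nat_lit 454) (nat_lit 305) (nat_lit 261)))) (XT.nd (nat_lit 78) (nat_lit 0) (nat_lit 0) (XT.lf (nat_lit 0) (nat_lit 28401797189)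 (nat_lit 152) (nat_lit 178387540053) (nat_lit 0) (nat_lit 25696691084) (nat_lit 1) (nat_lit 5) (nat_lit 3) (nat_lit 4) (nat_lit 1) (nat_lit 4) (nat_lit 455) (nat_lit 305) (nat_lit 260)) (XT.nd (nat_lit 78) (nat_lit 0) (nat_lit 0) (XT.lf (nat_lit 0) (nat_lit 33109718125) (nat_lit 152) (nat_lit 180439959035) (nat_lit 0) (nat_lit 30388479966) (nat_lit 1) (nat_lit 5) (nat_lit 3) (nat_lit 4) (nat_lit 1) (nat_lit 4) (nat_lit 456) (nat_lit 305) (nat_lit 259)) (XT.lf (nat_lit 0) (nat_lit 38023794040) (nat_lit 152) (nat_lit 182653369814) (nat_lit 0) (nat_lit 35287192021) (nat_lit 1) (nat_lit 5) (nat_lit 3) (nat_lit 4) (nat_lit 1) (nat_lit 4) (nat_lit 457) (nat_lit 305) (nat_lit 258))))) (XT.nd (nat_lit 234) (nat_lit 0) (nat_lit 0) (XT.nd (nat_lit 78) (nat_lit 0) (nat_lit 0) (XT.lf (nat_lit 0) (nat_lit 43155725115) (nat_lit 152) (nat_lit 185033042418) (nat_lit 0) (nat_lit 40404490848) (nat_lit 1)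 (nat_lit 5) (nat_lit 3) (nat_lit 4) (nat_lit 1) (nat_lit 4) (nat_lit 458) (nat_lit 305) (nat_lit 257)) (XT.nd (nat_lit 78) (nat_lit 0) (nat_lit 0) (XT.lf (nat_lit 0) (nat_lit 48517730234) (nat_lit 152) (nat_lit 187584642733) (nat_lit 0) (nat_lit 45752560492) (nat_lit 1) (nat_lit 5) (nat_lit 3) (nat_lit 4) (nat_lit 1) (nat_lit 4) (nat_lit 459) (nat_lit 305) (nat_lit 256)) (XT.lf (nat_lit 0) (nat_lit 54122576076) (nat_lit 152) (nat_lit 190314245997) (nat_lit 0) (nat_lit 51344134453) (nat_lit 1) (nat_lit 5) (nat_lit 3) (nat_lit 4) (nat_lit 1) (nat_lit 4) (nat_lit 460) (nat_lit 305) (nat_lit 255)))) (XT.nd (nat_lit 156) (nat_lit 0) (nat_lit 0) (XT.nd (nat_lit 78) (nat_lit 0) (nat_lit 0) (XT.lf (nat_lit 0) (nat_lit 59983607511) (nat_lit 152) (nat_lit 193228351267) (nat_lit 0) (nat_lit 57192526001) (nat_lit 1) (nat_lit 5) (nat_lit 3) (nat_lit 4) (nat_lit 1) (nat_lit 4) (nat_lit 461) (nat_lit 305)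 (nat_lit 254)) (XT.lf (nat_lit 0) (nat_lit 66114779376) (nat_lit 152) (nat_lit 196333896888) (nat_lit 0) (nat_lit 63311659880) (nat_lit 1) (nat_lit 5) (nat_lit 3) (nat_lit 4) (nat_lit 1) (nat_lit 4) (nat_lit 462) (nat_lit 305) (nat_lit 253))) (XT.nd (nat_lit 78) (nat_lit 0) (nat_lit 0) (XT.lf (nat_lit 0) (nat_lit 72530689700) (nat_lit 152) (nat_lit 199638277016) (nat_lit 0) (nat_lit 69716105454) (nat_lit 1) (nat_lit 5) (nat_lit 3) (nat_lit 4) (nat_lit 1) (nat_lit 4) (nat_lit 463) (nat_lit 305) (nat_lit 252)) (XT.lf (nat_lit 0) (nat_lit 79246614459) (nat_lit 152) (nat_lit 203149359224) (nat_lit 0) (nat_lit 76421111404) (nat_lit 1) (nat_lit 5) (nat_lit 3) (nat_lit 4) (nat_lit 1) (nat_lit 4) (nat_lit 464) (nat_lit 305) (nat_lit 251)))))) (XT.nd (nat_lit 468) (nat_lit 0) (nat_lit 0) (XT.nd (nat_lit 234) (nat_lit 0) (nat_lit 0) (XT.nd (nat_lit 78) (nat_lit 0) (nat_lit 0) (XT.lf (nat_lit 0) (nat_lit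 86278543951) (nat_lit 152) (nat_lit 206875503230) (nat_lit 0) (nat_lit 83442642030) (nat_lit 1) (nat_lit 5) (nat_lit 3) (nat_lit 4) (nat_lit 1) (nat_lit 4) (nat_lit 465) (nat_lit 305) (nat_lit 250)) (XT.nd (nat_lit 78) (nat_lit 0) (nat_lit 0) (XT.lf (nat_lit 0) (nat_lit 93643220865) (nat_lit 152) (nat_lit 210825580806) (nat_lit 0) (nat_lit 90797415262) (nat_lit 1) (nat_lit 5) (nat_lit 3) (nat_lit 4) (nat_lit 1) (nat_lit 4) (nat_lit 466) (nat_lit 305) (nat_lit 249)) (XT.lf (nat_lit 0) (nat_lit 101358180145) (nat_lit 152) (nat_lit 215008996899) (nat_lit 0) (nat_lit 98502942465) (nat_lit 1) (nat_lit 5) (nat_lit 3) (nat_lit 4) (nat_lit 1) (nat_lit 4) (nat_lit 467) (nat_lit 305) (nat_lit 248)))) (XT.nd (nat_lit 78) (nat_lit 0) (nat_lit 0) (XT.lf (nat_lit 0) (nat_lit 109441790744) (nat_lit 152) (nat_lit 219435712024) (nat_lit 0) (nat_lit 106577570132) (nat_lit 1) (nat_lit 5) (nat_lit 3) (nat_lit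 4) (nat_lit 1) (nat_lit 4) (nat_lit 468) (nat_lit 305) (nat_lit 247)) (XT.nd (nat_lit 78) (nat_lit 0) (nat_lit 0) (XT.lf (nat_lit 0) (nat_lit 117913299351) (nat_lit 152) (nat_lit 224116265977) (nat_lit 0) (nat_lit 115040523566) (nat_lit 1) (nat_lit 5) (nat_lit 3) (nat_lit 4) (nat_lit 1) (nat_lit 4) (nat_lit 469) (nat_lit 305) (nat_lit 246)) (XT.lf (nat_lit 0) (nat_lit 126792876226) (nat_lit 152) (nat_lit 229061802936) (nat_lit 0) (nat_lit 123911952658) (nat_lit 1) (nat_lit 5) (nat_lit 3) (nat_lit 4) (nat_lit 1) (nat_lit 4) (nat_lit 470) (nat_lit 305) (nat_lit 245))))) (XT.nd (nat_lit 234) (nat_lit 0) (nat_lit 0) (XT.nd (nat_lit 78) (nat_lit 0) (nat_lit 0) (XT.lf (nat_lit 0) (nat_lit 136101663219) (nat_lit 152) (nat_lit 234284097988) (nat_lit 0) (nat_lit 133212979858) (nat_lit 1) (nat_lit 5) (nat_lit 3) (nat_lit 4) (nat_lit 1) (nat_lit 4) (nat_lit 471) (nat_lit 305) (nat_lit 244)) (XT.nd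 (nat_lit 78) (nat_lit 0) (nat_lit 0) (XT.lf (nat_lit 0) (nat_lit 145861824109) (nat_lit 152) (nat_lit 239795585168) (nat_lit 0) (nat_lit 142965750467) (nat_lit 1) (nat_lit 5) (nat_lit 3) (nat_lit 4) (nat_lit 1) (nat_lit 4) (nat_lit 472) (nat_lit 305) (nat_lit 243)) (XT.lf (nat_lit 0) (nat_lit 156096597373) (nat_lit 152) (nat_lit 245609387067) (nat_lit 0) (nat_lit 153193485370) (nat_lit 1) (nat_lit 5) (nat_lit 3) (nat_lit 4) (nat_lit 1) (nat_lit 4) (nat_lit 473) (nat_lit 305) (nat_lit 242)))) (XT.nd (nat_lit 156) (nat_lit 0) (nat_lit 0) (XT.nd (nat_lit 78) (nat_lit 0) (nat_lit 0) (XT.lf (nat_lit 0) (nat_lit 166830351519) (nat_lit 152) (nat_lit 251739346069) (nat_lit 0) (nat_lit 163920536314) (nat_lit 1) (nat_lit 5) (nat_lit 3) (nat_lit 4) (nat_lit 1) (nat_lit 4) (nat_lit 474) (nat_lit 305) (nat_lit 241)) (XT.lf (nat_lit 0) (nat_lit 178088643105) (nat_lit 152) (nat_lit 258200057314) (nat_lit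 0) (nat_lit 175172443899) (nat_lit 1) (nat_lit 5) (nat_lit 3) (nat_lit 4) (nat_lit 1) (nat_lit 4) (nat_lit 475) (nat_lit 305) (nat_lit 240))) (XT.nd (nat_lit 78) (nat_lit 0) (nat_lit 0) (XT.lf (nat_lit 0) (nat_lit 189898277587) (nat_lit 152) (nat_lit 265006903448) (nat_lit 0) (nat_lit 186975998379) (nat_lit 1) (nat_lit 5) (nat_lit 3) (nat_lit 4) (nat_lit 1) (nat_lit 4) (nat_lit 476) (nat_lit 305) (nat_lit 239)) (XT.lf (nat_lit 0) (nat_lit 202287373142) (nat_lit 152) (nat_lit 272176091249) (nat_lit 0) (nat_lit 199359303457) (nat_lit 1) (nat_lit 5) (nat_lit 3) (nat_lit 4) (nat_lit 1) (nat_lit 4) (nat_lit 477) (nat_lit 305) (nat_lit 238))))))))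
noncomputable def xc26 : XT := (XT.nd (nat_lit 49374) (nat_lit 0) (nat_lit 0) (XT.nd (nat_lit 48360) (nat_lit 0) (nat_lit 228) (XT.nd (nat_lit 47892) (nat_lit 0) (nat_lit 608) (XT.nd (nat_lit 47658) (nat_lit 0) (nat_lit 836) (XT.nd (nat_lit 78) (nat_lit 0) (nat_lit 0) (XT.lf (nat_lit 0) (nat_lit 215285427618) (nat_lit 152) (nat_lit 279724690210) (nat_lit 0) (nat_lit 212351843192) (nat_lit 1) (nat_lit 5) (nat_lit 3) (nat_lit 4) (nat_lit 1) (nat_lit 4) (nat_lit 478) (nat_lit 305) (nat_lit 237)) (XT.nd (nat_lit 78) (nat_lit 0) (nat_lit 0) (XT.lf (nat_lit 0) (nat_lit 228923388761) (nat_lit 152) (nat_lit 287670673186) (nat_lit 0) (nat_lit 225984552202) (nat_lit 1) (nat_lit 5) (nat_lit 3) (nat_lit 4) (nat_lit 1) (nat_lit 4) (nat_lit 479) (nat_lit 305) (nat_lit 236)) (XT.lf (nat_lit 0) (nat_lit 243233727910) (nat_lit 152) (nat_lit 296032959185) (nat_lit 0) (nat_lit 240289889318) (nat_lit 1) (nat_lit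 5) (nat_lit 3) (nat_lit 4) (nat_lit 1) (nat_lit 4) (nat_lit 480) (nat_lit 305) (nat_lit 235)))) (XT.nd (nat_lit 78) (nat_lit 0) (nat_lit 0) (XT.lf (nat_lit 0) (nat_lit 2007380933) (nat_lit 76) (nat_lit 6016629390) (nat_lit 76) (nat_lit 6016629390) (nat_lit 12) (nat_lit 4) (nat_lit 13) (nat_lit 5) (nat_lit 13) (nat_lit 4) (nat_lit 408) (nat_lit 306) (nat_lit 306)) (XT.nd (nat_lit 78) (nat_lit 0) (nat_lit 0) (XT.lf (nat_lit 0) (nat_lit 16353910830) (nat_lit 76) (nat_lit 6502930856) (nat_lit 76) (nat_lit 6317938144) (nat_lit 12) (nat_lit 4) (nat_lit 13) (nat_lit 5) (nat_lit 13) (nat_lit 4) (nat_lit 409) (nat_lit 306) (nat_lit 305)) (XT.lf (nat_lit 0) (nat_lit 28927778497) (nat_lit 76) (nat_lit 883066327) (nat_lit 76) (nat_lit 521890080) (nat_lit 12) (nat_lit 4) (nat_lit 13) (nat_lit 5) (nat_lit 13) (nat_lit 4) (nat_lit 410) (nat_lit 306) (nat_lit 304))))) (XT.nd (nat_lit 234) (nat_lit 0) (nat_lit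 0) (XT.nd (nat_lit 78) (nat_lit 76) (nat_lit 0) (XT.lf (nat_lit 0) (nat_lit 5439766417) (nat_lit 152) (nat_lit 21165813258) (nat_lit 0) (nat_lit 4935985379) (nat_lit 10) (nat_lit 5) (nat_lit 12) (nat_lit 4) (nat_lit 10) (nat_lit 4) (nat_lit 411) (nat_lit 306) (nat_lit 303)) (XT.nd (nat_lit 78) (nat_lit 76) (nat_lit 0) (XT.lf (nat_lit 0) (nat_lit 11532126397) (nat_lit 152) (nat_lit 10409637592) (nat_lit 0) (nat_lit 10876151397) (nat_lit 10) (nat_lit 5) (nat_lit 12) (nat_lit 4) (nat_lit 10) (nat_lit 4) (nat_lit 412) (nat_lit 306) (nat_lit 302)) (XT.lf (nat_lit 0) (nat_lit 548727905) (nat_lit 76) (nat_lit 17209419280) (nat_lit 76) (nat_lit 16408497650) (nat_lit 9) (nat_lit 4) (nat_lit 10) (nat_lit 5) (nat_lit 10) (nat_lit 4) (nat_lit 413) (nat_lit 306) (nat_lit 301)))) (XT.nd (nat_lit 78) (nat_lit 0) (nat_lit 0) (XT.lf (nat_lit 0) (nat_lit 12068925598) (nat_lit 76) (nat_lit 12226434857) (nat_lit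 76) (nat_lit 11287468817) (nat_lit 9) (nat_lit 4) (nat_lit 10) (nat_lit 5) (nat_lit 10) (nat_lit 4) (nat_lit 414) (nat_lit 306) (nat_lit 300)) (XT.nd (nat_lit 78) (nat_lit 0) (nat_lit 0) (XT.lf (nat_lit 0) (nat_lit 23834194899) (nat_lit 76) (nat_lit 7157238722) (nat_lit 76) (nat_lit 6086801815) (nat_lit 9) (nat_lit 4) (nat_lit 10) (nat_lit 5) (nat_lit 10) (nat_lit 4) (nat_lit 415) (nat_lit 306) (nat_lit 299)) (XT.lf (nat_lit 0) (nat_lit 35872548352) (nat_lit 76) (nat_lit 1989761359) (nat_lit 76) (nat_lit 794114103) (nat_lit 9) (nat_lit 4) (nat_lit 10) (nat_lit 5) (nat_lit 10) (nat_lit 4) (nat_lit 416) (nat_lit 306) (nat_lit 298)))))) (XT.nd (nat_lit 468) (nat_lit 152) (nat_lit 0) (XT.nd (nat_lit 234) (nat_lit 76) (nat_lit 0) (XT.nd (nat_lit 78) (nat_lit 0) (nat_lit 0) (XT.lf (nat_lit 0) (nat_lit 4636573325) (nat_lit 152) (nat_lit 32287657641) (nat_lit 0) (nat_lit 3384292175) (nat_lit 7)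 (nat_lit 5) (nat_lit 9) (nat_lit 4) (nat_lit 7) (nat_lit 4) (nat_lit 417) (nat_lit 306) (nat_lit 297)) (XT.nd (nat_lit 78) (nat_lit 0) (nat_lit 0) (XT.lf (nat_lit 0) (nat_lit 10238127818) (nat_lit 152) (nat_lit 22930472691) (nat_lit 0) (nat_lit 8877685261) (nat_lit 7) (nat_lit 5) (nat_lit 9) (nat_lit 4) (nat_lit 7) (nat_lit 4) (nat_lit 418) (nat_lit 306) (nat_lit 296)) (XT.lf (nat_lit 0) (nat_lit 15972599966) (nat_lit 152) (nat_lit 13396557789) (nat_lit 0) (nat_lit 14509146545) (nat_lit 7) (nat_lit 5) (nat_lit 9) (nat_lit 4) (nat_lit 7) (nat_lit 4) (nat_lit 419) (nat_lit 306) (nat_lit 295)))) (XT.nd (nat_lit 78) (nat_lit 76) (nat_lit 0) (XT.lf (nat_lit 0) (nat_lit 21853643273) (nat_lit 152) (nat_lit 3663213139) (nat_lit 0) (nat_lit 20292084268) (nat_lit 7) (nat_lit 5) (nat_lit 9) (nat_lit 4) (nat_lit 7) (nat_lit 4) (nat_lit 420) (nat_lit 306) (nat_lit 294)) (XT.nd (nat_lit 78) (nat_lit 0)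 (nat_lit 0) (XT.lf (nat_lit 0) (nat_lit 6500802157) (nat_lit 76) (nat_lit 21495953808) (nat_lit 76) (nat_lit 19840960912) (nat_lit 6) (nat_lit 4) (nat_lit 7) (nat_lit 5) (nat_lit 7) (nat_lit 4) (nat_lit 421) (nat_lit 306) (nat_lit 293)) (XT.lf (nat_lit 0) (nat_lit 17040392932) (nat_lit 76) (nat_lit 17337490980) (nat_lit 76) (nat_lit 15593513426) (nat_lit 6) (nat_lit 4) (nat_lit 7) (nat_lit 5) (nat_lit 7) (nat_lit 4) (nat_lit 422) (nat_lit 306) (nat_lit 292))))) (XT.nd (nat_lit 234) (nat_lit 152) (nat_lit 0) (XT.nd (nat_lit 78) (nat_lit 0) (nat_lit 0) (XT.lf (nat_lit 0) (nat_lit 27859531079) (nat_lit 76) (nat_lit 13093605114) (nat_lit 76) (nat_lit 11264880268) (nat_lit 6) (nat_lit 4) (nat_lit 7) (nat_lit 5) (nat_lit 7) (nat_lit 4) (nat_lit 423) (nat_lit 306) (nat_lit 291)) (XT.nd (nat_lit 78) (nat_lit 0) (nat_lit 0) (XT.lf (nat_lit 0) (nat_lit 38983976450) (nat_lit 76) (nat_lit 8754191721)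 (nat_lit 76) (nat_lit 6844755167) (nat_lit 6) (nat_lit 4) (nat_lit 7) (nat_lit 5) (nat_lit 7) (nat_lit 4) (nat_lit 424) (nat_lit 306) (nat_lit 290)) (XT.lf (nat_lit 0) (nat_lit 50440215821) (nat_lit 76) (nat_lit 4308918863) (nat_lit 76) (nat_lit 2322614017) (nat_lit 6) (nat_lit 4) (nat_lit 7) (nat_lit 5) (nat_lit 7) (nat_lit 4) (nat_lit 425) (nat_lit 306) (nat_lit 289)))) (XT.nd (nat_lit 156) (nat_lit 0) (nat_lit 0) (XT.nd (nat_lit 78) (nat_lit 0) (nat_lit 0) (XT.lf (nat_lit 0) (nat_lit 2284299640) (nat_lit 152) (nat_lit 57079154779) (nat_lit 0) (nat_lit 322858931) (nat_lit 4) (nat_lit 5) (nat_lit 6) (nat_lit 4) (nat_lit 4) (nat_lit 4) (nat_lit 426) (nat_lit 306) (nat_lit 288)) (XT.lf (nat_lit 0) (nat_lit 7118823073) (nat_lit 152) (nat_lit 50216139071) (nat_lit 0) (nat_lit 5090980643) (nat_lit 4) (nat_lit 5) (nat_lit 6) (nat_lit 4) (nat_lit 4) (nat_lit 4) (nat_lit 427) (nat_lit 306) (nat_lit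 287))) (XT.nd (nat_lit 78) (nat_lit 0) (nat_lit 0) (XT.lf (nat_lit 0) (nat_lit 12090817253) (nat_lit 152) (nat_lit 43217220123) (nat_lit 0) (nat_lit 9999735088) (nat_lit 4) (nat_lit 5) (nat_lit 6) (nat_lit 4) (nat_lit 4) (nat_lit 4) (nat_lit 428) (nat_lit 306) (nat_lit 286)) (XT.lf (nat_lit 0) (nat_lit 17212120259) (nat_lit 152) (nat_lit 36065733842) (nat_lit 0) (nat_lit 15060809776) (nat_lit 4) (nat_lit 5) (nat_lit 6) (nat_lit 4) (nat_lit 4) (nat_lit 4) (nat_lit 429) (nat_lit 306) (nat_lit 285))))))) (XT.nd (nat_lit 1014) (nat_lit 152) (nat_lit 0) (XT.nd (nat_lit 468) (nat_lit 0) (nat_lit 0) (XT.nd (nat_lit 234) (nat_lit 76) (nat_lit 0) (XT.nd (nat_lit 78) (nat_lit 0) (nat_lit 0) (XT.lf (nat_lit 0) (nat_lit 22494925672) (nat_lit 152) (nat_lit 28744652881) (nat_lit 0) (nat_lit 20286254885) (nat_lit 4) (nat_lit 5) (nat_lit 6) (nat_lit 4) (nat_lit 4) (nat_lit 4) (nat_lit 430) (nat_lit 306)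 (nat_lit 284)) (XT.nd (nat_lit 78) (nat_lit 0) (nat_lit 0) (XT.lf (nat_lit 0) (nat_lit 27951811599) (nat_lit 152) (nat_lit 21236546093) (nat_lit 0) (nat_lit 25688511951) (nat_lit 4) (nat_lit 5) (nat_lit 6) (nat_lit 4) (nat_lit 4) (nat_lit 4) (nat_lit 431) (nat_lit 306) (nat_lit 283)) (XT.lf (nat_lit 0) (nat_lit 33595770626) (nat_lit 152) (nat_lit 13523537035) (nat_lit 0) (nat_lit 31280443491) (nat_lit 4) (nat_lit 5) (nat_lit 6) (nat_lit 4) (nat_lit 4) (nat_lit 4) (nat_lit 432) (nat_lit 306) (nat_lit 282)))) (XT.nd (nat_lit 78) (nat_lit 76) (nat_lit 0) (XT.lf (nat_lit 0) (nat_lit 39440240749) (nat_lit 152) (nat_lit 5587261398) (nat_lit 0) (nat_lit 37075363629) (nat_lit 4) (nat_lit 5) (nat_lit 6) (nat_lit 4) (nat_lit 4) (nat_lit 4) (nat_lit 433) (nat_lit 306) (nat_lit 281)) (XT.nd (nat_lit 78) (nat_lit 0) (nat_lit 0) (XT.lf (nat_lit 0) (nat_lit 2676852714) (nat_lit 76) (nat_lit 42864077834)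 (nat_lit 76) (nat_lit 40452010249) (nat_lit 3) (nat_lit 4) (nat_lit 4) (nat_lit 5) (nat_lit 4) (nat_lit 4) (nat_lit 434) (nat_lit 306) (nat_lit 280)) (XT.lf (nat_lit 0) (nat_lit 11395992699) (nat_lit 76) (nat_lit 40568817132) (nat_lit 76) (nat_lit 38111806249) (nat_lit 3) (nat_lit 4) (nat_lit 4) (nat_lit 5) (nat_lit 4) (nat_lit 4) (nat_lit 435) (nat_lit 306) (nat_lit 279))))) (XT.nd (nat_lit 234) (nat_lit 0) (nat_lit 0) (XT.nd (nat_lit 78) (nat_lit 0) (nat_lit 0) (XT.lf (nat_lit 0) (nat_lit 20406178318) (nat_lit 76) (nat_lit 38230878113) (nat_lit 76) (nat_lit 35731064088) (nat_lit 3) (nat_lit 4) (nat_lit 4) (nat_lit 5) (nat_lit 4) (nat_lit 4) (nat_lit 436) (nat_lit 306) (nat_lit 278)) (XT.nd (nat_lit 78) (nat_lit 0) (nat_lit 0) (XT.lf (nat_lit 0) (nat_lit 29728862395) (nat_lit 76) (nat_lit 35844694254) (nat_lit 76) (nat_lit 33304115332) (nat_lit 3) (nat_lit 4) (nat_lit 4) (nat_lit 5) (nat_lit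 4) (nat_lit 4) (nat_lit 437) (nat_lit 306) (nat_lit 277)) (XT.lf (nat_lit 0) (nat_lit 39386241795) (nat_lit 76) (nat_lit 33404584165) (nat_lit 76) (nat_lit 30825181531) (nat_lit 3) (nat_lit 4) (nat_lit 4) (nat_lit 5) (nat_lit 4) (nat_lit 4) (nat_lit 438) (nat_lit 306) (nat_lit 276)))) (XT.nd (nat_lit 156) (nat_lit 0) (nat_lit 0) (XT.nd (nat_lit 78) (nat_lit 0) (nat_lit 0) (XT.lf (nat_lit 0) (nat_lit 49401310279) (nat_lit 76) (nat_lit 30904738060) (nat_lit 76) (nat_lit 28288360463) (nat_lit 3) (nat_lit 4) (nat_lit 4) (nat_lit 5) (nat_lit 4) (nat_lit 4) (nat_lit 439) (nat_lit 306) (nat_lit 275)) (XT.lf (nat_lit 0) (nat_lit 59797913249) (nat_lit 76) (nat_lit 28339203925) (nat_lit 76) (nat_lit 25687612078) (nat_lit 3) (nat_lit 4) (nat_lit 4) (nat_lit 5) (nat_lit 4) (nat_lit 4) (nat_lit 440) (nat_lit 306) (nat_lit 274))) (XT.nd (nat_lit 78) (nat_lit 0) (nat_lit 0) (XT.lf (nat_lit 0) (nat_lit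 70600804521) (nat_lit 76) (nat_lit 25701873345) (nat_lit 76) (nat_lit 23016744116) (nat_lit 3) (nat_lit 4) (nat_lit 4) (nat_lit 5) (nat_lit 4) (nat_lit 4) (nat_lit 441) (nat_lit 306) (nat_lit 273)) (XT.lf (nat_lit 0) (nat_lit 81835705265) (nat_lit 76) (nat_lit 22986466961) (nat_lit 76) (nat_lit 20269397369) (nat_lit 3) (nat_lit 4) (nat_lit 4) (nat_lit 5) (nat_lit 4) (nat_lit 4) (nat_lit 442) (nat_lit 306) (nat_lit 272)))))) (XT.nd (nat_lit 468) (nat_lit 152) (nat_lit 0) (XT.nd (nat_lit 234) (nat_lit 0) (nat_lit 0) (XT.nd (nat_lit 78) (nat_lit 0) (nat_lit 0) (XT.lf (nat_lit 0) (nat_lit 93529365244) (nat_lit 76) (nat_lit 20186519521) (nat_lit 76) (nat_lit 17439030535) (nat_lit 3) (nat_lit 4) (nat_lit 4) (nat_lit 5) (nat_lit 4) (nat_lit 4) (nat_lit 443) (nat_lit 306) (nat_lit 271)) (XT.nd (nat_lit 78) (nat_lit 0) (nat_lit 0) (XT.lf (nat_lit 0) (nat_lit 105709626506) (nat_lit 76) (nat_lit 17295364482)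 (nat_lit 76) (nat_lit 14518904646) (nat_lit 3) (nat_lit 4) (nat_lit 4) (nat_lit 5) (nat_lit 4) (nat_lit 4) (nat_lit 444) (nat_lit 306) (nat_lit 270)) (XT.lf (nat_lit 0) (nat_lit 118405489674) (nat_lit 76) (nat_lit 14306118143) (nat_lit 76) (nat_lit 11502067020) (nat_lit 3) (nat_lit 4) (nat_lit 4) (nat_lit 5) (nat_lit 4) (nat_lit 4) (nat_lit 445) (nat_lit 306) (nat_lit 269)))) (XT.nd (nat_lit 78) (nat_lit 0) (nat_lit 0) (XT.lf (nat_lit 0) (nat_lit 131647182992) (nat_lit 76) (nat_lit 11211663250) (nat_lit 76) (nat_lit 8381334711) (nat_lit 3) (nat_lit 4) (nat_lit 4) (nat_lit 5) (nat_lit 4) (nat_lit 4) (nat_lit 446) (nat_lit 306) (nat_lit 268)) (XT.nd (nat_lit 78) (nat_lit 0) (nat_lit 0) (XT.lf (nat_lit 0) (nat_lit 145466234302) (nat_lit 76) (nat_lit 8004632053) (nat_lit 76) (nat_lit 5149277403) (nat_lit 3) (nat_lit 4) (nat_lit 4) (nat_lit 5) (nat_lit 4) (nat_lit 4) (nat_lit 447) (nat_lit 306)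 (nat_lit 267)) (XT.lf (nat_lit 0) (nat_lit 159895546107) (nat_lit 76) (nat_lit 4677388764) (nat_lit 76) (nat_lit 1798199723) (nat_lit 3) (nat_lit 4) (nat_lit 4) (nat_lit 5) (nat_lit 4) (nat_lit 4) (nat_lit 448) (nat_lit 306) (nat_lit 266))))) (XT.nd (nat_lit 234) (nat_lit 0) (nat_lit 0) (XT.nd (nat_lit 78) (nat_lit 0) (nat_lit 0) (XT.lf (nat_lit 0) (nat_lit 445910026) (nat_lit 76) (nat_lit 1187162406) (nat_lit 152) (nat_lit 172876876295) (nat_lit 1) (nat_lit 5) (nat_lit 2) (nat_lit 5) (nat_lit 3) (nat_lit 4) (nat_lit 449) (nat_lit 306) (nat_lit 265)) (XT.nd (nat_lit 78) (nat_lit 0) (nat_lit 0) (XT.lf (nat_lit 0) (nat_lit 5286438008) (nat_lit 152) (nat_lit 175260099849) (nat_lit 0) (nat_lit 2502145669) (nat_lit 1) (nat_lit 5) (nat_lit 3) (nat_lit 4) (nat_lit 1) (nat_lit 4) (nat_lit 450) (nat_lit 306) (nat_lit 264)) (XT.lf (nat_lit 0) (nat_lit 9104613707) (nat_lit 152) (nat_lit 176609923372)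 (nat_lit 0) (nat_lit 6300712755) (nat_lit 1) (nat_lit 5) (nat_lit 3) (nat_lit 4) (nat_lit 1) (nat_lit 4) (nat_lit 451) (nat_lit 306) (nat_lit 263)))) (XT.nd (nat_lit 156) (nat_lit 0) (nat_lit 0) (XT.nd (nat_lit 78) (nat_lit 0) (nat_lit 0) (XT.lf (nat_lit 0) (nat_lit 13078155490) (nat_lit 152) (nat_lit 178098188203) (nat_lit 0) (nat_lit 10255579670) (nat_lit 1) (nat_lit 5) (nat_lit 3) (nat_lit 4) (nat_lit 1) (nat_lit 4) (nat_lit 452) (nat_lit 306) (nat_lit 262)) (XT.lf (nat_lit 0) (nat_lit 17216524172) (nat_lit 152) (nat_lit 179728437830) (nat_lit 0) (nat_lit 14376162762) (nat_lit 1) (nat_lit 5) (nat_lit 3) (nat_lit 4) (nat_lit 1) (nat_lit 4) (nat_lit 453) (nat_lit 306) (nat_lit 261))) (XT.nd (nat_lit 78) (nat_lit 0) (nat_lit 0) (XT.lf (nat_lit 0) (nat_lit 21529573011) (nat_lit 152) (nat_lit 181504553799) (nat_lit 0) (nat_lit 18672272944) (nat_lit 1) (nat_lit 5) (nat_lit 3) (nat_lit 4) (nat_lit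 1) (nat_lit 4) (nat_lit 454) (nat_lit 306) (nat_lit 260)) (XT.lf (nat_lit 0) (nat_lit 26027571171) (nat_lit 152) (nat_lit 183430764958) (nat_lit 0) (nat_lit 23154139050) (nat_lit 1) (nat_lit 5) (nat_lit 3) (nat_lit 4) (nat_lit 1) (nat_lit 4) (nat_lit 455) (nat_lit 306) (nat_lit 259))))))))
noncomputable def xc27 : XT := (XT.nd (nat_lit 49218) (nat_lit 0) (nat_lit 228) (XT.nd (nat_lit 936) (nat_lit 0) (nat_lit 0) (XT.nd (nat_lit 468) (nat_lit 0) (nat_lit 0) (XT.nd (nat_lit 234) (nat_lit 0) (nat_lit 0) (XT.nd (nat_lit 78) (nat_lit 0) (nat_lit 0) (XT.lf (nat_lit 0) (nat_lit 30721228171) (nat_lit 152) (nat_lit 185511657525) (nat_lit 0) (nat_lit 27832432190) (nat_lit 1) (nat_lit 5) (nat_lit 3) (nat_lit 4) (nat_lit 1) (nat_lit 4) (nat_lit 456) (nat_lit 306) (nat_lit 258)) (XT.nd (nat_lit 78) (nat_lit 0) (nat_lit 0) (XT.lf (nat_lit 0) (nat_lit 35621719386) (nat_lit 152) (nat_lit 187752186004) (nat_lit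 0) (nat_lit 32718291157) (nat_lit 1) (nat_lit 5) (nat_lit 3) (nat_lit 4) (nat_lit 1) (nat_lit 4) (nat_lit 457) (nat_lit 306) (nat_lit 257)) (XT.lf (nat_lit 0) (nat_lit 40740712652) (nat_lit 152) (nat_lit 190157684989) (nat_lit 0) (nat_lit 37823348947) (nat_lit 1) (nat_lit 5) (nat_lit 3) (nat_lit 4) (nat_lit 1) (nat_lit 4) (nat_lit 458) (nat_lit 306) (nat_lit 256)))) (XT.nd (nat_lit 78) (nat_lit 0) (nat_lit 0) (XT.lf (nat_lit 0) (nat_lit 46090396047) (nat_lit 152) (nat_lit 192733881857) (nat_lit 0) (nat_lit 43159760462) (nat_lit 1) (nat_lit 5) (nat_lit 3) (nat_lit 4) (nat_lit 1) (nat_lit 4) (nat_lit 459) (nat_lit 306) (nat_lit 255)) (XT.nd (nat_lit 78) (nat_lit 0) (nat_lit 0) (XT.lf (nat_lit 0) (nat_lit 51683506914) (nat_lit 152) (nat_lit 195486910410) (nat_lit 0) (nat_lit 48740231442) (nat_lit 1) (nat_lit 5) (nat_lit 3) (nat_lit 4) (nat_lit 1) (nat_lit 4) (nat_lit 460) (nat_lit 306) (nat_lit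 254)) (XT.lf (nat_lit 0) (nat_lit 57533362182) (nat_lit 152) (nat_lit 198423325479) (nat_lit 0) (nat_lit 54578048724) (nat_lit 1) (nat_lit 5) (nat_lit 3) (nat_lit 4) (nat_lit 1) (nat_lit 4) (nat_lit 461) (nat_lit 306) (nat_lit 253))))) (XT.nd (nat_lit 234) (nat_lit 0) (nat_lit 0) (XT.nd (nat_lit 78) (nat_lit 0) (nat_lit 0) (XT.lf (nat_lit 0) (nat_lit 63653890079) (nat_lit 152) (nat_lit 201550118527) (nat_lit 0) (nat_lit 60687111871) (nat_lit 1) (nat_lit 5) (nat_lit 3) (nat_lit 4) (nat_lit 1) (nat_lit 4) (nat_lit 462) (nat_lit 306) (nat_lit 252)) (XT.nd (nat_lit 78) (nat_lit 0) (nat_lit 0) (XT.lf (nat_lit 0) (nat_lit 70059663291) (nat_lit 152) (nat_lit 204874734301) (nat_lit 0) (nat_lit 67081966274) (nat_lit 1) (nat_lit 5) (nat_lit 3) (nat_lit 4) (nat_lit 1) (nat_lit 4) (nat_lit 463) (nat_lit 306) (nat_lit 251)) (XT.lf (nat_lit 0) (nat_lit 76765933657) (nat_lit 152) (nat_lit 208405088551)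 (nat_lit 0) (nat_lit 73777837774) (nat_lit 1) (nat_lit 5) (nat_lit 3) (nat_lit 4) (nat_lit 1) (nat_lit 4) (nat_lit 464) (nat_lit 306) (nat_lit 250)))) (XT.nd (nat_lit 78) (nat_lit 0) (nat_lit 0) (XT.lf (nat_lit 0) (nat_lit 83788668489) (nat_lit 152) (nat_lit 212149586884) (nat_lit 0) (nat_lit 80790668924) (nat_lit 1) (nat_lit 5) (nat_lit 3) (nat_lit 4) (nat_lit 1) (nat_lit 4) (nat_lit 465) (nat_lit 306) (nat_lit 249)) (XT.nd (nat_lit 78) (nat_lit 0) (nat_lit 0) (XT.lf (nat_lit 0) (nat_lit 91144588584) (nat_lit 152) (nat_lit 216117144772) (nat_lit 0) (nat_lit 88137156941) (nat_lit 1) (nat_lit 5) (nat_lit 3) (nat_lit 4) (nat_lit 1) (nat_lit 4) (nat_lit 466) (nat_lit 306) (nat_lit 248)) (XT.lf (nat_lit 0) (nat_lit 98851208037) (nat_lit 152) (nat_lit 220317208780) (nat_lit 0) (nat_lit 95834793463) (nat_lit 1) (nat_lit 5) (nat_lit 3) (nat_lit 4) (nat_lit 1) (nat_lit 4) (nat_lit 467) (nat_lit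 306) (nat_lit 247)))))) (XT.nd (nat_lit 468) (nat_lit 0) (nat_lit 0) (XT.nd (nat_lit 234) (nat_lit 0) (nat_lit 0) (XT.nd (nat_lit 78) (nat_lit 0) (nat_lit 0) (XT.lf (nat_lit 0) (nat_lit 106926875942) (nat_lit 152) (nat_lit 224759779062) (nat_lit 0) (nat_lit 103901906195) (nat_lit 1) (nat_lit 5) (nat_lit 3) (nat_lit 4) (nat_lit 1) (nat_lit 4) (nat_lit 468) (nat_lit 306) (nat_lit 246)) (XT.nd (nat_lit 78) (nat_lit 0) (nat_lit 0) (XT.lf (nat_lit 0) (nat_lit 115390820080) (nat_lit 152) (nat_lit 229455433165) (nat_lit 0) (nat_lit 112357702550) (nat_lit 1) (nat_lit 5) (nat_lit 3) (nat_lit 4) (nat_lit 1) (nat_lit 4) (nat_lit 469) (nat_lit 306) (nat_lit 245)) (XT.lf (nat_lit 0) (nat_lit 124263192699) (nat_lit 152) (nat_lit 234415351219) (nat_lit 0) (nat_lit 121222315375) (nat_lit 1) (nat_lit 5) (nat_lit 3) (nat_lit 4) (nat_lit 1) (nat_lit 4) (nat_lit 470) (nat_lit 306) (nat_lit 244)))) (XT.nd (nat_lit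 78) (nat_lit 0) (nat_lit 0) (XT.lf (nat_lit 0) (nat_lit 133565118495) (nat_lit 152) (nat_lit 239651342552) (nat_lit 0) (nat_lit 130516850892) (nat_lit 1) (nat_lit 5) (nat_lit 3) (nat_lit 4) (nat_lit 1) (nat_lit 4) (nat_lit 471) (nat_lit 306) (nat_lit 243)) (XT.nd (nat_lit 78) (nat_lit 0) (nat_lit 0) (XT.lf (nat_lit 0) (nat_lit 143318744911) (nat_lit 152) (nat_lit 245175873811) (nat_lit 0) (nat_lit 140263438946) (nat_lit 1) (nat_lit 5) (nat_lit 3) (nat_lit 4) (nat_lit 1) (nat_lit 4) (nat_lit 472) (nat_lit 306) (nat_lit 242)) (XT.lf (nat_lit 0) (nat_lit 153547294867) (nat_lit 152) (nat_lit 251002098640) (nat_lit 0) (nat_lit 150485285701) (nat_lit 1) (nat_lit 5) (nat_lit 3) (nat_lit 4) (nat_lit 1) (nat_lit 4) (nat_lit 473) (nat_lit 306) (nat_lit 241))))) (XT.nd (nat_lit 234) (nat_lit 0) (nat_lit 0) (XT.nd (nat_lit 78) (nat_lit 0) (nat_lit 0) (XT.lf (nat_lit 0) (nat_lit 164275122054) (nat_lit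 152) (nat_lit 257143889004) (nat_lit 0) (nat_lit 161206728886) (nat_lit 1) (nat_lit 5) (nat_lit 3) (nat_lit 4) (nat_lit 1) (nat_lit 4) (nat_lit 474) (nat_lit 306) (nat_lit 240)) (XT.nd (nat_lit 78) (nat_lit 0) (nat_lit 0) (XT.lf (nat_lit 0) (nat_lit 175527768916) (nat_lit 152) (nat_lit 263615868214) (nat_lit 0) (nat_lit 172453295747) (nat_lit 1) (nat_lit 5) (nat_lit 3) (nat_lit 4) (nat_lit 1) (nat_lit 4) (nat_lit 475) (nat_lit 306) (nat_lit 239)) (XT.lf (nat_lit 0) (nat_lit 187332027471) (nat_lit 152) (nat_lit 270433445743) (nat_lit 0) (nat_lit 184251763824) (nat_lit 1) (nat_lit 5) (nat_lit 3) (nat_lit 4) (nat_lit 1) (nat_lit 4) (nat_lit 476) (nat_lit 306) (nat_lit 238)))) (XT.nd (nat_lit 156) (nat_lit 0) (nat_lit 0) (XT.nd (nat_lit 78) (nat_lit 0) (nat_lit 0) (XT.lf (nat_lit 0) (nat_lit 199716003096) (nat_lit 152) (nat_lit 277612853919) (nat_lit 0) (nat_lit 196630224708) (nat_lit 1) (nat_lit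 5) (nat_lit 3) (nat_lit 4) (nat_lit 1) (nat_lit 4) (nat_lit 477) (nat_lit 306) (nat_lit 237)) (XT.lf (nat_lit 0) (nat_lit 212709181446) (nat_lit 152) (nat_lit 285171186572) (nat_lit 0) (nat_lit 209618150925) (nat_lit 1) (nat_lit 5) (nat_lit 3) (nat_lit 4) (nat_lit 1) (nat_lit 4) (nat_lit 478) (nat_lit 306) (nat_lit 236))) (XT.nd (nat_lit 78) (nat_lit 0) (nat_lit 0) (XT.lf (nat_lit 0) (nat_lit 226342498662) (nat_lit 152) (nat_lit 293126439730) (nat_lit 0) (nat_lit 223246466108) (nat_lit 1) (nat_lit 5) (nat_lit 3) (nat_lit 4) (nat_lit 1) (nat_lit 4) (nat_lit 479) (nat_lit 306) (nat_lit 235)) (XT.lf (nat_lit 0) (nat_lit 240648415022) (nat_lit 152) (nat_lit 301497554474) (nat_lit 0) (nat_lit 237547618628) (nat_lit 1) (nat_lit 5) (nat_lit 3) (nat_lit 4) (nat_lit 1) (nat_lit 4) (nat_lit 480) (nat_lit 306) (nat_lit 234))))))) (XT.nd (nat_lit 1014) (nat_lit 228) (nat_lit 0) (XT.nd (nat_lit 468)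 (nat_lit 228) (nat_lit 0) (XT.nd (nat_lit 234) (nat_lit 152) (nat_lit 0) (XT.nd (nat_lit 78) (nat_lit 76) (nat_lit 0) (XT.lf (nat_lit 0) (nat_lit 1705439521) (nat_lit 152) (nat_lit 9617423006) (nat_lit 0) (nat_lit 1705439521) (nat_lit 13) (nat_lit 5) (nat_lit 15) (nat_lit 4) (nat_lit 13) (nat_lit 4) (nat_lit 406) (nat_lit 307) (nat_lit 307)) (XT.nd (nat_lit 78) (nat_lit 76) (nat_lit 0) (XT.lf (nat_lit 0) (nat_lit 9689173659) (nat_lit 152) (nat_lit 7859187101) (nat_lit 0) (nat_lit 9494931311) (nat_lit 13) (nat_lit 5) (nat_lit 15) (nat_lit 4) (nat_lit 13) (nat_lit 4) (nat_lit 407) (nat_lit 307) (nat_lit 306)) (XT.lf (nat_lit 0) (nat_lit 3818981045) (nat_lit 76) (nat_lit 12323271265) (nat_lit 76) (nat_lit 11944036206) (nat_lit 12) (nat_lit 4) (nat_lit 13) (nat_lit 5) (nat_lit 13) (nat_lit 4) (nat_lit 408) (nat_lit 307) (nat_lit 305)))) (XT.nd (nat_lit 78) (nat_lit 152) (nat_lit 0) (XT.lf (nat_lit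 0) (nat_lit 15971672085) (nat_lit 76) (nat_lit 6884152995) (nat_lit 76) (nat_lit 6328734401) (nat_lit 12) (nat_lit 4) (nat_lit 13) (nat_lit 5) (nat_lit 13) (nat_lit 4) (nat_lit 409) (nat_lit 307) (nat_lit 304)) (XT.nd (nat_lit 78) (nat_lit 152) (nat_lit 0) (XT.lf (nat_lit 0) (nat_lit 28367960776) (nat_lit 76) (nat_lit 1351154804) (nat_lit 76) (nat_lit 627942366) (nat_lit 12) (nat_lit 4) (nat_lit 13) (nat_lit 5) (nat_lit 13) (nat_lit 4) (nat_lit 410) (nat_lit 307) (nat_lit 303)) (XT.lf (nat_lit 0) (nat_lit 5228436643) (nat_lit 152) (nat_lit 21945505942) (nat_lit 0) (nat_lit 4387468932) (nat_lit 10) (nat_lit 5) (nat_lit 12) (nat_lit 4) (nat_lit 10) (nat_lit 4) (nat_lit 411) (nat_lit 307) (nat_lit 302))))) (XT.nd (nat_lit 234) (nat_lit 152) (nat_lit 0) (XT.nd (nat_lit 78) (nat_lit 76) (nat_lit 0) (XT.lf (nat_lit 0) (nat_lit 11233223759) (nat_lit 152) (nat_lit 11361614018) (nat_lit 0) (nat_lit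 10247309417) (nat_lit 10) (nat_lit 5) (nat_lit 12) (nat_lit 4) (nat_lit 10) (nat_lit 4) (nat_lit 412) (nat_lit 307) (nat_lit 301)) (XT.nd (nat_lit 78) (nat_lit 76) (nat_lit 0) (XT.lf (nat_lit 0) (nat_lit 17367274641) (nat_lit 152) (nat_lit 584890994) (nat_lit 0) (nat_lit 16243315889) (nat_lit 10) (nat_lit 5) (nat_lit 12) (nat_lit 4) (nat_lit 10) (nat_lit 4) (nat_lit 413) (nat_lit 307) (nat_lit 300)) (XT.lf (nat_lit 0) (nat_lit 10754534255) (nat_lit 76) (nat_lit 13058568336) (nat_lit 76) (nat_lit 11803138717) (nat_lit 9) (nat_lit 4) (nat_lit 10) (nat_lit 5) (nat_lit 10) (nat_lit 4) (nat_lit 414) (nat_lit 307) (nat_lit 299)))) (XT.nd (nat_lit 156) (nat_lit 152) (nat_lit 0) (XT.nd (nat_lit 78) (nat_lit 0) (nat_lit 0) (XT.lf (nat_lit 0) (nat_lit 22366057549) (nat_lit 76) (nat_lit 8065069068) (nat_lit 76) (nat_lit 6684429101) (nat_lit 9) (nat_lit 4) (nat_lit 10) (nat_lit 5) (nat_lit 10) (nat_lit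 4) (nat_lit 415) (nat_lit 307) (nat_lit 298)) (XT.lf (nat_lit 0) (nat_lit 34257986235) (nat_lit 76) (nat_lit 2969683961) (nat_lit 76) (nat_lit 1469796042) (nat_lit 9) (nat_lit 4) (nat_lit 10) (nat_lit 5) (nat_lit 10) (nat_lit 4) (nat_lit 416) (nat_lit 307) (nat_lit 297))) (XT.nd (nat_lit 78) (nat_lit 0) (nat_lit 0) (XT.lf (nat_lit 0) (nat_lit 3864702362) (nat_lit 152) (nat_lit 34163210153) (nat_lit 0) (nat_lit 2328076270) (nat_lit 7) (nat_lit 5) (nat_lit 9) (nat_lit 4) (nat_lit 7) (nat_lit 4) (nat_lit 417) (nat_lit 307) (nat_lit 296)) (XT.lf (nat_lit 0) (nat_lit 9394471455) (nat_lit 152) (nat_lit 24948039493) (nat_lit 0) (nat_lit 7754834499) (nat_lit 7) (nat_lit 5) (nat_lit 9) (nat_lit 4) (nat_lit 7) (nat_lit 4) (nat_lit 418) (nat_lit 307) (nat_lit 295)))))) (XT.nd (nat_lit 468) (nat_lit 152) (nat_lit 0) (XT.nd (nat_lit 234) (nat_lit 0) (nat_lit 0) (XT.nd (nat_lit 78) (nat_lit 76) (nat_lit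 0) (XT.lf (nat_lit 0) (nat_lit 15060576555) (nat_lit 152) (nat_lit 15549376297) (nat_lit 0) (nat_lit 13322834015) (nat_lit 7) (nat_lit 5) (nat_lit 9) (nat_lit 4) (nat_lit 7) (nat_lit 4) (nat_lit 419) (nat_lit 307) (nat_lit 294)) (XT.nd (nat_lit 78) (nat_lit 76) (nat_lit 0) (XT.lf (nat_lit 0) (nat_lit 20876508389) (nat_lit 152) (nat_lit 5944842795) (nat_lit 0) (nat_lit 19045331958) (nat_lit 7) (nat_lit 5) (nat_lit 9) (nat_lit 4) (nat_lit 7) (nat_lit 4) (nat_lit 420) (nat_lit 307) (nat_lit 293)) (XT.lf (nat_lit 0) (nat_lit 4016997972) (nat_lit 76) (nat_lit 22901833037) (nat_lit 76) (nat_lit 20981671949) (nat_lit 6) (nat_lit 4) (nat_lit 7) (nat_lit 5) (nat_lit 7) (nat_lit 4) (nat_lit 421) (nat_lit 307) (nat_lit 292)))) (XT.nd (nat_lit 78) (nat_lit 0) (nat_lit 0) (XT.lf (nat_lit 0) (nat_lit 14435890129) (nat_lit 76) (nat_lit 18803126358) (nat_lit 76) (nat_lit 16798217976) (nat_lit 6) (nat_lit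 4) (nat_lit 7) (nat_lit 5) (nat_lit 7) (nat_lit 4) (nat_lit 422) (nat_lit 307) (nat_lit 291)) (XT.nd (nat_lit 78) (nat_lit 0) (nat_lit 0) (XT.lf (nat_lit 0) (nat_lit 25140077211) (nat_lit 76) (nat_lit 14616151109) (nat_lit 76) (nat_lit 12530531021) (nat_lit 6) (nat_lit 4) (nat_lit 7) (nat_lit 5) (nat_lit 7) (nat_lit 4) (nat_lit 423) (nat_lit 307) (nat_lit 290)) (XT.lf (nat_lit 0) (nat_lit 36155045378) (nat_lit 76) (nat_lit 10330938304) (nat_lit 76) (nat_lit 8168449922) (nat_lit 6) (nat_lit 4) (nat_lit 7) (nat_lit 5) (nat_lit 7) (nat_lit 4) (nat_lit 424) (nat_lit 307) (nat_lit 289))))) (XT.nd (nat_lit 234) (nat_lit 0) (nat_lit 0) (XT.nd (nat_lit 78) (nat_lit 152) (nat_lit 0) (XT.lf (nat_lit 0) (nat_lit 47507020745) (nat_lit 76) (nat_lit 5937285054) (nat_lit 76) (nat_lit 3701588774) (nat_lit 6) (nat_lit 4) (nat_lit 7) (nat_lit 5) (nat_lit 7) (nat_lit 4) (nat_lit 425) (nat_lit 307) (nat_lit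 288)) (XT.nd (nat_lit 78) (nat_lit 76) (nat_lit 0) (XT.lf (nat_lit 0) (nat_lit 852500297) (nat_lit 152) (nat_lit 557792477) (nat_lit 76) (nat_lit 58356094021) (nat_lit 5) (nat_lit 5) (nat_lit 7) (nat_lit 5) (nat_lit 6) (nat_lit 4) (nat_lit 426) (nat_lit 307) (nat_lit 287)) (XT.lf (nat_lit 0) (nat_lit 5605004663) (nat_lit 152) (nat_lit 53558986791) (nat_lit 0) (nat_lit 3346128656) (nat_lit 4) (nat_lit 5) (nat_lit 6) (nat_lit 4) (nat_lit 4) (nat_lit 4) (nat_lit 427) (nat_lit 307) (nat_lit 286)))) (XT.nd (nat_lit 156) (nat_lit 0) (nat_lit 0) (XT.nd (nat_lit 78) (nat_lit 0) (nat_lit 0) (XT.lf (nat_lit 0) (nat_lit 10528564266) (nat_lit 152) (nat_lit 46656350094) (nat_lit 0) (nat_lit 8209459940) (nat_lit 4) (nat_lit 5) (nat_lit 6) (nat_lit 4) (nat_lit 4) (nat_lit 4) (nat_lit 428) (nat_lit 307) (nat_lit 285)) (XT.lf (nat_lit 0) (nat_lit 15603739105) (nat_lit 152) (nat_lit 39596561195) (nat_lit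 0) (nat_lit 13227274475) (nat_lit 4) (nat_lit 5) (nat_lit 6) (nat_lit 4) (nat_lit 4) (nat_lit 4) (nat_lit 429) (nat_lit 307) (nat_lit 284))) (XT.nd (nat_lit 78) (nat_lit 0) (nat_lit 0) (XT.lf (nat_lit 0) (nat_lit 20842612929) (nat_lit 152) (nat_lit 32362811074) (nat_lit 0) (nat_lit 18411519439) (nat_lit 4) (nat_lit 5) (nat_lit 6) (nat_lit 4) (nat_lit 4) (nat_lit 4) (nat_lit 430) (nat_lit 307) (nat_lit 283)) (XT.lf (nat_lit 0) (nat_lit 26257659248) (nat_lit 152) (nat_lit 24937876515) (nat_lit 0) (nat_lit 23774538271) (nat_lit 4) (nat_lit 5) (nat_lit 6) (nat_lit 4) (nat_lit 4) (nat_lit 4) (nat_lit 431) (nat_lit 307) (nat_lit 282))))))))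
noncomputable def xc28 : XT := (XT.nd (nat_lit 1950) (nat_lit 0) (nat_lit 0) (XT.nd (nat_lit 936) (nat_lit 152) (nat_lit 0) (XT.nd (nat_lit 468) (nat_lit 0) (nat_lit 0) (XT.nd (nat_lit 234) (nat_lit 76) (nat_lit 0) (XT.nd (nat_lit 78) (nat_lit 0) (nat_lit 0) (XT.lf (nat_lit 0) (nat_lit 31861771029) (nat_lit 152) (nat_lit 17304079102) (nat_lit 0) (nat_lit 29329100065) (nat_lit 4) (nat_lit 5) (nat_lit 6) (nat_lit 4) (nat_lit 4) (nat_lit 4) (nat_lit 432) (nat_lit 307) (nat_lit 281)) (XT.nd (nat_lit 78) (nat_lit 0) (nat_lit 0) (XT.lf (nat_lit 0) (nat_lit 37668291395) (nat_lit 152) (nat_lit 9443243129) (nat_lit 0) (nat_lit 35088429967) (nat_lit 4) (nat_lit 5) (nat_lit 6) (nat_lit 4) (nat_lit 4) (nat_lit 4) (nat_lit 433) (nat_lit 307) (nat_lit 280)) (XT.lf (nat_lit 0) (nat_lit 43691045395) (nat_lit 152) (nat_lit 1336652318) (nat_lit 0) (nat_lit 41066240668) (nat_lit 4) (nat_lit 5) (nat_lit 6)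 (nat_lit 4) (nat_lit 4) (nat_lit 4) (nat_lit 434) (nat_lit 307) (nat_lit 279)))) (XT.nd (nat_lit 78) (nat_lit 0) (nat_lit 0) (XT.lf (nat_lit 0) (nat_lit 7267603433) (nat_lit 76) (nat_lit 42790237142) (nat_lit 76) (nat_lit 40122629274) (nat_lit 3) (nat_lit 4) (nat_lit 4) (nat_lit 5) (nat_lit 4) (nat_lit 4) (nat_lit 435) (nat_lit 307) (nat_lit 278)) (XT.nd (nat_lit 78) (nat_lit 0) (nat_lit 0) (XT.lf (nat_lit 0) (nat_lit 16210466699) (nat_lit 76) (nat_lit 40485786957) (nat_lit 76) (nat_lit 37777414192) (nat_lit 3) (nat_lit 4) (nat_lit 4) (nat_lit 5) (nat_lit 4) (nat_lit 4) (nat_lit 436) (nat_lit 307) (nat_lit 277)) (XT.lf (nat_lit 0) (nat_lit 25469034249) (nat_lit 76) (nat_lit 38131497226) (nat_lit 76) (nat_lit 35384300750) (nat_lit 3) (nat_lit 4) (nat_lit 4) (nat_lit 5) (nat_lit 4) (nat_lit 4) (nat_lit 437) (nat_lit 307) (nat_lit 276))))) (XT.nd (nat_lit 234) (nat_lit 0) (nat_lit 0) (XT.nd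 (nat_lit 78) (nat_lit 0) (nat_lit 0) (XT.lf (nat_lit 0) (nat_lit 35065350290) (nat_lit 76) (nat_lit 35721762498) (nat_lit 76) (nat_lit 32937591058) (nat_lit 3) (nat_lit 4) (nat_lit 4) (nat_lit 5) (nat_lit 4) (nat_lit 4) (nat_lit 438) (nat_lit 307) (nat_lit 275)) (XT.nd (nat_lit 78) (nat_lit 0) (nat_lit 0) (XT.lf (nat_lit 0) (nat_lit 45022263194) (nat_lit 76) (nat_lit 33250845307) (nat_lit 76) (nat_lit 30431459617) (nat_lit 3) (nat_lit 4) (nat_lit 4) (nat_lit 5) (nat_lit 4) (nat_lit 4) (nat_lit 439) (nat_lit 307) (nat_lit 274)) (XT.lf (nat_lit 0) (nat_lit 55363479898) (nat_lit 76) (nat_lit 30712862519) (nat_lit 76) (nat_lit 27859939448) (nat_lit 3) (nat_lit 4) (nat_lit 4) (nat_lit 5) (nat_lit 4) (nat_lit 4) (nat_lit 440) (nat_lit 307) (nat_lit 273)))) (XT.nd (nat_lit 78) (nat_lit 0) (nat_lit 0) (XT.lf (nat_lit 0) (nat_lit 66113622344) (nat_lit 76) (nat_lit 28101771318) (nat_lit 76) (nat_lit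 25216907883) (nat_lit 3) (nat_lit 4) (nat_lit 4) (nat_lit 5) (nat_lit 4) (nat_lit 4) (nat_lit 441) (nat_lit 307) (nat_lit 272)) (XT.nd (nat_lit 78) (nat_lit 0) (nat_lit 0) (XT.lf (nat_lit 0) (nat_lit 77298286112) (nat_lit 76) (nat_lit 25411354818) (nat_lit 76) (nat_lit 22496071990) (nat_lit 3) (nat_lit 4) (nat_lit 4) (nat_lit 5) (nat_lit 4) (nat_lit 4) (nat_lit 442) (nat_lit 307) (nat_lit 271)) (XT.lf (nat_lit 0) (nat_lit 88944101351) (nat_lit 76) (nat_lit 22635207268) (nat_lit 76) (nat_lit 19690953588) (nat_lit 3) (nat_lit 4) (nat_lit 4) (nat_lit 5) (nat_lit 4) (nat_lit 4) (nat_lit 443) (nat_lit 307) (nat_lit 270)))))) (XT.nd (nat_lit 468) (nat_lit 152) (nat_lit 0) (XT.nd (nat_lit 234) (nat_lit 0) (nat_lit 0) (XT.nd (nat_lit 78) (nat_lit 0) (nat_lit 0) (XT.lf (nat_lit 0) (nat_lit 101078796195) (nat_lit 76) (nat_lit 19766718791) (nat_lit 76) (nat_lit 16794873824) (nat_lit 3) (nat_lit 4)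 (nat_lit 4) (nat_lit 5) (nat_lit 4) (nat_lit 4) (nat_lit 444) (nat_lit 307) (nat_lit 269)) (XT.nd (nat_lit 78) (nat_lit 0) (nat_lit 0) (XT.lf (nat_lit 0) (nat_lit 113731262774) (nat_lit 76) (nat_lit 16799059653) (nat_lit 76) (nat_lit 13800937271) (nat_lit 3) (nat_lit 4) (nat_lit 4) (nat_lit 5) (nat_lit 4) (nat_lit 4) (nat_lit 445) (nat_lit 307) (nat_lit 268)) (XT.lf (nat_lit 0) (nat_lit 126931626007) (nat_lit 76) (nat_lit 13725163999) (nat_lit 76) (nat_lit 10702015507) (nat_lit 3) (nat_lit 4) (nat_lit 4) (nat_lit 5) (nat_lit 4) (nat_lit 4) (nat_lit 446) (nat_lit 307) (nat_lit 267)))) (XT.nd (nat_lit 78) (nat_lit 0) (nat_lit 0) (XT.lf (nat_lit 0) (nat_lit 140711315331) (nat_lit 76) (nat_lit 10537713031) (nat_lit 76) (nat_lit 7490730147) (nat_lit 3) (nat_lit 4) (nat_lit 4) (nat_lit 5) (nat_lit 4) (nat_lit 4) (nat_lit 447) (nat_lit 307) (nat_lit 266)) (XT.nd (nat_lit 78) (nat_lit 0) (nat_lit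 0) (XT.lf (nat_lit 0) (nat_lit 155103139531) (nat_lit 76) (nat_lit 7229117578) (nat_lit 76) (nat_lit 4159435274) (nat_lit 3) (nat_lit 4) (nat_lit 4) (nat_lit 5) (nat_lit 4) (nat_lit 4) (nat_lit 448) (nat_lit 307) (nat_lit 265)) (XT.lf (nat_lit 0) (nat_lit 170141364855) (nat_lit 76) (nat_lit 3791500033) (nat_lit 76) (nat_lit 700199234) (nat_lit 3) (nat_lit 4) (nat_lit 4) (nat_lit 5) (nat_lit 4) (nat_lit 4) (nat_lit 449) (nat_lit 307) (nat_lit 264))))) (XT.nd (nat_lit 234) (nat_lit 0) (nat_lit 0) (XT.nd (nat_lit 78) (nat_lit 0) (nat_lit 0) (XT.lf (nat_lit 0) (nat_lit 2720406237) (nat_lit 76) (nat_lit 124616240) (nat_lit 152) (nat_lit 180333851686) (nat_lit 1) (nat_lit 5) (nat_lit 2) (nat_lit 5) (nat_lit 3) (nat_lit 4) (nat_lit 450) (nat_lit 307) (nat_lit 263)) (XT.nd (nat_lit 78) (nat_lit 0) (nat_lit 0) (XT.lf (nat_lit 0) (nat_lit 6643914664) (nat_lit 152) (nat_lit 181840955661) (nat_lit 0)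 (nat_lit 3661535184) (nat_lit 1) (nat_lit 5) (nat_lit 3) (nat_lit 4) (nat_lit 1) (nat_lit 4) (nat_lit 451) (nat_lit 307) (nat_lit 262)) (XT.lf (nat_lit 0) (nat_lit 10600944160) (nat_lit 152) (nat_lit 183362182226) (nat_lit 0) (nat_lit 7600779090) (nat_lit 1) (nat_lit 5) (nat_lit 3) (nat_lit 4) (nat_lit 1) (nat_lit 4) (nat_lit 452) (nat_lit 307) (nat_lit 261)))) (XT.nd (nat_lit 156) (nat_lit 0) (nat_lit 0) (XT.nd (nat_lit 78) (nat_lit 0) (nat_lit 0) (XT.lf (nat_lit 0) (nat_lit 14723586853) (nat_lit 152) (nat_lit 185023823980) (nat_lit 0) (nat_lit 11706483126) (nat_lit 1) (nat_lit 5) (nat_lit 3) (nat_lit 4) (nat_lit 1) (nat_lit 4) (nat_lit 453) (nat_lit 307) (nat_lit 260)) (XT.lf (nat_lit 0) (nat_lit 19021658559) (nat_lit 152) (nat_lit 186829837213) (nat_lit 0) (nat_lit 15988422779) (nat_lit 1) (nat_lit 5) (nat_lit 3) (nat_lit 4) (nat_lit 1) (nat_lit 4) (nat_lit 454) (nat_lit 307) (nat_lit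 259))) (XT.nd (nat_lit 78) (nat_lit 0) (nat_lit 0) (XT.lf (nat_lit 0) (nat_lit 23505392784) (nat_lit 152) (nat_lit 188784521958) (nat_lit 0) (nat_lit 20456793143) (nat_lit 1) (nat_lit 5) (nat_lit 3) (nat_lit 4) (nat_lit 1) (nat_lit 4) (nat_lit 455) (nat_lit 307) (nat_lit 258)) (XT.lf (nat_lit 0) (nat_lit 28185465084) (nat_lit 152) (nat_lit 190892532224) (nat_lit 0) (nat_lit 25122233195) (nat_lit 1) (nat_lit 5) (nat_lit 3) (nat_lit 4) (nat_lit 1) (nat_lit 4) (nat_lit 456) (nat_lit 307) (nat_lit 257))))))) (XT.nd (nat_lit 1014) (nat_lit 0) (nat_lit 0) (XT.nd (nat_lit 468) (nat_lit 0) (nat_lit 0) (XT.nd (nat_lit 234) (nat_lit 0) (nat_lit 0) (XT.nd (nat_lit 78) (nat_lit 0) (nat_lit 0) (XT.lf (nat_lit 0) (nat_lit 33073018489) (nat_lit 152) (nat_lit 193158887084) (nat_lit 0) (nat_lit 29995851125) (nat_lit 1) (nat_lit 5) (nat_lit 3) (nat_lit 4) (nat_lit 1) (nat_lit 4) (nat_lit 457) (nat_lit 307)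 (nat_lit 256)) (XT.nd (nat_lit 78) (nat_lit 0) (nat_lit 0) (XT.lf (nat_lit 0) (nat_lit 38179690031) (nat_lit 152) (nat_lit 195588982622) (nat_lit 0) (nat_lit 35089250786) (nat_lit 1) (nat_lit 5) (nat_lit 3) (nat_lit 4) (nat_lit 1) (nat_lit 4) (nat_lit 458) (nat_lit 307) (nat_lit 255)) (XT.lf (nat_lit 0) (nat_lit 43517638452) (nat_lit 152) (nat_lit 198188604779) (nat_lit 0) (nat_lit 40414559321) (nat_lit 1) (nat_lit 5) (nat_lit 3) (nat_lit 4) (nat_lit 1) (nat_lit 4) (nat_lit 459) (nat_lit 307) (nat_lit 254)))) (XT.nd (nat_lit 78) (nat_lit 0) (nat_lit 0) (XT.lf (nat_lit 0) (nat_lit 49099573152) (nat_lit 152) (nat_lit 200963943131) (nat_lit 0) (nat_lit 45984456034) (nat_lit 1) (nat_lit 5) (nat_lit 3) (nat_lit 4) (nat_lit 1) (nat_lit 4) (nat_lit 460) (nat_lit 307) (nat_lit 253)) (XT.nd (nat_lit 78) (nat_lit 0) (nat_lit 0) (XT.lf (nat_lit 0) (nat_lit 54938784452) (nat_lit 152) (nat_lit 203921605627)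 (nat_lit 0) (nat_lit 51812202584) (nat_lit 1) (nat_lit 5) (nat_lit 3) (nat_lit 4) (nat_lit 1) (nat_lit 4) (nat_lit 461) (nat_lit 307) (nat_lit 252)) (XT.lf (nat_lit 0) (nat_lit 61049175237) (nat_lit 152) (nat_lit 207068634321) (nat_lit 0) (nat_lit 57911674560) (nat_lit 1) (nat_lit 5) (nat_lit 3) (nat_lit 4) (nat_lit 1) (nat_lit 4) (nat_lit 462) (nat_lit 307) (nat_lit 251))))) (XT.nd (nat_lit 234) (nat_lit 0) (nat_lit 0) (XT.nd (nat_lit 78) (nat_lit 0) (nat_lit 0) (XT.lf (nat_lit 0) (nat_lit 67445294055) (nat_lit 152) (nat_lit 210412522138) (nat_lit 0) (nat_lit 64297394512) (nat_lit 1) (nat_lit 5) (nat_lit 3) (nat_lit 4) (nat_lit 1) (nat_lit 4) (nat_lit 463) (nat_lit 307) (nat_lit 250)) (XT.nd (nat_lit 78) (nat_lit 0) (nat_lit 0) (XT.lf (nat_lit 0) (nat_lit 74142369762) (nat_lit 152) (nat_lit 213961230715) (nat_lit 0) (nat_lit 70984566537) (nat_lit 1) (nat_lit 5) (nat_lit 3) (nat_lit 4) (nat_lit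 1) (nat_lit 4) (nat_lit 464) (nat_lit 307) (nat_lit 249)) (XT.lf (nat_lit 0) (nat_lit 81156347775) (nat_lit 152) (nat_lit 217723209359) (nat_lit 0) (nat_lit 77989112472) (nat_lit 1) (nat_lit 5) (nat_lit 3) (nat_lit 4) (nat_lit 1) (nat_lit 4) (nat_lit 465) (nat_lit 307) (nat_lit 248)))) (XT.nd (nat_lit 156) (nat_lit 0) (nat_lit 0) (XT.nd (nat_lit 78) (nat_lit 0) (nat_lit 0) (XT.lf (nat_lit 0) (nat_lit 88503928042) (nat_lit 152) (nat_lit 221707415162) (nat_lit 0) (nat_lit 85327709808) (nat_lit 1) (nat_lit 5) (nat_lit 3) (nat_lit 4) (nat_lit 1) (nat_lit 4) (nat_lit 466) (nat_lit 307) (nat_lit 247)) (XT.lf (nat_lit 0) (nat_lit 96202604802) (nat_lit 152) (nat_lit 225923334328) (nat_lit 0) (nat_lit 93017831396) (nat_lit 1) (nat_lit 5) (nat_lit 3) (nat_lit 4) (nat_lit 1) (nat_lit 4) (nat_lit 467) (nat_lit 307) (nat_lit 246))) (XT.nd (nat_lit 78) (nat_lit 0) (nat_lit 0) (XT.lf (nat_lit 0) (nat_lit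 104270708238) (nat_lit 152) (nat_lit 230381004760) (nat_lit 0) (nat_lit 101077787048) (nat_lit 1) (nat_lit 5) (nat_lit 3) (nat_lit 4) (nat_lit 1) (nat_lit 4) (nat_lit 468) (nat_lit 307) (nat_lit 245)) (XT.lf (nat_lit 0) (nat_lit 112727448119) (nat_lit 152) (nat_lit 235091039958) (nat_lit 0) (nat_lit 109526767135) (nat_lit 1) (nat_lit 5) (nat_lit 3) (nat_lit 4) (nat_lit 1) (nat_lit 4) (nat_lit 469) (nat_lit 307) (nat_lit 244)))))) (XT.nd (nat_lit 468) (nat_lit 0) (nat_lit 0) (XT.nd (nat_lit 234) (nat_lit 0) (nat_lit 0) (XT.nd (nat_lit 78) (nat_lit 0) (nat_lit 0) (XT.lf (nat_lit 0) (nat_lit 121592959541) (nat_lit 152) (nat_lit 240064654294) (nat_lit 0) (nat_lit 118384888278) (nat_lit 1) (nat_lit 5) (nat_lit 3) (nat_lit 4) (nat_lit 1) (nat_lit 4) (nat_lit 470) (nat_lit 307) (nat_lit 243)) (XT.nd (nat_lit 78) (nat_lit 0) (nat_lit 0) (XT.lf (nat_lit 0) (nat_lit 130888350864) (nat_lit 152) (nat_lit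 245313689704) (nat_lit 0) (nat_lit 127673241239) (nat_lit 1) (nat_lit 5) (nat_lit 3) (nat_lit 4) (nat_lit 1) (nat_lit 4) (nat_lit 471) (nat_lit 307) (nat_lit 242)) (XT.lf (nat_lit 0) (nat_lit 140635753973) (nat_lit 152) (nat_lit 250850643893) (nat_lit 0) (nat_lit 137413941146) (nat_lit 1) (nat_lit 5) (nat_lit 3) (nat_lit 4) (nat_lit 1) (nat_lit 4) (nat_lit 472) (nat_lit 307) (nat_lit 241)))) (XT.nd (nat_lit 78) (nat_lit 0) (nat_lit 0) (XT.lf (nat_lit 0) (nat_lit 150858376969) (nat_lit 152) (nat_lit 256688700085) (nat_lit 0) (nat_lit 147630180141) (nat_lit 1) (nat_lit 5) (nat_lit 3) (nat_lit 4) (nat_lit 1) (nat_lit 4) (nat_lit 473) (nat_lit 307) (nat_lit 240)) (XT.nd (nat_lit 78) (nat_lit 0) (nat_lit 0) (XT.lf (nat_lit 0) (nat_lit 161580559432) (nat_lit 152) (nat_lit 262841758414) (nat_lit 0) (nat_lit 158346282602) (nat_lit 1) (nat_lit 5) (nat_lit 3) (nat_lit 4) (nat_lit 1) (nat_lit 4) (nat_lit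 474) (nat_lit 307) (nat_lit 239)) (XT.lf (nat_lit 0) (nat_lit 172827830367) (nat_lit 152) (nat_lit 269324469018) (nat_lit 0) (nat_lit 169587763060) (nat_lit 1) (nat_lit 5) (nat_lit 3) (nat_lit 4) (nat_lit 1) (nat_lit 4) (nat_lit 475) (nat_lit 307) (nat_lit 238))))) (XT.nd (nat_lit 234) (nat_lit 0) (nat_lit 0) (XT.nd (nat_lit 78) (nat_lit 0) (nat_lit 0) (XT.lf (nat_lit 0) (nat_lit 184626968991) (nat_lit 152) (nat_lit 276152266923) (nat_lit 0) (nat_lit 181381386944) (nat_lit 1) (nat_lit 5) (nat_lit 3) (nat_lit 4) (nat_lit 1) (nat_lit 4) (nat_lit 476) (nat_lit 307) (nat_lit 237)) (XT.nd (nat_lit 78) (nat_lit 0) (nat_lit 0) (XT.lf (nat_lit 0) (nat_lit 197006068491) (nat_lit 152) (nat_lit 283341408791) (nat_lit 0) (nat_lit 193755234310) (nat_lit 1) (nat_lit 5) (nat_lit 3) (nat_lit 4) (nat_lit 1) (nat_lit 4) (nat_lit 477) (nat_lit 307) (nat_lit 236)) (XT.lf (nat_lit 0) (nat_lit 209994602914) (nat_lit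 152) (nat_lit 290909011626) (nat_lit 0) (nat_lit 206738766700) (nat_lit 1) (nat_lit 5) (nat_lit 3) (nat_lit 4) (nat_lit 1) (nat_lit 4) (nat_lit 478) (nat_lit 307) (nat_lit 235)))) (XT.nd (nat_lit 47268) (nat_lit 0) (nat_lit 1064) (XT.nd (nat_lit 78) (nat_lit 0) (nat_lit 0) (XT.lf (nat_lit 0) (nat_lit 223623497341) (nat_lit 152) (nat_lit 298873093529) (nat_lit 0) (nat_lit 220362897287) (nat_lit 1) (nat_lit 5) (nat_lit 3) (nat_lit 4) (nat_lit 1) (nat_lit 4) (nat_lit 479) (nat_lit 307) (nat_lit 234)) (XT.lf (nat_lit 0) (nat_lit 237925201522) (nat_lit 152) (nat_lit 307252616601) (nat_lit 0) (nat_lit 234660064477) (nat_lit 1) (nat_lit 5) (nat_lit 3) (nat_lit 4) (nat_lit 1) (nat_lit 4) (nat_lit 480) (nat_lit 307) (nat_lit 233))) (XT.nd (nat_lit 78) (nat_lit 0) (nat_lit 0) (XT.lf (nat_lit 0) (nat_lit 3698725245) (nat_lit 76) (nat_lit 4205527679) (nat_lit 76) (nat_lit 4205527679) (nat_lit 15) (nat_lit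 4) (nat_lit 16) (nat_lit 5) (nat_lit 16) (nat_lit 4) (nat_lit 404) (nat_lit 308) (nat_lit 308)) (XT.lf (nat_lit 0) (nat_lit 19873983622) (nat_lit 76) (nat_lit 2729316174) (nat_lit 76) (nat_lit 2515163986) (nat_lit 15) (nat_lit 4) (nat_lit 16) (nat_lit 5) (nat_lit 16) (nat_lit 4) (nat_lit 405) (nat_lit 308) (nat_lit 307))))))))
noncomputable def xc29 : XT := (XT.nd (nat_lit 1950) (nat_lit 228) (nat_lit 0) (XT.nd (nat_lit 936) (nat_lit 228) (nat_lit 0) (XT.nd (nat_lit 468) (nat_lit 228) (nat_lit 0) (XT.nd (nat_lit 234) (nat_lit 152) (nat_lit 0) (XT.nd (nat_lit 78) (nat_lit 76) (nat_lit 0) (XT.lf (nat_lit 0) (nat_lit 3513031811) (nat_lit 152) (nat_lit 19433836355) (nat_lit 0) (nat_lit 3114834999) (nat_lit 13) (nat_lit 5) (nat_lit 15) (nat_lit 4) (nat_lit 13) (nat_lit 4) (nat_lit 406) (nat_lit 308) (nat_lit 306)) (XT.nd (nat_lit 78) (nat_lit 76) (nat_lit 0) (XT.lf (nat_lit 0) (nat_lit 9694372432)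 (nat_lit 152) (nat_lit 8247692054) (nat_lit 0) (nat_lit 9111182908) (nat_lit 13) (nat_lit 5) (nat_lit 15) (nat_lit 4) (nat_lit 13) (nat_lit 4) (nat_lit 407) (nat_lit 308) (nat_lit 305)) (XT.lf (nat_lit 0) (nat_lit 3231172439) (nat_lit 76) (nat_lit 12814764167) (nat_lit 76) (nat_lit 12055391107) (nat_lit 12) (nat_lit 4) (nat_lit 13) (nat_lit 5) (nat_lit 13) (nat_lit 4) (nat_lit 408) (nat_lit 308) (nat_lit 304)))) (XT.nd (nat_lit 78) (nat_lit 152) (nat_lit 0) (XT.lf (nat_lit 0) (nat_lit 15206284503) (nat_lit 76) (nat_lit 7462512234) (nat_lit 76) (nat_lit 6535345332) (nat_lit 12) (nat_lit 4) (nat_lit 13) (nat_lit 5) (nat_lit 13) (nat_lit 4) (nat_lit 409) (nat_lit 308) (nat_lit 303)) (XT.nd (nat_lit 78) (nat_lit 152) (nat_lit 0) (XT.lf (nat_lit 0) (nat_lit 27433450361) (nat_lit 76) (nat_lit 2012243888) (nat_lit 76) (nat_lit 925273326) (nat_lit 12) (nat_lit 4) (nat_lit 13) (nat_lit 5) (nat_lit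 13) (nat_lit 4) (nat_lit 410) (nat_lit 308) (nat_lit 302)) (XT.lf (nat_lit 0) (nat_lit 4827016011) (nat_lit 152) (nat_lit 23117364931) (nat_lit 0) (nat_lit 3646859321) (nat_lit 10) (nat_lit 5) (nat_lit 12) (nat_lit 4) (nat_lit 10) (nat_lit 4) (nat_lit 411) (nat_lit 308) (nat_lit 301))))) (XT.nd (nat_lit 234) (nat_lit 152) (nat_lit 0) (XT.nd (nat_lit 78) (nat_lit 76) (nat_lit 0) (XT.lf (nat_lit 0) (nat_lit 10748400400) (nat_lit 152) (nat_lit 12697552761) (nat_lit 0) (nat_lit 9430199301) (nat_lit 10) (nat_lit 5) (nat_lit 12) (nat_lit 4) (nat_lit 10) (nat_lit 4) (nat_lit 412) (nat_lit 308) (nat_lit 300)) (XT.nd (nat_lit 78) (nat_lit 76) (nat_lit 0) (XT.lf (nat_lit 0) (nat_lit 16803020113) (nat_lit 152) (nat_lit 2077096169) (nat_lit 0) (nat_lit 15353348148) (nat_lit 10) (nat_lit 5) (nat_lit 12) (nat_lit 4) (nat_lit 10) (nat_lit 4) (nat_lit 413) (nat_lit 308) (nat_lit 299)) (XT.lf (nat_lit 0)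 (nat_lit 9059244032) (nat_lit 76) (nat_lit 14087487068) (nat_lit 76) (nat_lit 12512604753) (nat_lit 9) (nat_lit 4) (nat_lit 10) (nat_lit 5) (nat_lit 10) (nat_lit 4) (nat_lit 414) (nat_lit 308) (nat_lit 298)))) (XT.nd (nat_lit 78) (nat_lit 152) (nat_lit 0) (XT.lf (nat_lit 0) (nat_lit 20524342559) (nat_lit 76) (nat_lit 9166080056) (nat_lit 76) (nat_lit 7471949789) (nat_lit 9) (nat_lit 4) (nat_lit 10) (nat_lit 5) (nat_lit 10) (nat_lit 4) (nat_lit 415) (nat_lit 308) (nat_lit 297)) (XT.nd (nat_lit 78) (nat_lit 152) (nat_lit 0) (XT.lf (nat_lit 0) (nat_lit 32276819085) (nat_lit 76) (nat_lit 4139354239) (nat_lit 76) (nat_lit 2331654495) (nat_lit 9) (nat_lit 4) (nat_lit 10) (nat_lit 5) (nat_lit 10) (nat_lit 4) (nat_lit 416) (nat_lit 308) (nat_lit 296)) (XT.lf (nat_lit 0) (nat_lit 2907077781) (nat_lit 152) (nat_lit 36423669586) (nat_lit 0) (nat_lit 1082448114) (nat_lit 7) (nat_lit 5) (nat_lit 9) (nat_lit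 4) (nat_lit 7) (nat_lit 4) (nat_lit 417) (nat_lit 308) (nat_lit 295)))))) (XT.nd (nat_lit 468) (nat_lit 152) (nat_lit 0) (XT.nd (nat_lit 234) (nat_lit 76) (nat_lit 0) (XT.nd (nat_lit 78) (nat_lit 0) (nat_lit 0) (XT.lf (nat_lit 0) (nat_lit 8368479827) (nat_lit 152) (nat_lit 27343750632) (nat_lit 0) (nat_lit 6445744574) (nat_lit 7) (nat_lit 5) (nat_lit 9) (nat_lit 4) (nat_lit 7) (nat_lit 4) (nat_lit 418) (nat_lit 308) (nat_lit 294)) (XT.nd (nat_lit 78) (nat_lit 0) (nat_lit 0) (XT.lf (nat_lit 0) (nat_lit 13969473453) (nat_lit 152) (nat_lit 18073898584) (nat_lit 0) (nat_lit 11953304310) (nat_lit 7) (nat_lit 5) (nat_lit 9) (nat_lit 4) (nat_lit 7) (nat_lit 4) (nat_lit 419) (nat_lit 308) (nat_lit 293)) (XT.lf (nat_lit 0) (nat_lit 19723394360) (nat_lit 152) (nat_lit 8592042365) (nat_lit 0) (nat_lit 17618240559) (nat_lit 7) (nat_lit 5) (nat_lit 9) (nat_lit 4) (nat_lit 7) (nat_lit 4) (nat_lit 420)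 (nat_lit 308) (nat_lit 292)))) (XT.nd (nat_lit 78) (nat_lit 0) (nat_lit 0) (XT.lf (nat_lit 0) (nat_lit 1161571411) (nat_lit 76) (nat_lit 24500506332) (nat_lit 76) (nat_lit 22310605239) (nat_lit 6) (nat_lit 4) (nat_lit 7) (nat_lit 5) (nat_lit 7) (nat_lit 4) (nat_lit 421) (nat_lit 308) (nat_lit 291)) (XT.nd (nat_lit 78) (nat_lit 0) (nat_lit 0) (XT.lf (nat_lit 0) (nat_lit 11465512503) (nat_lit 76) (nat_lit 20458710269) (nat_lit 76) (nat_lit 18188097469) (nat_lit 6) (nat_lit 4) (nat_lit 7) (nat_lit 5) (nat_lit 7) (nat_lit 4) (nat_lit 422) (nat_lit 308) (nat_lit 290)) (XT.lf (nat_lit 0) (nat_lit 22060222380) (nat_lit 76) (nat_lit 16325935609) (nat_lit 76) (nat_lit 13978454516) (nat_lit 6) (nat_lit 4) (nat_lit 7) (nat_lit 5) (nat_lit 7) (nat_lit 4) (nat_lit 423) (nat_lit 308) (nat_lit 289))))) (XT.nd (nat_lit 234) (nat_lit 152) (nat_lit 0) (XT.nd (nat_lit 78) (nat_lit 0) (nat_lit 0) (XT.lf (nat_lit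 0) (nat_lit 32970926543) (nat_lit 76) (nat_lit 12092342411) (nat_lit 76) (nat_lit 9671653420) (nat_lit 6) (nat_lit 4) (nat_lit 7) (nat_lit 5) (nat_lit 7) (nat_lit 4) (nat_lit 424) (nat_lit 308) (nat_lit 288)) (XT.nd (nat_lit 78) (nat_lit 0) (nat_lit 0) (XT.lf (nat_lit 0) (nat_lit 44223602858) (nat_lit 76) (nat_lit 7747850692) (nat_lit 76) (nat_lit 5257439893) (nat_lit 6) (nat_lit 4) (nat_lit 7) (nat_lit 5) (nat_lit 7) (nat_lit 4) (nat_lit 425) (nat_lit 308) (nat_lit 287)) (XT.lf (nat_lit 0) (nat_lit 55845043411) (nat_lit 76) (nat_lit 3282116423) (nat_lit 76) (nat_lit 725303903) (nat_lit 6) (nat_lit 4) (nat_lit 7) (nat_lit 5) (nat_lit 7) (nat_lit 4) (nat_lit 426) (nat_lit 308) (nat_lit 286)))) (XT.nd (nat_lit 156) (nat_lit 0) (nat_lit 0) (XT.nd (nat_lit 78) (nat_lit 0) (nat_lit 0) (XT.lf (nat_lit 0) (nat_lit 3916204452) (nat_lit 152) (nat_lit 57266355511) (nat_lit 0) (nat_lit 1420916590)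 (nat_lit 4) (nat_lit 5) (nat_lit 6) (nat_lit 4) (nat_lit 4) (nat_lit 4) (nat_lit 427) (nat_lit 308) (nat_lit 285)) (XT.lf (nat_lit 0) (nat_lit 8793635887) (nat_lit 152) (nat_lit 50455416196) (nat_lit 0) (nat_lit 6240987721) (nat_lit 4) (nat_lit 5) (nat_lit 6) (nat_lit 4) (nat_lit 4) (nat_lit 4) (nat_lit 428) (nat_lit 308) (nat_lit 284))) (XT.nd (nat_lit 78) (nat_lit 0) (nat_lit 0) (XT.lf (nat_lit 0) (nat_lit 13824879137) (nat_lit 152) (nat_lit 43482958138) (nat_lit 0) (nat_lit 11217602111) (nat_lit 4) (nat_lit 5) (nat_lit 6) (nat_lit 4) (nat_lit 4) (nat_lit 4) (nat_lit 429) (nat_lit 308) (nat_lit 283)) (XT.lf (nat_lit 0) (nat_lit 19021913353) (nat_lit 152) (nat_lit 36332380245) (nat_lit 0) (nat_lit 16362608841) (nat_lit 4) (nat_lit 5) (nat_lit 6) (nat_lit 4) (nat_lit 4) (nat_lit 4) (nat_lit 430) (nat_lit 308) (nat_lit 282))))))) (XT.nd (nat_lit 1014) (nat_lit 152) (nat_lit 0) (XT.nd (nat_lit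 468) (nat_lit 0) (nat_lit 0) (XT.nd (nat_lit 234) (nat_lit 76) (nat_lit 0) (XT.nd (nat_lit 78) (nat_lit 0) (nat_lit 0) (XT.lf (nat_lit 0) (nat_lit 24397112426) (nat_lit 152) (nat_lit 28986657332) (nat_lit 0) (nat_lit 21688257927) (nat_lit 4) (nat_lit 5) (nat_lit 6) (nat_lit 4) (nat_lit 4) (nat_lit 4) (nat_lit 431) (nat_lit 308) (nat_lit 281)) (XT.nd (nat_lit 78) (nat_lit 0) (nat_lit 0) (XT.lf (nat_lit 0) (nat_lit 29963274449) (nat_lit 152) (nat_lit 21428299583) (nat_lit 0) (nat_lit 27207229486) (nat_lit 4) (nat_lit 5) (nat_lit 6) (nat_lit 4) (nat_lit 4) (nat_lit 4) (nat_lit 432) (nat_lit 308) (nat_lit 280)) (XT.lf (nat_lit 0) (nat_lit 35733652188) (nat_lit 152) (nat_lit 13639310907) (nat_lit 0) (nat_lit 32932663926) (nat_lit 4) (nat_lit 5) (nat_lit 6) (nat_lit 4) (nat_lit 4) (nat_lit 4) (nat_lit 433) (nat_lit 308) (nat_lit 279)))) (XT.nd (nat_lit 78) (nat_lit 76) (nat_lit 0) (XT.lf (nat_lit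 0) (nat_lit 41721984639) (nat_lit 152) (nat_lit 5601146095) (nat_lit 0) (nat_lit 38878193235) (nat_lit 4) (nat_lit 5) (nat_lit 6) (nat_lit 4) (nat_lit 4) (nat_lit 4) (nat_lit 434) (nat_lit 308) (nat_lit 278)) (XT.nd (nat_lit 78) (nat_lit 0) (nat_lit 0) (XT.lf (nat_lit 0) (nat_lit 2794783880) (nat_lit 76) (nat_lit 45191380263) (nat_lit 76) (nat_lit 42306823963) (nat_lit 3) (nat_lit 4) (nat_lit 4) (nat_lit 5) (nat_lit 4) (nat_lit 4) (nat_lit 435) (nat_lit 308) (nat_lit 277)) (XT.lf (nat_lit 0) (nat_lit 11673530619) (nat_lit 76) (nat_lit 42918824207) (nat_lit 76) (nat_lit 39995444195) (nat_lit 3) (nat_lit 4) (nat_lit 4) (nat_lit 5) (nat_lit 4) (nat_lit 4) (nat_lit 436) (nat_lit 308) (nat_lit 276))))) (XT.nd (nat_lit 234) (nat_lit 0) (nat_lit 0) (XT.nd (nat_lit 78) (nat_lit 0) (nat_lit 0) (XT.lf (nat_lit 0) (nat_lit 20871034810) (nat_lit 76) (nat_lit 40594909836) (nat_lit 76) (nat_lit 37634554862)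 (nat_lit 3) (nat_lit 4) (nat_lit 4) (nat_lit 5) (nat_lit 4) (nat_lit 4) (nat_lit 437) (nat_lit 308) (nat_lit 275)) (XT.nd (nat_lit 78) (nat_lit 0) (nat_lit 0) (XT.lf (nat_lit 0) (nat_lit 30409195271) (nat_lit 76) (nat_lit 38214104022) (nat_lit 76) (nat_lit 35218534797) (nat_lit 3) (nat_lit 4) (nat_lit 4) (nat_lit 5) (nat_lit 4) (nat_lit 4) (nat_lit 438) (nat_lit 308) (nat_lit 274)) (XT.lf (nat_lit 0) (nat_lit 40310721909) (nat_lit 76) (nat_lit 35770738179) (nat_lit 76) (nat_lit 32741631572) (nat_lit 3) (nat_lit 4) (nat_lit 4) (nat_lit 5) (nat_lit 4) (nat_lit 4) (nat_lit 439) (nat_lit 308) (nat_lit 273)))) (XT.nd (nat_lit 156) (nat_lit 0) (nat_lit 0) (XT.nd (nat_lit 78) (nat_lit 0) (nat_lit 0) (XT.lf (nat_lit 0) (nat_lit 50599189787) (nat_lit 76) (nat_lit 33258994769) (nat_lit 76) (nat_lit 30197947799) (nat_lit 3) (nat_lit 4) (nat_lit 4) (nat_lit 5) (nat_lit 4) (nat_lit 4) (nat_lit 440) (nat_lit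 308) (nat_lit 272)) (XT.lf (nat_lit 0) (nat_lit 61299095257) (nat_lit 76) (nat_lit 30672893452) (nat_lit 76) (nat_lit 27581427088) (nat_lit 3) (nat_lit 4) (nat_lit 4) (nat_lit 5) (nat_lit 4) (nat_lit 4) (nat_lit 441) (nat_lit 308) (nat_lit 271))) (XT.nd (nat_lit 78) (nat_lit 0) (nat_lit 0) (XT.lf (nat_lit 0) (nat_lit 72435914285) (nat_lit 76) (nat_lit 28006276842) (nat_lit 76) (nat_lit 24885839627) (nat_lit 3) (nat_lit 4) (nat_lit 4) (nat_lit 5) (nat_lit 4) (nat_lit 4) (nat_lit 442) (nat_lit 308) (nat_lit 270)) (XT.lf (nat_lit 0) (nat_lit 84036163106) (nat_lit 76) (nat_lit 25252795853) (nat_lit 76) (nat_lit 22104767352) (nat_lit 3) (nat_lit 4) (nat_lit 4) (nat_lit 5) (nat_lit 4) (nat_lit 4) (nat_lit 443) (nat_lit 308) (nat_lit 269)))))) (XT.nd (nat_lit 468) (nat_lit 152) (nat_lit 0) (XT.nd (nat_lit 234) (nat_lit 0) (nat_lit 0) (XT.nd (nat_lit 78) (nat_lit 0) (nat_lit 0) (XT.lf (nat_lit 0)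 (nat_lit 96127461361) (nat_lit 76) (nat_lit 22405894577) (nat_lit 76) (nat_lit 19231588660) (nat_lit 3) (nat_lit 4) (nat_lit 4) (nat_lit 5) (nat_lit 4) (nat_lit 4) (nat_lit 444) (nat_lit 308) (nat_lit 268)) (XT.nd (nat_lit 78) (nat_lit 0) (nat_lit 0) (XT.lf (nat_lit 0) (nat_lit 108738597855) (nat_lit 76) (nat_lit 19458794679) (nat_lit 76) (nat_lit 16259462651) (nat_lit 3) (nat_lit 4) (nat_lit 4) (nat_lit 5) (nat_lit 4) (nat_lit 4) (nat_lit 445) (nat_lit 308) (nat_lit 267)) (XT.lf (nat_lit 0) (nat_lit 121899599102) (nat_lit 76) (nat_lit 16404479254) (nat_lit 76) (nat_lit 13181312835) (nat_lit 3) (nat_lit 4) (nat_lit 4) (nat_lit 5) (nat_lit 4) (nat_lit 4) (nat_lit 446) (nat_lit 308) (nat_lit 266)))) (XT.nd (nat_lit 78) (nat_lit 0) (nat_lit 0) (XT.lf (nat_lit 0) (nat_lit 135641800822) (nat_lit 76) (nat_lit 13235676121) (nat_lit 76) (nat_lit 9989810283) (nat_lit 3) (nat_lit 4) (nat_lit 4) (nat_lit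 5) (nat_lit 4) (nat_lit 4) (nat_lit 447) (nat_lit 308) (nat_lit 265)) (XT.nd (nat_lit 78) (nat_lit 0) (nat_lit 0) (XT.lf (nat_lit 0) (nat_lit 149997922540) (nat_lit 76) (nat_lit 9944840513) (nat_lit 76) (nat_lit 6677356179) (nat_lit 3) (nat_lit 4) (nat_lit 4) (nat_lit 5) (nat_lit 4) (nat_lit 4) (nat_lit 448) (nat_lit 308) (nat_lit 264)) (XT.lf (nat_lit 0) (nat_lit 165002145501) (nat_lit 76) (nat_lit 6524137105) (nat_lit 76) (nat_lit 3236063728) (nat_lit 3) (nat_lit 4) (nat_lit 4) (nat_lit 5) (nat_lit 4) (nat_lit 4) (nat_lit 449) (nat_lit 308) (nat_lit 263))))) (XT.nd (nat_lit 234) (nat_lit 0) (nat_lit 0) (XT.nd (nat_lit 78) (nat_lit 76) (nat_lit 0) (XT.lf (nat_lit 0) (nat_lit 331306145) (nat_lit 152) (nat_lit 2628504391) (nat_lit 76) (nat_lit 180353277068) (nat_lit 2) (nat_lit 5) (nat_lit 4) (nat_lit 5) (nat_lit 3) (nat_lit 4) (nat_lit 450) (nat_lit 308) (nat_lit 262)) (XT.nd (nat_lit 78)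 (nat_lit 0) (nat_lit 0) (XT.lf (nat_lit 0) (nat_lit 4026330479) (nat_lit 152) (nat_lit 187401111119) (nat_lit 0) (nat_lit 858371567) (nat_lit 1) (nat_lit 5) (nat_lit 3) (nat_lit 4) (nat_lit 1) (nat_lit 4) (nat_lit 451) (nat_lit 308) (nat_lit 261)) (XT.lf (nat_lit 0) (nat_lit 7967633986) (nat_lit 152) (nat_lit 188953729811) (nat_lit 0) (nat_lit 4782736417) (nat_lit 1) (nat_lit 5) (nat_lit 3) (nat_lit 4) (nat_lit 1) (nat_lit 4) (nat_lit 452) (nat_lit 308) (nat_lit 260)))) (XT.nd (nat_lit 156) (nat_lit 0) (nat_lit 0) (XT.nd (nat_lit 78) (nat_lit 0) (nat_lit 0) (XT.lf (nat_lit 0) (nat_lit 12075299547) (nat_lit 152) (nat_lit 190645268829) (nat_lit 0) (nat_lit 8874269924) (nat_lit 1) (nat_lit 5) (nat_lit 3) (nat_lit 4) (nat_lit 1) (nat_lit 4) (nat_lit 453) (nat_lit 308) (nat_lit 259)) (XT.lf (nat_lit 0) (nat_lit 16359107318) (nat_lit 152) (nat_lit 192479755648) (nat_lit 0) (nat_lit 13142713834)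 (nat_lit 1) (nat_lit 5) (nat_lit 3) (nat_lit 4) (nat_lit 1) (nat_lit 4) (nat_lit 454) (nat_lit 308) (nat_lit 258))) (XT.nd (nat_lit 78) (nat_lit 0) (nat_lit 0) (XT.lf (nat_lit 0) (nat_lit 20829256843) (nat_lit 152) (nat_lit 194461558092) (nat_lit 0) (nat_lit 17598231110) (nat_lit 1) (nat_lit 5) (nat_lit 3) (nat_lit 4) (nat_lit 1) (nat_lit 4) (nat_lit 455) (nat_lit 308) (nat_lit 257)) (XT.lf (nat_lit 0) (nat_lit 25496391333) (nat_lit 152) (nat_lit 196595394739) (nat_lit 0) (nat_lit 22251430126) (nat_lit 1) (nat_lit 5) (nat_lit 3) (nat_lit 4) (nat_lit 1) (nat_lit 4) (nat_lit 456) (nat_lit 308) (nat_lit 256))))))))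
noncomputable def xc30 : XT := (XT.nd (nat_lit 48906) (nat_lit 0) (nat_lit 228) (XT.nd (nat_lit 936) (nat_lit 0) (nat_lit 0) (XT.nd (nat_lit 468) (nat_lit 0) (nat_lit 0) (XT.nd (nat_lit 234) (nat_lit 0) (nat_lit 0) (XT.nd (nat_lit 78) (nat_lit 0) (nat_lit 0) (XT.lf (nat_lit 0) (nat_lit 30371623014) (nat_lit 152) (nat_lit 198886346153) (nat_lit 0) (nat_lit 27113389927) (nat_lit 1) (nat_lit 5) (nat_lit 3) (nat_lit 4) (nat_lit 1) (nat_lit 4) (nat_lit 457) (nat_lit 308) (nat_lit 255)) (XT.nd (nat_lit 78) (nat_lit 0) (nat_lit 0) (XT.lf (nat_lit 0) (nat_lit 35466559582) (nat_lit 152) (nat_lit 201339866979) (nat_lit 0) (nat_lit 32195686607) (nat_lit 1) (nat_lit 5) (nat_lit 3) (nat_lit 4) (nat_lit 1) (nat_lit 4) (nat_lit 458) (nat_lit 308) (nat_lit 254)) (XT.lf (nat_lit 0) (nat_lit 40793331835) (nat_lit 152) (nat_lit 203961798935) (nat_lit 0) (nat_lit 37510420874) (nat_lit 1) (nat_lit 5) (nat_lit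 3) (nat_lit 4) (nat_lit 1) (nat_lit 4) (nat_lit 459) (nat_lit 308) (nat_lit 253)))) (XT.nd (nat_lit 78) (nat_lit 0) (nat_lit 0) (XT.lf (nat_lit 0) (nat_lit 46364622567) (nat_lit 152) (nat_lit 206758384715) (nat_lit 0) (nat_lit 43070246856) (nat_lit 1) (nat_lit 5) (nat_lit 3) (nat_lit 4) (nat_lit 1) (nat_lit 4) (nat_lit 460) (nat_lit 308) (nat_lit 252)) (XT.nd (nat_lit 78) (nat_lit 0) (nat_lit 0) (XT.lf (nat_lit 0) (nat_lit 52193696755) (nat_lit 152) (nat_lit 209736282856) (nat_lit 0) (nat_lit 48888402235) (nat_lit 1) (nat_lit 5) (nat_lit 3) (nat_lit 4) (nat_lit 1) (nat_lit 4) (nat_lit 461) (nat_lit 308) (nat_lit 251)) (XT.lf (nat_lit 0) (nat_lit 58294433147) (nat_lit 152) (nat_lit 212902583593) (nat_lit 0) (nat_lit 54978739761) (nat_lit 1) (nat_lit 5) (nat_lit 3) (nat_lit 4) (nat_lit 1) (nat_lit 4) (nat_lit 462) (nat_lit 308) (nat_lit 250))))) (XT.nd (nat_lit 234) (nat_lit 0) (nat_lit 0)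 (XT.nd (nat_lit 78) (nat_lit 0) (nat_lit 0) (XT.lf (nat_lit 0) (nat_lit 64681357305) (nat_lit 152) (nat_lit 216264825736) (nat_lit 0) (nat_lit 61355760238) (nat_lit 1) (nat_lit 5) (nat_lit 3) (nat_lit 4) (nat_lit 1) (nat_lit 4) (nat_lit 463) (nat_lit 308) (nat_lit 249)) (XT.nd (nat_lit 78) (nat_lit 0) (nat_lit 0) (XT.lf (nat_lit 0) (nat_lit 71369676193) (nat_lit 152) (nat_lit 219831014625) (nat_lit 0) (nat_lit 68034647048) (nat_lit 1) (nat_lit 5) (nat_lit 3) (nat_lit 4) (nat_lit 1) (nat_lit 4) (nat_lit 464) (nat_lit 308) (nat_lit 248)) (XT.lf (nat_lit 0) (nat_lit 78375314378) (nat_lit 152) (nat_lit 223609641184) (nat_lit 0) (nat_lit 75031302302) (nat_lit 1) (nat_lit 5) (nat_lit 3) (nat_lit 4) (nat_lit 1) (nat_lit 4) (nat_lit 465) (nat_lit 308) (nat_lit 247)))) (XT.nd (nat_lit 78) (nat_lit 0) (nat_lit 0) (XT.lf (nat_lit 0) (nat_lit 85714951953) (nat_lit 152) (nat_lit 227609702145) (nat_lit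 0) (nat_lit 82362384703) (nat_lit 1) (nat_lit 5) (nat_lit 3) (nat_lit 4) (nat_lit 1) (nat_lit 4) (nat_lit 466) (nat_lit 308) (nat_lit 246)) (XT.nd (nat_lit 78) (nat_lit 0) (nat_lit 0) (XT.lf (nat_lit 0) (nat_lit 93406064243) (nat_lit 152) (nat_lit 231840721461) (nat_lit 0) (nat_lit 90045349210) (nat_lit 1) (nat_lit 5) (nat_lit 3) (nat_lit 4) (nat_lit 1) (nat_lit 4) (nat_lit 467) (nat_lit 308) (nat_lit 245)) (XT.lf (nat_lit 0) (nat_lit 101466963422) (nat_lit 152) (nat_lit 236312772988) (nat_lit 0) (nat_lit 98098488596) (nat_lit 1) (nat_lit 5) (nat_lit 3) (nat_lit 4) (nat_lit 1) (nat_lit 4) (nat_lit 468) (nat_lit 308) (nat_lit 244)))))) (XT.nd (nat_lit 468) (nat_lit 0) (nat_lit 0) (XT.nd (nat_lit 234) (nat_lit 0) (nat_lit 0) (XT.nd (nat_lit 78) (nat_lit 0) (nat_lit 0) (XT.lf (nat_lit 0) (nat_lit 109916842107) (nat_lit 152) (nat_lit 241036504468) (nat_lit 0) (nat_lit 106540977000) (nat_lit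 1) (nat_lit 5) (nat_lit 3) (nat_lit 4) (nat_lit 1) (nat_lit 4) (nat_lit 469) (nat_lit 308) (nat_lit 243)) (XT.nd (nat_lit 78) (nat_lit 0) (nat_lit 0) (XT.lf (nat_lit 0) (nat_lit 118775819056) (nat_lit 152) (nat_lit 246023162880) (nat_lit 0) (nat_lit 115392915588) (nat_lit 1) (nat_lit 5) (nat_lit 3) (nat_lit 4) (nat_lit 1) (nat_lit 4) (nat_lit 470) (nat_lit 308) (nat_lit 242)) (XT.lf (nat_lit 0) (nat_lit 128064987071) (nat_lit 152) (nat_lit 251284621221) (nat_lit 0) (nat_lit 124675380401) (nat_lit 1) (nat_lit 5) (nat_lit 3) (nat_lit 4) (nat_lit 1) (nat_lit 4) (nat_lit 471) (nat_lit 308) (nat_lit 241)))) (XT.nd (nat_lit 78) (nat_lit 0) (nat_lit 0) (XT.lf (nat_lit 0) (nat_lit 137806463220) (nat_lit 152) (nat_lit 256833406773) (nat_lit 0) (nat_lit 134410472549) (nat_lit 1) (nat_lit 5) (nat_lit 3) (nat_lit 4) (nat_lit 1) (nat_lit 4) (nat_lit 472) (nat_lit 308) (nat_lit 240)) (XT.nd (nat_lit 78)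 (nat_lit 0) (nat_lit 0) (XT.lf (nat_lit 0) (nat_lit 148023441493) (nat_lit 152) (nat_lit 262682730930) (nat_lit 0) (nat_lit 144621370820) (nat_lit 1) (nat_lit 5) (nat_lit 3) (nat_lit 4) (nat_lit 1) (nat_lit 4) (nat_lit 473) (nat_lit 308) (nat_lit 239)) (XT.lf (nat_lit 0) (nat_lit 158740248028) (nat_lit 152) (nat_lit 268846520653) (nat_lit 0) (nat_lit 155332386878) (nat_lit 1) (nat_lit 5) (nat_lit 3) (nat_lit 4) (nat_lit 1) (nat_lit 4) (nat_lit 474) (nat_lit 308) (nat_lit 238))))) (XT.nd (nat_lit 234) (nat_lit 0) (nat_lit 0) (XT.nd (nat_lit 78) (nat_lit 0) (nat_lit 0) (XT.lf (nat_lit 0) (nat_lit 169982399033) (nat_lit 152) (nat_lit 275339451633) (nat_lit 0) (nat_lit 166569023142) (nat_lit 1) (nat_lit 5) (nat_lit 3) (nat_lit 4) (nat_lit 1) (nat_lit 4) (nat_lit 475) (nat_lit 308) (nat_lit 237)) (XT.nd (nat_lit 78) (nat_lit 0) (nat_lit 0) (XT.lf (nat_lit 0) (nat_lit 181776661532) (nat_lit 152)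 (nat_lit 282176983230) (nat_lit 0) (nat_lit 178358033508) (nat_lit 1) (nat_lit 5) (nat_lit 3) (nat_lit 4) (nat_lit 1) (nat_lit 4) (nat_lit 476) (nat_lit 308) (nat_lit 236)) (XT.lf (nat_lit 0) (nat_lit 194151117105) (nat_lit 152) (nat_lit 289375395280) (nat_lit 0) (nat_lit 190727487048) (nat_lit 1) (nat_lit 5) (nat_lit 3) (nat_lit 4) (nat_lit 1) (nat_lit 4) (nat_lit 477) (nat_lit 308) (nat_lit 235)))) (XT.nd (nat_lit 156) (nat_lit 0) (nat_lit 0) (XT.nd (nat_lit 78) (nat_lit 0) (nat_lit 0) (XT.lf (nat_lit 0) (nat_lit 207135228739) (nat_lit 152) (nat_lit 296951826859) (nat_lit 0) (nat_lit 203706834842) (nat_lit 1) (nat_lit 5) (nat_lit 3) (nat_lit 4) (nat_lit 1) (nat_lit 4) (nat_lit 478) (nat_lit 308) (nat_lit 234)) (XT.lf (nat_lit 0) (nat_lit 220759910986) (nat_lit 152) (nat_lit 304924317091) (nat_lit 0) (nat_lit 217326980099) (nat_lit 1) (nat_lit 5) (nat_lit 3) (nat_lit 4) (nat_lit 1) (nat_lit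 4) (nat_lit 479) (nat_lit 308) (nat_lit 233))) (XT.nd (nat_lit 47034) (nat_lit 0) (nat_lit 1140) (XT.lf (nat_lit 0) (nat_lit 235057603567) (nat_lit 152) (nat_lit 313311848096) (nat_lit 0) (nat_lit 231620351736) (nat_lit 1) (nat_lit 5) (nat_lit 3) (nat_lit 4) (nat_lit 1) (nat_lit 4) (nat_lit 480) (nat_lit 308) (nat_lit 232)) (XT.lf (nat_lit 0) (nat_lit 1588491720) (nat_lit 152) (nat_lit 8102658368) (nat_lit 0) (nat_lit 1588491720) (nat_lit 16) (nat_lit 5) (nat_lit 18) (nat_lit 4) (nat_lit 16) (nat_lit 4) (nat_lit 402) (nat_lit 309) (nat_lit 309))))))) (XT.nd (nat_lit 1014) (nat_lit 380) (nat_lit 0) (XT.nd (nat_lit 468) (nat_lit 228) (nat_lit 0) (XT.nd (nat_lit 234) (nat_lit 228) (nat_lit 0) (XT.nd (nat_lit 78) (nat_lit 76) (nat_lit 0) (XT.lf (nat_lit 0) (nat_lit 9441949853) (nat_lit 152) (nat_lit 4710452121) (nat_lit 0) (nat_lit 9217090055) (nat_lit 16) (nat_lit 5) (nat_lit 18) (nat_lit 4)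 (nat_lit 16) (nat_lit 4) (nat_lit 403) (nat_lit 309) (nat_lit 308)) (XT.nd (nat_lit 78) (nat_lit 0) (nat_lit 0) (XT.lf (nat_lit 0) (nat_lit 7202181772) (nat_lit 76) (nat_lit 8730712449) (nat_lit 76) (nat_lit 8291700463) (nat_lit 15) (nat_lit 4) (nat_lit 16) (nat_lit 5) (nat_lit 16) (nat_lit 4) (nat_lit 404) (nat_lit 309) (nat_lit 307)) (XT.lf (nat_lit 0) (nat_lit 19492744694) (nat_lit 76) (nat_lit 3139256400) (nat_lit 76) (nat_lit 2496289950) (nat_lit 15) (nat_lit 4) (nat_lit 16) (nat_lit 5) (nat_lit 16) (nat_lit 4) (nat_lit 405) (nat_lit 309) (nat_lit 306)))) (XT.nd (nat_lit 78) (nat_lit 76) (nat_lit 0) (XT.lf (nat_lit 0) (nat_lit 3421536527) (nat_lit 152) (nat_lit 20031281168) (nat_lit 0) (nat_lit 2624194815) (nat_lit 13) (nat_lit 5) (nat_lit 15) (nat_lit 4) (nat_lit 13) (nat_lit 4) (nat_lit 406) (nat_lit 309) (nat_lit 305)) (XT.nd (nat_lit 78) (nat_lit 76) (nat_lit 0) (XT.lf (nat_lit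 0) (nat_lit 9510540009) (nat_lit 152) (nat_lit 9025626974) (nat_lit 0) (nat_lit 8537014762) (nat_lit 13) (nat_lit 5) (nat_lit 15) (nat_lit 4) (nat_lit 13) (nat_lit 4) (nat_lit 407) (nat_lit 309) (nat_lit 304)) (XT.lf (nat_lit 0) (nat_lit 2249936503) (nat_lit 76) (nat_lit 13508907705) (nat_lit 76) (nat_lit 12367588615) (nat_lit 12) (nat_lit 4) (nat_lit 13) (nat_lit 5) (nat_lit 13) (nat_lit 4) (nat_lit 408) (nat_lit 309) (nat_lit 303))))) (XT.nd (nat_lit 234) (nat_lit 76) (nat_lit 0) (XT.nd (nat_lit 78) (nat_lit 152) (nat_lit 0) (XT.lf (nat_lit 0) (nat_lit 14055925733) (nat_lit 76) (nat_lit 8239385618) (nat_lit 76) (nat_lit 6938262868) (nat_lit 12) (nat_lit 4) (nat_lit 13) (nat_lit 5) (nat_lit 13) (nat_lit 4) (nat_lit 409) (nat_lit 309) (nat_lit 302)) (XT.nd (nat_lit 78) (nat_lit 152) (nat_lit 0) (XT.lf (nat_lit 0) (nat_lit 26122022225) (nat_lit 76) (nat_lit 2867907601) (nat_lit 76) (nat_lit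 1414590889) (nat_lit 12) (nat_lit 4) (nat_lit 13) (nat_lit 5) (nat_lit 13) (nat_lit 4) (nat_lit 410) (nat_lit 309) (nat_lit 301)) (XT.lf (nat_lit 0) (nat_lit 4234548757) (nat_lit 152) (nat_lit 24684180365) (nat_lit 0) (nat_lit 2712393193) (nat_lit 10) (nat_lit 5) (nat_lit 12) (nat_lit 4) (nat_lit 10) (nat_lit 4) (nat_lit 411) (nat_lit 309) (nat_lit 300)))) (XT.nd (nat_lit 156) (nat_lit 76) (nat_lit 0) (XT.nd (nat_lit 78) (nat_lit 0) (nat_lit 0) (XT.lf (nat_lit 0) (nat_lit 10076501978) (nat_lit 152) (nat_lit 14420634627) (nat_lit 0) (nat_lit 8422875547) (nat_lit 10) (nat_lit 5) (nat_lit 12) (nat_lit 4) (nat_lit 10) (nat_lit 4) (nat_lit 412) (nat_lit 309) (nat_lit 299)) (XT.lf (nat_lit 0) (nat_lit 16055472959) (nat_lit 152) (nat_lit 3949003208) (nat_lit 0) (nat_lit 14276636180) (nat_lit 10) (nat_lit 5) (nat_lit 12) (nat_lit 4) (nat_lit 10) (nat_lit 4) (nat_lit 413) (nat_lit 309) (nat_lit 298)))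 (XT.nd (nat_lit 78) (nat_lit 0) (nat_lit 0) (XT.lf (nat_lit 0) (nat_lit 6979018525) (nat_lit 76) (nat_lit 15315640860) (nat_lit 76) (nat_lit 13417556129) (nat_lit 9) (nat_lit 4) (nat_lit 10) (nat_lit 5) (nat_lit 10) (nat_lit 4) (nat_lit 414) (nat_lit 309) (nat_lit 297)) (XT.lf (nat_lit 0) (nat_lit 18304664892) (nat_lit 76) (nat_lit 10462893138) (nat_lit 76) (nat_lit 8451238930) (nat_lit 9) (nat_lit 4) (nat_lit 10) (nat_lit 5) (nat_lit 10) (nat_lit 4) (nat_lit 415) (nat_lit 309) (nat_lit 296)))))) (XT.nd (nat_lit 468) (nat_lit 228) (nat_lit 0) (XT.nd (nat_lit 234) (nat_lit 0) (nat_lit 0) (XT.nd (nat_lit 78) (nat_lit 152) (nat_lit 0) (XT.lf (nat_lit 0) (nat_lit 29924329838) (nat_lit 76) (nat_lit 5501557123) (nat_lit 76) (nat_lit 3381741506) (nat_lit 9) (nat_lit 4) (nat_lit 10) (nat_lit 5) (nat_lit 10) (nat_lit 4) (nat_lit 416) (nat_lit 309) (nat_lit 295)) (XT.nd (nat_lit 78) (nat_lit 0) (nat_lit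 0) (XT.lf (nat_lit 0) (nat_lit 1399839901) (nat_lit 76) (nat_lit 367314431) (nat_lit 152) (nat_lit 38712838363) (nat_lit 7) (nat_lit 5) (nat_lit 8) (nat_lit 5) (nat_lit 9) (nat_lit 4) (nat_lit 417) (nat_lit 309) (nat_lit 294)) (XT.lf (nat_lit 0) (nat_lit 7157710096) (nat_lit 152) (nat_lit 30123310181) (nat_lit 0) (nat_lit 4947298605) (nat_lit 7) (nat_lit 5) (nat_lit 9) (nat_lit 4) (nat_lit 7) (nat_lit 4) (nat_lit 418) (nat_lit 309) (nat_lit 293)))) (XT.nd (nat_lit 78) (nat_lit 0) (nat_lit 0) (XT.lf (nat_lit 0) (nat_lit 12696692795) (nat_lit 152) (nat_lit 20976135417) (nat_lit 0) (nat_lit 10397296647) (nat_lit 7) (nat_lit 5) (nat_lit 9) (nat_lit 4) (nat_lit 7) (nat_lit 4) (nat_lit 419) (nat_lit 309) (nat_lit 292)) (XT.nd (nat_lit 78) (nat_lit 0) (nat_lit 0) (XT.lf (nat_lit 0) (nat_lit 18391555675) (nat_lit 152) (nat_lit 11611114706) (nat_lit 0) (nat_lit 16007412234) (nat_lit 7) (nat_lit 5)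 (nat_lit 9) (nat_lit 4) (nat_lit 7) (nat_lit 4) (nat_lit 420) (nat_lit 309) (nat_lit 291)) (XT.lf (nat_lit 0) (nat_lit 24255857934) (nat_lit 152) (nat_lit 2005950382) (nat_lit 0) (nat_lit 21791002786) (nat_lit 7) (nat_lit 5) (nat_lit 9) (nat_lit 4) (nat_lit 7) (nat_lit 4) (nat_lit 421) (nat_lit 309) (nat_lit 290))))) (XT.nd (nat_lit 234) (nat_lit 152) (nat_lit 0) (XT.nd (nat_lit 78) (nat_lit 0) (nat_lit 0) (XT.lf (nat_lit 0) (nat_lit 8122187726) (nat_lit 76) (nat_lit 22308184582) (nat_lit 76) (nat_lit 19766461141) (nat_lit 6) (nat_lit 4) (nat_lit 7) (nat_lit 5) (nat_lit 7) (nat_lit 4) (nat_lit 422) (nat_lit 309) (nat_lit 289)) (XT.nd (nat_lit 78) (nat_lit 0) (nat_lit 0) (XT.lf (nat_lit 0) (nat_lit 18612633599) (nat_lit 76) (nat_lit 18227029529) (nat_lit 76) (nat_lit 15612098191) (nat_lit 6) (nat_lit 4) (nat_lit 7) (nat_lit 5) (nat_lit 7) (nat_lit 4) (nat_lit 423) (nat_lit 309) (nat_lit 288))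 (XT.lf (nat_lit 0) (nat_lit 29424038710) (nat_lit 76) (nat_lit 14042597862) (nat_lit 76) (nat_lit 11357944716) (nat_lit 6) (nat_lit 4) (nat_lit 7) (nat_lit 5) (nat_lit 7) (nat_lit 4) (nat_lit 424) (nat_lit 309) (nat_lit 287)))) (XT.nd (nat_lit 156) (nat_lit 152) (nat_lit 0) (XT.nd (nat_lit 78) (nat_lit 0) (nat_lit 0) (XT.lf (nat_lit 0) (nat_lit 40582144500) (nat_lit 76) (nat_lit 9744926649) (nat_lit 76) (nat_lit 6993871781) (nat_lit 6) (nat_lit 4) (nat_lit 7) (nat_lit 5) (nat_lit 7) (nat_lit 4) (nat_lit 425) (nat_lit 309) (nat_lit 286)) (XT.lf (nat_lit 0) (nat_lit 52113517886) (nat_lit 76) (nat_lit 5323783338) (nat_lit 76) (nat_lit 2509488736) (nat_lit 6) (nat_lit 4) (nat_lit 7) (nat_lit 5) (nat_lit 7) (nat_lit 4) (nat_lit 426) (nat_lit 309) (nat_lit 285))) (XT.nd (nat_lit 78) (nat_lit 0) (nat_lit 0) (XT.lf (nat_lit 0) (nat_lit 1347489490) (nat_lit 76) (nat_lit 712028758) (nat_lit 152) (nat_lit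 60646160306) (nat_lit 4) (nat_lit 5) (nat_lit 5) (nat_lit 5) (nat_lit 6) (nat_lit 4) (nat_lit 427) (nat_lit 309) (nat_lit 284)) (XT.lf (nat_lit 0) (nat_lit 6881901331) (nat_lit 152) (nat_lit 54623463826) (nat_lit 0) (nat_lit 4089631593) (nat_lit 4) (nat_lit 5) (nat_lit 6) (nat_lit 4) (nat_lit 4) (nat_lit 4) (nat_lit 428) (nat_lit 309) (nat_lit 283))))))))
noncomputable def xc31 : XT := (XT.nd (nat_lit 2028) (nat_lit 0) (nat_lit 0) (XT.nd (nat_lit 1014) (nat_lit 152) (nat_lit 0) (XT.nd (nat_lit 468) (nat_lit 76) (nat_lit 0) (XT.nd (nat_lit 234) (nat_lit 0) (nat_lit 0) (XT.nd (nat_lit 78) (nat_lit 0) (nat_lit 0) (XT.lf (nat_lit 0) (nat_lit 11871304973) (nat_lit 152) (nat_lit 47734177996) (nat_lit 0) (nat_lit 9027007749) (nat_lit 4) (nat_lit 5) (nat_lit 6) (nat_lit 4) (nat_lit 4) (nat_lit 4) (nat_lit 429) (nat_lit 309) (nat_lit 282)) (XT.nd (nat_lit 78) (nat_lit 0) (nat_lit 0) (XT.lf (nat_lit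 0) (nat_lit 17028491944) (nat_lit 152) (nat_lit 40662811749) (nat_lit 0) (nat_lit 14134644733) (nat_lit 4) (nat_lit 5) (nat_lit 6) (nat_lit 4) (nat_lit 4) (nat_lit 4) (nat_lit 430) (nat_lit 309) (nat_lit 281)) (XT.lf (nat_lit 0) (nat_lit 22365741259) (nat_lit 152) (nat_lit 33392528499) (nat_lit 0) (nat_lit 19424703584) (nat_lit 4) (nat_lit 5) (nat_lit 6) (nat_lit 4) (nat_lit 4) (nat_lit 4) (nat_lit 431) (nat_lit 309) (nat_lit 280)))) (XT.nd (nat_lit 78) (nat_lit 0) (nat_lit 0) (XT.lf (nat_lit 0) (nat_lit 27895760655) (nat_lit 152) (nat_lit 25906018048) (nat_lit 0) (nat_lit 24909779681) (nat_lit 4) (nat_lit 5) (nat_lit 6) (nat_lit 4) (nat_lit 4) (nat_lit 4) (nat_lit 432) (nat_lit 309) (nat_lit 279)) (XT.nd (nat_lit 78) (nat_lit 0) (nat_lit 0) (XT.lf (nat_lit 0) (nat_lit 33631716845) (nat_lit 152) (nat_lit 18185455371) (nat_lit 0) (nat_lit 30602932730) (nat_lit 4) (nat_lit 5) (nat_lit 6) (nat_lit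 4) (nat_lit 4) (nat_lit 4) (nat_lit 433) (nat_lit 309) (nat_lit 278)) (XT.lf (nat_lit 0) (nat_lit 39587266868) (nat_lit 152) (nat_lit 10212458176) (nat_lit 0) (nat_lit 36517717856) (nat_lit 4) (nat_lit 5) (nat_lit 6) (nat_lit 4) (nat_lit 4) (nat_lit 4) (nat_lit 434) (nat_lit 309) (nat_lit 277))))) (XT.nd (nat_lit 234) (nat_lit 0) (nat_lit 0) (XT.nd (nat_lit 78) (nat_lit 76) (nat_lit 0) (XT.lf (nat_lit 0) (nat_lit 45776590604) (nat_lit 152) (nat_lit 1968043136) (nat_lit 0) (nat_lit 42668217881) (nat_lit 4) (nat_lit 5) (nat_lit 6) (nat_lit 4) (nat_lit 4) (nat_lit 4) (nat_lit 435) (nat_lit 309) (nat_lit 276)) (XT.nd (nat_lit 78) (nat_lit 0) (nat_lit 0) (XT.lf (nat_lit 0) (nat_lit 6784567850) (nat_lit 76) (nat_lit 45535782807) (nat_lit 76) (nat_lit 42390435121) (nat_lit 3) (nat_lit 4) (nat_lit 4) (nat_lit 5) (nat_lit 4) (nat_lit 4) (nat_lit 436) (nat_lit 309) (nat_lit 275)) (XT.lf (nat_lit 0)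 (nat_lit 15923916460) (nat_lit 76) (nat_lit 43240797351) (nat_lit 76) (nat_lit 40060235414) (nat_lit 3) (nat_lit 4) (nat_lit 4) (nat_lit 5) (nat_lit 4) (nat_lit 4) (nat_lit 437) (nat_lit 309) (nat_lit 274)))) (XT.nd (nat_lit 156) (nat_lit 0) (nat_lit 0) (XT.nd (nat_lit 78) (nat_lit 0) (nat_lit 0) (XT.lf (nat_lit 0) (nat_lit 25406690655) (nat_lit 76) (nat_lit 40887542884) (nat_lit 76) (nat_lit 37673443566) (nat_lit 3) (nat_lit 4) (nat_lit 4) (nat_lit 5) (nat_lit 4) (nat_lit 4) (nat_lit 438) (nat_lit 309) (nat_lit 273)) (XT.lf (nat_lit 0) (nat_lit 35255468468) (nat_lit 76) (nat_lit 38470416420) (nat_lit 76) (nat_lit 35224376738) (nat_lit 3) (nat_lit 4) (nat_lit 4) (nat_lit 5) (nat_lit 4) (nat_lit 4) (nat_lit 439) (nat_lit 309) (nat_lit 272))) (XT.nd (nat_lit 78) (nat_lit 0) (nat_lit 0) (XT.lf (nat_lit 0) (nat_lit 45493699369) (nat_lit 76) (nat_lit 35983662894) (nat_lit 76) (nat_lit 32707203819)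 (nat_lit 3) (nat_lit 4) (nat_lit 4) (nat_lit 5) (nat_lit 4) (nat_lit 4) (nat_lit 440) (nat_lit 309) (nat_lit 271)) (XT.lf (nat_lit 0) (nat_lit 56145760100) (nat_lit 76) (nat_lit 33421361466) (nat_lit 76) (nat_lit 30115931540) (nat_lit 3) (nat_lit 4) (nat_lit 4) (nat_lit 5) (nat_lit 4) (nat_lit 4) (nat_lit 441) (nat_lit 309) (nat_lit 270)))))) (XT.nd (nat_lit 468) (nat_lit 152) (nat_lit 0) (XT.nd (nat_lit 234) (nat_lit 0) (nat_lit 0) (XT.nd (nat_lit 78) (nat_lit 0) (nat_lit 0) (XT.lf (nat_lit 0) (nat_lit 67237012709) (nat_lit 76) (nat_lit 30777411418) (nat_lit 76) (nat_lit 27444390205) (nat_lit 3) (nat_lit 4) (nat_lit 4) (nat_lit 5) (nat_lit 4) (nat_lit 4) (nat_lit 442) (nat_lit 309) (nat_lit 269)) (XT.nd (nat_lit 78) (nat_lit 0) (nat_lit 0) (XT.lf (nat_lit 0) (nat_lit 78793864942) (nat_lit 76) (nat_lit 28045517631) (nat_lit 76) (nat_lit 24686219001) (nat_lit 3) (nat_lit 4) (nat_lit 4) (nat_lit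 5) (nat_lit 4) (nat_lit 4) (nat_lit 443) (nat_lit 309) (nat_lit 268)) (XT.lf (nat_lit 0) (nat_lit 90843833111) (nat_lit 76) (nat_lit 25219175595) (nat_lit 76) (nat_lit 21834850855) (nat_lit 3) (nat_lit 4) (nat_lit 4) (nat_lit 5) (nat_lit 4) (nat_lit 4) (nat_lit 444) (nat_lit 309) (nat_lit 267)))) (XT.nd (nat_lit 78) (nat_lit 0) (nat_lit 0) (XT.lf (nat_lit 0) (nat_lit 103415607619) (nat_lit 76) (nat_lit 22291655924) (nat_lit 76) (nat_lit 18883496794) (nat_lit 3) (nat_lit 4) (nat_lit 4) (nat_lit 5) (nat_lit 4) (nat_lit 4) (nat_lit 445) (nat_lit 309) (nat_lit 266)) (XT.nd (nat_lit 78) (nat_lit 0) (nat_lit 0) (XT.lf (nat_lit 0) (nat_lit 116539121262) (nat_lit 76) (nat_lit 19255988335) (nat_lit 76) (nat_lit 15825129785) (nat_lit 3) (nat_lit 4) (nat_lit 4) (nat_lit 5) (nat_lit 4) (nat_lit 4) (nat_lit 446) (nat_lit 309) (nat_lit 265)) (XT.lf (nat_lit 0) (nat_lit 130245620500) (nat_lit 76) (nat_lit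 16104945047) (nat_lit 76) (nat_lit 12652468001) (nat_lit 3) (nat_lit 4) (nat_lit 4) (nat_lit 5) (nat_lit 4) (nat_lit 4) (nat_lit 447) (nat_lit 309) (nat_lit 264))))) (XT.nd (nat_lit 234) (nat_lit 152) (nat_lit 0) (XT.nd (nat_lit 78) (nat_lit 0) (nat_lit 0) (XT.lf (nat_lit 0) (nat_lit 144567739855) (nat_lit 76) (nat_lit 12831023575) (nat_lit 76) (nat_lit 9357957487) (nat_lit 3) (nat_lit 4) (nat_lit 4) (nat_lit 5) (nat_lit 4) (nat_lit 4) (nat_lit 448) (nat_lit 309) (nat_lit 263)) (XT.nd (nat_lit 78) (nat_lit 0) (nat_lit 0) (XT.lf (nat_lit 0) (nat_lit 159539579613) (nat_lit 76) (nat_lit 9426428870) (nat_lit 76) (nat_lit 5933754169) (nat_lit 3) (nat_lit 4) (nat_lit 4) (nat_lit 5) (nat_lit 4) (nat_lit 4) (nat_lit 449) (nat_lit 309) (nat_lit 262)) (XT.lf (nat_lit 0) (nat_lit 175196787009) (nat_lit 76) (nat_lit 5883054752) (nat_lit 76) (nat_lit 2371705182) (nat_lit 3) (nat_lit 4) (nat_lit 4) (nat_lit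 5) (nat_lit 4) (nat_lit 4) (nat_lit 450) (nat_lit 309) (nat_lit 261)))) (XT.nd (nat_lit 156) (nat_lit 0) (nat_lit 0) (XT.nd (nat_lit 78) (nat_lit 76) (nat_lit 0) (XT.lf (nat_lit 0) (nat_lit 1293888736) (nat_lit 152) (nat_lit 876663248) (nat_lit 76) (nat_lit 190260839742) (nat_lit 2) (nat_lit 5) (nat_lit 4) (nat_lit 5) (nat_lit 3) (nat_lit 4) (nat_lit 451) (nat_lit 309) (nat_lit 260)) (XT.lf (nat_lit 0) (nat_lit 5171955183) (nat_lit 152) (nat_lit 194886144167) (nat_lit 0) (nat_lit 1794742024) (nat_lit 1) (nat_lit 5) (nat_lit 3) (nat_lit 4) (nat_lit 1) (nat_lit 4) (nat_lit 452) (nat_lit 309) (nat_lit 259))) (XT.nd (nat_lit 78) (nat_lit 0) (nat_lit 0) (XT.lf (nat_lit 0) (nat_lit 9265356808) (nat_lit 152) (nat_lit 196606156770) (nat_lit 0) (nat_lit 5872779789) (nat_lit 1) (nat_lit 5) (nat_lit 3) (nat_lit 4) (nat_lit 1) (nat_lit 4) (nat_lit 453) (nat_lit 309) (nat_lit 258)) (XT.lf (nat_lit 0)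 (nat_lit 13535579879) (nat_lit 152) (nat_lit 198467761288) (nat_lit 0) (nat_lit 10128370612) (nat_lit 1) (nat_lit 5) (nat_lit 3) (nat_lit 4) (nat_lit 1) (nat_lit 4) (nat_lit 454) (nat_lit 309) (nat_lit 257))))))) (XT.nd (nat_lit 1014) (nat_lit 0) (nat_lit 0) (XT.nd (nat_lit 468) (nat_lit 0) (nat_lit 0) (XT.nd (nat_lit 234) (nat_lit 0) (nat_lit 0) (XT.nd (nat_lit 78) (nat_lit 0) (nat_lit 0) (XT.lf (nat_lit 0) (nat_lit 17992791594) (nat_lit 152) (nat_lit 200475390114) (nat_lit 0) (nat_lit 14571646851) (nat_lit 1) (nat_lit 5) (nat_lit 3) (nat_lit 4) (nat_lit 1) (nat_lit 4) (nat_lit 455) (nat_lit 309) (nat_lit 256)) (XT.nd (nat_lit 78) (nat_lit 0) (nat_lit 0) (XT.lf (nat_lit 0) (nat_lit 22647604361) (nat_lit 152) (nat_lit 202633823314) (nat_lit 0) (nat_lit 19213187738) (nat_lit 1) (nat_lit 5) (nat_lit 3) (nat_lit 4) (nat_lit 1) (nat_lit 4) (nat_lit 456) (nat_lit 309) (nat_lit 255)) (XT.lf (nat_lit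 0) (nat_lit 27511101067) (nat_lit 152) (nat_lit 204948200017) (nat_lit 0) (nat_lit 24064044558) (nat_lit 1) (nat_lit 5) (nat_lit 3) (nat_lit 4) (nat_lit 1) (nat_lit 4) (nat_lit 457) (nat_lit 309) (nat_lit 254)))) (XT.nd (nat_lit 78) (nat_lit 0) (nat_lit 0) (XT.lf (nat_lit 0) (nat_lit 32594861468) (nat_lit 152) (nat_lit 207424030642) (nat_lit 0) (nat_lit 29135766971) (nat_lit 1) (nat_lit 5) (nat_lit 3) (nat_lit 4) (nat_lit 1) (nat_lit 4) (nat_lit 458) (nat_lit 309) (nat_lit 253)) (XT.nd (nat_lit 78) (nat_lit 0) (nat_lit 0) (XT.lf (nat_lit 0) (nat_lit 37910989753) (nat_lit 152) (nat_lit 210067210025) (nat_lit 0) (nat_lit 34440430507) (nat_lit 1) (nat_lit 5) (nat_lit 3) (nat_lit 4) (nat_lit 1) (nat_lit 4) (nat_lit 459) (nat_lit 309) (nat_lit 252)) (XT.lf (nat_lit 0) (nat_lit 43472143373) (nat_lit 152) (nat_lit 212884031450) (nat_lit 0) (nat_lit 39990665318) (nat_lit 1) (nat_lit 5) (nat_lit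 3) (nat_lit 4) (nat_lit 1) (nat_lit 4) (nat_lit 460) (nat_lit 309) (nat_lit 251))))) (XT.nd (nat_lit 234) (nat_lit 0) (nat_lit 0) (XT.nd (nat_lit 78) (nat_lit 0) (nat_lit 0) (XT.lf (nat_lit 0) (nat_lit 49291563168) (nat_lit 152) (nat_lit 215881201634) (nat_lit 0) (nat_lit 45799686247) (nat_lit 1) (nat_lit 5) (nat_lit 3) (nat_lit 4) (nat_lit 1) (nat_lit 4) (nat_lit 461) (nat_lit 309) (nat_lit 250)) (XT.nd (nat_lit 78) (nat_lit 0) (nat_lit 0) (XT.lf (nat_lit 0) (nat_lit 55383104899) (nat_lit 152) (nat_lit 219065856698) (nat_lit 0) (nat_lit 51881324297) (nat_lit 1) (nat_lit 5) (nat_lit 3) (nat_lit 4) (nat_lit 1) (nat_lit 4) (nat_lit 462) (nat_lit 309) (nat_lit 249)) (XT.lf (nat_lit 0) (nat_lit 61761272239) (nat_lit 152) (nat_lit 222445579153) (nat_lit 0) (nat_lit 58250059559) (nat_lit 1) (nat_lit 5) (nat_lit 3) (nat_lit 4) (nat_lit 1) (nat_lit 4) (nat_lit 463) (nat_lit 309) (nat_lit 248))))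 (XT.nd (nat_lit 156) (nat_lit 0) (nat_lit 0) (XT.nd (nat_lit 78) (nat_lit 0) (nat_lit 0) (XT.lf (nat_lit 0) (nat_lit 68441251299) (nat_lit 152) (nat_lit 226028415956) (nat_lit 0) (nat_lit 64921055687) (nat_lit 1) (nat_lit 5) (nat_lit 3) (nat_lit 4) (nat_lit 1) (nat_lit 4) (nat_lit 464) (nat_lit 309) (nat_lit 247)) (XT.lf (nat_lit 0) (nat_lit 75438946792) (nat_lit 152) (nat_lit 229822897673) (nat_lit 0) (nat_lit 71910196007) (nat_lit 1) (nat_lit 5) (nat_lit 3) (nat_lit 4) (nat_lit 1) (nat_lit 4) (nat_lit 465) (nat_lit 309) (nat_lit 246))) (XT.nd (nat_lit 78) (nat_lit 0) (nat_lit 0) (XT.lf (nat_lit 0) (nat_lit 82771019896) (nat_lit 152) (nat_lit 233838058784) (nat_lit 0) (nat_lit 79234121329) (nat_lit 1) (nat_lit 5) (nat_lit 3) (nat_lit 4) (nat_lit 1) (nat_lit 4) (nat_lit 466) (nat_lit 309) (nat_lit 245)) (XT.lf (nat_lit 0) (nat_lit 90454927930) (nat_lit 152) (nat_lit 238083459195) (nat_lit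 0) (nat_lit 86910269569) (nat_lit 1) (nat_lit 5) (nat_lit 3) (nat_lit 4) (nat_lit 1) (nat_lit 4) (nat_lit 467) (nat_lit 309) (nat_lit 244)))))) (XT.nd (nat_lit 468) (nat_lit 0) (nat_lit 0) (XT.nd (nat_lit 234) (nat_lit 0) (nat_lit 0) (XT.nd (nat_lit 78) (nat_lit 0) (nat_lit 0) (XT.lf (nat_lit 0) (nat_lit 98508965912) (nat_lit 152) (nat_lit 242569207004) (nat_lit 0) (nat_lit 94956917271) (nat_lit 1) (nat_lit 5) (nat_lit 3) (nat_lit 4) (nat_lit 1) (nat_lit 4) (nat_lit 468) (nat_lit 309) (nat_lit 243)) (XT.nd (nat_lit 78) (nat_lit 0) (nat_lit 0) (XT.lf (nat_lit 0) (nat_lit 106952310124) (nat_lit 152) (nat_lit 247305982561) (nat_lit 0) (nat_lit 103393223121) (nat_lit 1) (nat_lit 5) (nat_lit 3) (nat_lit 4) (nat_lit 1) (nat_lit 4) (nat_lit 469) (nat_lit 309) (nat_lit 242)) (XT.lf (nat_lit 0) (nat_lit 115805063765) (nat_lit 152) (nat_lit 252305063904) (nat_lit 0) (nat_lit 112239273560) (nat_lit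 1) (nat_lit 5) (nat_lit 3) (nat_lit 4) (nat_lit 1) (nat_lit 4) (nat_lit 470) (nat_lit 309) (nat_lit 241)))) (XT.nd (nat_lit 78) (nat_lit 0) (nat_lit 0) (XT.lf (nat_lit 0) (nat_lit 125088304821) (nat_lit 152) (nat_lit 257578353608) (nat_lit 0) (nat_lit 121516130615) (nat_lit 1) (nat_lit 5) (nat_lit 3) (nat_lit 4) (nat_lit 1) (nat_lit 4) (nat_lit 471) (nat_lit 309) (nat_lit 240)) (XT.nd (nat_lit 78) (nat_lit 0) (nat_lit 0) (XT.lf (nat_lit 0) (nat_lit 134824136246) (nat_lit 152) (nat_lit 263138407124) (nat_lit 0) (nat_lit 131245882038) (nat_lit 1) (nat_lit 5) (nat_lit 3) (nat_lit 4) (nat_lit 1) (nat_lit 4) (nat_lit 472) (nat_lit 309) (nat_lit 239)) (XT.lf (nat_lit 0) (nat_lit 145035738591) (nat_lit 152) (nat_lit 268998462675) (nat_lit 0) (nat_lit 141451693906) (nat_lit 1) (nat_lit 5) (nat_lit 3) (nat_lit 4) (nat_lit 1) (nat_lit 4) (nat_lit 473) (nat_lit 309) (nat_lit 238))))) (XT.nd (nat_lit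 234) (nat_lit 0) (nat_lit 0) (XT.nd (nat_lit 78) (nat_lit 0) (nat_lit 0) (XT.lf (nat_lit 0) (nat_lit 155747425196) (nat_lit 152) (nat_lit 275172472775) (nat_lit 0) (nat_lit 152157865771) (nat_lit 1) (nat_lit 5) (nat_lit 3) (nat_lit 4) (nat_lit 1) (nat_lit 4) (nat_lit 474) (nat_lit 309) (nat_lit 237)) (XT.nd (nat_lit 78) (nat_lit 0) (nat_lit 0) (XT.lf (nat_lit 0) (nat_lit 166984700077) (nat_lit 152) (nat_lit 281675137446) (nat_lit 0) (nat_lit 163389888517) (nat_lit 1) (nat_lit 5) (nat_lit 3) (nat_lit 4) (nat_lit 1) (nat_lit 4) (nat_lit 475) (nat_lit 309) (nat_lit 236)) (XT.lf (nat_lit 0) (nat_lit 178774318648) (nat_lit 152) (nat_lit 288521939225) (nat_lit 0) (nat_lit 175174505056) (nat_lit 1) (nat_lit 5) (nat_lit 3) (nat_lit 4) (nat_lit 1) (nat_lit 4) (nat_lit 476) (nat_lit 309) (nat_lit 235)))) (XT.nd (nat_lit 156) (nat_lit 0) (nat_lit 0) (XT.nd (nat_lit 78) (nat_lit 0) (nat_lit 0) (XT.lf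 (nat_lit 0) (nat_lit 191144351432) (nat_lit 152) (nat_lit 295729180020) (nat_lit 0) (nat_lit 187539774000) (nat_lit 1) (nat_lit 5) (nat_lit 3) (nat_lit 4) (nat_lit 1) (nat_lit 4) (nat_lit 477) (nat_lit 309) (nat_lit 234)) (XT.lf (nat_lit 0) (nat_lit 204124250886) (nat_lit 152) (nat_lit 303314019928) (nat_lit 0) (nat_lit 200515136463) (nat_lit 1) (nat_lit 5) (nat_lit 3) (nat_lit 4) (nat_lit 1) (nat_lit 4) (nat_lit 478) (nat_lit 309) (nat_lit 233))) (XT.nd (nat_lit 78) (nat_lit 0) (nat_lit 0) (XT.lf (nat_lit 0) (nat_lit 217744921534) (nat_lit 152) (nat_lit 311294518092) (nat_lit 0) (nat_lit 214131486168) (nat_lit 1) (nat_lit 5) (nat_lit 3) (nat_lit 4) (nat_lit 1) (nat_lit 4) (nat_lit 479) (nat_lit 309) (nat_lit 232)) (XT.lf (nat_lit 0) (nat_lit 232038793544) (nat_lit 152) (nat_lit 319689675698) (nat_lit 0) (nat_lit 228421242993) (nat_lit 1) (nat_lit 5) (nat_lit 3) (nat_lit 4) (nat_lit 1) (nat_lit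 4) (nat_lit 480) (nat_lit 309) (nat_lit 231))))))))
noncomputable def xc32 : XT := (XT.nd (nat_lit 1950) (nat_lit 228) (nat_lit 0) (XT.nd (nat_lit 936) (nat_lit 304) (nat_lit 0) (XT.nd (nat_lit 468) (nat_lit 380) (nat_lit 0) (XT.nd (nat_lit 234) (nat_lit 76) (nat_lit 0) (XT.nd (nat_lit 78) (nat_lit 152) (nat_lit 0) (XT.lf (nat_lit 0) (nat_lit 1937478770) (nat_lit 76) (nat_lit 4293747908) (nat_lit 76) (nat_lit 4293747908) (nat_lit 18) (nat_lit 4) (nat_lit 19) (nat_lit 5) (nat_lit 19) (nat_lit 4) (nat_lit 400) (nat_lit 310) (nat_lit 310)) (XT.nd (nat_lit 78) (nat_lit 152) (nat_lit 0) (XT.lf (nat_lit 0) (nat_lit 16138611125) (nat_lit 76) (nat_lit 2948958857) (nat_lit 76) (nat_lit 2701050930) (nat_lit 18) (nat_lit 4) (nat_lit 19) (nat_lit 5) (nat_lit 19) (nat_lit 4) (nat_lit 401) (nat_lit 310) (nat_lit 309)) (XT.lf (nat_lit 0) (nat_lit 3310792356) (nat_lit 152) (nat_lit 16403786583) (nat_lit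 0) (nat_lit 2849829772) (nat_lit 16) (nat_lit 5) (nat_lit 18) (nat_lit 4) (nat_lit 16) (nat_lit 4) (nat_lit 402) (nat_lit 310) (nat_lit 308)))) (XT.nd (nat_lit 78) (nat_lit 76) (nat_lit 0) (XT.lf (nat_lit 0) (nat_lit 9478336034) (nat_lit 152) (nat_lit 5097940868) (nat_lit 0) (nat_lit 8803221261) (nat_lit 16) (nat_lit 5) (nat_lit 18) (nat_lit 4) (nat_lit 16) (nat_lit 4) (nat_lit 403) (nat_lit 310) (nat_lit 307)) (XT.nd (nat_lit 78) (nat_lit 0) (nat_lit 0) (XT.lf (nat_lit 0) (nat_lit 6615910688) (nat_lit 76) (nat_lit 9251432822) (nat_lit 76) (nat_lit 8372363585) (nat_lit 15) (nat_lit 4) (nat_lit 16) (nat_lit 5) (nat_lit 16) (nat_lit 4) (nat_lit 404) (nat_lit 310) (nat_lit 306)) (XT.lf (nat_lit 0) (nat_lit 18729359125) (nat_lit 76) (nat_lit 3745960713) (nat_lit 76) (nat_lit 2672649128) (nat_lit 15) (nat_lit 4) (nat_lit 16) (nat_lit 5) (nat_lit 16) (nat_lit 4) (nat_lit 405) (nat_lit 310) (nat_lit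 305))))) (XT.nd (nat_lit 234) (nat_lit 152) (nat_lit 0) (XT.nd (nat_lit 78) (nat_lit 76) (nat_lit 0) (XT.lf (nat_lit 0) (nat_lit 3136175345) (nat_lit 152) (nat_lit 21028602939) (nat_lit 0) (nat_lit 1937790300) (nat_lit 13) (nat_lit 5) (nat_lit 15) (nat_lit 4) (nat_lit 13) (nat_lit 4) (nat_lit 406) (nat_lit 310) (nat_lit 304)) (XT.nd (nat_lit 78) (nat_lit 76) (nat_lit 0) (XT.lf (nat_lit 0) (nat_lit 9137238694) (nat_lit 152) (nat_lit 10194844084) (nat_lit 0) (nat_lit 7771059807) (nat_lit 13) (nat_lit 5) (nat_lit 15) (nat_lit 4) (nat_lit 13) (nat_lit 4) (nat_lit 407) (nat_lit 310) (nat_lit 303)) (XT.lf (nat_lit 0) (nat_lit 872936960) (nat_lit 76) (nat_lit 14407354604) (nat_lit 76) (nat_lit 12881372056) (nat_lit 12) (nat_lit 4) (nat_lit 13) (nat_lit 5) (nat_lit 13) (nat_lit 4) (nat_lit 408) (nat_lit 310) (nat_lit 302)))) (XT.nd (nat_lit 78) (nat_lit 152) (nat_lit 0) (XT.lf (nat_lit 0) (nat_lit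 12517856825) (nat_lit 76) (nat_lit 9216622846) (nat_lit 76) (nat_lit 7538446336) (nat_lit 12) (nat_lit 4) (nat_lit 13) (nat_lit 5) (nat_lit 13) (nat_lit 4) (nat_lit 409) (nat_lit 310) (nat_lit 301)) (XT.nd (nat_lit 78) (nat_lit 152) (nat_lit 0) (XT.lf (nat_lit 0) (nat_lit 24430553921) (nat_lit 76) (nat_lit 3920183237) (nat_lit 76) (nat_lit 2097060097) (nat_lit 12) (nat_lit 4) (nat_lit 13) (nat_lit 5) (nat_lit 13) (nat_lit 4) (nat_lit 410) (nat_lit 310) (nat_lit 300)) (XT.lf (nat_lit 0) (nat_lit 3449624245) (nat_lit 152) (nat_lit 26649682756) (nat_lit 0) (nat_lit 1581845626) (nat_lit 10) (nat_lit 5) (nat_lit 12) (nat_lit 4) (nat_lit 10) (nat_lit 4) (nat_lit 411) (nat_lit 310) (nat_lit 299)))))) (XT.nd (nat_lit 468) (nat_lit 152) (nat_lit 0) (XT.nd (nat_lit 234) (nat_lit 76) (nat_lit 0) (XT.nd (nat_lit 78) (nat_lit 76) (nat_lit 0) (XT.lf (nat_lit 0) (nat_lit 9215928734) (nat_lit 152) (nat_lit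 16534962192) (nat_lit 0) (nat_lit 7222939766) (nat_lit 10) (nat_lit 5) (nat_lit 12) (nat_lit 4) (nat_lit 10) (nat_lit 4) (nat_lit 412) (nat_lit 310) (nat_lit 298)) (XT.nd (nat_lit 78) (nat_lit 76) (nat_lit 0) (XT.lf (nat_lit 0) (nat_lit 15122853305) (nat_lit 152) (nat_lit 6205069033) (nat_lit 0) (nat_lit 13010616385) (nat_lit 10) (nat_lit 5) (nat_lit 12) (nat_lit 4) (nat_lit 10) (nat_lit 4) (nat_lit 413) (nat_lit 310) (nat_lit 297)) (XT.lf (nat_lit 0) (nat_lit 4508904815) (nat_lit 76) (nat_lit 16745953887) (nat_lit 76) (nat_lit 14520147491) (nat_lit 9) (nat_lit 4) (nat_lit 10) (nat_lit 5) (nat_lit 10) (nat_lit 4) (nat_lit 414) (nat_lit 310) (nat_lit 296)))) (XT.nd (nat_lit 78) (nat_lit 76) (nat_lit 0) (XT.lf (nat_lit 0) (nat_lit 15701739602) (nat_lit 76) (nat_lit 11958595967) (nat_lit 76) (nat_lit 9624628163) (nat_lit 9) (nat_lit 4) (nat_lit 10) (nat_lit 5) (nat_lit 10) (nat_lit 4) (nat_lit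 415) (nat_lit 310) (nat_lit 295)) (XT.nd (nat_lit 78) (nat_lit 76) (nat_lit 0) (XT.lf (nat_lit 0) (nat_lit 27194917328) (nat_lit 76) (nat_lit 7059535952) (nat_lit 76) (nat_lit 4622557283) (nat_lit 9) (nat_lit 4) (nat_lit 10) (nat_lit 5) (nat_lit 10) (nat_lit 4) (nat_lit 416) (nat_lit 310) (nat_lit 294)) (XT.lf (nat_lit 0) (nat_lit 482036534) (nat_lit 152) (nat_lit 1546909357) (nat_lit 76) (nat_lit 38525602646) (nat_lit 8) (nat_lit 5) (nat_lit 10) (nat_lit 5) (nat_lit 9) (nat_lit 4) (nat_lit 417) (nat_lit 310) (nat_lit 293))))) (XT.nd (nat_lit 234) (nat_lit 76) (nat_lit 0) (XT.nd (nat_lit 78) (nat_lit 0) (nat_lit 0) (XT.lf (nat_lit 0) (nat_lit 5759279477) (nat_lit 152) (nat_lit 33293336139) (nat_lit 0) (nat_lit 3255928864) (nat_lit 7) (nat_lit 5) (nat_lit 9) (nat_lit 4) (nat_lit 7) (nat_lit 4) (nat_lit 418) (nat_lit 310) (nat_lit 292)) (XT.nd (nat_lit 78) (nat_lit 0) (nat_lit 0) (XT.lf (nat_lit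 0) (nat_lit 11239204150) (nat_lit 152) (nat_lit 24262996883) (nat_lit 0) (nat_lit 8651106244) (nat_lit 7) (nat_lit 5) (nat_lit 9) (nat_lit 4) (nat_lit 7) (nat_lit 4) (nat_lit 419) (nat_lit 310) (nat_lit 291)) (XT.lf (nat_lit 0) (nat_lit 16877821291) (nat_lit 152) (nat_lit 15009248086) (nat_lit 0) (nat_lit 14209011678) (nat_lit 7) (nat_lit 5) (nat_lit 9) (nat_lit 4) (nat_lit 7) (nat_lit 4) (nat_lit 420) (nat_lit 310) (nat_lit 290)))) (XT.nd (nat_lit 156) (nat_lit 0) (nat_lit 0) (XT.nd (nat_lit 78) (nat_lit 76) (nat_lit 0) (XT.lf (nat_lit 0) (nat_lit 22688556179) (nat_lit 152) (nat_lit 5510057012) (nat_lit 0) (nat_lit 19942878273) (nat_lit 7) (nat_lit 5) (nat_lit 9) (nat_lit 4) (nat_lit 7) (nat_lit 4) (nat_lit 421) (nat_lit 310) (nat_lit 289)) (XT.lf (nat_lit 0) (nat_lit 4397955502) (nat_lit 76) (nat_lit 24355952806) (nat_lit 76) (nat_lit 21537067002) (nat_lit 6) (nat_lit 4) (nat_lit 7) (nat_lit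 5) (nat_lit 7) (nat_lit 4) (nat_lit 422) (nat_lit 310) (nat_lit 288))) (XT.nd (nat_lit 78) (nat_lit 0) (nat_lit 0) (XT.lf (nat_lit 0) (nat_lit 14789102323) (nat_lit 76) (nat_lit 20323959284) (nat_lit 76) (nat_lit 17435351673) (nat_lit 6) (nat_lit 4) (nat_lit 7) (nat_lit 5) (nat_lit 7) (nat_lit 4) (nat_lit 423) (nat_lit 310) (nat_lit 287)) (XT.lf (nat_lit 0) (nat_lit 25505936909) (nat_lit 76) (nat_lit 16186348123) (nat_lit 76) (nat_lit 13231338790) (nat_lit 6) (nat_lit 4) (nat_lit 7) (nat_lit 5) (nat_lit 7) (nat_lit 4) (nat_lit 424) (nat_lit 310) (nat_lit 286))))))) (XT.nd (nat_lit 1014) (nat_lit 0) (nat_lit 0) (XT.nd (nat_lit 468) (nat_lit 76) (nat_lit 0) (XT.nd (nat_lit 234) (nat_lit 76) (nat_lit 0) (XT.nd (nat_lit 78) (nat_lit 76) (nat_lit 0) (XT.lf (nat_lit 0) (nat_lit 36573975531) (nat_lit 76) (nat_lit 11933267867) (nat_lit 76) (nat_lit 8915018800) (nat_lit 6) (nat_lit 4) (nat_lit 7)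 (nat_lit 5) (nat_lit 7) (nat_lit 4) (nat_lit 425) (nat_lit 310) (nat_lit 285)) (XT.nd (nat_lit 78) (nat_lit 76) (nat_lit 0) (XT.lf (nat_lit 0) (nat_lit 48019570663) (nat_lit 76) (nat_lit 7554592135) (nat_lit 76) (nat_lit 4476114749) (nat_lit 6) (nat_lit 4) (nat_lit 7) (nat_lit 5) (nat_lit 7) (nat_lit 4) (nat_lit 426) (nat_lit 310) (nat_lit 284)) (XT.lf (nat_lit 0) (nat_lit 92871431) (nat_lit 152) (nat_lit 2945451254) (nat_lit 76) (nat_lit 59775529467) (nat_lit 5) (nat_lit 5) (nat_lit 7) (nat_lit 5) (nat_lit 6) (nat_lit 4) (nat_lit 427) (nat_lit 310) (nat_lit 283)))) (XT.nd (nat_lit 78) (nat_lit 0) (nat_lit 0) (XT.lf (nat_lit 0) (nat_lit 4788808851) (nat_lit 152) (nat_lit 59170416906) (nat_lit 0) (nat_lit 1750269280) (nat_lit 4) (nat_lit 5) (nat_lit 6) (nat_lit 4) (nat_lit 4) (nat_lit 4) (nat_lit 428) (nat_lit 310) (nat_lit 282)) (XT.nd (nat_lit 78) (nat_lit 0) (nat_lit 0) (XT.lf (nat_lit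 0) (nat_lit 9738365248) (nat_lit 152) (nat_lit 52360342722) (nat_lit 0) (nat_lit 6650275689) (nat_lit 4) (nat_lit 5) (nat_lit 6) (nat_lit 4) (nat_lit 4) (nat_lit 4) (nat_lit 429) (nat_lit 310) (nat_lit 281)) (XT.lf (nat_lit 0) (nat_lit 14857602460) (nat_lit 152) (nat_lit 45364416138) (nat_lit 0) (nat_lit 11722322438) (nat_lit 4) (nat_lit 5) (nat_lit 6) (nat_lit 4) (nat_lit 4) (nat_lit 4) (nat_lit 430) (nat_lit 310) (nat_lit 280))))) (XT.nd (nat_lit 234) (nat_lit 76) (nat_lit 0) (XT.nd (nat_lit 78) (nat_lit 0) (nat_lit 0) (XT.lf (nat_lit 0) (nat_lit 20158709148) (nat_lit 152) (nat_lit 38165980187) (nat_lit 0) (nat_lit 16978485828) (nat_lit 4) (nat_lit 5) (nat_lit 6) (nat_lit 4) (nat_lit 4) (nat_lit 4) (nat_lit 431) (nat_lit 310) (nat_lit 279)) (XT.nd (nat_lit 78) (nat_lit 0) (nat_lit 0) (XT.lf (nat_lit 0) (nat_lit 25654306995) (nat_lit 152) (nat_lit 30747895734) (nat_lit 0) (nat_lit 22431280533)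 (nat_lit 4) (nat_lit 5) (nat_lit 6) (nat_lit 4) (nat_lit 4) (nat_lit 4) (nat_lit 432) (nat_lit 310) (nat_lit 278)) (XT.lf (nat_lit 0) (nat_lit 31357480758) (nat_lit 152) (nat_lit 23092500674) (nat_lit 0) (nat_lit 28093689399) (nat_lit 4) (nat_lit 5) (nat_lit 6) (nat_lit 4) (nat_lit 4) (nat_lit 4) (nat_lit 433) (nat_lit 310) (nat_lit 277)))) (XT.nd (nat_lit 156) (nat_lit 76) (nat_lit 0) (XT.nd (nat_lit 78) (nat_lit 0) (nat_lit 0) (XT.lf (nat_lit 0) (nat_lit 37281809421) (nat_lit 152) (nat_lit 15181567876) (nat_lit 0) (nat_lit 33979194350) (nat_lit 4) (nat_lit 5) (nat_lit 6) (nat_lit 4) (nat_lit 4) (nat_lit 4) (nat_lit 434) (nat_lit 310) (nat_lit 276)) (XT.lf (nat_lit 0) (nat_lit 43441398529) (nat_lit 152) (nat_lit 6996261786) (nat_lit 0) (nat_lit 40101808495) (nat_lit 4) (nat_lit 5) (nat_lit 6) (nat_lit 4) (nat_lit 4) (nat_lit 4) (nat_lit 435) (nat_lit 310) (nat_lit 275))) (XT.nd (nat_lit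 78) (nat_lit 0) (nat_lit 0) (XT.lf (nat_lit 0) (nat_lit 1531938003) (nat_lit 76) (nat_lit 48342893613) (nat_lit 76) (nat_lit 44968089329) (nat_lit 3) (nat_lit 4) (nat_lit 4) (nat_lit 5) (nat_lit 4) (nat_lit 4) (nat_lit 436) (nat_lit 310) (nat_lit 274)) (XT.lf (nat_lit 0) (nat_lit 10615900347) (nat_lit 76) (nat_lit 46075459504) (nat_lit 76) (nat_lit 42667117838) (nat_lit 3) (nat_lit 4) (nat_lit 4) (nat_lit 5) (nat_lit 4) (nat_lit 4) (nat_lit 437) (nat_lit 310) (nat_lit 273)))))) (XT.nd (nat_lit 468) (nat_lit 0) (nat_lit 0) (XT.nd (nat_lit 234) (nat_lit 0) (nat_lit 0) (XT.nd (nat_lit 78) (nat_lit 0) (nat_lit 0) (XT.lf (nat_lit 0) (nat_lit 20045925716) (nat_lit 76) (nat_lit 43748444416) (nat_lit 76) (nat_lit 40308162386) (nat_lit 3) (nat_lit 4) (nat_lit 4) (nat_lit 5) (nat_lit 4) (nat_lit 4) (nat_lit 438) (nat_lit 310) (nat_lit 272)) (XT.nd (nat_lit 78) (nat_lit 0) (nat_lit 0) (XT.lf (nat_lit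 0) (nat_lit 29844466553) (nat_lit 76) (nat_lit 41356307835) (nat_lit 76) (nat_lit 37885606412) (nat_lit 3) (nat_lit 4) (nat_lit 4) (nat_lit 5) (nat_lit 4) (nat_lit 4) (nat_lit 439) (nat_lit 310) (nat_lit 271)) (XT.lf (nat_lit 0) (nat_lit 40034852715) (nat_lit 76) (nat_lit 38893354199) (nat_lit 76) (nat_lit 35393681925) (nat_lit 3) (nat_lit 4) (nat_lit 4) (nat_lit 5) (nat_lit 4) (nat_lit 4) (nat_lit 440) (nat_lit 310) (nat_lit 270)))) (XT.nd (nat_lit 78) (nat_lit 0) (nat_lit 0) (XT.lf (nat_lit 0) (nat_lit 50641347027) (nat_lit 76) (nat_lit 36353719333) (nat_lit 76) (nat_lit 32826455772) (nat_lit 3) (nat_lit 4) (nat_lit 4) (nat_lit 5) (nat_lit 4) (nat_lit 4) (nat_lit 441) (nat_lit 310) (nat_lit 269)) (XT.nd (nat_lit 78) (nat_lit 0) (nat_lit 0) (XT.lf (nat_lit 0) (nat_lit 61689203047) (nat_lit 76) (nat_lit 33731356486) (nat_lit 76) (nat_lit 30177815509) (nat_lit 3) (nat_lit 4) (nat_lit 4) (nat_lit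 5) (nat_lit 4) (nat_lit 4) (nat_lit 442) (nat_lit 310) (nat_lit 268)) (XT.lf (nat_lit 0) (nat_lit 73204725195) (nat_lit 76) (nat_lit 31020021938) (nat_lit 76) (nat_lit 27441454851) (nat_lit 3) (nat_lit 4) (nat_lit 4) (nat_lit 5) (nat_lit 4) (nat_lit 4) (nat_lit 443) (nat_lit 310) (nat_lit 267))))) (XT.nd (nat_lit 234) (nat_lit 0) (nat_lit 0) (XT.nd (nat_lit 78) (nat_lit 0) (nat_lit 0) (XT.lf (nat_lit 0) (nat_lit 85215331379) (nat_lit 76) (nat_lit 28213260130) (nat_lit 76) (nat_lit 24610858652) (nat_lit 3) (nat_lit 4) (nat_lit 4) (nat_lit 5) (nat_lit 4) (nat_lit 4) (nat_lit 444) (nat_lit 310) (nat_lit 266)) (XT.nd (nat_lit 78) (nat_lit 0) (nat_lit 0) (XT.lf (nat_lit 0) (nat_lit 97749618281) (nat_lit 76) (nat_lit 25304388296) (nat_lit 76) (nat_lit 21679287398) (nat_lit 3) (nat_lit 4) (nat_lit 4) (nat_lit 5) (nat_lit 4) (nat_lit 4) (nat_lit 445) (nat_lit 310) (nat_lit 265)) (XT.lf (nat_lit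 0) (nat_lit 110837429443) (nat_lit 76) (nat_lit 22286480551) (nat_lit 76) (nat_lit 18639761158) (nat_lit 3) (nat_lit 4) (nat_lit 4) (nat_lit 5) (nat_lit 4) (nat_lit 4) (nat_lit 446) (nat_lit 310) (nat_lit 264)))) (XT.nd (nat_lit 156) (nat_lit 0) (nat_lit 0) (XT.nd (nat_lit 78) (nat_lit 0) (nat_lit 0) (XT.lf (nat_lit 0) (nat_lit 124509926317) (nat_lit 76) (nat_lit 19152351400) (nat_lit 76) (nat_lit 15485042964) (nat_lit 3) (nat_lit 4) (nat_lit 4) (nat_lit 5) (nat_lit 4) (nat_lit 4) (nat_lit 447) (nat_lit 310) (nat_lit 263)) (XT.lf (nat_lit 0) (nat_lit 138799662470) (nat_lit 76) (nat_lit 15894538631) (nat_lit 76) (nat_lit 12207621582) (nat_lit 3) (nat_lit 4) (nat_lit 4) (nat_lit 5) (nat_lit 4) (nat_lit 4) (nat_lit 448) (nat_lit 310) (nat_lit 262))) (XT.nd (nat_lit 78) (nat_lit 0) (nat_lit 0) (XT.lf (nat_lit 0) (nat_lit 153740661082) (nat_lit 76) (nat_lit 12505285546) (nat_lit 76) (nat_lit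 8799693629) (nat_lit 3) (nat_lit 4) (nat_lit 4) (nat_lit 5) (nat_lit 4) (nat_lit 4) (nat_lit 449) (nat_lit 310) (nat_lit 261)) (XT.lf (nat_lit 0) (nat_lit 169368495959) (nat_lit 76) (nat_lit 8976522496) (nat_lit 76) (nat_lit 5253144989) (nat_lit 3) (nat_lit 4) (nat_lit 4) (nat_lit 5) (nat_lit 4) (nat_lit 4) (nat_lit 450) (nat_lit 310) (nat_lit 260))))))))
noncomputable def xc33 : XT := (XT.nd (nat_lit 1950) (nat_lit 0) (nat_lit 0) (XT.nd (nat_lit 936) (nat_lit 0) (nat_lit 0) (XT.nd (nat_lit 468) (nat_lit 0) (nat_lit 0) (XT.nd (nat_lit 234) (nat_lit 0) (nat_lit 0) (XT.nd (nat_lit 78) (nat_lit 152) (nat_lit 0) (XT.lf (nat_lit 0) (nat_lit 185720376232) (nat_lit 76) (nat_lit 5299847664) (nat_lit 76) (nat_lit 1559531500) (nat_lit 3) (nat_lit 4) (nat_lit 4) (nat_lit 5) (nat_lit 4) (nat_lit 4) (nat_lit 451) (nat_lit 310) (nat_lit 259)) (XT.nd (nat_lit 78) (nat_lit 0) (nat_lit 0) (XT.lf (nat_lit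 0) (nat_lit 813726008) (nat_lit 76) (nat_lit 1415627272) (nat_lit 152) (nat_lit 199780024727) (nat_lit 1) (nat_lit 5) (nat_lit 2) (nat_lit 5) (nat_lit 3) (nat_lit 4) (nat_lit 452) (nat_lit 310) (nat_lit 258)) (XT.lf (nat_lit 0) (nat_lit 6287068297) (nat_lit 152) (nat_lit 202920680393) (nat_lit 0) (nat_lit 2694866317) (nat_lit 1) (nat_lit 5) (nat_lit 3) (nat_lit 4) (nat_lit 1) (nat_lit 4) (nat_lit 453) (nat_lit 310) (nat_lit 257)))) (XT.nd (nat_lit 78) (nat_lit 0) (nat_lit 0) (XT.lf (nat_lit 0) (nat_lit 10544353558) (nat_lit 152) (nat_lit 204808111292) (nat_lit 0) (nat_lit 6938216104) (nat_lit 1) (nat_lit 5) (nat_lit 3) (nat_lit 4) (nat_lit 1) (nat_lit 4) (nat_lit 454) (nat_lit 310) (nat_lit 256)) (XT.nd (nat_lit 78) (nat_lit 0) (nat_lit 0) (XT.lf (nat_lit 0) (nat_lit 14989243549) (nat_lit 152) (nat_lit 206840336671) (nat_lit 0) (nat_lit 11369834214) (nat_lit 1) (nat_lit 5) (nat_lit 3) (nat_lit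 4) (nat_lit 1) (nat_lit 4) (nat_lit 455) (nat_lit 310) (nat_lit 255)) (XT.lf (nat_lit 0) (nat_lit 19632321341) (nat_lit 152) (nat_lit 209022195160) (nat_lit 0) (nat_lit 16000272120) (nat_lit 1) (nat_lit 5) (nat_lit 3) (nat_lit 4) (nat_lit 1) (nat_lit 4) (nat_lit 456) (nat_lit 310) (nat_lit 254))))) (XT.nd (nat_lit 234) (nat_lit 0) (nat_lit 0) (XT.nd (nat_lit 78) (nat_lit 0) (nat_lit 0) (XT.lf (nat_lit 0) (nat_lit 24484641881) (nat_lit 152) (nat_lit 211358881661) (nat_lit 0) (nat_lit 20840554673) (nat_lit 1) (nat_lit 5) (nat_lit 3) (nat_lit 4) (nat_lit 1) (nat_lit 4) (nat_lit 457) (nat_lit 310) (nat_lit 253)) (XT.nd (nat_lit 78) (nat_lit 0) (nat_lit 0) (XT.lf (nat_lit 0) (nat_lit 29557758313) (nat_lit 152) (nat_lit 213855959714) (nat_lit 0) (nat_lit 25902206356) (nat_lit 1) (nat_lit 5) (nat_lit 3) (nat_lit 4) (nat_lit 1) (nat_lit 4) (nat_lit 458) (nat_lit 310) (nat_lit 252)) (XT.lf (nat_lit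 0) (nat_lit 34863749487) (nat_lit 152) (nat_lit 216519374743) (nat_lit 0) (nat_lit 31197278720) (nat_lit 1) (nat_lit 5) (nat_lit 3) (nat_lit 4) (nat_lit 1) (nat_lit 4) (nat_lit 459) (nat_lit 310) (nat_lit 251)))) (XT.nd (nat_lit 78) (nat_lit 0) (nat_lit 0) (XT.lf (nat_lit 0) (nat_lit 40415248713) (nat_lit 152) (nat_lit 219355468210) (nat_lit 0) (nat_lit 36738379080) (nat_lit 1) (nat_lit 5) (nat_lit 3) (nat_lit 4) (nat_lit 1) (nat_lit 4) (nat_lit 460) (nat_lit 310) (nat_lit 250)) (XT.nd (nat_lit 78) (nat_lit 0) (nat_lit 0) (XT.lf (nat_lit 0) (nat_lit 46225473848) (nat_lit 152) (nat_lit 222370992722) (nat_lit 0) (nat_lit 42538700534) (nat_lit 1) (nat_lit 5) (nat_lit 3) (nat_lit 4) (nat_lit 1) (nat_lit 4) (nat_lit 461) (nat_lit 310) (nat_lit 249)) (XT.lf (nat_lit 0) (nat_lit 52308258761) (nat_lit 152) (nat_lit 225573128096) (nat_lit 0) (nat_lit 48612053369) (nat_lit 1) (nat_lit 5) (nat_lit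 3) (nat_lit 4) (nat_lit 1) (nat_lit 4) (nat_lit 462) (nat_lit 310) (nat_lit 248)))))) (XT.nd (nat_lit 468) (nat_lit 0) (nat_lit 0) (XT.nd (nat_lit 234) (nat_lit 0) (nat_lit 0) (XT.nd (nat_lit 78) (nat_lit 0) (nat_lit 0) (XT.lf (nat_lit 0) (nat_lit 58678086273) (nat_lit 152) (nat_lit 228969498466) (nat_lit 0) (nat_lit 54972897949) (nat_lit 1) (nat_lit 5) (nat_lit 3) (nat_lit 4) (nat_lit 1) (nat_lit 4) (nat_lit 463) (nat_lit 310) (nat_lit 247)) (XT.nd (nat_lit 78) (nat_lit 0) (nat_lit 0) (XT.lf (nat_lit 0) (nat_lit 65350122640) (nat_lit 152) (nat_lit 232568190428) (nat_lit 0) (nat_lit 61636379144) (nat_lit 1) (nat_lit 5) (nat_lit 3) (nat_lit 4) (nat_lit 1) (nat_lit 4) (nat_lit 464) (nat_lit 310) (nat_lit 246)) (XT.lf (nat_lit 0) (nat_lit 72340253663) (nat_lit 152) (nat_lit 236377772295) (nat_lit 0) (nat_lit 68618362383) (nat_lit 1) (nat_lit 5) (nat_lit 3) (nat_lit 4) (nat_lit 1) (nat_lit 4)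 (nat_lit 465) (nat_lit 310) (nat_lit 245)))) (XT.nd (nat_lit 78) (nat_lit 0) (nat_lit 0) (XT.lf (nat_lit 0) (nat_lit 79665122511) (nat_lit 152) (nat_lit 240407314501) (nat_lit 0) (nat_lit 75935471438) (nat_lit 1) (nat_lit 5) (nat_lit 3) (nat_lit 4) (nat_lit 1) (nat_lit 4) (nat_lit 466) (nat_lit 310) (nat_lit 244)) (XT.nd (nat_lit 78) (nat_lit 0) (nat_lit 0) (XT.lf (nat_lit 0) (nat_lit 87342169348) (nat_lit 152) (nat_lit 244666411193) (nat_lit 0) (nat_lit 83605127995) (nat_lit 1) (nat_lit 5) (nat_lit 3) (nat_lit 4) (nat_lit 1) (nat_lit 4) (nat_lit 467) (nat_lit 310) (nat_lit 243)) (XT.lf (nat_lit 0) (nat_lit 95389672857) (nat_lit 152) (nat_lit 249165203079) (nat_lit 0) (nat_lit 91645593143) (nat_lit 1) (nat_lit 5) (nat_lit 3) (nat_lit 4) (nat_lit 1) (nat_lit 4) (nat_lit 468) (nat_lit 310) (nat_lit 242))))) (XT.nd (nat_lit 234) (nat_lit 0) (nat_lit 0) (XT.nd (nat_lit 78) (nat_lit 0) (nat_lit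 0) (XT.lf (nat_lit 0) (nat_lit 103826793761) (nat_lit 152) (nat_lit 253914401567) (nat_lit 0) (nat_lit 100076010845) (nat_lit 1) (nat_lit 5) (nat_lit 3) (nat_lit 4) (nat_lit 1) (nat_lit 4) (nat_lit 469) (nat_lit 310) (nat_lit 241)) (XT.nd (nat_lit 78) (nat_lit 0) (nat_lit 0) (XT.lf (nat_lit 0) (nat_lit 112673620442) (nat_lit 152) (nat_lit 258925314273) (nat_lit 0) (nat_lit 108916453524) (nat_lit 1) (nat_lit 5) (nat_lit 3) (nat_lit 4) (nat_lit 1) (nat_lit 4) (nat_lit 470) (nat_lit 310) (nat_lit 240)) (XT.lf (nat_lit 0) (nat_lit 121951216775) (nat_lit 152) (nat_lit 264209871941) (nat_lit 0) (nat_lit 118187969855) (nat_lit 1) (nat_lit 5) (nat_lit 3) (nat_lit 4) (nat_lit 1) (nat_lit 4) (nat_lit 471) (nat_lit 310) (nat_lit 239)))) (XT.nd (nat_lit 156) (nat_lit 0) (nat_lit 0) (XT.nd (nat_lit 78) (nat_lit 0) (nat_lit 0) (XT.lf (nat_lit 0) (nat_lit 131681672272) (nat_lit 152) (nat_lit 269780656852)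 (nat_lit 0) (nat_lit 127912634875) (nat_lit 1) (nat_lit 5) (nat_lit 3) (nat_lit 4) (nat_lit 1) (nat_lit 4) (nat_lit 472) (nat_lit 310) (nat_lit 238)) (XT.lf (nat_lit 0) (nat_lit 141888154687) (nat_lit 152) (nat_lit 275650932779) (nat_lit 0) (nat_lit 138113602550) (nat_lit 1) (nat_lit 5) (nat_lit 3) (nat_lit 4) (nat_lit 1) (nat_lit 4) (nat_lit 473) (nat_lit 310) (nat_lit 237))) (XT.nd (nat_lit 78) (nat_lit 0) (nat_lit 0) (XT.lf (nat_lit 0) (nat_lit 152594965168) (nat_lit 152) (nat_lit 281834676570) (nat_lit 0) (nat_lit 148815160897) (nat_lit 1) (nat_lit 5) (nat_lit 3) (nat_lit 4) (nat_lit 1) (nat_lit 4) (nat_lit 474) (nat_lit 310) (nat_lit 236)) (XT.lf (nat_lit 0) (nat_lit 163827596120) (nat_lit 152) (nat_lit 288346611424) (nat_lit 0) (nat_lit 160042789816) (nat_lit 1) (nat_lit 5) (nat_lit 3) (nat_lit 4) (nat_lit 1) (nat_lit 4) (nat_lit 475) (nat_lit 310) (nat_lit 235))))))) (XT.nd (nat_lit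 47658) (nat_lit 0) (nat_lit 456) (XT.nd (nat_lit 47112) (nat_lit 0) (nat_lit 1064) (XT.nd (nat_lit 234) (nat_lit 0) (nat_lit 0) (XT.nd (nat_lit 78) (nat_lit 0) (nat_lit 0) (XT.lf (nat_lit 0) (nat_lit 175612791903) (nat_lit 152) (nat_lit 295202241947) (nat_lit 0) (nat_lit 171823221759) (nat_lit 1) (nat_lit 5) (nat_lit 3) (nat_lit 4) (nat_lit 1) (nat_lit 4) (nat_lit 476) (nat_lit 310) (nat_lit 234)) (XT.nd (nat_lit 78) (nat_lit 0) (nat_lit 0) (XT.lf (nat_lit 0) (nat_lit 187978612507) (nat_lit 152) (nat_lit 302417891071) (nat_lit 0) (nat_lit 184184505372) (nat_lit 1) (nat_lit 5) (nat_lit 3) (nat_lit 4) (nat_lit 1) (nat_lit 4) (nat_lit 477) (nat_lit 310) (nat_lit 233)) (XT.lf (nat_lit 0) (nat_lit 200954500362) (nat_lit 152) (nat_lit 310010738911) (nat_lit 0) (nat_lit 197156072284) (nat_lit 1) (nat_lit 5) (nat_lit 3) (nat_lit 4) (nat_lit 1) (nat_lit 4) (nat_lit 478) (nat_lit 310) (nat_lit 232))))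 (XT.nd (nat_lit 78) (nat_lit 0) (nat_lit 0) (XT.lf (nat_lit 0) (nat_lit 214571350439) (nat_lit 152) (nat_lit 317998863677) (nat_lit 0) (nat_lit 210768807176) (nat_lit 1) (nat_lit 5) (nat_lit 3) (nat_lit 4) (nat_lit 1) (nat_lit 4) (nat_lit 479) (nat_lit 310) (nat_lit 231)) (XT.nd (nat_lit 46722) (nat_lit 0) (nat_lit 1368) (XT.lf (nat_lit 0) (nat_lit 228861583809) (nat_lit 152) (nat_lit 326401284713) (nat_lit 0) (nat_lit 225055121323) (nat_lit 1) (nat_lit 5) (nat_lit 3) (nat_lit 4) (nat_lit 1) (nat_lit 4) (nat_lit 480) (nat_lit 310) (nat_lit 230)) (XT.lf (nat_lit 0) (nat_lit 114039613) (nat_lit 152) (nat_lit 9614572639) (nat_lit 0) (nat_lit 114039613) (nat_lit 19) (nat_lit 5) (nat_lit 21) (nat_lit 4) (nat_lit 19) (nat_lit 4) (nat_lit 398) (nat_lit 311) (nat_lit 311))))) (XT.nd (nat_lit 234) (nat_lit 228) (nat_lit 0) (XT.nd (nat_lit 78) (nat_lit 76) (nat_lit 0) (XT.lf (nat_lit 0) (nat_lit 6343709536)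 (nat_lit 152) (nat_lit 7922829529) (nat_lit 0) (nat_lit 6083406213) (nat_lit 19) (nat_lit 5) (nat_lit 21) (nat_lit 4) (nat_lit 19) (nat_lit 4) (nat_lit 399) (nat_lit 311) (nat_lit 310)) (XT.nd (nat_lit 78) (nat_lit 0) (nat_lit 0) (XT.lf (nat_lit 0) (nat_lit 3680281643) (nat_lit 76) (nat_lit 8941470243) (nat_lit 76) (nat_lit 8433258993) (nat_lit 18) (nat_lit 4) (nat_lit 19) (nat_lit 5) (nat_lit 19) (nat_lit 4) (nat_lit 400) (nat_lit 311) (nat_lit 309)) (XT.lf (nat_lit 0) (nat_lit 15758529609) (nat_lit 76) (nat_lit 3392143859) (nat_lit 76) (nat_lit 2647829822) (nat_lit 18) (nat_lit 4) (nat_lit 19) (nat_lit 5) (nat_lit 19) (nat_lit 4) (nat_lit 401) (nat_lit 311) (nat_lit 308)))) (XT.nd (nat_lit 156) (nat_lit 76) (nat_lit 0) (XT.nd (nat_lit 78) (nat_lit 0) (nat_lit 0) (XT.lf (nat_lit 0) (nat_lit 3251575112) (nat_lit 152) (nat_lit 16999668668) (nat_lit 0) (nat_lit 2328552412) (nat_lit 16) (nat_lit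 5) (nat_lit 18) (nat_lit 4) (nat_lit 16) (nat_lit 4) (nat_lit 402) (nat_lit 311) (nat_lit 307)) (XT.lf (nat_lit 0) (nat_lit 9326335233) (nat_lit 152) (nat_lit 5873840955) (nat_lit 0) (nat_lit 8199358068) (nat_lit 16) (nat_lit 5) (nat_lit 18) (nat_lit 4) (nat_lit 16) (nat_lit 4) (nat_lit 403) (nat_lit 311) (nat_lit 306))) (XT.nd (nat_lit 78) (nat_lit 0) (nat_lit 0) (XT.lf (nat_lit 0) (nat_lit 5637241356) (nat_lit 76) (nat_lit 9974456290) (nat_lit 76) (nat_lit 8653236778) (nat_lit 15) (nat_lit 4) (nat_lit 16) (nat_lit 5) (nat_lit 16) (nat_lit 4) (nat_lit 404) (nat_lit 311) (nat_lit 305)) (XT.lf (nat_lit 0) (nat_lit 17582009331) (nat_lit 76) (nat_lit 4550873646) (nat_lit 76) (nat_lit 3044661423) (nat_lit 15) (nat_lit 4) (nat_lit 16) (nat_lit 5) (nat_lit 16) (nat_lit 4) (nat_lit 405) (nat_lit 311) (nat_lit 304)))))) (XT.nd (nat_lit 468) (nat_lit 228) (nat_lit 0) (XT.nd (nat_lit 234) (nat_lit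 228) (nat_lit 0) (XT.nd (nat_lit 78) (nat_lit 0) (nat_lit 0) (XT.lf (nat_lit 0) (nat_lit 2656268832) (nat_lit 152) (nat_lit 22428176244) (nat_lit 0) (nat_lit 1053987157) (nat_lit 13) (nat_lit 5) (nat_lit 15) (nat_lit 4) (nat_lit 13) (nat_lit 4) (nat_lit 406) (nat_lit 311) (nat_lit 303)) (XT.nd (nat_lit 78) (nat_lit 0) (nat_lit 0) (XT.lf (nat_lit 0) (nat_lit 8573579674) (nat_lit 152) (nat_lit 11758127237) (nat_lit 0) (nat_lit 6811494339) (nat_lit 13) (nat_lit 5) (nat_lit 15) (nat_lit 4) (nat_lit 13) (nat_lit 4) (nat_lit 407) (nat_lit 311) (nat_lit 302)) (XT.lf (nat_lit 0) (nat_lit 14623239260) (nat_lit 152) (nat_lit 874199765) (nat_lit 0) (nat_lit 12708959963) (nat_lit 13) (nat_lit 5) (nat_lit 15) (nat_lit 4) (nat_lit 13) (nat_lit 4) (nat_lit 408) (nat_lit 311) (nat_lit 301)))) (XT.nd (nat_lit 78) (nat_lit 152) (nat_lit 0) (XT.lf (nat_lit 0) (nat_lit 10588415710) (nat_lit 76) (nat_lit 10396550672)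 (nat_lit 76) (nat_lit 8337324745) (nat_lit 12) (nat_lit 4) (nat_lit 13) (nat_lit 5) (nat_lit 13) (nat_lit 4) (nat_lit 409) (nat_lit 311) (nat_lit 300)) (XT.nd (nat_lit 78) (nat_lit 152) (nat_lit 0) (XT.lf (nat_lit 0) (nat_lit 22355018144) (nat_lit 76) (nat_lit 5171576215) (nat_lit 76) (nat_lit 2974305878) (nat_lit 12) (nat_lit 4) (nat_lit 13) (nat_lit 5) (nat_lit 13) (nat_lit 4) (nat_lit 410) (nat_lit 311) (nat_lit 299)) (XT.lf (nat_lit 0) (nat_lit 2470373608) (nat_lit 152) (nat_lit 29018551872) (nat_lit 0) (nat_lit 252524842) (nat_lit 10) (nat_lit 5) (nat_lit 12) (nat_lit 4) (nat_lit 10) (nat_lit 4) (nat_lit 411) (nat_lit 311) (nat_lit 298))))) (XT.nd (nat_lit 234) (nat_lit 152) (nat_lit 0) (XT.nd (nat_lit 78) (nat_lit 76) (nat_lit 0) (XT.lf (nat_lit 0) (nat_lit 8164631685) (nat_lit 152) (nat_lit 19045569569) (nat_lit 0) (nat_lit 5827534969) (nat_lit 10) (nat_lit 5) (nat_lit 12) (nat_lit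 4) (nat_lit 10) (nat_lit 4) (nat_lit 412) (nat_lit 311) (nat_lit 297)) (XT.nd (nat_lit 78) (nat_lit 76) (nat_lit 0) (XT.lf (nat_lit 0) (nat_lit 14002940626) (nat_lit 152) (nat_lit 8850665230) (nat_lit 0) (nat_lit 11552274432) (nat_lit 10) (nat_lit 5) (nat_lit 12) (nat_lit 4) (nat_lit 10) (nat_lit 4) (nat_lit 413) (nat_lit 311) (nat_lit 296)) (XT.lf (nat_lit 0) (nat_lit 1643021680) (nat_lit 76) (nat_lit 18381831658) (nat_lit 76) (nat_lit 15823004056) (nat_lit 9) (nat_lit 4) (nat_lit 10) (nat_lit 5) (nat_lit 10) (nat_lit 4) (nat_lit 414) (nat_lit 311) (nat_lit 295)))) (XT.nd (nat_lit 156) (nat_lit 152) (nat_lit 0) (XT.nd (nat_lit 78) (nat_lit 0) (nat_lit 0) (XT.lf (nat_lit 0) (nat_lit 12709369247) (nat_lit 76) (nat_lit 13656749738) (nat_lit 76) (nat_lit 10994911272) (nat_lit 9) (nat_lit 4) (nat_lit 10) (nat_lit 5) (nat_lit 10) (nat_lit 4) (nat_lit 415) (nat_lit 311) (nat_lit 294)) (XT.lf (nat_lit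 0) (nat_lit 24082082955) (nat_lit 76) (nat_lit 8817000200) (nat_lit 76) (nat_lit 6057056149) (nat_lit 9) (nat_lit 4) (nat_lit 10) (nat_lit 5) (nat_lit 10) (nat_lit 4) (nat_lit 416) (nat_lit 311) (nat_lit 293))) (XT.nd (nat_lit 78) (nat_lit 152) (nat_lit 0) (XT.lf (nat_lit 0) (nat_lit 35788240692) (nat_lit 76) (nat_lit 3851059830) (nat_lit 76) (nat_lit 997681889) (nat_lit 9) (nat_lit 4) (nat_lit 10) (nat_lit 5) (nat_lit 10) (nat_lit 4) (nat_lit 417) (nat_lit 311) (nat_lit 292)) (XT.lf (nat_lit 0) (nat_lit 4169858373) (nat_lit 152) (nat_lit 36861376188) (nat_lit 0) (nat_lit 1367608280) (nat_lit 7) (nat_lit 5) (nat_lit 9) (nat_lit 4) (nat_lit 7) (nat_lit 4) (nat_lit 418) (nat_lit 311) (nat_lit 291))))))))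
noncomputable def xc34 : XT := (XT.nd (nat_lit 1950) (nat_lit 152) (nat_lit 0) (XT.nd (nat_lit 936) (nat_lit 76) (nat_lit 0) (XT.nd (nat_lit 468) (nat_lit 152) (nat_lit 0) (XT.nd (nat_lit 234) (nat_lit 76) (nat_lit 0) (XT.nd (nat_lit 78) (nat_lit 0) (nat_lit 0) (XT.lf (nat_lit 0) (nat_lit 9593537307) (nat_lit 152) (nat_lit 27942308845) (nat_lit 0) (nat_lit 6710575506) (nat_lit 7) (nat_lit 5) (nat_lit 9) (nat_lit 4) (nat_lit 7) (nat_lit 4) (nat_lit 419) (nat_lit 311) (nat_lit 290)) (XT.nd (nat_lit 78) (nat_lit 0) (nat_lit 0) (XT.lf (nat_lit 0) (nat_lit 15178587077) (nat_lit 152) (nat_lit 18794533298) (nat_lit 0) (nat_lit 12218756984) (nat_lit 7) (nat_lit 5) (nat_lit 9) (nat_lit 4) (nat_lit 7) (nat_lit 4) (nat_lit 420) (nat_lit 311) (nat_lit 289)) (XT.lf (nat_lit 0) (nat_lit 20938305422) (nat_lit 152) (nat_lit 9396269128) (nat_lit 0) (nat_lit 17905267431) (nat_lit 7) (nat_lit 5) (nat_lit 9)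 (nat_lit 4) (nat_lit 7) (nat_lit 4) (nat_lit 421) (nat_lit 311) (nat_lit 288)))) (XT.nd (nat_lit 78) (nat_lit 0) (nat_lit 0) (XT.lf (nat_lit 0) (nat_lit 283948610) (nat_lit 76) (nat_lit 26606890579) (nat_lit 76) (nat_lit 23504130780) (nat_lit 6) (nat_lit 4) (nat_lit 7) (nat_lit 5) (nat_lit 7) (nat_lit 4) (nat_lit 422) (nat_lit 311) (nat_lit 287)) (XT.nd (nat_lit 78) (nat_lit 0) (nat_lit 0) (XT.lf (nat_lit 0) (nat_lit 10580524906) (nat_lit 76) (nat_lit 22621717563) (nat_lit 76) (nat_lit 19452556043) (nat_lit 6) (nat_lit 4) (nat_lit 7) (nat_lit 5) (nat_lit 7) (nat_lit 4) (nat_lit 423) (nat_lit 311) (nat_lit 286)) (XT.lf (nat_lit 0) (nat_lit 21207292325) (nat_lit 76) (nat_lit 18528697360) (nat_lit 76) (nat_lit 15296296105) (nat_lit 6) (nat_lit 4) (nat_lit 7) (nat_lit 5) (nat_lit 7) (nat_lit 4) (nat_lit 424) (nat_lit 311) (nat_lit 285))))) (XT.nd (nat_lit 234) (nat_lit 152) (nat_lit 0) (XT.nd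 (nat_lit 78) (nat_lit 0) (nat_lit 0) (XT.lf (nat_lit 0) (nat_lit 32189552693) (nat_lit 76) (nat_lit 14318084683) (nat_lit 76) (nat_lit 11025455109) (nat_lit 6) (nat_lit 4) (nat_lit 7) (nat_lit 5) (nat_lit 7) (nat_lit 4) (nat_lit 425) (nat_lit 311) (nat_lit 284)) (XT.nd (nat_lit 78) (nat_lit 0) (nat_lit 0) (XT.lf (nat_lit 0) (nat_lit 43553454249) (nat_lit 76) (nat_lit 9979854264) (nat_lit 76) (nat_lit 6629864386) (nat_lit 6) (nat_lit 4) (nat_lit 7) (nat_lit 5) (nat_lit 7) (nat_lit 4) (nat_lit 426) (nat_lit 311) (nat_lit 283)) (XT.lf (nat_lit 0) (nat_lit 55326053902) (nat_lit 76) (nat_lit 5503676983) (nat_lit 76) (nat_lit 2099058245) (nat_lit 6) (nat_lit 4) (nat_lit 7) (nat_lit 5) (nat_lit 7) (nat_lit 4) (nat_lit 427) (nat_lit 311) (nat_lit 282)))) (XT.nd (nat_lit 78) (nat_lit 0) (nat_lit 0) (XT.lf (nat_lit 0) (nat_lit 1713450884) (nat_lit 76) (nat_lit 808547704) (nat_lit 152) (nat_lit 63311177505)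 (nat_lit 4) (nat_lit 5) (nat_lit 5) (nat_lit 5) (nat_lit 6) (nat_lit 4) (nat_lit 428) (nat_lit 311) (nat_lit 281)) (XT.nd (nat_lit 78) (nat_lit 0) (nat_lit 0) (XT.lf (nat_lit 0) (nat_lit 7420981532) (nat_lit 152) (nat_lit 57372466993) (nat_lit 0) (nat_lit 4081747045) (nat_lit 4) (nat_lit 5) (nat_lit 6) (nat_lit 4) (nat_lit 4) (nat_lit 4) (nat_lit 429) (nat_lit 311) (nat_lit 280)) (XT.lf (nat_lit 0) (nat_lit 12504076118) (nat_lit 152) (nat_lit 50448387708) (nat_lit 0) (nat_lit 9119898332) (nat_lit 4) (nat_lit 5) (nat_lit 6) (nat_lit 4) (nat_lit 4) (nat_lit 4) (nat_lit 430) (nat_lit 311) (nat_lit 279)))))) (XT.nd (nat_lit 468) (nat_lit 76) (nat_lit 0) (XT.nd (nat_lit 234) (nat_lit 0) (nat_lit 0) (XT.nd (nat_lit 78) (nat_lit 0) (nat_lit 0) (XT.lf (nat_lit 0) (nat_lit 17770761257) (nat_lit 152) (nat_lit 43318377755) (nat_lit 0) (nat_lit 14343780330) (nat_lit 4) (nat_lit 5) (nat_lit 6) (nat_lit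 4) (nat_lit 4) (nat_lit 4) (nat_lit 431) (nat_lit 311) (nat_lit 278)) (XT.nd (nat_lit 78) (nat_lit 0) (nat_lit 0) (XT.lf (nat_lit 0) (nat_lit 23233576676) (nat_lit 152) (nat_lit 35965460919) (nat_lit 0) (nat_lit 19765830852) (nat_lit 4) (nat_lit 5) (nat_lit 6) (nat_lit 4) (nat_lit 4) (nat_lit 4) (nat_lit 432) (nat_lit 311) (nat_lit 277)) (XT.lf (nat_lit 0) (nat_lit 28905529079) (nat_lit 152) (nat_lit 28372130257) (nat_lit 0) (nat_lit 25398959544) (nat_lit 4) (nat_lit 5) (nat_lit 6) (nat_lit 4) (nat_lit 4) (nat_lit 4) (nat_lit 433) (nat_lit 311) (nat_lit 276)))) (XT.nd (nat_lit 78) (nat_lit 0) (nat_lit 0) (XT.lf (nat_lit 0) (nat_lit 34800123114) (nat_lit 152) (nat_lit 20520306409) (nat_lit 0) (nat_lit 31256578615) (nat_lit 4) (nat_lit 5) (nat_lit 6) (nat_lit 4) (nat_lit 4) (nat_lit 4) (nat_lit 434) (nat_lit 311) (nat_lit 275)) (XT.nd (nat_lit 78) (nat_lit 0) (nat_lit 0) (XT.lf (nat_lit 0)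 (nat_lit 40931393528) (nat_lit 152) (nat_lit 12391294557) (nat_lit 0) (nat_lit 37352634779) (nat_lit 4) (nat_lit 5) (nat_lit 6) (nat_lit 4) (nat_lit 4) (nat_lit 4) (nat_lit 435) (nat_lit 311) (nat_lit 274)) (XT.lf (nat_lit 0) (nat_lit 47313938585) (nat_lit 152) (nat_lit 3965739911) (nat_lit 0) (nat_lit 43701642455) (nat_lit 4) (nat_lit 5) (nat_lit 6) (nat_lit 4) (nat_lit 4) (nat_lit 4) (nat_lit 436) (nat_lit 311) (nat_lit 273))))) (XT.nd (nat_lit 234) (nat_lit 0) (nat_lit 0) (XT.nd (nat_lit 78) (nat_lit 0) (nat_lit 0) (XT.lf (nat_lit 0) (nat_lit 4934348336) (nat_lit 76) (nat_lit 49105645490) (nat_lit 76) (nat_lit 45461408996) (nat_lit 3) (nat_lit 4) (nat_lit 4) (nat_lit 5) (nat_lit 4) (nat_lit 4) (nat_lit 437) (nat_lit 311) (nat_lit 272)) (XT.nd (nat_lit 78) (nat_lit 0) (nat_lit 0) (XT.lf (nat_lit 0) (nat_lit 14314136729) (nat_lit 76) (nat_lit 46803620286) (nat_lit 76) (nat_lit 43128964398)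 (nat_lit 3) (nat_lit 4) (nat_lit 4) (nat_lit 5) (nat_lit 4) (nat_lit 4) (nat_lit 438) (nat_lit 311) (nat_lit 271)) (XT.lf (nat_lit 0) (nat_lit 24064832826) (nat_lit 76) (nat_lit 44435283595) (nat_lit 76) (nat_lit 40731656856) (nat_lit 3) (nat_lit 4) (nat_lit 4) (nat_lit 5) (nat_lit 4) (nat_lit 4) (nat_lit 439) (nat_lit 311) (nat_lit 270)))) (XT.nd (nat_lit 156) (nat_lit 0) (nat_lit 0) (XT.nd (nat_lit 78) (nat_lit 0) (nat_lit 0) (XT.lf (nat_lit 0) (nat_lit 34209652569) (nat_lit 76) (nat_lit 41994996521) (nat_lit 76) (nat_lit 38263778495) (nat_lit 3) (nat_lit 4) (nat_lit 4) (nat_lit 5) (nat_lit 4) (nat_lit 4) (nat_lit 440) (nat_lit 311) (nat_lit 269)) (XT.lf (nat_lit 0) (nat_lit 44772750293) (nat_lit 76) (nat_lit 39476948856) (nat_lit 76) (nat_lit 35719453414) (nat_lit 3) (nat_lit 4) (nat_lit 4) (nat_lit 5) (nat_lit 4) (nat_lit 4) (nat_lit 441) (nat_lit 311) (nat_lit 268))) (XT.nd (nat_lit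 78) (nat_lit 0) (nat_lit 0) (XT.lf (nat_lit 0) (nat_lit 55779276228) (nat_lit 76) (nat_lit 36875145248) (nat_lit 76) (nat_lit 33092623697) (nat_lit 3) (nat_lit 4) (nat_lit 4) (nat_lit 5) (nat_lit 4) (nat_lit 4) (nat_lit 442) (nat_lit 311) (nat_lit 267)) (XT.lf (nat_lit 0) (nat_lit 67255436390) (nat_lit 76) (nat_lit 34183390929) (nat_lit 76) (nat_lit 30377034986) (nat_lit 3) (nat_lit 4) (nat_lit 4) (nat_lit 5) (nat_lit 4) (nat_lit 4) (nat_lit 443) (nat_lit 311) (nat_lit 266))))))) (XT.nd (nat_lit 1014) (nat_lit 0) (nat_lit 0) (XT.nd (nat_lit 468) (nat_lit 152) (nat_lit 0) (XT.nd (nat_lit 234) (nat_lit 0) (nat_lit 0) (XT.nd (nat_lit 78) (nat_lit 0) (nat_lit 0) (XT.lf (nat_lit 0) (nat_lit 79228554969) (nat_lit 76) (nat_lit 31395276957) (nat_lit 76) (nat_lit 27566221594) (nat_lit 3) (nat_lit 4) (nat_lit 4) (nat_lit 5) (nat_lit 4) (nat_lit 4) (nat_lit 444) (nat_lit 311) (nat_lit 265)) (XT.nd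 (nat_lit 78) (nat_lit 0) (nat_lit 0) (XT.lf (nat_lit 0) (nat_lit 91727139390) (nat_lit 76) (nat_lit 28504164967) (nat_lit 76) (nat_lit 24653491109) (nat_lit 3) (nat_lit 4) (nat_lit 4) (nat_lit 5) (nat_lit 4) (nat_lit 4) (nat_lit 445) (nat_lit 311) (nat_lit 264)) (XT.lf (nat_lit 0) (nat_lit 104780948188) (nat_lit 76) (nat_lit 25503171359) (nat_lit 76) (nat_lit 21631908458) (nat_lit 3) (nat_lit 4) (nat_lit 4) (nat_lit 5) (nat_lit 4) (nat_lit 4) (nat_lit 446) (nat_lit 311) (nat_lit 263)))) (XT.nd (nat_lit 78) (nat_lit 0) (nat_lit 0) (XT.lf (nat_lit 0) (nat_lit 118421061860) (nat_lit 76) (nat_lit 22385150910) (nat_lit 76) (nat_lit 18494279397) (nat_lit 3) (nat_lit 4) (nat_lit 4) (nat_lit 5) (nat_lit 4) (nat_lit 4) (nat_lit 447) (nat_lit 311) (nat_lit 262)) (XT.nd (nat_lit 78) (nat_lit 0) (nat_lit 0) (XT.lf (nat_lit 0) (nat_lit 132679956867) (nat_lit 76) (nat_lit 19142679762) (nat_lit 76) (nat_lit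 15233133380) (nat_lit 3) (nat_lit 4) (nat_lit 4) (nat_lit 5) (nat_lit 4) (nat_lit 4) (nat_lit 448) (nat_lit 311) (nat_lit 261)) (XT.lf (nat_lit 0) (nat_lit 147591582959) (nat_lit 76) (nat_lit 15768037745) (nat_lit 76) (nat_lit 11840705773) (nat_lit 3) (nat_lit 4) (nat_lit 4) (nat_lit 5) (nat_lit 4) (nat_lit 4) (nat_lit 449) (nat_lit 311) (nat_lit 260))))) (XT.nd (nat_lit 234) (nat_lit 152) (nat_lit 0) (XT.nd (nat_lit 78) (nat_lit 0) (nat_lit 0) (XT.lf (nat_lit 0) (nat_lit 163191444008) (nat_lit 76) (nat_lit 12253189998) (nat_lit 76) (nat_lit 8308919369) (nat_lit 3) (nat_lit 4) (nat_lit 4) (nat_lit 5) (nat_lit 4) (nat_lit 4) (nat_lit 450) (nat_lit 311) (nat_lit 259)) (XT.nd (nat_lit 78) (nat_lit 0) (nat_lit 0) (XT.lf (nat_lit 0) (nat_lit 179516682539) (nat_lit 76) (nat_lit 8589767834) (nat_lit 76) (nat_lit 4629365152) (nat_lit 3) (nat_lit 4) (nat_lit 4) (nat_lit 5) (nat_lit 4) (nat_lit 4)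 (nat_lit 451) (nat_lit 311) (nat_lit 258)) (XT.lf (nat_lit 0) (nat_lit 196606168170) (nat_lit 76) (nat_lit 4769048822) (nat_lit 76) (nat_lit 793282278) (nat_lit 3) (nat_lit 4) (nat_lit 4) (nat_lit 5) (nat_lit 4) (nat_lit 4) (nat_lit 452) (nat_lit 311) (nat_lit 257)))) (XT.nd (nat_lit 156) (nat_lit 0) (nat_lit 0) (XT.nd (nat_lit 78) (nat_lit 0) (nat_lit 0) (XT.lf (nat_lit 0) (nat_lit 2455009305) (nat_lit 76) (nat_lit 689092205) (nat_lit 152) (nat_lit 208925540733) (nat_lit 1) (nat_lit 5) (nat_lit 2) (nat_lit 5) (nat_lit 3) (nat_lit 4) (nat_lit 453) (nat_lit 311) (nat_lit 256)) (XT.lf (nat_lit 0) (nat_lit 7378306388) (nat_lit 152) (nat_lit 211515901730) (nat_lit 0) (nat_lit 3564654705) (nat_lit 1) (nat_lit 5) (nat_lit 3) (nat_lit 4) (nat_lit 1) (nat_lit 4) (nat_lit 454) (nat_lit 311) (nat_lit 255))) (XT.nd (nat_lit 78) (nat_lit 0) (nat_lit 0) (XT.lf (nat_lit 0) (nat_lit 11811461404) (nat_lit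 152) (nat_lit 213571552397) (nat_lit 0) (nat_lit 7985169835) (nat_lit 1) (nat_lit 5) (nat_lit 3) (nat_lit 4) (nat_lit 1) (nat_lit 4) (nat_lit 455) (nat_lit 311) (nat_lit 254)) (XT.lf (nat_lit 0) (nat_lit 16443363029) (nat_lit 152) (nat_lit 215775720686) (nat_lit 0) (nat_lit 12605033473) (nat_lit 1) (nat_lit 5) (nat_lit 3) (nat_lit 4) (nat_lit 1) (nat_lit 4) (nat_lit 456) (nat_lit 311) (nat_lit 253)))))) (XT.nd (nat_lit 468) (nat_lit 0) (nat_lit 0) (XT.nd (nat_lit 234) (nat_lit 0) (nat_lit 0) (XT.nd (nat_lit 78) (nat_lit 0) (nat_lit 0) (XT.lf (nat_lit 0) (nat_lit 21285039601) (nat_lit 152) (nat_lit 218133654615) (nat_lit 0) (nat_lit 17435245296) (nat_lit 1) (nat_lit 5) (nat_lit 3) (nat_lit 4) (nat_lit 1) (nat_lit 4) (nat_lit 457) (nat_lit 311) (nat_lit 252)) (XT.nd (nat_lit 78) (nat_lit 0) (nat_lit 0) (XT.lf (nat_lit 0) (nat_lit 26348018921) (nat_lit 152) (nat_lit 220650968313) (nat_lit 0)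 (nat_lit 22487305806) (nat_lit 1) (nat_lit 5) (nat_lit 3) (nat_lit 4) (nat_lit 1) (nat_lit 4) (nat_lit 458) (nat_lit 311) (nat_lit 251)) (XT.lf (nat_lit 0) (nat_lit 31644355701) (nat_lit 152) (nat_lit 223333655384) (nat_lit 0) (nat_lit 27773243721) (nat_lit 1) (nat_lit 5) (nat_lit 3) (nat_lit 4) (nat_lit 1) (nat_lit 4) (nat_lit 459) (nat_lit 311) (nat_lit 250)))) (XT.nd (nat_lit 78) (nat_lit 0) (nat_lit 0) (XT.lf (nat_lit 0) (nat_lit 37186660267) (nat_lit 152) (nat_lit 226188103179) (nat_lit 0) (nat_lit 33305644606) (nat_lit 1) (nat_lit 5) (nat_lit 3) (nat_lit 4) (nat_lit 1) (nat_lit 4) (nat_lit 460) (nat_lit 311) (nat_lit 249)) (XT.nd (nat_lit 78) (nat_lit 0) (nat_lit 0) (XT.lf (nat_lit 0) (nat_lit 42988128584) (nat_lit 152) (nat_lit 229221108001) (nat_lit 0) (nat_lit 39097680844) (nat_lit 1) (nat_lit 5) (nat_lit 3) (nat_lit 4) (nat_lit 1) (nat_lit 4) (nat_lit 461) (nat_lit 311) (nat_lit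 248)) (XT.lf (nat_lit 0) (nat_lit 49062573669) (nat_lit 152) (nat_lit 232439891291) (nat_lit 0) (nat_lit 45163142998) (nat_lit 1) (nat_lit 5) (nat_lit 3) (nat_lit 4) (nat_lit 1) (nat_lit 4) (nat_lit 462) (nat_lit 311) (nat_lit 247))))) (XT.nd (nat_lit 234) (nat_lit 0) (nat_lit 0) (XT.nd (nat_lit 78) (nat_lit 0) (nat_lit 0) (XT.lf (nat_lit 0) (nat_lit 55424458488) (nat_lit 152) (nat_lit 235852116819) (nat_lit 0) (nat_lit 51516472644) (nat_lit 1) (nat_lit 5) (nat_lit 3) (nat_lit 4) (nat_lit 1) (nat_lit 4) (nat_lit 463) (nat_lit 311) (nat_lit 246)) (XT.nd (nat_lit 78) (nat_lit 0) (nat_lit 0) (XT.lf (nat_lit 0) (nat_lit 62088930386) (nat_lit 152) (nat_lit 239465908930) (nat_lit 0) (nat_lit 58172796759) (nat_lit 1) (nat_lit 5) (nat_lit 3) (nat_lit 4) (nat_lit 1) (nat_lit 4) (nat_lit 464) (nat_lit 311) (nat_lit 245)) (XT.lf (nat_lit 0) (nat_lit 69071857152) (nat_lit 152) (nat_lit 243289871893)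 (nat_lit 0) (nat_lit 65147963731) (nat_lit 1) (nat_lit 5) (nat_lit 3) (nat_lit 4) (nat_lit 1) (nat_lit 4) (nat_lit 465) (nat_lit 311) (nat_lit 244)))) (XT.nd (nat_lit 156) (nat_lit 0) (nat_lit 0) (XT.nd (nat_lit 78) (nat_lit 0) (nat_lit 0) (XT.lf (nat_lit 0) (nat_lit 76389864803) (nat_lit 152) (nat_lit 247333110380) (nat_lit 0) (nat_lit 72458581103) (nat_lit 1) (nat_lit 5) (nat_lit 3) (nat_lit 4) (nat_lit 1) (nat_lit 4) (nat_lit 466) (nat_lit 311) (nat_lit 243)) (XT.lf (nat_lit 0) (nat_lit 84060377167) (nat_lit 152) (nat_lit 251605251149) (nat_lit 0) (nat_lit 80122055105) (nat_lit 1) (nat_lit 5) (nat_lit 3) (nat_lit 4) (nat_lit 1) (nat_lit 4) (nat_lit 467) (nat_lit 311) (nat_lit 242))) (XT.nd (nat_lit 78) (nat_lit 0) (nat_lit 0) (XT.lf (nat_lit 0) (nat_lit 92101657369) (nat_lit 152) (nat_lit 256116465966) (nat_lit 0) (nat_lit 88156632105) (nat_lit 1) (nat_lit 5) (nat_lit 3) (nat_lit 4) (nat_lit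 1) (nat_lit 4) (nat_lit 468) (nat_lit 311) (nat_lit 241)) (XT.lf (nat_lit 0) (nat_lit 100532851313) (nat_lit 152) (nat_lit 260877495817) (nat_lit 0) (nat_lit 96581442047) (nat_lit 1) (nat_lit 5) (nat_lit 3) (nat_lit 4) (nat_lit 1) (nat_lit 4) (nat_lit 469) (nat_lit 311) (nat_lit 240))))))))
noncomputable def xc35 : XT := (XT.nd (nat_lit 48438) (nat_lit 0) (nat_lit 228) (XT.nd (nat_lit 47424) (nat_lit 0) (nat_lit 836) (XT.nd (nat_lit 468) (nat_lit 0) (nat_lit 0) (XT.nd (nat_lit 234) (nat_lit 0) (nat_lit 0) (XT.nd (nat_lit 78) (nat_lit 0) (nat_lit 0) (XT.lf (nat_lit 0) (nat_lit 109374033270) (nat_lit 152) (nat_lit 265899676487) (nat_lit 0) (nat_lit 105416544004) (nat_lit 1) (nat_lit 5) (nat_lit 3) (nat_lit 4) (nat_lit 1) (nat_lit 4) (nat_lit 470) (nat_lit 311) (nat_lit 239)) (XT.nd (nat_lit 78) (nat_lit 0) (nat_lit 0) (XT.lf (nat_lit 0) (nat_lit 118646253675) (nat_lit 152) (nat_lit 271194965550)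 (nat_lit 0) (nat_lit 114682973931) (nat_lit 1) (nat_lit 5) (nat_lit 3) (nat_lit 4) (nat_lit 1) (nat_lit 4) (nat_lit 471) (nat_lit 311) (nat_lit 238)) (XT.lf (nat_lit 0) (nat_lit 128371589243) (nat_lit 152) (nat_lit 276775970837) (nat_lit 0) (nat_lit 124402794758) (nat_lit 1) (nat_lit 5) (nat_lit 3) (nat_lit 4) (nat_lit 1) (nat_lit 4) (nat_lit 472) (nat_lit 311) (nat_lit 237)))) (XT.nd (nat_lit 78) (nat_lit 0) (nat_lit 0) (XT.lf (nat_lit 0) (nat_lit 138573195533) (nat_lit 152) (nat_lit 282655980455) (nat_lit 0) (nat_lit 134599148914) (nat_lit 1) (nat_lit 5) (nat_lit 3) (nat_lit 4) (nat_lit 1) (nat_lit 4) (nat_lit 473) (nat_lit 311) (nat_lit 236)) (XT.nd (nat_lit 78) (nat_lit 0) (nat_lit 0) (XT.lf (nat_lit 0) (nat_lit 149275362086) (nat_lit 152) (nat_lit 288848994428) (nat_lit 0) (nat_lit 145296313434) (nat_lit 1) (nat_lit 5) (nat_lit 3) (nat_lit 4) (nat_lit 1) (nat_lit 4) (nat_lit 474) (nat_lit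 311) (nat_lit 235)) (XT.lf (nat_lit 0) (nat_lit 160503570249) (nat_lit 152) (nat_lit 295369758027) (nat_lit 0) (nat_lit 156519757758) (nat_lit 1) (nat_lit 5) (nat_lit 3) (nat_lit 4) (nat_lit 1) (nat_lit 4) (nat_lit 475) (nat_lit 311) (nat_lit 234))))) (XT.nd (nat_lit 234) (nat_lit 0) (nat_lit 0) (XT.nd (nat_lit 78) (nat_lit 0) (nat_lit 0) (XT.lf (nat_lit 0) (nat_lit 172284553852) (nat_lit 152) (nat_lit 302233796879) (nat_lit 0) (nat_lit 168296204370) (nat_lit 1) (nat_lit 5) (nat_lit 3) (nat_lit 4) (nat_lit 1) (nat_lit 4) (nat_lit 476) (nat_lit 311) (nat_lit 233)) (XT.nd (nat_lit 78) (nat_lit 0) (nat_lit 0) (XT.lf (nat_lit 0) (nat_lit 184646362857) (nat_lit 152) (nat_lit 309457453935) (nat_lit 0) (nat_lit 180653692431) (nat_lit 1) (nat_lit 5) (nat_lit 3) (nat_lit 4) (nat_lit 1) (nat_lit 4) (nat_lit 477) (nat_lit 311) (nat_lit 232)) (XT.lf (nat_lit 0) (nat_lit 197618430140) (nat_lit 152) (nat_lit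 317057928377) (nat_lit 0) (nat_lit 193621644530) (nat_lit 1) (nat_lit 5) (nat_lit 3) (nat_lit 4) (nat_lit 1) (nat_lit 4) (nat_lit 478) (nat_lit 311) (nat_lit 231)))) (XT.nd (nat_lit 78) (nat_lit 0) (nat_lit 0) (XT.lf (nat_lit 0) (nat_lit 211231641578) (nat_lit 152) (nat_lit 325053316573) (nat_lit 0) (nat_lit 207230936745) (nat_lit 1) (nat_lit 5) (nat_lit 3) (nat_lit 4) (nat_lit 1) (nat_lit 4) (nat_lit 479) (nat_lit 311) (nat_lit 230)) (XT.nd (nat_lit 46566) (nat_lit 0) (nat_lit 1596) (XT.lf (nat_lit 0) (nat_lit 225518409578) (nat_lit 152) (nat_lit 333462655162) (nat_lit 0) (nat_lit 221513972151) (nat_lit 1) (nat_lit 5) (nat_lit 3) (nat_lit 4) (nat_lit 1) (nat_lit 4) (nat_lit 480) (nat_lit 311) (nat_lit 229)) (XT.lf (nat_lit 0) (nat_lit 3659019411) (nat_lit 152) (nat_lit 1899669019) (nat_lit 0) (nat_lit 3659019411) (nat_lit 22) (nat_lit 5) (nat_lit 24) (nat_lit 4) (nat_lit 22) (nat_lit 4)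 (nat_lit 396) (nat_lit 312) (nat_lit 312)))))) (XT.nd (nat_lit 468) (nat_lit 304) (nat_lit 0) (XT.nd (nat_lit 234) (nat_lit 228) (nat_lit 0) (XT.nd (nat_lit 78) (nat_lit 152) (nat_lit 0) (XT.lf (nat_lit 0) (nat_lit 7906147938) (nat_lit 76) (nat_lit 5712694145) (nat_lit 76) (nat_lit 5425709731) (nat_lit 21) (nat_lit 4) (nat_lit 22) (nat_lit 5) (nat_lit 22) (nat_lit 4) (nat_lit 397) (nat_lit 312) (nat_lit 311)) (XT.nd (nat_lit 78) (nat_lit 0) (nat_lit 0) (XT.lf (nat_lit 0) (nat_lit 261158592) (nat_lit 76) (nat_lit 139554331) (nat_lit 152) (nat_lit 19289637087) (nat_lit 19) (nat_lit 5) (nat_lit 20) (nat_lit 5) (nat_lit 21) (nat_lit 4) (nat_lit 398) (nat_lit 312) (nat_lit 310)) (XT.lf (nat_lit 0) (nat_lit 6416199041) (nat_lit 152) (nat_lit 8309141889) (nat_lit 0) (nat_lit 5634669302) (nat_lit 19) (nat_lit 5) (nat_lit 21) (nat_lit 4) (nat_lit 19) (nat_lit 4) (nat_lit 399) (nat_lit 312) (nat_lit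 309)))) (XT.nd (nat_lit 78) (nat_lit 152) (nat_lit 0) (XT.lf (nat_lit 0) (nat_lit 3095790433) (nat_lit 76) (nat_lit 9496025070) (nat_lit 76) (nat_lit 8478392543) (nat_lit 18) (nat_lit 4) (nat_lit 19) (nat_lit 5) (nat_lit 19) (nat_lit 4) (nat_lit 400) (nat_lit 312) (nat_lit 308)) (XT.nd (nat_lit 78) (nat_lit 152) (nat_lit 0) (XT.lf (nat_lit 0) (nat_lit 14997461621) (nat_lit 76) (nat_lit 4031661138) (nat_lit 76) (nat_lit 2789168814) (nat_lit 18) (nat_lit 4) (nat_lit 19) (nat_lit 5) (nat_lit 19) (nat_lit 4) (nat_lit 401) (nat_lit 312) (nat_lit 307)) (XT.lf (nat_lit 0) (nat_lit 2999190714) (nat_lit 152) (nat_lit 17994381759) (nat_lit 0) (nat_lit 1611910226) (nat_lit 16) (nat_lit 5) (nat_lit 18) (nat_lit 4) (nat_lit 16) (nat_lit 4) (nat_lit 402) (nat_lit 312) (nat_lit 306))))) (XT.nd (nat_lit 234) (nat_lit 228) (nat_lit 0) (XT.nd (nat_lit 78) (nat_lit 76) (nat_lit 0) (XT.lf (nat_lit 0) (nat_lit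 8985585542) (nat_lit 152) (nat_lit 7039999761) (nat_lit 0) (nat_lit 7404062708) (nat_lit 16) (nat_lit 5) (nat_lit 18) (nat_lit 4) (nat_lit 16) (nat_lit 4) (nat_lit 403) (nat_lit 312) (nat_lit 305)) (XT.nd (nat_lit 78) (nat_lit 0) (nat_lit 0) (XT.lf (nat_lit 0) (nat_lit 4263843611) (nat_lit 76) (nat_lit 10901504336) (nat_lit 76) (nat_lit 9134988789) (nat_lit 15) (nat_lit 4) (nat_lit 16) (nat_lit 5) (nat_lit 16) (nat_lit 4) (nat_lit 404) (nat_lit 312) (nat_lit 304)) (XT.lf (nat_lit 0) (nat_lit 16047963528) (nat_lit 76) (nat_lit 5555911659) (nat_lit 76) (nat_lit 3613212578) (nat_lit 15) (nat_lit 4) (nat_lit 16) (nat_lit 5) (nat_lit 16) (nat_lit 4) (nat_lit 405) (nat_lit 312) (nat_lit 303)))) (XT.nd (nat_lit 156) (nat_lit 76) (nat_lit 0) (XT.nd (nat_lit 78) (nat_lit 0) (nat_lit 0) (XT.lf (nat_lit 0) (nat_lit 1950858916) (nat_lit 76) (nat_lit 30288323) (nat_lit 152) (nat_lit 24203517964) (nat_lit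 13) (nat_lit 5) (nat_lit 14) (nat_lit 5) (nat_lit 15) (nat_lit 4) (nat_lit 406) (nat_lit 312) (nat_lit 302)) (XT.lf (nat_lit 0) (nat_lit 7818220904) (nat_lit 152) (nat_lit 13719198534) (nat_lit 0) (nat_lit 5656033680) (nat_lit 13) (nat_lit 5) (nat_lit 15) (nat_lit 4) (nat_lit 13) (nat_lit 4) (nat_lit 407) (nat_lit 312) (nat_lit 301))) (XT.nd (nat_lit 78) (nat_lit 76) (nat_lit 0) (XT.lf (nat_lit 0) (nat_lit 13791914497) (nat_lit 152) (nat_lit 2983760719) (nat_lit 0) (nat_lit 11484780643) (nat_lit 13) (nat_lit 5) (nat_lit 15) (nat_lit 4) (nat_lit 13) (nat_lit 4) (nat_lit 408) (nat_lit 312) (nat_lit 300)) (XT.lf (nat_lit 0) (nat_lit 8263008481) (nat_lit 76) (nat_lit 11781978450) (nat_lit 76) (nat_lit 9336800186) (nat_lit 12) (nat_lit 4) (nat_lit 13) (nat_lit 5) (nat_lit 13) (nat_lit 4) (nat_lit 409) (nat_lit 312) (nat_lit 299))))))) (XT.nd (nat_lit 1014) (nat_lit 228) (nat_lit 0) (XT.nd (nat_lit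 468) (nat_lit 152) (nat_lit 0) (XT.nd (nat_lit 234) (nat_lit 76) (nat_lit 0) (XT.nd (nat_lit 78) (nat_lit 152) (nat_lit 0) (XT.lf (nat_lit 0) (nat_lit 19890473141) (nat_lit 76) (nat_lit 6625066041) (nat_lit 76) (nat_lit 4048416911) (nat_lit 12) (nat_lit 4) (nat_lit 13) (nat_lit 5) (nat_lit 13) (nat_lit 4) (nat_lit 410) (nat_lit 312) (nat_lit 298)) (XT.nd (nat_lit 78) (nat_lit 76) (nat_lit 0) (XT.lf (nat_lit 0) (nat_lit 1315182545) (nat_lit 152) (nat_lit 5735261) (nat_lit 76) (nat_lit 30490205297) (nat_lit 11) (nat_lit 5) (nat_lit 13) (nat_lit 5) (nat_lit 12) (nat_lit 4) (nat_lit 411) (nat_lit 312) (nat_lit 297)) (XT.lf (nat_lit 0) (nat_lit 6920107743) (nat_lit 152) (nat_lit 21958434395) (nat_lit 0) (nat_lit 4233338762) (nat_lit 10) (nat_lit 5) (nat_lit 12) (nat_lit 4) (nat_lit 10) (nat_lit 4) (nat_lit 412) (nat_lit 312) (nat_lit 296)))) (XT.nd (nat_lit 78) (nat_lit 76) (nat_lit 0) (XT.lf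 (nat_lit 0) (nat_lit 12693068465) (nat_lit 152) (nat_lit 11892090836) (nat_lit 0) (nat_lit 9898138076) (nat_lit 10) (nat_lit 5) (nat_lit 12) (nat_lit 4) (nat_lit 10) (nat_lit 4) (nat_lit 413) (nat_lit 312) (nat_lit 295)) (XT.nd (nat_lit 78) (nat_lit 76) (nat_lit 0) (XT.lf (nat_lit 0) (nat_lit 18627092605) (nat_lit 152) (nat_lit 1573429719) (nat_lit 0) (nat_lit 15729151352) (nat_lit 10) (nat_lit 5) (nat_lit 12) (nat_lit 4) (nat_lit 10) (nat_lit 4) (nat_lit 414) (nat_lit 312) (nat_lit 294)) (XT.lf (nat_lit 0) (nat_lit 9320429136) (nat_lit 76) (nat_lit 15561397675) (nat_lit 76) (nat_lit 12565350838) (nat_lit 9) (nat_lit 4) (nat_lit 10) (nat_lit 5) (nat_lit 10) (nat_lit 4) (nat_lit 415) (nat_lit 312) (nat_lit 293))))) (XT.nd (nat_lit 234) (nat_lit 0) (nat_lit 0) (XT.nd (nat_lit 78) (nat_lit 152) (nat_lit 0) (XT.lf (nat_lit 0) (nat_lit 20578415207) (nat_lit 76) (nat_lit 10778134305) (nat_lit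 76) (nat_lit 7688653577) (nat_lit 9) (nat_lit 4) (nat_lit 10) (nat_lit 5) (nat_lit 10) (nat_lit 4) (nat_lit 416) (nat_lit 312) (nat_lit 292)) (XT.nd (nat_lit 78) (nat_lit 152) (nat_lit 0) (XT.lf (nat_lit 0) (nat_lit 32175308529) (nat_lit 76) (nat_lit 5865990286) (nat_lit 76) (nat_lit 2687524901) (nat_lit 9) (nat_lit 4) (nat_lit 10) (nat_lit 5) (nat_lit 10) (nat_lit 4) (nat_lit 417) (nat_lit 312) (nat_lit 291)) (XT.lf (nat_lit 0) (nat_lit 1651273187) (nat_lit 76) (nat_lit 746036991) (nat_lit 152) (nat_lit 40101536397) (nat_lit 7) (nat_lit 5) (nat_lit 8) (nat_lit 5) (nat_lit 9) (nat_lit 4) (nat_lit 418) (nat_lit 312) (nat_lit 290)))) (XT.nd (nat_lit 156) (nat_lit 0) (nat_lit 0) (XT.nd (nat_lit 78) (nat_lit 0) (nat_lit 0) (XT.lf (nat_lit 0) (nat_lit 7755774012) (nat_lit 152) (nat_lit 32022831567) (nat_lit 0) (nat_lit 4571084121) (nat_lit 7) (nat_lit 5) (nat_lit 9) (nat_lit 4) (nat_lit 7) (nat_lit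 4) (nat_lit 419) (nat_lit 312) (nat_lit 289)) (XT.lf (nat_lit 0) (nat_lit 13289807239) (nat_lit 152) (nat_lit 22975982925) (nat_lit 0) (nat_lit 10031909450) (nat_lit 7) (nat_lit 5) (nat_lit 9) (nat_lit 4) (nat_lit 7) (nat_lit 4) (nat_lit 420) (nat_lit 312) (nat_lit 288))) (XT.nd (nat_lit 78) (nat_lit 0) (nat_lit 0) (XT.lf (nat_lit 0) (nat_lit 19000938400) (nat_lit 152) (nat_lit 13673839618) (nat_lit 0) (nat_lit 15673318803) (nat_lit 7) (nat_lit 5) (nat_lit 9) (nat_lit 4) (nat_lit 7) (nat_lit 4) (nat_lit 421) (nat_lit 312) (nat_lit 287)) (XT.lf (nat_lit 0) (nat_lit 24902765425) (nat_lit 152) (nat_lit 4094253685) (nat_lit 0) (nat_lit 21508744107) (nat_lit 7) (nat_lit 5) (nat_lit 9) (nat_lit 4) (nat_lit 7) (nat_lit 4) (nat_lit 422) (nat_lit 312) (nat_lit 286)))))) (XT.nd (nat_lit 468) (nat_lit 76) (nat_lit 0) (XT.nd (nat_lit 234) (nat_lit 76) (nat_lit 0) (XT.nd (nat_lit 78) (nat_lit 0) (nat_lit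 0) (XT.lf (nat_lit 0) (nat_lit 5976880926) (nat_lit 76) (nat_lit 25125775220) (nat_lit 76) (nat_lit 21668514167) (nat_lit 6) (nat_lit 4) (nat_lit 7) (nat_lit 5) (nat_lit 7) (nat_lit 4) (nat_lit 423) (nat_lit 312) (nat_lit 285)) (XT.nd (nat_lit 78) (nat_lit 0) (nat_lit 0) (XT.lf (nat_lit 0) (nat_lit 16517870090) (nat_lit 76) (nat_lit 21075222595) (nat_lit 76) (nat_lit 17557733224) (nat_lit 6) (nat_lit 4) (nat_lit 7) (nat_lit 5) (nat_lit 7) (nat_lit 4) (nat_lit 424) (nat_lit 312) (nat_lit 284)) (XT.lf (nat_lit 0) (nat_lit 27418436882) (nat_lit 76) (nat_lit 16905055231) (nat_lit 76) (nat_lit 13330205556) (nat_lit 6) (nat_lit 4) (nat_lit 7) (nat_lit 5) (nat_lit 7) (nat_lit 4) (nat_lit 425) (nat_lit 312) (nat_lit 283)))) (XT.nd (nat_lit 78) (nat_lit 76) (nat_lit 0) (XT.lf (nat_lit 0) (nat_lit 38704535033) (nat_lit 76) (nat_lit 12605344158) (nat_lit 76) (nat_lit 8975865623) (nat_lit 6) (nat_lit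 4) (nat_lit 7) (nat_lit 5) (nat_lit 7) (nat_lit 4) (nat_lit 426) (nat_lit 312) (nat_lit 282)) (XT.nd (nat_lit 78) (nat_lit 76) (nat_lit 0) (XT.lf (nat_lit 0) (nat_lit 50403036205) (nat_lit 76) (nat_lit 8165851969) (nat_lit 76) (nat_lit 4484345947) (nat_lit 6) (nat_lit 4) (nat_lit 7) (nat_lit 5) (nat_lit 7) (nat_lit 4) (nat_lit 427) (nat_lit 312) (nat_lit 281)) (XT.lf (nat_lit 0) (nat_lit 150085074) (nat_lit 152) (nat_lit 3423381606) (nat_lit 76) (nat_lit 62389167135) (nat_lit 5) (nat_lit 5) (nat_lit 7) (nat_lit 5) (nat_lit 6) (nat_lit 4) (nat_lit 428) (nat_lit 312) (nat_lit 280))))) (XT.nd (nat_lit 234) (nat_lit 0) (nat_lit 0) (XT.nd (nat_lit 78) (nat_lit 0) (nat_lit 0) (XT.lf (nat_lit 0) (nat_lit 4913636246) (nat_lit 152) (nat_lit 62782484440) (nat_lit 0) (nat_lit 1315306272) (nat_lit 4) (nat_lit 5) (nat_lit 6) (nat_lit 4) (nat_lit 4) (nat_lit 4) (nat_lit 429) (nat_lit 312) (nat_lit 279))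 (XT.nd (nat_lit 78) (nat_lit 0) (nat_lit 0) (XT.lf (nat_lit 0) (nat_lit 9962309283) (nat_lit 152) (nat_lit 55926831153) (nat_lit 0) (nat_lit 6321176167) (nat_lit 4) (nat_lit 5) (nat_lit 6) (nat_lit 4) (nat_lit 4) (nat_lit 4) (nat_lit 430) (nat_lit 312) (nat_lit 278)) (XT.lf (nat_lit 0) (nat_lit 15196211994) (nat_lit 152) (nat_lit 48861988817) (nat_lit 0) (nat_lit 11514313982) (nat_lit 4) (nat_lit 5) (nat_lit 6) (nat_lit 4) (nat_lit 4) (nat_lit 4) (nat_lit 431) (nat_lit 312) (nat_lit 277)))) (XT.nd (nat_lit 156) (nat_lit 0) (nat_lit 0) (XT.nd (nat_lit 78) (nat_lit 0) (nat_lit 0) (XT.lf (nat_lit 0) (nat_lit 20627806054) (nat_lit 152) (nat_lit 41571136379) (nat_lit 0) (nat_lit 16907084330) (nat_lit 4) (nat_lit 5) (nat_lit 6) (nat_lit 4) (nat_lit 4) (nat_lit 4) (nat_lit 432) (nat_lit 312) (nat_lit 276)) (XT.lf (nat_lit 0) (nat_lit 26270023828) (nat_lit 152) (nat_lit 34036914667) (nat_lit 0)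 (nat_lit 22512327141) (nat_lit 4) (nat_lit 5) (nat_lit 6) (nat_lit 4) (nat_lit 4) (nat_lit 4) (nat_lit 433) (nat_lit 312) (nat_lit 275))) (XT.nd (nat_lit 78) (nat_lit 0) (nat_lit 0) (XT.lf (nat_lit 0) (nat_lit 32136299169) (nat_lit 152) (nat_lit 26241385057) (nat_lit 0) (nat_lit 28343388232) (nat_lit 4) (nat_lit 5) (nat_lit 6) (nat_lit 4) (nat_lit 4) (nat_lit 4) (nat_lit 434) (nat_lit 312) (nat_lit 274)) (XT.lf (nat_lit 0) (nat_lit 38240599399) (nat_lit 152) (nat_lit 18165986765) (nat_lit 0) (nat_lit 34414151080) (nat_lit 4) (nat_lit 5) (nat_lit 6) (nat_lit 4) (nat_lit 4) (nat_lit 4) (nat_lit 435) (nat_lit 312) (nat_lit 273))))))))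
noncomputable def xc36 : XT := (XT.nd (nat_lit 1950) (nat_lit 0) (nat_lit 0) (XT.nd (nat_lit 936) (nat_lit 152) (nat_lit 0) (XT.nd (nat_lit 468) (nat_lit 0) (nat_lit 0) (XT.nd (nat_lit 234) (nat_lit 0) (nat_lit 0) (XT.nd (nat_lit 78) (nat_lit 76) (nat_lit 0) (XT.lf (nat_lit 0) (nat_lit 44597458566) (nat_lit 152) (nat_lit 9791492652) (nat_lit 0) (nat_lit 40739069884) (nat_lit 4) (nat_lit 5) (nat_lit 6) (nat_lit 4) (nat_lit 4) (nat_lit 4) (nat_lit 436) (nat_lit 312) (nat_lit 272)) (XT.nd (nat_lit 78) (nat_lit 76) (nat_lit 0) (XT.lf (nat_lit 0) (nat_lit 51222012049) (nat_lit 152) (nat_lit 1097963446) (nat_lit 0) (nat_lit 47333203973) (nat_lit 4) (nat_lit 5) (nat_lit 6) (nat_lit 4) (nat_lit 4) (nat_lit 4) (nat_lit 437) (nat_lit 312) (nat_lit 271)) (XT.lf (nat_lit 0) (nat_lit 8197676576) (nat_lit 76) (nat_lit 50060344723) (nat_lit 76) (nat_lit 46142565796) (nat_lit 3) (nat_lit 4) (nat_lit 4)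 (nat_lit 5) (nat_lit 4) (nat_lit 4) (nat_lit 438) (nat_lit 312) (nat_lit 270)))) (XT.nd (nat_lit 78) (nat_lit 0) (nat_lit 0) (XT.lf (nat_lit 0) (nat_lit 17902806255) (nat_lit 76) (nat_lit 47714674594) (nat_lit 76) (nat_lit 43769304380) (nat_lit 3) (nat_lit 4) (nat_lit 4) (nat_lit 5) (nat_lit 4) (nat_lit 4) (nat_lit 439) (nat_lit 312) (nat_lit 269)) (XT.nd (nat_lit 78) (nat_lit 0) (nat_lit 0) (XT.lf (nat_lit 0) (nat_lit 28004229409) (nat_lit 76) (nat_lit 45295974721) (nat_lit 76) (nat_lit 41324327092) (nat_lit 3) (nat_lit 4) (nat_lit 4) (nat_lit 5) (nat_lit 4) (nat_lit 4) (nat_lit 440) (nat_lit 312) (nat_lit 268)) (XT.lf (nat_lit 0) (nat_lit 38525997047) (nat_lit 76) (nat_lit 42798486296) (nat_lit 76) (nat_lit 38801812556) (nat_lit 3) (nat_lit 4) (nat_lit 4) (nat_lit 5) (nat_lit 4) (nat_lit 4) (nat_lit 441) (nat_lit 312) (nat_lit 267))))) (XT.nd (nat_lit 234) (nat_lit 0) (nat_lit 0) (XT.nd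 (nat_lit 78) (nat_lit 0) (nat_lit 0) (XT.lf (nat_lit 0) (nat_lit 49493160997) (nat_lit 76) (nat_lit 40216262917) (nat_lit 76) (nat_lit 36195754786) (nat_lit 3) (nat_lit 4) (nat_lit 4) (nat_lit 5) (nat_lit 4) (nat_lit 4) (nat_lit 442) (nat_lit 312) (nat_lit 266)) (XT.nd (nat_lit 78) (nat_lit 0) (nat_lit 0) (XT.lf (nat_lit 0) (nat_lit 60931833554) (nat_lit 76) (nat_lit 37543156433) (nat_lit 76) (nat_lit 33499948882) (nat_lit 3) (nat_lit 4) (nat_lit 4) (nat_lit 5) (nat_lit 4) (nat_lit 4) (nat_lit 443) (nat_lit 312) (nat_lit 265)) (XT.lf (nat_lit 0) (nat_lit 72869249651) (nat_lit 76) (nat_lit 34772802305) (nat_lit 76) (nat_lit 30707976259) (nat_lit 3) (nat_lit 4) (nat_lit 4) (nat_lit 5) (nat_lit 4) (nat_lit 4) (nat_lit 444) (nat_lit 312) (nat_lit 264)))) (XT.nd (nat_lit 78) (nat_lit 0) (nat_lit 0) (XT.lf (nat_lit 0) (nat_lit 85333831710) (nat_lit 76) (nat_lit 31898604453) (nat_lit 76) (nat_lit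 27813189364) (nat_lit 3) (nat_lit 4) (nat_lit 4) (nat_lit 5) (nat_lit 4) (nat_lit 4) (nat_lit 445) (nat_lit 312) (nat_lit 263)) (XT.nd (nat_lit 78) (nat_lit 0) (nat_lit 0) (XT.lf (nat_lit 0) (nat_lit 98355257305) (nat_lit 76) (nat_lit 28913719547) (nat_lit 76) (nat_lit 24808695846) (nat_lit 3) (nat_lit 4) (nat_lit 4) (nat_lit 5) (nat_lit 4) (nat_lit 4) (nat_lit 446) (nat_lit 312) (nat_lit 262)) (XT.lf (nat_lit 0) (nat_lit 111964529831) (nat_lit 76) (nat_lit 25811040719) (nat_lit 76) (nat_lit 21687342149) (nat_lit 3) (nat_lit 4) (nat_lit 4) (nat_lit 5) (nat_lit 4) (nat_lit 4) (nat_lit 447) (nat_lit 312) (nat_lit 261)))))) (XT.nd (nat_lit 468) (nat_lit 152) (nat_lit 0) (XT.nd (nat_lit 234) (nat_lit 0) (nat_lit 0) (XT.nd (nat_lit 78) (nat_lit 0) (nat_lit 0) (XT.lf (nat_lit 0) (nat_lit 126194052319) (nat_lit 76) (nat_lit 22583180639) (nat_lit 76) (nat_lit 18441696479) (nat_lit 3) (nat_lit 4)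 (nat_lit 4) (nat_lit 5) (nat_lit 4) (nat_lit 4) (nat_lit 448) (nat_lit 312) (nat_lit 260)) (XT.nd (nat_lit 78) (nat_lit 0) (nat_lit 0) (XT.lf (nat_lit 0) (nat_lit 141077704582) (nat_lit 76) (nat_lit 19222453924) (nat_lit 76) (nat_lit 15064031108) (nat_lit 3) (nat_lit 4) (nat_lit 4) (nat_lit 5) (nat_lit 4) (nat_lit 4) (nat_lit 449) (nat_lit 312) (nat_lit 259)) (XT.lf (nat_lit 0) (nat_lit 156650923890) (nat_lit 76) (nat_lit 15720858846) (nat_lit 76) (nat_lit 11546303975) (nat_lit 3) (nat_lit 4) (nat_lit 4) (nat_lit 5) (nat_lit 4) (nat_lit 4) (nat_lit 450) (nat_lit 312) (nat_lit 258)))) (XT.nd (nat_lit 78) (nat_lit 0) (nat_lit 0) (XT.lf (nat_lit 0) (nat_lit 172950789335) (nat_lit 76) (nat_lit 12070058272) (nat_lit 76) (nat_lit 7880139541) (nat_lit 3) (nat_lit 4) (nat_lit 4) (nat_lit 5) (nat_lit 4) (nat_lit 4) (nat_lit 451) (nat_lit 312) (nat_lit 257)) (XT.nd (nat_lit 78) (nat_lit 0) (nat_lit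 0) (XT.lf (nat_lit 0) (nat_lit 190016110120) (nat_lit 76) (nat_lit 8261359821) (nat_lit 76) (nat_lit 4056808841) (nat_lit 3) (nat_lit 4) (nat_lit 4) (nat_lit 5) (nat_lit 4) (nat_lit 4) (nat_lit 452) (nat_lit 312) (nat_lit 256)) (XT.lf (nat_lit 0) (nat_lit 207887517963) (nat_lit 76) (nat_lit 4285695163) (nat_lit 76) (nat_lit 67208708) (nat_lit 3) (nat_lit 4) (nat_lit 4) (nat_lit 5) (nat_lit 4) (nat_lit 4) (nat_lit 453) (nat_lit 312) (nat_lit 255))))) (XT.nd (nat_lit 234) (nat_lit 0) (nat_lit 0) (XT.nd (nat_lit 78) (nat_lit 0) (nat_lit 0) (XT.lf (nat_lit 0) (nat_lit 4029548430) (nat_lit 76) (nat_lit 357309) (nat_lit 152) (nat_lit 218606751802) (nat_lit 1) (nat_lit 5) (nat_lit 2) (nat_lit 5) (nat_lit 3) (nat_lit 4) (nat_lit 454) (nat_lit 312) (nat_lit 254)) (XT.nd (nat_lit 78) (nat_lit 0) (nat_lit 0) (XT.lf (nat_lit 0) (nat_lit 8451879009) (nat_lit 152) (nat_lit 220685063998) (nat_lit 0) (nat_lit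 4409594989) (nat_lit 1) (nat_lit 5) (nat_lit 3) (nat_lit 4) (nat_lit 1) (nat_lit 4) (nat_lit 455) (nat_lit 312) (nat_lit 253)) (XT.lf (nat_lit 0) (nat_lit 13073136667) (nat_lit 152) (nat_lit 222910479714) (nat_lit 0) (nat_lit 9019387897) (nat_lit 1) (nat_lit 5) (nat_lit 3) (nat_lit 4) (nat_lit 1) (nat_lit 4) (nat_lit 456) (nat_lit 312) (nat_lit 252)))) (XT.nd (nat_lit 156) (nat_lit 0) (nat_lit 0) (XT.nd (nat_lit 78) (nat_lit 0) (nat_lit 0) (XT.lf (nat_lit 0) (nat_lit 17904676126) (nat_lit 152) (nat_lit 225288649288) (nat_lit 0) (nat_lit 13840008547) (nat_lit 1) (nat_lit 5) (nat_lit 3) (nat_lit 4) (nat_lit 1) (nat_lit 4) (nat_lit 457) (nat_lit 312) (nat_lit 251)) (XT.lf (nat_lit 0) (nat_lit 22958001053) (nat_lit 152) (nat_lit 227825235030) (nat_lit 0) (nat_lit 18882934608) (nat_lit 1) (nat_lit 5) (nat_lit 3) (nat_lit 4) (nat_lit 1) (nat_lit 4) (nat_lit 458) (nat_lit 312) (nat_lit 250))) (XT.nd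 (nat_lit 78) (nat_lit 0) (nat_lit 0) (XT.lf (nat_lit 0) (nat_lit 28245143173) (nat_lit 152) (nat_lit 230526276428) (nat_lit 0) (nat_lit 24160173047) (nat_lit 1) (nat_lit 5) (nat_lit 3) (nat_lit 4) (nat_lit 1) (nat_lit 4) (nat_lit 459) (nat_lit 312) (nat_lit 249)) (XT.lf (nat_lit 0) (nat_lit 33778690921) (nat_lit 152) (nat_lit 233398204534) (nat_lit 0) (nat_lit 29684288716) (nat_lit 1) (nat_lit 5) (nat_lit 3) (nat_lit 4) (nat_lit 1) (nat_lit 4) (nat_lit 460) (nat_lit 312) (nat_lit 248))))))) (XT.nd (nat_lit 1014) (nat_lit 0) (nat_lit 0) (XT.nd (nat_lit 468) (nat_lit 0) (nat_lit 0) (XT.nd (nat_lit 234) (nat_lit 0) (nat_lit 0) (XT.nd (nat_lit 78) (nat_lit 0) (nat_lit 0) (XT.lf (nat_lit 0) (nat_lit 39571819409) (nat_lit 152) (nat_lit 236447857271) (nat_lit 0) (nat_lit 35468434274) (nat_lit 1) (nat_lit 5) (nat_lit 3) (nat_lit 4) (nat_lit 1) (nat_lit 4) (nat_lit 461) (nat_lit 312) (nat_lit 247))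 (XT.nd (nat_lit 78) (nat_lit 0) (nat_lit 0) (XT.lf (nat_lit 0) (nat_lit 45638321802) (nat_lit 152) (nat_lit 239682495719) (nat_lit 0) (nat_lit 41526381493) (nat_lit 1) (nat_lit 5) (nat_lit 3) (nat_lit 4) (nat_lit 1) (nat_lit 4) (nat_lit 462) (nat_lit 312) (nat_lit 246)) (XT.lf (nat_lit 0) (nat_lit 51992642151) (nat_lit 152) (nat_lit 243109821396) (nat_lit 0) (nat_lit 47872554059) (nat_lit 1) (nat_lit 5) (nat_lit 3) (nat_lit 4) (nat_lit 1) (nat_lit 4) (nat_lit 463) (nat_lit 312) (nat_lit 245)))) (XT.nd (nat_lit 78) (nat_lit 0) (nat_lit 0) (XT.lf (nat_lit 0) (nat_lit 58649909792) (nat_lit 152) (nat_lit 246737994603) (nat_lit 0) (nat_lit 54522061907) (nat_lit 1) (nat_lit 5) (nat_lit 3) (nat_lit 4) (nat_lit 1) (nat_lit 4) (nat_lit 464) (nat_lit 312) (nat_lit 244)) (XT.nd (nat_lit 78) (nat_lit 0) (nat_lit 0) (XT.lf (nat_lit 0) (nat_lit 65625975362) (nat_lit 152) (nat_lit 250575653847) (nat_lit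 0) (nat_lit 61490737197) (nat_lit 1) (nat_lit 5) (nat_lit 3) (nat_lit 4) (nat_lit 1) (nat_lit 4) (nat_lit 465) (nat_lit 312) (nat_lit 243)) (XT.lf (nat_lit 0) (nat_lit 72937448540) (nat_lit 152) (nat_lit 254631936411) (nat_lit 0) (nat_lit 68795172013) (nat_lit 1) (nat_lit 5) (nat_lit 3) (nat_lit 4) (nat_lit 1) (nat_lit 4) (nat_lit 466) (nat_lit 312) (nat_lit 242))))) (XT.nd (nat_lit 234) (nat_lit 0) (nat_lit 0) (XT.nd (nat_lit 78) (nat_lit 0) (nat_lit 0) (XT.lf (nat_lit 0) (nat_lit 80601737596) (nat_lit 152) (nat_lit 258916500112) (nat_lit 0) (nat_lit 76452757868) (nat_lit 1) (nat_lit 5) (nat_lit 3) (nat_lit 4) (nat_lit 1) (nat_lit 4) (nat_lit 467) (nat_lit 312) (nat_lit 241)) (XT.nd (nat_lit 78) (nat_lit 0) (nat_lit 0) (XT.lf (nat_lit 0) (nat_lit 88637090838) (nat_lit 152) (nat_lit 263439546291) (nat_lit 0) (nat_lit 84481727108) (nat_lit 1) (nat_lit 5) (nat_lit 3) (nat_lit 4) (nat_lit 1)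 (nat_lit 4) (nat_lit 468) (nat_lit 312) (nat_lit 240)) (XT.lf (nat_lit 0) (nat_lit 97062640058) (nat_lit 152) (nat_lit 268211844106) (nat_lit 0) (nat_lit 92901196327) (nat_lit 1) (nat_lit 5) (nat_lit 3) (nat_lit 4) (nat_lit 1) (nat_lit 4) (nat_lit 469) (nat_lit 312) (nat_lit 239)))) (XT.nd (nat_lit 156) (nat_lit 0) (nat_lit 0) (XT.nd (nat_lit 78) (nat_lit 0) (nat_lit 0) (XT.lf (nat_lit 0) (nat_lit 105898446089) (nat_lit 152) (nat_lit 273244756171) (nat_lit 0) (nat_lit 101731211880) (nat_lit 1) (nat_lit 5) (nat_lit 3) (nat_lit 4) (nat_lit 1) (nat_lit 4) (nat_lit 470) (nat_lit 312) (nat_lit 238)) (XT.lf (nat_lit 0) (nat_lit 115165546563) (nat_lit 152) (nat_lit 278550265610) (nat_lit 0) (nat_lit 110992797613) (nat_lit 1) (nat_lit 5) (nat_lit 3) (nat_lit 4) (nat_lit 1) (nat_lit 4) (nat_lit 471) (nat_lit 312) (nat_lit 237))) (XT.nd (nat_lit 78) (nat_lit 0) (nat_lit 0) (XT.lf (nat_lit 0) (nat_lit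 124886006006) (nat_lit 152) (nat_lit 284141004588) (nat_lit 0) (nat_lit 120708004922) (nat_lit 1) (nat_lit 5) (nat_lit 3) (nat_lit 4) (nat_lit 1) (nat_lit 4) (nat_lit 472) (nat_lit 312) (nat_lit 236)) (XT.lf (nat_lit 0) (nat_lit 135082968368) (nat_lit 152) (nat_lit 290030284389) (nat_lit 0) (nat_lit 130899965253) (nat_lit 1) (nat_lit 5) (nat_lit 3) (nat_lit 4) (nat_lit 1) (nat_lit 4) (nat_lit 473) (nat_lit 312) (nat_lit 235)))))) (XT.nd (nat_lit 468) (nat_lit 0) (nat_lit 0) (XT.nd (nat_lit 234) (nat_lit 0) (nat_lit 0) (XT.nd (nat_lit 78) (nat_lit 0) (nat_lit 0) (XT.lf (nat_lit 0) (nat_lit 145780712132) (nat_lit 152) (nat_lit 296232127107) (nat_lit 0) (nat_lit 141592945176) (nat_lit 1) (nat_lit 5) (nat_lit 3) (nat_lit 4) (nat_lit 1) (nat_lit 4) (nat_lit 474) (nat_lit 312) (nat_lit 234)) (XT.nd (nat_lit 78) (nat_lit 0) (nat_lit 0) (XT.lf (nat_lit 0) (nat_lit 157004708116) (nat_lit 152) (nat_lit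 302761299034) (nat_lit 0) (nat_lit 152812404169) (nat_lit 1) (nat_lit 5) (nat_lit 3) (nat_lit 4) (nat_lit 1) (nat_lit 4) (nat_lit 475) (nat_lit 312) (nat_lit 233)) (XT.lf (nat_lit 0) (nat_lit 168781680120) (nat_lit 152) (nat_lit 309633345818) (nat_lit 0) (nat_lit 164585055229) (nat_lit 1) (nat_lit 5) (nat_lit 3) (nat_lit 4) (nat_lit 1) (nat_lit 4) (nat_lit 476) (nat_lit 312) (nat_lit 232)))) (XT.nd (nat_lit 78) (nat_lit 0) (nat_lit 0) (XT.lf (nat_lit 0) (nat_lit 181139668553) (nat_lit 152) (nat_lit 316864629476) (nat_lit 0) (nat_lit 176938928478) (nat_lit 1) (nat_lit 5) (nat_lit 3) (nat_lit 4) (nat_lit 1) (nat_lit 4) (nat_lit 477) (nat_lit 312) (nat_lit 231)) (XT.nd (nat_lit 78) (nat_lit 0) (nat_lit 0) (XT.lf (nat_lit 0) (nat_lit 194108097198) (nat_lit 152) (nat_lit 324472367348) (nat_lit 0) (nat_lit 189903437900) (nat_lit 1) (nat_lit 5) (nat_lit 3) (nat_lit 4) (nat_lit 1) (nat_lit 4) (nat_lit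 478) (nat_lit 312) (nat_lit 230)) (XT.lf (nat_lit 0) (nat_lit 207717843265) (nat_lit 152) (nat_lit 332474673097) (nat_lit 0) (nat_lit 203509451373) (nat_lit 1) (nat_lit 5) (nat_lit 3) (nat_lit 4) (nat_lit 1) (nat_lit 4) (nat_lit 479) (nat_lit 312) (nat_lit 229))))) (XT.nd (nat_lit 46566) (nat_lit 0) (nat_lit 1368) (XT.nd (nat_lit 46410) (nat_lit 0) (nat_lit 1596) (XT.lf (nat_lit 0) (nat_lit 222001310911) (nat_lit 152) (nat_lit 340890599832) (nat_lit 0) (nat_lit 217789364169) (nat_lit 1) (nat_lit 5) (nat_lit 3) (nat_lit 4) (nat_lit 1) (nat_lit 4) (nat_lit 480) (nat_lit 312) (nat_lit 228)) (XT.nd (nat_lit 78) (nat_lit 152) (nat_lit 0) (XT.lf (nat_lit 0) (nat_lit 4379432585) (nat_lit 76) (nat_lit 2135638525) (nat_lit 76) (nat_lit 2135638525) (nat_lit 24) (nat_lit 4) (nat_lit 25) (nat_lit 5) (nat_lit 25) (nat_lit 4) (nat_lit 394) (nat_lit 313) (nat_lit 313)) (XT.lf (nat_lit 0) (nat_lit 1543674516)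 (nat_lit 152) (nat_lit 15073043194) (nat_lit 0) (nat_lit 1242340882) (nat_lit 22) (nat_lit 5) (nat_lit 24) (nat_lit 4) (nat_lit 22) (nat_lit 4) (nat_lit 395) (nat_lit 313) (nat_lit 312)))) (XT.nd (nat_lit 156) (nat_lit 152) (nat_lit 0) (XT.nd (nat_lit 78) (nat_lit 76) (nat_lit 0) (XT.lf (nat_lit 0) (nat_lit 7520778943) (nat_lit 152) (nat_lit 3987118792) (nat_lit 0) (nat_lit 6932460895) (nat_lit 22) (nat_lit 5) (nat_lit 24) (nat_lit 4) (nat_lit 22) (nat_lit 4) (nat_lit 396) (nat_lit 313) (nat_lit 311)) (XT.lf (nat_lit 0) (nat_lit 7527406271) (nat_lit 76) (nat_lit 6194364129) (nat_lit 76) (nat_lit 5332727592) (nat_lit 21) (nat_lit 4) (nat_lit 22) (nat_lit 5) (nat_lit 22) (nat_lit 4) (nat_lit 397) (nat_lit 313) (nat_lit 310))) (XT.nd (nat_lit 78) (nat_lit 76) (nat_lit 0) (XT.lf (nat_lit 0) (nat_lit 392944565) (nat_lit 152) (nat_lit 316403501) (nat_lit 76) (nat_lit 18995775729) (nat_lit 20)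 (nat_lit 5) (nat_lit 22) (nat_lit 5) (nat_lit 21) (nat_lit 4) (nat_lit 398) (nat_lit 313) (nat_lit 309)) (XT.lf (nat_lit 0) (nat_lit 6301047320) (nat_lit 152) (nat_lit 9082686402) (nat_lit 0) (nat_lit 4996430380) (nat_lit 19) (nat_lit 5) (nat_lit 21) (nat_lit 4) (nat_lit 19) (nat_lit 4) (nat_lit 399) (nat_lit 313) (nat_lit 308))))))))
noncomputable def xc37 : XT := (XT.nd (nat_lit 1950) (nat_lit 228) (nat_lit 0) (XT.nd (nat_lit 936) (nat_lit 380) (nat_lit 0) (XT.nd (nat_lit 468) (nat_lit 304) (nat_lit 0) (XT.nd (nat_lit 234) (nat_lit 76) (nat_lit 0) (XT.nd (nat_lit 78) (nat_lit 152) (nat_lit 0) (XT.lf (nat_lit 0) (nat_lit 2120092267) (nat_lit 76) (nat_lit 10252480665) (nat_lit 76) (nat_lit 8723003927) (nat_lit 18) (nat_lit 4) (nat_lit 19) (nat_lit 5) (nat_lit 19) (nat_lit 4) (nat_lit 400) (nat_lit 313) (nat_lit 307)) (XT.nd (nat_lit 78) (nat_lit 152) (nat_lit 0) (XT.lf (nat_lit 0) (nat_lit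 13853595094) (nat_lit 76) (nat_lit 4869033354) (nat_lit 76) (nat_lit 3125404429) (nat_lit 18) (nat_lit 4) (nat_lit 19) (nat_lit 5) (nat_lit 19) (nat_lit 4) (nat_lit 401) (nat_lit 313) (nat_lit 306)) (XT.lf (nat_lit 0) (nat_lit 2553038247) (nat_lit 152) (nat_lit 19390294221) (nat_lit 0) (nat_lit 698196923) (nat_lit 16) (nat_lit 5) (nat_lit 18) (nat_lit 4) (nat_lit 16) (nat_lit 4) (nat_lit 402) (nat_lit 313) (nat_lit 305)))) (XT.nd (nat_lit 78) (nat_lit 76) (nat_lit 0) (XT.lf (nat_lit 0) (nat_lit 8455275654) (nat_lit 152) (nat_lit 8599193857) (nat_lit 0) (nat_lit 6415441618) (nat_lit 16) (nat_lit 5) (nat_lit 18) (nat_lit 4) (nat_lit 16) (nat_lit 4) (nat_lit 403) (nat_lit 313) (nat_lit 304)) (XT.nd (nat_lit 78) (nat_lit 0) (nat_lit 0) (XT.lf (nat_lit 0) (nat_lit 2492447459) (nat_lit 76) (nat_lit 12034784217) (nat_lit 76) (nat_lit 9818766646) (nat_lit 15) (nat_lit 4) (nat_lit 16) (nat_lit 5)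 (nat_lit 16) (nat_lit 4) (nat_lit 404) (nat_lit 313) (nat_lit 303)) (XT.lf (nat_lit 0) (nat_lit 14123569224) (nat_lit 76) (nat_lit 6763467700) (nat_lit 76) (nat_lit 4379656286) (nat_lit 15) (nat_lit 4) (nat_lit 16) (nat_lit 5) (nat_lit 16) (nat_lit 4) (nat_lit 405) (nat_lit 313) (nat_lit 302))))) (XT.nd (nat_lit 234) (nat_lit 152) (nat_lit 0) (XT.nd (nat_lit 78) (nat_lit 76) (nat_lit 0) (XT.lf (nat_lit 0) (nat_lit 1132566590) (nat_lit 152) (nat_lit 221853562) (nat_lit 76) (nat_lit 24885789247) (nat_lit 14) (nat_lit 5) (nat_lit 16) (nat_lit 5) (nat_lit 15) (nat_lit 4) (nat_lit 406) (nat_lit 313) (nat_lit 301)) (XT.nd (nat_lit 78) (nat_lit 0) (nat_lit 0) (XT.lf (nat_lit 0) (nat_lit 6869363910) (nat_lit 152) (nat_lit 16082727192) (nat_lit 0) (nat_lit 4301926733) (nat_lit 13) (nat_lit 5) (nat_lit 15) (nat_lit 4) (nat_lit 13) (nat_lit 4) (nat_lit 407) (nat_lit 313) (nat_lit 300)) (XT.lf (nat_lit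 0) (nat_lit 12770708938) (nat_lit 152) (nat_lit 5488708099) (nat_lit 0) (nat_lit 10065227352) (nat_lit 13) (nat_lit 5) (nat_lit 15) (nat_lit 4) (nat_lit 13) (nat_lit 4) (nat_lit 408) (nat_lit 313) (nat_lit 299)))) (XT.nd (nat_lit 78) (nat_lit 76) (nat_lit 0) (XT.lf (nat_lit 0) (nat_lit 5536098455) (nat_lit 76) (nat_lit 13376204816) (nat_lit 76) (nat_lit 10539252363) (nat_lit 12) (nat_lit 4) (nat_lit 13) (nat_lit 5) (nat_lit 13) (nat_lit 4) (nat_lit 409) (nat_lit 313) (nat_lit 298)) (XT.nd (nat_lit 78) (nat_lit 76) (nat_lit 0) (XT.lf (nat_lit 0) (nat_lit 17031050949) (nat_lit 76) (nat_lit 8284113406) (nat_lit 76) (nat_lit 5321950604) (nat_lit 12) (nat_lit 4) (nat_lit 13) (nat_lit 5) (nat_lit 13) (nat_lit 4) (nat_lit 410) (nat_lit 313) (nat_lit 297)) (XT.lf (nat_lit 0) (nat_lit 16879918) (nat_lit 152) (nat_lit 3046806920) (nat_lit 76) (nat_lit 28824871052) (nat_lit 11) (nat_lit 5) (nat_lit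 13) (nat_lit 5) (nat_lit 12) (nat_lit 4) (nat_lit 411) (nat_lit 313) (nat_lit 296)))))) (XT.nd (nat_lit 468) (nat_lit 228) (nat_lit 0) (XT.nd (nat_lit 234) (nat_lit 76) (nat_lit 0) (XT.nd (nat_lit 78) (nat_lit 0) (nat_lit 0) (XT.lf (nat_lit 0) (nat_lit 5479393755) (nat_lit 152) (nat_lit 25280492062) (nat_lit 0) (nat_lit 2436555440) (nat_lit 10) (nat_lit 5) (nat_lit 12) (nat_lit 4) (nat_lit 10) (nat_lit 4) (nat_lit 412) (nat_lit 313) (nat_lit 295)) (XT.nd (nat_lit 78) (nat_lit 0) (nat_lit 0) (XT.lf (nat_lit 0) (nat_lit 11190118078) (nat_lit 152) (nat_lit 15336587342) (nat_lit 0) (nat_lit 8044268899) (nat_lit 10) (nat_lit 5) (nat_lit 12) (nat_lit 4) (nat_lit 10) (nat_lit 4) (nat_lit 413) (nat_lit 313) (nat_lit 294)) (XT.lf (nat_lit 0) (nat_lit 17064869458) (nat_lit 152) (nat_lit 5134534642) (nat_lit 0) (nat_lit 13820914693) (nat_lit 10) (nat_lit 5) (nat_lit 12) (nat_lit 4) (nat_lit 10) (nat_lit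 4) (nat_lit 414) (nat_lit 313) (nat_lit 293)))) (XT.nd (nat_lit 78) (nat_lit 0) (nat_lit 0) (XT.lf (nat_lit 0) (nat_lit 5526850365) (nat_lit 76) (nat_lit 17677074655) (nat_lit 76) (nat_lit 14339686000) (nat_lit 9) (nat_lit 4) (nat_lit 10) (nat_lit 5) (nat_lit 10) (nat_lit 4) (nat_lit 415) (nat_lit 313) (nat_lit 292)) (XT.nd (nat_lit 78) (nat_lit 0) (nat_lit 0) (XT.lf (nat_lit 0) (nat_lit 16675572020) (nat_lit 76) (nat_lit 12947607636) (nat_lit 76) (nat_lit 9521234324) (nat_lit 9) (nat_lit 4) (nat_lit 10) (nat_lit 5) (nat_lit 10) (nat_lit 4) (nat_lit 416) (nat_lit 313) (nat_lit 291)) (XT.lf (nat_lit 0) (nat_lit 28168403993) (nat_lit 76) (nat_lit 8086698237) (nat_lit 76) (nat_lit 4575577632) (nat_lit 9) (nat_lit 4) (nat_lit 10) (nat_lit 5) (nat_lit 10) (nat_lit 4) (nat_lit 417) (nat_lit 313) (nat_lit 290))))) (XT.nd (nat_lit 234) (nat_lit 76) (nat_lit 0) (XT.nd (nat_lit 78) (nat_lit 76) (nat_lit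 0) (XT.lf (nat_lit 0) (nat_lit 492766367) (nat_lit 152) (nat_lit 2581661259) (nat_lit 76) (nat_lit 39531598566) (nat_lit 8) (nat_lit 5) (nat_lit 10) (nat_lit 5) (nat_lit 9) (nat_lit 4) (nat_lit 418) (nat_lit 313) (nat_lit 289)) (XT.nd (nat_lit 78) (nat_lit 0) (nat_lit 0) (XT.lf (nat_lit 0) (nat_lit 5721538639) (nat_lit 152) (nat_lit 36514280581) (nat_lit 0) (nat_lit 2227538063) (nat_lit 7) (nat_lit 5) (nat_lit 9) (nat_lit 4) (nat_lit 7) (nat_lit 4) (nat_lit 419) (nat_lit 313) (nat_lit 288)) (XT.lf (nat_lit 0) (nat_lit 11206984682) (nat_lit 152) (nat_lit 27563552801) (nat_lit 0) (nat_lit 7643262298) (nat_lit 7) (nat_lit 5) (nat_lit 9) (nat_lit 4) (nat_lit 7) (nat_lit 4) (nat_lit 420) (nat_lit 313) (nat_lit 287)))) (XT.nd (nat_lit 156) (nat_lit 76) (nat_lit 0) (XT.nd (nat_lit 78) (nat_lit 0) (nat_lit 0) (XT.lf (nat_lit 0) (nat_lit 16871842333) (nat_lit 152) (nat_lit 18352953172) (nat_lit 0)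 (nat_lit 13241718228) (nat_lit 7) (nat_lit 5) (nat_lit 9) (nat_lit 4) (nat_lit 7) (nat_lit 4) (nat_lit 421) (nat_lit 313) (nat_lit 286)) (XT.lf (nat_lit 0) (nat_lit 22729599350) (nat_lit 152) (nat_lit 8860551694) (nat_lit 0) (nat_lit 19036235510) (nat_lit 7) (nat_lit 5) (nat_lit 9) (nat_lit 4) (nat_lit 7) (nat_lit 4) (nat_lit 422) (nat_lit 313) (nat_lit 285))) (XT.nd (nat_lit 78) (nat_lit 0) (nat_lit 0) (XT.lf (nat_lit 0) (nat_lit 967209325) (nat_lit 76) (nat_lit 27842094296) (nat_lit 76) (nat_lit 24088502137) (nat_lit 6) (nat_lit 4) (nat_lit 7) (nat_lit 5) (nat_lit 7) (nat_lit 4) (nat_lit 423) (nat_lit 313) (nat_lit 284)) (XT.lf (nat_lit 0) (nat_lit 11426504914) (nat_lit 76) (nat_lit 23831986984) (nat_lit 76) (nat_lit 20021034522) (nat_lit 6) (nat_lit 4) (nat_lit 7) (nat_lit 5) (nat_lit 7) (nat_lit 4) (nat_lit 424) (nat_lit 313) (nat_lit 283))))))) (XT.nd (nat_lit 1014) (nat_lit 76) (nat_lit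 0) (XT.nd (nat_lit 468) (nat_lit 0) (nat_lit 0) (XT.nd (nat_lit 234) (nat_lit 152) (nat_lit 0) (XT.nd (nat_lit 78) (nat_lit 0) (nat_lit 0) (XT.lf (nat_lit 0) (nat_lit 22249268300) (nat_lit 76) (nat_lit 19700338966) (nat_lit 76) (nat_lit 15834757643) (nat_lit 6) (nat_lit 4) (nat_lit 7) (nat_lit 5) (nat_lit 7) (nat_lit 4) (nat_lit 425) (nat_lit 313) (nat_lit 282)) (XT.nd (nat_lit 78) (nat_lit 0) (nat_lit 0) (XT.lf (nat_lit 0) (nat_lit 33461267970) (nat_lit 76) (nat_lit 15437312985) (nat_lit 76) (nat_lit 11519704176) (nat_lit 6) (nat_lit 4) (nat_lit 7) (nat_lit 5) (nat_lit 7) (nat_lit 4) (nat_lit 426) (nat_lit 313) (nat_lit 281)) (XT.lf (nat_lit 0) (nat_lit 45089199160) (nat_lit 76) (nat_lit 11032758977) (nat_lit 76) (nat_lit 7065600181) (nat_lit 6) (nat_lit 4) (nat_lit 7) (nat_lit 5) (nat_lit 7) (nat_lit 4) (nat_lit 427) (nat_lit 313) (nat_lit 280)))) (XT.nd (nat_lit 78) (nat_lit 152) (nat_lit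 0) (XT.lf (nat_lit 0) (nat_lit 57160747420) (nat_lit 76) (nat_lit 6476189911) (nat_lit 76) (nat_lit 2461840652) (nat_lit 6) (nat_lit 4) (nat_lit 7) (nat_lit 5) (nat_lit 7) (nat_lit 4) (nat_lit 428) (nat_lit 313) (nat_lit 279)) (XT.nd (nat_lit 78) (nat_lit 0) (nat_lit 0) (XT.lf (nat_lit 0) (nat_lit 526687175) (nat_lit 76) (nat_lit 1710376109) (nat_lit 152) (nat_lit 66919603710) (nat_lit 4) (nat_lit 5) (nat_lit 5) (nat_lit 5) (nat_lit 6) (nat_lit 4) (nat_lit 429) (nat_lit 313) (nat_lit 278)) (XT.lf (nat_lit 0) (nat_lit 7226250129) (nat_lit 152) (nat_lit 61812790385) (nat_lit 0) (nat_lit 3319492319) (nat_lit 4) (nat_lit 5) (nat_lit 6) (nat_lit 4) (nat_lit 4) (nat_lit 4) (nat_lit 430) (nat_lit 313) (nat_lit 277))))) (XT.nd (nat_lit 234) (nat_lit 0) (nat_lit 0) (XT.nd (nat_lit 78) (nat_lit 0) (nat_lit 0) (XT.lf (nat_lit 0) (nat_lit 12428931481) (nat_lit 152) (nat_lit 54810012447) (nat_lit 0)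 (nat_lit 8483349960) (nat_lit 4) (nat_lit 5) (nat_lit 6) (nat_lit 4) (nat_lit 4) (nat_lit 4) (nat_lit 431) (nat_lit 313) (nat_lit 276)) (XT.nd (nat_lit 78) (nat_lit 0) (nat_lit 0) (XT.lf (nat_lit 0) (nat_lit 17830790912) (nat_lit 152) (nat_lit 47578268959) (nat_lit 0) (nat_lit 13848234428) (nat_lit 4) (nat_lit 5) (nat_lit 6) (nat_lit 4) (nat_lit 4) (nat_lit 4) (nat_lit 432) (nat_lit 313) (nat_lit 275)) (XT.lf (nat_lit 0) (nat_lit 23444689992) (nat_lit 152) (nat_lit 40100341485) (nat_lit 0) (nat_lit 19426919258) (nat_lit 4) (nat_lit 5) (nat_lit 6) (nat_lit 4) (nat_lit 4) (nat_lit 4) (nat_lit 433) (nat_lit 313) (nat_lit 274)))) (XT.nd (nat_lit 156) (nat_lit 0) (nat_lit 0) (XT.nd (nat_lit 78) (nat_lit 0) (nat_lit 0) (XT.lf (nat_lit 0) (nat_lit 29283995149) (nat_lit 152) (nat_lit 32358425435) (nat_lit 0) (nat_lit 25232687033) (nat_lit 4) (nat_lit 5) (nat_lit 6) (nat_lit 4) (nat_lit 4) (nat_lit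 4) (nat_lit 434) (nat_lit 313) (nat_lit 273)) (XT.lf (nat_lit 0) (nat_lit 35362609489) (nat_lit 152) (nat_lit 24334087677) (nat_lit 0) (nat_lit 31279361009) (nat_lit 4) (nat_lit 5) (nat_lit 6) (nat_lit 4) (nat_lit 4) (nat_lit 4) (nat_lit 435) (nat_lit 313) (nat_lit 272))) (XT.nd (nat_lit 78) (nat_lit 0) (nat_lit 0) (XT.lf (nat_lit 0) (nat_lit 41695005904) (nat_lit 152) (nat_lit 16008222643) (nat_lit 0) (nat_lit 37581338031) (nat_lit 4) (nat_lit 5) (nat_lit 6) (nat_lit 4) (nat_lit 4) (nat_lit 4) (nat_lit 436) (nat_lit 313) (nat_lit 271)) (XT.lf (nat_lit 0) (nat_lit 48296261527) (nat_lit 152) (nat_lit 7361006846) (nat_lit 0) (nat_lit 44153622803) (nat_lit 4) (nat_lit 5) (nat_lit 6) (nat_lit 4) (nat_lit 4) (nat_lit 4) (nat_lit 437) (nat_lit 313) (nat_lit 270)))))) (XT.nd (nat_lit 468) (nat_lit 0) (nat_lit 0) (XT.nd (nat_lit 234) (nat_lit 0) (nat_lit 0) (XT.nd (nat_lit 78) (nat_lit 0) (nat_lit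 0) (XT.lf (nat_lit 0) (nat_lit 1681982258) (nat_lit 76) (nat_lit 53526371834) (nat_lit 76) (nat_lit 49356141823) (nat_lit 3) (nat_lit 4) (nat_lit 4) (nat_lit 5) (nat_lit 4) (nat_lit 4) (nat_lit 438) (nat_lit 313) (nat_lit 269)) (XT.nd (nat_lit 78) (nat_lit 0) (nat_lit 0) (XT.lf (nat_lit 0) (nat_lit 11343715347) (nat_lit 76) (nat_lit 51202288906) (nat_lit 76) (nat_lit 47005781479) (nat_lit 3) (nat_lit 4) (nat_lit 4) (nat_lit 5) (nat_lit 4) (nat_lit 4) (nat_lit 439) (nat_lit 313) (nat_lit 268)) (XT.lf (nat_lit 0) (nat_lit 21403808417) (nat_lit 76) (nat_lit 48804148273) (nat_lit 76) (nat_lit 44582614735) (nat_lit 3) (nat_lit 4) (nat_lit 4) (nat_lit 5) (nat_lit 4) (nat_lit 4) (nat_lit 440) (nat_lit 313) (nat_lit 267)))) (XT.nd (nat_lit 78) (nat_lit 0) (nat_lit 0) (XT.lf (nat_lit 0) (nat_lit 31886214070) (nat_lit 76) (nat_lit 46326240075) (nat_lit 76) (nat_lit 42080872147) (nat_lit 3) (nat_lit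 4) (nat_lit 4) (nat_lit 5) (nat_lit 4) (nat_lit 4) (nat_lit 441) (nat_lit 313) (nat_lit 266)) (XT.nd (nat_lit 78) (nat_lit 0) (nat_lit 0) (XT.lf (nat_lit 0) (nat_lit 42815890414) (nat_lit 76) (nat_lit 43762664532) (nat_lit 76) (nat_lit 39494597184) (nat_lit 3) (nat_lit 4) (nat_lit 4) (nat_lit 5) (nat_lit 4) (nat_lit 4) (nat_lit 442) (nat_lit 313) (nat_lit 265)) (XT.lf (nat_lit 0) (nat_lit 54218860489) (nat_lit 76) (nat_lit 41107317893) (nat_lit 76) (nat_lit 36817632049) (nat_lit 3) (nat_lit 4) (nat_lit 4) (nat_lit 5) (nat_lit 4) (nat_lit 4) (nat_lit 443) (nat_lit 313) (nat_lit 264))))) (XT.nd (nat_lit 234) (nat_lit 0) (nat_lit 0) (XT.nd (nat_lit 78) (nat_lit 0) (nat_lit 0) (XT.lf (nat_lit 0) (nat_lit 66122274224) (nat_lit 76) (nat_lit 38353877903) (nat_lit 76) (nat_lit 34043603016) (nat_lit 3) (nat_lit 4) (nat_lit 4) (nat_lit 5) (nat_lit 4) (nat_lit 4) (nat_lit 444) (nat_lit 313) (nat_lit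 263)) (XT.nd (nat_lit 78) (nat_lit 0) (nat_lit 0) (XT.lf (nat_lit 0) (nat_lit 78554473079) (nat_lit 76) (nat_lit 35495788752) (nat_lit 76) (nat_lit 31165905253) (nat_lit 3) (nat_lit 4) (nat_lit 4) (nat_lit 5) (nat_lit 4) (nat_lit 4) (nat_lit 445) (nat_lit 313) (nat_lit 262)) (XT.lf (nat_lit 0) (nat_lit 91545057529) (nat_lit 76) (nat_lit 32526245467) (nat_lit 76) (nat_lit 28177687100) (nat_lit 3) (nat_lit 4) (nat_lit 4) (nat_lit 5) (nat_lit 4) (nat_lit 4) (nat_lit 446) (nat_lit 313) (nat_lit 261)))) (XT.nd (nat_lit 156) (nat_lit 0) (nat_lit 0) (XT.nd (nat_lit 78) (nat_lit 0) (nat_lit 0) (XT.lf (nat_lit 0) (nat_lit 105124957536) (nat_lit 76) (nat_lit 29438177707) (nat_lit 76) (nat_lit 25071833750) (nat_lit 3) (nat_lit 4) (nat_lit 4) (nat_lit 5) (nat_lit 4) (nat_lit 4) (nat_lit 447) (nat_lit 313) (nat_lit 260)) (XT.lf (nat_lit 0) (nat_lit 119326506195) (nat_lit 76) (nat_lit 26224232929) (nat_lit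 76) (nat_lit 21840950315) (nat_lit 3) (nat_lit 4) (nat_lit 4) (nat_lit 5) (nat_lit 4) (nat_lit 4) (nat_lit 448) (nat_lit 313) (nat_lit 259))) (XT.nd (nat_lit 78) (nat_lit 0) (nat_lit 0) (XT.lf (nat_lit 0) (nat_lit 134183516717) (nat_lit 76) (nat_lit 22876758884) (nat_lit 76) (nat_lit 18477344216) (nat_lit 3) (nat_lit 4) (nat_lit 4) (nat_lit 5) (nat_lit 4) (nat_lit 4) (nat_lit 449) (nat_lit 313) (nat_lit 258)) (XT.lf (nat_lit 0) (nat_lit 149731362938) (nat_lit 76) (nat_lit 19387785395) (nat_lit 76) (nat_lit 14973006866) (nat_lit 3) (nat_lit 4) (nat_lit 4) (nat_lit 5) (nat_lit 4) (nat_lit 4) (nat_lit 450) (nat_lit 313) (nat_lit 257))))))))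
noncomputable def xc38 : XT := (XT.nd (nat_lit 1950) (nat_lit 0) (nat_lit 0) (XT.nd (nat_lit 936) (nat_lit 0) (nat_lit 0) (XT.nd (nat_lit 468) (nat_lit 0) (nat_lit 0) (XT.nd (nat_lit 234) (nat_lit 152) (nat_lit 0) (XT.nd (nat_lit 78) (nat_lit 0) (nat_lit 0) (XT.lf (nat_lit 0) (nat_lit 166007063538) (nat_lit 76) (nat_lit 15749005383) (nat_lit 76) (nat_lit 11319594606) (nat_lit 3) (nat_lit 4) (nat_lit 4) (nat_lit 5) (nat_lit 4) (nat_lit 4) (nat_lit 451) (nat_lit 313) (nat_lit 256)) (XT.nd (nat_lit 78) (nat_lit 0) (nat_lit 0) (XT.lf (nat_lit 0) (nat_lit 183049370186) (nat_lit 76) (nat_lit 11951755086) (nat_lit 76) (nat_lit 7508408834) (nat_lit 3) (nat_lit 4) (nat_lit 4) (nat_lit 5) (nat_lit 4) (nat_lit 4) (nat_lit 452) (nat_lit 313) (nat_lit 255)) (XT.lf (nat_lit 0) (nat_lit 200898859802) (nat_lit 76) (nat_lit 7986993431) (nat_lit 76) (nat_lit 3530375298) (nat_lit 3) (nat_lit 4) (nat_lit 4)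 (nat_lit 5) (nat_lit 4) (nat_lit 4) (nat_lit 453) (nat_lit 313) (nat_lit 254)))) (XT.nd (nat_lit 78) (nat_lit 76) (nat_lit 0) (XT.lf (nat_lit 0) (nat_lit 604006331) (nat_lit 152) (nat_lit 3231045040) (nat_lit 76) (nat_lit 218983795700) (nat_lit 2) (nat_lit 5) (nat_lit 4) (nat_lit 5) (nat_lit 3) (nat_lit 4) (nat_lit 454) (nat_lit 313) (nat_lit 253)) (XT.nd (nat_lit 78) (nat_lit 0) (nat_lit 0) (XT.lf (nat_lit 0) (nat_lit 4902497361) (nat_lit 152) (nat_lit 228197808406) (nat_lit 0) (nat_lit 634596403) (nat_lit 1) (nat_lit 5) (nat_lit 3) (nat_lit 4) (nat_lit 1) (nat_lit 4) (nat_lit 455) (nat_lit 313) (nat_lit 252)) (XT.lf (nat_lit 0) (nat_lit 9513617905) (nat_lit 152) (nat_lit 230443459767) (nat_lit 0) (nat_lit 5234798138) (nat_lit 1) (nat_lit 5) (nat_lit 3) (nat_lit 4) (nat_lit 1) (nat_lit 4) (nat_lit 456) (nat_lit 313) (nat_lit 251))))) (XT.nd (nat_lit 234) (nat_lit 0) (nat_lit 0) (XT.nd (nat_lit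 78) (nat_lit 0) (nat_lit 0) (XT.lf (nat_lit 0) (nat_lit 14335502972) (nat_lit 152) (nat_lit 232840901384) (nat_lit 0) (nat_lit 10046284339) (nat_lit 1) (nat_lit 5) (nat_lit 3) (nat_lit 4) (nat_lit 1) (nat_lit 4) (nat_lit 457) (nat_lit 313) (nat_lit 250)) (XT.nd (nat_lit 78) (nat_lit 0) (nat_lit 0) (XT.lf (nat_lit 0) (nat_lit 19379633239) (nat_lit 152) (nat_lit 235395841452) (nat_lit 0) (nat_lit 15080510924) (nat_lit 1) (nat_lit 5) (nat_lit 3) (nat_lit 4) (nat_lit 1) (nat_lit 4) (nat_lit 458) (nat_lit 313) (nat_lit 249)) (XT.lf (nat_lit 0) (nat_lit 24658018540) (nat_lit 152) (nat_lit 238114363161) (nat_lit 0) (nat_lit 20349464148) (nat_lit 1) (nat_lit 5) (nat_lit 3) (nat_lit 4) (nat_lit 1) (nat_lit 4) (nat_lit 459) (nat_lit 313) (nat_lit 248)))) (XT.nd (nat_lit 78) (nat_lit 0) (nat_lit 0) (XT.lf (nat_lit 0) (nat_lit 30183226460) (nat_lit 152) (nat_lit 241002939183) (nat_lit 0) (nat_lit 25865689137)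 (nat_lit 1) (nat_lit 5) (nat_lit 3) (nat_lit 4) (nat_lit 1) (nat_lit 4) (nat_lit 460) (nat_lit 313) (nat_lit 247)) (XT.nd (nat_lit 78) (nat_lit 0) (nat_lit 0) (XT.lf (nat_lit 0) (nat_lit 35968412256) (nat_lit 152) (nat_lit 244068447078) (nat_lit 0) (nat_lit 31642319760) (nat_lit 1) (nat_lit 5) (nat_lit 3) (nat_lit 4) (nat_lit 1) (nat_lit 4) (nat_lit 461) (nat_lit 313) (nat_lit 246)) (XT.lf (nat_lit 0) (nat_lit 42027350179) (nat_lit 152) (nat_lit 247318185675) (nat_lit 0) (nat_lit 37693109899) (nat_lit 1) (nat_lit 5) (nat_lit 3) (nat_lit 4) (nat_lit 1) (nat_lit 4) (nat_lit 462) (nat_lit 313) (nat_lit 245)))))) (XT.nd (nat_lit 468) (nat_lit 0) (nat_lit 0) (XT.nd (nat_lit 234) (nat_lit 0) (nat_lit 0) (XT.nd (nat_lit 78) (nat_lit 0) (nat_lit 0) (XT.lf (nat_lit 0) (nat_lit 48374466272) (nat_lit 152) (nat_lit 250759892448) (nat_lit 0) (nat_lit 44032466198) (nat_lit 1) (nat_lit 5) (nat_lit 3) (nat_lit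 4) (nat_lit 1) (nat_lit 4) (nat_lit 463) (nat_lit 313) (nat_lit 244)) (XT.nd (nat_lit 78) (nat_lit 0) (nat_lit 0) (XT.lf (nat_lit 0) (nat_lit 55024872716) (nat_lit 152) (nat_lit 254401761936) (nat_lit 0) (nat_lit 50675482363) (nat_lit 1) (nat_lit 5) (nat_lit 3) (nat_lit 4) (nat_lit 1) (nat_lit 4) (nat_lit 464) (nat_lit 313) (nat_lit 243)) (XT.lf (nat_lit 0) (nat_lit 61994403813) (nat_lit 152) (nat_lit 258252465257) (nat_lit 0) (nat_lit 57637975097) (nat_lit 1) (nat_lit 5) (nat_lit 3) (nat_lit 4) (nat_lit 1) (nat_lit 4) (nat_lit 465) (nat_lit 313) (nat_lit 242)))) (XT.nd (nat_lit 78) (nat_lit 0) (nat_lit 0) (XT.lf (nat_lit 0) (nat_lit 69299653683) (nat_lit 152) (nat_lit 262321170752) (nat_lit 0) (nat_lit 64936521766) (nat_lit 1) (nat_lit 5) (nat_lit 3) (nat_lit 4) (nat_lit 1) (nat_lit 4) (nat_lit 466) (nat_lit 313) (nat_lit 241)) (XT.nd (nat_lit 78) (nat_lit 0) (nat_lit 0) (XT.lf (nat_lit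 0) (nat_lit 76958015780) (nat_lit 152) (nat_lit 266617565815) (nat_lit 0) (nat_lit 72588499861) (nat_lit 1) (nat_lit 5) (nat_lit 3) (nat_lit 4) (nat_lit 1) (nat_lit 4) (nat_lit 467) (nat_lit 313) (nat_lit 240)) (XT.lf (nat_lit 0) (nat_lit 84987724298) (nat_lit 152) (nat_lit 271151879959) (nat_lit 0) (nat_lit 80612128378) (nat_lit 1) (nat_lit 5) (nat_lit 3) (nat_lit 4) (nat_lit 1) (nat_lit 4) (nat_lit 468) (nat_lit 313) (nat_lit 239))))) (XT.nd (nat_lit 234) (nat_lit 0) (nat_lit 0) (XT.nd (nat_lit 78) (nat_lit 0) (nat_lit 0) (XT.lf (nat_lit 0) (nat_lit 93407897591) (nat_lit 152) (nat_lit 275934909169) (nat_lit 0) (nat_lit 89026511193) (nat_lit 1) (nat_lit 5) (nat_lit 3) (nat_lit 4) (nat_lit 1) (nat_lit 4) (nat_lit 469) (nat_lit 313) (nat_lit 238)) (XT.nd (nat_lit 78) (nat_lit 0) (nat_lit 0) (XT.lf (nat_lit 0) (nat_lit 102238583691) (nat_lit 152) (nat_lit 280978041610) (nat_lit 0) (nat_lit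 97851682553) (nat_lit 1) (nat_lit 5) (nat_lit 3) (nat_lit 4) (nat_lit 1) (nat_lit 4) (nat_lit 470) (nat_lit 313) (nat_lit 237)) (XT.lf (nat_lit 0) (nat_lit 111500808040) (nat_lit 152) (nat_lit 286293284740) (nat_lit 0) (nat_lit 107108654769) (nat_lit 1) (nat_lit 5) (nat_lit 3) (nat_lit 4) (nat_lit 1) (nat_lit 4) (nat_lit 471) (nat_lit 313) (nat_lit 236)))) (XT.nd (nat_lit 156) (nat_lit 0) (nat_lit 0) (XT.nd (nat_lit 78) (nat_lit 0) (nat_lit 0) (XT.lf (nat_lit 0) (nat_lit 121216623555) (nat_lit 152) (nat_lit 291893293901) (nat_lit 0) (nat_lit 116819468251) (nat_lit 1) (nat_lit 5) (nat_lit 3) (nat_lit 4) (nat_lit 1) (nat_lit 4) (nat_lit 472) (nat_lit 313) (nat_lit 235)) (XT.lf (nat_lit 0) (nat_lit 131409163129) (nat_lit 152) (nat_lit 297791402446) (nat_lit 0) (nat_lit 127007243985) (nat_lit 1) (nat_lit 5) (nat_lit 3) (nat_lit 4) (nat_lit 1) (nat_lit 4) (nat_lit 473) (nat_lit 313) (nat_lit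 234))) (XT.nd (nat_lit 78) (nat_lit 0) (nat_lit 0) (XT.lf (nat_lit 0) (nat_lit 142102694713) (nat_lit 152) (nat_lit 304001653493) (nat_lit 0) (nat_lit 137696238578) (nat_lit 1) (nat_lit 5) (nat_lit 3) (nat_lit 4) (nat_lit 1) (nat_lit 4) (nat_lit 474) (nat_lit 313) (nat_lit 233)) (XT.lf (nat_lit 0) (nat_lit 153322679097) (nat_lit 152) (nat_lit 310538833352) (nat_lit 0) (nat_lit 148911902019) (nat_lit 1) (nat_lit 5) (nat_lit 3) (nat_lit 4) (nat_lit 1) (nat_lit 4) (nat_lit 475) (nat_lit 313) (nat_lit 232))))))) (XT.nd (nat_lit 47190) (nat_lit 0) (nat_lit 684) (XT.nd (nat_lit 46644) (nat_lit 0) (nat_lit 1368) (XT.nd (nat_lit 234) (nat_lit 0) (nat_lit 0) (XT.nd (nat_lit 78) (nat_lit 0) (nat_lit 0) (XT.lf (nat_lit 0) (nat_lit 165095830530) (nat_lit 152) (nat_lit 317418506738) (nat_lit 0) (nat_lit 160680938267) (nat_lit 1) (nat_lit 5) (nat_lit 3) (nat_lit 4) (nat_lit 1) (nat_lit 4) (nat_lit 476)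 (nat_lit 313) (nat_lit 231)) (XT.nd (nat_lit 78) (nat_lit 0) (nat_lit 0) (XT.lf (nat_lit 0) (nat_lit 177450180324) (nat_lit 152) (nat_lit 324657053826) (nat_lit 0) (nat_lit 173031368838) (nat_lit 1) (nat_lit 5) (nat_lit 3) (nat_lit 4) (nat_lit 1) (nat_lit 4) (nat_lit 477) (nat_lit 313) (nat_lit 230)) (XT.lf (nat_lit 0) (nat_lit 190415143598) (nat_lit 152) (nat_lit 332271709251) (nat_lit 0) (nat_lit 185992599519) (nat_lit 1) (nat_lit 5) (nat_lit 3) (nat_lit 4) (nat_lit 1) (nat_lit 4) (nat_lit 478) (nat_lit 313) (nat_lit 229)))) (XT.nd (nat_lit 78) (nat_lit 0) (nat_lit 0) (XT.lf (nat_lit 0) (nat_lit 204021589312) (nat_lit 152) (nat_lit 340280603145) (nat_lit 0) (nat_lit 199595490382) (nat_lit 1) (nat_lit 5) (nat_lit 3) (nat_lit 4) (nat_lit 1) (nat_lit 4) (nat_lit 479) (nat_lit 313) (nat_lit 228)) (XT.nd (nat_lit 46254) (nat_lit 0) (nat_lit 1824) (XT.lf (nat_lit 0) (nat_lit 218301913765) (nat_lit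 152) (nat_lit 348702804304) (nat_lit 0) (nat_lit 213872429263) (nat_lit 1) (nat_lit 5) (nat_lit 3) (nat_lit 4) (nat_lit 1) (nat_lit 4) (nat_lit 480) (nat_lit 313) (nat_lit 227)) (XT.lf (nat_lit 0) (nat_lit 642348524) (nat_lit 152) (nat_lit 6849729793) (nat_lit 0) (nat_lit 642348524) (nat_lit 25) (nat_lit 5) (nat_lit 27) (nat_lit 4) (nat_lit 25) (nat_lit 4) (nat_lit 392) (nat_lit 314) (nat_lit 314))))) (XT.nd (nat_lit 234) (nat_lit 228) (nat_lit 0) (XT.nd (nat_lit 78) (nat_lit 228) (nat_lit 0) (XT.lf (nat_lit 0) (nat_lit 7157982782) (nat_lit 152) (nat_lit 2789704408) (nat_lit 0) (nat_lit 6825762450) (nat_lit 25) (nat_lit 5) (nat_lit 27) (nat_lit 4) (nat_lit 25) (nat_lit 4) (nat_lit 393) (nat_lit 314) (nat_lit 313)) (XT.nd (nat_lit 78) (nat_lit 152) (nat_lit 0) (XT.lf (nat_lit 0) (nat_lit 8574869745) (nat_lit 76) (nat_lit 4690029000) (nat_lit 76) (nat_lit 4041408352) (nat_lit 24) (nat_lit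 4) (nat_lit 25) (nat_lit 5) (nat_lit 25) (nat_lit 4) (nat_lit 394) (nat_lit 314) (nat_lit 312)) (XT.lf (nat_lit 0) (nat_lit 1657958130) (nat_lit 152) (nat_lit 15457993740) (nat_lit 0) (nat_lit 753239766) (nat_lit 22) (nat_lit 5) (nat_lit 24) (nat_lit 4) (nat_lit 22) (nat_lit 4) (nat_lit 395) (nat_lit 314) (nat_lit 311)))) (XT.nd (nat_lit 156) (nat_lit 152) (nat_lit 0) (XT.nd (nat_lit 78) (nat_lit 76) (nat_lit 0) (XT.lf (nat_lit 0) (nat_lit 7541163972) (nat_lit 152) (nat_lit 4550908152) (nat_lit 0) (nat_lit 6363127119) (nat_lit 22) (nat_lit 5) (nat_lit 24) (nat_lit 4) (nat_lit 22) (nat_lit 4) (nat_lit 396) (nat_lit 314) (nat_lit 310)) (XT.lf (nat_lit 0) (nat_lit 6769021172) (nat_lit 76) (nat_lit 6871866518) (nat_lit 76) (nat_lit 5433526342) (nat_lit 21) (nat_lit 4) (nat_lit 22) (nat_lit 5) (nat_lit 22) (nat_lit 4) (nat_lit 397) (nat_lit 314) (nat_lit 309))) (XT.nd (nat_lit 78) (nat_lit 76)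 (nat_lit 0) (XT.lf (nat_lit 0) (nat_lit 206136698) (nat_lit 152) (nat_lit 1263667870) (nat_lit 76) (nat_lit 18259786638) (nat_lit 20) (nat_lit 5) (nat_lit 22) (nat_lit 5) (nat_lit 21) (nat_lit 4) (nat_lit 398) (nat_lit 314) (nat_lit 308)) (XT.lf (nat_lit 0) (nat_lit 5997980204) (nat_lit 152) (nat_lit 10245304839) (nat_lit 0) (nat_lit 4167169833) (nat_lit 19) (nat_lit 5) (nat_lit 21) (nat_lit 4) (nat_lit 19) (nat_lit 4) (nat_lit 399) (nat_lit 314) (nat_lit 307)))))) (XT.nd (nat_lit 468) (nat_lit 380) (nat_lit 0) (XT.nd (nat_lit 234) (nat_lit 76) (nat_lit 0) (XT.nd (nat_lit 78) (nat_lit 152) (nat_lit 0) (XT.lf (nat_lit 0) (nat_lit 750864053) (nat_lit 76) (nat_lit 11212638113) (nat_lit 76) (nat_lit 9167675554) (nat_lit 18) (nat_lit 4) (nat_lit 19) (nat_lit 5) (nat_lit 19) (nat_lit 4) (nat_lit 400) (nat_lit 314) (nat_lit 306)) (XT.nd (nat_lit 78) (nat_lit 152) (nat_lit 0) (XT.lf (nat_lit 0)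 (nat_lit 12324206536) (nat_lit 76) (nat_lit 5906254251) (nat_lit 76) (nat_lit 3657337227) (nat_lit 18) (nat_lit 4) (nat_lit 19) (nat_lit 5) (nat_lit 19) (nat_lit 4) (nat_lit 401) (nat_lit 314) (nat_lit 305)) (XT.lf (nat_lit 0) (nat_lit 1490268225) (nat_lit 76) (nat_lit 428476944) (nat_lit 152) (nat_lit 20768942437) (nat_lit 16) (nat_lit 5) (nat_lit 17) (nat_lit 5) (nat_lit 18) (nat_lit 4) (nat_lit 402) (nat_lit 314) (nat_lit 304)))) (XT.nd (nat_lit 78) (nat_lit 76) (nat_lit 0) (XT.lf (nat_lit 0) (nat_lit 7734142925) (nat_lit 152) (nat_lit 10555135608) (nat_lit 0) (nat_lit 5231140941) (nat_lit 16) (nat_lit 5) (nat_lit 18) (nat_lit 4) (nat_lit 16) (nat_lit 4) (nat_lit 403) (nat_lit 314) (nat_lit 303)) (XT.nd (nat_lit 78) (nat_lit 0) (nat_lit 0) (XT.lf (nat_lit 0) (nat_lit 318835289) (nat_lit 76) (nat_lit 13376994219) (nat_lit 76) (nat_lit 10706198391) (nat_lit 15) (nat_lit 4) (nat_lit 16)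 (nat_lit 5) (nat_lit 16) (nat_lit 4) (nat_lit 404) (nat_lit 314) (nat_lit 302)) (XT.lf (nat_lit 0) (nat_lit 11804244529) (nat_lit 76) (nat_lit 8176416901) (nat_lit 76) (nat_lit 5345817414) (nat_lit 15) (nat_lit 4) (nat_lit 16) (nat_lit 5) (nat_lit 16) (nat_lit 4) (nat_lit 405) (nat_lit 314) (nat_lit 301))))) (XT.nd (nat_lit 234) (nat_lit 228) (nat_lit 0) (XT.nd (nat_lit 78) (nat_lit 76) (nat_lit 0) (XT.lf (nat_lit 0) (nat_lit 124748128) (nat_lit 152) (nat_lit 2727059785) (nat_lit 76) (nat_lit 23452577075) (nat_lit 14) (nat_lit 5) (nat_lit 16) (nat_lit 5) (nat_lit 15) (nat_lit 4) (nat_lit 406) (nat_lit 314) (nat_lit 300)) (XT.nd (nat_lit 78) (nat_lit 0) (nat_lit 0) (XT.lf (nat_lit 0) (nat_lit 5724749509) (nat_lit 152) (nat_lit 18854340662) (nat_lit 0) (nat_lit 2745949434) (nat_lit 13) (nat_lit 5) (nat_lit 15) (nat_lit 4) (nat_lit 13) (nat_lit 4) (nat_lit 407) (nat_lit 314) (nat_lit 299))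 (XT.lf (nat_lit 0) (nat_lit 11557191143) (nat_lit 152) (nat_lit 8395006065) (nat_lit 0) (nat_lit 8446920201) (nat_lit 13) (nat_lit 5) (nat_lit 15) (nat_lit 4) (nat_lit 13) (nat_lit 4) (nat_lit 408) (nat_lit 314) (nat_lit 298)))) (XT.nd (nat_lit 156) (nat_lit 152) (nat_lit 0) (XT.nd (nat_lit 78) (nat_lit 0) (nat_lit 0) (XT.lf (nat_lit 0) (nat_lit 2401192987) (nat_lit 76) (nat_lit 15183025548) (nat_lit 76) (nat_lit 11947544256) (nat_lit 12) (nat_lit 4) (nat_lit 13) (nat_lit 5) (nat_lit 13) (nat_lit 4) (nat_lit 409) (nat_lit 314) (nat_lit 297)) (XT.lf (nat_lit 0) (nat_lit 13769943419) (nat_lit 76) (nat_lit 10152668422) (nat_lit 76) (nat_lit 6797939179) (nat_lit 12) (nat_lit 4) (nat_lit 13) (nat_lit 5) (nat_lit 13) (nat_lit 4) (nat_lit 410) (nat_lit 314) (nat_lit 296))) (XT.nd (nat_lit 78) (nat_lit 152) (nat_lit 0) (XT.lf (nat_lit 0) (nat_lit 25460736869) (nat_lit 76) (nat_lit 4991322281) (nat_lit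 76) (nat_lit 1523023561) (nat_lit 12) (nat_lit 4) (nat_lit 13) (nat_lit 5) (nat_lit 13) (nat_lit 4) (nat_lit 411) (nat_lit 314) (nat_lit 295)) (XT.lf (nat_lit 0) (nat_lit 3839059450) (nat_lit 152) (nat_lit 29019652232) (nat_lit 0) (nat_lit 432906948) (nat_lit 10) (nat_lit 5) (nat_lit 12) (nat_lit 4) (nat_lit 10) (nat_lit 4) (nat_lit 412) (nat_lit 314) (nat_lit 294))))))))
noncomputable def xc39 : XT := (XT.nd (nat_lit 1950) (nat_lit 228) (nat_lit 0) (XT.nd (nat_lit 936) (nat_lit 152) (nat_lit 0) (XT.nd (nat_lit 468) (nat_lit 228) (nat_lit 0) (XT.nd (nat_lit 234) (nat_lit 0) (nat_lit 0) (XT.nd (nat_lit 78) (nat_lit 76) (nat_lit 0) (XT.lf (nat_lit 0) (nat_lit 9490511013) (nat_lit 152) (nat_lit 19192355929) (nat_lit 0) (nat_lit 5986252925) (nat_lit 10) (nat_lit 5) (nat_lit 12) (nat_lit 4) (nat_lit 10) (nat_lit 4) (nat_lit 413) (nat_lit 314) (nat_lit 293)) (XT.nd (nat_lit 78) (nat_lit 76) (nat_lit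 0) (XT.lf (nat_lit 0) (nat_lit 15308812144) (nat_lit 152) (nat_lit 9101358866) (nat_lit 0) (nat_lit 11711120166) (nat_lit 10) (nat_lit 5) (nat_lit 12) (nat_lit 4) (nat_lit 10) (nat_lit 4) (nat_lit 414) (nat_lit 314) (nat_lit 292)) (XT.lf (nat_lit 0) (nat_lit 1319600602) (nat_lit 76) (nat_lit 20008818003) (nat_lit 76) (nat_lit 16322141367) (nat_lit 9) (nat_lit 4) (nat_lit 10) (nat_lit 5) (nat_lit 10) (nat_lit 4) (nat_lit 415) (nat_lit 314) (nat_lit 291)))) (XT.nd (nat_lit 78) (nat_lit 0) (nat_lit 0) (XT.lf (nat_lit 0) (nat_lit 12364260908) (nat_lit 76) (nat_lit 15330585603) (nat_lit 76) (nat_lit 11559161675) (nat_lit 9) (nat_lit 4) (nat_lit 10) (nat_lit 5) (nat_lit 10) (nat_lit 4) (nat_lit 416) (nat_lit 314) (nat_lit 290)) (XT.nd (nat_lit 78) (nat_lit 0) (nat_lit 0) (XT.lf (nat_lit 0) (nat_lit 23757986835) (nat_lit 76) (nat_lit 10518471080) (nat_lit 76) (nat_lit 6666335445) (nat_lit 9) (nat_lit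 4) (nat_lit 10) (nat_lit 5) (nat_lit 10) (nat_lit 4) (nat_lit 417) (nat_lit 314) (nat_lit 289)) (XT.lf (nat_lit 0) (nat_lit 35527906302) (nat_lit 76) (nat_lit 5561017018) (nat_lit 76) (nat_lit 1632013090) (nat_lit 9) (nat_lit 4) (nat_lit 10) (nat_lit 5) (nat_lit 10) (nat_lit 4) (nat_lit 418) (nat_lit 314) (nat_lit 288))))) (XT.nd (nat_lit 234) (nat_lit 76) (nat_lit 0) (XT.nd (nat_lit 78) (nat_lit 0) (nat_lit 0) (XT.lf (nat_lit 0) (nat_lit 3154830314) (nat_lit 76) (nat_lit 336409754) (nat_lit 152) (nat_lit 41096192358) (nat_lit 7) (nat_lit 5) (nat_lit 8) (nat_lit 5) (nat_lit 9) (nat_lit 4) (nat_lit 419) (nat_lit 314) (nat_lit 287)) (XT.nd (nat_lit 78) (nat_lit 0) (nat_lit 0) (XT.lf (nat_lit 0) (nat_lit 8925160303) (nat_lit 152) (nat_lit 32568165710) (nat_lit 0) (nat_lit 5047128271) (nat_lit 7) (nat_lit 5) (nat_lit 9) (nat_lit 4) (nat_lit 7) (nat_lit 4) (nat_lit 420) (nat_lit 314) (nat_lit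 286)) (XT.lf (nat_lit 0) (nat_lit 14545947946) (nat_lit 152) (nat_lit 23444750536) (nat_lit 0) (nat_lit 10604676179) (nat_lit 7) (nat_lit 5) (nat_lit 9) (nat_lit 4) (nat_lit 7) (nat_lit 4) (nat_lit 421) (nat_lit 314) (nat_lit 285)))) (XT.nd (nat_lit 78) (nat_lit 76) (nat_lit 0) (XT.lf (nat_lit 0) (nat_lit 20361733526) (nat_lit 152) (nat_lit 14035381874) (nat_lit 0) (nat_lit 16360233441) (nat_lit 7) (nat_lit 5) (nat_lit 9) (nat_lit 4) (nat_lit 7) (nat_lit 4) (nat_lit 422) (nat_lit 314) (nat_lit 284)) (XT.nd (nat_lit 78) (nat_lit 76) (nat_lit 0) (XT.lf (nat_lit 0) (nat_lit 26386364153) (nat_lit 152) (nat_lit 4317656463) (nat_lit 0) (nat_lit 22327503764) (nat_lit 7) (nat_lit 5) (nat_lit 9) (nat_lit 4) (nat_lit 7) (nat_lit 4) (nat_lit 423) (nat_lit 314) (nat_lit 283)) (XT.lf (nat_lit 0) (nat_lit 5921074497) (nat_lit 76) (nat_lit 26805554252) (nat_lit 76) (nat_lit 22692065002) (nat_lit 6) (nat_lit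 4) (nat_lit 7) (nat_lit 5) (nat_lit 7) (nat_lit 4) (nat_lit 424) (nat_lit 314) (nat_lit 282)))))) (XT.nd (nat_lit 468) (nat_lit 0) (nat_lit 0) (XT.nd (nat_lit 234) (nat_lit 152) (nat_lit 0) (XT.nd (nat_lit 78) (nat_lit 0) (nat_lit 0) (XT.lf (nat_lit 0) (nat_lit 16669739403) (nat_lit 76) (nat_lit 22710591325) (nat_lit 76) (nat_lit 18545074590) (nat_lit 6) (nat_lit 4) (nat_lit 7) (nat_lit 5) (nat_lit 7) (nat_lit 4) (nat_lit 425) (nat_lit 314) (nat_lit 281)) (XT.nd (nat_lit 78) (nat_lit 0) (nat_lit 0) (XT.lf (nat_lit 0) (nat_lit 27811169091) (nat_lit 76) (nat_lit 18482503526) (nat_lit 76) (nat_lit 14267436803) (nat_lit 6) (nat_lit 4) (nat_lit 7) (nat_lit 5) (nat_lit 7) (nat_lit 4) (nat_lit 426) (nat_lit 314) (nat_lit 280)) (XT.lf (nat_lit 0) (nat_lit 39371890774) (nat_lit 76) (nat_lit 14111223978) (nat_lit 76) (nat_lit 9848966792) (nat_lit 6) (nat_lit 4) (nat_lit 7) (nat_lit 5) (nat_lit 7)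 (nat_lit 4) (nat_lit 427) (nat_lit 314) (nat_lit 279)))) (XT.nd (nat_lit 78) (nat_lit 152) (nat_lit 0) (XT.lf (nat_lit 0) (nat_lit 51379429980) (nat_lit 76) (nat_lit 9586344873) (nat_lit 76) (nat_lit 5279144388) (nat_lit 6) (nat_lit 4) (nat_lit 7) (nat_lit 5) (nat_lit 7) (nat_lit 4) (nat_lit 428) (nat_lit 314) (nat_lit 278)) (XT.nd (nat_lit 78) (nat_lit 152) (nat_lit 0) (XT.lf (nat_lit 0) (nat_lit 63862376088) (nat_lit 76) (nat_lit 4897092689) (nat_lit 76) (nat_lit 547089063) (nat_lit 6) (nat_lit 4) (nat_lit 7) (nat_lit 5) (nat_lit 7) (nat_lit 4) (nat_lit 429) (nat_lit 314) (nat_lit 277)) (XT.lf (nat_lit 0) (nat_lit 4289384230) (nat_lit 152) (nat_lit 68120279594) (nat_lit 0) (nat_lit 107699922) (nat_lit 4) (nat_lit 5) (nat_lit 6) (nat_lit 4) (nat_lit 4) (nat_lit 4) (nat_lit 430) (nat_lit 314) (nat_lit 276))))) (XT.nd (nat_lit 234) (nat_lit 0) (nat_lit 0) (XT.nd (nat_lit 78) (nat_lit 0) (nat_lit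 0) (XT.lf (nat_lit 0) (nat_lit 9462330953) (nat_lit 152) (nat_lit 61176610606) (nat_lit 0) (nat_lit 5243671682) (nat_lit 4) (nat_lit 5) (nat_lit 6) (nat_lit 4) (nat_lit 4) (nat_lit 4) (nat_lit 431) (nat_lit 314) (nat_lit 275)) (XT.nd (nat_lit 78) (nat_lit 0) (nat_lit 0) (XT.lf (nat_lit 0) (nat_lit 14835871691) (nat_lit 152) (nat_lit 54001161356) (nat_lit 0) (nat_lit 10581998169) (nat_lit 4) (nat_lit 5) (nat_lit 6) (nat_lit 4) (nat_lit 4) (nat_lit 4) (nat_lit 432) (nat_lit 314) (nat_lit 274)) (XT.lf (nat_lit 0) (nat_lit 20422800587) (nat_lit 152) (nat_lit 46576847442) (nat_lit 0) (nat_lit 16135389683) (nat_lit 4) (nat_lit 5) (nat_lit 6) (nat_lit 4) (nat_lit 4) (nat_lit 4) (nat_lit 433) (nat_lit 314) (nat_lit 273)))) (XT.nd (nat_lit 156) (nat_lit 0) (nat_lit 0) (XT.nd (nat_lit 78) (nat_lit 0) (nat_lit 0) (XT.lf (nat_lit 0) (nat_lit 26236419853) (nat_lit 152) (nat_lit 38885991926) (nat_lit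 0) (nat_lit 21917068587) (nat_lit 4) (nat_lit 5) (nat_lit 6) (nat_lit 4) (nat_lit 4) (nat_lit 4) (nat_lit 434) (nat_lit 314) (nat_lit 272)) (XT.lf (nat_lit 0) (nat_lit 32290571441) (nat_lit 152) (nat_lit 30910283247) (nat_lit 0) (nat_lit 27940800781) (nat_lit 4) (nat_lit 5) (nat_lit 6) (nat_lit 4) (nat_lit 4) (nat_lit 4) (nat_lit 435) (nat_lit 314) (nat_lit 271))) (XT.nd (nat_lit 78) (nat_lit 0) (nat_lit 0) (XT.lf (nat_lit 0) (nat_lit 38599669997) (nat_lit 152) (nat_lit 22630731622) (nat_lit 0) (nat_lit 34220928485) (nat_lit 4) (nat_lit 5) (nat_lit 6) (nat_lit 4) (nat_lit 4) (nat_lit 4) (nat_lit 436) (nat_lit 314) (nat_lit 270)) (XT.lf (nat_lit 0) (nat_lit 45178737183) (nat_lit 152) (nat_lit 14027623834) (nat_lit 0) (nat_lit 40772404384) (nat_lit 4) (nat_lit 5) (nat_lit 6) (nat_lit 4) (nat_lit 4) (nat_lit 4) (nat_lit 437) (nat_lit 314) (nat_lit 269))))))) (XT.nd (nat_lit 1014) (nat_lit 152)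 (nat_lit 0) (XT.nd (nat_lit 468) (nat_lit 0) (nat_lit 0) (XT.nd (nat_lit 234) (nat_lit 0) (nat_lit 0) (XT.nd (nat_lit 78) (nat_lit 76) (nat_lit 0) (XT.lf (nat_lit 0) (nat_lit 52043437446) (nat_lit 152) (nat_lit 5080476292) (nat_lit 0) (nat_lit 47610827231) (nat_lit 4) (nat_lit 5) (nat_lit 6) (nat_lit 4) (nat_lit 4) (nat_lit 4) (nat_lit 438) (nat_lit 314) (nat_lit 268)) (XT.nd (nat_lit 78) (nat_lit 0) (nat_lit 0) (XT.lf (nat_lit 0) (nat_lit 4371943221) (nat_lit 76) (nat_lit 54906430374) (nat_lit 76) (nat_lit 50448794050) (nat_lit 3) (nat_lit 4) (nat_lit 4) (nat_lit 5) (nat_lit 4) (nat_lit 4) (nat_lit 439) (nat_lit 314) (nat_lit 267)) (XT.lf (nat_lit 0) (nat_lit 14392674305) (nat_lit 76) (nat_lit 52527869969) (nat_lit 76) (nat_lit 48046399254) (nat_lit 3) (nat_lit 4) (nat_lit 4) (nat_lit 5) (nat_lit 4) (nat_lit 4) (nat_lit 440) (nat_lit 314) (nat_lit 266)))) (XT.nd (nat_lit 78) (nat_lit 0)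 (nat_lit 0) (XT.lf (nat_lit 0) (nat_lit 24837592352) (nat_lit 76) (nat_lit 50068609608) (nat_lit 76) (nat_lit 45564439473) (nat_lit 3) (nat_lit 4) (nat_lit 4) (nat_lit 5) (nat_lit 4) (nat_lit 4) (nat_lit 441) (nat_lit 314) (nat_lit 265)) (XT.nd (nat_lit 78) (nat_lit 0) (nat_lit 0) (XT.lf (nat_lit 0) (nat_lit 35731566215) (nat_lit 76) (nat_lit 47522793910) (nat_lit 76) (nat_lit 42997005279) (nat_lit 3) (nat_lit 4) (nat_lit 4) (nat_lit 5) (nat_lit 4) (nat_lit 4) (nat_lit 442) (nat_lit 314) (nat_lit 264)) (XT.lf (nat_lit 0) (nat_lit 47100533928) (nat_lit 76) (nat_lit 44884361407) (nat_lit 76) (nat_lit 40337983733) (nat_lit 3) (nat_lit 4) (nat_lit 4) (nat_lit 5) (nat_lit 4) (nat_lit 4) (nat_lit 443) (nat_lit 314) (nat_lit 263))))) (XT.nd (nat_lit 234) (nat_lit 0) (nat_lit 0) (XT.nd (nat_lit 78) (nat_lit 0) (nat_lit 0) (XT.lf (nat_lit 0) (nat_lit 58971564459) (nat_lit 76) (nat_lit 42147030119)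 (nat_lit 76) (nat_lit 37581043833) (nat_lit 3) (nat_lit 4) (nat_lit 4) (nat_lit 5) (nat_lit 4) (nat_lit 4) (nat_lit 444) (nat_lit 314) (nat_lit 262)) (XT.nd (nat_lit 78) (nat_lit 0) (nat_lit 0) (XT.lf (nat_lit 0) (nat_lit 71372922169) (nat_lit 76) (nat_lit 39304282590) (nat_lit 76) (nat_lit 34719621435) (nat_lit 3) (nat_lit 4) (nat_lit 4) (nat_lit 5) (nat_lit 4) (nat_lit 4) (nat_lit 445) (nat_lit 314) (nat_lit 261)) (XT.lf (nat_lit 0) (nat_lit 84334134099) (nat_lit 76) (nat_lit 36349350373) (nat_lit 76) (nat_lit 31746903628) (nat_lit 3) (nat_lit 4) (nat_lit 4) (nat_lit 5) (nat_lit 4) (nat_lit 4) (nat_lit 446) (nat_lit 314) (nat_lit 260)))) (XT.nd (nat_lit 156) (nat_lit 0) (nat_lit 0) (XT.nd (nat_lit 78) (nat_lit 0) (nat_lit 0) (XT.lf (nat_lit 0) (nat_lit 97886060277) (nat_lit 76) (nat_lit 33275197915) (nat_lit 76) (nat_lit 28655812514) (nat_lit 3) (nat_lit 4) (nat_lit 4) (nat_lit 5) (nat_lit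 4) (nat_lit 4) (nat_lit 447) (nat_lit 314) (nat_lit 259)) (XT.lf (nat_lit 0) (nat_lit 112060967195) (nat_lit 76) (nat_lit 30074505806) (nat_lit 76) (nat_lit 25438988351) (nat_lit 3) (nat_lit 4) (nat_lit 4) (nat_lit 5) (nat_lit 4) (nat_lit 4) (nat_lit 448) (nat_lit 314) (nat_lit 258))) (XT.nd (nat_lit 78) (nat_lit 0) (nat_lit 0) (XT.lf (nat_lit 0) (nat_lit 126892604631) (nat_lit 76) (nat_lit 26739653350) (nat_lit 76) (nat_lit 22088772034) (nat_lit 3) (nat_lit 4) (nat_lit 4) (nat_lit 5) (nat_lit 4) (nat_lit 4) (nat_lit 449) (nat_lit 314) (nat_lit 257)) (XT.lf (nat_lit 0) (nat_lit 142416286007) (nat_lit 76) (nat_lit 23262700423) (nat_lit 76) (nat_lit 18597186859) (nat_lit 3) (nat_lit 4) (nat_lit 4) (nat_lit 5) (nat_lit 4) (nat_lit 4) (nat_lit 450) (nat_lit 314) (nat_lit 256)))))) (XT.nd (nat_lit 468) (nat_lit 0) (nat_lit 0) (XT.nd (nat_lit 234) (nat_lit 152) (nat_lit 0) (XT.nd (nat_lit 78)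 (nat_lit 0) (nat_lit 0) (XT.lf (nat_lit 0) (nat_lit 158668972469) (nat_lit 76) (nat_lit 19635368565) (nat_lit 76) (nat_lit 14955919526) (nat_lit 3) (nat_lit 4) (nat_lit 4) (nat_lit 5) (nat_lit 4) (nat_lit 4) (nat_lit 451) (nat_lit 314) (nat_lit 255)) (XT.nd (nat_lit 78) (nat_lit 0) (nat_lit 0) (XT.lf (nat_lit 0) (nat_lit 175689360891) (nat_lit 76) (nat_lit 15849021271) (nat_lit 76) (nat_lit 11156300351) (nat_lit 3) (nat_lit 4) (nat_lit 4) (nat_lit 5) (nat_lit 4) (nat_lit 4) (nat_lit 452) (nat_lit 314) (nat_lit 254)) (XT.lf (nat_lit 0) (nat_lit 193517976005) (nat_lit 76) (nat_lit 11894643429) (nat_lit 76) (nat_lit 7189282623) (nat_lit 3) (nat_lit 4) (nat_lit 4) (nat_lit 5) (nat_lit 4) (nat_lit 4) (nat_lit 453) (nat_lit 314) (nat_lit 253)))) (XT.nd (nat_lit 78) (nat_lit 152) (nat_lit 0) (XT.lf (nat_lit 0) (nat_lit 212197266897) (nat_lit 76) (nat_lit 7762819854) (nat_lit 76) (nat_lit 3045421061)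 (nat_lit 3) (nat_lit 4) (nat_lit 4) (nat_lit 5) (nat_lit 4) (nat_lit 4) (nat_lit 454) (nat_lit 314) (nat_lit 252)) (XT.nd (nat_lit 78) (nat_lit 76) (nat_lit 0) (XT.lf (nat_lit 0) (nat_lit 1244017824) (nat_lit 152) (nat_lit 2178627003) (nat_lit 76) (nat_lit 230506622200) (nat_lit 2) (nat_lit 5) (nat_lit 4) (nat_lit 5) (nat_lit 3) (nat_lit 4) (nat_lit 455) (nat_lit 314) (nat_lit 251)) (XT.lf (nat_lit 0) (nat_lit 5756331701) (nat_lit 152) (nat_lit 238392596510) (nat_lit 0) (nat_lit 1242253270) (nat_lit 1) (nat_lit 5) (nat_lit 3) (nat_lit 4) (nat_lit 1) (nat_lit 4) (nat_lit 456) (nat_lit 314) (nat_lit 250))))) (XT.nd (nat_lit 234) (nat_lit 0) (nat_lit 0) (XT.nd (nat_lit 78) (nat_lit 0) (nat_lit 0) (XT.lf (nat_lit 0) (nat_lit 10569022107) (nat_lit 152) (nat_lit 240808392454) (nat_lit 0) (nat_lit 6045039995) (nat_lit 1) (nat_lit 5) (nat_lit 3) (nat_lit 4) (nat_lit 1) (nat_lit 4) (nat_lit 457)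 (nat_lit 314) (nat_lit 249)) (XT.nd (nat_lit 78) (nat_lit 0) (nat_lit 0) (XT.lf (nat_lit 0) (nat_lit 15604395555) (nat_lit 152) (nat_lit 243380812833) (nat_lit 0) (nat_lit 11070981365) (nat_lit 1) (nat_lit 5) (nat_lit 3) (nat_lit 4) (nat_lit 1) (nat_lit 4) (nat_lit 458) (nat_lit 314) (nat_lit 248)) (XT.lf (nat_lit 0) (nat_lit 20874441029) (nat_lit 152) (nat_lit 246115982458) (nat_lit 0) (nat_lit 16332043908) (nat_lit 1) (nat_lit 5) (nat_lit 3) (nat_lit 4) (nat_lit 1) (nat_lit 4) (nat_lit 459) (nat_lit 314) (nat_lit 247)))) (XT.nd (nat_lit 156) (nat_lit 0) (nat_lit 0) (XT.nd (nat_lit 78) (nat_lit 0) (nat_lit 0) (XT.lf (nat_lit 0) (nat_lit 26391706256) (nat_lit 152) (nat_lit 249020413637) (nat_lit 0) (nat_lit 21840753963) (nat_lit 1) (nat_lit 5) (nat_lit 3) (nat_lit 4) (nat_lit 1) (nat_lit 4) (nat_lit 460) (nat_lit 314) (nat_lit 246)) (XT.lf (nat_lit 0) (nat_lit 32169327582) (nat_lit 152)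 (nat_lit 252101021682) (nat_lit 0) (nat_lit 27610227505) (nat_lit 1) (nat_lit 5) (nat_lit 3) (nat_lit 4) (nat_lit 1) (nat_lit 4) (nat_lit 461) (nat_lit 314) (nat_lit 245))) (XT.nd (nat_lit 78) (nat_lit 0) (nat_lit 0) (XT.lf (nat_lit 0) (nat_lit 38221061249) (nat_lit 152) (nat_lit 255365141375) (nat_lit 0) (nat_lit 33654201378) (nat_lit 1) (nat_lit 5) (nat_lit 3) (nat_lit 4) (nat_lit 1) (nat_lit 4) (nat_lit 462) (nat_lit 314) (nat_lit 244)) (XT.lf (nat_lit 0) (nat_lit 44561316145) (nat_lit 152) (nat_lit 258820544429) (nat_lit 0) (nat_lit 39987065994) (nat_lit 1) (nat_lit 5) (nat_lit 3) (nat_lit 4) (nat_lit 1) (nat_lit 4) (nat_lit 463) (nat_lit 314) (nat_lit 243))))))))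
noncomputable def xc40 : XT := (XT.nd (nat_lit 47970) (nat_lit 0) (nat_lit 456) (XT.nd (nat_lit 936) (nat_lit 0) (nat_lit 0) (XT.nd (nat_lit 468) (nat_lit 0) (nat_lit 0) (XT.nd (nat_lit 234) (nat_lit 0) (nat_lit 0) (XT.nd (nat_lit 78) (nat_lit 0) (nat_lit 0) (XT.lf (nat_lit 0) (nat_lit 51205188116) (nat_lit 152) (nat_lit 262475457994) (nat_lit 0) (nat_lit 46623899603) (nat_lit 1) (nat_lit 5) (nat_lit 3) (nat_lit 4) (nat_lit 1) (nat_lit 4) (nat_lit 464) (nat_lit 314) (nat_lit 242)) (XT.nd (nat_lit 78) (nat_lit 0) (nat_lit 0) (XT.lf (nat_lit 0) (nat_lit 58168495905) (nat_lit 152) (nat_lit 266338584246) (nat_lit 0) (nat_lit 53580504191) (nat_lit 1) (nat_lit 5) (nat_lit 3) (nat_lit 4) (nat_lit 1) (nat_lit 4) (nat_lit 465) (nat_lit 314) (nat_lit 241)) (XT.lf (nat_lit 0) (nat_lit 65467818816) (nat_lit 152) (nat_lit 270419121104) (nat_lit 0) (nat_lit 60873443100) (nat_lit 1) (nat_lit 5) (nat_lit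 3) (nat_lit 4) (nat_lit 1) (nat_lit 4) (nat_lit 466) (nat_lit 314) (nat_lit 240)))) (XT.nd (nat_lit 78) (nat_lit 0) (nat_lit 0) (XT.lf (nat_lit 0) (nat_lit 73120536189) (nat_lit 152) (nat_lit 274726784132) (nat_lit 0) (nat_lit 68520080471) (nat_lit 1) (nat_lit 5) (nat_lit 3) (nat_lit 4) (nat_lit 1) (nat_lit 4) (nat_lit 467) (nat_lit 314) (nat_lit 239)) (XT.nd (nat_lit 78) (nat_lit 0) (nat_lit 0) (XT.lf (nat_lit 0) (nat_lit 81144868779) (nat_lit 152) (nat_lit 279271829670) (nat_lit 0) (nat_lit 76538622585) (nat_lit 1) (nat_lit 5) (nat_lit 3) (nat_lit 4) (nat_lit 1) (nat_lit 4) (nat_lit 468) (nat_lit 314) (nat_lit 238)) (XT.lf (nat_lit 0) (nat_lit 89559922142) (nat_lit 152) (nat_lit 284065079256) (nat_lit 0) (nat_lit 84948161207) (nat_lit 1) (nat_lit 5) (nat_lit 3) (nat_lit 4) (nat_lit 1) (nat_lit 4) (nat_lit 469) (nat_lit 314) (nat_lit 237))))) (XT.nd (nat_lit 234) (nat_lit 0) (nat_lit 0)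 (XT.nd (nat_lit 78) (nat_lit 0) (nat_lit 0) (XT.lf (nat_lit 0) (nat_lit 98385732117) (nat_lit 152) (nat_lit 289117945388) (nat_lit 0) (nat_lit 93768719048) (nat_lit 1) (nat_lit 5) (nat_lit 3) (nat_lit 4) (nat_lit 1) (nat_lit 4) (nat_lit 470) (nat_lit 314) (nat_lit 236)) (XT.nd (nat_lit 78) (nat_lit 0) (nat_lit 0) (XT.lf (nat_lit 0) (nat_lit 107643312539) (nat_lit 152) (nat_lit 294442458701) (nat_lit 0) (nat_lit 103021297438) (nat_lit 1) (nat_lit 5) (nat_lit 3) (nat_lit 4) (nat_lit 1) (nat_lit 4) (nat_lit 471) (nat_lit 314) (nat_lit 235)) (XT.lf (nat_lit 0) (nat_lit 117354705265) (nat_lit 152) (nat_lit 300051296606) (nat_lit 0) (nat_lit 112727926323) (nat_lit 1) (nat_lit 5) (nat_lit 3) (nat_lit 4) (nat_lit 1) (nat_lit 4) (nat_lit 472) (nat_lit 314) (nat_lit 234)))) (XT.nd (nat_lit 78) (nat_lit 0) (nat_lit 0) (XT.lf (nat_lit 0) (nat_lit 127543032659) (nat_lit 152) (nat_lit 305957813480) (nat_lit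 0) (nat_lit 122911716727) (nat_lit 1) (nat_lit 5) (nat_lit 3) (nat_lit 4) (nat_lit 1) (nat_lit 4) (nat_lit 473) (nat_lit 314) (nat_lit 233)) (XT.nd (nat_lit 78) (nat_lit 0) (nat_lit 0) (XT.lf (nat_lit 0) (nat_lit 138232552644) (nat_lit 152) (nat_lit 312176072459) (nat_lit 0) (nat_lit 133596915768) (nat_lit 1) (nat_lit 5) (nat_lit 3) (nat_lit 4) (nat_lit 1) (nat_lit 4) (nat_lit 474) (nat_lit 314) (nat_lit 232)) (XT.lf (nat_lit 0) (nat_lit 149448716457) (nat_lit 152) (nat_lit 318720878920) (nat_lit 0) (nat_lit 144808964397) (nat_lit 1) (nat_lit 5) (nat_lit 3) (nat_lit 4) (nat_lit 1) (nat_lit 4) (nat_lit 475) (nat_lit 314) (nat_lit 231)))))) (XT.nd (nat_lit 46488) (nat_lit 0) (nat_lit 1520) (XT.nd (nat_lit 234) (nat_lit 0) (nat_lit 0) (XT.nd (nat_lit 78) (nat_lit 0) (nat_lit 0) (XT.lf (nat_lit 0) (nat_lit 161218229250) (nat_lit 152) (nat_lit 325607815736) (nat_lit 0) (nat_lit 156574557967)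 (nat_lit 1) (nat_lit 5) (nat_lit 3) (nat_lit 4) (nat_lit 1) (nat_lit 4) (nat_lit 476) (nat_lit 314) (nat_lit 230)) (XT.nd (nat_lit 78) (nat_lit 0) (nat_lit 0) (XT.lf (nat_lit 0) (nat_lit 173569113674) (nat_lit 152) (nat_lit 332853280377) (nat_lit 0) (nat_lit 168921709797) (nat_lit 1) (nat_lit 5) (nat_lit 3) (nat_lit 4) (nat_lit 1) (nat_lit 4) (nat_lit 477) (nat_lit 314) (nat_lit 229)) (XT.lf (nat_lit 0) (nat_lit 186530776595) (nat_lit 152) (nat_lit 340474523947) (nat_lit 0) (nat_lit 181879817867) (nat_lit 1) (nat_lit 5) (nat_lit 3) (nat_lit 4) (nat_lit 1) (nat_lit 4) (nat_lit 478) (nat_lit 314) (nat_lit 228)))) (XT.nd (nat_lit 78) (nat_lit 0) (nat_lit 0) (XT.lf (nat_lit 0) (nat_lit 200134079115) (nat_lit 152) (nat_lit 348489692266) (nat_lit 0) (nat_lit 195479734815) (nat_lit 1) (nat_lit 5) (nat_lit 3) (nat_lit 4) (nat_lit 1) (nat_lit 4) (nat_lit 479) (nat_lit 314) (nat_lit 227)) (XT.nd (nat_lit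 46098) (nat_lit 0) (nat_lit 2052) (XT.lf (nat_lit 0) (nat_lit 214411410052) (nat_lit 152) (nat_lit 356917869067) (nat_lit 0) (nat_lit 209753841397) (nat_lit 1) (nat_lit 5) (nat_lit 3) (nat_lit 4) (nat_lit 1) (nat_lit 4) (nat_lit 480) (nat_lit 314) (nat_lit 226)) (XT.lf (nat_lit 0) (nat_lit 2888426839) (nat_lit 152) (nat_lit 1883538050) (nat_lit 0) (nat_lit 2888426839) (nat_lit 28) (nat_lit 5) (nat_lit 30) (nat_lit 4) (nat_lit 28) (nat_lit 4) (nat_lit 390) (nat_lit 315) (nat_lit 315))))) (XT.nd (nat_lit 234) (nat_lit 304) (nat_lit 0) (XT.nd (nat_lit 78) (nat_lit 152) (nat_lit 0) (XT.lf (nat_lit 0) (nat_lit 7267198405) (nat_lit 76) (nat_lit 4441728026) (nat_lit 76) (nat_lit 4075455110) (nat_lit 27) (nat_lit 4) (nat_lit 28) (nat_lit 5) (nat_lit 28) (nat_lit 4) (nat_lit 391) (nat_lit 315) (nat_lit 314)) (XT.nd (nat_lit 78) (nat_lit 0) (nat_lit 0) (XT.lf (nat_lit 0) (nat_lit 1534207715) (nat_lit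 152) (nat_lit 13886471332) (nat_lit 0) (nat_lit 853156035) (nat_lit 25) (nat_lit 5) (nat_lit 27) (nat_lit 4) (nat_lit 25) (nat_lit 4) (nat_lit 392) (nat_lit 315) (nat_lit 313)) (XT.lf (nat_lit 0) (nat_lit 7312902325) (nat_lit 152) (nat_lit 3154822576) (nat_lit 0) (nat_lit 6315450328) (nat_lit 25) (nat_lit 5) (nat_lit 27) (nat_lit 4) (nat_lit 25) (nat_lit 4) (nat_lit 393) (nat_lit 315) (nat_lit 312)))) (XT.nd (nat_lit 156) (nat_lit 76) (nat_lit 0) (XT.nd (nat_lit 78) (nat_lit 152) (nat_lit 0) (XT.lf (nat_lit 0) (nat_lit 8022445382) (nat_lit 76) (nat_lit 5298661227) (nat_lit 76) (nat_lit 3999875596) (nat_lit 24) (nat_lit 4) (nat_lit 25) (nat_lit 5) (nat_lit 25) (nat_lit 4) (nat_lit 394) (nat_lit 315) (nat_lit 311)) (XT.lf (nat_lit 0) (nat_lit 1585463827) (nat_lit 152) (nat_lit 16228811382) (nat_lit 0) (nat_lit 75206642) (nat_lit 22) (nat_lit 5) (nat_lit 24) (nat_lit 4) (nat_lit 22) (nat_lit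 4) (nat_lit 395) (nat_lit 315) (nat_lit 310))) (XT.nd (nat_lit 78) (nat_lit 76) (nat_lit 0) (XT.lf (nat_lit 0) (nat_lit 7379242446) (nat_lit 152) (nat_lit 5492048474) (nat_lit 0) (nat_lit 5608681938) (nat_lit 22) (nat_lit 5) (nat_lit 24) (nat_lit 4) (nat_lit 22) (nat_lit 4) (nat_lit 396) (nat_lit 315) (nat_lit 309)) (XT.lf (nat_lit 0) (nat_lit 5629186961) (nat_lit 76) (nat_lit 7746814412) (nat_lit 76) (nat_lit 5728345977) (nat_lit 21) (nat_lit 4) (nat_lit 22) (nat_lit 5) (nat_lit 22) (nat_lit 4) (nat_lit 397) (nat_lit 315) (nat_lit 308))))))) (XT.nd (nat_lit 1014) (nat_lit 380) (nat_lit 0) (XT.nd (nat_lit 468) (nat_lit 304) (nat_lit 0) (XT.nd (nat_lit 234) (nat_lit 228) (nat_lit 0) (XT.nd (nat_lit 78) (nat_lit 152) (nat_lit 0) (XT.lf (nat_lit 0) (nat_lit 17169984399) (nat_lit 76) (nat_lit 2424234375) (nat_lit 76) (nat_lit 169663153) (nat_lit 21) (nat_lit 4) (nat_lit 22) (nat_lit 5) (nat_lit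 22) (nat_lit 4) (nat_lit 398) (nat_lit 315) (nat_lit 307)) (XT.nd (nat_lit 78) (nat_lit 0) (nat_lit 0) (XT.lf (nat_lit 0) (nat_lit 5506276105) (nat_lit 152) (nat_lit 11799765340) (nat_lit 0) (nat_lit 3144913229) (nat_lit 19) (nat_lit 5) (nat_lit 21) (nat_lit 4) (nat_lit 19) (nat_lit 4) (nat_lit 399) (nat_lit 315) (nat_lit 306)) (XT.lf (nat_lit 0) (nat_lit 11379478632) (nat_lit 152) (nat_lit 982662998) (nat_lit 0) (nat_lit 8814161292) (nat_lit 19) (nat_lit 5) (nat_lit 21) (nat_lit 4) (nat_lit 19) (nat_lit 4) (nat_lit 400) (nat_lit 315) (nat_lit 305)))) (XT.nd (nat_lit 78) (nat_lit 152) (nat_lit 0) (XT.lf (nat_lit 0) (nat_lit 10405654547) (nat_lit 76) (nat_lit 7145793403) (nat_lit 76) (nat_lit 4386233715) (nat_lit 18) (nat_lit 4) (nat_lit 19) (nat_lit 5) (nat_lit 19) (nat_lit 4) (nat_lit 401) (nat_lit 315) (nat_lit 304)) (XT.nd (nat_lit 78) (nat_lit 76) (nat_lit 0) (XT.lf (nat_lit 0) (nat_lit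 1113295446) (nat_lit 152) (nat_lit 662296733) (nat_lit 76) (nat_lit 20967550354) (nat_lit 17) (nat_lit 5) (nat_lit 19) (nat_lit 5) (nat_lit 18) (nat_lit 4) (nat_lit 402) (nat_lit 315) (nat_lit 303)) (XT.lf (nat_lit 0) (nat_lit 6820470373) (nat_lit 152) (nat_lit 12912482019) (nat_lit 0) (nat_lit 3848340912) (nat_lit 16) (nat_lit 5) (nat_lit 18) (nat_lit 4) (nat_lit 16) (nat_lit 4) (nat_lit 403) (nat_lit 315) (nat_lit 302))))) (XT.nd (nat_lit 234) (nat_lit 228) (nat_lit 0) (XT.nd (nat_lit 78) (nat_lit 76) (nat_lit 0) (XT.lf (nat_lit 0) (nat_lit 12704480699) (nat_lit 152) (nat_lit 2189764656) (nat_lit 0) (nat_lit 9572547577) (nat_lit 16) (nat_lit 5) (nat_lit 18) (nat_lit 4) (nat_lit 16) (nat_lit 4) (nat_lit 404) (nat_lit 315) (nat_lit 301)) (XT.nd (nat_lit 78) (nat_lit 0) (nat_lit 0) (XT.lf (nat_lit 0) (nat_lit 9084467241) (nat_lit 76) (nat_lit 9798123428) (nat_lit 76) (nat_lit 6513996345)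 (nat_lit 15) (nat_lit 4) (nat_lit 16) (nat_lit 5) (nat_lit 16) (nat_lit 4) (nat_lit 405) (nat_lit 315) (nat_lit 300)) (XT.lf (nat_lit 0) (nat_lit 20727495030) (nat_lit 76) (nat_lit 4539789650) (nat_lit 76) (nat_lit 1110715936) (nat_lit 15) (nat_lit 4) (nat_lit 16) (nat_lit 5) (nat_lit 16) (nat_lit 4) (nat_lit 406) (nat_lit 315) (nat_lit 299)))) (XT.nd (nat_lit 156) (nat_lit 76) (nat_lit 0) (XT.nd (nat_lit 78) (nat_lit 0) (nat_lit 0) (XT.lf (nat_lit 0) (nat_lit 4381652430) (nat_lit 152) (nat_lit 22040638023) (nat_lit 0) (nat_lit 984397074) (nat_lit 13) (nat_lit 5) (nat_lit 15) (nat_lit 4) (nat_lit 13) (nat_lit 4) (nat_lit 407) (nat_lit 315) (nat_lit 298)) (XT.lf (nat_lit 0) (nat_lit 10148471783) (nat_lit 152) (nat_lit 11709574375) (nat_lit 0) (nat_lit 6626006077) (nat_lit 13) (nat_lit 5) (nat_lit 15) (nat_lit 4) (nat_lit 13) (nat_lit 4) (nat_lit 408) (nat_lit 315) (nat_lit 297))) (XT.nd (nat_lit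 78) (nat_lit 76) (nat_lit 0) (XT.lf (nat_lit 0) (nat_lit 16075512412) (nat_lit 152) (nat_lit 1112391301) (nat_lit 0) (nat_lit 12433798756) (nat_lit 13) (nat_lit 5) (nat_lit 15) (nat_lit 4) (nat_lit 13) (nat_lit 4) (nat_lit 409) (nat_lit 315) (nat_lit 296)) (XT.lf (nat_lit 0) (nat_lit 10099386009) (nat_lit 76) (nat_lit 12235180030) (nat_lit 76) (nat_lit 8479896896) (nat_lit 12) (nat_lit 4) (nat_lit 13) (nat_lit 5) (nat_lit 13) (nat_lit 4) (nat_lit 410) (nat_lit 315) (nat_lit 295)))))) (XT.nd (nat_lit 468) (nat_lit 152) (nat_lit 0) (XT.nd (nat_lit 234) (nat_lit 76) (nat_lit 0) (XT.nd (nat_lit 78) (nat_lit 152) (nat_lit 0) (XT.lf (nat_lit 0) (nat_lit 21675710468) (nat_lit 76) (nat_lit 7129828705) (nat_lit 76) (nat_lit 3266384164) (nat_lit 12) (nat_lit 4) (nat_lit 13) (nat_lit 5) (nat_lit 13) (nat_lit 4) (nat_lit 411) (nat_lit 315) (nat_lit 294)) (XT.nd (nat_lit 78) (nat_lit 0) (nat_lit 0) (XT.lf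 (nat_lit 0) (nat_lit 182636543) (nat_lit 76) (nat_lit 1841310748) (nat_lit 152) (nat_lit 31372254938) (nat_lit 10) (nat_lit 5) (nat_lit 11) (nat_lit 5) (nat_lit 12) (nat_lit 4) (nat_lit 412) (nat_lit 315) (nat_lit 293)) (XT.lf (nat_lit 0) (nat_lit 7590200584) (nat_lit 152) (nat_lit 23468577000) (nat_lit 0) (nat_lit 3719190118) (nat_lit 10) (nat_lit 5) (nat_lit 12) (nat_lit 4) (nat_lit 10) (nat_lit 4) (nat_lit 413) (nat_lit 315) (nat_lit 292)))) (XT.nd (nat_lit 78) (nat_lit 76) (nat_lit 0) (XT.lf (nat_lit 0) (nat_lit 13354739574) (nat_lit 152) (nat_lit 13483347208) (nat_lit 0) (nat_lit 9394744450) (nat_lit 10) (nat_lit 5) (nat_lit 12) (nat_lit 4) (nat_lit 10) (nat_lit 4) (nat_lit 414) (nat_lit 315) (nat_lit 291)) (XT.nd (nat_lit 78) (nat_lit 76) (nat_lit 0) (XT.lf (nat_lit 0) (nat_lit 19302541333) (nat_lit 152) (nat_lit 3205353935) (nat_lit 0) (nat_lit 15257798916) (nat_lit 10) (nat_lit 5)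 (nat_lit 12) (nat_lit 4) (nat_lit 10) (nat_lit 4) (nat_lit 415) (nat_lit 315) (nat_lit 290)) (XT.lf (nat_lit 0) (nat_lit 7634216847) (nat_lit 76) (nat_lit 17932741965) (nat_lit 76) (nat_lit 13807287841) (nat_lit 9) (nat_lit 4) (nat_lit 10) (nat_lit 5) (nat_lit 10) (nat_lit 4) (nat_lit 416) (nat_lit 315) (nat_lit 289))))) (XT.nd (nat_lit 234) (nat_lit 76) (nat_lit 0) (XT.nd (nat_lit 78) (nat_lit 76) (nat_lit 0) (XT.lf (nat_lit 0) (nat_lit 18933556063) (nat_lit 76) (nat_lit 13167098753) (nat_lit 76) (nat_lit 8964776336) (nat_lit 9) (nat_lit 4) (nat_lit 10) (nat_lit 5) (nat_lit 10) (nat_lit 4) (nat_lit 417) (nat_lit 315) (nat_lit 288)) (XT.nd (nat_lit 78) (nat_lit 76) (nat_lit 0) (XT.lf (nat_lit 0) (nat_lit 30613583424) (nat_lit 76) (nat_lit 8253903081) (nat_lit 76) (nat_lit 3978372766) (nat_lit 9) (nat_lit 4) (nat_lit 10) (nat_lit 5) (nat_lit 10) (nat_lit 4) (nat_lit 418) (nat_lit 315) (nat_lit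 287)) (XT.lf (nat_lit 0) (nat_lit 1126546540) (nat_lit 152) (nat_lit 2035831714) (nat_lit 76) (nat_lit 41556483367) (nat_lit 8) (nat_lit 5) (nat_lit 10) (nat_lit 5) (nat_lit 9) (nat_lit 4) (nat_lit 419) (nat_lit 315) (nat_lit 286)))) (XT.nd (nat_lit 156) (nat_lit 0) (nat_lit 0) (XT.nd (nat_lit 78) (nat_lit 0) (nat_lit 0) (XT.lf (nat_lit 0) (nat_lit 6438901188) (nat_lit 152) (nat_lit 38001737399) (nat_lit 0) (nat_lit 2237326098) (nat_lit 7) (nat_lit 5) (nat_lit 9) (nat_lit 4) (nat_lit 7) (nat_lit 4) (nat_lit 420) (nat_lit 315) (nat_lit 285)) (XT.lf (nat_lit 0) (nat_lit 12017717394) (nat_lit 152) (nat_lit 28961355039) (nat_lit 0) (nat_lit 7755913986) (nat_lit 7) (nat_lit 5) (nat_lit 9) (nat_lit 4) (nat_lit 7) (nat_lit 4) (nat_lit 421) (nat_lit 315) (nat_lit 284))) (XT.nd (nat_lit 78) (nat_lit 0) (nat_lit 0) (XT.lf (nat_lit 0) (nat_lit 17793530178) (nat_lit 152) (nat_lit 19631065247) (nat_lit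 0) (nat_lit 13474366466) (nat_lit 7) (nat_lit 5) (nat_lit 9) (nat_lit 4) (nat_lit 7) (nat_lit 4) (nat_lit 422) (nat_lit 315) (nat_lit 283)) (XT.lf (nat_lit 0) (nat_lit 23780091474) (nat_lit 152) (nat_lit 9988653047) (nat_lit 0) (nat_lit 19406298901) (nat_lit 7) (nat_lit 5) (nat_lit 9) (nat_lit 4) (nat_lit 7) (nat_lit 4) (nat_lit 423) (nat_lit 315) (nat_lit 282))))))))
noncomputable def xc41 : XT := (XT.nd (nat_lit 1950) (nat_lit 152) (nat_lit 0) (XT.nd (nat_lit 936) (nat_lit 76) (nat_lit 0) (XT.nd (nat_lit 468) (nat_lit 152) (nat_lit 0) (XT.nd (nat_lit 234) (nat_lit 0) (nat_lit 0) (XT.nd (nat_lit 78) (nat_lit 76) (nat_lit 0) (XT.lf (nat_lit 0) (nat_lit 29991654999) (nat_lit 152) (nat_lit 11160315) (nat_lit 0) (nat_lit 25565834941) (nat_lit 7) (nat_lit 5) (nat_lit 9) (nat_lit 4) (nat_lit 7) (nat_lit 4) (nat_lit 424) (nat_lit 315) (nat_lit 281)) (XT.nd (nat_lit 78) (nat_lit 0) (nat_lit 0)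 (XT.lf (nat_lit 0) (nat_lit 10666565597) (nat_lit 76) (nat_lit 25942979576) (nat_lit 76) (nat_lit 21467609530) (nat_lit 6) (nat_lit 4) (nat_lit 7) (nat_lit 5) (nat_lit 7) (nat_lit 4) (nat_lit 425) (nat_lit 315) (nat_lit 280)) (XT.lf (nat_lit 0) (nat_lit 21740785778) (nat_lit 76) (nat_lit 21748166236) (nat_lit 76) (nat_lit 17225605726) (nat_lit 6) (nat_lit 4) (nat_lit 7) (nat_lit 5) (nat_lit 7) (nat_lit 4) (nat_lit 426) (nat_lit 315) (nat_lit 279)))) (XT.nd (nat_lit 78) (nat_lit 0) (nat_lit 0) (XT.lf (nat_lit 0) (nat_lit 33237498407) (nat_lit 76) (nat_lit 17408576649) (nat_lit 76) (nat_lit 12841072841) (nat_lit 6) (nat_lit 4) (nat_lit 7) (nat_lit 5) (nat_lit 7) (nat_lit 4) (nat_lit 427) (nat_lit 315) (nat_lit 278)) (XT.nd (nat_lit 78) (nat_lit 0) (nat_lit 0) (XT.lf (nat_lit 0) (nat_lit 45184076609) (nat_lit 76) (nat_lit 12913878459) (nat_lit 76) (nat_lit 8303571510) (nat_lit 6) (nat_lit 4)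 (nat_lit 7) (nat_lit 5) (nat_lit 7) (nat_lit 4) (nat_lit 428) (nat_lit 315) (nat_lit 277)) (XT.lf (nat_lit 0) (nat_lit 57608964619) (nat_lit 76) (nat_lit 8253370005) (nat_lit 76) (nat_lit 3602298158) (nat_lit 6) (nat_lit 4) (nat_lit 7) (nat_lit 5) (nat_lit 7) (nat_lit 4) (nat_lit 429) (nat_lit 315) (nat_lit 276))))) (XT.nd (nat_lit 234) (nat_lit 0) (nat_lit 0) (XT.nd (nat_lit 78) (nat_lit 76) (nat_lit 0) (XT.lf (nat_lit 0) (nat_lit 1233166661) (nat_lit 152) (nat_lit 2161903900) (nat_lit 76) (nat_lit 69287694566) (nat_lit 5) (nat_lit 5) (nat_lit 7) (nat_lit 5) (nat_lit 6) (nat_lit 4) (nat_lit 430) (nat_lit 315) (nat_lit 275)) (XT.nd (nat_lit 78) (nat_lit 0) (nat_lit 0) (XT.lf (nat_lit 0) (nat_lit 6289347077) (nat_lit 152) (nat_lit 67976941861) (nat_lit 0) (nat_lit 1787565629) (nat_lit 4) (nat_lit 5) (nat_lit 6) (nat_lit 4) (nat_lit 4) (nat_lit 4) (nat_lit 431) (nat_lit 315) (nat_lit 274))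 (XT.lf (nat_lit 0) (nat_lit 11635917630) (nat_lit 152) (nat_lit 60855106171) (nat_lit 0) (nat_lit 7100598800) (nat_lit 4) (nat_lit 5) (nat_lit 6) (nat_lit 4) (nat_lit 4) (nat_lit 4) (nat_lit 432) (nat_lit 315) (nat_lit 273)))) (XT.nd (nat_lit 78) (nat_lit 0) (nat_lit 0) (XT.lf (nat_lit 0) (nat_lit 17197160637) (nat_lit 152) (nat_lit 53481852791) (nat_lit 0) (nat_lit 12629901443) (nat_lit 4) (nat_lit 5) (nat_lit 6) (nat_lit 4) (nat_lit 4) (nat_lit 4) (nat_lit 433) (nat_lit 315) (nat_lit 272)) (XT.nd (nat_lit 78) (nat_lit 0) (nat_lit 0) (XT.lf (nat_lit 0) (nat_lit 22986317151) (nat_lit 152) (nat_lit 45839626354) (nat_lit 0) (nat_lit 18388638564) (nat_lit 4) (nat_lit 5) (nat_lit 6) (nat_lit 4) (nat_lit 4) (nat_lit 4) (nat_lit 434) (nat_lit 315) (nat_lit 271)) (XT.lf (nat_lit 0) (nat_lit 29017170879) (nat_lit 152) (nat_lit 37910231084) (nat_lit 0) (nat_lit 24390521441) (nat_lit 4) (nat_lit 5)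 (nat_lit 6) (nat_lit 4) (nat_lit 4) (nat_lit 4) (nat_lit 435) (nat_lit 315) (nat_lit 270)))))) (XT.nd (nat_lit 468) (nat_lit 0) (nat_lit 0) (XT.nd (nat_lit 234) (nat_lit 76) (nat_lit 0) (XT.nd (nat_lit 78) (nat_lit 0) (nat_lit 0) (XT.lf (nat_lit 0) (nat_lit 35304080997) (nat_lit 152) (nat_lit 29674787468) (nat_lit 0) (nat_lit 30649840272) (nat_lit 4) (nat_lit 5) (nat_lit 6) (nat_lit 4) (nat_lit 4) (nat_lit 4) (nat_lit 436) (nat_lit 315) (nat_lit 269)) (XT.nd (nat_lit 78) (nat_lit 0) (nat_lit 0) (XT.lf (nat_lit 0) (nat_lit 41862016338) (nat_lit 152) (nat_lit 21113687307) (nat_lit 0) (nat_lit 37181498197) (nat_lit 4) (nat_lit 5) (nat_lit 6) (nat_lit 4) (nat_lit 4) (nat_lit 4) (nat_lit 437) (nat_lit 315) (nat_lit 268)) (XT.lf (nat_lit 0) (nat_lit 48706591034) (nat_lit 152) (nat_lit 12206547029) (nat_lit 0) (nat_lit 44001046783) (nat_lit 4) (nat_lit 5) (nat_lit 6) (nat_lit 4) (nat_lit 4) (nat_lit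 4) (nat_lit 438) (nat_lit 315) (nat_lit 267)))) (XT.nd (nat_lit 78) (nat_lit 76) (nat_lit 0) (XT.lf (nat_lit 0) (nat_lit 55854101692) (nat_lit 152) (nat_lit 2932159158) (nat_lit 0) (nat_lit 51124723049) (nat_lit 4) (nat_lit 5) (nat_lit 6) (nat_lit 4) (nat_lit 4) (nat_lit 4) (nat_lit 439) (nat_lit 315) (nat_lit 266)) (XT.nd (nat_lit 78) (nat_lit 0) (nat_lit 0) (XT.lf (nat_lit 0) (nat_lit 6954133896) (nat_lit 76) (nat_lit 56476005815) (nat_lit 76) (nat_lit 51723927753) (nat_lit 3) (nat_lit 4) (nat_lit 4) (nat_lit 5) (nat_lit 4) (nat_lit 4) (nat_lit 440) (nat_lit 315) (nat_lit 265)) (XT.lf (nat_lit 0) (nat_lit 17363349462) (nat_lit 76) (nat_lit 54034505298) (nat_lit 76) (nat_lit 49260808741) (nat_lit 3) (nat_lit 4) (nat_lit 4) (nat_lit 5) (nat_lit 4) (nat_lit 4) (nat_lit 441) (nat_lit 315) (nat_lit 264))))) (XT.nd (nat_lit 234) (nat_lit 0) (nat_lit 0) (XT.nd (nat_lit 78) (nat_lit 0) (nat_lit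 0) (XT.lf (nat_lit 0) (nat_lit 28223320962) (nat_lit 76) (nat_lit 51505603737) (nat_lit 76) (nat_lit 46711318136) (nat_lit 3) (nat_lit 4) (nat_lit 4) (nat_lit 5) (nat_lit 4) (nat_lit 4) (nat_lit 442) (nat_lit 315) (nat_lit 263)) (XT.nd (nat_lit 78) (nat_lit 0) (nat_lit 0) (XT.lf (nat_lit 0) (nat_lit 39559905472) (nat_lit 76) (nat_lit 48883279937) (nat_lit 76) (nat_lit 44069385724) (nat_lit 3) (nat_lit 4) (nat_lit 4) (nat_lit 5) (nat_lit 4) (nat_lit 4) (nat_lit 443) (nat_lit 315) (nat_lit 262)) (XT.lf (nat_lit 0) (nat_lit 51400094858) (nat_lit 76) (nat_lit 46161290269) (nat_lit 76) (nat_lit 41328721188) (nat_lit 3) (nat_lit 4) (nat_lit 4) (nat_lit 5) (nat_lit 4) (nat_lit 4) (nat_lit 444) (nat_lit 315) (nat_lit 261)))) (XT.nd (nat_lit 156) (nat_lit 0) (nat_lit 0) (XT.nd (nat_lit 78) (nat_lit 0) (nat_lit 0) (XT.lf (nat_lit 0) (nat_lit 63772080048) (nat_lit 76) (nat_lit 43333153808) (nat_lit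 76) (nat_lit 38482799137) (nat_lit 3) (nat_lit 4) (nat_lit 4) (nat_lit 5) (nat_lit 4) (nat_lit 4) (nat_lit 445) (nat_lit 315) (nat_lit 260)) (XT.lf (nat_lit 0) (nat_lit 76705318149) (nat_lit 76) (nat_lit 40392136893) (nat_lit 76) (nat_lit 35524843565) (nat_lit 3) (nat_lit 4) (nat_lit 4) (nat_lit 5) (nat_lit 4) (nat_lit 4) (nat_lit 446) (nat_lit 315) (nat_lit 259))) (XT.nd (nat_lit 78) (nat_lit 0) (nat_lit 0) (XT.lf (nat_lit 0) (nat_lit 90230602586) (nat_lit 76) (nat_lit 37331237105) (nat_lit 76) (nat_lit 32447811723) (nat_lit 3) (nat_lit 4) (nat_lit 4) (nat_lit 5) (nat_lit 4) (nat_lit 4) (nat_lit 447) (nat_lit 315) (nat_lit 258)) (XT.lf (nat_lit 0) (nat_lit 104380136417) (nat_lit 76) (nat_lit 34143166585) (nat_lit 76) (nat_lit 29244377343) (nat_lit 3) (nat_lit 4) (nat_lit 4) (nat_lit 5) (nat_lit 4) (nat_lit 4) (nat_lit 448) (nat_lit 315) (nat_lit 257))))))) (XT.nd (nat_lit 1014) (nat_lit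 0) (nat_lit 0) (XT.nd (nat_lit 468) (nat_lit 152) (nat_lit 0) (XT.nd (nat_lit 234) (nat_lit 0) (nat_lit 0) (XT.nd (nat_lit 78) (nat_lit 0) (nat_lit 0) (XT.lf (nat_lit 0) (nat_lit 119187609009) (nat_lit 76) (nat_lit 30820334691) (nat_lit 76) (nat_lit 25906913200) (nat_lit 3) (nat_lit 4) (nat_lit 4) (nat_lit 5) (nat_lit 4) (nat_lit 4) (nat_lit 449) (nat_lit 315) (nat_lit 256)) (XT.nd (nat_lit 78) (nat_lit 0) (nat_lit 0) (XT.lf (nat_lit 0) (nat_lit 134688276247) (nat_lit 76) (nat_lit 27354829918) (nat_lit 76) (nat_lit 22427472952) (nat_lit 3) (nat_lit 4) (nat_lit 4) (nat_lit 5) (nat_lit 4) (nat_lit 4) (nat_lit 450) (nat_lit 315) (nat_lit 255)) (XT.lf (nat_lit 0) (nat_lit 150919044483) (nat_lit 76) (nat_lit 23738401063) (nat_lit 76) (nat_lit 18797772217) (nat_lit 3) (nat_lit 4) (nat_lit 4) (nat_lit 5) (nat_lit 4) (nat_lit 4) (nat_lit 451) (nat_lit 315) (nat_lit 254)))) (XT.nd (nat_lit 78) (nat_lit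 0) (nat_lit 0) (XT.lf (nat_lit 0) (nat_lit 167918558403) (nat_lit 76) (nat_lit 19962437583) (nat_lit 76) (nat_lit 15009168850) (nat_lit 3) (nat_lit 4) (nat_lit 4) (nat_lit 5) (nat_lit 4) (nat_lit 4) (nat_lit 452) (nat_lit 315) (nat_lit 253)) (XT.nd (nat_lit 78) (nat_lit 0) (nat_lit 0) (XT.lf (nat_lit 0) (nat_lit 185727293040) (nat_lit 76) (nat_lit 16017949087) (nat_lit 76) (nat_lit 11052642367) (nat_lit 3) (nat_lit 4) (nat_lit 4) (nat_lit 5) (nat_lit 4) (nat_lit 4) (nat_lit 453) (nat_lit 315) (nat_lit 252)) (XT.lf (nat_lit 0) (nat_lit 204387650144) (nat_lit 76) (nat_lit 11895543936) (nat_lit 76) (nat_lit 6918772467) (nat_lit 3) (nat_lit 4) (nat_lit 4) (nat_lit 5) (nat_lit 4) (nat_lit 4) (nat_lit 454) (nat_lit 315) (nat_lit 251))))) (XT.nd (nat_lit 234) (nat_lit 0) (nat_lit 0) (XT.nd (nat_lit 78) (nat_lit 152) (nat_lit 0) (XT.lf (nat_lit 0) (nat_lit 223944059135) (nat_lit 76) (nat_lit 7585406881)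 (nat_lit 76) (nat_lit 2597716602) (nat_lit 3) (nat_lit 4) (nat_lit 4) (nat_lit 5) (nat_lit 4) (nat_lit 4) (nat_lit 455) (nat_lit 315) (nat_lit 250)) (XT.nd (nat_lit 78) (nat_lit 76) (nat_lit 0) (XT.lf (nat_lit 0) (nat_lit 1859335428) (nat_lit 152) (nat_lit 1186451515) (nat_lit 76) (nat_lit 242552258719) (nat_lit 2) (nat_lit 5) (nat_lit 4) (nat_lit 5) (nat_lit 3) (nat_lit 4) (nat_lit 456) (nat_lit 315) (nat_lit 249)) (XT.lf (nat_lit 0) (nat_lit 6596265721) (nat_lit 152) (nat_lit 249210092716) (nat_lit 0) (nat_lit 1826748743) (nat_lit 1) (nat_lit 5) (nat_lit 3) (nat_lit 4) (nat_lit 1) (nat_lit 4) (nat_lit 457) (nat_lit 315) (nat_lit 248)))) (XT.nd (nat_lit 156) (nat_lit 0) (nat_lit 0) (XT.nd (nat_lit 78) (nat_lit 0) (nat_lit 0) (XT.lf (nat_lit 0) (nat_lit 11623299341) (nat_lit 152) (nat_lit 251799161010) (nat_lit 0) (nat_lit 6844799433) (nat_lit 1) (nat_lit 5) (nat_lit 3) (nat_lit 4) (nat_lit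 1) (nat_lit 4) (nat_lit 458) (nat_lit 315) (nat_lit 247)) (XT.lf (nat_lit 0) (nat_lit 16885402122) (nat_lit 152) (nat_lit 254550185793) (nat_lit 0) (nat_lit 12098347041) (nat_lit 1) (nat_lit 5) (nat_lit 3) (nat_lit 4) (nat_lit 1) (nat_lit 4) (nat_lit 459) (nat_lit 315) (nat_lit 246))) (XT.nd (nat_lit 78) (nat_lit 0) (nat_lit 0) (XT.lf (nat_lit 0) (nat_lit 22395102880) (nat_lit 152) (nat_lit 257469717122) (nat_lit 0) (nat_lit 17599900015) (nat_lit 1) (nat_lit 5) (nat_lit 3) (nat_lit 4) (nat_lit 1) (nat_lit 4) (nat_lit 460) (nat_lit 315) (nat_lit 245)) (XT.lf (nat_lit 0) (nat_lit 28165519949) (nat_lit 152) (nat_lit 260564706262) (nat_lit 0) (nat_lit 23362557291) (nat_lit 1) (nat_lit 5) (nat_lit 3) (nat_lit 4) (nat_lit 1) (nat_lit 4) (nat_lit 461) (nat_lit 315) (nat_lit 244)))))) (XT.nd (nat_lit 468) (nat_lit 0) (nat_lit 0) (XT.nd (nat_lit 234) (nat_lit 0) (nat_lit 0) (XT.nd (nat_lit 78) (nat_lit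 0) (nat_lit 0) (XT.lf (nat_lit 0) (nat_lit 34210392419) (nat_lit 152) (nat_lit 263842522236) (nat_lit 0) (nat_lit 29400039481) (nat_lit 1) (nat_lit 5) (nat_lit 3) (nat_lit 4) (nat_lit 1) (nat_lit 4) (nat_lit 462) (nat_lit 315) (nat_lit 243)) (XT.nd (nat_lit 78) (nat_lit 0) (nat_lit 0) (XT.lf (nat_lit 0) (nat_lit 40544112842) (nat_lit 152) (nat_lit 267310969368) (nat_lit 0) (nat_lit 35726721542) (nat_lit 1) (nat_lit 5) (nat_lit 3) (nat_lit 4) (nat_lit 1) (nat_lit 4) (nat_lit 463) (nat_lit 315) (nat_lit 242)) (XT.lf (nat_lit 0) (nat_lit 47181761505) (nat_lit 152) (nat_lit 270978305864) (nat_lit 0) (nat_lit 42357667004) (nat_lit 1) (nat_lit 5) (nat_lit 3) (nat_lit 4) (nat_lit 1) (nat_lit 4) (nat_lit 464) (nat_lit 315) (nat_lit 241)))) (XT.nd (nat_lit 78) (nat_lit 0) (nat_lit 0) (XT.lf (nat_lit 0) (nat_lit 54139142334) (nat_lit 152) (nat_lit 274853263478) (nat_lit 0) (nat_lit 49308663831) (nat_lit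 1) (nat_lit 5) (nat_lit 3) (nat_lit 4) (nat_lit 1) (nat_lit 4) (nat_lit 465) (nat_lit 315) (nat_lit 240)) (XT.nd (nat_lit 78) (nat_lit 0) (nat_lit 0) (XT.lf (nat_lit 0) (nat_lit 61432820521) (nat_lit 152) (nat_lit 278945068300) (nat_lit 0) (nat_lit 56596262017) (nat_lit 1) (nat_lit 5) (nat_lit 3) (nat_lit 4) (nat_lit 1) (nat_lit 4) (nat_lit 466) (nat_lit 315) (nat_lit 239)) (XT.lf (nat_lit 0) (nat_lit 69080161967) (nat_lit 152) (nat_lit 283263462723) (nat_lit 0) (nat_lit 64237812985) (nat_lit 1) (nat_lit 5) (nat_lit 3) (nat_lit 4) (nat_lit 1) (nat_lit 4) (nat_lit 467) (nat_lit 315) (nat_lit 238))))) (XT.nd (nat_lit 234) (nat_lit 0) (nat_lit 0) (XT.nd (nat_lit 78) (nat_lit 0) (nat_lit 0) (XT.lf (nat_lit 0) (nat_lit 77099374627) (nat_lit 152) (nat_lit 287818728637) (nat_lit 0) (nat_lit 72251510905) (nat_lit 1) (nat_lit 5) (nat_lit 3) (nat_lit 4) (nat_lit 1) (nat_lit 4) (nat_lit 468) (nat_lit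 315) (nat_lit 237)) (XT.nd (nat_lit 78) (nat_lit 0) (nat_lit 0) (XT.lf (nat_lit 0) (nat_lit 85509551865) (nat_lit 152) (nat_lit 292621711914) (nat_lit 0) (nat_lit 80656436009) (nat_lit 1) (nat_lit 5) (nat_lit 3) (nat_lit 4) (nat_lit 1) (nat_lit 4) (nat_lit 469) (nat_lit 315) (nat_lit 236)) (XT.lf (nat_lit 0) (nat_lit 94330717913) (nat_lit 152) (nat_lit 297683848229) (nat_lit 0) (nat_lit 89472600024) (nat_lit 1) (nat_lit 5) (nat_lit 3) (nat_lit 4) (nat_lit 1) (nat_lit 4) (nat_lit 470) (nat_lit 315) (nat_lit 235)))) (XT.nd (nat_lit 156) (nat_lit 0) (nat_lit 0) (XT.nd (nat_lit 78) (nat_lit 0) (nat_lit 0) (XT.lf (nat_lit 0) (nat_lit 103583875546) (nat_lit 152) (nat_lit 303017190286) (nat_lit 0) (nat_lit 98720993817) (nat_lit 1) (nat_lit 5) (nat_lit 3) (nat_lit 4) (nat_lit 1) (nat_lit 4) (nat_lit 471) (nat_lit 315) (nat_lit 234)) (XT.lf (nat_lit 0) (nat_lit 113291056092) (nat_lit 152) (nat_lit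 308634436520) (nat_lit 0) (nat_lit 108423637373) (nat_lit 1) (nat_lit 5) (nat_lit 3) (nat_lit 4) (nat_lit 1) (nat_lit 4) (nat_lit 472) (nat_lit 315) (nat_lit 233))) (XT.nd (nat_lit 78) (nat_lit 0) (nat_lit 0) (XT.lf (nat_lit 0) (nat_lit 123475371887) (nat_lit 152) (nat_lit 314548961326) (nat_lit 0) (nat_lit 118603632224) (nat_lit 1) (nat_lit 5) (nat_lit 3) (nat_lit 4) (nat_lit 1) (nat_lit 4) (nat_lit 473) (nat_lit 315) (nat_lit 232)) (XT.lf (nat_lit 0) (nat_lit 134161071300) (nat_lit 152) (nat_lit 320774846907) (nat_lit 0) (nat_lit 129285216453) (nat_lit 1) (nat_lit 5) (nat_lit 3) (nat_lit 4) (nat_lit 1) (nat_lit 4) (nat_lit 474) (nat_lit 315) (nat_lit 231))))))))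
noncomputable def xc42 : XT := (XT.nd (nat_lit 47814) (nat_lit 0) (nat_lit 228) (XT.nd (nat_lit 46800) (nat_lit 0) (nat_lit 1064) (XT.nd (nat_lit 46332) (nat_lit 0) (nat_lit 1824) (XT.nd (nat_lit 234) (nat_lit 0) (nat_lit 0) (XT.nd (nat_lit 78) (nat_lit 0) (nat_lit 0) (XT.lf (nat_lit 0) (nat_lit 145373596474) (nat_lit 152) (nat_lit 327326916798) (nat_lit 0) (nat_lit 140493822403) (nat_lit 1) (nat_lit 5) (nat_lit 3) (nat_lit 4) (nat_lit 1) (nat_lit 4) (nat_lit 475) (nat_lit 315) (nat_lit 230)) (XT.nd (nat_lit 78) (nat_lit 0) (nat_lit 0) (XT.lf (nat_lit 0) (nat_lit 157139643897) (nat_lit 152) (nat_lit 334220771167) (nat_lit 0) (nat_lit 152256137233) (nat_lit 1) (nat_lit 5) (nat_lit 3) (nat_lit 4) (nat_lit 1) (nat_lit 4) (nat_lit 476) (nat_lit 315) (nat_lit 229)) (XT.lf (nat_lit 0) (nat_lit 169487227967) (nat_lit 152) (nat_lit 341472823953) (nat_lit 0) (nat_lit 164600166452) (nat_lit 1) (nat_lit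 5) (nat_lit 3) (nat_lit 4) (nat_lit 1) (nat_lit 4) (nat_lit 477) (nat_lit 315) (nat_lit 228)))) (XT.nd (nat_lit 78) (nat_lit 0) (nat_lit 0) (XT.lf (nat_lit 0) (nat_lit 182445747695) (nat_lit 152) (nat_lit 349100341948) (nat_lit 0) (nat_lit 177555300608) (nat_lit 1) (nat_lit 5) (nat_lit 3) (nat_lit 4) (nat_lit 1) (nat_lit 4) (nat_lit 478) (nat_lit 315) (nat_lit 227)) (XT.nd (nat_lit 78) (nat_lit 0) (nat_lit 0) (XT.lf (nat_lit 0) (nat_lit 196046056698) (nat_lit 152) (nat_lit 357121485909) (nat_lit 0) (nat_lit 191152385256) (nat_lit 1) (nat_lit 5) (nat_lit 3) (nat_lit 4) (nat_lit 1) (nat_lit 4) (nat_lit 479) (nat_lit 315) (nat_lit 226)) (XT.lf (nat_lit 0) (nat_lit 210320536665) (nat_lit 152) (nat_lit 365555353797) (nat_lit 0) (nat_lit 205423794410) (nat_lit 1) (nat_lit 5) (nat_lit 3) (nat_lit 4) (nat_lit 1) (nat_lit 4) (nat_lit 480) (nat_lit 315) (nat_lit 225))))) (XT.nd (nat_lit 234) (nat_lit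 228) (nat_lit 0) (XT.nd (nat_lit 78) (nat_lit 152) (nat_lit 0) (XT.lf (nat_lit 0) (nat_lit 2193338997) (nat_lit 152) (nat_lit 2517114286) (nat_lit 152) (nat_lit 2517114286) (nat_lit 30) (nat_lit 4) (nat_lit 32) (nat_lit 5) (nat_lit 32) (nat_lit 4) (nat_lit 388) (nat_lit 316) (nat_lit 316)) (XT.nd (nat_lit 78) (nat_lit 0) (nat_lit 0) (XT.lf (nat_lit 0) (nat_lit 433662415) (nat_lit 152) (nat_lit 14400465513) (nat_lit 0) (nat_lit 49075854) (nat_lit 28) (nat_lit 5) (nat_lit 30) (nat_lit 4) (nat_lit 28) (nat_lit 4) (nat_lit 389) (nat_lit 316) (nat_lit 315)) (XT.lf (nat_lit 0) (nat_lit 6066047412) (nat_lit 152) (nat_lit 3944334691) (nat_lit 0) (nat_lit 5315187935) (nat_lit 28) (nat_lit 5) (nat_lit 30) (nat_lit 4) (nat_lit 28) (nat_lit 4) (nat_lit 390) (nat_lit 316) (nat_lit 314)))) (XT.nd (nat_lit 78) (nat_lit 152) (nat_lit 0) (XT.lf (nat_lit 0) (nat_lit 6909679265) (nat_lit 76) (nat_lit 4992008712)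 (nat_lit 76) (nat_lit 3892317886) (nat_lit 27) (nat_lit 4) (nat_lit 28) (nat_lit 5) (nat_lit 28) (nat_lit 4) (nat_lit 391) (nat_lit 316) (nat_lit 313)) (XT.nd (nat_lit 78) (nat_lit 0) (nat_lit 0) (XT.lf (nat_lit 0) (nat_lit 1602282110) (nat_lit 152) (nat_lit 14447951831) (nat_lit 0) (nat_lit 238557198) (nat_lit 25) (nat_lit 5) (nat_lit 27) (nat_lit 4) (nat_lit 25) (nat_lit 4) (nat_lit 392) (nat_lit 316) (nat_lit 312)) (XT.lf (nat_lit 0) (nat_lit 7290889934) (nat_lit 152) (nat_lit 3885928240) (nat_lit 0) (nat_lit 5625831387) (nat_lit 25) (nat_lit 5) (nat_lit 27) (nat_lit 4) (nat_lit 25) (nat_lit 4) (nat_lit 393) (nat_lit 316) (nat_lit 311)))))) (XT.nd (nat_lit 468) (nat_lit 304) (nat_lit 0) (XT.nd (nat_lit 234) (nat_lit 228) (nat_lit 0) (XT.nd (nat_lit 78) (nat_lit 152) (nat_lit 0) (XT.lf (nat_lit 0) (nat_lit 7100276787) (nat_lit 76) (nat_lit 6098622856) (nat_lit 76) (nat_lit 4146579896)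 (nat_lit 24) (nat_lit 4) (nat_lit 25) (nat_lit 5) (nat_lit 25) (nat_lit 4) (nat_lit 394) (nat_lit 316) (nat_lit 310)) (XT.nd (nat_lit 78) (nat_lit 0) (nat_lit 0) (XT.lf (nat_lit 0) (nat_lit 519209994) (nat_lit 76) (nat_lit 819605344) (nat_lit 152) (nat_lit 16580522392) (nat_lit 22) (nat_lit 5) (nat_lit 23) (nat_lit 5) (nat_lit 24) (nat_lit 4) (nat_lit 395) (nat_lit 316) (nat_lit 309)) (XT.lf (nat_lit 0) (nat_lit 7034628837) (nat_lit 152) (nat_lit 6812780567) (nat_lit 0) (nat_lit 4667329054) (nat_lit 22) (nat_lit 5) (nat_lit 24) (nat_lit 4) (nat_lit 22) (nat_lit 4) (nat_lit 396) (nat_lit 316) (nat_lit 308)))) (XT.nd (nat_lit 78) (nat_lit 152) (nat_lit 0) (XT.lf (nat_lit 0) (nat_lit 4105189749) (nat_lit 76) (nat_lit 8821291021) (nat_lit 76) (nat_lit 6217888450) (nat_lit 21) (nat_lit 4) (nat_lit 22) (nat_lit 5) (nat_lit 22) (nat_lit 4) (nat_lit 397) (nat_lit 316) (nat_lit 307)) (XT.nd (nat_lit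 78) (nat_lit 152) (nat_lit 0) (XT.lf (nat_lit 0) (nat_lit 15493991232) (nat_lit 76) (nat_lit 3571083258) (nat_lit 76) (nat_lit 742820890) (nat_lit 21) (nat_lit 4) (nat_lit 22) (nat_lit 5) (nat_lit 22) (nat_lit 4) (nat_lit 398) (nat_lit 316) (nat_lit 306)) (XT.lf (nat_lit 0) (nat_lit 4824764297) (nat_lit 152) (nat_lit 13749769001) (nat_lit 0) (nat_lit 1927226625) (nat_lit 19) (nat_lit 5) (nat_lit 21) (nat_lit 4) (nat_lit 19) (nat_lit 4) (nat_lit 399) (nat_lit 316) (nat_lit 305))))) (XT.nd (nat_lit 234) (nat_lit 152) (nat_lit 0) (XT.nd (nat_lit 78) (nat_lit 152) (nat_lit 0) (XT.lf (nat_lit 0) (nat_lit 10621208403) (nat_lit 152) (nat_lit 3080318290) (nat_lit 0) (nat_lit 7529428383) (nat_lit 19) (nat_lit 5) (nat_lit 21) (nat_lit 4) (nat_lit 19) (nat_lit 4) (nat_lit 400) (nat_lit 316) (nat_lit 304)) (XT.nd (nat_lit 78) (nat_lit 76) (nat_lit 0) (XT.lf (nat_lit 0) (nat_lit 8093371145) (nat_lit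 76) (nat_lit 8590602093) (nat_lit 76) (nat_lit 5313829361) (nat_lit 18) (nat_lit 4) (nat_lit 19) (nat_lit 5) (nat_lit 19) (nat_lit 4) (nat_lit 401) (nat_lit 316) (nat_lit 303)) (XT.lf (nat_lit 0) (nat_lit 142421787) (nat_lit 152) (nat_lit 3160991603) (nat_lit 76) (nat_lit 19504230300) (nat_lit 17) (nat_lit 5) (nat_lit 19) (nat_lit 5) (nat_lit 18) (nat_lit 4) (nat_lit 402) (nat_lit 316) (nat_lit 302)))) (XT.nd (nat_lit 156) (nat_lit 76) (nat_lit 0) (XT.nd (nat_lit 78) (nat_lit 0) (nat_lit 0) (XT.lf (nat_lit 0) (nat_lit 5712082587) (nat_lit 152) (nat_lit 15676845820) (nat_lit 0) (nat_lit 2263749150) (nat_lit 16) (nat_lit 5) (nat_lit 18) (nat_lit 4) (nat_lit 16) (nat_lit 4) (nat_lit 403) (nat_lit 316) (nat_lit 301)) (XT.lf (nat_lit 0) (nat_lit 11526856394) (nat_lit 152) (nat_lit 5088460661) (nat_lit 0) (nat_lit 7926328994) (nat_lit 16) (nat_lit 5) (nat_lit 18) (nat_lit 4) (nat_lit 16) (nat_lit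 4) (nat_lit 404) (nat_lit 316) (nat_lit 300))) (XT.nd (nat_lit 78) (nat_lit 0) (nat_lit 0) (XT.lf (nat_lit 0) (nat_lit 5957761700) (nat_lit 76) (nat_lit 11632448487) (nat_lit 76) (nat_lit 7886974457) (nat_lit 15) (nat_lit 4) (nat_lit 16) (nat_lit 5) (nat_lit 16) (nat_lit 4) (nat_lit 405) (nat_lit 316) (nat_lit 299)) (XT.lf (nat_lit 0) (nat_lit 17474917531) (nat_lit 76) (nat_lit 6435221889) (nat_lit 76) (nat_lit 2551703449) (nat_lit 15) (nat_lit 4) (nat_lit 16) (nat_lit 5) (nat_lit 16) (nat_lit 4) (nat_lit 406) (nat_lit 316) (nat_lit 298))))))) (XT.nd (nat_lit 1014) (nat_lit 380) (nat_lit 0) (XT.nd (nat_lit 468) (nat_lit 152) (nat_lit 0) (XT.nd (nat_lit 234) (nat_lit 152) (nat_lit 0) (XT.nd (nat_lit 78) (nat_lit 0) (nat_lit 0) (XT.lf (nat_lit 0) (nat_lit 1833236257) (nat_lit 76) (nat_lit 1019556700) (nat_lit 152) (nat_lit 24645567134) (nat_lit 13) (nat_lit 5) (nat_lit 14) (nat_lit 5) (nat_lit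 15) (nat_lit 4) (nat_lit 407) (nat_lit 316) (nat_lit 297)) (XT.nd (nat_lit 78) (nat_lit 0) (nat_lit 0) (XT.lf (nat_lit 0) (nat_lit 8541196763) (nat_lit 152) (nat_lit 15440304857) (nat_lit 0) (nat_lit 4598149472) (nat_lit 13) (nat_lit 5) (nat_lit 15) (nat_lit 4) (nat_lit 13) (nat_lit 4) (nat_lit 408) (nat_lit 316) (nat_lit 296)) (XT.lf (nat_lit 0) (nat_lit 14408716050) (nat_lit 152) (nat_lit 4959467315) (nat_lit 0) (nat_lit 10352099281) (nat_lit 13) (nat_lit 5) (nat_lit 15) (nat_lit 4) (nat_lit 13) (nat_lit 4) (nat_lit 409) (nat_lit 316) (nat_lit 295)))) (XT.nd (nat_lit 78) (nat_lit 76) (nat_lit 0) (XT.lf (nat_lit 0) (nat_lit 6010639297) (nat_lit 76) (nat_lit 14536606591) (nat_lit 76) (nat_lit 10371828415) (nat_lit 12) (nat_lit 4) (nat_lit 13) (nat_lit 5) (nat_lit 13) (nat_lit 4) (nat_lit 410) (nat_lit 316) (nat_lit 294)) (XT.nd (nat_lit 78) (nat_lit 76) (nat_lit 0) (XT.lf (nat_lit 0) (nat_lit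 17477945670) (nat_lit 76) (nat_lit 9484583662) (nat_lit 76) (nat_lit 5216794622) (nat_lit 12) (nat_lit 4) (nat_lit 13) (nat_lit 5) (nat_lit 13) (nat_lit 4) (nat_lit 411) (nat_lit 316) (nat_lit 293)) (XT.lf (nat_lit 0) (nat_lit 79199015) (nat_lit 152) (nat_lit 4203536642) (nat_lit 76) (nat_lit 29225232236) (nat_lit 11) (nat_lit 5) (nat_lit 13) (nat_lit 5) (nat_lit 12) (nat_lit 4) (nat_lit 412) (nat_lit 316) (nat_lit 292))))) (XT.nd (nat_lit 234) (nat_lit 76) (nat_lit 0) (XT.nd (nat_lit 78) (nat_lit 0) (nat_lit 0) (XT.lf (nat_lit 0) (nat_lit 5484662245) (nat_lit 152) (nat_lit 28175432032) (nat_lit 0) (nat_lit 1237682707) (nat_lit 10) (nat_lit 5) (nat_lit 12) (nat_lit 4) (nat_lit 10) (nat_lit 4) (nat_lit 413) (nat_lit 316) (nat_lit 291)) (XT.nd (nat_lit 78) (nat_lit 0) (nat_lit 0) (XT.lf (nat_lit 0) (nat_lit 11197999195) (nat_lit 152) (nat_lit 18290932976) (nat_lit 0) (nat_lit 6866272365) (nat_lit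 10) (nat_lit 5) (nat_lit 12) (nat_lit 4) (nat_lit 10) (nat_lit 4) (nat_lit 414) (nat_lit 316) (nat_lit 290)) (XT.lf (nat_lit 0) (nat_lit 17097037107) (nat_lit 152) (nat_lit 8108873737) (nat_lit 0) (nat_lit 12684598569) (nat_lit 10) (nat_lit 5) (nat_lit 12) (nat_lit 4) (nat_lit 10) (nat_lit 4) (nat_lit 415) (nat_lit 316) (nat_lit 289)))) (XT.nd (nat_lit 156) (nat_lit 0) (nat_lit 0) (XT.nd (nat_lit 78) (nat_lit 0) (nat_lit 0) (XT.lf (nat_lit 0) (nat_lit 2474177825) (nat_lit 76) (nat_lit 20760272332) (nat_lit 76) (nat_lit 16270965501) (nat_lit 9) (nat_lit 4) (nat_lit 10) (nat_lit 5) (nat_lit 10) (nat_lit 4) (nat_lit 416) (nat_lit 316) (nat_lit 288)) (XT.lf (nat_lit 0) (nat_lit 13683624936) (nat_lit 76) (nat_lit 16038887511) (nat_lit 76) (nat_lit 11476372782) (nat_lit 9) (nat_lit 4) (nat_lit 10) (nat_lit 5) (nat_lit 10) (nat_lit 4) (nat_lit 417) (nat_lit 316) (nat_lit 287))) (XT.nd (nat_lit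 78) (nat_lit 0) (nat_lit 0) (XT.lf (nat_lit 0) (nat_lit 25278040768) (nat_lit 76) (nat_lit 11167842688) (nat_lit 76) (nat_lit 6535606151) (nat_lit 9) (nat_lit 4) (nat_lit 10) (nat_lit 5) (nat_lit 10) (nat_lit 4) (nat_lit 418) (nat_lit 316) (nat_lit 286)) (XT.lf (nat_lit 0) (nat_lit 37285031073) (nat_lit 76) (nat_lit 6135540137) (nat_lit 76) (nat_lit 1436901879) (nat_lit 9) (nat_lit 4) (nat_lit 10) (nat_lit 5) (nat_lit 10) (nat_lit 4) (nat_lit 419) (nat_lit 316) (nat_lit 285)))))) (XT.nd (nat_lit 468) (nat_lit 152) (nat_lit 0) (XT.nd (nat_lit 234) (nat_lit 76) (nat_lit 0) (XT.nd (nat_lit 78) (nat_lit 0) (nat_lit 0) (XT.lf (nat_lit 0) (nat_lit 2936026416) (nat_lit 76) (nat_lit 819048905) (nat_lit 152) (nat_lit 43070943685) (nat_lit 7) (nat_lit 5) (nat_lit 8) (nat_lit 5) (nat_lit 9) (nat_lit 4) (nat_lit 420) (nat_lit 316) (nat_lit 284)) (XT.nd (nat_lit 78) (nat_lit 0) (nat_lit 0) (XT.lf (nat_lit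 0) (nat_lit 9281131082) (nat_lit 152) (nat_lit 34915901453) (nat_lit 0) (nat_lit 4688648881) (nat_lit 7) (nat_lit 5) (nat_lit 9) (nat_lit 4) (nat_lit 7) (nat_lit 4) (nat_lit 421) (nat_lit 316) (nat_lit 283)) (XT.lf (nat_lit 0) (nat_lit 15018874535) (nat_lit 152) (nat_lit 25660924871) (nat_lit 0) (nat_lit 10371763474) (nat_lit 7) (nat_lit 5) (nat_lit 9) (nat_lit 4) (nat_lit 7) (nat_lit 4) (nat_lit 422) (nat_lit 316) (nat_lit 282)))) (XT.nd (nat_lit 78) (nat_lit 76) (nat_lit 0) (XT.lf (nat_lit 0) (nat_lit 20969179326) (nat_lit 152) (nat_lit 16090239538) (nat_lit 0) (nat_lit 16270040778) (nat_lit 7) (nat_lit 5) (nat_lit 9) (nat_lit 4) (nat_lit 7) (nat_lit 4) (nat_lit 423) (nat_lit 316) (nat_lit 281)) (XT.nd (nat_lit 78) (nat_lit 76) (nat_lit 0) (XT.lf (nat_lit 0) (nat_lit 27146212847) (nat_lit 152) (nat_lit 6181058108) (nat_lit 0) (nat_lit 22397524312) (nat_lit 7) (nat_lit 5) (nat_lit 9) (nat_lit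 4) (nat_lit 7) (nat_lit 4) (nat_lit 424) (nat_lit 316) (nat_lit 280)) (XT.lf (nat_lit 0) (nat_lit 4225453612) (nat_lit 76) (nat_lit 29405199880) (nat_lit 76) (nat_lit 24609320882) (nat_lit 6) (nat_lit 4) (nat_lit 7) (nat_lit 5) (nat_lit 7) (nat_lit 4) (nat_lit 425) (nat_lit 316) (nat_lit 279))))) (XT.nd (nat_lit 234) (nat_lit 152) (nat_lit 0) (XT.nd (nat_lit 78) (nat_lit 0) (nat_lit 0) (XT.lf (nat_lit 0) (nat_lit 15235664739) (nat_lit 76) (nat_lit 25242076501) (nat_lit 76) (nat_lit 20401254204) (nat_lit 6) (nat_lit 4) (nat_lit 7) (nat_lit 5) (nat_lit 7) (nat_lit 4) (nat_lit 426) (nat_lit 316) (nat_lit 278)) (XT.nd (nat_lit 78) (nat_lit 0) (nat_lit 0) (XT.lf (nat_lit 0) (nat_lit 26671416364) (nat_lit 76) (nat_lit 20932667830) (nat_lit 76) (nat_lit 16049042391) (nat_lit 6) (nat_lit 4) (nat_lit 7) (nat_lit 5) (nat_lit 7) (nat_lit 4) (nat_lit 427) (nat_lit 316) (nat_lit 277)) (XT.lf (nat_lit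 0) (nat_lit 38559936467) (nat_lit 76) (nat_lit 16466713369) (nat_lit 76) (nat_lit 11542323034) (nat_lit 6) (nat_lit 4) (nat_lit 7) (nat_lit 5) (nat_lit 7) (nat_lit 4) (nat_lit 428) (nat_lit 316) (nat_lit 276)))) (XT.nd (nat_lit 156) (nat_lit 152) (nat_lit 0) (XT.nd (nat_lit 78) (nat_lit 0) (nat_lit 0) (XT.lf (nat_lit 0) (nat_lit 50929531049) (nat_lit 76) (nat_lit 11833579895) (nat_lit 76) (nat_lit 6870365848) (nat_lit 6) (nat_lit 4) (nat_lit 7) (nat_lit 5) (nat_lit 7) (nat_lit 4) (nat_lit 429) (nat_lit 316) (nat_lit 275)) (XT.lf (nat_lit 0) (nat_lit 63809651525) (nat_lit 76) (nat_lit 7022236136) (nat_lit 76) (nat_lit 2022047126) (nat_lit 6) (nat_lit 4) (nat_lit 7) (nat_lit 5) (nat_lit 7) (nat_lit 4) (nat_lit 430) (nat_lit 316) (nat_lit 274))) (XT.nd (nat_lit 78) (nat_lit 0) (nat_lit 0) (XT.lf (nat_lit 0) (nat_lit 977165899) (nat_lit 76) (nat_lit 1955794666) (nat_lit 152) (nat_lit 73301938246)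 (nat_lit 4) (nat_lit 5) (nat_lit 5) (nat_lit 5) (nat_lit 6) (nat_lit 4) (nat_lit 431) (nat_lit 316) (nat_lit 273)) (XT.lf (nat_lit 0) (nat_lit 8223309793) (nat_lit 152) (nat_lit 68156422321) (nat_lit 0) (nat_lit 3395747276) (nat_lit 4) (nat_lit 5) (nat_lit 6) (nat_lit 4) (nat_lit 4) (nat_lit 4) (nat_lit 432) (nat_lit 316) (nat_lit 272))))))))
noncomputable def xc43 : XT := (XT.nd (nat_lit 1950) (nat_lit 76) (nat_lit 0) (XT.nd (nat_lit 936) (nat_lit 76) (nat_lit 0) (XT.nd (nat_lit 468) (nat_lit 76) (nat_lit 0) (XT.nd (nat_lit 234) (nat_lit 0) (nat_lit 0) (XT.nd (nat_lit 78) (nat_lit 0) (nat_lit 0) (XT.lf (nat_lit 0) (nat_lit 13760090047) (nat_lit 152) (nat_lit 60831798020) (nat_lit 0) (nat_lit 8902108137) (nat_lit 4) (nat_lit 5) (nat_lit 6) (nat_lit 4) (nat_lit 4) (nat_lit 4) (nat_lit 433) (nat_lit 316) (nat_lit 271)) (XT.nd (nat_lit 78) (nat_lit 0) (nat_lit 0) (XT.lf (nat_lit 0) (nat_lit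 19525948702) (nat_lit 152) (nat_lit 53235884992) (nat_lit 0) (nat_lit 14638995940) (nat_lit 4) (nat_lit 5) (nat_lit 6) (nat_lit 4) (nat_lit 4) (nat_lit 4) (nat_lit 434) (nat_lit 316) (nat_lit 270)) (XT.lf (nat_lit 0) (nat_lit 25534613992) (nat_lit 152) (nat_lit 45350597731) (nat_lit 0) (nat_lit 20620069944) (nat_lit 4) (nat_lit 5) (nat_lit 6) (nat_lit 4) (nat_lit 4) (nat_lit 4) (nat_lit 435) (nat_lit 316) (nat_lit 269)))) (XT.nd (nat_lit 78) (nat_lit 0) (nat_lit 0) (XT.lf (nat_lit 0) (nat_lit 31800392265) (nat_lit 152) (nat_lit 37157161742) (nat_lit 0) (nat_lit 26859570801) (nat_lit 4) (nat_lit 5) (nat_lit 6) (nat_lit 4) (nat_lit 4) (nat_lit 4) (nat_lit 436) (nat_lit 316) (nat_lit 268)) (XT.nd (nat_lit 78) (nat_lit 0) (nat_lit 0) (XT.lf (nat_lit 0) (nat_lit 38338202039) (nat_lit 152) (nat_lit 28636068845) (nat_lit 0) (nat_lit 33372354465) (nat_lit 4) (nat_lit 5) (nat_lit 6) (nat_lit 4) (nat_lit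 4) (nat_lit 4) (nat_lit 437) (nat_lit 316) (nat_lit 267)) (XT.lf (nat_lit 0) (nat_lit 45163609529) (nat_lit 152) (nat_lit 19767030723) (nat_lit 0) (nat_lit 40173927563) (nat_lit 4) (nat_lit 5) (nat_lit 6) (nat_lit 4) (nat_lit 4) (nat_lit 4) (nat_lit 438) (nat_lit 316) (nat_lit 266))))) (XT.nd (nat_lit 234) (nat_lit 0) (nat_lit 0) (XT.nd (nat_lit 78) (nat_lit 76) (nat_lit 0) (XT.lf (nat_lit 0) (nat_lit 52292865704) (nat_lit 152) (nat_lit 10528930620) (nat_lit 0) (nat_lit 47280484318) (nat_lit 4) (nat_lit 5) (nat_lit 6) (nat_lit 4) (nat_lit 4) (nat_lit 4) (nat_lit 439) (nat_lit 316) (nat_lit 265)) (XT.nd (nat_lit 78) (nat_lit 76) (nat_lit 0) (XT.lf (nat_lit 0) (nat_lit 59742944983) (nat_lit 152) (nat_lit 899773058) (nat_lit 0) (nat_lit 54708945103) (nat_lit 4) (nat_lit 5) (nat_lit 6) (nat_lit 4) (nat_lit 4) (nat_lit 4) (nat_lit 440) (nat_lit 316) (nat_lit 264)) (XT.lf (nat_lit 0) (nat_lit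 9445689584) (nat_lit 76) (nat_lit 58233369754) (nat_lit 76) (nat_lit 53178780831) (nat_lit 3) (nat_lit 4) (nat_lit 4) (nat_lit 5) (nat_lit 4) (nat_lit 4) (nat_lit 441) (nat_lit 316) (nat_lit 263)))) (XT.nd (nat_lit 78) (nat_lit 0) (nat_lit 0) (XT.lf (nat_lit 0) (nat_lit 20273277881) (nat_lit 76) (nat_lit 55720576895) (nat_lit 76) (nat_lit 50646379359) (nat_lit 3) (nat_lit 4) (nat_lit 4) (nat_lit 5) (nat_lit 4) (nat_lit 4) (nat_lit 442) (nat_lit 316) (nat_lit 262)) (XT.nd (nat_lit 78) (nat_lit 0) (nat_lit 0) (XT.lf (nat_lit 0) (nat_lit 31579021244) (nat_lit 76) (nat_lit 53113594716) (nat_lit 76) (nat_lit 48020722311) (nat_lit 3) (nat_lit 4) (nat_lit 4) (nat_lit 5) (nat_lit 4) (nat_lit 4) (nat_lit 443) (nat_lit 316) (nat_lit 261)) (XT.lf (nat_lit 0) (nat_lit 43389838111) (nat_lit 76) (nat_lit 50406216116) (nat_lit 76) (nat_lit 45295558122) (nat_lit 3) (nat_lit 4) (nat_lit 4) (nat_lit 5) (nat_lit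 4) (nat_lit 4) (nat_lit 444) (nat_lit 316) (nat_lit 260)))))) (XT.nd (nat_lit 468) (nat_lit 76) (nat_lit 0) (XT.nd (nat_lit 234) (nat_lit 0) (nat_lit 0) (XT.nd (nat_lit 78) (nat_lit 0) (nat_lit 0) (XT.lf (nat_lit 0) (nat_lit 55733849472) (nat_lit 76) (nat_lit 47591994957) (nat_lit 76) (nat_lit 42464398306) (nat_lit 3) (nat_lit 4) (nat_lit 4) (nat_lit 5) (nat_lit 4) (nat_lit 4) (nat_lit 445) (nat_lit 316) (nat_lit 259)) (XT.nd (nat_lit 78) (nat_lit 0) (nat_lit 0) (XT.lf (nat_lit 0) (nat_lit 68640445833) (nat_lit 76) (nat_lit 44664230712) (nat_lit 76) (nat_lit 39520502007) (nat_lit 3) (nat_lit 4) (nat_lit 4) (nat_lit 5) (nat_lit 4) (nat_lit 4) (nat_lit 446) (nat_lit 316) (nat_lit 258)) (XT.lf (nat_lit 0) (nat_lit 82140357183) (nat_lit 76) (nat_lit 41615952513) (nat_lit 76) (nat_lit 36456859947) (nat_lit 3) (nat_lit 4) (nat_lit 4) (nat_lit 5) (nat_lit 4) (nat_lit 4) (nat_lit 447) (nat_lit 316)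 (nat_lit 257)))) (XT.nd (nat_lit 78) (nat_lit 0) (nat_lit 0) (XT.lf (nat_lit 0) (nat_lit 96265726169) (nat_lit 76) (nat_lit 38439902555) (nat_lit 76) (nat_lit 33266177741) (nat_lit 3) (nat_lit 4) (nat_lit 4) (nat_lit 5) (nat_lit 4) (nat_lit 4) (nat_lit 448) (nat_lit 316) (nat_lit 256)) (XT.nd (nat_lit 78) (nat_lit 0) (nat_lit 0) (XT.lf (nat_lit 0) (nat_lit 111050184623) (nat_lit 76) (nat_lit 35128518815) (nat_lit 76) (nat_lit 29940858526) (nat_lit 3) (nat_lit 4) (nat_lit 4) (nat_lit 5) (nat_lit 4) (nat_lit 4) (nat_lit 449) (nat_lit 316) (nat_lit 255)) (XT.lf (nat_lit 0) (nat_lit 126528933635) (nat_lit 76) (nat_lit 31673917045) (nat_lit 76) (nat_lit 26472984875) (nat_lit 3) (nat_lit 4) (nat_lit 4) (nat_lit 5) (nat_lit 4) (nat_lit 4) (nat_lit 450) (nat_lit 316) (nat_lit 254))))) (XT.nd (nat_lit 234) (nat_lit 76) (nat_lit 0) (XT.nd (nat_lit 78) (nat_lit 0) (nat_lit 0) (XT.lf (nat_lit 0) (nat_lit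 142738827369) (nat_lit 76) (nat_lit 28067872003) (nat_lit 76) (nat_lit 22854299947) (nat_lit 3) (nat_lit 4) (nat_lit 4) (nat_lit 5) (nat_lit 4) (nat_lit 4) (nat_lit 451) (nat_lit 316) (nat_lit 253)) (XT.nd (nat_lit 78) (nat_lit 0) (nat_lit 0) (XT.lf (nat_lit 0) (nat_lit 159718460812) (nat_lit 76) (nat_lit 24301797868) (nat_lit 76) (nat_lit 19076187825) (nat_lit 3) (nat_lit 4) (nat_lit 4) (nat_lit 5) (nat_lit 4) (nat_lit 4) (nat_lit 452) (nat_lit 316) (nat_lit 252)) (XT.lf (nat_lit 0) (nat_lit 177508261661) (nat_lit 76) (nat_lit 20366727797) (nat_lit 76) (nat_lit 15129653004) (nat_lit 3) (nat_lit 4) (nat_lit 4) (nat_lit 5) (nat_lit 4) (nat_lit 4) (nat_lit 453) (nat_lit 316) (nat_lit 251)))) (XT.nd (nat_lit 156) (nat_lit 76) (nat_lit 0) (XT.nd (nat_lit 78) (nat_lit 0) (nat_lit 0) (XT.lf (nat_lit 0) (nat_lit 196150586585) (nat_lit 76) (nat_lit 16253292574) (nat_lit 76) (nat_lit 11005298973)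 (nat_lit 3) (nat_lit 4) (nat_lit 4) (nat_lit 5) (nat_lit 4) (nat_lit 4) (nat_lit 454) (nat_lit 316) (nat_lit 250)) (XT.lf (nat_lit 0) (nat_lit 215689822073) (nat_lit 76) (nat_lit 11951698308) (nat_lit 76) (nat_lit 6693305840) (nat_lit 3) (nat_lit 4) (nat_lit 4) (nat_lit 5) (nat_lit 4) (nat_lit 4) (nat_lit 455) (nat_lit 316) (nat_lit 249))) (XT.nd (nat_lit 78) (nat_lit 76) (nat_lit 0) (XT.lf (nat_lit 0) (nat_lit 236172490113) (nat_lit 76) (nat_lit 7451703105) (nat_lit 76) (nat_lit 2183406956) (nat_lit 3) (nat_lit 4) (nat_lit 4) (nat_lit 5) (nat_lit 4) (nat_lit 4) (nat_lit 456) (nat_lit 316) (nat_lit 248)) (XT.lf (nat_lit 0) (nat_lit 2453995363) (nat_lit 152) (nat_lit 247037731) (nat_lit 76) (nat_lit 255151804000) (nat_lit 2) (nat_lit 5) (nat_lit 4) (nat_lit 5) (nat_lit 3) (nat_lit 4) (nat_lit 457) (nat_lit 316) (nat_lit 247))))))) (XT.nd (nat_lit 1014) (nat_lit 0) (nat_lit 0) (XT.nd (nat_lit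 468) (nat_lit 0) (nat_lit 0) (XT.nd (nat_lit 234) (nat_lit 0) (nat_lit 0) (XT.nd (nat_lit 78) (nat_lit 0) (nat_lit 0) (XT.lf (nat_lit 0) (nat_lit 7426865796) (nat_lit 152) (nat_lit 260670929669) (nat_lit 0) (nat_lit 2391902788) (nat_lit 1) (nat_lit 5) (nat_lit 3) (nat_lit 4) (nat_lit 1) (nat_lit 4) (nat_lit 458) (nat_lit 316) (nat_lit 246)) (XT.nd (nat_lit 78) (nat_lit 0) (nat_lit 0) (XT.lf (nat_lit 0) (nat_lit 12681404107) (nat_lit 152) (nat_lit 263437054602) (nat_lit 0) (nat_lit 7638293316) (nat_lit 1) (nat_lit 5) (nat_lit 3) (nat_lit 4) (nat_lit 1) (nat_lit 4) (nat_lit 459) (nat_lit 316) (nat_lit 245)) (XT.lf (nat_lit 0) (nat_lit 18183900608) (nat_lit 152) (nat_lit 266370967026) (nat_lit 0) (nat_lit 13133030023) (nat_lit 1) (nat_lit 5) (nat_lit 3) (nat_lit 4) (nat_lit 1) (nat_lit 4) (nat_lit 460) (nat_lit 316) (nat_lit 244)))) (XT.nd (nat_lit 78) (nat_lit 0) (nat_lit 0) (XT.lf (nat_lit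 0) (nat_lit 23947456481) (nat_lit 152) (nat_lit 269479652448) (nat_lit 0) (nat_lit 18889195616) (nat_lit 1) (nat_lit 5) (nat_lit 3) (nat_lit 4) (nat_lit 1) (nat_lit 4) (nat_lit 461) (nat_lit 316) (nat_lit 243)) (XT.nd (nat_lit 78) (nat_lit 0) (nat_lit 0) (XT.lf (nat_lit 0) (nat_lit 29985794477) (nat_lit 152) (nat_lit 272770512499) (nat_lit 0) (nat_lit 24920495251) (nat_lit 1) (nat_lit 5) (nat_lit 3) (nat_lit 4) (nat_lit 1) (nat_lit 4) (nat_lit 462) (nat_lit 316) (nat_lit 242)) (XT.lf (nat_lit 0) (nat_lit 36313291593) (nat_lit 152) (nat_lit 276251382561) (nat_lit 0) (nat_lit 31241289165) (nat_lit 1) (nat_lit 5) (nat_lit 3) (nat_lit 4) (nat_lit 1) (nat_lit 4) (nat_lit 463) (nat_lit 316) (nat_lit 241))))) (XT.nd (nat_lit 234) (nat_lit 0) (nat_lit 0) (XT.nd (nat_lit 78) (nat_lit 0) (nat_lit 0) (XT.lf (nat_lit 0) (nat_lit 42945013296) (nat_lit 152) (nat_lit 279930550420) (nat_lit 0) (nat_lit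 37866626867) (nat_lit 1) (nat_lit 5) (nat_lit 3) (nat_lit 4) (nat_lit 1) (nat_lit 4) (nat_lit 464) (nat_lit 316) (nat_lit 240)) (XT.nd (nat_lit 78) (nat_lit 0) (nat_lit 0) (XT.lf (nat_lit 0) (nat_lit 49896749402) (nat_lit 152) (nat_lit 283816775999) (nat_lit 0) (nat_lit 44812282971) (nat_lit 1) (nat_lit 5) (nat_lit 3) (nat_lit 4) (nat_lit 1) (nat_lit 4) (nat_lit 465) (nat_lit 316) (nat_lit 239)) (XT.lf (nat_lit 0) (nat_lit 57185051662) (nat_lit 152) (nat_lit 287919312216) (nat_lit 0) (nat_lit 52094794753) (nat_lit 1) (nat_lit 5) (nat_lit 3) (nat_lit 4) (nat_lit 1) (nat_lit 4) (nat_lit 466) (nat_lit 316) (nat_lit 238)))) (XT.nd (nat_lit 156) (nat_lit 0) (nat_lit 0) (XT.nd (nat_lit 78) (nat_lit 0) (nat_lit 0) (XT.lf (nat_lit 0) (nat_lit 64827273177) (nat_lit 152) (nat_lit 292247927014) (nat_lit 0) (nat_lit 59731501527) (nat_lit 1) (nat_lit 5) (nat_lit 3) (nat_lit 4) (nat_lit 1) (nat_lit 4)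 (nat_lit 467) (nat_lit 316) (nat_lit 237)) (XT.lf (nat_lit 0) (nat_lit 72841609712) (nat_lit 152) (nat_lit 296812926619) (nat_lit 0) (nat_lit 67740585929) (nat_lit 1) (nat_lit 5) (nat_lit 3) (nat_lit 4) (nat_lit 1) (nat_lit 4) (nat_lit 468) (nat_lit 316) (nat_lit 236))) (XT.nd (nat_lit 78) (nat_lit 0) (nat_lit 0) (XT.lf (nat_lit 0) (nat_lit 81247143022) (nat_lit 152) (nat_lit 301625180079) (nat_lit 0) (nat_lit 76141117207) (nat_lit 1) (nat_lit 5) (nat_lit 3) (nat_lit 4) (nat_lit 1) (nat_lit 4) (nat_lit 469) (nat_lit 316) (nat_lit 235)) (XT.lf (nat_lit 0) (nat_lit 90063886281) (nat_lit 152) (nat_lit 306696145138) (nat_lit 0) (nat_lit 84953096626) (nat_lit 1) (nat_lit 5) (nat_lit 3) (nat_lit 4) (nat_lit 1) (nat_lit 4) (nat_lit 470) (nat_lit 316) (nat_lit 234)))))) (XT.nd (nat_lit 468) (nat_lit 0) (nat_lit 0) (XT.nd (nat_lit 234) (nat_lit 0) (nat_lit 0) (XT.nd (nat_lit 78) (nat_lit 0) (nat_lit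 0) (XT.lf (nat_lit 0) (nat_lit 99312831735) (nat_lit 152) (nat_lit 312037895525) (nat_lit 0) (nat_lit 94197505088) (nat_lit 1) (nat_lit 5) (nat_lit 3) (nat_lit 4) (nat_lit 1) (nat_lit 4) (nat_lit 471) (nat_lit 316) (nat_lit 233)) (XT.nd (nat_lit 78) (nat_lit 0) (nat_lit 0) (XT.lf (nat_lit 0) (nat_lit 109016000682) (nat_lit 152) (nat_lit 317663149690) (nat_lit 0) (nat_lit 103896353092) (nat_lit 1) (nat_lit 5) (nat_lit 3) (nat_lit 4) (nat_lit 1) (nat_lit 4) (nat_lit 472) (nat_lit 316) (nat_lit 232)) (XT.lf (nat_lit 0) (nat_lit 119196495905) (nat_lit 152) (nat_lit 323585301098) (nat_lit 0) (nat_lit 114072733131) (nat_lit 1) (nat_lit 5) (nat_lit 3) (nat_lit 4) (nat_lit 1) (nat_lit 4) (nat_lit 473) (nat_lit 316) (nat_lit 231)))) (XT.nd (nat_lit 78) (nat_lit 0) (nat_lit 0) (XT.lf (nat_lit 0) (nat_lit 129878556679) (nat_lit 152) (nat_lit 329818450109) (nat_lit 0) (nat_lit 124750874682) (nat_lit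 1) (nat_lit 5) (nat_lit 3) (nat_lit 4) (nat_lit 1) (nat_lit 4) (nat_lit 474) (nat_lit 316) (nat_lit 230)) (XT.nd (nat_lit 78) (nat_lit 0) (nat_lit 0) (XT.lf (nat_lit 0) (nat_lit 141087616483) (nat_lit 152) (nat_lit 336377437553) (nat_lit 0) (nat_lit 135956201892) (nat_lit 1) (nat_lit 5) (nat_lit 3) (nat_lit 4) (nat_lit 1) (nat_lit 4) (nat_lit 475) (nat_lit 316) (nat_lit 229)) (XT.lf (nat_lit 0) (nat_lit 152850363552) (nat_lit 152) (nat_lit 343277880068) (nat_lit 0) (nat_lit 147715394111) (nat_lit 1) (nat_lit 5) (nat_lit 3) (nat_lit 4) (nat_lit 1) (nat_lit 4) (nat_lit 476) (nat_lit 316) (nat_lit 228))))) (XT.nd (nat_lit 234) (nat_lit 0) (nat_lit 0) (XT.nd (nat_lit 78) (nat_lit 0) (nat_lit 0) (XT.lf (nat_lit 0) (nat_lit 165194804430) (nat_lit 152) (nat_lit 350536207278) (nat_lit 0) (nat_lit 160056449415) (nat_lit 1) (nat_lit 5) (nat_lit 3) (nat_lit 4) (nat_lit 1) (nat_lit 4) (nat_lit 477)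 (nat_lit 316) (nat_lit 227)) (XT.nd (nat_lit 78) (nat_lit 0) (nat_lit 0) (XT.lf (nat_lit 0) (nat_lit 178150330640) (nat_lit 152) (nat_lit 358169700915) (nat_lit 0) (nat_lit 173008751271) (nat_lit 1) (nat_lit 5) (nat_lit 3) (nat_lit 4) (nat_lit 1) (nat_lit 4) (nat_lit 478) (nat_lit 316) (nat_lit 226)) (XT.lf (nat_lit 0) (nat_lit 191747788674) (nat_lit 152) (nat_lit 366196535963) (nat_lit 0) (nat_lit 186603138491) (nat_lit 1) (nat_lit 5) (nat_lit 3) (nat_lit 4) (nat_lit 1) (nat_lit 4) (nat_lit 479) (nat_lit 316) (nat_lit 225)))) (XT.nd (nat_lit 45864) (nat_lit 0) (nat_lit 2204) (XT.nd (nat_lit 45786) (nat_lit 0) (nat_lit 2508) (XT.lf (nat_lit 0) (nat_lit 206019553433) (nat_lit 152) (nat_lit 374635823936) (nat_lit 0) (nat_lit 200871978665) (nat_lit 1) (nat_lit 5) (nat_lit 3) (nat_lit 4) (nat_lit 1) (nat_lit 4) (nat_lit 480) (nat_lit 316) (nat_lit 224)) (XT.lf (nat_lit 0) (nat_lit 5531435195)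 (nat_lit 152) (nat_lit 650098190) (nat_lit 152) (nat_lit 650098190) (nat_lit 34) (nat_lit 4) (nat_lit 36) (nat_lit 5) (nat_lit 36) (nat_lit 4) (nat_lit 386) (nat_lit 317) (nat_lit 317))) (XT.nd (nat_lit 78) (nat_lit 152) (nat_lit 0) (XT.lf (nat_lit 0) (nat_lit 4139102041) (nat_lit 152) (nat_lit 6196787834) (nat_lit 0) (nat_lit 3715095356) (nat_lit 32) (nat_lit 5) (nat_lit 34) (nat_lit 4) (nat_lit 32) (nat_lit 4) (nat_lit 387) (nat_lit 317) (nat_lit 316)) (XT.lf (nat_lit 0) (nat_lit 4213244057) (nat_lit 152) (nat_lit 5537227216) (nat_lit 152) (nat_lit 4709404642) (nat_lit 30) (nat_lit 4) (nat_lit 32) (nat_lit 5) (nat_lit 32) (nat_lit 4) (nat_lit 388) (nat_lit 317) (nat_lit 315))))))))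
noncomputable def xc44 : XT := (XT.nd (nat_lit 1950) (nat_lit 456) (nat_lit 0) (XT.nd (nat_lit 936) (nat_lit 684) (nat_lit 0) (XT.nd (nat_lit 468) (nat_lit 380) (nat_lit 0) (XT.nd (nat_lit 234) (nat_lit 228) (nat_lit 0) (XT.nd (nat_lit 78) (nat_lit 76) (nat_lit 0) (XT.lf (nat_lit 0) (nat_lit 120486942) (nat_lit 76) (nat_lit 529706266) (nat_lit 152) (nat_lit 14242409556) (nat_lit 28) (nat_lit 5) (nat_lit 29) (nat_lit 5) (nat_lit 30) (nat_lit 4) (nat_lit 389) (nat_lit 317) (nat_lit 314)) (XT.nd (nat_lit 78) (nat_lit 76) (nat_lit 0) (XT.lf (nat_lit 0) (nat_lit 6183457694) (nat_lit 152) (nat_lit 4476532505) (nat_lit 0) (nat_lit 4679950979) (nat_lit 28) (nat_lit 5) (nat_lit 30) (nat_lit 4) (nat_lit 28) (nat_lit 4) (nat_lit 390) (nat_lit 317) (nat_lit 313)) (XT.lf (nat_lit 0) (nat_lit 6193789749) (nat_lit 76) (nat_lit 5727607362) (nat_lit 76) (nat_lit 3891880315) (nat_lit 27) (nat_lit 4) (nat_lit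 28) (nat_lit 5) (nat_lit 28) (nat_lit 4) (nat_lit 391) (nat_lit 317) (nat_lit 312)))) (XT.nd (nat_lit 78) (nat_lit 76) (nat_lit 0) (XT.lf (nat_lit 0) (nat_lit 919026118) (nat_lit 76) (nat_lit 579097531) (nat_lit 152) (nat_lit 14815181748) (nat_lit 25) (nat_lit 5) (nat_lit 26) (nat_lit 5) (nat_lit 27) (nat_lit 4) (nat_lit 392) (nat_lit 317) (nat_lit 311)) (XT.nd (nat_lit 78) (nat_lit 76) (nat_lit 0) (XT.lf (nat_lit 0) (nat_lit 7091893199) (nat_lit 152) (nat_lit 4984762130) (nat_lit 0) (nat_lit 4755263677) (nat_lit 25) (nat_lit 5) (nat_lit 27) (nat_lit 4) (nat_lit 25) (nat_lit 4) (nat_lit 393) (nat_lit 317) (nat_lit 310)) (XT.lf (nat_lit 0) (nat_lit 5806168320) (nat_lit 76) (nat_lit 7091818558) (nat_lit 76) (nat_lit 4481870547) (nat_lit 24) (nat_lit 4) (nat_lit 25) (nat_lit 5) (nat_lit 25) (nat_lit 4) (nat_lit 394) (nat_lit 317) (nat_lit 309))))) (XT.nd (nat_lit 234) (nat_lit 152) (nat_lit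 0) (XT.nd (nat_lit 78) (nat_lit 152) (nat_lit 0) (XT.lf (nat_lit 0) (nat_lit 924639901) (nat_lit 152) (nat_lit 974739536) (nat_lit 76) (nat_lit 16059090194) (nat_lit 23) (nat_lit 5) (nat_lit 25) (nat_lit 5) (nat_lit 24) (nat_lit 4) (nat_lit 395) (nat_lit 317) (nat_lit 308)) (XT.nd (nat_lit 78) (nat_lit 76) (nat_lit 0) (XT.lf (nat_lit 0) (nat_lit 6506502636) (nat_lit 152) (nat_lit 8516249032) (nat_lit 0) (nat_lit 3536827150) (nat_lit 22) (nat_lit 5) (nat_lit 24) (nat_lit 4) (nat_lit 22) (nat_lit 4) (nat_lit 396) (nat_lit 317) (nat_lit 307)) (XT.lf (nat_lit 0) (nat_lit 2193400969) (nat_lit 76) (nat_lit 10097854621) (nat_lit 76) (nat_lit 6903319338) (nat_lit 21) (nat_lit 4) (nat_lit 22) (nat_lit 5) (nat_lit 22) (nat_lit 4) (nat_lit 397) (nat_lit 317) (nat_lit 306)))) (XT.nd (nat_lit 78) (nat_lit 152) (nat_lit 0) (XT.lf (nat_lit 0) (nat_lit 13437444400) (nat_lit 76) (nat_lit 4916572834) (nat_lit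 76) (nat_lit 1507885362) (nat_lit 21) (nat_lit 4) (nat_lit 22) (nat_lit 5) (nat_lit 22) (nat_lit 4) (nat_lit 398) (nat_lit 317) (nat_lit 305)) (XT.nd (nat_lit 78) (nat_lit 0) (nat_lit 0) (XT.lf (nat_lit 0) (nat_lit 3951822135) (nat_lit 152) (nat_lit 16099958688) (nat_lit 0) (nat_lit 511210767) (nat_lit 19) (nat_lit 5) (nat_lit 21) (nat_lit 4) (nat_lit 19) (nat_lit 4) (nat_lit 399) (nat_lit 317) (nat_lit 304)) (XT.lf (nat_lit 0) (nat_lit 9675162982) (nat_lit 152) (nat_lit 5571128578) (nat_lit 0) (nat_lit 6049558902) (nat_lit 19) (nat_lit 5) (nat_lit 21) (nat_lit 4) (nat_lit 19) (nat_lit 4) (nat_lit 400) (nat_lit 317) (nat_lit 303)))))) (XT.nd (nat_lit 468) (nat_lit 380) (nat_lit 0) (XT.nd (nat_lit 234) (nat_lit 76) (nat_lit 0) (XT.nd (nat_lit 78) (nat_lit 152) (nat_lit 0) (XT.lf (nat_lit 0) (nat_lit 5381850894) (nat_lit 76) (nat_lit 10244120341) (nat_lit 76) (nat_lit 6442332726) (nat_lit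 18) (nat_lit 4) (nat_lit 19) (nat_lit 5) (nat_lit 19) (nat_lit 4) (nat_lit 401) (nat_lit 317) (nat_lit 302)) (XT.nd (nat_lit 78) (nat_lit 152) (nat_lit 0) (XT.lf (nat_lit 0) (nat_lit 16805779507) (nat_lit 76) (nat_lit 5022743910) (nat_lit 76) (nat_lit 1053162452) (nat_lit 18) (nat_lit 4) (nat_lit 19) (nat_lit 5) (nat_lit 19) (nat_lit 4) (nat_lit 402) (nat_lit 317) (nat_lit 301)) (XT.lf (nat_lit 0) (nat_lit 4406340549) (nat_lit 152) (nat_lit 18854808829) (nat_lit 0) (nat_lit 473592817) (nat_lit 16) (nat_lit 5) (nat_lit 18) (nat_lit 4) (nat_lit 16) (nat_lit 4) (nat_lit 403) (nat_lit 317) (nat_lit 300)))) (XT.nd (nat_lit 78) (nat_lit 76) (nat_lit 0) (XT.lf (nat_lit 0) (nat_lit 10155174814) (nat_lit 152) (nat_lit 8394359103) (nat_lit 0) (nat_lit 6077480452) (nat_lit 16) (nat_lit 5) (nat_lit 18) (nat_lit 4) (nat_lit 16) (nat_lit 4) (nat_lit 404) (nat_lit 317) (nat_lit 299)) (XT.nd (nat_lit 78)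 (nat_lit 0) (nat_lit 0) (XT.lf (nat_lit 0) (nat_lit 2416683368) (nat_lit 76) (nat_lit 13683759518) (nat_lit 76) (nat_lit 9468020747) (nat_lit 15) (nat_lit 4) (nat_lit 16) (nat_lit 5) (nat_lit 16) (nat_lit 4) (nat_lit 405) (nat_lit 317) (nat_lit 298)) (XT.lf (nat_lit 0) (nat_lit 13813961145) (nat_lit 76) (nat_lit 8544730235) (nat_lit 76) (nat_lit 4197520597) (nat_lit 15) (nat_lit 4) (nat_lit 16) (nat_lit 5) (nat_lit 16) (nat_lit 4) (nat_lit 406) (nat_lit 317) (nat_lit 297))))) (XT.nd (nat_lit 234) (nat_lit 228) (nat_lit 0) (XT.nd (nat_lit 78) (nat_lit 76) (nat_lit 0) (XT.lf (nat_lit 0) (nat_lit 1171318105) (nat_lit 152) (nat_lit 2071217871) (nat_lit 76) (nat_lit 24355900234) (nat_lit 14) (nat_lit 5) (nat_lit 16) (nat_lit 5) (nat_lit 15) (nat_lit 4) (nat_lit 407) (nat_lit 317) (nat_lit 296)) (XT.nd (nat_lit 78) (nat_lit 0) (nat_lit 0) (XT.lf (nat_lit 0) (nat_lit 6731539239) (nat_lit 152) (nat_lit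 19596080203) (nat_lit 0) (nat_lit 2358522155) (nat_lit 13) (nat_lit 5) (nat_lit 15) (nat_lit 4) (nat_lit 13) (nat_lit 4) (nat_lit 408) (nat_lit 317) (nat_lit 295)) (XT.lf (nat_lit 0) (nat_lit 12542371533) (nat_lit 152) (nat_lit 9226047930) (nat_lit 0) (nat_lit 8061193041) (nat_lit 13) (nat_lit 5) (nat_lit 15) (nat_lit 4) (nat_lit 13) (nat_lit 4) (nat_lit 409) (nat_lit 317) (nat_lit 294)))) (XT.nd (nat_lit 156) (nat_lit 152) (nat_lit 0) (XT.nd (nat_lit 78) (nat_lit 0) (nat_lit 0) (XT.lf (nat_lit 0) (nat_lit 1493968173) (nat_lit 76) (nat_lit 17062427692) (nat_lit 76) (nat_lit 12478238336) (nat_lit 12) (nat_lit 4) (nat_lit 13) (nat_lit 5) (nat_lit 13) (nat_lit 4) (nat_lit 410) (nat_lit 317) (nat_lit 293)) (XT.lf (nat_lit 0) (nat_lit 12857447796) (nat_lit 76) (nat_lit 12061193711) (nat_lit 76) (nat_lit 7378898771) (nat_lit 12) (nat_lit 4) (nat_lit 13) (nat_lit 5) (nat_lit 13) (nat_lit 4) (nat_lit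 411) (nat_lit 317) (nat_lit 292))) (XT.nd (nat_lit 78) (nat_lit 152) (nat_lit 0) (XT.lf (nat_lit 0) (nat_lit 24586392034) (nat_lit 76) (nat_lit 6909057408) (nat_lit 76) (nat_lit 2133328577) (nat_lit 12) (nat_lit 4) (nat_lit 13) (nat_lit 5) (nat_lit 13) (nat_lit 4) (nat_lit 412) (nat_lit 317) (nat_lit 291)) (XT.lf (nat_lit 0) (nat_lit 1679908594) (nat_lit 76) (nat_lit 1512589982) (nat_lit 152) (nat_lit 31835153610) (nat_lit 10) (nat_lit 5) (nat_lit 11) (nat_lit 5) (nat_lit 12) (nat_lit 4) (nat_lit 413) (nat_lit 317) (nat_lit 290))))))) (XT.nd (nat_lit 1014) (nat_lit 152) (nat_lit 0) (XT.nd (nat_lit 468) (nat_lit 228) (nat_lit 0) (XT.nd (nat_lit 234) (nat_lit 76) (nat_lit 0) (XT.nd (nat_lit 78) (nat_lit 0) (nat_lit 0) (XT.lf (nat_lit 0) (nat_lit 8833455911) (nat_lit 152) (nat_lit 23535562801) (nat_lit 0) (nat_lit 4119683739) (nat_lit 10) (nat_lit 5) (nat_lit 12) (nat_lit 4) (nat_lit 10) (nat_lit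 4) (nat_lit 414) (nat_lit 317) (nat_lit 289)) (XT.nd (nat_lit 78) (nat_lit 0) (nat_lit 0) (XT.lf (nat_lit 0) (nat_lit 14686052064) (nat_lit 152) (nat_lit 13444869309) (nat_lit 0) (nat_lit 9895411599) (nat_lit 10) (nat_lit 5) (nat_lit 12) (nat_lit 4) (nat_lit 10) (nat_lit 4) (nat_lit 415) (nat_lit 317) (nat_lit 288)) (XT.lf (nat_lit 0) (nat_lit 20740606018) (nat_lit 152) (nat_lit 3028021884) (nat_lit 0) (nat_lit 15876757655) (nat_lit 10) (nat_lit 5) (nat_lit 12) (nat_lit 4) (nat_lit 10) (nat_lit 4) (nat_lit 416) (nat_lit 317) (nat_lit 287)))) (XT.nd (nat_lit 78) (nat_lit 0) (nat_lit 0) (XT.lf (nat_lit 0) (nat_lit 7995693618) (nat_lit 76) (nat_lit 19140674946) (nat_lit 76) (nat_lit 14207104775) (nat_lit 9) (nat_lit 4) (nat_lit 10) (nat_lit 5) (nat_lit 10) (nat_lit 4) (nat_lit 417) (nat_lit 317) (nat_lit 286)) (XT.nd (nat_lit 78) (nat_lit 0) (nat_lit 0) (XT.lf (nat_lit 0) (nat_lit 19508574661)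 (nat_lit 76) (nat_lit 14309773788) (nat_lit 76) (nat_lit 9309801896) (nat_lit 9) (nat_lit 4) (nat_lit 10) (nat_lit 5) (nat_lit 10) (nat_lit 4) (nat_lit 418) (nat_lit 317) (nat_lit 285)) (XT.lf (nat_lit 0) (nat_lit 31437912785) (nat_lit 76) (nat_lit 9315703300) (nat_lit 76) (nat_lit 4252491673) (nat_lit 9) (nat_lit 4) (nat_lit 10) (nat_lit 5) (nat_lit 10) (nat_lit 4) (nat_lit 419) (nat_lit 317) (nat_lit 284))))) (XT.nd (nat_lit 234) (nat_lit 76) (nat_lit 0) (XT.nd (nat_lit 78) (nat_lit 76) (nat_lit 0) (XT.lf (nat_lit 0) (nat_lit 945601259) (nat_lit 152) (nat_lit 3184957363) (nat_lit 76) (nat_lit 42850495703) (nat_lit 8) (nat_lit 5) (nat_lit 10) (nat_lit 5) (nat_lit 9) (nat_lit 4) (nat_lit 420) (nat_lit 317) (nat_lit 283)) (XT.nd (nat_lit 78) (nat_lit 0) (nat_lit 0) (XT.lf (nat_lit 0) (nat_lit 6329673327) (nat_lit 152) (nat_lit 41322567269) (nat_lit 0) (nat_lit 1395577852) (nat_lit 7) (nat_lit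 5) (nat_lit 9) (nat_lit 4) (nat_lit 7) (nat_lit 4) (nat_lit 421) (nat_lit 317) (nat_lit 282)) (XT.lf (nat_lit 0) (nat_lit 12031160275) (nat_lit 152) (nat_lit 32139317554) (nat_lit 0) (nat_lit 7045037314) (nat_lit 7) (nat_lit 5) (nat_lit 9) (nat_lit 4) (nat_lit 7) (nat_lit 4) (nat_lit 422) (nat_lit 317) (nat_lit 281)))) (XT.nd (nat_lit 156) (nat_lit 76) (nat_lit 0) (XT.nd (nat_lit 78) (nat_lit 0) (nat_lit 0) (XT.lf (nat_lit 0) (nat_lit 17946935061) (nat_lit 152) (nat_lit 22636943523) (nat_lit 0) (nat_lit 12911262113) (nat_lit 7) (nat_lit 5) (nat_lit 9) (nat_lit 4) (nat_lit 7) (nat_lit 4) (nat_lit 423) (nat_lit 317) (nat_lit 280)) (XT.lf (nat_lit 0) (nat_lit 24091082863) (nat_lit 152) (nat_lit 12792820476) (nat_lit 0) (nat_lit 19008219451) (nat_lit 7) (nat_lit 5) (nat_lit 9) (nat_lit 4) (nat_lit 7) (nat_lit 4) (nat_lit 424) (nat_lit 317) (nat_lit 279))) (XT.nd (nat_lit 78) (nat_lit 76) (nat_lit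 0) (XT.lf (nat_lit 0) (nat_lit 30478232604) (nat_lit 152) (nat_lit 2583510023) (nat_lit 0) (nat_lit 25350425893) (nat_lit 7) (nat_lit 5) (nat_lit 9) (nat_lit 4) (nat_lit 7) (nat_lit 4) (nat_lit 425) (nat_lit 317) (nat_lit 278)) (XT.lf (nat_lit 0) (nat_lit 8280317590) (nat_lit 76) (nat_lit 28972553157) (nat_lit 76) (nat_lit 23801943304) (nat_lit 6) (nat_lit 4) (nat_lit 7) (nat_lit 5) (nat_lit 7) (nat_lit 4) (nat_lit 426) (nat_lit 317) (nat_lit 277)))))) (XT.nd (nat_lit 468) (nat_lit 0) (nat_lit 0) (XT.nd (nat_lit 234) (nat_lit 152) (nat_lit 0) (XT.nd (nat_lit 78) (nat_lit 0) (nat_lit 0) (XT.lf (nat_lit 0) (nat_lit 19658011116) (nat_lit 76) (nat_lit 24691888215) (nat_lit 76) (nat_lit 19480513465) (nat_lit 6) (nat_lit 4) (nat_lit 7) (nat_lit 5) (nat_lit 7) (nat_lit 4) (nat_lit 427) (nat_lit 317) (nat_lit 276)) (XT.nd (nat_lit 78) (nat_lit 0) (nat_lit 0) (XT.lf (nat_lit 0) (nat_lit 31491237791)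 (nat_lit 76) (nat_lit 20253308734) (nat_lit 76) (nat_lit 15003110273) (nat_lit 6) (nat_lit 4) (nat_lit 7) (nat_lit 5) (nat_lit 7) (nat_lit 4) (nat_lit 428) (nat_lit 317) (nat_lit 275)) (XT.lf (nat_lit 0) (nat_lit 43808171966) (nat_lit 76) (nat_lit 15646246669) (nat_lit 76) (nat_lit 10359073245) (nat_lit 6) (nat_lit 4) (nat_lit 7) (nat_lit 5) (nat_lit 7) (nat_lit 4) (nat_lit 429) (nat_lit 317) (nat_lit 274)))) (XT.nd (nat_lit 78) (nat_lit 152) (nat_lit 0) (XT.lf (nat_lit 0) (nat_lit 56638139673) (nat_lit 76) (nat_lit 10859732824) (nat_lit 76) (nat_lit 5537345150) (nat_lit 6) (nat_lit 4) (nat_lit 7) (nat_lit 5) (nat_lit 7) (nat_lit 4) (nat_lit 430) (nat_lit 317) (nat_lit 273)) (XT.nd (nat_lit 78) (nat_lit 152) (nat_lit 0) (XT.lf (nat_lit 0) (nat_lit 70011688456) (nat_lit 76) (nat_lit 5882370737) (nat_lit 76) (nat_lit 526445682) (nat_lit 6) (nat_lit 4) (nat_lit 7) (nat_lit 5) (nat_lit 7) (nat_lit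 4) (nat_lit 431) (nat_lit 317) (nat_lit 272)) (XT.lf (nat_lit 0) (nat_lit 4039376953) (nat_lit 76) (nat_lit 559277862) (nat_lit 152) (nat_lit 75371947923) (nat_lit 4) (nat_lit 5) (nat_lit 5) (nat_lit 5) (nat_lit 6) (nat_lit 4) (nat_lit 432) (nat_lit 317) (nat_lit 271))))) (XT.nd (nat_lit 234) (nat_lit 0) (nat_lit 0) (XT.nd (nat_lit 78) (nat_lit 0) (nat_lit 0) (XT.lf (nat_lit 0) (nat_lit 10103405316) (nat_lit 152) (nat_lit 68644182999) (nat_lit 0) (nat_lit 4943134065) (nat_lit 4) (nat_lit 5) (nat_lit 6) (nat_lit 4) (nat_lit 4) (nat_lit 4) (nat_lit 433) (nat_lit 317) (nat_lit 270)) (XT.nd (nat_lit 78) (nat_lit 0) (nat_lit 0) (XT.lf (nat_lit 0) (nat_lit 15847075533) (nat_lit 152) (nat_lit 61092377980) (nat_lit 0) (nat_lit 10659212996) (nat_lit 4) (nat_lit 5) (nat_lit 6) (nat_lit 4) (nat_lit 4) (nat_lit 4) (nat_lit 434) (nat_lit 317) (nat_lit 269)) (XT.lf (nat_lit 0) (nat_lit 21834608979) (nat_lit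 152) (nat_lit 53249098345) (nat_lit 0) (nat_lit 16620469025) (nat_lit 4) (nat_lit 5) (nat_lit 6) (nat_lit 4) (nat_lit 4) (nat_lit 4) (nat_lit 435) (nat_lit 317) (nat_lit 268)))) (XT.nd (nat_lit 156) (nat_lit 0) (nat_lit 0) (XT.nd (nat_lit 78) (nat_lit 0) (nat_lit 0) (XT.lf (nat_lit 0) (nat_lit 28080261684) (nat_lit 152) (nat_lit 45095669621) (nat_lit 0) (nat_lit 22841095621) (nat_lit 4) (nat_lit 5) (nat_lit 6) (nat_lit 4) (nat_lit 4) (nat_lit 4) (nat_lit 436) (nat_lit 317) (nat_lit 267)) (XT.lf (nat_lit 0) (nat_lit 34598904252) (nat_lit 152) (nat_lit 36612678880) (nat_lit 0) (nat_lit 29335903797) (nat_lit 4) (nat_lit 5) (nat_lit 6) (nat_lit 4) (nat_lit 4) (nat_lit 4) (nat_lit 437) (nat_lit 317) (nat_lit 266))) (XT.nd (nat_lit 78) (nat_lit 0) (nat_lit 0) (XT.lf (nat_lit 0) (nat_lit 41406057259) (nat_lit 152) (nat_lit 27779928526) (nat_lit 0) (nat_lit 36120357384) (nat_lit 4) (nat_lit 5) (nat_lit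 6) (nat_lit 4) (nat_lit 4) (nat_lit 4) (nat_lit 438) (nat_lit 317) (nat_lit 265)) (XT.lf (nat_lit 0) (nat_lit 48517928212) (nat_lit 152) (nat_lit 18576388202) (nat_lit 0) (nat_lit 43210609843) (nat_lit 4) (nat_lit 5) (nat_lit 6) (nat_lit 4) (nat_lit 4) (nat_lit 4) (nat_lit 439) (nat_lit 317) (nat_lit 264))))))))
noncomputable def xc45 : XT := (XT.nd (nat_lit 1950) (nat_lit 0) (nat_lit 0) (XT.nd (nat_lit 936) (nat_lit 152) (nat_lit 0) (XT.nd (nat_lit 468) (nat_lit 0) (nat_lit 0) (XT.nd (nat_lit 234) (nat_lit 0) (nat_lit 0) (XT.nd (nat_lit 78) (nat_lit 76) (nat_lit 0) (XT.lf (nat_lit 0) (nat_lit 55951450139) (nat_lit 152) (nat_lit 8980144715) (nat_lit 0) (nat_lit 50623542726) (nat_lit 4) (nat_lit 5) (nat_lit 6) (nat_lit 4) (nat_lit 4) (nat_lit 4) (nat_lit 440) (nat_lit 317) (nat_lit 263)) (XT.nd (nat_lit 78) (nat_lit 0) (nat_lit 0) (XT.lf (nat_lit 0) (nat_lit 1065761145) (nat_lit 76) (nat_lit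 62675200272) (nat_lit 76) (nat_lit 57327684247) (nat_lit 3) (nat_lit 4) (nat_lit 4) (nat_lit 5) (nat_lit 4) (nat_lit 4) (nat_lit 441) (nat_lit 317) (nat_lit 262)) (XT.lf (nat_lit 0) (nat_lit 11862508296) (nat_lit 76) (nat_lit 60177749034) (nat_lit 76) (nat_lit 54811558140) (nat_lit 3) (nat_lit 4) (nat_lit 4) (nat_lit 5) (nat_lit 4) (nat_lit 4) (nat_lit 442) (nat_lit 317) (nat_lit 261)))) (XT.nd (nat_lit 78) (nat_lit 0) (nat_lit 0) (XT.lf (nat_lit 0) (nat_lit 23138879140) (nat_lit 76) (nat_lit 57585377922) (nat_lit 76) (nat_lit 52201401439) (nat_lit 3) (nat_lit 4) (nat_lit 4) (nat_lit 5) (nat_lit 4) (nat_lit 4) (nat_lit 443) (nat_lit 317) (nat_lit 260)) (XT.nd (nat_lit 78) (nat_lit 0) (nat_lit 0) (XT.lf (nat_lit 0) (nat_lit 34921722178) (nat_lit 76) (nat_lit 54891914625) (nat_lit 76) (nat_lit 49490999485) (nat_lit 3) (nat_lit 4) (nat_lit 4) (nat_lit 5) (nat_lit 4) (nat_lit 4) (nat_lit 444)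 (nat_lit 317) (nat_lit 259)) (XT.lf (nat_lit 0) (nat_lit 47239091799) (nat_lit 76) (nat_lit 52090946135) (nat_lit 76) (nat_lit 46673898941) (nat_lit 3) (nat_lit 4) (nat_lit 4) (nat_lit 5) (nat_lit 4) (nat_lit 4) (nat_lit 445) (nat_lit 317) (nat_lit 258))))) (XT.nd (nat_lit 234) (nat_lit 0) (nat_lit 0) (XT.nd (nat_lit 78) (nat_lit 0) (nat_lit 0) (XT.lf (nat_lit 0) (nat_lit 60120315072) (nat_lit 76) (nat_lit 49175803480) (nat_lit 76) (nat_lit 43743392425) (nat_lit 3) (nat_lit 4) (nat_lit 4) (nat_lit 5) (nat_lit 4) (nat_lit 4) (nat_lit 446) (nat_lit 317) (nat_lit 257)) (XT.nd (nat_lit 78) (nat_lit 0) (nat_lit 0) (XT.lf (nat_lit 0) (nat_lit 73596061578) (nat_lit 76) (nat_lit 46139545842) (nat_lit 76) (nat_lit 40692502539) (nat_lit 3) (nat_lit 4) (nat_lit 4) (nat_lit 5) (nat_lit 4) (nat_lit 4) (nat_lit 447) (nat_lit 317) (nat_lit 256)) (XT.lf (nat_lit 0) (nat_lit 87698416427) (nat_lit 76) (nat_lit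 42974944038) (nat_lit 76) (nat_lit 37513965260) (nat_lit 3) (nat_lit 4) (nat_lit 4) (nat_lit 5) (nat_lit 4) (nat_lit 4) (nat_lit 448) (nat_lit 317) (nat_lit 255)))) (XT.nd (nat_lit 78) (nat_lit 0) (nat_lit 0) (XT.lf (nat_lit 0) (nat_lit 102460956654) (nat_lit 76) (nat_lit 39674463302) (nat_lit 76) (nat_lit 34200212643) (nat_lit 3) (nat_lit 4) (nat_lit 4) (nat_lit 5) (nat_lit 4) (nat_lit 4) (nat_lit 449) (nat_lit 317) (nat_lit 254)) (XT.nd (nat_lit 78) (nat_lit 0) (nat_lit 0) (XT.lf (nat_lit 0) (nat_lit 117918831164) (nat_lit 76) (nat_lit 36230245345) (nat_lit 76) (nat_lit 30743354800) (nat_lit 3) (nat_lit 4) (nat_lit 4) (nat_lit 5) (nat_lit 4) (nat_lit 4) (nat_lit 450) (nat_lit 317) (nat_lit 253)) (XT.lf (nat_lit 0) (nat_lit 134108844421) (nat_lit 76) (nat_lit 32634089649) (nat_lit 76) (nat_lit 27135161117) (nat_lit 3) (nat_lit 4) (nat_lit 4) (nat_lit 5) (nat_lit 4) (nat_lit 4) (nat_lit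 451) (nat_lit 317) (nat_lit 252)))))) (XT.nd (nat_lit 468) (nat_lit 152) (nat_lit 0) (XT.nd (nat_lit 234) (nat_lit 0) (nat_lit 0) (XT.nd (nat_lit 78) (nat_lit 0) (nat_lit 0) (XT.lf (nat_lit 0) (nat_lit 151069544076) (nat_lit 76) (nat_lit 28877433938) (nat_lit 76) (nat_lit 23367040657) (nat_lit 3) (nat_lit 4) (nat_lit 4) (nat_lit 5) (nat_lit 4) (nat_lit 4) (nat_lit 452) (nat_lit 317) (nat_lit 251)) (XT.nd (nat_lit 78) (nat_lit 0) (nat_lit 0) (XT.lf (nat_lit 0) (nat_lit 168841312746) (nat_lit 76) (nat_lit 24951333795) (nat_lit 76) (nat_lit 19430021704) (nat_lit 3) (nat_lit 4) (nat_lit 4) (nat_lit 5) (nat_lit 4) (nat_lit 4) (nat_lit 453) (nat_lit 317) (nat_lit 250)) (XT.lf (nat_lit 0) (nat_lit 187466464166) (nat_lit 76) (nat_lit 20846441361) (nat_lit 76) (nat_lit 15314730405) (nat_lit 3) (nat_lit 4) (nat_lit 4) (nat_lit 5) (nat_lit 4) (nat_lit 4) (nat_lit 454) (nat_lit 317) (nat_lit 249))))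 (XT.nd (nat_lit 78) (nat_lit 0) (nat_lit 0) (XT.lf (nat_lit 0) (nat_lit 206989343936) (nat_lit 76) (nat_lit 16552983084) (nat_lit 76) (nat_lit 11011368445) (nat_lit 3) (nat_lit 4) (nat_lit 4) (nat_lit 5) (nat_lit 4) (nat_lit 4) (nat_lit 455) (nat_lit 317) (nat_lit 248)) (XT.nd (nat_lit 78) (nat_lit 0) (nat_lit 0) (XT.lf (nat_lit 0) (nat_lit 227456435102) (nat_lit 76) (nat_lit 12060736443) (nat_lit 76) (nat_lit 6509689727) (nat_lit 3) (nat_lit 4) (nat_lit 4) (nat_lit 5) (nat_lit 4) (nat_lit 4) (nat_lit 456) (nat_lit 317) (nat_lit 247)) (XT.lf (nat_lit 0) (nat_lit 248916468833) (nat_lit 76) (nat_lit 7359005613) (nat_lit 76) (nat_lit 1798975965) (nat_lit 3) (nat_lit 4) (nat_lit 4) (nat_lit 5) (nat_lit 4) (nat_lit 4) (nat_lit 457) (nat_lit 317) (nat_lit 246))))) (XT.nd (nat_lit 234) (nat_lit 0) (nat_lit 0) (XT.nd (nat_lit 78) (nat_lit 0) (nat_lit 0) (XT.lf (nat_lit 0) (nat_lit 667869704) (nat_lit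 76) (nat_lit 2374303234) (nat_lit 152) (nat_lit 267680008362) (nat_lit 1) (nat_lit 5) (nat_lit 2) (nat_lit 5) (nat_lit 3) (nat_lit 4) (nat_lit 458) (nat_lit 317) (nat_lit 245)) (XT.nd (nat_lit 78) (nat_lit 0) (nat_lit 0) (XT.lf (nat_lit 0) (nat_lit 8252437466) (nat_lit 152) (nat_lit 272797748096) (nat_lit 0) (nat_lit 2941263557) (nat_lit 1) (nat_lit 5) (nat_lit 3) (nat_lit 4) (nat_lit 1) (nat_lit 4) (nat_lit 459) (nat_lit 317) (nat_lit 244)) (XT.lf (nat_lit 0) (nat_lit 13748072770) (nat_lit 152) (nat_lit 275745356802) (nat_lit 0) (nat_lit 8429508582) (nat_lit 1) (nat_lit 5) (nat_lit 3) (nat_lit 4) (nat_lit 1) (nat_lit 4) (nat_lit 460) (nat_lit 317) (nat_lit 243)))) (XT.nd (nat_lit 156) (nat_lit 0) (nat_lit 0) (XT.nd (nat_lit 78) (nat_lit 0) (nat_lit 0) (XT.lf (nat_lit 0) (nat_lit 19505094169) (nat_lit 152) (nat_lit 278867086301) (nat_lit 0) (nat_lit 14179491620) (nat_lit 1) (nat_lit 5) (nat_lit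 3) (nat_lit 4) (nat_lit 1) (nat_lit 4) (nat_lit 461) (nat_lit 317) (nat_lit 242)) (XT.lf (nat_lit 0) (nat_lit 25537208858) (nat_lit 152) (nat_lit 282170369283) (nat_lit 0) (nat_lit 20204903107) (nat_lit 1) (nat_lit 5) (nat_lit 3) (nat_lit 4) (nat_lit 1) (nat_lit 4) (nat_lit 462) (nat_lit 317) (nat_lit 241))) (XT.nd (nat_lit 78) (nat_lit 0) (nat_lit 0) (XT.lf (nat_lit 0) (nat_lit 31858779014) (nat_lit 152) (nat_lit 285663070708) (nat_lit 0) (nat_lit 26520089261) (nat_lit 1) (nat_lit 5) (nat_lit 3) (nat_lit 4) (nat_lit 1) (nat_lit 4) (nat_lit 463) (nat_lit 317) (nat_lit 240)) (XT.lf (nat_lit 0) (nat_lit 38484855994) (nat_lit 152) (nat_lit 289353506531) (nat_lit 0) (nat_lit 33140086239) (nat_lit 1) (nat_lit 5) (nat_lit 3) (nat_lit 4) (nat_lit 1) (nat_lit 4) (nat_lit 464) (nat_lit 317) (nat_lit 239))))))) (XT.nd (nat_lit 1014) (nat_lit 0) (nat_lit 0) (XT.nd (nat_lit 468) (nat_lit 0) (nat_lit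 0) (XT.nd (nat_lit 234) (nat_lit 0) (nat_lit 0) (XT.nd (nat_lit 78) (nat_lit 0) (nat_lit 0) (XT.lf (nat_lit 0) (nat_lit 45431216172) (nat_lit 152) (nat_lit 293250463505) (nat_lit 0) (nat_lit 40080655940) (nat_lit 1) (nat_lit 5) (nat_lit 3) (nat_lit 4) (nat_lit 1) (nat_lit 4) (nat_lit 465) (nat_lit 317) (nat_lit 238)) (XT.nd (nat_lit 78) (nat_lit 0) (nat_lit 0) (XT.lf (nat_lit 0) (nat_lit 52714398501) (nat_lit 152) (nat_lit 297363220097) (nat_lit 0) (nat_lit 47358323529) (nat_lit 1) (nat_lit 5) (nat_lit 3) (nat_lit 4) (nat_lit 1) (nat_lit 4) (nat_lit 466) (nat_lit 317) (nat_lit 237)) (XT.lf (nat_lit 0) (nat_lit 60351743892) (nat_lit 152) (nat_lit 301701568587) (nat_lit 0) (nat_lit 54990416786) (nat_lit 1) (nat_lit 5) (nat_lit 3) (nat_lit 4) (nat_lit 1) (nat_lit 4) (nat_lit 467) (nat_lit 317) (nat_lit 236)))) (XT.nd (nat_lit 78) (nat_lit 0) (nat_lit 0) (XT.lf (nat_lit 0) (nat_lit 68361436499)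 (nat_lit 152) (nat_lit 306275838375) (nat_lit 0) (nat_lit 62995107361) (nat_lit 1) (nat_lit 5) (nat_lit 3) (nat_lit 4) (nat_lit 1) (nat_lit 4) (nat_lit 468) (nat_lit 317) (nat_lit 235)) (XT.nd (nat_lit 78) (nat_lit 0) (nat_lit 0) (XT.lf (nat_lit 0) (nat_lit 76762547021) (nat_lit 152) (nat_lit 311096920579) (nat_lit 0) (nat_lit 71391454042) (nat_lit 1) (nat_lit 5) (nat_lit 3) (nat_lit 4) (nat_lit 1) (nat_lit 4) (nat_lit 469) (nat_lit 317) (nat_lit 234)) (XT.lf (nat_lit 0) (nat_lit 85575078100) (nat_lit 152) (nat_lit 316176293967) (nat_lit 0) (nat_lit 80199448130) (nat_lit 1) (nat_lit 5) (nat_lit 3) (nat_lit 4) (nat_lit 1) (nat_lit 4) (nat_lit 470) (nat_lit 317) (nat_lit 233))))) (XT.nd (nat_lit 234) (nat_lit 0) (nat_lit 0) (XT.nd (nat_lit 78) (nat_lit 0) (nat_lit 0) (XT.lf (nat_lit 0) (nat_lit 94820011954) (nat_lit 152) (nat_lit 321526052285) (nat_lit 0) (nat_lit 89440061041) (nat_lit 1)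 (nat_lit 5) (nat_lit 3) (nat_lit 4) (nat_lit 1) (nat_lit 4) (nat_lit 471) (nat_lit 317) (nat_lit 232)) (XT.nd (nat_lit 78) (nat_lit 0) (nat_lit 0) (XT.lf (nat_lit 0) (nat_lit 104519360329) (nat_lit 152) (nat_lit 327158933053) (nat_lit 0) (nat_lit 99135294232) (nat_lit 1) (nat_lit 5) (nat_lit 3) (nat_lit 4) (nat_lit 1) (nat_lit 4) (nat_lit 472) (nat_lit 317) (nat_lit 231)) (XT.lf (nat_lit 0) (nat_lit 114696216914) (nat_lit 152) (nat_lit 333088347892) (nat_lit 0) (nat_lit 109308231593) (nat_lit 1) (nat_lit 5) (nat_lit 3) (nat_lit 4) (nat_lit 1) (nat_lit 4) (nat_lit 473) (nat_lit 317) (nat_lit 230)))) (XT.nd (nat_lit 156) (nat_lit 0) (nat_lit 0) (XT.nd (nat_lit 78) (nat_lit 0) (nat_lit 0) (XT.lf (nat_lit 0) (nat_lit 125374812317) (nat_lit 152) (nat_lit 339328414455) (nat_lit 0) (nat_lit 119983094404) (nat_lit 1) (nat_lit 5) (nat_lit 3) (nat_lit 4) (nat_lit 1) (nat_lit 4) (nat_lit 474) (nat_lit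 317) (nat_lit 229)) (XT.lf (nat_lit 0) (nat_lit 136580571768) (nat_lit 152) (nat_lit 345893990045) (nat_lit 0) (nat_lit 131185299003) (nat_lit 1) (nat_lit 5) (nat_lit 3) (nat_lit 4) (nat_lit 1) (nat_lit 4) (nat_lit 475) (nat_lit 317) (nat_lit 228))) (XT.nd (nat_lit 78) (nat_lit 0) (nat_lit 0) (XT.lf (nat_lit 0) (nat_lit 148340175644) (nat_lit 152) (nat_lit 352800706983) (nat_lit 0) (nat_lit 142941517307) (nat_lit 1) (nat_lit 5) (nat_lit 3) (nat_lit 4) (nat_lit 1) (nat_lit 4) (nat_lit 476) (nat_lit 317) (nat_lit 227)) (XT.lf (nat_lit 0) (nat_lit 160681623004) (nat_lit 152) (nat_lit 360065009836) (nat_lit 0) (nat_lit 155279740312) (nat_lit 1) (nat_lit 5) (nat_lit 3) (nat_lit 4) (nat_lit 1) (nat_lit 4) (nat_lit 477) (nat_lit 317) (nat_lit 226)))))) (XT.nd (nat_lit 46020) (nat_lit 0) (nat_lit 1824) (XT.nd (nat_lit 45786) (nat_lit 0) (nat_lit 2508) (XT.nd (nat_lit 78) (nat_lit 0) (nat_lit 0)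 (XT.lf (nat_lit 0) (nat_lit 173634298245) (nat_lit 152) (nat_lit 367704194560) (nat_lit 0) (nat_lit 168229344740) (nat_lit 1) (nat_lit 5) (nat_lit 3) (nat_lit 4) (nat_lit 1) (nat_lit 4) (nat_lit 478) (nat_lit 317) (nat_lit 225)) (XT.nd (nat_lit 78) (nat_lit 0) (nat_lit 0) (XT.lf (nat_lit 0) (nat_lit 187229041071) (nat_lit 152) (nat_lit 375736449692) (nat_lit 0) (nat_lit 181821162981) (nat_lit 1) (nat_lit 5) (nat_lit 3) (nat_lit 4) (nat_lit 1) (nat_lit 4) (nat_lit 479) (nat_lit 317) (nat_lit 224)) (XT.lf (nat_lit 0) (nat_lit 201498219917) (nat_lit 152) (nat_lit 384180899649) (nat_lit 0) (nat_lit 196087556508) (nat_lit 1) (nat_lit 5) (nat_lit 3) (nat_lit 4) (nat_lit 1) (nat_lit 4) (nat_lit 480) (nat_lit 317) (nat_lit 223)))) (XT.nd (nat_lit 78) (nat_lit 152) (nat_lit 0) (XT.lf (nat_lit 0) (nat_lit 892212588) (nat_lit 152) (nat_lit 4682450490) (nat_lit 0) (nat_lit 892212588) (nat_lit 36) (nat_lit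 5) (nat_lit 38) (nat_lit 4) (nat_lit 36) (nat_lit 4) (nat_lit 384) (nat_lit 318) (nat_lit 318)) (XT.nd (nat_lit 78) (nat_lit 0) (nat_lit 0) (XT.lf (nat_lit 0) (nat_lit 525323038) (nat_lit 152) (nat_lit 6616642411) (nat_lit 152) (nat_lit 6149175041) (nat_lit 34) (nat_lit 4) (nat_lit 36) (nat_lit 5) (nat_lit 36) (nat_lit 4) (nat_lit 385) (nat_lit 318) (nat_lit 317)) (XT.lf (nat_lit 0) (nat_lit 10898759833) (nat_lit 152) (nat_lit 1840871713) (nat_lit 152) (nat_lit 928197325) (nat_lit 34) (nat_lit 4) (nat_lit 36) (nat_lit 5) (nat_lit 36) (nat_lit 4) (nat_lit 386) (nat_lit 318) (nat_lit 316))))) (XT.nd (nat_lit 234) (nat_lit 304) (nat_lit 0) (XT.nd (nat_lit 78) (nat_lit 228) (nat_lit 0) (XT.lf (nat_lit 0) (nat_lit 4396253972) (nat_lit 152) (nat_lit 6540947919) (nat_lit 0) (nat_lit 3123224380) (nat_lit 32) (nat_lit 5) (nat_lit 34) (nat_lit 4) (nat_lit 32) (nat_lit 4) (nat_lit 387) (nat_lit 318)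 (nat_lit 315)) (XT.nd (nat_lit 78) (nat_lit 76) (nat_lit 0) (XT.lf (nat_lit 0) (nat_lit 3692529306) (nat_lit 152) (nat_lit 6219598188) (nat_lit 152) (nat_lit 4561982034) (nat_lit 30) (nat_lit 4) (nat_lit 32) (nat_lit 5) (nat_lit 32) (nat_lit 4) (nat_lit 388) (nat_lit 318) (nat_lit 314)) (XT.lf (nat_lit 0) (nat_lit 703933888) (nat_lit 228) (nat_lit 580824597) (nat_lit 76) (nat_lit 13626427114) (nat_lit 29) (nat_lit 5) (nat_lit 32) (nat_lit 5) (nat_lit 30) (nat_lit 4) (nat_lit 389) (nat_lit 318) (nat_lit 313)))) (XT.nd (nat_lit 156) (nat_lit 152) (nat_lit 0) (XT.nd (nat_lit 78) (nat_lit 76) (nat_lit 0) (XT.lf (nat_lit 0) (nat_lit 6129364072) (nat_lit 152) (nat_lit 5364936681) (nat_lit 0) (nat_lit 3869630340) (nat_lit 28) (nat_lit 5) (nat_lit 30) (nat_lit 4) (nat_lit 28) (nat_lit 4) (nat_lit 390) (nat_lit 318) (nat_lit 312)) (XT.lf (nat_lit 0) (nat_lit 5117825358) (nat_lit 76) (nat_lit 6650275400)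 (nat_lit 76) (nat_lit 4074141352) (nat_lit 27) (nat_lit 4) (nat_lit 28) (nat_lit 5) (nat_lit 28) (nat_lit 4) (nat_lit 391) (nat_lit 318) (nat_lit 311))) (XT.nd (nat_lit 78) (nat_lit 76) (nat_lit 0) (XT.lf (nat_lit 0) (nat_lit 1225176895) (nat_lit 152) (nat_lit 365855047) (nat_lit 76) (nat_lit 14756219654) (nat_lit 26) (nat_lit 5) (nat_lit 28) (nat_lit 5) (nat_lit 27) (nat_lit 4) (nat_lit 392) (nat_lit 318) (nat_lit 310)) (XT.lf (nat_lit 0) (nat_lit 6715438318) (nat_lit 152) (nat_lit 6453940515) (nat_lit 0) (nat_lit 3701674418) (nat_lit 25) (nat_lit 5) (nat_lit 27) (nat_lit 4) (nat_lit 25) (nat_lit 4) (nat_lit 393) (nat_lit 318) (nat_lit 309))))))))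
noncomputable def xc46 : XT := (XT.nd (nat_lit 1950) (nat_lit 456) (nat_lit 0) (XT.nd (nat_lit 936) (nat_lit 532) (nat_lit 0) (XT.nd (nat_lit 468) (nat_lit 228) (nat_lit 0) (XT.nd (nat_lit 234) (nat_lit 228) (nat_lit 0) (XT.nd (nat_lit 78) (nat_lit 152) (nat_lit 0) (XT.lf (nat_lit 0) (nat_lit 4137038771) (nat_lit 76) (nat_lit 8280613085) (nat_lit 76) (nat_lit 5006545861) (nat_lit 24) (nat_lit 4) (nat_lit 25) (nat_lit 5) (nat_lit 25) (nat_lit 4) (nat_lit 394) (nat_lit 318) (nat_lit 308)) (XT.nd (nat_lit 78) (nat_lit 76) (nat_lit 0) (XT.lf (nat_lit 0) (nat_lit 339129038) (nat_lit 152) (nat_lit 2826760622) (nat_lit 76) (nat_lit 14841222187) (nat_lit 23) (nat_lit 5) (nat_lit 25) (nat_lit 5) (nat_lit 24) (nat_lit 4) (nat_lit 395) (nat_lit 318) (nat_lit 307)) (XT.lf (nat_lit 0) (nat_lit 5793606400) (nat_lit 152) (nat_lit 10606509746) (nat_lit 0) (nat_lit 2214484555) (nat_lit 22) (nat_lit 5) (nat_lit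 24) (nat_lit 4) (nat_lit 22) (nat_lit 4) (nat_lit 396) (nat_lit 318) (nat_lit 306)))) (XT.nd (nat_lit 78) (nat_lit 228) (nat_lit 0) (XT.lf (nat_lit 0) (nat_lit 11470542221) (nat_lit 152) (nat_lit 107187163) (nat_lit 0) (nat_lit 7677268188) (nat_lit 22) (nat_lit 5) (nat_lit 24) (nat_lit 4) (nat_lit 22) (nat_lit 4) (nat_lit 397) (nat_lit 318) (nat_lit 305)) (XT.nd (nat_lit 78) (nat_lit 152) (nat_lit 0) (XT.lf (nat_lit 0) (nat_lit 10995447364) (nat_lit 76) (nat_lit 6463906649) (nat_lit 76) (nat_lit 2466678151) (nat_lit 21) (nat_lit 4) (nat_lit 22) (nat_lit 5) (nat_lit 22) (nat_lit 4) (nat_lit 398) (nat_lit 318) (nat_lit 304)) (XT.lf (nat_lit 0) (nat_lit 1760126161) (nat_lit 76) (nat_lit 1143091890) (nat_lit 152) (nat_lit 17730685068) (nat_lit 19) (nat_lit 5) (nat_lit 20) (nat_lit 5) (nat_lit 21) (nat_lit 4) (nat_lit 399) (nat_lit 318) (nat_lit 303))))) (XT.nd (nat_lit 234) (nat_lit 152) (nat_lit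 0) (XT.nd (nat_lit 78) (nat_lit 76) (nat_lit 0) (XT.lf (nat_lit 0) (nat_lit 8539089879) (nat_lit 152) (nat_lit 8461024362) (nat_lit 0) (nat_lit 4371029348) (nat_lit 19) (nat_lit 5) (nat_lit 21) (nat_lit 4) (nat_lit 19) (nat_lit 4) (nat_lit 400) (nat_lit 318) (nat_lit 302)) (XT.nd (nat_lit 78) (nat_lit 0) (nat_lit 0) (XT.lf (nat_lit 0) (nat_lit 2264637793) (nat_lit 76) (nat_lit 12110285097) (nat_lit 76) (nat_lit 7774430723) (nat_lit 18) (nat_lit 4) (nat_lit 19) (nat_lit 5) (nat_lit 19) (nat_lit 4) (nat_lit 401) (nat_lit 318) (nat_lit 301)) (XT.lf (nat_lit 0) (nat_lit 13563076586) (nat_lit 76) (nat_lit 6949289894) (nat_lit 76) (nat_lit 2453631861) (nat_lit 18) (nat_lit 4) (nat_lit 19) (nat_lit 5) (nat_lit 19) (nat_lit 4) (nat_lit 402) (nat_lit 318) (nat_lit 300)))) (XT.nd (nat_lit 78) (nat_lit 0) (nat_lit 0) (XT.lf (nat_lit 0) (nat_lit 1347894827) (nat_lit 76) (nat_lit 1576859720) (nat_lit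 152) (nat_lit 20901697104) (nat_lit 16) (nat_lit 5) (nat_lit 17) (nat_lit 5) (nat_lit 18) (nat_lit 4) (nat_lit 403) (nat_lit 318) (nat_lit 299)) (XT.nd (nat_lit 78) (nat_lit 0) (nat_lit 0) (XT.lf (nat_lit 0) (nat_lit 8586170050) (nat_lit 152) (nat_lit 12115331167) (nat_lit 0) (nat_lit 4021599930) (nat_lit 16) (nat_lit 5) (nat_lit 18) (nat_lit 4) (nat_lit 16) (nat_lit 4) (nat_lit 404) (nat_lit 318) (nat_lit 298)) (XT.lf (nat_lit 0) (nat_lit 14433897815) (nat_lit 152) (nat_lit 1497678864) (nat_lit 0) (nat_lit 9737856828) (nat_lit 16) (nat_lit 5) (nat_lit 18) (nat_lit 4) (nat_lit 16) (nat_lit 4) (nat_lit 405) (nat_lit 318) (nat_lit 297)))))) (XT.nd (nat_lit 468) (nat_lit 228) (nat_lit 0) (XT.nd (nat_lit 234) (nat_lit 76) (nat_lit 0) (XT.nd (nat_lit 78) (nat_lit 152) (nat_lit 0) (XT.lf (nat_lit 0) (nat_lit 9735909308) (nat_lit 76) (nat_lit 10873337326) (nat_lit 76) (nat_lit 6052085990) (nat_lit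 15) (nat_lit 4) (nat_lit 16) (nat_lit 5) (nat_lit 16) (nat_lit 4) (nat_lit 406) (nat_lit 318) (nat_lit 296)) (XT.nd (nat_lit 78) (nat_lit 152) (nat_lit 0) (XT.lf (nat_lit 0) (nat_lit 21360270413) (nat_lit 76) (nat_lit 5643766586) (nat_lit 76) (nat_lit 703267299) (nat_lit 15) (nat_lit 4) (nat_lit 16) (nat_lit 5) (nat_lit 16) (nat_lit 4) (nat_lit 407) (nat_lit 318) (nat_lit 295)) (XT.lf (nat_lit 0) (nat_lit 4615318978) (nat_lit 76) (nat_lit 101455530) (nat_lit 152) (nat_lit 24086923591) (nat_lit 13) (nat_lit 5) (nat_lit 14) (nat_lit 5) (nat_lit 15) (nat_lit 4) (nat_lit 408) (nat_lit 318) (nat_lit 294)))) (XT.nd (nat_lit 78) (nat_lit 76) (nat_lit 0) (XT.lf (nat_lit 0) (nat_lit 10472035184) (nat_lit 152) (nat_lit 13922291670) (nat_lit 0) (nat_lit 5555625496) (nat_lit 13) (nat_lit 5) (nat_lit 15) (nat_lit 4) (nat_lit 13) (nat_lit 4) (nat_lit 409) (nat_lit 318) (nat_lit 293)) (XT.nd (nat_lit 78)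 (nat_lit 76) (nat_lit 0) (XT.lf (nat_lit 0) (nat_lit 16411317712) (nat_lit 152) (nat_lit 3350595523) (nat_lit 0) (nat_lit 11396802439) (nat_lit 13) (nat_lit 5) (nat_lit 15) (nat_lit 4) (nat_lit 13) (nat_lit 4) (nat_lit 410) (nat_lit 318) (nat_lit 292)) (XT.lf (nat_lit 0) (nat_lit 7803215661) (nat_lit 76) (nat_lit 14865793639) (nat_lit 76) (nat_lit 9757844476) (nat_lit 12) (nat_lit 4) (nat_lit 13) (nat_lit 5) (nat_lit 13) (nat_lit 4) (nat_lit 411) (nat_lit 318) (nat_lit 291))))) (XT.nd (nat_lit 234) (nat_lit 76) (nat_lit 0) (XT.nd (nat_lit 78) (nat_lit 152) (nat_lit 0) (XT.lf (nat_lit 0) (nat_lit 19437985977) (nat_lit 76) (nat_lit 9759724409) (nat_lit 76) (nat_lit 4562790589) (nat_lit 12) (nat_lit 4) (nat_lit 13) (nat_lit 5) (nat_lit 13) (nat_lit 4) (nat_lit 412) (nat_lit 318) (nat_lit 290)) (XT.nd (nat_lit 78) (nat_lit 76) (nat_lit 0) (XT.lf (nat_lit 0) (nat_lit 767995517) (nat_lit 152)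 (nat_lit 3707290301) (nat_lit 76) (nat_lit 30689629542) (nat_lit 11) (nat_lit 5) (nat_lit 13) (nat_lit 5) (nat_lit 12) (nat_lit 4) (nat_lit 413) (nat_lit 318) (nat_lit 289)) (XT.lf (nat_lit 0) (nat_lit 6255479857) (nat_lit 152) (nat_lit 29229723898) (nat_lit 0) (nat_lit 1148439076) (nat_lit 10) (nat_lit 5) (nat_lit 12) (nat_lit 4) (nat_lit 10) (nat_lit 4) (nat_lit 414) (nat_lit 318) (nat_lit 288)))) (XT.nd (nat_lit 156) (nat_lit 76) (nat_lit 0) (XT.nd (nat_lit 78) (nat_lit 0) (nat_lit 0) (XT.lf (nat_lit 0) (nat_lit 12063845763) (nat_lit 152) (nat_lit 19226045402) (nat_lit 0) (nat_lit 6883597084) (nat_lit 10) (nat_lit 5) (nat_lit 12) (nat_lit 4) (nat_lit 10) (nat_lit 4) (nat_lit 415) (nat_lit 318) (nat_lit 287)) (XT.lf (nat_lit 0) (nat_lit 18076275673) (nat_lit 152) (nat_lit 8892069403) (nat_lit 0) (nat_lit 12826305186) (nat_lit 10) (nat_lit 5) (nat_lit 12) (nat_lit 4) (nat_lit 10) (nat_lit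 4) (nat_lit 416) (nat_lit 318) (nat_lit 286))) (XT.nd (nat_lit 78) (nat_lit 0) (nat_lit 0) (XT.lf (nat_lit 0) (nat_lit 1856219416) (nat_lit 76) (nat_lit 22479846267) (nat_lit 76) (nat_lit 17163474059) (nat_lit 9) (nat_lit 4) (nat_lit 10) (nat_lit 5) (nat_lit 10) (nat_lit 4) (nat_lit 417) (nat_lit 318) (nat_lit 285)) (XT.lf (nat_lit 0) (nat_lit 13291448278) (nat_lit 76) (nat_lit 17687177171) (nat_lit 76) (nat_lit 12307565228) (nat_lit 9) (nat_lit 4) (nat_lit 10) (nat_lit 5) (nat_lit 10) (nat_lit 4) (nat_lit 418) (nat_lit 318) (nat_lit 284))))))) (XT.nd (nat_lit 1014) (nat_lit 228) (nat_lit 0) (XT.nd (nat_lit 468) (nat_lit 76) (nat_lit 0) (XT.nd (nat_lit 234) (nat_lit 0) (nat_lit 0) (XT.nd (nat_lit 78) (nat_lit 152) (nat_lit 0) (XT.lf (nat_lit 0) (nat_lit 25146831945) (nat_lit 76) (nat_lit 12729518171) (nat_lit 76) (nat_lit 7289677909) (nat_lit 9) (nat_lit 4) (nat_lit 10) (nat_lit 5) (nat_lit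 10) (nat_lit 4) (nat_lit 419) (nat_lit 318) (nat_lit 283)) (XT.nd (nat_lit 78) (nat_lit 152) (nat_lit 0) (XT.lf (nat_lit 0) (nat_lit 37450597521) (nat_lit 76) (nat_lit 7595065316) (nat_lit 76) (nat_lit 2097864751) (nat_lit 9) (nat_lit 4) (nat_lit 10) (nat_lit 5) (nat_lit 10) (nat_lit 4) (nat_lit 420) (nat_lit 318) (nat_lit 282)) (XT.lf (nat_lit 0) (nat_lit 989085219) (nat_lit 76) (nat_lit 2201604851) (nat_lit 152) (nat_lit 46029374823) (nat_lit 7) (nat_lit 5) (nat_lit 8) (nat_lit 5) (nat_lit 9) (nat_lit 4) (nat_lit 421) (nat_lit 318) (nat_lit 281)))) (XT.nd (nat_lit 78) (nat_lit 0) (nat_lit 0) (XT.lf (nat_lit 0) (nat_lit 8823273793) (nat_lit 152) (nat_lit 39081668040) (nat_lit 0) (nat_lit 3486267210) (nat_lit 7) (nat_lit 5) (nat_lit 9) (nat_lit 4) (nat_lit 7) (nat_lit 4) (nat_lit 422) (nat_lit 318) (nat_lit 280)) (XT.nd (nat_lit 78) (nat_lit 0) (nat_lit 0) (XT.lf (nat_lit 0) (nat_lit 14706162860)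 (nat_lit 152) (nat_lit 29644352392) (nat_lit 0) (nat_lit 9321965813) (nat_lit 7) (nat_lit 5) (nat_lit 9) (nat_lit 4) (nat_lit 7) (nat_lit 4) (nat_lit 423) (nat_lit 318) (nat_lit 279)) (XT.lf (nat_lit 0) (nat_lit 20818990930) (nat_lit 152) (nat_lit 19862189709) (nat_lit 0) (nat_lit 15389850584) (nat_lit 7) (nat_lit 5) (nat_lit 9) (nat_lit 4) (nat_lit 7) (nat_lit 4) (nat_lit 424) (nat_lit 318) (nat_lit 278))))) (XT.nd (nat_lit 234) (nat_lit 0) (nat_lit 0) (XT.nd (nat_lit 78) (nat_lit 76) (nat_lit 0) (XT.lf (nat_lit 0) (nat_lit 27176312354) (nat_lit 152) (nat_lit 9711889128) (nat_lit 0) (nat_lit 21704368867) (nat_lit 7) (nat_lit 5) (nat_lit 9) (nat_lit 4) (nat_lit 7) (nat_lit 4) (nat_lit 425) (nat_lit 318) (nat_lit 277)) (XT.nd (nat_lit 78) (nat_lit 0) (nat_lit 0) (XT.lf (nat_lit 0) (nat_lit 858183980) (nat_lit 76) (nat_lit 32948478290) (nat_lit 76) (nat_lit 27435769906) (nat_lit 6) (nat_lit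 4) (nat_lit 7) (nat_lit 5) (nat_lit 7) (nat_lit 4) (nat_lit 426) (nat_lit 318) (nat_lit 276)) (XT.lf (nat_lit 0) (nat_lit 12180584079) (nat_lit 76) (nat_lit 28695188327) (nat_lit 76) (nat_lit 23143656232) (nat_lit 6) (nat_lit 4) (nat_lit 7) (nat_lit 5) (nat_lit 7) (nat_lit 4) (nat_lit 427) (nat_lit 318) (nat_lit 275)))) (XT.nd (nat_lit 156) (nat_lit 0) (nat_lit 0) (XT.nd (nat_lit 78) (nat_lit 0) (nat_lit 0) (XT.lf (nat_lit 0) (nat_lit 23961150347) (nat_lit 76) (nat_lit 24282680256) (nat_lit 76) (nat_lit 18694173198) (nat_lit 6) (nat_lit 4) (nat_lit 7) (nat_lit 5) (nat_lit 7) (nat_lit 4) (nat_lit 428) (nat_lit 318) (nat_lit 274)) (XT.lf (nat_lit 0) (nat_lit 36227931753) (nat_lit 76) (nat_lit 19700448105) (nat_lit 76) (nat_lit 14076726796) (nat_lit 6) (nat_lit 4) (nat_lit 7) (nat_lit 5) (nat_lit 7) (nat_lit 4) (nat_lit 429) (nat_lit 318) (nat_lit 273))) (XT.nd (nat_lit 78) (nat_lit 0) (nat_lit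 0) (XT.lf (nat_lit 0) (nat_lit 49010134919) (nat_lit 76) (nat_lit 14937581797) (nat_lit 76) (nat_lit 9280323107) (nat_lit 6) (nat_lit 4) (nat_lit 7) (nat_lit 5) (nat_lit 7) (nat_lit 4) (nat_lit 430) (nat_lit 318) (nat_lit 272)) (XT.lf (nat_lit 0) (nat_lit 62338193661) (nat_lit 76) (nat_lit 9982741174) (nat_lit 76) (nat_lit 4293542121) (nat_lit 6) (nat_lit 4) (nat_lit 7) (nat_lit 5) (nat_lit 7) (nat_lit 4) (nat_lit 431) (nat_lit 318) (nat_lit 271)))))) (XT.nd (nat_lit 468) (nat_lit 76) (nat_lit 0) (XT.nd (nat_lit 234) (nat_lit 0) (nat_lit 0) (XT.nd (nat_lit 78) (nat_lit 76) (nat_lit 0) (XT.lf (nat_lit 0) (nat_lit 866828194) (nat_lit 152) (nat_lit 3942620648) (nat_lit 76) (nat_lit 75362333104) (nat_lit 5) (nat_lit 5) (nat_lit 7) (nat_lit 5) (nat_lit 6) (nat_lit 4) (nat_lit 432) (nat_lit 318) (nat_lit 270)) (XT.nd (nat_lit 78) (nat_lit 0) (nat_lit 0) (XT.lf (nat_lit 0) (nat_lit 6218400051)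 (nat_lit 152) (nat_lit 76937608644) (nat_lit 0) (nat_lit 743553100) (nat_lit 4) (nat_lit 5) (nat_lit 6) (nat_lit 4) (nat_lit 4) (nat_lit 4) (nat_lit 433) (nat_lit 318) (nat_lit 269)) (XT.lf (nat_lit 0) (nat_lit 11940938423) (nat_lit 152) (nat_lit 69427811252) (nat_lit 0) (nat_lit 6439814056) (nat_lit 4) (nat_lit 5) (nat_lit 6) (nat_lit 4) (nat_lit 4) (nat_lit 4) (nat_lit 434) (nat_lit 318) (nat_lit 268)))) (XT.nd (nat_lit 78) (nat_lit 0) (nat_lit 0) (XT.lf (nat_lit 0) (nat_lit 17908346302) (nat_lit 152) (nat_lit 61624538882) (nat_lit 0) (nat_lit 12382195825) (nat_lit 4) (nat_lit 5) (nat_lit 6) (nat_lit 4) (nat_lit 4) (nat_lit 4) (nat_lit 435) (nat_lit 318) (nat_lit 267)) (XT.nd (nat_lit 78) (nat_lit 0) (nat_lit 0) (XT.lf (nat_lit 0) (nat_lit 24134831801) (nat_lit 152) (nat_lit 53509212314) (nat_lit 0) (nat_lit 18584846933) (nat_lit 4) (nat_lit 5) (nat_lit 6) (nat_lit 4) (nat_lit 4) (nat_lit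 4) (nat_lit 436) (nat_lit 318) (nat_lit 266)) (XT.lf (nat_lit 0) (nat_lit 30635219886) (nat_lit 152) (nat_lit 45062509341) (nat_lit 0) (nat_lit 25062535598) (nat_lit 4) (nat_lit 5) (nat_lit 6) (nat_lit 4) (nat_lit 4) (nat_lit 4) (nat_lit 437) (nat_lit 318) (nat_lit 265))))) (XT.nd (nat_lit 234) (nat_lit 76) (nat_lit 0) (XT.nd (nat_lit 78) (nat_lit 0) (nat_lit 0) (XT.lf (nat_lit 0) (nat_lit 37424987672) (nat_lit 152) (nat_lit 36264318766) (nat_lit 0) (nat_lit 31830684889) (nat_lit 4) (nat_lit 5) (nat_lit 6) (nat_lit 4) (nat_lit 4) (nat_lit 4) (nat_lit 438) (nat_lit 318) (nat_lit 264)) (XT.nd (nat_lit 78) (nat_lit 0) (nat_lit 0) (XT.lf (nat_lit 0) (nat_lit 44520301272) (nat_lit 152) (nat_lit 27093692516) (nat_lit 0) (nat_lit 38905409445) (nat_lit 4) (nat_lit 5) (nat_lit 6) (nat_lit 4) (nat_lit 4) (nat_lit 4) (nat_lit 439) (nat_lit 318) (nat_lit 263)) (XT.lf (nat_lit 0) (nat_lit 51938054290)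 (nat_lit 152) (nat_lit 17528795768) (nat_lit 0) (nat_lit 46303553851) (nat_lit 4) (nat_lit 5) (nat_lit 6) (nat_lit 4) (nat_lit 4) (nat_lit 4) (nat_lit 440) (nat_lit 318) (nat_lit 262)))) (XT.nd (nat_lit 156) (nat_lit 0) (nat_lit 0) (XT.nd (nat_lit 78) (nat_lit 76) (nat_lit 0) (XT.lf (nat_lit 0) (nat_lit 59695908042) (nat_lit 152) (nat_lit 7546854956) (nat_lit 0) (nat_lit 54042732735) (nat_lit 4) (nat_lit 5) (nat_lit 6) (nat_lit 4) (nat_lit 4) (nat_lit 4) (nat_lit 441) (nat_lit 318) (nat_lit 261)) (XT.lf (nat_lit 0) (nat_lit 2970986567) (nat_lit 76) (nat_lit 64887732468) (nat_lit 76) (nat_lit 59216771571) (nat_lit 3) (nat_lit 4) (nat_lit 4) (nat_lit 5) (nat_lit 4) (nat_lit 4) (nat_lit 442) (nat_lit 318) (nat_lit 260))) (XT.nd (nat_lit 78) (nat_lit 0) (nat_lit 0) (XT.lf (nat_lit 0) (nat_lit 14219383583) (nat_lit 76) (nat_lit 62309276659) (nat_lit 76) (nat_lit 56621377106) (nat_lit 3) (nat_lit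 4) (nat_lit 4) (nat_lit 5) (nat_lit 4) (nat_lit 4) (nat_lit 443) (nat_lit 318) (nat_lit 259)) (XT.lf (nat_lit 0) (nat_lit 25975584880) (nat_lit 76) (nat_lit 59629066032) (nat_lit 76) (nat_lit 53925034424) (nat_lit 3) (nat_lit 4) (nat_lit 4) (nat_lit 5) (nat_lit 4) (nat_lit 4) (nat_lit 444) (nat_lit 318) (nat_lit 258))))))))
noncomputable def xc47 : XT := (XT.nd (nat_lit 2028) (nat_lit 0) (nat_lit 0) (XT.nd (nat_lit 1014) (nat_lit 152) (nat_lit 0) (XT.nd (nat_lit 468) (nat_lit 0) (nat_lit 0) (XT.nd (nat_lit 234) (nat_lit 0) (nat_lit 0) (XT.nd (nat_lit 78) (nat_lit 0) (nat_lit 0) (XT.lf (nat_lit 0) (nat_lit 38267581414) (nat_lit 76) (nat_lit 56840719131) (nat_lit 76) (nat_lit 51121323663) (nat_lit 3) (nat_lit 4) (nat_lit 4) (nat_lit 5) (nat_lit 4) (nat_lit 4) (nat_lit 445) (nat_lit 318) (nat_lit 257)) (XT.nd (nat_lit 78) (nat_lit 0) (nat_lit 0) (XT.lf (nat_lit 0) (nat_lit 51124639843) (nat_lit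 76) (nat_lit 53937597037) (nat_lit 76) (nat_lit 48203569320) (nat_lit 3) (nat_lit 4) (nat_lit 4) (nat_lit 5) (nat_lit 4) (nat_lit 4) (nat_lit 446) (nat_lit 318) (nat_lit 256)) (XT.lf (nat_lit 0) (nat_lit 64577372211) (nat_lit 76) (nat_lit 50912787553) (nat_lit 76) (nat_lit 45164824362) (nat_lit 3) (nat_lit 4) (nat_lit 4) (nat_lit 5) (nat_lit 4) (nat_lit 4) (nat_lit 447) (nat_lit 318) (nat_lit 255)))) (XT.nd (nat_lit 78) (nat_lit 0) (nat_lit 0) (XT.lf (nat_lit 0) (nat_lit 78657808833) (nat_lit 76) (nat_lit 47759088753) (nat_lit 76) (nat_lit 41997853681) (nat_lit 3) (nat_lit 4) (nat_lit 4) (nat_lit 5) (nat_lit 4) (nat_lit 4) (nat_lit 448) (nat_lit 318) (nat_lit 254)) (XT.nd (nat_lit 78) (nat_lit 0) (nat_lit 0) (XT.lf (nat_lit 0) (nat_lit 93399474558) (nat_lit 76) (nat_lit 44468991830) (nat_lit 76) (nat_lit 38695116871) (nat_lit 3) (nat_lit 4) (nat_lit 4) (nat_lit 5) (nat_lit 4) (nat_lit 4)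 (nat_lit 449) (nat_lit 318) (nat_lit 253)) (XT.lf (nat_lit 0) (nat_lit 108837468591) (nat_lit 76) (nat_lit 41034663219) (nat_lit 76) (nat_lit 35248750273) (nat_lit 3) (nat_lit 4) (nat_lit 4) (nat_lit 5) (nat_lit 4) (nat_lit 4) (nat_lit 450) (nat_lit 318) (nat_lit 252))))) (XT.nd (nat_lit 234) (nat_lit 0) (nat_lit 0) (XT.nd (nat_lit 78) (nat_lit 0) (nat_lit 0) (XT.lf (nat_lit 0) (nat_lit 125008548060) (nat_lit 76) (nat_lit 37447925947) (nat_lit 76) (nat_lit 31650548252) (nat_lit 3) (nat_lit 4) (nat_lit 4) (nat_lit 5) (nat_lit 4) (nat_lit 4) (nat_lit 451) (nat_lit 318) (nat_lit 251)) (XT.nd (nat_lit 78) (nat_lit 0) (nat_lit 0) (XT.lf (nat_lit 0) (nat_lit 141951215536) (nat_lit 76) (nat_lit 33700240165) (nat_lit 76) (nat_lit 27891943660) (nat_lit 3) (nat_lit 4) (nat_lit 4) (nat_lit 5) (nat_lit 4) (nat_lit 4) (nat_lit 452) (nat_lit 318) (nat_lit 250)) (XT.lf (nat_lit 0) (nat_lit 159705810702)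 (nat_lit 76) (nat_lit 29782682810) (nat_lit 76) (nat_lit 23963987440) (nat_lit 3) (nat_lit 4) (nat_lit 4) (nat_lit 5) (nat_lit 4) (nat_lit 4) (nat_lit 453) (nat_lit 318) (nat_lit 249)))) (XT.nd (nat_lit 156) (nat_lit 0) (nat_lit 0) (XT.nd (nat_lit 78) (nat_lit 0) (nat_lit 0) (XT.lf (nat_lit 0) (nat_lit 178314606404) (nat_lit 76) (nat_lit 25685926366) (nat_lit 76) (nat_lit 19857327314) (nat_lit 3) (nat_lit 4) (nat_lit 4) (nat_lit 5) (nat_lit 4) (nat_lit 4) (nat_lit 454) (nat_lit 318) (nat_lit 248)) (XT.lf (nat_lit 0) (nat_lit 197821909300) (nat_lit 76) (nat_lit 21400216649) (nat_lit 76) (nat_lit 15562185519) (nat_lit 3) (nat_lit 4) (nat_lit 4) (nat_lit 5) (nat_lit 4) (nat_lit 4) (nat_lit 455) (nat_lit 318) (nat_lit 247))) (XT.nd (nat_lit 78) (nat_lit 0) (nat_lit 0) (XT.lf (nat_lit 0) (nat_lit 218274165347) (nat_lit 76) (nat_lit 16915349590) (nat_lit 76) (nat_lit 11068335529) (nat_lit 3) (nat_lit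 4) (nat_lit 4) (nat_lit 5) (nat_lit 4) (nat_lit 4) (nat_lit 456) (nat_lit 318) (nat_lit 246)) (XT.lf (nat_lit 0) (nat_lit 239720070394) (nat_lit 76) (nat_lit 12220646934) (nat_lit 76) (nat_lit 6365077700) (nat_lit 3) (nat_lit 4) (nat_lit 4) (nat_lit 5) (nat_lit 4) (nat_lit 4) (nat_lit 457) (nat_lit 318) (nat_lit 245)))))) (XT.nd (nat_lit 468) (nat_lit 0) (nat_lit 0) (XT.nd (nat_lit 234) (nat_lit 0) (nat_lit 0) (XT.nd (nat_lit 78) (nat_lit 152) (nat_lit 0) (XT.lf (nat_lit 0) (nat_lit 262210686120) (nat_lit 76) (nat_lit 7304930816) (nat_lit 76) (nat_lit 1441213799) (nat_lit 3) (nat_lit 4) (nat_lit 4) (nat_lit 5) (nat_lit 4) (nat_lit 4) (nat_lit 458) (nat_lit 318) (nat_lit 244)) (XT.nd (nat_lit 78) (nat_lit 0) (nat_lit 0) (XT.lf (nat_lit 0) (nat_lit 1550093950) (nat_lit 76) (nat_lit 2070184469) (nat_lit 152) (nat_lit 280616690554) (nat_lit 1) (nat_lit 5) (nat_lit 2) (nat_lit 5) (nat_lit 3)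 (nat_lit 4) (nat_lit 459) (nat_lit 318) (nat_lit 243)) (XT.lf (nat_lit 0) (nat_lit 9077057870) (nat_lit 152) (nat_lit 285615206425) (nat_lit 0) (nat_lit 3478136831) (nat_lit 1) (nat_lit 5) (nat_lit 3) (nat_lit 4) (nat_lit 1) (nat_lit 4) (nat_lit 460) (nat_lit 318) (nat_lit 242)))) (XT.nd (nat_lit 78) (nat_lit 0) (nat_lit 0) (XT.lf (nat_lit 0) (nat_lit 14827855961) (nat_lit 152) (nat_lit 288749358855) (nat_lit 0) (nat_lit 9222231721) (nat_lit 1) (nat_lit 5) (nat_lit 3) (nat_lit 4) (nat_lit 1) (nat_lit 4) (nat_lit 461) (nat_lit 318) (nat_lit 241)) (XT.nd (nat_lit 78) (nat_lit 0) (nat_lit 0) (XT.lf (nat_lit 0) (nat_lit 20854043690) (nat_lit 152) (nat_lit 292064473200) (nat_lit 0) (nat_lit 15242035448) (nat_lit 1) (nat_lit 5) (nat_lit 3) (nat_lit 4) (nat_lit 1) (nat_lit 4) (nat_lit 462) (nat_lit 318) (nat_lit 240)) (XT.lf (nat_lit 0) (nat_lit 27169969122) (nat_lit 152) (nat_lit 295568442589)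 (nat_lit 0) (nat_lit 21551880879) (nat_lit 1) (nat_lit 5) (nat_lit 3) (nat_lit 4) (nat_lit 1) (nat_lit 4) (nat_lit 463) (nat_lit 318) (nat_lit 239))))) (XT.nd (nat_lit 234) (nat_lit 0) (nat_lit 0) (XT.nd (nat_lit 78) (nat_lit 0) (nat_lit 0) (XT.lf (nat_lit 0) (nat_lit 33790670175) (nat_lit 152) (nat_lit 299269609807) (nat_lit 0) (nat_lit 28166791454) (nat_lit 1) (nat_lit 5) (nat_lit 3) (nat_lit 4) (nat_lit 1) (nat_lit 4) (nat_lit 464) (nat_lit 318) (nat_lit 238)) (XT.nd (nat_lit 78) (nat_lit 0) (nat_lit 0) (XT.lf (nat_lit 0) (nat_lit 40731910423) (nat_lit 152) (nat_lit 303176787156) (nat_lit 0) (nat_lit 35102516961) (nat_lit 1) (nat_lit 5) (nat_lit 3) (nat_lit 4) (nat_lit 1) (nat_lit 4) (nat_lit 465) (nat_lit 318) (nat_lit 237)) (XT.lf (nat_lit 0) (nat_lit 48010216627) (nat_lit 152) (nat_lit 307299277440) (nat_lit 0) (nat_lit 42375571032) (nat_lit 1) (nat_lit 5) (nat_lit 3) (nat_lit 4) (nat_lit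 1) (nat_lit 4) (nat_lit 466) (nat_lit 318) (nat_lit 236)))) (XT.nd (nat_lit 156) (nat_lit 0) (nat_lit 0) (XT.nd (nat_lit 78) (nat_lit 0) (nat_lit 0) (XT.lf (nat_lit 0) (nat_lit 55642918090) (nat_lit 152) (nat_lit 311646896112) (nat_lit 0) (nat_lit 50003270462) (nat_lit 1) (nat_lit 5) (nat_lit 3) (nat_lit 4) (nat_lit 1) (nat_lit 4) (nat_lit 467) (nat_lit 318) (nat_lit 235)) (XT.lf (nat_lit 0) (nat_lit 63648187909) (nat_lit 152) (nat_lit 316229994645) (nat_lit 0) (nat_lit 58003776441) (nat_lit 1) (nat_lit 5) (nat_lit 3) (nat_lit 4) (nat_lit 1) (nat_lit 4) (nat_lit 468) (nat_lit 318) (nat_lit 234))) (XT.nd (nat_lit 78) (nat_lit 0) (nat_lit 0) (XT.lf (nat_lit 0) (nat_lit 72045086251) (nat_lit 152) (nat_lit 321059485178) (nat_lit 0) (nat_lit 66396137792) (nat_lit 1) (nat_lit 5) (nat_lit 3) (nat_lit 4) (nat_lit 1) (nat_lit 4) (nat_lit 469) (nat_lit 318) (nat_lit 233)) (XT.lf (nat_lit 0) (nat_lit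 80853605730) (nat_lit 152) (nat_lit 326146866498) (nat_lit 0) (nat_lit 75200336328) (nat_lit 1) (nat_lit 5) (nat_lit 3) (nat_lit 4) (nat_lit 1) (nat_lit 4) (nat_lit 470) (nat_lit 318) (nat_lit 232))))))) (XT.nd (nat_lit 46410) (nat_lit 0) (nat_lit 1596) (XT.nd (nat_lit 468) (nat_lit 0) (nat_lit 0) (XT.nd (nat_lit 234) (nat_lit 0) (nat_lit 0) (XT.nd (nat_lit 78) (nat_lit 0) (nat_lit 0) (XT.lf (nat_lit 0) (nat_lit 90094719013) (nat_lit 152) (nat_lit 331504251418) (nat_lit 0) (nat_lit 84437334426) (nat_lit 1) (nat_lit 5) (nat_lit 3) (nat_lit 4) (nat_lit 1) (nat_lit 4) (nat_lit 471) (nat_lit 318) (nat_lit 231)) (XT.nd (nat_lit 78) (nat_lit 0) (nat_lit 0) (XT.lf (nat_lit 0) (nat_lit 99790428749) (nat_lit 152) (nat_lit 337144395616) (nat_lit 0) (nat_lit 94129124940) (nat_lit 1) (nat_lit 5) (nat_lit 3) (nat_lit 4) (nat_lit 1) (nat_lit 4) (nat_lit 472) (nat_lit 318) (nat_lit 230)) (XT.lf (nat_lit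 0) (nat_lit 109963819963) (nat_lit 152) (nat_lit 343080728007) (nat_lit 0) (nat_lit 104298783560) (nat_lit 1) (nat_lit 5) (nat_lit 3) (nat_lit 4) (nat_lit 1) (nat_lit 4) (nat_lit 473) (nat_lit 318) (nat_lit 229)))) (XT.nd (nat_lit 78) (nat_lit 0) (nat_lit 0) (XT.lf (nat_lit 0) (nat_lit 120639115014) (nat_lit 152) (nat_lit 349327382716) (nat_lit 0) (nat_lit 114970523760) (nat_lit 1) (nat_lit 5) (nat_lit 3) (nat_lit 4) (nat_lit 1) (nat_lit 4) (nat_lit 474) (nat_lit 318) (nat_lit 228)) (XT.nd (nat_lit 78) (nat_lit 0) (nat_lit 0) (XT.lf (nat_lit 0) (nat_lit 131841731271) (nat_lit 152) (nat_lit 355899232730) (nat_lit 0) (nat_lit 126169754445) (nat_lit 1) (nat_lit 5) (nat_lit 3) (nat_lit 4) (nat_lit 1) (nat_lit 4) (nat_lit 475) (nat_lit 318) (nat_lit 227)) (XT.lf (nat_lit 0) (nat_lit 143598341630) (nat_lit 152) (nat_lit 362811925311) (nat_lit 0) (nat_lit 137923140449) (nat_lit 1) (nat_lit 5) (nat_lit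 3) (nat_lit 4) (nat_lit 1) (nat_lit 4) (nat_lit 476) (nat_lit 318) (nat_lit 226))))) (XT.nd (nat_lit 234) (nat_lit 0) (nat_lit 0) (XT.nd (nat_lit 78) (nat_lit 0) (nat_lit 0) (XT.lf (nat_lit 0) (nat_lit 155936938021) (nat_lit 152) (nat_lit 370081919251) (nat_lit 0) (nat_lit 150258666026) (nat_lit 1) (nat_lit 5) (nat_lit 3) (nat_lit 4) (nat_lit 1) (nat_lit 4) (nat_lit 477) (nat_lit 318) (nat_lit 225)) (XT.nd (nat_lit 78) (nat_lit 0) (nat_lit 0) (XT.lf (nat_lit 0) (nat_lit 168886898053) (nat_lit 152) (nat_lit 377726524059) (nat_lit 0) (nat_lit 163205701474) (nat_lit 1) (nat_lit 5) (nat_lit 3) (nat_lit 4) (nat_lit 1) (nat_lit 4) (nat_lit 478) (nat_lit 318) (nat_lit 224)) (XT.lf (nat_lit 0) (nat_lit 182479054966) (nat_lit 152) (nat_lit 385763941175) (nat_lit 0) (nat_lit 176795073068) (nat_lit 1) (nat_lit 5) (nat_lit 3) (nat_lit 4) (nat_lit 1) (nat_lit 4) (nat_lit 479) (nat_lit 318) (nat_lit 223))))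 (XT.nd (nat_lit 45552) (nat_lit 0) (nat_lit 2660) (XT.nd (nat_lit 45474) (nat_lit 0) (nat_lit 2964) (XT.lf (nat_lit 0) (nat_lit 196745771038) (nat_lit 152) (nat_lit 394213307308) (nat_lit 0) (nat_lit 191059136455) (nat_lit 1) (nat_lit 5) (nat_lit 3) (nat_lit 4) (nat_lit 1) (nat_lit 4) (nat_lit 480) (nat_lit 318) (nat_lit 222)) (XT.lf (nat_lit 0) (nat_lit 2168229977) (nat_lit 152) (nat_lit 1794749466) (nat_lit 0) (nat_lit 2168229977) (nat_lit 40) (nat_lit 5) (nat_lit 42) (nat_lit 4) (nat_lit 40) (nat_lit 4) (nat_lit 382) (nat_lit 319) (nat_lit 319))) (XT.nd (nat_lit 78) (nat_lit 152) (nat_lit 0) (XT.lf (nat_lit 0) (nat_lit 6204850583) (nat_lit 152) (nat_lit 3451199112) (nat_lit 152) (nat_lit 2935816337) (nat_lit 38) (nat_lit 4) (nat_lit 40) (nat_lit 5) (nat_lit 40) (nat_lit 4) (nat_lit 383) (nat_lit 319) (nat_lit 318)) (XT.lf (nat_lit 0) (nat_lit 2182508528) (nat_lit 152) (nat_lit 9531701876)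 (nat_lit 0) (nat_lit 1224200421) (nat_lit 36) (nat_lit 5) (nat_lit 38) (nat_lit 4) (nat_lit 36) (nat_lit 4) (nat_lit 384) (nat_lit 319) (nat_lit 317)))))) (XT.nd (nat_lit 468) (nat_lit 456) (nat_lit 0) (XT.nd (nat_lit 234) (nat_lit 304) (nat_lit 0) (XT.nd (nat_lit 78) (nat_lit 152) (nat_lit 0) (XT.lf (nat_lit 0) (nat_lit 188896396) (nat_lit 152) (nat_lit 7257559473) (nat_lit 152) (nat_lit 5854044347) (nat_lit 34) (nat_lit 4) (nat_lit 36) (nat_lit 5) (nat_lit 36) (nat_lit 4) (nat_lit 385) (nat_lit 319) (nat_lit 316)) (XT.nd (nat_lit 78) (nat_lit 152) (nat_lit 0) (XT.lf (nat_lit 0) (nat_lit 10406037421) (nat_lit 152) (nat_lit 2551510645) (nat_lit 152) (nat_lit 723988835) (nat_lit 34) (nat_lit 4) (nat_lit 36) (nat_lit 5) (nat_lit 36) (nat_lit 4) (nat_lit 386) (nat_lit 319) (nat_lit 315)) (XT.lf (nat_lit 0) (nat_lit 4487163417) (nat_lit 152) (nat_lit 7230087519) (nat_lit 0) (nat_lit 2362079894)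 (nat_lit 32) (nat_lit 5) (nat_lit 34) (nat_lit 4) (nat_lit 32) (nat_lit 4) (nat_lit 387) (nat_lit 319) (nat_lit 314)))) (XT.nd (nat_lit 78) (nat_lit 152) (nat_lit 0) (XT.lf (nat_lit 0) (nat_lit 2823293945) (nat_lit 152) (nat_lit 7082966180) (nat_lit 152) (nat_lit 4591609741) (nat_lit 30) (nat_lit 4) (nat_lit 32) (nat_lit 5) (nat_lit 32) (nat_lit 4) (nat_lit 388) (nat_lit 319) (nat_lit 313)) (XT.nd (nat_lit 78) (nat_lit 76) (nat_lit 0) (XT.lf (nat_lit 0) (nat_lit 592318885) (nat_lit 228) (nat_lit 1625934071) (nat_lit 76) (nat_lit 12720878254) (nat_lit 29) (nat_lit 5) (nat_lit 32) (nat_lit 5) (nat_lit 30) (nat_lit 4) (nat_lit 389) (nat_lit 319) (nat_lit 312)) (XT.lf (nat_lit 0) (nat_lit 5903637751) (nat_lit 152) (nat_lit 6611662467) (nat_lit 0) (nat_lit 2882296685) (nat_lit 28) (nat_lit 5) (nat_lit 30) (nat_lit 4) (nat_lit 28) (nat_lit 4) (nat_lit 390) (nat_lit 319) (nat_lit 311))))) (XT.nd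 (nat_lit 234) (nat_lit 228) (nat_lit 0) (XT.nd (nat_lit 78) (nat_lit 152) (nat_lit 0) (XT.lf (nat_lit 0) (nat_lit 3679224273) (nat_lit 76) (nat_lit 7762209655) (nat_lit 76) (nat_lit 4439534955) (nat_lit 27) (nat_lit 4) (nat_lit 28) (nat_lit 5) (nat_lit 28) (nat_lit 4) (nat_lit 391) (nat_lit 319) (nat_lit 310)) (XT.nd (nat_lit 78) (nat_lit 76) (nat_lit 0) (XT.lf (nat_lit 0) (nat_lit 793220422) (nat_lit 152) (nat_lit 1983557247) (nat_lit 76) (nat_lit 13613411466) (nat_lit 26) (nat_lit 5) (nat_lit 28) (nat_lit 5) (nat_lit 27) (nat_lit 4) (nat_lit 392) (nat_lit 319) (nat_lit 309)) (XT.lf (nat_lit 0) (nat_lit 6160628971) (nat_lit 152) (nat_lit 8296961439) (nat_lit 0) (nat_lit 2462555063) (nat_lit 25) (nat_lit 5) (nat_lit 27) (nat_lit 4) (nat_lit 25) (nat_lit 4) (nat_lit 393) (nat_lit 319) (nat_lit 308)))) (XT.nd (nat_lit 156) (nat_lit 152) (nat_lit 0) (XT.nd (nat_lit 78) (nat_lit 0) (nat_lit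 0) (XT.lf (nat_lit 0) (nat_lit 2088914020) (nat_lit 76) (nat_lit 9667836899) (nat_lit 76) (nat_lit 5721855065) (nat_lit 24) (nat_lit 4) (nat_lit 25) (nat_lit 5) (nat_lit 25) (nat_lit 4) (nat_lit 394) (nat_lit 319) (nat_lit 307)) (XT.lf (nat_lit 0) (nat_lit 13000669569) (nat_lit 76) (nat_lit 4623428014) (nat_lit 76) (nat_lit 441343392) (nat_lit 24) (nat_lit 4) (nat_lit 25) (nat_lit 5) (nat_lit 25) (nat_lit 4) (nat_lit 395) (nat_lit 319) (nat_lit 306))) (XT.nd (nat_lit 78) (nat_lit 0) (nat_lit 0) (XT.lf (nat_lit 0) (nat_lit 4894242757) (nat_lit 152) (nat_lit 13088539520) (nat_lit 0) (nat_lit 697152834) (nat_lit 22) (nat_lit 5) (nat_lit 24) (nat_lit 4) (nat_lit 22) (nat_lit 4) (nat_lit 396) (nat_lit 319) (nat_lit 305)) (XT.lf (nat_lit 0) (nat_lit 10501110009) (nat_lit 152) (nat_lit 2722669214) (nat_lit 0) (nat_lit 6100065621) (nat_lit 22) (nat_lit 5) (nat_lit 24) (nat_lit 4) (nat_lit 22) (nat_lit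 4) (nat_lit 397) (nat_lit 319) (nat_lit 304))))))))
noncomputable def xc48 : XT := (XT.nd (nat_lit 1950) (nat_lit 304) (nat_lit 0) (XT.nd (nat_lit 936) (nat_lit 456) (nat_lit 0) (XT.nd (nat_lit 468) (nat_lit 304) (nat_lit 0) (XT.nd (nat_lit 234) (nat_lit 152) (nat_lit 0) (XT.nd (nat_lit 78) (nat_lit 152) (nat_lit 0) (XT.lf (nat_lit 0) (nat_lit 8162185845) (nat_lit 76) (nat_lit 8216768833) (nat_lit 76) (nat_lit 3621482098) (nat_lit 21) (nat_lit 4) (nat_lit 22) (nat_lit 5) (nat_lit 22) (nat_lit 4) (nat_lit 398) (nat_lit 319) (nat_lit 303)) (XT.nd (nat_lit 78) (nat_lit 76) (nat_lit 0) (XT.lf (nat_lit 0) (nat_lit 1691305781) (nat_lit 152) (nat_lit 1313102594) (nat_lit 76) (nat_lit 17709512453) (nat_lit 20) (nat_lit 5) (nat_lit 22) (nat_lit 5) (nat_lit 21) (nat_lit 4) (nat_lit 399) (nat_lit 319) (nat_lit 302)) (XT.lf (nat_lit 0) (nat_lit 7210284160) (nat_lit 152) (nat_lit 11756886348) (nat_lit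 0) (nat_lit 2489843224) (nat_lit 19) (nat_lit 5) (nat_lit 21) (nat_lit 4) (nat_lit 19) (nat_lit 4) (nat_lit 400) (nat_lit 319) (nat_lit 301)))) (XT.nd (nat_lit 78) (nat_lit 152) (nat_lit 0) (XT.lf (nat_lit 0) (nat_lit 12947610484) (nat_lit 152) (nat_lit 1225180106) (nat_lit 0) (nat_lit 8067365889) (nat_lit 19) (nat_lit 5) (nat_lit 21) (nat_lit 4) (nat_lit 19) (nat_lit 4) (nat_lit 401) (nat_lit 319) (nat_lit 300)) (XT.nd (nat_lit 78) (nat_lit 76) (nat_lit 0) (XT.lf (nat_lit 0) (nat_lit 9913234584) (nat_lit 76) (nat_lit 9090050338) (nat_lit 76) (nat_lit 4057611781) (nat_lit 18) (nat_lit 4) (nat_lit 19) (nat_lit 5) (nat_lit 19) (nat_lit 4) (nat_lit 402) (nat_lit 319) (nat_lit 299)) (XT.lf (nat_lit 0) (nat_lit 1291037564) (nat_lit 152) (nat_lit 2530758181) (nat_lit 76) (nat_lit 20104866507) (nat_lit 17) (nat_lit 5) (nat_lit 19) (nat_lit 5) (nat_lit 18) (nat_lit 4) (nat_lit 403) (nat_lit 319)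 (nat_lit 298))))) (XT.nd (nat_lit 234) (nat_lit 152) (nat_lit 0) (XT.nd (nat_lit 78) (nat_lit 76) (nat_lit 0) (XT.lf (nat_lit 0) (nat_lit 6816106376) (nat_lit 152) (nat_lit 16260236313) (nat_lit 0) (nat_lit 1753792474) (nat_lit 16) (nat_lit 5) (nat_lit 18) (nat_lit 4) (nat_lit 16) (nat_lit 4) (nat_lit 404) (nat_lit 319) (nat_lit 297)) (XT.nd (nat_lit 78) (nat_lit 76) (nat_lit 0) (XT.lf (nat_lit 0) (nat_lit 12606873086) (nat_lit 152) (nat_lit 5753099446) (nat_lit 0) (nat_lit 7419348835) (nat_lit 16) (nat_lit 5) (nat_lit 18) (nat_lit 4) (nat_lit 16) (nat_lit 4) (nat_lit 405) (nat_lit 319) (nat_lit 296)) (XT.lf (nat_lit 0) (nat_lit 5231052374) (nat_lit 76) (nat_lit 13426587465) (nat_lit 76) (nat_lit 8119815262) (nat_lit 15) (nat_lit 4) (nat_lit 16) (nat_lit 5) (nat_lit 16) (nat_lit 4) (nat_lit 406) (nat_lit 319) (nat_lit 295)))) (XT.nd (nat_lit 78) (nat_lit 152) (nat_lit 0) (XT.lf (nat_lit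 0) (nat_lit 16751858308) (nat_lit 76) (nat_lit 8247289754) (nat_lit 76) (nat_lit 2826948073) (nat_lit 15) (nat_lit 4) (nat_lit 16) (nat_lit 5) (nat_lit 16) (nat_lit 4) (nat_lit 407) (nat_lit 319) (nat_lit 294)) (XT.nd (nat_lit 78) (nat_lit 76) (nat_lit 0) (XT.lf (nat_lit 0) (nat_lit 2537425094) (nat_lit 152) (nat_lit 326781643) (nat_lit 76) (nat_lit 26066127778) (nat_lit 14) (nat_lit 5) (nat_lit 16) (nat_lit 5) (nat_lit 15) (nat_lit 4) (nat_lit 408) (nat_lit 319) (nat_lit 293)) (XT.lf (nat_lit 0) (nat_lit 8192777631) (nat_lit 152) (nat_lit 19059380070) (nat_lit 0) (nat_lit 2829431010) (nat_lit 13) (nat_lit 5) (nat_lit 15) (nat_lit 4) (nat_lit 13) (nat_lit 4) (nat_lit 409) (nat_lit 319) (nat_lit 292)))))) (XT.nd (nat_lit 468) (nat_lit 228) (nat_lit 0) (XT.nd (nat_lit 234) (nat_lit 152) (nat_lit 0) (XT.nd (nat_lit 78) (nat_lit 76) (nat_lit 0) (XT.lf (nat_lit 0) (nat_lit 14083091802) (nat_lit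 152) (nat_lit 8583401680) (nat_lit 0) (nat_lit 8626311291) (nat_lit 13) (nat_lit 5) (nat_lit 15) (nat_lit 4) (nat_lit 13) (nat_lit 4) (nat_lit 410) (nat_lit 319) (nat_lit 291)) (XT.nd (nat_lit 78) (nat_lit 0) (nat_lit 0) (XT.lf (nat_lit 0) (nat_lit 2303215379) (nat_lit 76) (nat_lit 17905061064) (nat_lit 76) (nat_lit 12359295895) (nat_lit 12) (nat_lit 4) (nat_lit 13) (nat_lit 5) (nat_lit 13) (nat_lit 4) (nat_lit 411) (nat_lit 319) (nat_lit 290)) (XT.lf (nat_lit 0) (nat_lit 13848296245) (nat_lit 76) (nat_lit 12842865237) (nat_lit 76) (nat_lit 7212352776) (nat_lit 12) (nat_lit 4) (nat_lit 13) (nat_lit 5) (nat_lit 13) (nat_lit 4) (nat_lit 412) (nat_lit 319) (nat_lit 289)))) (XT.nd (nat_lit 78) (nat_lit 152) (nat_lit 0) (XT.lf (nat_lit 0) (nat_lit 25795523181) (nat_lit 76) (nat_lit 7613217216) (nat_lit 76) (nat_lit 1901993048) (nat_lit 12) (nat_lit 4) (nat_lit 13) (nat_lit 5) (nat_lit 13) (nat_lit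 4) (nat_lit 413) (nat_lit 319) (nat_lit 288)) (XT.nd (nat_lit 78) (nat_lit 0) (nat_lit 0) (XT.lf (nat_lit 0) (nat_lit 1368602417) (nat_lit 76) (nat_lit 2122468255) (nat_lit 152) (nat_lit 33297643215) (nat_lit 10) (nat_lit 5) (nat_lit 11) (nat_lit 5) (nat_lit 12) (nat_lit 4) (nat_lit 414) (nat_lit 319) (nat_lit 287)) (XT.lf (nat_lit 0) (nat_lit 9224174856) (nat_lit 152) (nat_lit 25466166722) (nat_lit 0) (nat_lit 3641984037) (nat_lit 10) (nat_lit 5) (nat_lit 12) (nat_lit 4) (nat_lit 10) (nat_lit 4) (nat_lit 415) (nat_lit 319) (nat_lit 286))))) (XT.nd (nat_lit 234) (nat_lit 152) (nat_lit 0) (XT.nd (nat_lit 78) (nat_lit 76) (nat_lit 0) (XT.lf (nat_lit 0) (nat_lit 15196486628) (nat_lit 152) (nat_lit 15211115890) (nat_lit 0) (nat_lit 9547894088) (nat_lit 10) (nat_lit 5) (nat_lit 12) (nat_lit 4) (nat_lit 10) (nat_lit 4) (nat_lit 416) (nat_lit 319) (nat_lit 285)) (XT.nd (nat_lit 78) (nat_lit 76)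 (nat_lit 0) (XT.lf (nat_lit 0) (nat_lit 21389088101) (nat_lit 152) (nat_lit 4597404510) (nat_lit 0) (nat_lit 15677255826) (nat_lit 10) (nat_lit 5) (nat_lit 12) (nat_lit 4) (nat_lit 10) (nat_lit 4) (nat_lit 417) (nat_lit 319) (nat_lit 284)) (XT.lf (nat_lit 0) (nat_lit 6611858938) (nat_lit 76) (nat_lit 21308094273) (nat_lit 76) (nat_lit 15536033680) (nat_lit 9) (nat_lit 4) (nat_lit 10) (nat_lit 5) (nat_lit 10) (nat_lit 4) (nat_lit 418) (nat_lit 319) (nat_lit 283)))) (XT.nd (nat_lit 156) (nat_lit 152) (nat_lit 0) (XT.nd (nat_lit 78) (nat_lit 0) (nat_lit 0) (XT.lf (nat_lit 0) (nat_lit 18396809788) (nat_lit 76) (nat_lit 16385112881) (nat_lit 76) (nat_lit 10555691984) (nat_lit 9) (nat_lit 4) (nat_lit 10) (nat_lit 5) (nat_lit 10) (nat_lit 4) (nat_lit 419) (nat_lit 319) (nat_lit 282)) (XT.lf (nat_lit 0) (nat_lit 30633496491) (nat_lit 76) (nat_lit 11283686318) (nat_lit 76) (nat_lit 5399636561) (nat_lit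 9) (nat_lit 4) (nat_lit 10) (nat_lit 5) (nat_lit 10) (nat_lit 4) (nat_lit 420) (nat_lit 319) (nat_lit 281))) (XT.nd (nat_lit 78) (nat_lit 152) (nat_lit 0) (XT.lf (nat_lit 0) (nat_lit 43351054015) (nat_lit 76) (nat_lit 5991668333) (nat_lit 76) (nat_lit 55591089) (nat_lit 9) (nat_lit 4) (nat_lit 10) (nat_lit 5) (nat_lit 10) (nat_lit 4) (nat_lit 421) (nat_lit 319) (nat_lit 280)) (XT.lf (nat_lit 0) (nat_lit 5069256015) (nat_lit 76) (nat_lit 323369958) (nat_lit 152) (nat_lit 46186184489) (nat_lit 7) (nat_lit 5) (nat_lit 8) (nat_lit 5) (nat_lit 9) (nat_lit 4) (nat_lit 422) (nat_lit 319) (nat_lit 279))))))) (XT.nd (nat_lit 1014) (nat_lit 76) (nat_lit 0) (XT.nd (nat_lit 468) (nat_lit 152) (nat_lit 0) (XT.nd (nat_lit 234) (nat_lit 76) (nat_lit 0) (XT.nd (nat_lit 78) (nat_lit 0) (nat_lit 0) (XT.lf (nat_lit 0) (nat_lit 11239146597) (nat_lit 152) (nat_lit 37129150452) (nat_lit 0) (nat_lit 5493605936)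 (nat_lit 7) (nat_lit 5) (nat_lit 9) (nat_lit 4) (nat_lit 7) (nat_lit 4) (nat_lit 423) (nat_lit 319) (nat_lit 278)) (XT.nd (nat_lit 78) (nat_lit 0) (nat_lit 0) (XT.lf (nat_lit 0) (nat_lit 17322146351) (nat_lit 152) (nat_lit 27405997640) (nat_lit 0) (nat_lit 11533802548) (nat_lit 7) (nat_lit 5) (nat_lit 9) (nat_lit 4) (nat_lit 7) (nat_lit 4) (nat_lit 424) (nat_lit 319) (nat_lit 277)) (XT.lf (nat_lit 0) (nat_lit 23651059855) (nat_lit 152) (nat_lit 17311896936) (nat_lit 0) (nat_lit 17821951155) (nat_lit 7) (nat_lit 5) (nat_lit 9) (nat_lit 4) (nat_lit 7) (nat_lit 4) (nat_lit 425) (nat_lit 319) (nat_lit 276)))) (XT.nd (nat_lit 78) (nat_lit 76) (nat_lit 0) (XT.lf (nat_lit 0) (nat_lit 30240955952) (nat_lit 152) (nat_lit 6822814766) (nat_lit 0) (nat_lit 24373023541) (nat_lit 7) (nat_lit 5) (nat_lit 9) (nat_lit 4) (nat_lit 7) (nat_lit 4) (nat_lit 426) (nat_lit 319) (nat_lit 275)) (XT.nd (nat_lit 78)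 (nat_lit 0) (nat_lit 0) (XT.lf (nat_lit 0) (nat_lit 4221331855) (nat_lit 76) (nat_lit 32952099835) (nat_lit 76) (nat_lit 27047192461) (nat_lit 6) (nat_lit 4) (nat_lit 7) (nat_lit 5) (nat_lit 7) (nat_lit 4) (nat_lit 427) (nat_lit 319) (nat_lit 274)) (XT.lf (nat_lit 0) (nat_lit 15951745354) (nat_lit 76) (nat_lit 28564421678) (nat_lit 76) (nat_lit 22624300053) (nat_lit 6) (nat_lit 4) (nat_lit 7) (nat_lit 5) (nat_lit 7) (nat_lit 4) (nat_lit 428) (nat_lit 319) (nat_lit 273))))) (XT.nd (nat_lit 234) (nat_lit 152) (nat_lit 0) (XT.nd (nat_lit 78) (nat_lit 0) (nat_lit 0) (XT.lf (nat_lit 0) (nat_lit 28170762219) (nat_lit 76) (nat_lit 24005837064) (nat_lit 76) (nat_lit 18032178057) (nat_lit 6) (nat_lit 4) (nat_lit 7) (nat_lit 5) (nat_lit 7) (nat_lit 4) (nat_lit 429) (nat_lit 319) (nat_lit 272)) (XT.nd (nat_lit 78) (nat_lit 0) (nat_lit 0) (XT.lf (nat_lit 0) (nat_lit 40907475345) (nat_lit 76) (nat_lit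 19265492219) (nat_lit 76) (nat_lit 13259892850) (nat_lit 6) (nat_lit 4) (nat_lit 7) (nat_lit 5) (nat_lit 7) (nat_lit 4) (nat_lit 430) (nat_lit 319) (nat_lit 271)) (XT.lf (nat_lit 0) (nat_lit 54192210240) (nat_lit 76) (nat_lit 14332100610) (nat_lit 76) (nat_lit 8296081847) (nat_lit 6) (nat_lit 4) (nat_lit 7) (nat_lit 5) (nat_lit 7) (nat_lit 4) (nat_lit 431) (nat_lit 319) (nat_lit 270)))) (XT.nd (nat_lit 156) (nat_lit 76) (nat_lit 0) (XT.nd (nat_lit 78) (nat_lit 76) (nat_lit 0) (XT.lf (nat_lit 0) (nat_lit 68056597225) (nat_lit 76) (nat_lit 9193916064) (nat_lit 76) (nat_lit 3128926450) (nat_lit 6) (nat_lit 4) (nat_lit 7) (nat_lit 5) (nat_lit 7) (nat_lit 4) (nat_lit 432) (nat_lit 319) (nat_lit 269)) (XT.lf (nat_lit 0) (nat_lit 2181737979) (nat_lit 152) (nat_lit 1620018042) (nat_lit 76) (nat_lit 80314959979) (nat_lit 5) (nat_lit 5) (nat_lit 7) (nat_lit 5) (nat_lit 6) (nat_lit 4) (nat_lit 433)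 (nat_lit 319) (nat_lit 268))) (XT.nd (nat_lit 78) (nat_lit 0) (nat_lit 0) (XT.lf (nat_lit 0) (nat_lit 7798237046) (nat_lit 152) (nat_lit 78262031080) (nat_lit 0) (nat_lit 1970752934) (nat_lit 4) (nat_lit 5) (nat_lit 6) (nat_lit 4) (nat_lit 4) (nat_lit 4) (nat_lit 434) (nat_lit 319) (nat_lit 267)) (XT.lf (nat_lit 0) (nat_lit 13746477718) (nat_lit 152) (nat_lit 70496860866) (nat_lit 0) (nat_lit 7895159215) (nat_lit 4) (nat_lit 5) (nat_lit 6) (nat_lit 4) (nat_lit 4) (nat_lit 4) (nat_lit 435) (nat_lit 319) (nat_lit 266)))))) (XT.nd (nat_lit 468) (nat_lit 76) (nat_lit 0) (XT.nd (nat_lit 234) (nat_lit 0) (nat_lit 0) (XT.nd (nat_lit 78) (nat_lit 0) (nat_lit 0) (XT.lf (nat_lit 0) (nat_lit 19954708735) (nat_lit 152) (nat_lit 62417822065) (nat_lit 0) (nat_lit 14080690812) (nat_lit 4) (nat_lit 5) (nat_lit 6) (nat_lit 4) (nat_lit 4) (nat_lit 4) (nat_lit 436) (nat_lit 319) (nat_lit 265)) (XT.nd (nat_lit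 78) (nat_lit 0) (nat_lit 0) (XT.lf (nat_lit 0) (nat_lit 26437711598) (nat_lit 152) (nat_lit 54005678871) (nat_lit 0) (nat_lit 20542075181) (nat_lit 4) (nat_lit 5) (nat_lit 6) (nat_lit 4) (nat_lit 4) (nat_lit 4) (nat_lit 437) (nat_lit 319) (nat_lit 264)) (XT.lf (nat_lit 0) (nat_lit 33210922030) (nat_lit 152) (nat_lit 45240402371) (nat_lit 0) (nat_lit 27294696570) (nat_lit 4) (nat_lit 5) (nat_lit 6) (nat_lit 4) (nat_lit 4) (nat_lit 4) (nat_lit 438) (nat_lit 319) (nat_lit 263)))) (XT.nd (nat_lit 78) (nat_lit 0) (nat_lit 0) (XT.lf (nat_lit 0) (nat_lit 40290466722) (nat_lit 152) (nat_lit 36101122860) (nat_lit 0) (nat_lit 34354632649) (nat_lit 4) (nat_lit 5) (nat_lit 6) (nat_lit 4) (nat_lit 4) (nat_lit 4) (nat_lit 439) (nat_lit 319) (nat_lit 262)) (XT.nd (nat_lit 78) (nat_lit 0) (nat_lit 0) (XT.lf (nat_lit 0) (nat_lit 47693201732) (nat_lit 152) (nat_lit 26566080148) (nat_lit 0) (nat_lit 41738692790)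 (nat_lit 4) (nat_lit 5) (nat_lit 6) (nat_lit 4) (nat_lit 4) (nat_lit 4) (nat_lit 440) (nat_lit 319) (nat_lit 261)) (XT.lf (nat_lit 0) (nat_lit 55436752620) (nat_lit 152) (nat_lit 16612571752) (nat_lit 0) (nat_lit 49464458088) (nat_lit 4) (nat_lit 5) (nat_lit 6) (nat_lit 4) (nat_lit 4) (nat_lit 4) (nat_lit 441) (nat_lit 319) (nat_lit 260))))) (XT.nd (nat_lit 234) (nat_lit 0) (nat_lit 0) (XT.nd (nat_lit 78) (nat_lit 76) (nat_lit 0) (XT.lf (nat_lit 0) (nat_lit 63539556412) (nat_lit 152) (nat_lit 6216898843) (nat_lit 0) (nat_lit 57550323224) (nat_lit 4) (nat_lit 5) (nat_lit 6) (nat_lit 4) (nat_lit 4) (nat_lit 4) (nat_lit 442) (nat_lit 319) (nat_lit 259)) (XT.nd (nat_lit 78) (nat_lit 0) (nat_lit 0) (XT.lf (nat_lit 0) (nat_lit 4799297679) (nat_lit 76) (nat_lit 67296538305) (nat_lit 76) (nat_lit 61291173063) (nat_lit 3) (nat_lit 4) (nat_lit 4) (nat_lit 5) (nat_lit 4) (nat_lit 4) (nat_lit 443) (nat_lit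 319) (nat_lit 258)) (XT.lf (nat_lit 0) (nat_lit 16530125889) (nat_lit 76) (nat_lit 64628949267) (nat_lit 76) (nat_lit 58608220164) (nat_lit 3) (nat_lit 4) (nat_lit 4) (nat_lit 5) (nat_lit 4) (nat_lit 4) (nat_lit 444) (nat_lit 319) (nat_lit 257)))) (XT.nd (nat_lit 156) (nat_lit 0) (nat_lit 0) (XT.nd (nat_lit 78) (nat_lit 0) (nat_lit 0) (XT.lf (nat_lit 0) (nat_lit 28797957578) (nat_lit 76) (nat_lit 61852622928) (nat_lit 76) (nat_lit 55817261577) (nat_lit 3) (nat_lit 4) (nat_lit 4) (nat_lit 5) (nat_lit 4) (nat_lit 4) (nat_lit 445) (nat_lit 319) (nat_lit 256)) (XT.lf (nat_lit 0) (nat_lit 41632001869) (nat_lit 76) (nat_lit 58960948988) (nat_lit 76) (nat_lit 52911652162) (nat_lit 3) (nat_lit 4) (nat_lit 4) (nat_lit 5) (nat_lit 4) (nat_lit 4) (nat_lit 446) (nat_lit 319) (nat_lit 255))) (XT.nd (nat_lit 78) (nat_lit 0) (nat_lit 0) (XT.lf (nat_lit 0) (nat_lit 55062816010) (nat_lit 76) (nat_lit 55947042508)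 (nat_lit 76) (nat_lit 49884473801) (nat_lit 3) (nat_lit 4) (nat_lit 4) (nat_lit 5) (nat_lit 4) (nat_lit 4) (nat_lit 447) (nat_lit 319) (nat_lit 254)) (XT.lf (nat_lit 0) (nat_lit 69122378131) (nat_lit 76) (nat_lit 52803727521) (nat_lit 76) (nat_lit 46728518928) (nat_lit 3) (nat_lit 4) (nat_lit 4) (nat_lit 5) (nat_lit 4) (nat_lit 4) (nat_lit 448) (nat_lit 319) (nat_lit 253))))))))
noncomputable def xc49 : XT := (XT.nd (nat_lit 1950) (nat_lit 0) (nat_lit 0) (XT.nd (nat_lit 936) (nat_lit 0) (nat_lit 0) (XT.nd (nat_lit 468) (nat_lit 152) (nat_lit 0) (XT.nd (nat_lit 234) (nat_lit 0) (nat_lit 0) (XT.nd (nat_lit 78) (nat_lit 0) (nat_lit 0) (XT.lf (nat_lit 0) (nat_lit 83844163379) (nat_lit 76) (nat_lit 49523519943) (nat_lit 76) (nat_lit 43436273363) (nat_lit 3) (nat_lit 4) (nat_lit 4) (nat_lit 5) (nat_lit 4) (nat_lit 4) (nat_lit 449) (nat_lit 319) (nat_lit 252)) (XT.nd (nat_lit 78) (nat_lit 0) (nat_lit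 0) (XT.lf (nat_lit 0) (nat_lit 99263223624) (nat_lit 76) (nat_lit 46098609756) (nat_lit 76) (nat_lit 39999898427) (nat_lit 3) (nat_lit 4) (nat_lit 4) (nat_lit 5) (nat_lit 4) (nat_lit 4) (nat_lit 450) (nat_lit 319) (nat_lit 251)) (XT.lf (nat_lit 0) (nat_lit 115416270914) (nat_lit 76) (nat_lit 42520842413) (nat_lit 76) (nat_lit 36411212274) (nat_lit 3) (nat_lit 4) (nat_lit 4) (nat_lit 5) (nat_lit 4) (nat_lit 4) (nat_lit 451) (nat_lit 319) (nat_lit 250)))) (XT.nd (nat_lit 78) (nat_lit 0) (nat_lit 0) (XT.lf (nat_lit 0) (nat_lit 132341764886) (nat_lit 76) (nat_lit 38781699419) (nat_lit 76) (nat_lit 32661670415) (nat_lit 3) (nat_lit 4) (nat_lit 4) (nat_lit 5) (nat_lit 4) (nat_lit 4) (nat_lit 452) (nat_lit 319) (nat_lit 249)) (XT.nd (nat_lit 78) (nat_lit 0) (nat_lit 0) (XT.lf (nat_lit 0) (nat_lit 150080004334) (nat_lit 76) (nat_lit 34872278054) (nat_lit 76) (nat_lit 28742345368) (nat_lit 3) (nat_lit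 4) (nat_lit 4) (nat_lit 5) (nat_lit 4) (nat_lit 4) (nat_lit 453) (nat_lit 319) (nat_lit 248)) (XT.lf (nat_lit 0) (nat_lit 168673223162) (nat_lit 76) (nat_lit 30783270170) (nat_lit 76) (nat_lit 24643905406) (nat_lit 3) (nat_lit 4) (nat_lit 4) (nat_lit 5) (nat_lit 4) (nat_lit 4) (nat_lit 454) (nat_lit 319) (nat_lit 247))))) (XT.nd (nat_lit 234) (nat_lit 152) (nat_lit 0) (XT.nd (nat_lit 78) (nat_lit 0) (nat_lit 0) (XT.lf (nat_lit 0) (nat_lit 188165690939) (nat_lit 76) (nat_lit 26504940036) (nat_lit 76) (nat_lit 20356592341) (nat_lit 3) (nat_lit 4) (nat_lit 4) (nat_lit 5) (nat_lit 4) (nat_lit 4) (nat_lit 455) (nat_lit 319) (nat_lit 246)) (XT.nd (nat_lit 78) (nat_lit 0) (nat_lit 0) (XT.lf (nat_lit 0) (nat_lit 208603818302) (nat_lit 76) (nat_lit 22027101150) (nat_lit 76) (nat_lit 15870198282) (nat_lit 3) (nat_lit 4) (nat_lit 4) (nat_lit 5) (nat_lit 4) (nat_lit 4) (nat_lit 456) (nat_lit 319) (nat_lit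 245)) (XT.lf (nat_lit 0) (nat_lit 230036267459) (nat_lit 76) (nat_lit 17339091992) (nat_lit 76) (nat_lit 11174041341) (nat_lit 3) (nat_lit 4) (nat_lit 4) (nat_lit 5) (nat_lit 4) (nat_lit 4) (nat_lit 457) (nat_lit 319) (nat_lit 244)))) (XT.nd (nat_lit 78) (nat_lit 152) (nat_lit 0) (XT.lf (nat_lit 0) (nat_lit 252514068052) (nat_lit 76) (nat_lit 12429750635) (nat_lit 76) (nat_lit 6256940190) (nat_lit 3) (nat_lit 4) (nat_lit 4) (nat_lit 5) (nat_lit 4) (nat_lit 4) (nat_lit 458) (nat_lit 319) (nat_lit 243)) (XT.nd (nat_lit 78) (nat_lit 152) (nat_lit 0) (XT.lf (nat_lit 0) (nat_lit 276090738653) (nat_lit 76) (nat_lit 7287388171) (nat_lit 76) (nat_lit 1107187446) (nat_lit 3) (nat_lit 4) (nat_lit 4) (nat_lit 5) (nat_lit 4) (nat_lit 4) (nat_lit 459) (nat_lit 319) (nat_lit 242)) (XT.lf (nat_lit 0) (nat_lit 2397513170) (nat_lit 76) (nat_lit 1790170857) (nat_lit 152) (nat_lit 294241794264) (nat_lit 1)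 (nat_lit 5) (nat_lit 2) (nat_lit 5) (nat_lit 3) (nat_lit 4) (nat_lit 460) (nat_lit 319) (nat_lit 241)))))) (XT.nd (nat_lit 468) (nat_lit 0) (nat_lit 0) (XT.nd (nat_lit 234) (nat_lit 0) (nat_lit 0) (XT.nd (nat_lit 78) (nat_lit 0) (nat_lit 0) (XT.lf (nat_lit 0) (nat_lit 9904605575) (nat_lit 152) (nat_lit 299149999330) (nat_lit 0) (nat_lit 4005612920) (nat_lit 1) (nat_lit 5) (nat_lit 3) (nat_lit 4) (nat_lit 1) (nat_lit 4) (nat_lit 461) (nat_lit 319) (nat_lit 240)) (XT.nd (nat_lit 78) (nat_lit 0) (nat_lit 0) (XT.lf (nat_lit 0) (nat_lit 15925148581) (nat_lit 152) (nat_lit 302476381639) (nat_lit 0) (nat_lit 10020075924) (nat_lit 1) (nat_lit 5) (nat_lit 3) (nat_lit 4) (nat_lit 1) (nat_lit 4) (nat_lit 462) (nat_lit 319) (nat_lit 239)) (XT.lf (nat_lit 0) (nat_lit 22235698086) (nat_lit 152) (nat_lit 305991082423) (nat_lit 0) (nat_lit 16324834951) (nat_lit 1) (nat_lit 5) (nat_lit 3) (nat_lit 4) (nat_lit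 1) (nat_lit 4) (nat_lit 463) (nat_lit 319) (nat_lit 238)))) (XT.nd (nat_lit 78) (nat_lit 0) (nat_lit 0) (XT.lf (nat_lit 0) (nat_lit 28851279208) (nat_lit 152) (nat_lit 309702470017) (nat_lit 0) (nat_lit 22934901333) (nat_lit 1) (nat_lit 5) (nat_lit 3) (nat_lit 4) (nat_lit 1) (nat_lit 4) (nat_lit 464) (nat_lit 319) (nat_lit 237)) (XT.nd (nat_lit 78) (nat_lit 0) (nat_lit 0) (XT.lf (nat_lit 0) (nat_lit 35787643331) (nat_lit 152) (nat_lit 313619381058) (nat_lit 0) (nat_lit 29866013322) (nat_lit 1) (nat_lit 5) (nat_lit 3) (nat_lit 4) (nat_lit 1) (nat_lit 4) (nat_lit 465) (nat_lit 319) (nat_lit 236)) (XT.lf (nat_lit 0) (nat_lit 43061305608) (nat_lit 152) (nat_lit 317751141524) (nat_lit 0) (nat_lit 37134673566) (nat_lit 1) (nat_lit 5) (nat_lit 3) (nat_lit 4) (nat_lit 1) (nat_lit 4) (nat_lit 466) (nat_lit 319) (nat_lit 235))))) (XT.nd (nat_lit 234) (nat_lit 0) (nat_lit 0) (XT.nd (nat_lit 78) (nat_lit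 0) (nat_lit 0) (XT.lf (nat_lit 0) (nat_lit 50689584282) (nat_lit 152) (nat_lit 322107588941) (nat_lit 0) (nat_lit 44758188400) (nat_lit 1) (nat_lit 5) (nat_lit 3) (nat_lit 4) (nat_lit 1) (nat_lit 4) (nat_lit 467) (nat_lit 319) (nat_lit 234)) (XT.nd (nat_lit 78) (nat_lit 0) (nat_lit 0) (XT.lf (nat_lit 0) (nat_lit 58690641921) (nat_lit 152) (nat_lit 326699095803) (nat_lit 0) (nat_lit 52754709049) (nat_lit 1) (nat_lit 5) (nat_lit 3) (nat_lit 4) (nat_lit 1) (nat_lit 4) (nat_lit 468) (nat_lit 319) (nat_lit 233)) (XT.lf (nat_lit 0) (nat_lit 67083528663) (nat_lit 152) (nat_lit 331536594267) (nat_lit 0) (nat_lit 61143274847) (nat_lit 1) (nat_lit 5) (nat_lit 3) (nat_lit 4) (nat_lit 1) (nat_lit 4) (nat_lit 469) (nat_lit 319) (nat_lit 232)))) (XT.nd (nat_lit 156) (nat_lit 0) (nat_lit 0) (XT.nd (nat_lit 78) (nat_lit 0) (nat_lit 0) (XT.lf (nat_lit 0) (nat_lit 75888227571) (nat_lit 152) (nat_lit 336631602189)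 (nat_lit 0) (nat_lit 69943858571) (nat_lit 1) (nat_lit 5) (nat_lit 3) (nat_lit 4) (nat_lit 1) (nat_lit 4) (nat_lit 470) (nat_lit 319) (nat_lit 231)) (XT.lf (nat_lit 0) (nat_lit 85125702215) (nat_lit 152) (nat_lit 341996250540) (nat_lit 0) (nat_lit 79177413992) (nat_lit 1) (nat_lit 5) (nat_lit 3) (nat_lit 4) (nat_lit 1) (nat_lit 4) (nat_lit 471) (nat_lit 319) (nat_lit 230))) (XT.nd (nat_lit 78) (nat_lit 0) (nat_lit 0) (XT.lf (nat_lit 0) (nat_lit 94817946581) (nat_lit 152) (nat_lit 347643312290) (nat_lit 0) (nat_lit 88865925764) (nat_lit 1) (nat_lit 5) (nat_lit 3) (nat_lit 4) (nat_lit 1) (nat_lit 4) (nat_lit 472) (nat_lit 319) (nat_lit 229)) (XT.lf (nat_lit 0) (nat_lit 104988037441) (nat_lit 152) (nat_lit 353586232827) (nat_lit 0) (nat_lit 99032461774) (nat_lit 1) (nat_lit 5) (nat_lit 3) (nat_lit 4) (nat_lit 1) (nat_lit 4) (nat_lit 473) (nat_lit 319) (nat_lit 228))))))) (XT.nd (nat_lit 46254)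 (nat_lit 0) (nat_lit 1520) (XT.nd (nat_lit 468) (nat_lit 0) (nat_lit 0) (XT.nd (nat_lit 234) (nat_lit 0) (nat_lit 0) (XT.nd (nat_lit 78) (nat_lit 0) (nat_lit 0) (XT.lf (nat_lit 0) (nat_lit 115660189299) (nat_lit 152) (nat_lit 359839161960) (nat_lit 0) (nat_lit 109701228059) (nat_lit 1) (nat_lit 5) (nat_lit 3) (nat_lit 4) (nat_lit 1) (nat_lit 4) (nat_lit 474) (nat_lit 319) (nat_lit 227)) (XT.nd (nat_lit 78) (nat_lit 0) (nat_lit 0) (XT.lf (nat_lit 0) (nat_lit 126859812039) (nat_lit 152) (nat_lit 366416987616) (nat_lit 0) (nat_lit 120897626444) (nat_lit 1) (nat_lit 5) (nat_lit 3) (nat_lit 4) (nat_lit 1) (nat_lit 4) (nat_lit 475) (nat_lit 319) (nat_lit 226)) (XT.lf (nat_lit 0) (nat_lit 138613571429) (nat_lit 152) (nat_lit 373335371285) (nat_lit 0) (nat_lit 132648315020) (nat_lit 1) (nat_lit 5) (nat_lit 3) (nat_lit 4) (nat_lit 1) (nat_lit 4) (nat_lit 476) (nat_lit 319) (nat_lit 225)))) (XT.nd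 (nat_lit 78) (nat_lit 0) (nat_lit 0) (XT.lf (nat_lit 0) (nat_lit 150949452611) (nat_lit 152) (nat_lit 380610785308) (nat_lit 0) (nat_lit 144981271618) (nat_lit 1) (nat_lit 5) (nat_lit 3) (nat_lit 4) (nat_lit 1) (nat_lit 4) (nat_lit 477) (nat_lit 319) (nat_lit 224)) (XT.nd (nat_lit 78) (nat_lit 0) (nat_lit 0) (XT.lf (nat_lit 0) (nat_lit 163896826731) (nat_lit 152) (nat_lit 388260552101) (nat_lit 0) (nat_lit 157925860419) (nat_lit 1) (nat_lit 5) (nat_lit 3) (nat_lit 4) (nat_lit 1) (nat_lit 4) (nat_lit 478) (nat_lit 319) (nat_lit 223)) (XT.lf (nat_lit 0) (nat_lit 177486520869) (nat_lit 152) (nat_lit 396302885393) (nat_lit 0) (nat_lit 171512901873) (nat_lit 1) (nat_lit 5) (nat_lit 3) (nat_lit 4) (nat_lit 1) (nat_lit 4) (nat_lit 479) (nat_lit 319) (nat_lit 222))))) (XT.nd (nat_lit 45474) (nat_lit 0) (nat_lit 2660) (XT.nd (nat_lit 45318) (nat_lit 0) (nat_lit 3116) (XT.lf (nat_lit 0) (nat_lit 191750891442)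 (nat_lit 152) (nat_lit 404756933597) (nat_lit 0) (nat_lit 185774746079) (nat_lit 1) (nat_lit 5) (nat_lit 3) (nat_lit 4) (nat_lit 1) (nat_lit 4) (nat_lit 480) (nat_lit 319) (nat_lit 221)) (XT.nd (nat_lit 78) (nat_lit 0) (nat_lit 0) (XT.lf (nat_lit 0) (nat_lit 643791581) (nat_lit 152) (nat_lit 2589578734) (nat_lit 152) (nat_lit 2589578734) (nat_lit 42) (nat_lit 4) (nat_lit 44) (nat_lit 5) (nat_lit 44) (nat_lit 4) (nat_lit 380) (nat_lit 320) (nat_lit 320)) (XT.lf (nat_lit 0) (nat_lit 10885284905) (nat_lit 152) (nat_lit 817022903) (nat_lit 152) (nat_lit 248813394) (nat_lit 42) (nat_lit 4) (nat_lit 44) (nat_lit 5) (nat_lit 44) (nat_lit 4) (nat_lit 381) (nat_lit 320) (nat_lit 319)))) (XT.nd (nat_lit 156) (nat_lit 152) (nat_lit 0) (XT.nd (nat_lit 78) (nat_lit 152) (nat_lit 0) (XT.lf (nat_lit 0) (nat_lit 4788143423) (nat_lit 152) (nat_lit 3747163941) (nat_lit 0) (nat_lit 3731608735) (nat_lit 40)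 (nat_lit 5) (nat_lit 42) (nat_lit 4) (nat_lit 40) (nat_lit 4) (nat_lit 382) (nat_lit 320) (nat_lit 318)) (XT.lf (nat_lit 0) (nat_lit 5886850434) (nat_lit 152) (nat_lit 4130709814) (nat_lit 152) (nat_lit 2583334388) (nat_lit 38) (nat_lit 4) (nat_lit 40) (nat_lit 5) (nat_lit 40) (nat_lit 4) (nat_lit 383) (nat_lit 320) (nat_lit 317))) (XT.nd (nat_lit 78) (nat_lit 0) (nat_lit 0) (XT.lf (nat_lit 0) (nat_lit 2419398291) (nat_lit 152) (nat_lit 10032501704) (nat_lit 0) (nat_lit 500500391) (nat_lit 36) (nat_lit 5) (nat_lit 38) (nat_lit 4) (nat_lit 36) (nat_lit 4) (nat_lit 384) (nat_lit 320) (nat_lit 316)) (XT.lf (nat_lit 0) (nat_lit 7596262746) (nat_lit 152) (nat_lit 469242624) (nat_lit 0) (nat_lit 5253358161) (nat_lit 36) (nat_lit 5) (nat_lit 38) (nat_lit 4) (nat_lit 36) (nat_lit 4) (nat_lit 385) (nat_lit 320) (nat_lit 315)))))) (XT.nd (nat_lit 468) (nat_lit 456) (nat_lit 0) (XT.nd (nat_lit 234)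 (nat_lit 228) (nat_lit 0) (XT.nd (nat_lit 78) (nat_lit 304) (nat_lit 0) (XT.lf (nat_lit 0) (nat_lit 9583530007) (nat_lit 152) (nat_lit 3433805174) (nat_lit 152) (nat_lit 687084700) (nat_lit 34) (nat_lit 4) (nat_lit 36) (nat_lit 5) (nat_lit 36) (nat_lit 4) (nat_lit 386) (nat_lit 320) (nat_lit 314)) (XT.nd (nat_lit 78) (nat_lit 152) (nat_lit 0) (XT.lf (nat_lit 0) (nat_lit 4412046827) (nat_lit 152) (nat_lit 8265847441) (nat_lit 0) (nat_lit 1429849650) (nat_lit 32) (nat_lit 5) (nat_lit 34) (nat_lit 4) (nat_lit 32) (nat_lit 4) (nat_lit 387) (nat_lit 320) (nat_lit 313)) (XT.lf (nat_lit 0) (nat_lit 1603468367) (nat_lit 152) (nat_lit 8129386832) (nat_lit 152) (nat_lit 4798358307) (nat_lit 30) (nat_lit 4) (nat_lit 32) (nat_lit 5) (nat_lit 32) (nat_lit 4) (nat_lit 388) (nat_lit 320) (nat_lit 312)))) (XT.nd (nat_lit 78) (nat_lit 152) (nat_lit 0) (XT.lf (nat_lit 0) (nat_lit 313201311) (nat_lit 228)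 (nat_lit 3021186169) (nat_lit 76) (nat_lit 11642212711) (nat_lit 29) (nat_lit 5) (nat_lit 32) (nat_lit 5) (nat_lit 30) (nat_lit 4) (nat_lit 389) (nat_lit 320) (nat_lit 311)) (XT.nd (nat_lit 78) (nat_lit 76) (nat_lit 0) (XT.lf (nat_lit 0) (nat_lit 5505741288) (nat_lit 152) (nat_lit 8219678258) (nat_lit 0) (nat_lit 1715599218) (nat_lit 28) (nat_lit 5) (nat_lit 30) (nat_lit 4) (nat_lit 28) (nat_lit 4) (nat_lit 390) (nat_lit 320) (nat_lit 310)) (XT.lf (nat_lit 0) (nat_lit 1874561252) (nat_lit 76) (nat_lit 9066057589) (nat_lit 76) (nat_lit 4988931106) (nat_lit 27) (nat_lit 4) (nat_lit 28) (nat_lit 5) (nat_lit 28) (nat_lit 4) (nat_lit 391) (nat_lit 320) (nat_lit 309))))) (XT.nd (nat_lit 234) (nat_lit 304) (nat_lit 0) (XT.nd (nat_lit 78) (nat_lit 76) (nat_lit 0) (XT.lf (nat_lit 0) (nat_lit 186877190) (nat_lit 152) (nat_lit 3967346731) (nat_lit 76) (nat_lit 12288713758) (nat_lit 26) (nat_lit 5)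 (nat_lit 28) (nat_lit 5) (nat_lit 27) (nat_lit 4) (nat_lit 392) (nat_lit 320) (nat_lit 308)) (XT.nd (nat_lit 78) (nat_lit 0) (nat_lit 0) (XT.lf (nat_lit 0) (nat_lit 5426144183) (nat_lit 152) (nat_lit 10518213048) (nat_lit 0) (nat_lit 1034955330) (nat_lit 25) (nat_lit 5) (nat_lit 27) (nat_lit 4) (nat_lit 25) (nat_lit 4) (nat_lit 393) (nat_lit 320) (nat_lit 307)) (XT.lf (nat_lit 0) (nat_lit 10919066976) (nat_lit 152) (nat_lit 332101637) (nat_lit 0) (nat_lit 6291775335) (nat_lit 25) (nat_lit 5) (nat_lit 27) (nat_lit 4) (nat_lit 25) (nat_lit 4) (nat_lit 394) (nat_lit 320) (nat_lit 306)))) (XT.nd (nat_lit 156) (nat_lit 76) (nat_lit 0) (XT.nd (nat_lit 78) (nat_lit 152) (nat_lit 0) (XT.lf (nat_lit 0) (nat_lit 10437911016) (nat_lit 76) (nat_lit 6273880434) (nat_lit 76) (nat_lit 1421728997) (nat_lit 24) (nat_lit 4) (nat_lit 25) (nat_lit 5) (nat_lit 25) (nat_lit 4) (nat_lit 395) (nat_lit 320) (nat_lit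 305)) (XT.lf (nat_lit 0) (nat_lit 2770236114) (nat_lit 76) (nat_lit 1052466197) (nat_lit 152) (nat_lit 14932213699) (nat_lit 22) (nat_lit 5) (nat_lit 23) (nat_lit 5) (nat_lit 24) (nat_lit 4) (nat_lit 396) (nat_lit 320) (nat_lit 304))) (XT.nd (nat_lit 78) (nat_lit 76) (nat_lit 0) (XT.lf (nat_lit 0) (nat_lit 9346405646) (nat_lit 152) (nat_lit 5729475050) (nat_lit 0) (nat_lit 4327112226) (nat_lit 22) (nat_lit 5) (nat_lit 24) (nat_lit 4) (nat_lit 22) (nat_lit 4) (nat_lit 397) (nat_lit 320) (nat_lit 303)) (XT.lf (nat_lit 0) (nat_lit 4930913982) (nat_lit 76) (nat_lit 10179332867) (nat_lit 76) (nat_lit 4975046735) (nat_lit 21) (nat_lit 4) (nat_lit 22) (nat_lit 5) (nat_lit 22) (nat_lit 4) (nat_lit 398) (nat_lit 320) (nat_lit 302))))))))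
noncomputable def xc50 : XT := (XT.nd (nat_lit 1950) (nat_lit 304) (nat_lit 0) (XT.nd (nat_lit 936) (nat_lit 456) (nat_lit 0) (XT.nd (nat_lit 468) (nat_lit 228) (nat_lit 0) (XT.nd (nat_lit 234) (nat_lit 228) (nat_lit 0) (XT.nd (nat_lit 78) (nat_lit 76) (nat_lit 0) (XT.lf (nat_lit 0) (nat_lit 317645800) (nat_lit 152) (nat_lit 4729295776) (nat_lit 76) (nat_lit 15756071361) (nat_lit 20) (nat_lit 5) (nat_lit 22) (nat_lit 5) (nat_lit 21) (nat_lit 4) (nat_lit 399) (nat_lit 320) (nat_lit 301)) (XT.nd (nat_lit 78) (nat_lit 0) (nat_lit 0) (XT.lf (nat_lit 0) (nat_lit 5685582000) (nat_lit 152) (nat_lit 15466561825) (nat_lit 0) (nat_lit 401521514) (nat_lit 19) (nat_lit 5) (nat_lit 21) (nat_lit 4) (nat_lit 19) (nat_lit 4) (nat_lit 400) (nat_lit 320) (nat_lit 300)) (XT.lf (nat_lit 0) (nat_lit 11362766092) (nat_lit 152) (nat_lit 5050544499) (nat_lit 0) (nat_lit 5926511645) (nat_lit 19) (nat_lit 5) (nat_lit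 21) (nat_lit 4) (nat_lit 19) (nat_lit 4) (nat_lit 401) (nat_lit 320) (nat_lit 299)))) (XT.nd (nat_lit 78) (nat_lit 152) (nat_lit 0) (XT.lf (nat_lit 0) (nat_lit 5847563403) (nat_lit 76) (nat_lit 11450122291) (nat_lit 76) (nat_lit 5868921214) (nat_lit 18) (nat_lit 4) (nat_lit 19) (nat_lit 5) (nat_lit 19) (nat_lit 4) (nat_lit 402) (nat_lit 320) (nat_lit 298)) (XT.nd (nat_lit 78) (nat_lit 152) (nat_lit 0) (XT.lf (nat_lit 0) (nat_lit 17243694411) (nat_lit 76) (nat_lit 6255891619) (nat_lit 76) (nat_lit 536646132) (nat_lit 18) (nat_lit 4) (nat_lit 19) (nat_lit 5) (nat_lit 19) (nat_lit 4) (nat_lit 403) (nat_lit 320) (nat_lit 297)) (XT.lf (nat_lit 0) (nat_lit 4097042276) (nat_lit 76) (nat_lit 755522908) (nat_lit 152) (nat_lit 20095216281) (nat_lit 16) (nat_lit 5) (nat_lit 17) (nat_lit 5) (nat_lit 18) (nat_lit 4) (nat_lit 404) (nat_lit 320) (nat_lit 296))))) (XT.nd (nat_lit 234) (nat_lit 152) (nat_lit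 0) (XT.nd (nat_lit 78) (nat_lit 76) (nat_lit 0) (XT.lf (nat_lit 0) (nat_lit 10577287441) (nat_lit 152) (nat_lit 10437059290) (nat_lit 0) (nat_lit 4885928677) (nat_lit 16) (nat_lit 5) (nat_lit 18) (nat_lit 4) (nat_lit 16) (nat_lit 4) (nat_lit 405) (nat_lit 320) (nat_lit 295)) (XT.nd (nat_lit 78) (nat_lit 0) (nat_lit 0) (XT.lf (nat_lit 0) (nat_lit 288664493) (nat_lit 76) (nat_lit 16210559820) (nat_lit 76) (nat_lit 10405631577) (nat_lit 15) (nat_lit 4) (nat_lit 16) (nat_lit 5) (nat_lit 16) (nat_lit 4) (nat_lit 406) (nat_lit 320) (nat_lit 294)) (XT.lf (nat_lit 0) (nat_lit 11710846454) (nat_lit 76) (nat_lit 11079141183) (nat_lit 76) (nat_lit 5166051533) (nat_lit 15) (nat_lit 4) (nat_lit 16) (nat_lit 5) (nat_lit 16) (nat_lit 4) (nat_lit 407) (nat_lit 320) (nat_lit 293)))) (XT.nd (nat_lit 78) (nat_lit 76) (nat_lit 0) (XT.lf (nat_lit 0) (nat_lit 224062197) (nat_lit 152) (nat_lit 5556773008) (nat_lit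 76) (nat_lit 23283729148) (nat_lit 14) (nat_lit 5) (nat_lit 16) (nat_lit 5) (nat_lit 15) (nat_lit 4) (nat_lit 408) (nat_lit 320) (nat_lit 292)) (XT.nd (nat_lit 78) (nat_lit 0) (nat_lit 0) (XT.lf (nat_lit 0) (nat_lit 5573192722) (nat_lit 76) (nat_lit 127977433) (nat_lit 152) (nat_lit 24523564943) (nat_lit 13) (nat_lit 5) (nat_lit 14) (nat_lit 5) (nat_lit 15) (nat_lit 4) (nat_lit 409) (nat_lit 320) (nat_lit 291)) (XT.lf (nat_lit 0) (nat_lit 11542849712) (nat_lit 152) (nat_lit 14264725669) (nat_lit 0) (nat_lit 5630811627) (nat_lit 13) (nat_lit 5) (nat_lit 15) (nat_lit 4) (nat_lit 13) (nat_lit 4) (nat_lit 410) (nat_lit 320) (nat_lit 290)))))) (XT.nd (nat_lit 468) (nat_lit 228) (nat_lit 0) (XT.nd (nat_lit 234) (nat_lit 152) (nat_lit 0) (XT.nd (nat_lit 78) (nat_lit 76) (nat_lit 0) (XT.lf (nat_lit 0) (nat_lit 17587658963) (nat_lit 152) (nat_lit 3538644713) (nat_lit 0) (nat_lit 11590873586) (nat_lit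 13) (nat_lit 5) (nat_lit 15) (nat_lit 4) (nat_lit 13) (nat_lit 4) (nat_lit 411) (nat_lit 320) (nat_lit 289)) (XT.nd (nat_lit 78) (nat_lit 0) (nat_lit 0) (XT.lf (nat_lit 0) (nat_lit 7804014053) (nat_lit 76) (nat_lit 16165820704) (nat_lit 76) (nat_lit 10088323619) (nat_lit 12) (nat_lit 4) (nat_lit 13) (nat_lit 5) (nat_lit 13) (nat_lit 4) (nat_lit 412) (nat_lit 320) (nat_lit 288)) (XT.lf (nat_lit 0) (nat_lit 19669890015) (nat_lit 76) (nat_lit 10975967153) (nat_lit 76) (nat_lit 4821601776) (nat_lit 12) (nat_lit 4) (nat_lit 13) (nat_lit 5) (nat_lit 13) (nat_lit 4) (nat_lit 413) (nat_lit 320) (nat_lit 287)))) (XT.nd (nat_lit 78) (nat_lit 76) (nat_lit 0) (XT.lf (nat_lit 0) (nat_lit 603310223) (nat_lit 152) (nat_lit 4990787317) (nat_lit 76) (nat_lit 31356704106) (nat_lit 11) (nat_lit 5) (nat_lit 13) (nat_lit 5) (nat_lit 12) (nat_lit 4) (nat_lit 414) (nat_lit 320) (nat_lit 286)) (XT.nd (nat_lit 78)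 (nat_lit 0) (nat_lit 0) (XT.lf (nat_lit 0) (nat_lit 6160278221) (nat_lit 152) (nat_lit 32180090701) (nat_lit 0) (nat_lit 162854333) (nat_lit 10) (nat_lit 5) (nat_lit 12) (nat_lit 4) (nat_lit 10) (nat_lit 4) (nat_lit 415) (nat_lit 320) (nat_lit 285)) (XT.lf (nat_lit 0) (nat_lit 12094382243) (nat_lit 152) (nat_lit 22000206695) (nat_lit 0) (nat_lit 6033718620) (nat_lit 10) (nat_lit 5) (nat_lit 12) (nat_lit 4) (nat_lit 10) (nat_lit 4) (nat_lit 416) (nat_lit 320) (nat_lit 284))))) (XT.nd (nat_lit 234) (nat_lit 152) (nat_lit 0) (XT.nd (nat_lit 78) (nat_lit 76) (nat_lit 0) (XT.lf (nat_lit 0) (nat_lit 18250595383) (nat_lit 152) (nat_lit 11458082767) (nat_lit 0) (nat_lit 12129703441) (nat_lit 10) (nat_lit 5) (nat_lit 12) (nat_lit 4) (nat_lit 10) (nat_lit 4) (nat_lit 417) (nat_lit 320) (nat_lit 283)) (XT.nd (nat_lit 78) (nat_lit 76) (nat_lit 0) (XT.lf (nat_lit 0) (nat_lit 24643575290) (nat_lit 152)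 (nat_lit 528618623) (nat_lit 0) (nat_lit 18465323045) (nat_lit 10) (nat_lit 5) (nat_lit 12) (nat_lit 4) (nat_lit 10) (nat_lit 4) (nat_lit 418) (nat_lit 320) (nat_lit 282)) (XT.lf (nat_lit 0) (nat_lit 11171774834) (nat_lit 76) (nat_lit 20291191226) (nat_lit 76) (nat_lit 14058310120) (nat_lit 9) (nat_lit 4) (nat_lit 10) (nat_lit 5) (nat_lit 10) (nat_lit 4) (nat_lit 419) (nat_lit 320) (nat_lit 281)))) (XT.nd (nat_lit 156) (nat_lit 152) (nat_lit 0) (XT.nd (nat_lit 78) (nat_lit 0) (nat_lit 0) (XT.lf (nat_lit 0) (nat_lit 23344576896) (nat_lit 76) (nat_lit 15221218276) (nat_lit 76) (nat_lit 8936309684) (nat_lit 9) (nat_lit 4) (nat_lit 10) (nat_lit 5) (nat_lit 10) (nat_lit 4) (nat_lit 420) (nat_lit 320) (nat_lit 280)) (XT.lf (nat_lit 0) (nat_lit 36001291904) (nat_lit 76) (nat_lit 9959156112) (nat_lit 76) (nat_lit 3624697533) (nat_lit 9) (nat_lit 4) (nat_lit 10) (nat_lit 5) (nat_lit 10) (nat_lit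 4) (nat_lit 421) (nat_lit 320) (nat_lit 279))) (XT.nd (nat_lit 78) (nat_lit 76) (nat_lit 0) (XT.lf (nat_lit 0) (nat_lit 1828707693) (nat_lit 152) (nat_lit 2632798271) (nat_lit 76) (nat_lit 47312377152) (nat_lit 8) (nat_lit 5) (nat_lit 10) (nat_lit 5) (nat_lit 9) (nat_lit 4) (nat_lit 422) (nat_lit 320) (nat_lit 278)) (XT.lf (nat_lit 0) (nat_lit 7537631473) (nat_lit 152) (nat_lit 45109158651) (nat_lit 0) (nat_lit 1417067338) (nat_lit 7) (nat_lit 5) (nat_lit 9) (nat_lit 4) (nat_lit 7) (nat_lit 4) (nat_lit 423) (nat_lit 320) (nat_lit 277))))))) (XT.nd (nat_lit 1014) (nat_lit 76) (nat_lit 0) (XT.nd (nat_lit 468) (nat_lit 152) (nat_lit 0) (XT.nd (nat_lit 234) (nat_lit 76) (nat_lit 0) (XT.nd (nat_lit 78) (nat_lit 0) (nat_lit 0) (XT.lf (nat_lit 0) (nat_lit 13592223306) (nat_lit 152) (nat_lit 35442205716) (nat_lit 0) (nat_lit 7430894274) (nat_lit 7) (nat_lit 5) (nat_lit 9) (nat_lit 4) (nat_lit 7)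 (nat_lit 4) (nat_lit 424) (nat_lit 320) (nat_lit 276)) (XT.nd (nat_lit 78) (nat_lit 0) (nat_lit 0) (XT.lf (nat_lit 0) (nat_lit 19894081648) (nat_lit 152) (nat_lit 25401628704) (nat_lit 0) (nat_lit 13693928905) (nat_lit 7) (nat_lit 5) (nat_lit 9) (nat_lit 4) (nat_lit 7) (nat_lit 4) (nat_lit 425) (nat_lit 320) (nat_lit 275)) (XT.lf (nat_lit 0) (nat_lit 26458210923) (nat_lit 152) (nat_lit 14963521480) (nat_lit 0) (nat_lit 20221083217) (nat_lit 7) (nat_lit 5) (nat_lit 9) (nat_lit 4) (nat_lit 7) (nat_lit 4) (nat_lit 426) (nat_lit 320) (nat_lit 274)))) (XT.nd (nat_lit 78) (nat_lit 76) (nat_lit 0) (XT.lf (nat_lit 0) (nat_lit 33300240012) (nat_lit 152) (nat_lit 4103031407) (nat_lit 0) (nat_lit 27027898055) (nat_lit 7) (nat_lit 5) (nat_lit 9) (nat_lit 4) (nat_lit 7) (nat_lit 4) (nat_lit 427) (nat_lit 320) (nat_lit 273)) (XT.nd (nat_lit 78) (nat_lit 0) (nat_lit 0) (XT.lf (nat_lit 0) (nat_lit 7443952802)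 (nat_lit 76) (nat_lit 33108727622) (nat_lit 76) (nat_lit 26802848283) (nat_lit 6) (nat_lit 4) (nat_lit 7) (nat_lit 5) (nat_lit 7) (nat_lit 4) (nat_lit 428) (nat_lit 320) (nat_lit 272)) (XT.lf (nat_lit 0) (nat_lit 19617479626) (nat_lit 76) (nat_lit 28572664471) (nat_lit 76) (nat_lit 22234844770) (nat_lit 6) (nat_lit 4) (nat_lit 7) (nat_lit 5) (nat_lit 7) (nat_lit 4) (nat_lit 429) (nat_lit 320) (nat_lit 271))))) (XT.nd (nat_lit 234) (nat_lit 152) (nat_lit 0) (XT.nd (nat_lit 78) (nat_lit 0) (nat_lit 0) (XT.lf (nat_lit 0) (nat_lit 32310868905) (nat_lit 76) (nat_lit 23853768640) (nat_lit 76) (nat_lit 17485529545) (nat_lit 6) (nat_lit 4) (nat_lit 7) (nat_lit 5) (nat_lit 7) (nat_lit 4) (nat_lit 430) (nat_lit 320) (nat_lit 270)) (XT.nd (nat_lit 78) (nat_lit 0) (nat_lit 0) (XT.lf (nat_lit 0) (nat_lit 45554342993) (nat_lit 76) (nat_lit 18940804662) (nat_lit 76) (nat_lit 12543594716) (nat_lit 6) (nat_lit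 4) (nat_lit 7) (nat_lit 5) (nat_lit 7) (nat_lit 4) (nat_lit 431) (nat_lit 320) (nat_lit 269)) (XT.lf (nat_lit 0) (nat_lit 59379433972) (nat_lit 76) (nat_lit 13822075004) (nat_lit 76) (nat_lit 7397273771) (nat_lit 6) (nat_lit 4) (nat_lit 7) (nat_lit 5) (nat_lit 7) (nat_lit 4) (nat_lit 432) (nat_lit 320) (nat_lit 268)))) (XT.nd (nat_lit 156) (nat_lit 0) (nat_lit 0) (XT.nd (nat_lit 78) (nat_lit 152) (nat_lit 0) (XT.lf (nat_lit 0) (nat_lit 73819058725) (nat_lit 76) (nat_lit 8485392214) (nat_lit 76) (nat_lit 2034313565) (nat_lit 6) (nat_lit 4) (nat_lit 7) (nat_lit 5) (nat_lit 7) (nat_lit 4) (nat_lit 433) (nat_lit 320) (nat_lit 267)) (XT.lf (nat_lit 0) (nat_lit 603778422) (nat_lit 76) (nat_lit 2849823129) (nat_lit 152) (nat_lit 84810741915) (nat_lit 4) (nat_lit 5) (nat_lit 5) (nat_lit 5) (nat_lit 6) (nat_lit 4) (nat_lit 434) (nat_lit 320) (nat_lit 266))) (XT.nd (nat_lit 78) (nat_lit 0) (nat_lit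 0) (XT.lf (nat_lit 0) (nat_lit 9339094016) (nat_lit 152) (nat_lit 79887188873) (nat_lit 0) (nat_lit 3148675777) (nat_lit 4) (nat_lit 5) (nat_lit 6) (nat_lit 4) (nat_lit 4) (nat_lit 4) (nat_lit 435) (nat_lit 320) (nat_lit 265)) (XT.lf (nat_lit 0) (nat_lit 15529939811) (nat_lit 152) (nat_lit 71842709851) (nat_lit 0) (nat_lit 9317903077) (nat_lit 4) (nat_lit 5) (nat_lit 6) (nat_lit 4) (nat_lit 4) (nat_lit 4) (nat_lit 436) (nat_lit 320) (nat_lit 264)))))) (XT.nd (nat_lit 468) (nat_lit 76) (nat_lit 0) (XT.nd (nat_lit 234) (nat_lit 0) (nat_lit 0) (XT.nd (nat_lit 78) (nat_lit 0) (nat_lit 0) (XT.lf (nat_lit 0) (nat_lit 21996385321) (nat_lit 152) (nat_lit 63463480732) (nat_lit 0) (nat_lit 15763759545) (nat_lit 4) (nat_lit 5) (nat_lit 6) (nat_lit 4) (nat_lit 4) (nat_lit 4) (nat_lit 437) (nat_lit 320) (nat_lit 263)) (XT.nd (nat_lit 78) (nat_lit 0) (nat_lit 0) (XT.lf (nat_lit 0) (nat_lit 28753826845)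 (nat_lit 152) (nat_lit 54729550971) (nat_lit 0) (nat_lit 22501592456) (nat_lit 4) (nat_lit 5) (nat_lit 6) (nat_lit 4) (nat_lit 4) (nat_lit 4) (nat_lit 438) (nat_lit 320) (nat_lit 262)) (XT.lf (nat_lit 0) (nat_lit 35818353528) (nat_lit 152) (nat_lit 45620125496) (nat_lit 0) (nat_lit 29547444271) (nat_lit 4) (nat_lit 5) (nat_lit 6) (nat_lit 4) (nat_lit 4) (nat_lit 4) (nat_lit 439) (nat_lit 320) (nat_lit 261)))) (XT.nd (nat_lit 78) (nat_lit 0) (nat_lit 0) (XT.lf (nat_lit 0) (nat_lit 43206785674) (nat_lit 152) (nat_lit 36113515199) (nat_lit 0) (nat_lit 36918090826) (nat_lit 4) (nat_lit 5) (nat_lit 6) (nat_lit 4) (nat_lit 4) (nat_lit 4) (nat_lit 440) (nat_lit 320) (nat_lit 260)) (XT.nd (nat_lit 78) (nat_lit 0) (nat_lit 0) (XT.lf (nat_lit 0) (nat_lit 50936714786) (nat_lit 152) (nat_lit 26187085294) (nat_lit 0) (nat_lit 44631081282) (nat_lit 4) (nat_lit 5) (nat_lit 6) (nat_lit 4) (nat_lit 4) (nat_lit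 4) (nat_lit 441) (nat_lit 320) (nat_lit 259)) (XT.lf (nat_lit 0) (nat_lit 59026545458) (nat_lit 152) (nat_lit 15817201424) (nat_lit 0) (nat_lit 52704779900) (nat_lit 4) (nat_lit 5) (nat_lit 6) (nat_lit 4) (nat_lit 4) (nat_lit 4) (nat_lit 442) (nat_lit 320) (nat_lit 258))))) (XT.nd (nat_lit 234) (nat_lit 0) (nat_lit 0) (XT.nd (nat_lit 78) (nat_lit 76) (nat_lit 0) (XT.lf (nat_lit 0) (nat_lit 67495539192) (nat_lit 152) (nat_lit 4979173389) (nat_lit 0) (nat_lit 61158409773) (nat_lit 4) (nat_lit 5) (nat_lit 6) (nat_lit 4) (nat_lit 4) (nat_lit 4) (nat_lit 443) (nat_lit 320) (nat_lit 257)) (XT.nd (nat_lit 78) (nat_lit 0) (nat_lit 0) (XT.lf (nat_lit 0) (nat_lit 6562856016) (nat_lit 76) (nat_lit 69903468815) (nat_lit 76) (nat_lit 63551707148) (nat_lit 3) (nat_lit 4) (nat_lit 4) (nat_lit 5) (nat_lit 4) (nat_lit 4) (nat_lit 444) (nat_lit 320) (nat_lit 256)) (XT.lf (nat_lit 0) (nat_lit 18807673568)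 (nat_lit 76) (nat_lit 67138590630) (nat_lit 76) (nat_lit 60772893488) (nat_lit 3) (nat_lit 4) (nat_lit 4) (nat_lit 5) (nat_lit 4) (nat_lit 4) (nat_lit 445) (nat_lit 320) (nat_lit 255)))) (XT.nd (nat_lit 156) (nat_lit 0) (nat_lit 0) (XT.nd (nat_lit 78) (nat_lit 0) (nat_lit 0) (XT.lf (nat_lit 0) (nat_lit 31619799632) (nat_lit 76) (nat_lit 64257819694) (nat_lit 76) (nat_lit 57878850671) (nat_lit 3) (nat_lit 4) (nat_lit 4) (nat_lit 5) (nat_lit 4) (nat_lit 4) (nat_lit 446) (nat_lit 320) (nat_lit 254)) (XT.lf (nat_lit 0) (nat_lit 45029739272) (nat_lit 76) (nat_lit 61254297027) (nat_lit 76) (nat_lit 54862688118) (nat_lit 3) (nat_lit 4) (nat_lit 4) (nat_lit 5) (nat_lit 4) (nat_lit 4) (nat_lit 447) (nat_lit 320) (nat_lit 253))) (XT.nd (nat_lit 78) (nat_lit 0) (nat_lit 0) (XT.lf (nat_lit 0) (nat_lit 59069420916) (nat_lit 76) (nat_lit 58120871385) (nat_lit 76) (nat_lit 51717224489) (nat_lit 3) (nat_lit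 4) (nat_lit 4) (nat_lit 5) (nat_lit 4) (nat_lit 4) (nat_lit 448) (nat_lit 320) (nat_lit 252)) (XT.lf (nat_lit 0) (nat_lit 73772272376) (nat_lit 76) (nat_lit 54850082232) (nat_lit 76) (nat_lit 48434970586) (nat_lit 3) (nat_lit 4) (nat_lit 4) (nat_lit 5) (nat_lit 4) (nat_lit 4) (nat_lit 449) (nat_lit 320) (nat_lit 251))))))))
noncomputable def xc51 : XT := (XT.nd (nat_lit 1950) (nat_lit 0) (nat_lit 0) (XT.nd (nat_lit 936) (nat_lit 0) (nat_lit 0) (XT.nd (nat_lit 468) (nat_lit 152) (nat_lit 0) (XT.nd (nat_lit 234) (nat_lit 0) (nat_lit 0) (XT.nd (nat_lit 78) (nat_lit 0) (nat_lit 0) (XT.lf (nat_lit 0) (nat_lit 89173300442) (nat_lit 76) (nat_lit 51434141973) (nat_lit 76) (nat_lit 45008111519) (nat_lit 3) (nat_lit 4) (nat_lit 4) (nat_lit 5) (nat_lit 4) (nat_lit 4) (nat_lit 450) (nat_lit 320) (nat_lit 250)) (XT.nd (nat_lit 78) (nat_lit 0) (nat_lit 0) (XT.lf (nat_lit 0) (nat_lit 105309174228) (nat_lit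 76) (nat_lit 47864917419) (nat_lit 76) (nat_lit 41428488098) (nat_lit 3) (nat_lit 4) (nat_lit 4) (nat_lit 5) (nat_lit 4) (nat_lit 4) (nat_lit 451) (nat_lit 320) (nat_lit 249)) (XT.lf (nat_lit 0) (nat_lit 122218312481) (nat_lit 76) (nat_lit 44133910414) (nat_lit 76) (nat_lit 37687577412) (nat_lit 3) (nat_lit 4) (nat_lit 4) (nat_lit 5) (nat_lit 4) (nat_lit 4) (nat_lit 452) (nat_lit 320) (nat_lit 248)))) (XT.nd (nat_lit 78) (nat_lit 0) (nat_lit 0) (XT.lf (nat_lit 0) (nat_lit 139940975055) (nat_lit 76) (nat_lit 40232237610) (nat_lit 76) (nat_lit 33776472530) (nat_lit 3) (nat_lit 4) (nat_lit 4) (nat_lit 5) (nat_lit 4) (nat_lit 4) (nat_lit 453) (nat_lit 320) (nat_lit 247)) (XT.nd (nat_lit 78) (nat_lit 0) (nat_lit 0) (XT.lf (nat_lit 0) (nat_lit 158519358765) (nat_lit 76) (nat_lit 36150609309) (nat_lit 76) (nat_lit 29685861297) (nat_lit 3) (nat_lit 4) (nat_lit 4) (nat_lit 5) (nat_lit 4) (nat_lit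 4) (nat_lit 454) (nat_lit 320) (nat_lit 246)) (XT.lf (nat_lit 0) (nat_lit 177997697857) (nat_lit 76) (nat_lit 31879307348) (nat_lit 76) (nat_lit 25406004164) (nat_lit 3) (nat_lit 4) (nat_lit 4) (nat_lit 5) (nat_lit 4) (nat_lit 4) (nat_lit 455) (nat_lit 320) (nat_lit 245))))) (XT.nd (nat_lit 234) (nat_lit 152) (nat_lit 0) (XT.nd (nat_lit 78) (nat_lit 0) (nat_lit 0) (XT.lf (nat_lit 0) (nat_lit 198422369331) (nat_lit 76) (nat_lit 27408161960) (nat_lit 76) (nat_lit 20926710993) (nat_lit 3) (nat_lit 4) (nat_lit 4) (nat_lit 5) (nat_lit 4) (nat_lit 4) (nat_lit 456) (nat_lit 320) (nat_lit 244)) (XT.nd (nat_lit 78) (nat_lit 0) (nat_lit 0) (XT.lf (nat_lit 0) (nat_lit 219842003355) (nat_lit 76) (nat_lit 22726527563) (nat_lit 76) (nat_lit 16237316801) (nat_lit 3) (nat_lit 4) (nat_lit 4) (nat_lit 5) (nat_lit 4) (nat_lit 4) (nat_lit 457) (nat_lit 320) (nat_lit 243)) (XT.lf (nat_lit 0) (nat_lit 242307599059)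 (nat_lit 76) (nat_lit 17823257406) (nat_lit 76) (nat_lit 11326656365) (nat_lit 3) (nat_lit 4) (nat_lit 4) (nat_lit 5) (nat_lit 4) (nat_lit 4) (nat_lit 458) (nat_lit 320) (nat_lit 242)))) (XT.nd (nat_lit 78) (nat_lit 152) (nat_lit 0) (XT.lf (nat_lit 0) (nat_lit 265872645956) (nat_lit 76) (nat_lit 12686677037) (nat_lit 76) (nat_lit 6183037635) (nat_lit 3) (nat_lit 4) (nat_lit 4) (nat_lit 5) (nat_lit 4) (nat_lit 4) (nat_lit 459) (nat_lit 320) (nat_lit 241)) (XT.nd (nat_lit 78) (nat_lit 152) (nat_lit 0) (XT.lf (nat_lit 0) (nat_lit 290593251301) (nat_lit 76) (nat_lit 7304556504) (nat_lit 76) (nat_lit 794213899) (nat_lit 3) (nat_lit 4) (nat_lit 4) (nat_lit 5) (nat_lit 4) (nat_lit 4) (nat_lit 460) (nat_lit 320) (nat_lit 240)) (XT.lf (nat_lit 0) (nat_lit 3215723996) (nat_lit 76) (nat_lit 1531812882) (nat_lit 152) (nat_lit 308585874165) (nat_lit 1) (nat_lit 5) (nat_lit 2) (nat_lit 5) (nat_lit 3)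 (nat_lit 4) (nat_lit 461) (nat_lit 320) (nat_lit 239)))))) (XT.nd (nat_lit 468) (nat_lit 0) (nat_lit 0) (XT.nd (nat_lit 234) (nat_lit 0) (nat_lit 0) (XT.nd (nat_lit 78) (nat_lit 0) (nat_lit 0) (XT.lf (nat_lit 0) (nat_lit 10738788065) (nat_lit 152) (nat_lit 313430884860) (nat_lit 0) (nat_lit 4526591296) (nat_lit 1) (nat_lit 5) (nat_lit 3) (nat_lit 4) (nat_lit 1) (nat_lit 4) (nat_lit 462) (nat_lit 320) (nat_lit 238)) (XT.nd (nat_lit 78) (nat_lit 0) (nat_lit 0) (XT.lf (nat_lit 0) (nat_lit 17044217639) (nat_lit 152) (nat_lit 316955806020) (nat_lit 0) (nat_lit 10826506130) (nat_lit 1) (nat_lit 5) (nat_lit 3) (nat_lit 4) (nat_lit 1) (nat_lit 4) (nat_lit 463) (nat_lit 320) (nat_lit 237)) (XT.lf (nat_lit 0) (nat_lit 23654922637) (nat_lit 152) (nat_lit 320676927305) (nat_lit 0) (nat_lit 17431958993) (nat_lit 1) (nat_lit 5) (nat_lit 3) (nat_lit 4) (nat_lit 1) (nat_lit 4) (nat_lit 464) (nat_lit 320)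 (nat_lit 236)))) (XT.nd (nat_lit 78) (nat_lit 0) (nat_lit 0) (XT.lf (nat_lit 0) (nat_lit 30586642832) (nat_lit 152) (nat_lit 324603108528) (nat_lit 0) (nat_lit 24358677156) (nat_lit 1) (nat_lit 5) (nat_lit 3) (nat_lit 4) (nat_lit 1) (nat_lit 4) (nat_lit 465) (nat_lit 320) (nat_lit 235)) (XT.nd (nat_lit 78) (nat_lit 0) (nat_lit 0) (XT.lf (nat_lit 0) (nat_lit 37855882320) (nat_lit 152) (nat_lit 328743697740) (nat_lit 0) (nat_lit 31623152804) (nat_lit 1) (nat_lit 5) (nat_lit 3) (nat_lit 4) (nat_lit 1) (nat_lit 4) (nat_lit 466) (nat_lit 320) (nat_lit 234)) (XT.lf (nat_lit 0) (nat_lit 45479948814) (nat_lit 152) (nat_lit 333108553485) (nat_lit 0) (nat_lit 39242682308) (nat_lit 1) (nat_lit 5) (nat_lit 3) (nat_lit 4) (nat_lit 1) (nat_lit 4) (nat_lit 467) (nat_lit 320) (nat_lit 233))))) (XT.nd (nat_lit 234) (nat_lit 0) (nat_lit 0) (XT.nd (nat_lit 78) (nat_lit 0) (nat_lit 0) (XT.lf (nat_lit 0) (nat_lit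 53476994854) (nat_lit 152) (nat_lit 337708068278) (nat_lit 0) (nat_lit 47235407404) (nat_lit 1) (nat_lit 5) (nat_lit 3) (nat_lit 4) (nat_lit 1) (nat_lit 4) (nat_lit 468) (nat_lit 320) (nat_lit 232)) (XT.nd (nat_lit 78) (nat_lit 0) (nat_lit 0) (XT.lf (nat_lit 0) (nat_lit 61866061025) (nat_lit 152) (nat_lit 342553193345) (nat_lit 0) (nat_lit 55620358391) (nat_lit 1) (nat_lit 5) (nat_lit 3) (nat_lit 4) (nat_lit 1) (nat_lit 4) (nat_lit 469) (nat_lit 320) (nat_lit 231)) (XT.lf (nat_lit 0) (nat_lit 70667121294) (nat_lit 152) (nat_lit 347655464697) (nat_lit 0) (nat_lit 64417499437) (nat_lit 1) (nat_lit 5) (nat_lit 3) (nat_lit 4) (nat_lit 1) (nat_lit 4) (nat_lit 470) (nat_lit 320) (nat_lit 230)))) (XT.nd (nat_lit 156) (nat_lit 0) (nat_lit 0) (XT.nd (nat_lit 78) (nat_lit 0) (nat_lit 0) (XT.lf (nat_lit 0) (nat_lit 79901130567) (nat_lit 152) (nat_lit 353027030600) (nat_lit 0) (nat_lit 73647776116)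 (nat_lit 1) (nat_lit 5) (nat_lit 3) (nat_lit 4) (nat_lit 1) (nat_lit 4) (nat_lit 471) (nat_lit 320) (nat_lit 229)) (XT.lf (nat_lit 0) (nat_lit 89590074580) (nat_lit 152) (nat_lit 358680680497) (nat_lit 0) (nat_lit 83333165278) (nat_lit 1) (nat_lit 5) (nat_lit 3) (nat_lit 4) (nat_lit 1) (nat_lit 4) (nat_lit 472) (nat_lit 320) (nat_lit 228))) (XT.nd (nat_lit 78) (nat_lit 0) (nat_lit 0) (XT.lf (nat_lit 0) (nat_lit 99757022247) (nat_lit 152) (nat_lit 364629875457) (nat_lit 0) (nat_lit 93496727373) (nat_lit 1) (nat_lit 5) (nat_lit 3) (nat_lit 4) (nat_lit 1) (nat_lit 4) (nat_lit 473) (nat_lit 320) (nat_lit 227)) (XT.lf (nat_lit 0) (nat_lit 110426180588) (nat_lit 152) (nat_lit 370888780233) (nat_lit 0) (nat_lit 104162661359) (nat_lit 1) (nat_lit 5) (nat_lit 3) (nat_lit 4) (nat_lit 1) (nat_lit 4) (nat_lit 474) (nat_lit 320) (nat_lit 226))))))) (XT.nd (nat_lit 46098) (nat_lit 0) (nat_lit 1596) (XT.nd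 (nat_lit 45552) (nat_lit 0) (nat_lit 2660) (XT.nd (nat_lit 234) (nat_lit 0) (nat_lit 0) (XT.nd (nat_lit 78) (nat_lit 0) (nat_lit 0) (XT.lf (nat_lit 0) (nat_lit 121622952358) (nat_lit 152) (nat_lit 377472296976) (nat_lit 0) (nat_lit 115356362315) (nat_lit 1) (nat_lit 5) (nat_lit 3) (nat_lit 4) (nat_lit 1) (nat_lit 4) (nat_lit 475) (nat_lit 320) (nat_lit 225)) (XT.nd (nat_lit 78) (nat_lit 0) (nat_lit 0) (XT.lf (nat_lit 0) (nat_lit 133373996540) (nat_lit 152) (nat_lit 384396100729) (nat_lit 0) (nat_lit 127104481912) (nat_lit 1) (nat_lit 5) (nat_lit 3) (nat_lit 4) (nat_lit 1) (nat_lit 4) (nat_lit 476) (nat_lit 320) (nat_lit 224)) (XT.lf (nat_lit 0) (nat_lit 145707291809) (nat_lit 152) (nat_lit 391676676736) (nat_lit 0) (nat_lit 139434991863) (nat_lit 1) (nat_lit 5) (nat_lit 3) (nat_lit 4) (nat_lit 1) (nat_lit 4) (nat_lit 477) (nat_lit 320) (nat_lit 223)))) (XT.nd (nat_lit 78) (nat_lit 0) (nat_lit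 0) (XT.lf (nat_lit 0) (nat_lit 158652203155) (nat_lit 152) (nat_lit 399331359704) (nat_lit 0) (nat_lit 152377250524) (nat_lit 1) (nat_lit 5) (nat_lit 3) (nat_lit 4) (nat_lit 1) (nat_lit 4) (nat_lit 478) (nat_lit 320) (nat_lit 222)) (XT.nd (nat_lit 78) (nat_lit 0) (nat_lit 0) (XT.lf (nat_lit 0) (nat_lit 172239551794) (nat_lit 152) (nat_lit 407378375068) (nat_lit 0) (nat_lit 165962072797) (nat_lit 1) (nat_lit 5) (nat_lit 3) (nat_lit 4) (nat_lit 1) (nat_lit 4) (nat_lit 479) (nat_lit 320) (nat_lit 221)) (XT.lf (nat_lit 0) (nat_lit 186501688557) (nat_lit 152) (nat_lit 415836882389) (nat_lit 0) (nat_lit 180221803498) (nat_lit 1) (nat_lit 5) (nat_lit 3) (nat_lit 4) (nat_lit 1) (nat_lit 4) (nat_lit 480) (nat_lit 320) (nat_lit 220))))) (XT.nd (nat_lit 234) (nat_lit 456) (nat_lit 0) (XT.nd (nat_lit 78) (nat_lit 380) (nat_lit 0) (XT.lf (nat_lit 0) (nat_lit 2755187573) (nat_lit 152) (nat_lit 1391769622)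 (nat_lit 152) (nat_lit 1391769622) (nat_lit 47) (nat_lit 4) (nat_lit 49) (nat_lit 5) (nat_lit 49) (nat_lit 4) (nat_lit 378) (nat_lit 321) (nat_lit 321)) (XT.nd (nat_lit 78) (nat_lit 152) (nat_lit 0) (XT.lf (nat_lit 0) (nat_lit 2030928088) (nat_lit 228) (nat_lit 7892333449) (nat_lit 0) (nat_lit 1434308103) (nat_lit 44) (nat_lit 5) (nat_lit 47) (nat_lit 4) (nat_lit 44) (nat_lit 4) (nat_lit 379) (nat_lit 321) (nat_lit 320)) (XT.lf (nat_lit 0) (nat_lit 1133819896) (nat_lit 152) (nat_lit 5840688298) (nat_lit 152) (nat_lit 4675858805) (nat_lit 42) (nat_lit 4) (nat_lit 44) (nat_lit 5) (nat_lit 44) (nat_lit 4) (nat_lit 380) (nat_lit 321) (nat_lit 319)))) (XT.nd (nat_lit 156) (nat_lit 304) (nat_lit 0) (XT.nd (nat_lit 78) (nat_lit 76) (nat_lit 0) (XT.lf (nat_lit 0) (nat_lit 160307335) (nat_lit 228) (nat_lit 1377351370) (nat_lit 76) (nat_lit 10422058213) (nat_lit 41) (nat_lit 5) (nat_lit 44) (nat_lit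 5) (nat_lit 42) (nat_lit 4) (nat_lit 381) (nat_lit 321) (nat_lit 318)) (XT.lf (nat_lit 0) (nat_lit 5087734579) (nat_lit 152) (nat_lit 4220534357) (nat_lit 0) (nat_lit 2972149644) (nat_lit 40) (nat_lit 5) (nat_lit 42) (nat_lit 4) (nat_lit 40) (nat_lit 4) (nat_lit 382) (nat_lit 321) (nat_lit 317))) (XT.nd (nat_lit 78) (nat_lit 152) (nat_lit 0) (XT.lf (nat_lit 0) (nat_lit 5250092992) (nat_lit 152) (nat_lit 4975966327) (nat_lit 152) (nat_lit 2392914023) (nat_lit 38) (nat_lit 4) (nat_lit 40) (nat_lit 5) (nat_lit 40) (nat_lit 4) (nat_lit 383) (nat_lit 321) (nat_lit 316)) (XT.lf (nat_lit 0) (nat_lit 2100682774) (nat_lit 76) (nat_lit 401240199) (nat_lit 152) (nat_lit 10473517131) (nat_lit 36) (nat_lit 5) (nat_lit 37) (nat_lit 5) (nat_lit 38) (nat_lit 4) (nat_lit 384) (nat_lit 321) (nat_lit 315)))))) (XT.nd (nat_lit 468) (nat_lit 456) (nat_lit 0) (XT.nd (nat_lit 234) (nat_lit 304) (nat_lit 0) (XT.nd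 (nat_lit 78) (nat_lit 304) (nat_lit 0) (XT.lf (nat_lit 0) (nat_lit 7592395626) (nat_lit 152) (nat_lit 1449322651) (nat_lit 0) (nat_lit 4304523238) (nat_lit 36) (nat_lit 5) (nat_lit 38) (nat_lit 4) (nat_lit 36) (nat_lit 4) (nat_lit 385) (nat_lit 321) (nat_lit 314)) (XT.nd (nat_lit 78) (nat_lit 152) (nat_lit 0) (XT.lf (nat_lit 0) (nat_lit 8429279239) (nat_lit 152) (nat_lit 4489856002) (nat_lit 152) (nat_lit 817397052) (nat_lit 34) (nat_lit 4) (nat_lit 36) (nat_lit 5) (nat_lit 36) (nat_lit 4) (nat_lit 386) (nat_lit 321) (nat_lit 313)) (XT.lf (nat_lit 0) (nat_lit 4170725353) (nat_lit 152) (nat_lit 9650693781) (nat_lit 0) (nat_lit 324314053) (nat_lit 32) (nat_lit 5) (nat_lit 34) (nat_lit 4) (nat_lit 32) (nat_lit 4) (nat_lit 387) (nat_lit 321) (nat_lit 312)))) (XT.nd (nat_lit 78) (nat_lit 152) (nat_lit 0) (XT.lf (nat_lit 0) (nat_lit 30148223) (nat_lit 152) (nat_lit 9361351621) (nat_lit 152) (nat_lit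 5182719989) (nat_lit 30) (nat_lit 4) (nat_lit 32) (nat_lit 5) (nat_lit 32) (nat_lit 4) (nat_lit 388) (nat_lit 321) (nat_lit 311)) (XT.nd (nat_lit 78) (nat_lit 152) (nat_lit 0) (XT.lf (nat_lit 0) (nat_lit 10251508066) (nat_lit 152) (nat_lit 4633548751) (nat_lit 152) (nat_lit 138516803) (nat_lit 30) (nat_lit 4) (nat_lit 32) (nat_lit 5) (nat_lit 32) (nat_lit 4) (nat_lit 389) (nat_lit 321) (nat_lit 310)) (XT.lf (nat_lit 0) (nat_lit 4934727311) (nat_lit 152) (nat_lit 10192812662) (nat_lit 0) (nat_lit 366760089) (nat_lit 28) (nat_lit 5) (nat_lit 30) (nat_lit 4) (nat_lit 28) (nat_lit 4) (nat_lit 390) (nat_lit 321) (nat_lit 309))))) (XT.nd (nat_lit 234) (nat_lit 228) (nat_lit 0) (XT.nd (nat_lit 78) (nat_lit 228) (nat_lit 0) (XT.lf (nat_lit 0) (nat_lit 10269154113) (nat_lit 152) (nat_lit 290843908) (nat_lit 0) (nat_lit 5427868402) (nat_lit 28) (nat_lit 5) (nat_lit 30) (nat_lit 4) (nat_lit 28) (nat_lit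 4) (nat_lit 391) (nat_lit 321) (nat_lit 308)) (XT.nd (nat_lit 78) (nat_lit 152) (nat_lit 0) (XT.lf (nat_lit 0) (nat_lit 10173594380) (nat_lit 76) (nat_lit 5716568697) (nat_lit 76) (nat_lit 614979664) (nat_lit 27) (nat_lit 4) (nat_lit 28) (nat_lit 5) (nat_lit 28) (nat_lit 4) (nat_lit 392) (nat_lit 321) (nat_lit 307)) (XT.lf (nat_lit 0) (nat_lit 3915812156) (nat_lit 76) (nat_lit 603850827) (nat_lit 152) (nat_lit 12528561013) (nat_lit 25) (nat_lit 5) (nat_lit 26) (nat_lit 5) (nat_lit 27) (nat_lit 4) (nat_lit 393) (nat_lit 321) (nat_lit 306)))) (XT.nd (nat_lit 156) (nat_lit 152) (nat_lit 0) (XT.nd (nat_lit 78) (nat_lit 76) (nat_lit 0) (XT.lf (nat_lit 0) (nat_lit 9935933826) (nat_lit 152) (nat_lit 3063449535) (nat_lit 0) (nat_lit 4616315019) (nat_lit 25) (nat_lit 5) (nat_lit 27) (nat_lit 4) (nat_lit 25) (nat_lit 4) (nat_lit 394) (nat_lit 321) (nat_lit 305)) (XT.lf (nat_lit 0) (nat_lit 7491717075)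 (nat_lit 76) (nat_lit 8126919885) (nat_lit 76) (nat_lit 2593148890) (nat_lit 24) (nat_lit 4) (nat_lit 25) (nat_lit 5) (nat_lit 25) (nat_lit 4) (nat_lit 395) (nat_lit 321) (nat_lit 304))) (XT.nd (nat_lit 78) (nat_lit 76) (nat_lit 0) (XT.lf (nat_lit 0) (nat_lit 2581658915) (nat_lit 152) (nat_lit 445324682) (nat_lit 76) (nat_lit 15812477070) (nat_lit 23) (nat_lit 5) (nat_lit 25) (nat_lit 5) (nat_lit 24) (nat_lit 4) (nat_lit 396) (nat_lit 321) (nat_lit 303)) (XT.lf (nat_lit 0) (nat_lit 8003679837) (nat_lit 152) (nat_lit 9134763731) (nat_lit 0) (nat_lit 2354186687) (nat_lit 22) (nat_lit 5) (nat_lit 24) (nat_lit 4) (nat_lit 22) (nat_lit 4) (nat_lit 397) (nat_lit 321) (nat_lit 302))))))))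
noncomputable def xc52 : XT := (XT.nd (nat_lit 1950) (nat_lit 456) (nat_lit 0) (XT.nd (nat_lit 936) (nat_lit 380) (nat_lit 0) (XT.nd (nat_lit 468) (nat_lit 304) (nat_lit 0) (XT.nd (nat_lit 234) (nat_lit 76) (nat_lit 0) (XT.nd (nat_lit 78) (nat_lit 152) (nat_lit 0) (XT.lf (nat_lit 0) (nat_lit 1293938270) (nat_lit 76) (nat_lit 12356271521) (nat_lit 76) (nat_lit 6530594836) (nat_lit 21) (nat_lit 4) (nat_lit 22) (nat_lit 5) (nat_lit 22) (nat_lit 4) (nat_lit 398) (nat_lit 321) (nat_lit 301)) (XT.nd (nat_lit 78) (nat_lit 152) (nat_lit 0) (XT.lf (nat_lit 0) (nat_lit 12328699213) (nat_lit 76) (nat_lit 7283265021) (nat_lit 76) (nat_lit 1289794493) (nat_lit 21) (nat_lit 4) (nat_lit 22) (nat_lit 5) (nat_lit 22) (nat_lit 4) (nat_lit 399) (nat_lit 321) (nat_lit 300)) (XT.lf (nat_lit 0) (nat_lit 2030286257) (nat_lit 76) (nat_lit 1961694447) (nat_lit 152) (nat_lit 17667816454) (nat_lit 19) (nat_lit 5)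 (nat_lit 20) (nat_lit 5) (nat_lit 21) (nat_lit 4) (nat_lit 400) (nat_lit 321) (nat_lit 299)))) (XT.nd (nat_lit 78) (nat_lit 76) (nat_lit 0) (XT.lf (nat_lit 0) (nat_lit 9581258933) (nat_lit 152) (nat_lit 9293045948) (nat_lit 0) (nat_lit 3576051171) (nat_lit 19) (nat_lit 5) (nat_lit 21) (nat_lit 4) (nat_lit 19) (nat_lit 4) (nat_lit 401) (nat_lit 321) (nat_lit 298)) (XT.nd (nat_lit 78) (nat_lit 0) (nat_lit 0) (XT.lf (nat_lit 0) (nat_lit 1356382871) (nat_lit 76) (nat_lit 14035124971) (nat_lit 76) (nat_lit 7891872800) (nat_lit 18) (nat_lit 4) (nat_lit 19) (nat_lit 5) (nat_lit 19) (nat_lit 4) (nat_lit 402) (nat_lit 321) (nat_lit 297)) (XT.lf (nat_lit 0) (nat_lit 12649273094) (nat_lit 76) (nat_lit 8890570085) (nat_lit 76) (nat_lit 2615847047) (nat_lit 18) (nat_lit 4) (nat_lit 19) (nat_lit 5) (nat_lit 19) (nat_lit 4) (nat_lit 403) (nat_lit 321) (nat_lit 296))))) (XT.nd (nat_lit 234) (nat_lit 152)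 (nat_lit 0) (XT.nd (nat_lit 78) (nat_lit 76) (nat_lit 0) (XT.lf (nat_lit 0) (nat_lit 2724089182) (nat_lit 152) (nat_lit 815550563) (nat_lit 76) (nat_lit 21535019534) (nat_lit 17) (nat_lit 5) (nat_lit 19) (nat_lit 5) (nat_lit 18) (nat_lit 4) (nat_lit 404) (nat_lit 321) (nat_lit 295)) (XT.nd (nat_lit 78) (nat_lit 0) (nat_lit 0) (XT.lf (nat_lit 0) (nat_lit 8340308534) (nat_lit 152) (nat_lit 15560710683) (nat_lit 0) (nat_lit 2131564402) (nat_lit 16) (nat_lit 5) (nat_lit 18) (nat_lit 4) (nat_lit 16) (nat_lit 4) (nat_lit 405) (nat_lit 321) (nat_lit 294)) (XT.lf (nat_lit 0) (nat_lit 14208533443) (nat_lit 152) (nat_lit 4939693354) (nat_lit 0) (nat_lit 7891627903) (nat_lit 16) (nat_lit 5) (nat_lit 18) (nat_lit 4) (nat_lit 16) (nat_lit 4) (nat_lit 406) (nat_lit 321) (nat_lit 293)))) (XT.nd (nat_lit 78) (nat_lit 76) (nat_lit 0) (XT.lf (nat_lit 0) (nat_lit 6225232442) (nat_lit 76) (nat_lit 14146063377)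 (nat_lit 76) (nat_lit 7726146973) (nat_lit 15) (nat_lit 4) (nat_lit 16) (nat_lit 5) (nat_lit 16) (nat_lit 4) (nat_lit 407) (nat_lit 321) (nat_lit 292)) (XT.nd (nat_lit 78) (nat_lit 76) (nat_lit 0) (XT.lf (nat_lit 0) (nat_lit 17936517086) (nat_lit 76) (nat_lit 8894979733) (nat_lit 76) (nat_lit 2376957745) (nat_lit 15) (nat_lit 4) (nat_lit 16) (nat_lit 5) (nat_lit 16) (nat_lit 4) (nat_lit 408) (nat_lit 321) (nat_lit 291)) (XT.lf (nat_lit 0) (nat_lit 3044656402) (nat_lit 152) (nat_lit 369910253) (nat_lit 76) (nat_lit 26962496884) (nat_lit 14) (nat_lit 5) (nat_lit 16) (nat_lit 5) (nat_lit 15) (nat_lit 4) (nat_lit 409) (nat_lit 321) (nat_lit 290)))))) (XT.nd (nat_lit 468) (nat_lit 152) (nat_lit 0) (XT.nd (nat_lit 234) (nat_lit 76) (nat_lit 0) (XT.nd (nat_lit 78) (nat_lit 76) (nat_lit 0) (XT.lf (nat_lit 0) (nat_lit 8784543244) (nat_lit 152) (nat_lit 20408094454) (nat_lit 0) (nat_lit 2403171305)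 (nat_lit 13) (nat_lit 5) (nat_lit 15) (nat_lit 4) (nat_lit 13) (nat_lit 4) (nat_lit 410) (nat_lit 321) (nat_lit 289)) (XT.nd (nat_lit 78) (nat_lit 76) (nat_lit 0) (XT.lf (nat_lit 0) (nat_lit 14787051788) (nat_lit 152) (nat_lit 9764698095) (nat_lit 0) (nat_lit 8324968142) (nat_lit 13) (nat_lit 5) (nat_lit 15) (nat_lit 4) (nat_lit 13) (nat_lit 4) (nat_lit 411) (nat_lit 321) (nat_lit 288)) (XT.lf (nat_lit 0) (nat_lit 1290748254) (nat_lit 76) (nat_lit 19736502608) (nat_lit 76) (nat_lit 13197550669) (nat_lit 12) (nat_lit 4) (nat_lit 13) (nat_lit 5) (nat_lit 13) (nat_lit 4) (nat_lit 412) (nat_lit 321) (nat_lit 287)))) (XT.nd (nat_lit 78) (nat_lit 76) (nat_lit 0) (XT.lf (nat_lit 0) (nat_lit 13079147096) (nat_lit 76) (nat_lit 14584548553) (nat_lit 76) (nat_lit 7972388716) (nat_lit 12) (nat_lit 4) (nat_lit 13) (nat_lit 5) (nat_lit 13) (nat_lit 4) (nat_lit 413) (nat_lit 321) (nat_lit 286)) (XT.nd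 (nat_lit 78) (nat_lit 76) (nat_lit 0) (XT.lf (nat_lit 0) (nat_lit 25305701030) (nat_lit 76) (nat_lit 9248991048) (nat_lit 76) (nat_lit 2567109403) (nat_lit 12) (nat_lit 4) (nat_lit 13) (nat_lit 5) (nat_lit 13) (nat_lit 4) (nat_lit 414) (nat_lit 321) (nat_lit 285)) (XT.lf (nat_lit 0) (nat_lit 2934141027) (nat_lit 152) (nat_lit 733294259) (nat_lit 76) (nat_lit 35015688772) (nat_lit 11) (nat_lit 5) (nat_lit 13) (nat_lit 5) (nat_lit 12) (nat_lit 4) (nat_lit 415) (nat_lit 321) (nat_lit 284))))) (XT.nd (nat_lit 234) (nat_lit 76) (nat_lit 0) (XT.nd (nat_lit 78) (nat_lit 0) (nat_lit 0) (XT.lf (nat_lit 0) (nat_lit 8762576555) (nat_lit 152) (nat_lit 29275506318) (nat_lit 0) (nat_lit 2275411698) (nat_lit 10) (nat_lit 5) (nat_lit 12) (nat_lit 4) (nat_lit 10) (nat_lit 4) (nat_lit 416) (nat_lit 321) (nat_lit 283)) (XT.nd (nat_lit 78) (nat_lit 0) (nat_lit 0) (XT.lf (nat_lit 0) (nat_lit 14884134139) (nat_lit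 152) (nat_lit 18801560918) (nat_lit 0) (nat_lit 8339608978) (nat_lit 10) (nat_lit 5) (nat_lit 12) (nat_lit 4) (nat_lit 10) (nat_lit 4) (nat_lit 417) (nat_lit 321) (nat_lit 282)) (XT.lf (nat_lit 0) (nat_lit 21244108756) (nat_lit 152) (nat_lit 7937028704) (nat_lit 0) (nat_lit 14644954734) (nat_lit 10) (nat_lit 5) (nat_lit 12) (nat_lit 4) (nat_lit 10) (nat_lit 4) (nat_lit 418) (nat_lit 321) (nat_lit 281)))) (XT.nd (nat_lit 156) (nat_lit 0) (nat_lit 0) (XT.nd (nat_lit 78) (nat_lit 0) (nat_lit 0) (XT.lf (nat_lit 0) (nat_lit 3454524618) (nat_lit 76) (nat_lit 24457053394) (nat_lit 76) (nat_lit 17805871886) (nat_lit 9) (nat_lit 4) (nat_lit 10) (nat_lit 5) (nat_lit 10) (nat_lit 4) (nat_lit 419) (nat_lit 321) (nat_lit 280)) (XT.lf (nat_lit 0) (nat_lit 15566484164) (nat_lit 76) (nat_lit 19417036265) (nat_lit 76) (nat_lit 12716304770) (nat_lit 9) (nat_lit 4) (nat_lit 10) (nat_lit 5) (nat_lit 10) (nat_lit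 4) (nat_lit 420) (nat_lit 321) (nat_lit 279))) (XT.nd (nat_lit 78) (nat_lit 0) (nat_lit 0) (XT.lf (nat_lit 0) (nat_lit 28165253920) (nat_lit 76) (nat_lit 14183503454) (nat_lit 76) (nat_lit 7435581495) (nat_lit 9) (nat_lit 4) (nat_lit 10) (nat_lit 5) (nat_lit 10) (nat_lit 4) (nat_lit 421) (nat_lit 321) (nat_lit 278)) (XT.lf (nat_lit 0) (nat_lit 41280830956) (nat_lit 76) (nat_lit 8743994169) (nat_lit 76) (nat_lit 1951128912) (nat_lit 9) (nat_lit 4) (nat_lit 10) (nat_lit 5) (nat_lit 10) (nat_lit 4) (nat_lit 422) (nat_lit 321) (nat_lit 277))))))) (XT.nd (nat_lit 1014) (nat_lit 76) (nat_lit 0) (XT.nd (nat_lit 468) (nat_lit 228) (nat_lit 0) (XT.nd (nat_lit 234) (nat_lit 0) (nat_lit 0) (XT.nd (nat_lit 78) (nat_lit 0) (nat_lit 0) (XT.lf (nat_lit 0) (nat_lit 626041495) (nat_lit 76) (nat_lit 3013816989) (nat_lit 152) (nat_lit 50636614147) (nat_lit 7) (nat_lit 5) (nat_lit 8) (nat_lit 5) (nat_lit 9)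 (nat_lit 4) (nat_lit 423) (nat_lit 321) (nat_lit 276)) (XT.nd (nat_lit 78) (nat_lit 0) (nat_lit 0) (XT.lf (nat_lit 0) (nat_lit 9620341026) (nat_lit 152) (nat_lit 43989947765) (nat_lit 0) (nat_lit 3071356935) (nat_lit 7) (nat_lit 5) (nat_lit 9) (nat_lit 4) (nat_lit 7) (nat_lit 4) (nat_lit 424) (nat_lit 321) (nat_lit 275)) (XT.lf (nat_lit 0) (nat_lit 15896432547) (nat_lit 152) (nat_lit 34000345699) (nat_lit 0) (nat_lit 9310473493) (nat_lit 7) (nat_lit 5) (nat_lit 9) (nat_lit 4) (nat_lit 7) (nat_lit 4) (nat_lit 425) (nat_lit 321) (nat_lit 274)))) (XT.nd (nat_lit 78) (nat_lit 0) (nat_lit 0) (XT.lf (nat_lit 0) (nat_lit 22436021993) (nat_lit 152) (nat_lit 23610786042) (nat_lit 0) (nat_lit 15814848688) (nat_lit 7) (nat_lit 5) (nat_lit 9) (nat_lit 4) (nat_lit 7) (nat_lit 4) (nat_lit 426) (nat_lit 321) (nat_lit 273)) (XT.nd (nat_lit 78) (nat_lit 0) (nat_lit 0) (XT.lf (nat_lit 0) (nat_lit 29254679815)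 (nat_lit 152) (nat_lit 12796531747) (nat_lit 0) (nat_lit 22599969129) (nat_lit 7) (nat_lit 5) (nat_lit 9) (nat_lit 4) (nat_lit 7) (nat_lit 4) (nat_lit 427) (nat_lit 321) (nat_lit 272)) (XT.lf (nat_lit 0) (nat_lit 36368640913) (nat_lit 152) (nat_lit 1531834589) (nat_lit 0) (nat_lit 29681989863) (nat_lit 7) (nat_lit 5) (nat_lit 9) (nat_lit 4) (nat_lit 7) (nat_lit 4) (nat_lit 428) (nat_lit 321) (nat_lit 271))))) (XT.nd (nat_lit 234) (nat_lit 152) (nat_lit 0) (XT.nd (nat_lit 78) (nat_lit 0) (nat_lit 0) (XT.lf (nat_lit 0) (nat_lit 10547719017) (nat_lit 76) (nat_lit 33411803726) (nat_lit 76) (nat_lit 26694733282) (nat_lit 6) (nat_lit 4) (nat_lit 7) (nat_lit 5) (nat_lit 7) (nat_lit 4) (nat_lit 429) (nat_lit 321) (nat_lit 270)) (XT.nd (nat_lit 78) (nat_lit 0) (nat_lit 0) (XT.lf (nat_lit 0) (nat_lit 23199847489) (nat_lit 76) (nat_lit 28713335526) (nat_lit 76) (nat_lit 21967294231) (nat_lit 6) (nat_lit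 4) (nat_lit 7) (nat_lit 5) (nat_lit 7) (nat_lit 4) (nat_lit 430) (nat_lit 321) (nat_lit 269)) (XT.lf (nat_lit 0) (nat_lit 36404025570) (nat_lit 76) (nat_lit 23819826435) (nat_lit 76) (nat_lit 17046193854) (nat_lit 6) (nat_lit 4) (nat_lit 7) (nat_lit 5) (nat_lit 7) (nat_lit 4) (nat_lit 431) (nat_lit 321) (nat_lit 268)))) (XT.nd (nat_lit 156) (nat_lit 152) (nat_lit 0) (XT.nd (nat_lit 78) (nat_lit 0) (nat_lit 0) (XT.lf (nat_lit 0) (nat_lit 50191691781) (nat_lit 76) (nat_lit 18719625241) (nat_lit 76) (nat_lit 11919715243) (nat_lit 6) (nat_lit 4) (nat_lit 7) (nat_lit 5) (nat_lit 7) (nat_lit 4) (nat_lit 432) (nat_lit 321) (nat_lit 267)) (XT.lf (nat_lit 0) (nat_lit 64595673898) (nat_lit 76) (nat_lit 13400588607) (nat_lit 76) (nat_lit 6575652499) (nat_lit 6) (nat_lit 4) (nat_lit 7) (nat_lit 5) (nat_lit 7) (nat_lit 4) (nat_lit 433) (nat_lit 321) (nat_lit 266))) (XT.nd (nat_lit 78) (nat_lit 152) (nat_lit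 0) (XT.lf (nat_lit 0) (nat_lit 79650267116) (nat_lit 76) (nat_lit 7850052161) (nat_lit 76) (nat_lit 1001281662) (nat_lit 6) (nat_lit 4) (nat_lit 7) (nat_lit 5) (nat_lit 7) (nat_lit 4) (nat_lit 434) (nat_lit 321) (nat_lit 265)) (XT.lf (nat_lit 0) (nat_lit 2775500890) (nat_lit 76) (nat_lit 1930338528) (nat_lit 152) (nat_lit 87917680293) (nat_lit 4) (nat_lit 5) (nat_lit 5) (nat_lit 5) (nat_lit 6) (nat_lit 4) (nat_lit 435) (nat_lit 321) (nat_lit 264)))))) (XT.nd (nat_lit 468) (nat_lit 76) (nat_lit 0) (XT.nd (nat_lit 234) (nat_lit 0) (nat_lit 0) (XT.nd (nat_lit 78) (nat_lit 0) (nat_lit 0) (XT.lf (nat_lit 0) (nat_lit 10849989866) (nat_lit 152) (nat_lit 81806315880) (nat_lit 0) (nat_lit 4285143758) (nat_lit 4) (nat_lit 5) (nat_lit 6) (nat_lit 4) (nat_lit 4) (nat_lit 4) (nat_lit 436) (nat_lit 321) (nat_lit 263)) (XT.nd (nat_lit 78) (nat_lit 0) (nat_lit 0) (XT.lf (nat_lit 0) (nat_lit 17300666468)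 (nat_lit 152) (nat_lit 73458433500) (nat_lit 0) (nat_lit 10716211747) (nat_lit 4) (nat_lit 5) (nat_lit 6) (nat_lit 4) (nat_lit 4) (nat_lit 4) (nat_lit 437) (nat_lit 321) (nat_lit 262)) (XT.lf (nat_lit 0) (nat_lit 24043089984) (nat_lit 152) (nat_lit 64754357775) (nat_lit 0) (nat_lit 17439960394) (nat_lit 4) (nat_lit 5) (nat_lit 6) (nat_lit 4) (nat_lit 4) (nat_lit 4) (nat_lit 438) (nat_lit 321) (nat_lit 261)))) (XT.nd (nat_lit 78) (nat_lit 0) (nat_lit 0) (XT.lf (nat_lit 0) (nat_lit 31093313803) (nat_lit 152) (nat_lit 55673364715) (nat_lit 0) (nat_lit 24472398624) (nat_lit 4) (nat_lit 5) (nat_lit 6) (nat_lit 4) (nat_lit 4) (nat_lit 4) (nat_lit 439) (nat_lit 321) (nat_lit 260)) (XT.nd (nat_lit 78) (nat_lit 0) (nat_lit 0) (XT.lf (nat_lit 0) (nat_lit 38468124172) (nat_lit 152) (nat_lit 46193832909) (nat_lit 0) (nat_lit 31830270337) (nat_lit 4) (nat_lit 5) (nat_lit 6) (nat_lit 4) (nat_lit 4) (nat_lit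 4) (nat_lit 440) (nat_lit 321) (nat_lit 259)) (XT.lf (nat_lit 0) (nat_lit 46185080165) (nat_lit 152) (nat_lit 36293192044) (nat_lit 0) (nat_lit 39531094275) (nat_lit 4) (nat_lit 5) (nat_lit 6) (nat_lit 4) (nat_lit 4) (nat_lit 4) (nat_lit 441) (nat_lit 321) (nat_lit 258))))) (XT.nd (nat_lit 234) (nat_lit 76) (nat_lit 0) (XT.nd (nat_lit 78) (nat_lit 0) (nat_lit 0) (XT.lf (nat_lit 0) (nat_lit 54262555484) (nat_lit 152) (nat_lit 25947869163) (nat_lit 0) (nat_lit 47593205734) (nat_lit 4) (nat_lit 5) (nat_lit 6) (nat_lit 4) (nat_lit 4) (nat_lit 4) (nat_lit 442) (nat_lit 321) (nat_lit 257)) (XT.nd (nat_lit 78) (nat_lit 0) (nat_lit 0) (XT.lf (nat_lit 0) (nat_lit 62719782216) (nat_lit 152) (nat_lit 15133232547) (nat_lit 0) (nat_lit 56035800217) (nat_lit 4) (nat_lit 5) (nat_lit 6) (nat_lit 4) (nat_lit 4) (nat_lit 4) (nat_lit 443) (nat_lit 321) (nat_lit 256)) (XT.lf (nat_lit 0) (nat_lit 71576896613)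 (nat_lit 152) (nat_lit 3823533061) (nat_lit 0) (nat_lit 64878979139) (nat_lit 4) (nat_lit 5) (nat_lit 6) (nat_lit 4) (nat_lit 4) (nat_lit 4) (nat_lit 444) (nat_lit 321) (nat_lit 255)))) (XT.nd (nat_lit 156) (nat_lit 0) (nat_lit 0) (XT.nd (nat_lit 78) (nat_lit 0) (nat_lit 0) (XT.lf (nat_lit 0) (nat_lit 8272942993) (nat_lit 76) (nat_lit 72711207875) (nat_lit 76) (nat_lit 66000018521) (nat_lit 3) (nat_lit 4) (nat_lit 4) (nat_lit 5) (nat_lit 4) (nat_lit 4) (nat_lit 445) (nat_lit 321) (nat_lit 254)) (XT.lf (nat_lit 0) (nat_lit 21064194556) (nat_lit 76) (nat_lit 69840820751) (nat_lit 76) (nat_lit 63116991510) (nat_lit 3) (nat_lit 4) (nat_lit 4) (nat_lit 5) (nat_lit 4) (nat_lit 4) (nat_lit 446) (nat_lit 321) (nat_lit 253))) (XT.nd (nat_lit 78) (nat_lit 0) (nat_lit 0) (XT.lf (nat_lit 0) (nat_lit 34454253719) (nat_lit 76) (nat_lit 66847187430) (nat_lit 76) (nat_lit 60111320202) (nat_lit 3) (nat_lit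 4) (nat_lit 4) (nat_lit 5) (nat_lit 4) (nat_lit 4) (nat_lit 447) (nat_lit 321) (nat_lit 252)) (XT.lf (nat_lit 0) (nat_lit 48475001574) (nat_lit 76) (nat_lit 63723180213) (nat_lit 76) (nat_lit 56975848236) (nat_lit 3) (nat_lit 4) (nat_lit 4) (nat_lit 5) (nat_lit 4) (nat_lit 4) (nat_lit 448) (nat_lit 321) (nat_lit 251))))))))
noncomputable def xc53 : XT := (XT.nd (nat_lit 1950) (nat_lit 0) (nat_lit 0) (XT.nd (nat_lit 936) (nat_lit 152) (nat_lit 0) (XT.nd (nat_lit 468) (nat_lit 0) (nat_lit 0) (XT.nd (nat_lit 234) (nat_lit 0) (nat_lit 0) (XT.nd (nat_lit 78) (nat_lit 0) (nat_lit 0) (XT.lf (nat_lit 0) (nat_lit 63159820855) (nat_lit 76) (nat_lit 60461360988) (nat_lit 76) (nat_lit 53703110201) (nat_lit 3) (nat_lit 4) (nat_lit 4) (nat_lit 5) (nat_lit 4) (nat_lit 4) (nat_lit 449) (nat_lit 321) (nat_lit 250)) (XT.nd (nat_lit 78) (nat_lit 0) (nat_lit 0) (XT.lf (nat_lit 0) (nat_lit 78543675417) (nat_lit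 76) (nat_lit 57053963518) (nat_lit 76) (nat_lit 50285313866) (nat_lit 3) (nat_lit 4) (nat_lit 4) (nat_lit 5) (nat_lit 4) (nat_lit 4) (nat_lit 450) (nat_lit 321) (nat_lit 249)) (XT.lf (nat_lit 0) (nat_lit 94663193485) (nat_lit 76) (nat_lit 53492874953) (nat_lit 76) (nat_lit 46714321619) (nat_lit 3) (nat_lit 4) (nat_lit 4) (nat_lit 5) (nat_lit 4) (nat_lit 4) (nat_lit 451) (nat_lit 321) (nat_lit 248)))) (XT.nd (nat_lit 78) (nat_lit 0) (nat_lit 0) (XT.lf (nat_lit 0) (nat_lit 111556754864) (nat_lit 76) (nat_lit 49769616509) (nat_lit 76) (nat_lit 42981631097) (nat_lit 3) (nat_lit 4) (nat_lit 4) (nat_lit 5) (nat_lit 4) (nat_lit 4) (nat_lit 452) (nat_lit 321) (nat_lit 247)) (XT.nd (nat_lit 78) (nat_lit 0) (nat_lit 0) (XT.lf (nat_lit 0) (nat_lit 129264582319) (nat_lit 76) (nat_lit 45875323287) (nat_lit 76) (nat_lit 39078354944) (nat_lit 3) (nat_lit 4) (nat_lit 4) (nat_lit 5) (nat_lit 4) (nat_lit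 4) (nat_lit 453) (nat_lit 321) (nat_lit 246)) (XT.lf (nat_lit 0) (nat_lit 147828837345) (nat_lit 76) (nat_lit 41800723159) (nat_lit 76) (nat_lit 34995199643) (nat_lit 3) (nat_lit 4) (nat_lit 4) (nat_lit 5) (nat_lit 4) (nat_lit 4) (nat_lit 454) (nat_lit 321) (nat_lit 245))))) (XT.nd (nat_lit 234) (nat_lit 0) (nat_lit 0) (XT.nd (nat_lit 78) (nat_lit 0) (nat_lit 0) (XT.lf (nat_lit 0) (nat_lit 167293720548) (nat_lit 76) (nat_lit 37536114697) (nat_lit 76) (nat_lit 30722443397) (nat_lit 3) (nat_lit 4) (nat_lit 4) (nat_lit 5) (nat_lit 4) (nat_lit 4) (nat_lit 455) (nat_lit 321) (nat_lit 244)) (XT.nd (nat_lit 78) (nat_lit 0) (nat_lit 0) (XT.lf (nat_lit 0) (nat_lit 187705576888) (nat_lit 76) (nat_lit 33071344070) (nat_lit 76) (nat_lit 26249912977) (nat_lit 3) (nat_lit 4) (nat_lit 4) (nat_lit 5) (nat_lit 4) (nat_lit 4) (nat_lit 456) (nat_lit 321) (nat_lit 243)) (XT.lf (nat_lit 0) (nat_lit 209113006024)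 (nat_lit 76) (nat_lit 28395780873) (nat_lit 76) (nat_lit 21566959500) (nat_lit 3) (nat_lit 4) (nat_lit 4) (nat_lit 5) (nat_lit 4) (nat_lit 4) (nat_lit 457) (nat_lit 321) (nat_lit 242)))) (XT.nd (nat_lit 78) (nat_lit 0) (nat_lit 0) (XT.lf (nat_lit 0) (nat_lit 231566978025) (nat_lit 76) (nat_lit 23498292811) (nat_lit 76) (nat_lit 16662433077) (nat_lit 3) (nat_lit 4) (nat_lit 4) (nat_lit 5) (nat_lit 4) (nat_lit 4) (nat_lit 458) (nat_lit 321) (nat_lit 241)) (XT.nd (nat_lit 78) (nat_lit 0) (nat_lit 0) (XT.lf (nat_lit 0) (nat_lit 255120954728) (nat_lit 76) (nat_lit 18367219201) (nat_lit 76) (nat_lit 11524656264) (nat_lit 3) (nat_lit 4) (nat_lit 4) (nat_lit 5) (nat_lit 4) (nat_lit 4) (nat_lit 459) (nat_lit 321) (nat_lit 240)) (XT.lf (nat_lit 0) (nat_lit 279831017031) (nat_lit 76) (nat_lit 12990343198) (nat_lit 76) (nat_lit 6141396260) (nat_lit 3) (nat_lit 4) (nat_lit 4) (nat_lit 5) (nat_lit 4)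 (nat_lit 4) (nat_lit 460) (nat_lit 321) (nat_lit 239)))))) (XT.nd (nat_lit 468) (nat_lit 0) (nat_lit 0) (XT.nd (nat_lit 234) (nat_lit 0) (nat_lit 0) (XT.nd (nat_lit 78) (nat_lit 152) (nat_lit 0) (XT.lf (nat_lit 0) (nat_lit 305755998416) (nat_lit 76) (nat_lit 7354862718) (nat_lit 76) (nat_lit 499835779) (nat_lit 3) (nat_lit 4) (nat_lit 4) (nat_lit 5) (nat_lit 4) (nat_lit 4) (nat_lit 461) (nat_lit 321) (nat_lit 238)) (XT.nd (nat_lit 78) (nat_lit 0) (nat_lit 0) (XT.lf (nat_lit 0) (nat_lit 4009920779) (nat_lit 76) (nat_lit 1292878340) (nat_lit 152) (nat_lit 323681372126) (nat_lit 1) (nat_lit 5) (nat_lit 2) (nat_lit 5) (nat_lit 3) (nat_lit 4) (nat_lit 462) (nat_lit 321) (nat_lit 237)) (XT.lf (nat_lit 0) (nat_lit 11583167115) (nat_lit 152) (nat_lit 328488719864) (nat_lit 0) (nat_lit 5043803156) (nat_lit 1) (nat_lit 5) (nat_lit 3) (nat_lit 4) (nat_lit 1) (nat_lit 4) (nat_lit 463) (nat_lit 321)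 (nat_lit 236)))) (XT.nd (nat_lit 78) (nat_lit 0) (nat_lit 0) (XT.lf (nat_lit 0) (nat_lit 18189228185) (nat_lit 152) (nat_lit 332219111331) (nat_lit 0) (nat_lit 11644862193) (nat_lit 1) (nat_lit 5) (nat_lit 3) (nat_lit 4) (nat_lit 1) (nat_lit 4) (nat_lit 464) (nat_lit 321) (nat_lit 235)) (XT.nd (nat_lit 78) (nat_lit 0) (nat_lit 0) (XT.lf (nat_lit 0) (nat_lit 25116525591) (nat_lit 152) (nat_lit 336154121299) (nat_lit 0) (nat_lit 18567395759) (nat_lit 1) (nat_lit 5) (nat_lit 3) (nat_lit 4) (nat_lit 1) (nat_lit 4) (nat_lit 465) (nat_lit 321) (nat_lit 234)) (XT.lf (nat_lit 0) (nat_lit 32381552900) (nat_lit 152) (nat_lit 340303118839) (nat_lit 0) (nat_lit 25827886077) (nat_lit 1) (nat_lit 5) (nat_lit 3) (nat_lit 4) (nat_lit 1) (nat_lit 4) (nat_lit 466) (nat_lit 321) (nat_lit 233))))) (XT.nd (nat_lit 234) (nat_lit 0) (nat_lit 0) (XT.nd (nat_lit 78) (nat_lit 0) (nat_lit 0) (XT.lf (nat_lit 0) (nat_lit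 40001607794) (nat_lit 152) (nat_lit 344675982517) (nat_lit 0) (nat_lit 33443620028) (nat_lit 1) (nat_lit 5) (nat_lit 3) (nat_lit 4) (nat_lit 1) (nat_lit 4) (nat_lit 467) (nat_lit 321) (nat_lit 232)) (XT.nd (nat_lit 78) (nat_lit 0) (nat_lit 0) (XT.lf (nat_lit 0) (nat_lit 47994833263) (nat_lit 152) (nat_lit 349283123912) (nat_lit 0) (nat_lit 41432730313) (nat_lit 1) (nat_lit 5) (nat_lit 3) (nat_lit 4) (nat_lit 1) (nat_lit 4) (nat_lit 468) (nat_lit 321) (nat_lit 231)) (XT.lf (nat_lit 0) (nat_lit 56380260795) (nat_lit 152) (nat_lit 354135512409) (nat_lit 0) (nat_lit 49814238621) (nat_lit 1) (nat_lit 5) (nat_lit 3) (nat_lit 4) (nat_lit 1) (nat_lit 4) (nat_lit 469) (nat_lit 321) (nat_lit 230)))) (XT.nd (nat_lit 156) (nat_lit 0) (nat_lit 0) (XT.nd (nat_lit 78) (nat_lit 0) (nat_lit 0) (XT.lf (nat_lit 0) (nat_lit 65177855693) (nat_lit 152) (nat_lit 359244701314) (nat_lit 0) (nat_lit 58608100926)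 (nat_lit 1) (nat_lit 5) (nat_lit 3) (nat_lit 4) (nat_lit 1) (nat_lit 4) (nat_lit 470) (nat_lit 321) (nat_lit 229)) (XT.lf (nat_lit 0) (nat_lit 74408564613) (nat_lit 152) (nat_lit 364622855362) (nat_lit 0) (nat_lit 67835254995) (nat_lit 1) (nat_lit 5) (nat_lit 3) (nat_lit 4) (nat_lit 1) (nat_lit 4) (nat_lit 471) (nat_lit 321) (nat_lit 228))) (XT.nd (nat_lit 78) (nat_lit 0) (nat_lit 0) (XT.lf (nat_lit 0) (nat_lit 84094365433) (nat_lit 152) (nat_lit 370282779683) (nat_lit 0) (nat_lit 77517670243) (nat_lit 1) (nat_lit 5) (nat_lit 3) (nat_lit 4) (nat_lit 1) (nat_lit 4) (nat_lit 472) (nat_lit 321) (nat_lit 227)) (XT.lf (nat_lit 0) (nat_lit 94258319583) (nat_lit 152) (nat_lit 376237950286) (nat_lit 0) (nat_lit 87678400038) (nat_lit 1) (nat_lit 5) (nat_lit 3) (nat_lit 4) (nat_lit 1) (nat_lit 4) (nat_lit 473) (nat_lit 321) (nat_lit 226))))))) (XT.nd (nat_lit 45942) (nat_lit 0) (nat_lit 1824) (XT.nd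 (nat_lit 468) (nat_lit 0) (nat_lit 0) (XT.nd (nat_lit 234) (nat_lit 0) (nat_lit 0) (XT.nd (nat_lit 78) (nat_lit 0) (nat_lit 0) (XT.lf (nat_lit 0) (nat_lit 104924626954) (nat_lit 152) (nat_lit 382502546148) (nat_lit 0) (nat_lit 98341636595) (nat_lit 1) (nat_lit 5) (nat_lit 3) (nat_lit 4) (nat_lit 1) (nat_lit 4) (nat_lit 474) (nat_lit 321) (nat_lit 225)) (XT.nd (nat_lit 78) (nat_lit 0) (nat_lit 0) (XT.lf (nat_lit 0) (nat_lit 116118683516) (nat_lit 152) (nat_lit 389091482976) (nat_lit 0) (nat_lit 109532768573) (nat_lit 1) (nat_lit 5) (nat_lit 3) (nat_lit 4) (nat_lit 1) (nat_lit 4) (nat_lit 475) (nat_lit 321) (nat_lit 224)) (XT.lf (nat_lit 0) (nat_lit 127867141785) (nat_lit 152) (nat_lit 396020448712) (nat_lit 0) (nat_lit 121278441523) (nat_lit 1) (nat_lit 5) (nat_lit 3) (nat_lit 4) (nat_lit 1) (nat_lit 4) (nat_lit 476) (nat_lit 321) (nat_lit 223)))) (XT.nd (nat_lit 78) (nat_lit 0) (nat_lit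 0) (XT.lf (nat_lit 0) (nat_lit 140197974280) (nat_lit 152) (nat_lit 403305940896) (nat_lit 0) (nat_lit 133606621333) (nat_lit 1) (nat_lit 5) (nat_lit 3) (nat_lit 4) (nat_lit 1) (nat_lit 4) (nat_lit 477) (nat_lit 321) (nat_lit 222)) (XT.nd (nat_lit 78) (nat_lit 0) (nat_lit 0) (XT.lf (nat_lit 0) (nat_lit 153140540126) (nat_lit 152) (nat_lit 410965305936) (nat_lit 0) (nat_lit 146546660813) (nat_lit 1) (nat_lit 5) (nat_lit 3) (nat_lit 4) (nat_lit 1) (nat_lit 4) (nat_lit 478) (nat_lit 321) (nat_lit 221)) (XT.lf (nat_lit 0) (nat_lit 166725654957) (nat_lit 152) (nat_lit 419016780416) (nat_lit 0) (nat_lit 160129369581) (nat_lit 1) (nat_lit 5) (nat_lit 3) (nat_lit 4) (nat_lit 1) (nat_lit 4) (nat_lit 479) (nat_lit 321) (nat_lit 220))))) (XT.nd (nat_lit 45162) (nat_lit 0) (nat_lit 3040) (XT.nd (nat_lit 45006) (nat_lit 0) (nat_lit 3648) (XT.lf (nat_lit 0) (nat_lit 180985664283) (nat_lit 152) (nat_lit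 427479534514) (nat_lit 0) (nat_lit 174387087419) (nat_lit 1) (nat_lit 5) (nat_lit 3) (nat_lit 4) (nat_lit 1) (nat_lit 4) (nat_lit 480) (nat_lit 321) (nat_lit 219)) (XT.nd (nat_lit 78) (nat_lit 228) (nat_lit 0) (XT.lf (nat_lit 0) (nat_lit 4562301073) (nat_lit 152) (nat_lit 357675528) (nat_lit 152) (nat_lit 357675528) (nat_lit 52) (nat_lit 4) (nat_lit 54) (nat_lit 5) (nat_lit 54) (nat_lit 4) (nat_lit 376) (nat_lit 322) (nat_lit 322)) (XT.lf (nat_lit 0) (nat_lit 3995178040) (nat_lit 228) (nat_lit 3478541249) (nat_lit 0) (nat_lit 3337404507) (nat_lit 49) (nat_lit 5) (nat_lit 52) (nat_lit 4) (nat_lit 49) (nat_lit 4) (nat_lit 377) (nat_lit 322) (nat_lit 321)))) (XT.nd (nat_lit 156) (nat_lit 228) (nat_lit 0) (XT.nd (nat_lit 78) (nat_lit 228) (nat_lit 0) (XT.lf (nat_lit 0) (nat_lit 5365431968) (nat_lit 152) (nat_lit 3500286807) (nat_lit 152) (nat_lit 2216062290) (nat_lit 47) (nat_lit 4) (nat_lit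 49) (nat_lit 5) (nat_lit 49) (nat_lit 4) (nat_lit 378) (nat_lit 322) (nat_lit 320)) (XT.lf (nat_lit 0) (nat_lit 2480152992) (nat_lit 228) (nat_lit 8197459308) (nat_lit 0) (nat_lit 688872515) (nat_lit 44) (nat_lit 5) (nat_lit 47) (nat_lit 4) (nat_lit 44) (nat_lit 4) (nat_lit 379) (nat_lit 322) (nat_lit 319))) (XT.nd (nat_lit 78) (nat_lit 76) (nat_lit 0) (XT.lf (nat_lit 0) (nat_lit 672163991) (nat_lit 152) (nat_lit 6662026370) (nat_lit 152) (nat_lit 4329593979) (nat_lit 42) (nat_lit 4) (nat_lit 44) (nat_lit 5) (nat_lit 44) (nat_lit 4) (nat_lit 380) (nat_lit 322) (nat_lit 318)) (XT.lf (nat_lit 0) (nat_lit 413553508) (nat_lit 228) (nat_lit 2000030472) (nat_lit 76) (nat_lit 9563399471) (nat_lit 41) (nat_lit 5) (nat_lit 44) (nat_lit 5) (nat_lit 42) (nat_lit 4) (nat_lit 381) (nat_lit 322) (nat_lit 317)))))) (XT.nd (nat_lit 468) (nat_lit 532) (nat_lit 0) (XT.nd (nat_lit 234) (nat_lit 304) (nat_lit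 0) (XT.nd (nat_lit 78) (nat_lit 304) (nat_lit 0) (XT.lf (nat_lit 0) (nat_lit 5235946734) (nat_lit 152) (nat_lit 5010737256) (nat_lit 0) (nat_lit 2056274446) (nat_lit 40) (nat_lit 5) (nat_lit 42) (nat_lit 4) (nat_lit 40) (nat_lit 4) (nat_lit 382) (nat_lit 322) (nat_lit 316)) (XT.nd (nat_lit 78) (nat_lit 152) (nat_lit 0) (XT.lf (nat_lit 0) (nat_lit 4293062169) (nat_lit 152) (nat_lit 5988981166) (nat_lit 152) (nat_lit 2364101859) (nat_lit 38) (nat_lit 4) (nat_lit 40) (nat_lit 5) (nat_lit 40) (nat_lit 4) (nat_lit 383) (nat_lit 322) (nat_lit 315)) (XT.lf (nat_lit 0) (nat_lit 942394306) (nat_lit 76) (nat_lit 1492376570) (nat_lit 152) (nat_lit 10572589368) (nat_lit 36) (nat_lit 5) (nat_lit 37) (nat_lit 5) (nat_lit 38) (nat_lit 4) (nat_lit 384) (nat_lit 322) (nat_lit 314)))) (XT.nd (nat_lit 78) (nat_lit 304) (nat_lit 0) (XT.lf (nat_lit 0) (nat_lit 7431896100) (nat_lit 152) (nat_lit 2759723071) (nat_lit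 0) (nat_lit 3191227642) (nat_lit 36) (nat_lit 5) (nat_lit 38) (nat_lit 4) (nat_lit 36) (nat_lit 4) (nat_lit 385) (nat_lit 322) (nat_lit 313)) (XT.nd (nat_lit 78) (nat_lit 152) (nat_lit 0) (XT.lf (nat_lit 0) (nat_lit 6940536901) (nat_lit 152) (nat_lit 5722177534) (nat_lit 152) (nat_lit 1115236160) (nat_lit 34) (nat_lit 4) (nat_lit 36) (nat_lit 5) (nat_lit 36) (nat_lit 4) (nat_lit 386) (nat_lit 322) (nat_lit 312)) (XT.lf (nat_lit 0) (nat_lit 2789255341) (nat_lit 76) (nat_lit 988807128) (nat_lit 152) (nat_lit 10414554713) (nat_lit 32) (nat_lit 5) (nat_lit 33) (nat_lit 5) (nat_lit 34) (nat_lit 4) (nat_lit 387) (nat_lit 322) (nat_lit 311))))) (XT.nd (nat_lit 234) (nat_lit 228) (nat_lit 0) (XT.nd (nat_lit 78) (nat_lit 304) (nat_lit 0) (XT.lf (nat_lit 0) (nat_lit 8911052075) (nat_lit 152) (nat_lit 1839587417) (nat_lit 0) (nat_lit 3874868214) (nat_lit 32) (nat_lit 5) (nat_lit 34) (nat_lit 4) (nat_lit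 32) (nat_lit 4) (nat_lit 388) (nat_lit 322) (nat_lit 310)) (XT.nd (nat_lit 78) (nat_lit 152) (nat_lit 0) (XT.lf (nat_lit 0) (nat_lit 8191528283) (nat_lit 152) (nat_lit 6112935942) (nat_lit 152) (nat_lit 775418446) (nat_lit 30) (nat_lit 4) (nat_lit 32) (nat_lit 5) (nat_lit 32) (nat_lit 4) (nat_lit 389) (nat_lit 322) (nat_lit 309)) (XT.lf (nat_lit 0) (nat_lit 3002033008) (nat_lit 76) (nat_lit 1206032804) (nat_lit 152) (nat_lit 11348560366) (nat_lit 28) (nat_lit 5) (nat_lit 29) (nat_lit 5) (nat_lit 30) (nat_lit 4) (nat_lit 390) (nat_lit 322) (nat_lit 308)))) (XT.nd (nat_lit 156) (nat_lit 152) (nat_lit 0) (XT.nd (nat_lit 78) (nat_lit 76) (nat_lit 0) (XT.lf (nat_lit 0) (nat_lit 9455869162) (nat_lit 152) (nat_lit 2759769235) (nat_lit 0) (nat_lit 3838897354) (nat_lit 28) (nat_lit 5) (nat_lit 30) (nat_lit 4) (nat_lit 28) (nat_lit 4) (nat_lit 391) (nat_lit 322) (nat_lit 307)) (XT.lf (nat_lit 0) (nat_lit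 7499092705) (nat_lit 76) (nat_lit 7471463334) (nat_lit 76) (nat_lit 1606583599) (nat_lit 27) (nat_lit 4) (nat_lit 28) (nat_lit 5) (nat_lit 28) (nat_lit 4) (nat_lit 392) (nat_lit 322) (nat_lit 306))) (XT.nd (nat_lit 78) (nat_lit 0) (nat_lit 0) (XT.lf (nat_lit 0) (nat_lit 970342178) (nat_lit 76) (nat_lit 2479084504) (nat_lit 152) (nat_lit 13677097191) (nat_lit 25) (nat_lit 5) (nat_lit 26) (nat_lit 5) (nat_lit 27) (nat_lit 4) (nat_lit 393) (nat_lit 322) (nat_lit 305)) (XT.lf (nat_lit 0) (nat_lit 8772396876) (nat_lit 152) (nat_lit 6178491176) (nat_lit 0) (nat_lit 2747785143) (nat_lit 25) (nat_lit 5) (nat_lit 27) (nat_lit 4) (nat_lit 25) (nat_lit 4) (nat_lit 394) (nat_lit 322) (nat_lit 304))))))))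
noncomputable def xc54 : XT := (XT.nd (nat_lit 1950) (nat_lit 456) (nat_lit 0) (XT.nd (nat_lit 936) (nat_lit 456) (nat_lit 0) (XT.nd (nat_lit 468) (nat_lit 304) (nat_lit 0) (XT.nd (nat_lit 234) (nat_lit 152) (nat_lit 0) (XT.nd (nat_lit 78) (nat_lit 152) (nat_lit 0) (XT.lf (nat_lit 0) (nat_lit 4155072998) (nat_lit 76) (nat_lit 10186958365) (nat_lit 76) (nat_lit 3958392167) (nat_lit 24) (nat_lit 4) (nat_lit 25) (nat_lit 5) (nat_lit 25) (nat_lit 4) (nat_lit 395) (nat_lit 322) (nat_lit 303)) (XT.nd (nat_lit 78) (nat_lit 76) (nat_lit 0) (XT.lf (nat_lit 0) (nat_lit 1199288039) (nat_lit 152) (nat_lit 3964268064) (nat_lit 76) (nat_lit 13768657758) (nat_lit 23) (nat_lit 5) (nat_lit 25) (nat_lit 5) (nat_lit 24) (nat_lit 4) (nat_lit 396) (nat_lit 322) (nat_lit 302)) (XT.lf (nat_lit 0) (nat_lit 6469735615) (nat_lit 152) (nat_lit 12946643090) (nat_lit 0) (nat_lit 176591560) (nat_lit 22) (nat_lit 5) (nat_lit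 24) (nat_lit 4) (nat_lit 22) (nat_lit 4) (nat_lit 397) (nat_lit 322) (nat_lit 301)))) (XT.nd (nat_lit 78) (nat_lit 152) (nat_lit 0) (XT.lf (nat_lit 0) (nat_lit 12038417981) (nat_lit 152) (nat_lit 2669146711) (nat_lit 0) (nat_lit 5577480084) (nat_lit 22) (nat_lit 5) (nat_lit 24) (nat_lit 4) (nat_lit 22) (nat_lit 4) (nat_lit 398) (nat_lit 322) (nat_lit 300)) (XT.nd (nat_lit 78) (nat_lit 76) (nat_lit 0) (XT.lf (nat_lit 0) (nat_lit 8169339500) (nat_lit 76) (nat_lit 9731195108) (nat_lit 76) (nat_lit 3110453550) (nat_lit 21) (nat_lit 4) (nat_lit 22) (nat_lit 5) (nat_lit 22) (nat_lit 4) (nat_lit 399) (nat_lit 322) (nat_lit 299)) (XT.lf (nat_lit 0) (nat_lit 2143112912) (nat_lit 152) (nat_lit 2379554049) (nat_lit 76) (nat_lit 17252111671) (nat_lit 20) (nat_lit 5) (nat_lit 22) (nat_lit 5) (nat_lit 21) (nat_lit 4) (nat_lit 400) (nat_lit 322) (nat_lit 298))))) (XT.nd (nat_lit 234) (nat_lit 152) (nat_lit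 0) (XT.nd (nat_lit 78) (nat_lit 76) (nat_lit 0) (XT.lf (nat_lit 0) (nat_lit 7598847322) (nat_lit 152) (nat_lit 13962785648) (nat_lit 0) (nat_lit 1010388132) (nat_lit 19) (nat_lit 5) (nat_lit 21) (nat_lit 4) (nat_lit 19) (nat_lit 4) (nat_lit 401) (nat_lit 322) (nat_lit 297)) (XT.nd (nat_lit 78) (nat_lit 76) (nat_lit 0) (XT.lf (nat_lit 0) (nat_lit 13335966173) (nat_lit 152) (nat_lit 3456705985) (nat_lit 0) (nat_lit 6616036116) (nat_lit 19) (nat_lit 5) (nat_lit 21) (nat_lit 4) (nat_lit 19) (nat_lit 4) (nat_lit 402) (nat_lit 322) (nat_lit 296)) (XT.lf (nat_lit 0) (nat_lit 7623565368) (nat_lit 76) (nat_lit 11753968533) (nat_lit 76) (nat_lit 4908828128) (nat_lit 18) (nat_lit 4) (nat_lit 19) (nat_lit 5) (nat_lit 19) (nat_lit 4) (nat_lit 403) (nat_lit 322) (nat_lit 295)))) (XT.nd (nat_lit 78) (nat_lit 76) (nat_lit 0) (XT.lf (nat_lit 0) (nat_lit 455110968) (nat_lit 152) (nat_lit 6031410872) (nat_lit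 76) (nat_lit 18723073831) (nat_lit 17) (nat_lit 5) (nat_lit 19) (nat_lit 5) (nat_lit 18) (nat_lit 4) (nat_lit 404) (nat_lit 322) (nat_lit 294)) (XT.nd (nat_lit 78) (nat_lit 0) (nat_lit 0) (XT.lf (nat_lit 0) (nat_lit 5025907949) (nat_lit 76) (nat_lit 878416823) (nat_lit 152) (nat_lit 20271550518) (nat_lit 16) (nat_lit 5) (nat_lit 17) (nat_lit 5) (nat_lit 18) (nat_lit 4) (nat_lit 405) (nat_lit 322) (nat_lit 293)) (XT.lf (nat_lit 0) (nat_lit 11711973131) (nat_lit 152) (nat_lit 10606156788) (nat_lit 0) (nat_lit 4868050044) (nat_lit 16) (nat_lit 5) (nat_lit 18) (nat_lit 4) (nat_lit 16) (nat_lit 4) (nat_lit 406) (nat_lit 322) (nat_lit 292)))))) (XT.nd (nat_lit 468) (nat_lit 228) (nat_lit 0) (XT.nd (nat_lit 234) (nat_lit 76) (nat_lit 0) (XT.nd (nat_lit 78) (nat_lit 76) (nat_lit 0) (XT.lf (nat_lit 0) (nat_lit 281955287) (nat_lit 76) (nat_lit 17455358531) (nat_lit 76) (nat_lit 10513329859) (nat_lit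 15) (nat_lit 4) (nat_lit 16) (nat_lit 5) (nat_lit 16) (nat_lit 4) (nat_lit 407) (nat_lit 322) (nat_lit 291)) (XT.nd (nat_lit 78) (nat_lit 76) (nat_lit 0) (XT.lf (nat_lit 0) (nat_lit 11908044835) (nat_lit 76) (nat_lit 12245634632) (nat_lit 76) (nat_lit 5210172070) (nat_lit 15) (nat_lit 4) (nat_lit 16) (nat_lit 5) (nat_lit 16) (nat_lit 4) (nat_lit 408) (nat_lit 322) (nat_lit 290)) (XT.lf (nat_lit 0) (nat_lit 259686300) (nat_lit 152) (nat_lit 6592090303) (nat_lit 76) (nat_lit 23685021365) (nat_lit 14) (nat_lit 5) (nat_lit 16) (nat_lit 5) (nat_lit 15) (nat_lit 4) (nat_lit 409) (nat_lit 322) (nat_lit 289)))) (XT.nd (nat_lit 78) (nat_lit 0) (nat_lit 0) (XT.lf (nat_lit 0) (nat_lit 4719286128) (nat_lit 76) (nat_lit 1099484916) (nat_lit 152) (nat_lit 25945816227) (nat_lit 13) (nat_lit 5) (nat_lit 14) (nat_lit 5) (nat_lit 15) (nat_lit 4) (nat_lit 410) (nat_lit 322) (nat_lit 288)) (XT.nd (nat_lit 78)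 (nat_lit 0) (nat_lit 0) (XT.lf (nat_lit 0) (nat_lit 11763827160) (nat_lit 152) (nat_lit 16463485979) (nat_lit 0) (nat_lit 4821059331) (nat_lit 13) (nat_lit 5) (nat_lit 15) (nat_lit 4) (nat_lit 13) (nat_lit 4) (nat_lit 411) (nat_lit 322) (nat_lit 287)) (XT.lf (nat_lit 0) (nat_lit 17945506048) (nat_lit 152) (nat_lit 5524349001) (nat_lit 0) (nat_lit 10929530321) (nat_lit 13) (nat_lit 5) (nat_lit 15) (nat_lit 4) (nat_lit 13) (nat_lit 4) (nat_lit 412) (nat_lit 322) (nat_lit 286))))) (XT.nd (nat_lit 234) (nat_lit 152) (nat_lit 0) (XT.nd (nat_lit 78) (nat_lit 0) (nat_lit 0) (XT.lf (nat_lit 0) (nat_lit 6007602182) (nat_lit 76) (nat_lit 18447553275) (nat_lit 76) (nat_lit 11361855741) (nat_lit 12) (nat_lit 4) (nat_lit 13) (nat_lit 5) (nat_lit 13) (nat_lit 4) (nat_lit 413) (nat_lit 322) (nat_lit 285)) (XT.nd (nat_lit 78) (nat_lit 0) (nat_lit 0) (XT.lf (nat_lit 0) (nat_lit 18163882084) (nat_lit 76)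 (nat_lit 13146371730) (nat_lit 76) (nat_lit 5994272474) (nat_lit 12) (nat_lit 4) (nat_lit 13) (nat_lit 5) (nat_lit 13) (nat_lit 4) (nat_lit 414) (nat_lit 322) (nat_lit 284)) (XT.lf (nat_lit 0) (nat_lit 30790774303) (nat_lit 76) (nat_lit 7647246076) (nat_lit 76) (nat_lit 431907085) (nat_lit 12) (nat_lit 4) (nat_lit 13) (nat_lit 5) (nat_lit 13) (nat_lit 4) (nat_lit 415) (nat_lit 322) (nat_lit 283)))) (XT.nd (nat_lit 156) (nat_lit 0) (nat_lit 0) (XT.nd (nat_lit 78) (nat_lit 0) (nat_lit 0) (XT.lf (nat_lit 0) (nat_lit 3427762089) (nat_lit 76) (nat_lit 1793374202) (nat_lit 152) (nat_lit 35288962298) (nat_lit 10) (nat_lit 5) (nat_lit 11) (nat_lit 5) (nat_lit 12) (nat_lit 4) (nat_lit 416) (nat_lit 322) (nat_lit 282)) (XT.lf (nat_lit 0) (nat_lit 11281688987) (nat_lit 152) (nat_lit 26645323432) (nat_lit 0) (nat_lit 4297948404) (nat_lit 10) (nat_lit 5) (nat_lit 12) (nat_lit 4) (nat_lit 10) (nat_lit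 4) (nat_lit 417) (nat_lit 322) (nat_lit 281))) (XT.nd (nat_lit 78) (nat_lit 0) (nat_lit 0) (XT.lf (nat_lit 0) (nat_lit 17610229993) (nat_lit 152) (nat_lit 15842631152) (nat_lit 0) (nat_lit 10574461923) (nat_lit 10) (nat_lit 5) (nat_lit 12) (nat_lit 4) (nat_lit 10) (nat_lit 4) (nat_lit 418) (nat_lit 322) (nat_lit 280)) (XT.lf (nat_lit 0) (nat_lit 24193827667) (nat_lit 152) (nat_lit 4620539366) (nat_lit 0) (nat_lit 17108509610) (nat_lit 10) (nat_lit 5) (nat_lit 12) (nat_lit 4) (nat_lit 10) (nat_lit 4) (nat_lit 419) (nat_lit 322) (nat_lit 279))))))) (XT.nd (nat_lit 1014) (nat_lit 152) (nat_lit 0) (XT.nd (nat_lit 468) (nat_lit 76) (nat_lit 0) (XT.nd (nat_lit 234) (nat_lit 152) (nat_lit 0) (XT.nd (nat_lit 78) (nat_lit 0) (nat_lit 0) (XT.lf (nat_lit 0) (nat_lit 7280699028) (nat_lit 76) (nat_lit 23881130328) (nat_lit 76) (nat_lit 16748621807) (nat_lit 9) (nat_lit 4) (nat_lit 10) (nat_lit 5) (nat_lit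 10) (nat_lit 4) (nat_lit 420) (nat_lit 322) (nat_lit 278)) (XT.nd (nat_lit 78) (nat_lit 0) (nat_lit 0) (XT.lf (nat_lit 0) (nat_lit 19824282829) (nat_lit 76) (nat_lit 18674768330) (nat_lit 76) (nat_lit 11497316511) (nat_lit 9) (nat_lit 4) (nat_lit 10) (nat_lit 5) (nat_lit 10) (nat_lit 4) (nat_lit 421) (nat_lit 322) (nat_lit 277)) (XT.lf (nat_lit 0) (nat_lit 32887301813) (nat_lit 76) (nat_lit 13261136009) (nat_lit 76) (nat_lit 6040881049) (nat_lit 9) (nat_lit 4) (nat_lit 10) (nat_lit 5) (nat_lit 10) (nat_lit 4) (nat_lit 422) (nat_lit 322) (nat_lit 276)))) (XT.nd (nat_lit 78) (nat_lit 152) (nat_lit 0) (XT.lf (nat_lit 0) (nat_lit 46500858406) (nat_lit 76) (nat_lit 7627343766) (nat_lit 76) (nat_lit 366323908) (nat_lit 9) (nat_lit 4) (nat_lit 10) (nat_lit 5) (nat_lit 10) (nat_lit 4) (nat_lit 423) (nat_lit 322) (nat_lit 275)) (XT.nd (nat_lit 78) (nat_lit 0) (nat_lit 0) (XT.lf (nat_lit 0) (nat_lit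 3815515445) (nat_lit 76) (nat_lit 1606610903) (nat_lit 152) (nat_lit 51488048351) (nat_lit 7) (nat_lit 5) (nat_lit 8) (nat_lit 5) (nat_lit 9) (nat_lit 4) (nat_lit 424) (nat_lit 322) (nat_lit 274)) (XT.lf (nat_lit 0) (nat_lit 11648594340) (nat_lit 152) (nat_lit 43128521056) (nat_lit 0) (nat_lit 4661148119) (nat_lit 7) (nat_lit 5) (nat_lit 9) (nat_lit 4) (nat_lit 7) (nat_lit 4) (nat_lit 425) (nat_lit 322) (nat_lit 273))))) (XT.nd (nat_lit 234) (nat_lit 76) (nat_lit 0) (XT.nd (nat_lit 78) (nat_lit 0) (nat_lit 0) (XT.lf (nat_lit 0) (nat_lit 18164812520) (nat_lit 152) (nat_lit 32785197177) (nat_lit 0) (nat_lit 11143828917) (nat_lit 7) (nat_lit 5) (nat_lit 9) (nat_lit 4) (nat_lit 7) (nat_lit 4) (nat_lit 426) (nat_lit 322) (nat_lit 272)) (XT.nd (nat_lit 78) (nat_lit 0) (nat_lit 0) (XT.lf (nat_lit 0) (nat_lit 24961211993) (nat_lit 152) (nat_lit 22014976956) (nat_lit 0) (nat_lit 17908288027) (nat_lit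 7) (nat_lit 5) (nat_lit 9) (nat_lit 4) (nat_lit 7) (nat_lit 4) (nat_lit 427) (nat_lit 322) (nat_lit 271)) (XT.lf (nat_lit 0) (nat_lit 32053974664) (nat_lit 152) (nat_lit 10792217012) (nat_lit 0) (nat_lit 24970631304) (nat_lit 7) (nat_lit 5) (nat_lit 9) (nat_lit 4) (nat_lit 7) (nat_lit 4) (nat_lit 428) (nat_lit 322) (nat_lit 270)))) (XT.nd (nat_lit 156) (nat_lit 0) (nat_lit 0) (XT.nd (nat_lit 78) (nat_lit 0) (nat_lit 0) (XT.lf (nat_lit 0) (nat_lit 939885723) (nat_lit 76) (nat_lit 38534776588) (nat_lit 76) (nat_lit 31422462377) (nat_lit 6) (nat_lit 4) (nat_lit 7) (nat_lit 5) (nat_lit 7) (nat_lit 4) (nat_lit 429) (nat_lit 322) (nat_lit 269)) (XT.lf (nat_lit 0) (nat_lit 13552718188) (nat_lit 76) (nat_lit 33855763275) (nat_lit 76) (nat_lit 26715857778) (nat_lit 6) (nat_lit 4) (nat_lit 7) (nat_lit 5) (nat_lit 7) (nat_lit 4) (nat_lit 430) (nat_lit 322) (nat_lit 268))) (XT.nd (nat_lit 78) (nat_lit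 0) (nat_lit 0) (XT.lf (nat_lit 0) (nat_lit 26719471502) (nat_lit 76) (nat_lit 28980782648) (nat_lit 76) (nat_lit 21814599735) (nat_lit 6) (nat_lit 4) (nat_lit 7) (nat_lit 5) (nat_lit 7) (nat_lit 4) (nat_lit 431) (nat_lit 322) (nat_lit 267)) (XT.lf (nat_lit 0) (nat_lit 40471495076) (nat_lit 76) (nat_lit 23898227610) (nat_lit 76) (nat_lit 16707018586) (nat_lit 6) (nat_lit 4) (nat_lit 7) (nat_lit 5) (nat_lit 7) (nat_lit 4) (nat_lit 432) (nat_lit 322) (nat_lit 266)))))) (XT.nd (nat_lit 468) (nat_lit 0) (nat_lit 0) (XT.nd (nat_lit 234) (nat_lit 152) (nat_lit 0) (XT.nd (nat_lit 78) (nat_lit 0) (nat_lit 0) (XT.lf (nat_lit 0) (nat_lit 54841531824) (nat_lit 76) (nat_lit 18595996839) (nat_lit 76) (nat_lit 11380953425) (nat_lit 6) (nat_lit 4) (nat_lit 7) (nat_lit 5) (nat_lit 7) (nat_lit 4) (nat_lit 433) (nat_lit 322) (nat_lit 265)) (XT.nd (nat_lit 78) (nat_lit 0) (nat_lit 0) (XT.lf (nat_lit 0) (nat_lit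 69863796120) (nat_lit 76) (nat_lit 13061465977) (nat_lit 76) (nat_lit 5823723142) (nat_lit 6) (nat_lit 4) (nat_lit 7) (nat_lit 5) (nat_lit 7) (nat_lit 4) (nat_lit 434) (nat_lit 322) (nat_lit 264)) (XT.lf (nat_lit 0) (nat_lit 85574055260) (nat_lit 76) (nat_lit 7281457568) (nat_lit 76) (nat_lit 22096239) (nat_lit 6) (nat_lit 4) (nat_lit 7) (nat_lit 5) (nat_lit 7) (nat_lit 4) (nat_lit 435) (nat_lit 322) (nat_lit 263)))) (XT.nd (nat_lit 78) (nat_lit 0) (nat_lit 0) (XT.lf (nat_lit 0) (nat_lit 4856709991) (nat_lit 76) (nat_lit 1063612137) (nat_lit 152) (nat_lit 91285356853) (nat_lit 4) (nat_lit 5) (nat_lit 5) (nat_lit 5) (nat_lit 6) (nat_lit 4) (nat_lit 436) (nat_lit 322) (nat_lit 262)) (XT.nd (nat_lit 78) (nat_lit 0) (nat_lit 0) (XT.lf (nat_lit 0) (nat_lit 12339374756) (nat_lit 152) (nat_lit 84014334680) (nat_lit 0) (nat_lit 5387413818) (nat_lit 4) (nat_lit 5) (nat_lit 6) (nat_lit 4) (nat_lit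 4) (nat_lit 4) (nat_lit 437) (nat_lit 322) (nat_lit 261)) (XT.lf (nat_lit 0) (nat_lit 19067495407) (nat_lit 152) (nat_lit 75338691370) (nat_lit 0) (nat_lit 12097748880) (nat_lit 4) (nat_lit 5) (nat_lit 6) (nat_lit 4) (nat_lit 4) (nat_lit 4) (nat_lit 438) (nat_lit 322) (nat_lit 260))))) (XT.nd (nat_lit 234) (nat_lit 0) (nat_lit 0) (XT.nd (nat_lit 78) (nat_lit 0) (nat_lit 0) (XT.lf (nat_lit 0) (nat_lit 26104097451) (nat_lit 152) (nat_lit 66284776802) (nat_lit 0) (nat_lit 19117412266) (nat_lit 4) (nat_lit 5) (nat_lit 6) (nat_lit 4) (nat_lit 4) (nat_lit 4) (nat_lit 439) (nat_lit 322) (nat_lit 259)) (XT.nd (nat_lit 78) (nat_lit 0) (nat_lit 0) (XT.lf (nat_lit 0) (nat_lit 33465934700) (nat_lit 152) (nat_lit 56831034036) (nat_lit 0) (nat_lit 26463117462) (nat_lit 4) (nat_lit 5) (nat_lit 6) (nat_lit 4) (nat_lit 4) (nat_lit 4) (nat_lit 440) (nat_lit 322) (nat_lit 258)) (XT.lf (nat_lit 0) (nat_lit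 41170535340) (nat_lit 152) (nat_lit 46954954159) (nat_lit 0) (nat_lit 34152354241) (nat_lit 4) (nat_lit 5) (nat_lit 6) (nat_lit 4) (nat_lit 4) (nat_lit 4) (nat_lit 441) (nat_lit 322) (nat_lit 257)))) (XT.nd (nat_lit 156) (nat_lit 0) (nat_lit 0) (XT.nd (nat_lit 78) (nat_lit 0) (nat_lit 0) (XT.lf (nat_lit 0) (nat_lit 49236243658) (nat_lit 152) (nat_lit 36633022698) (nat_lit 0) (nat_lit 42203430310) (nat_lit 4) (nat_lit 5) (nat_lit 6) (nat_lit 4) (nat_lit 4) (nat_lit 4) (nat_lit 442) (nat_lit 322) (nat_lit 256)) (XT.lf (nat_lit 0) (nat_lit 57682263721) (nat_lit 152) (nat_lit 25840663623) (nat_lit 0) (nat_lit 50635514898) (nat_lit 4) (nat_lit 5) (nat_lit 6) (nat_lit 4) (nat_lit 4) (nat_lit 4) (nat_lit 443) (nat_lit 322) (nat_lit 255))) (XT.nd (nat_lit 78) (nat_lit 0) (nat_lit 0) (XT.lf (nat_lit 0) (nat_lit 66528705100) (nat_lit 152) (nat_lit 14552180843) (nat_lit 0) (nat_lit 59468684397) (nat_lit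 4) (nat_lit 5) (nat_lit 6) (nat_lit 4) (nat_lit 4) (nat_lit 4) (nat_lit 444) (nat_lit 322) (nat_lit 254)) (XT.lf (nat_lit 0) (nat_lit 75796630751) (nat_lit 152) (nat_lit 2740697017) (nat_lit 0) (nat_lit 68723970162) (nat_lit 4) (nat_lit 5) (nat_lit 6) (nat_lit 4) (nat_lit 4) (nat_lit 4) (nat_lit 445) (nat_lit 322) (nat_lit 253))))))))
noncomputable def xc55 : XT := (XT.nd (nat_lit 1950) (nat_lit 0) (nat_lit 0) (XT.nd (nat_lit 936) (nat_lit 152) (nat_lit 0) (XT.nd (nat_lit 468) (nat_lit 0) (nat_lit 0) (XT.nd (nat_lit 234) (nat_lit 0) (nat_lit 0) (XT.nd (nat_lit 78) (nat_lit 0) (nat_lit 0) (XT.lf (nat_lit 0) (nat_lit 9940054247) (nat_lit 76) (nat_lit 75723245021) (nat_lit 76) (nat_lit 68638546444) (nat_lit 3) (nat_lit 4) (nat_lit 4) (nat_lit 5) (nat_lit 4) (nat_lit 4) (nat_lit 446) (nat_lit 322) (nat_lit 252)) (XT.nd (nat_lit 78) (nat_lit 0) (nat_lit 0) (XT.lf (nat_lit 0) (nat_lit 23311179622)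 (nat_lit 76) (nat_lit 72739030124) (nat_lit 76) (nat_lit 65642866798) (nat_lit 3) (nat_lit 4) (nat_lit 4) (nat_lit 5) (nat_lit 4) (nat_lit 4) (nat_lit 447) (nat_lit 322) (nat_lit 251)) (XT.lf (nat_lit 0) (nat_lit 37313895298) (nat_lit 76) (nat_lit 69623992835) (nat_lit 76) (nat_lit 62516910700) (nat_lit 3) (nat_lit 4) (nat_lit 4) (nat_lit 5) (nat_lit 4) (nat_lit 4) (nat_lit 448) (nat_lit 322) (nat_lit 250)))) (XT.nd (nat_lit 78) (nat_lit 0) (nat_lit 0) (XT.lf (nat_lit 0) (nat_lit 51981541075) (nat_lit 76) (nat_lit 66370716399) (nat_lit 76) (nat_lit 59253235398) (nat_lit 3) (nat_lit 4) (nat_lit 4) (nat_lit 5) (nat_lit 4) (nat_lit 4) (nat_lit 449) (nat_lit 322) (nat_lit 249)) (XT.nd (nat_lit 78) (nat_lit 0) (nat_lit 0) (XT.lf (nat_lit 0) (nat_lit 67349039919) (nat_lit 76) (nat_lit 62971454918) (nat_lit 76) (nat_lit 55844070235) (nat_lit 3) (nat_lit 4) (nat_lit 4) (nat_lit 5) (nat_lit 4) (nat_lit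 4) (nat_lit 450) (nat_lit 322) (nat_lit 248)) (XT.lf (nat_lit 0) (nat_lit 83452981113) (nat_lit 76) (nat_lit 59418114914) (nat_lit 76) (nat_lit 52281298153) (nat_lit 3) (nat_lit 4) (nat_lit 4) (nat_lit 5) (nat_lit 4) (nat_lit 4) (nat_lit 451) (nat_lit 322) (nat_lit 247))))) (XT.nd (nat_lit 234) (nat_lit 0) (nat_lit 0) (XT.nd (nat_lit 78) (nat_lit 0) (nat_lit 0) (XT.lf (nat_lit 0) (nat_lit 100331707373) (nat_lit 76) (nat_lit 55702236053) (nat_lit 76) (nat_lit 48556436361) (nat_lit 3) (nat_lit 4) (nat_lit 4) (nat_lit 5) (nat_lit 4) (nat_lit 4) (nat_lit 452) (nat_lit 322) (nat_lit 246)) (XT.nd (nat_lit 78) (nat_lit 0) (nat_lit 0) (XT.lf (nat_lit 0) (nat_lit 118025406145) (nat_lit 76) (nat_lit 51814971004) (nat_lit 76) (nat_lit 44660616139) (nat_lit 3) (nat_lit 4) (nat_lit 4) (nat_lit 5) (nat_lit 4) (nat_lit 4) (nat_lit 453) (nat_lit 322) (nat_lit 245)) (XT.lf (nat_lit 0) (nat_lit 136576205281)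 (nat_lit 76) (nat_lit 47747064374) (nat_lit 76) (nat_lit 40584561726) (nat_lit 3) (nat_lit 4) (nat_lit 4) (nat_lit 5) (nat_lit 4) (nat_lit 4) (nat_lit 454) (nat_lit 322) (nat_lit 244)))) (XT.nd (nat_lit 78) (nat_lit 0) (nat_lit 0) (XT.lf (nat_lit 0) (nat_lit 156028273351) (nat_lit 76) (nat_lit 43488830672) (nat_lit 76) (nat_lit 36318568230) (nat_lit 3) (nat_lit 4) (nat_lit 4) (nat_lit 5) (nat_lit 4) (nat_lit 4) (nat_lit 455) (nat_lit 322) (nat_lit 243)) (XT.nd (nat_lit 78) (nat_lit 0) (nat_lit 0) (XT.lf (nat_lit 0) (nat_lit 176427924802) (nat_lit 76) (nat_lit 39030131246) (nat_lit 76) (nat_lit 31852478524) (nat_lit 3) (nat_lit 4) (nat_lit 4) (nat_lit 5) (nat_lit 4) (nat_lit 4) (nat_lit 456) (nat_lit 322) (nat_lit 242)) (XT.lf (nat_lit 0) (nat_lit 197823730235) (nat_lit 76) (nat_lit 34360350144) (nat_lit 76) (nat_lit 27175659061) (nat_lit 3) (nat_lit 4) (nat_lit 4) (nat_lit 5) (nat_lit 4)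 (nat_lit 4) (nat_lit 457) (nat_lit 322) (nat_lit 241)))))) (XT.nd (nat_lit 468) (nat_lit 0) (nat_lit 0) (XT.nd (nat_lit 234) (nat_lit 152) (nat_lit 0) (XT.nd (nat_lit 78) (nat_lit 0) (nat_lit 0) (XT.lf (nat_lit 0) (nat_lit 220266632041) (nat_lit 76) (nat_lit 29468368841) (nat_lit 76) (nat_lit 22276974556) (nat_lit 3) (nat_lit 4) (nat_lit 4) (nat_lit 5) (nat_lit 4) (nat_lit 4) (nat_lit 458) (nat_lit 322) (nat_lit 240)) (XT.nd (nat_lit 78) (nat_lit 0) (nat_lit 0) (XT.lf (nat_lit 0) (nat_lit 243810065703) (nat_lit 76) (nat_lit 24342539761) (nat_lit 76) (nat_lit 17144761475) (nat_lit 3) (nat_lit 4) (nat_lit 4) (nat_lit 5) (nat_lit 4) (nat_lit 4) (nat_lit 459) (nat_lit 322) (nat_lit 239)) (XT.lf (nat_lit 0) (nat_lit 268510087014) (nat_lit 76) (nat_lit 18970658550) (nat_lit 76) (nat_lit 11766800262) (nat_lit 3) (nat_lit 4) (nat_lit 4) (nat_lit 5) (nat_lit 4) (nat_lit 4) (nat_lit 460) (nat_lit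 322) (nat_lit 238)))) (XT.nd (nat_lit 78) (nat_lit 152) (nat_lit 0) (XT.lf (nat_lit 0) (nat_lit 294425505549) (nat_lit 76) (nat_lit 13339935015) (nat_lit 76) (nat_lit 6130286249) (nat_lit 3) (nat_lit 4) (nat_lit 4) (nat_lit 5) (nat_lit 4) (nat_lit 4) (nat_lit 461) (nat_lit 322) (nat_lit 237)) (XT.nd (nat_lit 78) (nat_lit 152) (nat_lit 0) (XT.lf (nat_lit 0) (nat_lit 321618024686) (nat_lit 76) (nat_lit 7436962670) (nat_lit 76) (nat_lit 221799164) (nat_lit 3) (nat_lit 4) (nat_lit 4) (nat_lit 5) (nat_lit 4) (nat_lit 4) (nat_lit 462) (nat_lit 322) (nat_lit 236)) (XT.lf (nat_lit 0) (nat_lit 4784938889) (nat_lit 76) (nat_lit 1071331612) (nat_lit 152) (nat_lit 339562678150) (nat_lit 1) (nat_lit 5) (nat_lit 2) (nat_lit 5) (nat_lit 3) (nat_lit 4) (nat_lit 463) (nat_lit 322) (nat_lit 235))))) (XT.nd (nat_lit 234) (nat_lit 0) (nat_lit 0) (XT.nd (nat_lit 78) (nat_lit 0) (nat_lit 0) (XT.lf (nat_lit 0)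 (nat_lit 12441182294) (nat_lit 152) (nat_lit 344356503486) (nat_lit 0) (nat_lit 5559832130) (nat_lit 1) (nat_lit 5) (nat_lit 3) (nat_lit 4) (nat_lit 1) (nat_lit 4) (nat_lit 464) (nat_lit 322) (nat_lit 234)) (XT.nd (nat_lit 78) (nat_lit 0) (nat_lit 0) (XT.lf (nat_lit 0) (nat_lit 19364267520) (nat_lit 152) (nat_lit 348299921782) (nat_lit 0) (nat_lit 12478380366) (nat_lit 1) (nat_lit 5) (nat_lit 3) (nat_lit 4) (nat_lit 1) (nat_lit 4) (nat_lit 465) (nat_lit 322) (nat_lit 233)) (XT.lf (nat_lit 0) (nat_lit 26625283229) (nat_lit 152) (nat_lit 352456927254) (nat_lit 0) (nat_lit 19735075131) (nat_lit 1) (nat_lit 5) (nat_lit 3) (nat_lit 4) (nat_lit 1) (nat_lit 4) (nat_lit 466) (nat_lit 322) (nat_lit 232)))) (XT.nd (nat_lit 156) (nat_lit 0) (nat_lit 0) (XT.nd (nat_lit 78) (nat_lit 0) (nat_lit 0) (XT.lf (nat_lit 0) (nat_lit 34241517553) (nat_lit 152) (nat_lit 356837417533) (nat_lit 0) (nat_lit 27347194271)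 (nat_lit 1) (nat_lit 5) (nat_lit 3) (nat_lit 4) (nat_lit 1) (nat_lit 4) (nat_lit 467) (nat_lit 322) (nat_lit 231)) (XT.lf (nat_lit 0) (nat_lit 42231104382) (nat_lit 152) (nat_lit 361451822359) (nat_lit 0) (nat_lit 35332861877) (nat_lit 1) (nat_lit 5) (nat_lit 3) (nat_lit 4) (nat_lit 1) (nat_lit 4) (nat_lit 468) (nat_lit 322) (nat_lit 230))) (XT.nd (nat_lit 78) (nat_lit 0) (nat_lit 0) (XT.lf (nat_lit 0) (nat_lit 50613066543) (nat_lit 152) (nat_lit 366311128409) (nat_lit 0) (nat_lit 43711091445) (nat_lit 1) (nat_lit 5) (nat_lit 3) (nat_lit 4) (nat_lit 1) (nat_lit 4) (nat_lit 469) (nat_lit 322) (nat_lit 229)) (XT.lf (nat_lit 0) (nat_lit 59407361089) (nat_lit 152) (nat_lit 371426905459) (nat_lit 0) (nat_lit 52501831139) (nat_lit 1) (nat_lit 5) (nat_lit 3) (nat_lit 4) (nat_lit 1) (nat_lit 4) (nat_lit 470) (nat_lit 322) (nat_lit 228))))))) (XT.nd (nat_lit 45786) (nat_lit 0) (nat_lit 2204) (XT.nd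 (nat_lit 468) (nat_lit 0) (nat_lit 0) (XT.nd (nat_lit 234) (nat_lit 0) (nat_lit 0) (XT.nd (nat_lit 78) (nat_lit 0) (nat_lit 0) (XT.lf (nat_lit 0) (nat_lit 68634926816) (nat_lit 152) (nat_lit 376811333932) (nat_lit 0) (nat_lit 61726011294) (nat_lit 1) (nat_lit 5) (nat_lit 3) (nat_lit 4) (nat_lit 1) (nat_lit 4) (nat_lit 471) (nat_lit 322) (nat_lit 227)) (XT.nd (nat_lit 78) (nat_lit 0) (nat_lit 0) (XT.lf (nat_lit 0) (nat_lit 78317734118) (nat_lit 152) (nat_lit 382477233894) (nat_lit 0) (nat_lit 71405594241) (nat_lit 1) (nat_lit 5) (nat_lit 3) (nat_lit 4) (nat_lit 1) (nat_lit 4) (nat_lit 472) (nat_lit 322) (nat_lit 226)) (XT.lf (nat_lit 0) (nat_lit 88478837299) (nat_lit 152) (nat_lit 388438095585) (nat_lit 0) (nat_lit 81563626608) (nat_lit 1) (nat_lit 5) (nat_lit 3) (nat_lit 4) (nat_lit 1) (nat_lit 4) (nat_lit 473) (nat_lit 322) (nat_lit 225)))) (XT.nd (nat_lit 78) (nat_lit 0) (nat_lit 0) (XT.lf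 (nat_lit 0) (nat_lit 99142429461) (nat_lit 152) (nat_lit 394708111532) (nat_lit 0) (nat_lit 92224294186) (nat_lit 1) (nat_lit 5) (nat_lit 3) (nat_lit 4) (nat_lit 1) (nat_lit 4) (nat_lit 474) (nat_lit 322) (nat_lit 224)) (XT.nd (nat_lit 78) (nat_lit 0) (nat_lit 0) (XT.lf (nat_lit 0) (nat_lit 110333900111) (nat_lit 152) (nat_lit 401302210343) (nat_lit 0) (nat_lit 103412979517) (nat_lit 1) (nat_lit 5) (nat_lit 3) (nat_lit 4) (nat_lit 1) (nat_lit 4) (nat_lit 475) (nat_lit 322) (nat_lit 223)) (XT.lf (nat_lit 0) (nat_lit 122079895605) (nat_lit 152) (nat_lit 408236092255) (nat_lit 0) (nat_lit 115156322327) (nat_lit 1) (nat_lit 5) (nat_lit 3) (nat_lit 4) (nat_lit 1) (nat_lit 4) (nat_lit 476) (nat_lit 322) (nat_lit 222))))) (XT.nd (nat_lit 234) (nat_lit 0) (nat_lit 0) (XT.nd (nat_lit 78) (nat_lit 0) (nat_lit 0) (XT.lf (nat_lit 0) (nat_lit 134408382601) (nat_lit 152) (nat_lit 415526266511) (nat_lit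 0) (nat_lit 127482282956) (nat_lit 1) (nat_lit 5) (nat_lit 3) (nat_lit 4) (nat_lit 1) (nat_lit 4) (nat_lit 477) (nat_lit 322) (nat_lit 221)) (XT.nd (nat_lit 78) (nat_lit 0) (nat_lit 0) (XT.lf (nat_lit 0) (nat_lit 147348714639) (nat_lit 152) (nat_lit 423190090667) (nat_lit 0) (nat_lit 140420208931) (nat_lit 1) (nat_lit 5) (nat_lit 3) (nat_lit 4) (nat_lit 1) (nat_lit 4) (nat_lit 478) (nat_lit 322) (nat_lit 220)) (XT.lf (nat_lit 0) (nat_lit 160931702032) (nat_lit 152) (nat_lit 431245811924) (nat_lit 0) (nat_lit 154000904836) (nat_lit 1) (nat_lit 5) (nat_lit 3) (nat_lit 4) (nat_lit 1) (nat_lit 4) (nat_lit 479) (nat_lit 322) (nat_lit 219)))) (XT.nd (nat_lit 44928) (nat_lit 0) (nat_lit 3876) (XT.nd (nat_lit 44850) (nat_lit 0) (nat_lit 4028) (XT.lf (nat_lit 0) (nat_lit 175189685228) (nat_lit 152) (nat_lit 439712610572) (nat_lit 0) (nat_lit 168256705662) (nat_lit 1) (nat_lit 5) (nat_lit 3) (nat_lit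 4) (nat_lit 1) (nat_lit 4) (nat_lit 480) (nat_lit 322) (nat_lit 218)) (XT.lf (nat_lit 0) (nat_lit 556989141) (nat_lit 228) (nat_lit 3922045342) (nat_lit 0) (nat_lit 556989141) (nat_lit 54) (nat_lit 5) (nat_lit 57) (nat_lit 4) (nat_lit 54) (nat_lit 4) (nat_lit 374) (nat_lit 323) (nat_lit 323))) (XT.nd (nat_lit 78) (nat_lit 0) (nat_lit 0) (XT.lf (nat_lit 0) (nat_lit 370335040) (nat_lit 152) (nat_lit 5331865759) (nat_lit 152) (nat_lit 4606670439) (nat_lit 52) (nat_lit 4) (nat_lit 54) (nat_lit 5) (nat_lit 54) (nat_lit 4) (nat_lit 375) (nat_lit 323) (nat_lit 322)) (XT.lf (nat_lit 0) (nat_lit 8988212602) (nat_lit 152) (nat_lit 1493574599) (nat_lit 152) (nat_lit 77717069) (nat_lit 52) (nat_lit 4) (nat_lit 54) (nat_lit 5) (nat_lit 54) (nat_lit 4) (nat_lit 376) (nat_lit 323) (nat_lit 321)))))) (XT.nd (nat_lit 468) (nat_lit 760) (nat_lit 0) (XT.nd (nat_lit 234) (nat_lit 304) (nat_lit 0) (XT.nd (nat_lit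 78) (nat_lit 380) (nat_lit 0) (XT.lf (nat_lit 0) (nat_lit 4514242582) (nat_lit 228) (nat_lit 3766164636) (nat_lit 0) (nat_lit 2539355855) (nat_lit 49) (nat_lit 5) (nat_lit 52) (nat_lit 4) (nat_lit 49) (nat_lit 4) (nat_lit 377) (nat_lit 323) (nat_lit 320)) (XT.nd (nat_lit 78) (nat_lit 228) (nat_lit 0) (XT.lf (nat_lit 0) (nat_lit 4930257331) (nat_lit 152) (nat_lit 4368011519) (nat_lit 152) (nat_lit 1796504808) (nat_lit 47) (nat_lit 4) (nat_lit 49) (nat_lit 5) (nat_lit 49) (nat_lit 4) (nat_lit 378) (nat_lit 323) (nat_lit 319)) (XT.lf (nat_lit 0) (nat_lit 2572390632) (nat_lit 152) (nat_lit 214002954) (nat_lit 228) (nat_lit 8597775749) (nat_lit 44) (nat_lit 5) (nat_lit 46) (nat_lit 5) (nat_lit 47) (nat_lit 4) (nat_lit 379) (nat_lit 323) (nat_lit 318)))) (XT.nd (nat_lit 78) (nat_lit 304) (nat_lit 0) (XT.lf (nat_lit 0) (nat_lit 7548181123) (nat_lit 228) (nat_lit 95331638) (nat_lit 0) (nat_lit 4042592425)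 (nat_lit 44) (nat_lit 5) (nat_lit 47) (nat_lit 4) (nat_lit 44) (nat_lit 4) (nat_lit 380) (nat_lit 323) (nat_lit 317)) (XT.nd (nat_lit 78) (nat_lit 76) (nat_lit 0) (XT.lf (nat_lit 0) (nat_lit 519491676) (nat_lit 228) (nat_lit 2931471498) (nat_lit 76) (nat_lit 8552192973) (nat_lit 41) (nat_lit 5) (nat_lit 44) (nat_lit 5) (nat_lit 42) (nat_lit 4) (nat_lit 381) (nat_lit 323) (nat_lit 316)) (XT.lf (nat_lit 0) (nat_lit 5233132775) (nat_lit 152) (nat_lit 6119654070) (nat_lit 0) (nat_lit 981802484) (nat_lit 40) (nat_lit 5) (nat_lit 42) (nat_lit 4) (nat_lit 40) (nat_lit 4) (nat_lit 382) (nat_lit 323) (nat_lit 315))))) (XT.nd (nat_lit 234) (nat_lit 456) (nat_lit 0) (XT.nd (nat_lit 78) (nat_lit 152) (nat_lit 0) (XT.lf (nat_lit 0) (nat_lit 3013479320) (nat_lit 152) (nat_lit 7172166271) (nat_lit 152) (nat_lit 2496829295) (nat_lit 38) (nat_lit 4) (nat_lit 40) (nat_lit 5) (nat_lit 40) (nat_lit 4) (nat_lit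 383) (nat_lit 323) (nat_lit 314)) (XT.nd (nat_lit 78) (nat_lit 76) (nat_lit 0) (XT.lf (nat_lit 0) (nat_lit 2218284832) (nat_lit 228) (nat_lit 531668957) (nat_lit 76) (nat_lit 10298257882) (nat_lit 37) (nat_lit 5) (nat_lit 40) (nat_lit 5) (nat_lit 38) (nat_lit 4) (nat_lit 384) (nat_lit 323) (nat_lit 313)) (XT.lf (nat_lit 0) (nat_lit 7114382027) (nat_lit 152) (nat_lit 4403563886) (nat_lit 0) (nat_lit 1910820668) (nat_lit 36) (nat_lit 5) (nat_lit 38) (nat_lit 4) (nat_lit 36) (nat_lit 4) (nat_lit 385) (nat_lit 323) (nat_lit 312)))) (XT.nd (nat_lit 156) (nat_lit 152) (nat_lit 0) (XT.nd (nat_lit 78) (nat_lit 152) (nat_lit 0) (XT.lf (nat_lit 0) (nat_lit 5113758368) (nat_lit 152) (nat_lit 7133703870) (nat_lit 152) (nat_lit 1581311163) (nat_lit 34) (nat_lit 4) (nat_lit 36) (nat_lit 5) (nat_lit 36) (nat_lit 4) (nat_lit 386) (nat_lit 323) (nat_lit 311)) (XT.lf (nat_lit 0) (nat_lit 728207764) (nat_lit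 76) (nat_lit 2497558480) (nat_lit 152) (nat_lit 11023109142) (nat_lit 32) (nat_lit 5) (nat_lit 33) (nat_lit 5) (nat_lit 34) (nat_lit 4) (nat_lit 387) (nat_lit 323) (nat_lit 310))) (XT.nd (nat_lit 78) (nat_lit 152) (nat_lit 0) (XT.lf (nat_lit 0) (nat_lit 8266746549) (nat_lit 152) (nat_lit 4058614217) (nat_lit 0) (nat_lit 2361019545) (nat_lit 32) (nat_lit 5) (nat_lit 34) (nat_lit 4) (nat_lit 32) (nat_lit 4) (nat_lit 388) (nat_lit 323) (nat_lit 309)) (XT.lf (nat_lit 0) (nat_lit 5775874174) (nat_lit 152) (nat_lit 7781375619) (nat_lit 152) (nat_lit 1588664201) (nat_lit 30) (nat_lit 4) (nat_lit 32) (nat_lit 5) (nat_lit 32) (nat_lit 4) (nat_lit 389) (nat_lit 323) (nat_lit 308))))))))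
noncomputable def xc56 : XT := (XT.nd (nat_lit 1950) (nat_lit 608) (nat_lit 0) (XT.nd (nat_lit 936) (nat_lit 532) (nat_lit 0) (XT.nd (nat_lit 468) (nat_lit 380) (nat_lit 0) (XT.nd (nat_lit 234) (nat_lit 228) (nat_lit 0) (XT.nd (nat_lit 78) (nat_lit 76) (nat_lit 0) (XT.lf (nat_lit 0) (nat_lit 327908375) (nat_lit 76) (nat_lit 2986207860) (nat_lit 152) (nat_lit 12314524797) (nat_lit 28) (nat_lit 5) (nat_lit 29) (nat_lit 5) (nat_lit 30) (nat_lit 4) (nat_lit 390) (nat_lit 323) (nat_lit 307)) (XT.nd (nat_lit 78) (nat_lit 76) (nat_lit 0) (XT.lf (nat_lit 0) (nat_lit 8469560442) (nat_lit 152) (nat_lit 5598090790) (nat_lit 0) (nat_lit 2063528794) (nat_lit 28) (nat_lit 5) (nat_lit 30) (nat_lit 4) (nat_lit 28) (nat_lit 4) (nat_lit 391) (nat_lit 323) (nat_lit 306)) (XT.lf (nat_lit 0) (nat_lit 4448882920) (nat_lit 76) (nat_lit 9426251009) (nat_lit 76) (nat_lit 2784116573) (nat_lit 27) (nat_lit 4) (nat_lit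 28) (nat_lit 5) (nat_lit 28) (nat_lit 4) (nat_lit 392) (nat_lit 323) (nat_lit 305)))) (XT.nd (nat_lit 78) (nat_lit 152) (nat_lit 0) (XT.lf (nat_lit 0) (nat_lit 2233115364) (nat_lit 152) (nat_lit 2289107735) (nat_lit 76) (nat_lit 12691164109) (nat_lit 26) (nat_lit 5) (nat_lit 28) (nat_lit 5) (nat_lit 27) (nat_lit 4) (nat_lit 393) (nat_lit 323) (nat_lit 304)) (XT.nd (nat_lit 78) (nat_lit 76) (nat_lit 0) (XT.lf (nat_lit 0) (nat_lit 7425685799) (nat_lit 152) (nat_lit 9684643324) (nat_lit 0) (nat_lit 681736827) (nat_lit 25) (nat_lit 5) (nat_lit 27) (nat_lit 4) (nat_lit 25) (nat_lit 4) (nat_lit 394) (nat_lit 323) (nat_lit 303)) (XT.lf (nat_lit 0) (nat_lit 420034394) (nat_lit 76) (nat_lit 12458900726) (nat_lit 76) (nat_lit 5520709406) (nat_lit 24) (nat_lit 4) (nat_lit 25) (nat_lit 5) (nat_lit 25) (nat_lit 4) (nat_lit 395) (nat_lit 323) (nat_lit 302))))) (XT.nd (nat_lit 234) (nat_lit 228) (nat_lit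 0) (XT.nd (nat_lit 78) (nat_lit 152) (nat_lit 0) (XT.lf (nat_lit 0) (nat_lit 11145639402) (nat_lit 76) (nat_lit 7506402233) (nat_lit 76) (nat_lit 383218201) (nat_lit 24) (nat_lit 4) (nat_lit 25) (nat_lit 5) (nat_lit 25) (nat_lit 4) (nat_lit 396) (nat_lit 323) (nat_lit 301)) (XT.nd (nat_lit 78) (nat_lit 0) (nat_lit 0) (XT.lf (nat_lit 0) (nat_lit 2492620880) (nat_lit 76) (nat_lit 2283958849) (nat_lit 152) (nat_lit 14925889176) (nat_lit 22) (nat_lit 5) (nat_lit 23) (nat_lit 5) (nat_lit 24) (nat_lit 4) (nat_lit 397) (nat_lit 323) (nat_lit 300)) (XT.lf (nat_lit 0) (nat_lit 10254702541) (nat_lit 152) (nat_lit 7001255999) (nat_lit 0) (nat_lit 3143120246) (nat_lit 22) (nat_lit 5) (nat_lit 24) (nat_lit 4) (nat_lit 22) (nat_lit 4) (nat_lit 398) (nat_lit 323) (nat_lit 299)))) (XT.nd (nat_lit 78) (nat_lit 152) (nat_lit 0) (XT.lf (nat_lit 0) (nat_lit 3591114269) (nat_lit 76) (nat_lit 12401939726) (nat_lit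 76) (nat_lit 5138163469) (nat_lit 21) (nat_lit 4) (nat_lit 22) (nat_lit 5) (nat_lit 22) (nat_lit 4) (nat_lit 399) (nat_lit 323) (nat_lit 298)) (XT.nd (nat_lit 78) (nat_lit 76) (nat_lit 0) (XT.lf (nat_lit 0) (nat_lit 128128338) (nat_lit 152) (nat_lit 7146059793) (nat_lit 76) (nat_lit 14625017805) (nat_lit 20) (nat_lit 5) (nat_lit 22) (nat_lit 5) (nat_lit 21) (nat_lit 4) (nat_lit 400) (nat_lit 323) (nat_lit 297)) (XT.lf (nat_lit 0) (nat_lit 3604137692) (nat_lit 76) (nat_lit 1835328156) (nat_lit 152) (nat_lit 17264208484) (nat_lit 19) (nat_lit 5) (nat_lit 20) (nat_lit 5) (nat_lit 21) (nat_lit 4) (nat_lit 401) (nat_lit 323) (nat_lit 296)))))) (XT.nd (nat_lit 468) (nat_lit 304) (nat_lit 0) (XT.nd (nat_lit 234) (nat_lit 152) (nat_lit 0) (XT.nd (nat_lit 78) (nat_lit 76) (nat_lit 0) (XT.lf (nat_lit 0) (nat_lit 11098450920) (nat_lit 152) (nat_lit 8659979920) (nat_lit 0) (nat_lit 3785843145) (nat_lit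 19) (nat_lit 5) (nat_lit 21) (nat_lit 4) (nat_lit 19) (nat_lit 4) (nat_lit 402) (nat_lit 323) (nat_lit 295)) (XT.nd (nat_lit 78) (nat_lit 0) (nat_lit 0) (XT.lf (nat_lit 0) (nat_lit 2154605263) (nat_lit 76) (nat_lit 14852904579) (nat_lit 76) (nat_lit 7421048853) (nat_lit 18) (nat_lit 4) (nat_lit 19) (nat_lit 5) (nat_lit 19) (nat_lit 4) (nat_lit 403) (nat_lit 323) (nat_lit 294)) (XT.lf (nat_lit 0) (nat_lit 13627748946) (nat_lit 76) (nat_lit 9636077222) (nat_lit 76) (nat_lit 2090652018) (nat_lit 18) (nat_lit 4) (nat_lit 19) (nat_lit 5) (nat_lit 19) (nat_lit 4) (nat_lit 404) (nat_lit 323) (nat_lit 293)))) (XT.nd (nat_lit 78) (nat_lit 76) (nat_lit 0) (XT.lf (nat_lit 0) (nat_lit 3302211871) (nat_lit 152) (nat_lit 884052273) (nat_lit 76) (nat_lit 22142293664) (nat_lit 17) (nat_lit 5) (nat_lit 19) (nat_lit 5) (nat_lit 18) (nat_lit 4) (nat_lit 405) (nat_lit 323) (nat_lit 292)) (XT.nd (nat_lit 78)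 (nat_lit 0) (nat_lit 0) (XT.lf (nat_lit 0) (nat_lit 8999092326) (nat_lit 152) (nat_lit 16733456452) (nat_lit 0) (nat_lit 1611856636) (nat_lit 16) (nat_lit 5) (nat_lit 18) (nat_lit 4) (nat_lit 16) (nat_lit 4) (nat_lit 406) (nat_lit 323) (nat_lit 291)) (XT.lf (nat_lit 0) (nat_lit 14977525685) (nat_lit 152) (nat_lit 5936837027) (nat_lit 0) (nat_lit 7496856104) (nat_lit 16) (nat_lit 5) (nat_lit 18) (nat_lit 4) (nat_lit 16) (nat_lit 4) (nat_lit 407) (nat_lit 323) (nat_lit 290))))) (XT.nd (nat_lit 234) (nat_lit 152) (nat_lit 0) (XT.nd (nat_lit 78) (nat_lit 76) (nat_lit 0) (XT.lf (nat_lit 0) (nat_lit 5411815690) (nat_lit 76) (nat_lit 15844572255) (nat_lit 76) (nat_lit 8274918016) (nat_lit 15) (nat_lit 4) (nat_lit 16) (nat_lit 5) (nat_lit 16) (nat_lit 4) (nat_lit 408) (nat_lit 323) (nat_lit 289)) (XT.nd (nat_lit 78) (nat_lit 76) (nat_lit 0) (XT.lf (nat_lit 0) (nat_lit 17375601971) (nat_lit 76) (nat_lit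 10492626647) (nat_lit 76) (nat_lit 2838225116) (nat_lit 15) (nat_lit 4) (nat_lit 16) (nat_lit 5) (nat_lit 16) (nat_lit 4) (nat_lit 409) (nat_lit 323) (nat_lit 288)) (XT.lf (nat_lit 0) (nat_lit 2699528272) (nat_lit 152) (nat_lit 2201080280) (nat_lit 76) (nat_lit 27041462286) (nat_lit 14) (nat_lit 5) (nat_lit 16) (nat_lit 5) (nat_lit 15) (nat_lit 4) (nat_lit 410) (nat_lit 323) (nat_lit 287)))) (XT.nd (nat_lit 156) (nat_lit 76) (nat_lit 0) (XT.nd (nat_lit 78) (nat_lit 0) (nat_lit 0) (XT.lf (nat_lit 0) (nat_lit 8510786923) (nat_lit 152) (nat_lit 23650957859) (nat_lit 0) (nat_lit 1070804513) (nat_lit 13) (nat_lit 5) (nat_lit 15) (nat_lit 4) (nat_lit 13) (nat_lit 4) (nat_lit 411) (nat_lit 323) (nat_lit 286)) (XT.lf (nat_lit 0) (nat_lit 14655924870) (nat_lit 152) (nat_lit 12783246946) (nat_lit 0) (nat_lit 7146220652) (nat_lit 13) (nat_lit 5) (nat_lit 15) (nat_lit 4) (nat_lit 13) (nat_lit 4) (nat_lit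 412) (nat_lit 323) (nat_lit 285))) (XT.nd (nat_lit 78) (nat_lit 76) (nat_lit 0) (XT.lf (nat_lit 0) (nat_lit 21036977877) (nat_lit 152) (nat_lit 1511601373) (nat_lit 0) (nat_lit 13460871937) (nat_lit 13) (nat_lit 5) (nat_lit 15) (nat_lit 4) (nat_lit 13) (nat_lit 4) (nat_lit 413) (nat_lit 323) (nat_lit 284)) (XT.lf (nat_lit 0) (nat_lit 10527770512) (nat_lit 76) (nat_lit 17305736414) (nat_lit 76) (nat_lit 9666390740) (nat_lit 12) (nat_lit 4) (nat_lit 13) (nat_lit 5) (nat_lit 13) (nat_lit 4) (nat_lit 414) (nat_lit 323) (nat_lit 283))))))) (XT.nd (nat_lit 1014) (nat_lit 228) (nat_lit 0) (XT.nd (nat_lit 468) (nat_lit 228) (nat_lit 0) (XT.nd (nat_lit 234) (nat_lit 0) (nat_lit 0) (XT.nd (nat_lit 78) (nat_lit 152) (nat_lit 0) (XT.lf (nat_lit 0) (nat_lit 23090922114) (nat_lit 76) (nat_lit 11837790769) (nat_lit 76) (nat_lit 4138216776) (nat_lit 12) (nat_lit 4) (nat_lit 13) (nat_lit 5) (nat_lit 13)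 (nat_lit 4) (nat_lit 415) (nat_lit 323) (nat_lit 282)) (XT.nd (nat_lit 78) (nat_lit 76) (nat_lit 0) (XT.lf (nat_lit 0) (nat_lit 1548413651) (nat_lit 152) (nat_lit 4582686311) (nat_lit 76) (nat_lit 34583148543) (nat_lit 11) (nat_lit 5) (nat_lit 13) (nat_lit 5) (nat_lit 12) (nat_lit 4) (nat_lit 416) (nat_lit 323) (nat_lit 281)) (XT.lf (nat_lit 0) (nat_lit 7429698387) (nat_lit 76) (nat_lit 5063341) (nat_lit 152) (nat_lit 35003061648) (nat_lit 10) (nat_lit 5) (nat_lit 11) (nat_lit 5) (nat_lit 12) (nat_lit 4) (nat_lit 417) (nat_lit 323) (nat_lit 280)))) (XT.nd (nat_lit 78) (nat_lit 0) (nat_lit 0) (XT.lf (nat_lit 0) (nat_lit 13733286909) (nat_lit 152) (nat_lit 24264248831) (nat_lit 0) (nat_lit 6244152963) (nat_lit 10) (nat_lit 5) (nat_lit 12) (nat_lit 4) (nat_lit 10) (nat_lit 4) (nat_lit 418) (nat_lit 323) (nat_lit 279)) (XT.nd (nat_lit 78) (nat_lit 0) (nat_lit 0) (XT.lf (nat_lit 0) (nat_lit 20288373372)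 (nat_lit 152) (nat_lit 13098247688) (nat_lit 0) (nat_lit 12752048962) (nat_lit 10) (nat_lit 5) (nat_lit 12) (nat_lit 4) (nat_lit 10) (nat_lit 4) (nat_lit 419) (nat_lit 323) (nat_lit 278)) (XT.lf (nat_lit 0) (nat_lit 27115549411) (nat_lit 152) (nat_lit 1483456790) (nat_lit 0) (nat_lit 19534281702) (nat_lit 10) (nat_lit 5) (nat_lit 12) (nat_lit 4) (nat_lit 10) (nat_lit 4) (nat_lit 420) (nat_lit 323) (nat_lit 277))))) (XT.nd (nat_lit 234) (nat_lit 152) (nat_lit 0) (XT.nd (nat_lit 78) (nat_lit 0) (nat_lit 0) (XT.lf (nat_lit 0) (nat_lit 10958519177) (nat_lit 76) (nat_lit 23443644227) (nat_lit 76) (nat_lit 15819573376) (nat_lit 9) (nat_lit 4) (nat_lit 10) (nat_lit 5) (nat_lit 10) (nat_lit 4) (nat_lit 421) (nat_lit 323) (nat_lit 276)) (XT.nd (nat_lit 78) (nat_lit 0) (nat_lit 0) (XT.lf (nat_lit 0) (nat_lit 23971482873) (nat_lit 76) (nat_lit 18054656634) (nat_lit 76) (nat_lit 10389820887) (nat_lit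 9) (nat_lit 4) (nat_lit 10) (nat_lit 5) (nat_lit 10) (nat_lit 4) (nat_lit 422) (nat_lit 323) (nat_lit 275)) (XT.lf (nat_lit 0) (nat_lit 37537367763) (nat_lit 76) (nat_lit 12444335560) (nat_lit 76) (nat_lit 4740676102) (nat_lit 9) (nat_lit 4) (nat_lit 10) (nat_lit 5) (nat_lit 10) (nat_lit 4) (nat_lit 423) (nat_lit 323) (nat_lit 274)))) (XT.nd (nat_lit 156) (nat_lit 0) (nat_lit 0) (XT.nd (nat_lit 78) (nat_lit 76) (nat_lit 0) (XT.lf (nat_lit 0) (nat_lit 1104782233) (nat_lit 152) (nat_lit 5475830842) (nat_lit 76) (nat_lit 50564981317) (nat_lit 8) (nat_lit 5) (nat_lit 10) (nat_lit 5) (nat_lit 9) (nat_lit 4) (nat_lit 424) (nat_lit 323) (nat_lit 273)) (XT.lf (nat_lit 0) (nat_lit 6870846205) (nat_lit 76) (nat_lit 273883002) (nat_lit 152) (nat_lit 52538281604) (nat_lit 7) (nat_lit 5) (nat_lit 8) (nat_lit 5) (nat_lit 9) (nat_lit 4) (nat_lit 425) (nat_lit 323) (nat_lit 272))) (XT.nd (nat_lit 78) (nat_lit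 0) (nat_lit 0) (XT.lf (nat_lit 0) (nat_lit 13634412958) (nat_lit 152) (nat_lit 42508598721) (nat_lit 0) (nat_lit 6196902430) (nat_lit 7) (nat_lit 5) (nat_lit 9) (nat_lit 4) (nat_lit 7) (nat_lit 4) (nat_lit 426) (nat_lit 323) (nat_lit 271)) (XT.lf (nat_lit 0) (nat_lit 20409614003) (nat_lit 152) (nat_lit 31780315714) (nat_lit 0) (nat_lit 12941684082) (nat_lit 7) (nat_lit 5) (nat_lit 9) (nat_lit 4) (nat_lit 7) (nat_lit 4) (nat_lit 427) (nat_lit 323) (nat_lit 270)))))) (XT.nd (nat_lit 468) (nat_lit 152) (nat_lit 0) (XT.nd (nat_lit 234) (nat_lit 0) (nat_lit 0) (XT.nd (nat_lit 78) (nat_lit 76) (nat_lit 0) (XT.lf (nat_lit 0) (nat_lit 27482187695) (nat_lit 152) (nat_lit 20597495973) (nat_lit 0) (nat_lit 19985286923) (nat_lit 7) (nat_lit 5) (nat_lit 9) (nat_lit 4) (nat_lit 7) (nat_lit 4) (nat_lit 428) (nat_lit 323) (nat_lit 269)) (XT.nd (nat_lit 78) (nat_lit 76) (nat_lit 0) (XT.lf (nat_lit 0) (nat_lit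 34868973494) (nat_lit 152) (nat_lit 8933513739) (nat_lit 0) (nat_lit 27344481435) (nat_lit 7) (nat_lit 5) (nat_lit 9) (nat_lit 4) (nat_lit 7) (nat_lit 4) (nat_lit 429) (nat_lit 323) (nat_lit 268)) (XT.lf (nat_lit 0) (nat_lit 3346511648) (nat_lit 76) (nat_lit 39293295763) (nat_lit 76) (nat_lit 31742526288) (nat_lit 6) (nat_lit 4) (nat_lit 7) (nat_lit 5) (nat_lit 7) (nat_lit 4) (nat_lit 430) (nat_lit 323) (nat_lit 267)))) (XT.nd (nat_lit 78) (nat_lit 0) (nat_lit 0) (XT.lf (nat_lit 0) (nat_lit 16477622325) (nat_lit 76) (nat_lit 34435961292) (nat_lit 76) (nat_lit 26860165707) (nat_lit 6) (nat_lit 4) (nat_lit 7) (nat_lit 5) (nat_lit 7) (nat_lit 4) (nat_lit 431) (nat_lit 323) (nat_lit 266)) (XT.nd (nat_lit 78) (nat_lit 0) (nat_lit 0) (XT.lf (nat_lit 0) (nat_lit 30195700531) (nat_lit 76) (nat_lit 29370212117) (nat_lit 76) (nat_lit 21770582141) (nat_lit 6) (nat_lit 4) (nat_lit 7) (nat_lit 5) (nat_lit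 7) (nat_lit 4) (nat_lit 432) (nat_lit 323) (nat_lit 265)) (XT.lf (nat_lit 0) (nat_lit 44533408358) (nat_lit 76) (nat_lit 24083986930) (nat_lit 76) (nat_lit 16461657534) (nat_lit 6) (nat_lit 4) (nat_lit 7) (nat_lit 5) (nat_lit 7) (nat_lit 4) (nat_lit 433) (nat_lit 323) (nat_lit 264))))) (XT.nd (nat_lit 234) (nat_lit 76) (nat_lit 0) (XT.nd (nat_lit 78) (nat_lit 76) (nat_lit 0) (XT.lf (nat_lit 0) (nat_lit 59524883204) (nat_lit 76) (nat_lit 18564699481) (nat_lit 76) (nat_lit 10920751590) (nat_lit 6) (nat_lit 4) (nat_lit 7) (nat_lit 5) (nat_lit 7) (nat_lit 4) (nat_lit 434) (nat_lit 323) (nat_lit 263)) (XT.nd (nat_lit 78) (nat_lit 76) (nat_lit 0) (XT.lf (nat_lit 0) (nat_lit 75205819058) (nat_lit 76) (nat_lit 12799208609) (nat_lit 76) (nat_lit 5134671674) (nat_lit 6) (nat_lit 4) (nat_lit 7) (nat_lit 5) (nat_lit 7) (nat_lit 4) (nat_lit 435) (nat_lit 323) (nat_lit 262)) (XT.lf (nat_lit 0) (nat_lit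 881221431) (nat_lit 152) (nat_lit 5877641611) (nat_lit 76) (nat_lit 90717406139) (nat_lit 5) (nat_lit 5) (nat_lit 7) (nat_lit 5) (nat_lit 6) (nat_lit 4) (nat_lit 436) (nat_lit 323) (nat_lit 261)))) (XT.nd (nat_lit 156) (nat_lit 0) (nat_lit 0) (XT.nd (nat_lit 78) (nat_lit 0) (nat_lit 0) (XT.lf (nat_lit 0) (nat_lit 6861390440) (nat_lit 76) (nat_lit 243102660) (nat_lit 152) (nat_lit 94917010225) (nat_lit 4) (nat_lit 5) (nat_lit 5) (nat_lit 5) (nat_lit 6) (nat_lit 4) (nat_lit 437) (nat_lit 323) (nat_lit 260)) (XT.lf (nat_lit 0) (nat_lit 13815196462) (nat_lit 152) (nat_lit 86507752553) (nat_lit 0) (nat_lit 6462238361) (nat_lit 4) (nat_lit 5) (nat_lit 6) (nat_lit 4) (nat_lit 4) (nat_lit 4) (nat_lit 438) (nat_lit 323) (nat_lit 259))) (XT.nd (nat_lit 78) (nat_lit 0) (nat_lit 0) (XT.lf (nat_lit 0) (nat_lit 20838825385) (nat_lit 152) (nat_lit 77479627024) (nat_lit 0) (nat_lit 13469735231) (nat_lit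 4) (nat_lit 5) (nat_lit 6) (nat_lit 4) (nat_lit 4) (nat_lit 4) (nat_lit 439) (nat_lit 323) (nat_lit 258)) (XT.lf (nat_lit 0) (nat_lit 28188307282) (nat_lit 152) (nat_lit 68050445247) (nat_lit 0) (nat_lit 20803853267) (nat_lit 4) (nat_lit 5) (nat_lit 6) (nat_lit 4) (nat_lit 4) (nat_lit 4) (nat_lit 440) (nat_lit 323) (nat_lit 257))))))))
noncomputable def xc57 : XT := (XT.nd (nat_lit 1950) (nat_lit 0) (nat_lit 0) (XT.nd (nat_lit 936) (nat_lit 152) (nat_lit 0) (XT.nd (nat_lit 468) (nat_lit 76) (nat_lit 0) (XT.nd (nat_lit 234) (nat_lit 0) (nat_lit 0) (XT.nd (nat_lit 78) (nat_lit 0) (nat_lit 0) (XT.lf (nat_lit 0) (nat_lit 35881140920) (nat_lit 152) (nat_lit 58197756789) (nat_lit 0) (nat_lit 28482054657) (nat_lit 4) (nat_lit 5) (nat_lit 6) (nat_lit 4) (nat_lit 4) (nat_lit 4) (nat_lit 441) (nat_lit 323) (nat_lit 256)) (XT.nd (nat_lit 78) (nat_lit 0) (nat_lit 0) (XT.lf (nat_lit 0) (nat_lit 43935642569)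 (nat_lit 152) (nat_lit 47898102869) (nat_lit 0) (nat_lit 36522620831) (nat_lit 4) (nat_lit 5) (nat_lit 6) (nat_lit 4) (nat_lit 4) (nat_lit 4) (nat_lit 442) (nat_lit 323) (nat_lit 255)) (XT.lf (nat_lit 0) (nat_lit 52370989614) (nat_lit 152) (nat_lit 37126960501) (nat_lit 0) (nat_lit 44944695995) (nat_lit 4) (nat_lit 5) (nat_lit 6) (nat_lit 4) (nat_lit 4) (nat_lit 4) (nat_lit 443) (nat_lit 323) (nat_lit 254)))) (XT.nd (nat_lit 78) (nat_lit 0) (nat_lit 0) (XT.lf (nat_lit 0) (nat_lit 61207266214) (nat_lit 152) (nat_lit 25858684108) (nat_lit 0) (nat_lit 53768332709) (nat_lit 4) (nat_lit 5) (nat_lit 6) (nat_lit 4) (nat_lit 4) (nat_lit 4) (nat_lit 444) (nat_lit 323) (nat_lit 253)) (XT.nd (nat_lit 78) (nat_lit 0) (nat_lit 0) (XT.lf (nat_lit 0) (nat_lit 70465511124) (nat_lit 152) (nat_lit 14066444460) (nat_lit 0) (nat_lit 63014539632) (nat_lit 4) (nat_lit 5) (nat_lit 6) (nat_lit 4) (nat_lit 4) (nat_lit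 4) (nat_lit 445) (nat_lit 323) (nat_lit 252)) (XT.lf (nat_lit 0) (nat_lit 80167767784) (nat_lit 152) (nat_lit 1722164796) (nat_lit 0) (nat_lit 72705331542) (nat_lit 4) (nat_lit 5) (nat_lit 6) (nat_lit 4) (nat_lit 4) (nat_lit 4) (nat_lit 446) (nat_lit 323) (nat_lit 251))))) (XT.nd (nat_lit 234) (nat_lit 0) (nat_lit 0) (XT.nd (nat_lit 78) (nat_lit 0) (nat_lit 0) (XT.lf (nat_lit 0) (nat_lit 11573985853) (nat_lit 76) (nat_lit 78943853305) (nat_lit 76) (nat_lit 71470498254) (nat_lit 3) (nat_lit 4) (nat_lit 4) (nat_lit 5) (nat_lit 4) (nat_lit 4) (nat_lit 447) (nat_lit 323) (nat_lit 250)) (XT.nd (nat_lit 78) (nat_lit 0) (nat_lit 0) (XT.lf (nat_lit 0) (nat_lit 25559528025) (nat_lit 76) (nat_lit 75837358805) (nat_lit 76) (nat_lit 68353604888) (nat_lit 3) (nat_lit 4) (nat_lit 4) (nat_lit 5) (nat_lit 4) (nat_lit 4) (nat_lit 448) (nat_lit 323) (nat_lit 249)) (XT.lf (nat_lit 0) (nat_lit 40210818084)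 (nat_lit 76) (nat_lit 72592218358) (nat_lit 76) (nat_lit 65098560759) (nat_lit 3) (nat_lit 4) (nat_lit 4) (nat_lit 5) (nat_lit 4) (nat_lit 4) (nat_lit 449) (nat_lit 323) (nat_lit 248)))) (XT.nd (nat_lit 78) (nat_lit 0) (nat_lit 0) (XT.lf (nat_lit 0) (nat_lit 55562740054) (nat_lit 76) (nat_lit 69200705438) (nat_lit 76) (nat_lit 61697615762) (nat_lit 3) (nat_lit 4) (nat_lit 4) (nat_lit 5) (nat_lit 4) (nat_lit 4) (nat_lit 450) (nat_lit 323) (nat_lit 247)) (XT.nd (nat_lit 78) (nat_lit 0) (nat_lit 0) (XT.lf (nat_lit 0) (nat_lit 71651846129) (nat_lit 76) (nat_lit 65654745016) (nat_lit 76) (nat_lit 58142672409) (nat_lit 3) (nat_lit 4) (nat_lit 4) (nat_lit 5) (nat_lit 4) (nat_lit 4) (nat_lit 451) (nat_lit 323) (nat_lit 246)) (XT.lf (nat_lit 0) (nat_lit 88516443706) (nat_lit 76) (nat_lit 61945894328) (nat_lit 76) (nat_lit 54425266548) (nat_lit 3) (nat_lit 4) (nat_lit 4) (nat_lit 5) (nat_lit 4) (nat_lit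 4) (nat_lit 452) (nat_lit 323) (nat_lit 245)))))) (XT.nd (nat_lit 468) (nat_lit 152) (nat_lit 0) (XT.nd (nat_lit 234) (nat_lit 0) (nat_lit 0) (XT.nd (nat_lit 78) (nat_lit 0) (nat_lit 0) (XT.lf (nat_lit 0) (nat_lit 106196686587) (nat_lit 76) (nat_lit 58065322778) (nat_lit 76) (nat_lit 50536547214) (nat_lit 3) (nat_lit 4) (nat_lit 4) (nat_lit 5) (nat_lit 4) (nat_lit 4) (nat_lit 453) (nat_lit 323) (nat_lit 244)) (XT.nd (nat_lit 78) (nat_lit 0) (nat_lit 0) (XT.lf (nat_lit 0) (nat_lit 124734670590) (nat_lit 76) (nat_lit 54003790909) (nat_lit 76) (nat_lit 46467255551) (nat_lit 3) (nat_lit 4) (nat_lit 4) (nat_lit 5) (nat_lit 4) (nat_lit 4) (nat_lit 454) (nat_lit 323) (nat_lit 243)) (XT.lf (nat_lit 0) (nat_lit 144174533771) (nat_lit 76) (nat_lit 49751628407) (nat_lit 76) (nat_lit 42207702770) (nat_lit 3) (nat_lit 4) (nat_lit 4) (nat_lit 5) (nat_lit 4) (nat_lit 4) (nat_lit 455) (nat_lit 323) (nat_lit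 242)))) (XT.nd (nat_lit 78) (nat_lit 0) (nat_lit 0) (XT.lf (nat_lit 0) (nat_lit 164562561520) (nat_lit 76) (nat_lit 45298711076) (nat_lit 76) (nat_lit 37747747077) (nat_lit 3) (nat_lit 4) (nat_lit 4) (nat_lit 5) (nat_lit 4) (nat_lit 4) (nat_lit 456) (nat_lit 323) (nat_lit 241)) (XT.nd (nat_lit 78) (nat_lit 0) (nat_lit 0) (XT.lf (nat_lit 0) (nat_lit 185947296758) (nat_lit 76) (nat_lit 40634436732) (nat_lit 76) (nat_lit 33076769532) (nat_lit 3) (nat_lit 4) (nat_lit 4) (nat_lit 5) (nat_lit 4) (nat_lit 4) (nat_lit 457) (nat_lit 323) (nat_lit 240)) (XT.lf (nat_lit 0) (nat_lit 208379655524) (nat_lit 76) (nat_lit 35747699960) (nat_lit 76) (nat_lit 28183648758) (nat_lit 3) (nat_lit 4) (nat_lit 4) (nat_lit 5) (nat_lit 4) (nat_lit 4) (nat_lit 458) (nat_lit 323) (nat_lit 239))))) (XT.nd (nat_lit 234) (nat_lit 152) (nat_lit 0) (XT.nd (nat_lit 78) (nat_lit 0) (nat_lit 0) (XT.lf (nat_lit 0) (nat_lit 231913048193)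 (nat_lit 76) (nat_lit 30626865672) (nat_lit 76) (nat_lit 23056734469) (nat_lit 3) (nat_lit 4) (nat_lit 4) (nat_lit 5) (nat_lit 4) (nat_lit 4) (nat_lit 459) (nat_lit 323) (nat_lit 238)) (XT.nd (nat_lit 78) (nat_lit 0) (nat_lit 0) (XT.lf (nat_lit 0) (nat_lit 256603506655) (nat_lit 76) (nat_lit 25259741406) (nat_lit 76) (nat_lit 17683819725) (nat_lit 3) (nat_lit 4) (nat_lit 4) (nat_lit 5) (nat_lit 4) (nat_lit 4) (nat_lit 460) (nat_lit 323) (nat_lit 237)) (XT.lf (nat_lit 0) (nat_lit 282509817714) (nat_lit 76) (nat_lit 19633548293) (nat_lit 76) (nat_lit 12052111872) (nat_lit 3) (nat_lit 4) (nat_lit 4) (nat_lit 5) (nat_lit 4) (nat_lit 4) (nat_lit 461) (nat_lit 323) (nat_lit 236)))) (XT.nd (nat_lit 156) (nat_lit 76) (nat_lit 0) (XT.nd (nat_lit 78) (nat_lit 76) (nat_lit 0) (XT.lf (nat_lit 0) (nat_lit 309693663064) (nat_lit 76) (nat_lit 13734890638) (nat_lit 76) (nat_lit 6148202082) (nat_lit 3) (nat_lit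 4) (nat_lit 4) (nat_lit 5) (nat_lit 4) (nat_lit 4) (nat_lit 462) (nat_lit 323) (nat_lit 235)) (XT.lf (nat_lit 0) (nat_lit 40623379) (nat_lit 152) (nat_lit 7508412659) (nat_lit 76) (nat_lit 338178454789) (nat_lit 2) (nat_lit 5) (nat_lit 4) (nat_lit 5) (nat_lit 3) (nat_lit 4) (nat_lit 463) (nat_lit 323) (nat_lit 234))) (XT.nd (nat_lit 78) (nat_lit 0) (nat_lit 0) (XT.lf (nat_lit 0) (nat_lit 5545294288) (nat_lit 76) (nat_lit 865314841) (nat_lit 152) (nat_lit 356266197470) (nat_lit 1) (nat_lit 5) (nat_lit 2) (nat_lit 5) (nat_lit 3) (nat_lit 4) (nat_lit 464) (nat_lit 323) (nat_lit 233)) (XT.lf (nat_lit 0) (nat_lit 13316172767) (nat_lit 152) (nat_lit 361069428550) (nat_lit 0) (nat_lit 6077133320) (nat_lit 1) (nat_lit 5) (nat_lit 3) (nat_lit 4) (nat_lit 1) (nat_lit 4) (nat_lit 465) (nat_lit 323) (nat_lit 232))))))) (XT.nd (nat_lit 1014) (nat_lit 0) (nat_lit 0) (XT.nd (nat_lit 468) (nat_lit 0) (nat_lit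 0) (XT.nd (nat_lit 234) (nat_lit 0) (nat_lit 0) (XT.nd (nat_lit 78) (nat_lit 0) (nat_lit 0) (XT.lf (nat_lit 0) (nat_lit 20573367904) (nat_lit 152) (nat_lit 365234060624) (nat_lit 0) (nat_lit 13330213274) (nat_lit 1) (nat_lit 5) (nat_lit 3) (nat_lit 4) (nat_lit 1) (nat_lit 4) (nat_lit 466) (nat_lit 323) (nat_lit 231)) (XT.nd (nat_lit 78) (nat_lit 0) (nat_lit 0) (XT.lf (nat_lit 0) (nat_lit 28185963589) (nat_lit 152) (nat_lit 369621814333) (nat_lit 0) (nat_lit 20938889735) (nat_lit 1) (nat_lit 5) (nat_lit 3) (nat_lit 4) (nat_lit 1) (nat_lit 4) (nat_lit 467) (nat_lit 323) (nat_lit 230)) (XT.lf (nat_lit 0) (nat_lit 36172085048) (nat_lit 152) (nat_lit 374243136712) (nat_lit 0) (nat_lit 28921278600) (nat_lit 1) (nat_lit 5) (nat_lit 3) (nat_lit 4) (nat_lit 1) (nat_lit 4) (nat_lit 468) (nat_lit 323) (nat_lit 229)))) (XT.nd (nat_lit 78) (nat_lit 0) (nat_lit 0) (XT.lf (nat_lit 0) (nat_lit 44550746856)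 (nat_lit 152) (nat_lit 379109030907) (nat_lit 0) (nat_lit 37296385558) (nat_lit 1) (nat_lit 5) (nat_lit 3) (nat_lit 4) (nat_lit 1) (nat_lit 4) (nat_lit 469) (nat_lit 323) (nat_lit 228)) (XT.nd (nat_lit 78) (nat_lit 0) (nat_lit 0) (XT.lf (nat_lit 0) (nat_lit 53341898208) (nat_lit 152) (nat_lit 384231082382) (nat_lit 0) (nat_lit 46084151338) (nat_lit 1) (nat_lit 5) (nat_lit 3) (nat_lit 4) (nat_lit 1) (nat_lit 4) (nat_lit 470) (nat_lit 323) (nat_lit 227)) (XT.lf (nat_lit 0) (nat_lit 62566470417) (nat_lit 152) (nat_lit 389621486496) (nat_lit 0) (nat_lit 55305499192) (nat_lit 1) (nat_lit 5) (nat_lit 3) (nat_lit 4) (nat_lit 1) (nat_lit 4) (nat_lit 471) (nat_lit 323) (nat_lit 226))))) (XT.nd (nat_lit 234) (nat_lit 0) (nat_lit 0) (XT.nd (nat_lit 78) (nat_lit 0) (nat_lit 0) (XT.lf (nat_lit 0) (nat_lit 72246426751) (nat_lit 152) (nat_lit 395293077547) (nat_lit 0) (nat_lit 64982384712) (nat_lit 1)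 (nat_lit 5) (nat_lit 3) (nat_lit 4) (nat_lit 1) (nat_lit 4) (nat_lit 472) (nat_lit 323) (nat_lit 225)) (XT.nd (nat_lit 78) (nat_lit 0) (nat_lit 0) (XT.lf (nat_lit 0) (nat_lit 82404814723) (nat_lit 152) (nat_lit 401259359321) (nat_lit 0) (nat_lit 75137848099) (nat_lit 1) (nat_lit 5) (nat_lit 3) (nat_lit 4) (nat_lit 1) (nat_lit 4) (nat_lit 473) (nat_lit 323) (nat_lit 224)) (XT.lf (nat_lit 0) (nat_lit 93065820973) (nat_lit 152) (nat_lit 407534537252) (nat_lit 0) (nat_lit 85796069030) (nat_lit 1) (nat_lit 5) (nat_lit 3) (nat_lit 4) (nat_lit 1) (nat_lit 4) (nat_lit 474) (nat_lit 323) (nat_lit 223)))) (XT.nd (nat_lit 156) (nat_lit 0) (nat_lit 0) (XT.nd (nat_lit 78) (nat_lit 0) (nat_lit 0) (XT.lf (nat_lit 0) (nat_lit 104254828848) (nat_lit 152) (nat_lit 414133552239) (nat_lit 0) (nat_lit 96982424221) (nat_lit 1) (nat_lit 5) (nat_lit 3) (nat_lit 4) (nat_lit 1) (nat_lit 4) (nat_lit 475) (nat_lit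 323) (nat_lit 222)) (XT.lf (nat_lit 0) (nat_lit 115998478843) (nat_lit 152) (nat_lit 421072116223) (nat_lit 0) (nat_lit 108723547850) (nat_lit 1) (nat_lit 5) (nat_lit 3) (nat_lit 4) (nat_lit 1) (nat_lit 4) (nat_lit 476) (nat_lit 323) (nat_lit 221))) (XT.nd (nat_lit 78) (nat_lit 0) (nat_lit 0) (XT.lf (nat_lit 0) (nat_lit 128324732030) (nat_lit 152) (nat_lit 428366749594) (nat_lit 0) (nat_lit 121047394974) (nat_lit 1) (nat_lit 5) (nat_lit 3) (nat_lit 4) (nat_lit 1) (nat_lit 4) (nat_lit 477) (nat_lit 323) (nat_lit 220)) (XT.lf (nat_lit 0) (nat_lit 141262936631) (nat_lit 152) (nat_lit 436034820528) (nat_lit 0) (nat_lit 133983308086) (nat_lit 1) (nat_lit 5) (nat_lit 3) (nat_lit 4) (nat_lit 1) (nat_lit 4) (nat_lit 478) (nat_lit 323) (nat_lit 219)))))) (XT.nd (nat_lit 45084) (nat_lit 0) (nat_lit 2964) (XT.nd (nat_lit 44850) (nat_lit 0) (nat_lit 3876) (XT.nd (nat_lit 78) (nat_lit 0) (nat_lit 0)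 (XT.lf (nat_lit 0) (nat_lit 154843897894) (nat_lit 152) (nat_lit 444094586335) (nat_lit 0) (nat_lit 147562086979) (nat_lit 1) (nat_lit 5) (nat_lit 3) (nat_lit 4) (nat_lit 1) (nat_lit 4) (nat_lit 479) (nat_lit 323) (nat_lit 218)) (XT.nd (nat_lit 44694) (nat_lit 0) (nat_lit 4484) (XT.lf (nat_lit 0) (nat_lit 169099951442) (nat_lit 152) (nat_lit 452565236935) (nat_lit 0) (nat_lit 161816062079) (nat_lit 1) (nat_lit 5) (nat_lit 3) (nat_lit 4) (nat_lit 1) (nat_lit 4) (nat_lit 480) (nat_lit 323) (nat_lit 217)) (XT.lf (nat_lit 0) (nat_lit 1377109595) (nat_lit 228) (nat_lit 2058930711) (nat_lit 0) (nat_lit 1377109595) (nat_lit 60) (nat_lit 5) (nat_lit 63) (nat_lit 4) (nat_lit 60) (nat_lit 4) (nat_lit 372) (nat_lit 324) (nat_lit 324)))) (XT.nd (nat_lit 78) (nat_lit 380) (nat_lit 0) (XT.lf (nat_lit 0) (nat_lit 3870896218) (nat_lit 228) (nat_lit 3386844057) (nat_lit 228) (nat_lit 2587316217) (nat_lit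 57) (nat_lit 4) (nat_lit 60) (nat_lit 5) (nat_lit 60) (nat_lit 4) (nat_lit 373) (nat_lit 324) (nat_lit 323)) (XT.nd (nat_lit 78) (nat_lit 152) (nat_lit 0) (XT.lf (nat_lit 0) (nat_lit 1790139873) (nat_lit 228) (nat_lit 7982716124) (nat_lit 0) (nat_lit 303489467) (nat_lit 54) (nat_lit 5) (nat_lit 57) (nat_lit 4) (nat_lit 54) (nat_lit 4) (nat_lit 374) (nat_lit 324) (nat_lit 322)) (XT.lf (nat_lit 0) (nat_lit 90736473) (nat_lit 152) (nat_lit 6202028699) (nat_lit 152) (nat_lit 4024716083) (nat_lit 52) (nat_lit 4) (nat_lit 54) (nat_lit 5) (nat_lit 54) (nat_lit 4) (nat_lit 375) (nat_lit 324) (nat_lit 321))))) (XT.nd (nat_lit 234) (nat_lit 532) (nat_lit 0) (XT.nd (nat_lit 78) (nat_lit 304) (nat_lit 0) (XT.lf (nat_lit 0) (nat_lit 407375855) (nat_lit 228) (nat_lit 1999965644) (nat_lit 76) (nat_lit 8164444267) (nat_lit 51) (nat_lit 5) (nat_lit 54) (nat_lit 5) (nat_lit 52) (nat_lit 4) (nat_lit 376) (nat_lit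 324) (nat_lit 320)) (XT.nd (nat_lit 78) (nat_lit 152) (nat_lit 0) (XT.lf (nat_lit 0) (nat_lit 4895834000) (nat_lit 228) (nat_lit 4342096227) (nat_lit 0) (nat_lit 1599131969) (nat_lit 49) (nat_lit 5) (nat_lit 52) (nat_lit 4) (nat_lit 49) (nat_lit 4) (nat_lit 377) (nat_lit 324) (nat_lit 319)) (XT.lf (nat_lit 0) (nat_lit 4203815105) (nat_lit 152) (nat_lit 5388779392) (nat_lit 152) (nat_lit 1523867852) (nat_lit 47) (nat_lit 4) (nat_lit 49) (nat_lit 5) (nat_lit 49) (nat_lit 4) (nat_lit 378) (nat_lit 324) (nat_lit 318)))) (XT.nd (nat_lit 156) (nat_lit 304) (nat_lit 0) (XT.nd (nat_lit 78) (nat_lit 0) (nat_lit 0) (XT.lf (nat_lit 0) (nat_lit 1663174761) (nat_lit 152) (nat_lit 1297429245) (nat_lit 228) (nat_lit 8449550047) (nat_lit 44) (nat_lit 5) (nat_lit 46) (nat_lit 5) (nat_lit 47) (nat_lit 4) (nat_lit 379) (nat_lit 324) (nat_lit 317)) (XT.lf (nat_lit 0) (nat_lit 7630795955) (nat_lit 228) (nat_lit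 1142192121) (nat_lit 0) (nat_lit 2943704309) (nat_lit 44) (nat_lit 5) (nat_lit 47) (nat_lit 4) (nat_lit 44) (nat_lit 4) (nat_lit 380) (nat_lit 324) (nat_lit 316))) (XT.nd (nat_lit 78) (nat_lit 76) (nat_lit 0) (XT.lf (nat_lit 0) (nat_lit 478374072) (nat_lit 228) (nat_lit 4173892166) (nat_lit 76) (nat_lit 7386031085) (nat_lit 41) (nat_lit 5) (nat_lit 44) (nat_lit 5) (nat_lit 42) (nat_lit 4) (nat_lit 381) (nat_lit 324) (nat_lit 315)) (XT.lf (nat_lit 0) (nat_lit 4821162852) (nat_lit 76) (nat_lit 262217091) (nat_lit 152) (nat_lit 7291801932) (nat_lit 40) (nat_lit 5) (nat_lit 41) (nat_lit 5) (nat_lit 42) (nat_lit 4) (nat_lit 382) (nat_lit 324) (nat_lit 314))))))))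
noncomputable def xc58 : XT := (XT.nd (nat_lit 1950) (nat_lit 760) (nat_lit 0) (XT.nd (nat_lit 936) (nat_lit 684) (nat_lit 0) (XT.nd (nat_lit 468) (nat_lit 532) (nat_lit 0) (XT.nd (nat_lit 234) (nat_lit 304) (nat_lit 0) (XT.nd (nat_lit 78) (nat_lit 152) (nat_lit 0) (XT.lf (nat_lit 0) (nat_lit 1408297818) (nat_lit 152) (nat_lit 8528338749) (nat_lit 152) (nat_lit 2791412351) (nat_lit 38) (nat_lit 4) (nat_lit 40) (nat_lit 5) (nat_lit 40) (nat_lit 4) (nat_lit 383) (nat_lit 324) (nat_lit 313)) (XT.nd (nat_lit 78) (nat_lit 76) (nat_lit 0) (XT.lf (nat_lit 0) (nat_lit 1863327133) (nat_lit 228) (nat_lit 2301692335) (nat_lit 76) (nat_lit 8932503295) (nat_lit 37) (nat_lit 5) (nat_lit 40) (nat_lit 5) (nat_lit 38) (nat_lit 4) (nat_lit 384) (nat_lit 324) (nat_lit 312)) (XT.lf (nat_lit 0) (nat_lit 6639097420) (nat_lit 152) (nat_lit 6384759004) (nat_lit 0) (nat_lit 460253729) (nat_lit 36) (nat_lit 5) (nat_lit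 38) (nat_lit 4) (nat_lit 36) (nat_lit 4) (nat_lit 385) (nat_lit 324) (nat_lit 311)))) (XT.nd (nat_lit 78) (nat_lit 152) (nat_lit 0) (XT.lf (nat_lit 0) (nat_lit 2944594169) (nat_lit 152) (nat_lit 8727795787) (nat_lit 152) (nat_lit 2216731765) (nat_lit 34) (nat_lit 4) (nat_lit 36) (nat_lit 5) (nat_lit 36) (nat_lit 4) (nat_lit 386) (nat_lit 324) (nat_lit 310)) (XT.nd (nat_lit 78) (nat_lit 76) (nat_lit 0) (XT.lf (nat_lit 0) (nat_lit 2533637704) (nat_lit 228) (nat_lit 1633507044) (nat_lit 76) (nat_lit 10146441197) (nat_lit 33) (nat_lit 5) (nat_lit 36) (nat_lit 5) (nat_lit 34) (nat_lit 4) (nat_lit 387) (nat_lit 324) (nat_lit 309)) (XT.lf (nat_lit 0) (nat_lit 7456578508) (nat_lit 152) (nat_lit 6633180504) (nat_lit 0) (nat_lit 667247105) (nat_lit 32) (nat_lit 5) (nat_lit 34) (nat_lit 4) (nat_lit 32) (nat_lit 4) (nat_lit 388) (nat_lit 324) (nat_lit 308))))) (XT.nd (nat_lit 234) (nat_lit 228) (nat_lit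 0) (XT.nd (nat_lit 78) (nat_lit 152) (nat_lit 0) (XT.lf (nat_lit 0) (nat_lit 2998794183) (nat_lit 152) (nat_lit 9642840258) (nat_lit 152) (nat_lit 2580190366) (nat_lit 30) (nat_lit 4) (nat_lit 32) (nat_lit 5) (nat_lit 32) (nat_lit 4) (nat_lit 389) (nat_lit 324) (nat_lit 307)) (XT.nd (nat_lit 78) (nat_lit 76) (nat_lit 0) (XT.lf (nat_lit 0) (nat_lit 2287317734) (nat_lit 228) (nat_lit 2633951859) (nat_lit 76) (nat_lit 10787418109) (nat_lit 29) (nat_lit 5) (nat_lit 32) (nat_lit 5) (nat_lit 30) (nat_lit 4) (nat_lit 390) (nat_lit 324) (nat_lit 306)) (XT.lf (nat_lit 0) (nat_lit 7307879598) (nat_lit 152) (nat_lit 8812566482) (nat_lit 0) (nat_lit 97535654) (nat_lit 28) (nat_lit 5) (nat_lit 30) (nat_lit 4) (nat_lit 28) (nat_lit 4) (nat_lit 391) (nat_lit 324) (nat_lit 305)))) (XT.nd (nat_lit 78) (nat_lit 152) (nat_lit 0) (XT.lf (nat_lit 0) (nat_lit 1015702621) (nat_lit 76) (nat_lit 11585585978) (nat_lit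 76) (nat_lit 4150382235) (nat_lit 27) (nat_lit 4) (nat_lit 28) (nat_lit 5) (nat_lit 28) (nat_lit 4) (nat_lit 392) (nat_lit 324) (nat_lit 304)) (XT.nd (nat_lit 78) (nat_lit 76) (nat_lit 0) (XT.lf (nat_lit 0) (nat_lit 852181600) (nat_lit 152) (nat_lit 5902383650) (nat_lit 76) (nat_lit 10555238142) (nat_lit 26) (nat_lit 5) (nat_lit 28) (nat_lit 5) (nat_lit 27) (nat_lit 4) (nat_lit 393) (nat_lit 324) (nat_lit 303)) (XT.lf (nat_lit 0) (nat_lit 4278972685) (nat_lit 76) (nat_lit 1639214183) (nat_lit 152) (nat_lit 11976632507) (nat_lit 25) (nat_lit 5) (nat_lit 26) (nat_lit 5) (nat_lit 27) (nat_lit 4) (nat_lit 394) (nat_lit 324) (nat_lit 302)))))) (XT.nd (nat_lit 468) (nat_lit 380) (nat_lit 0) (XT.nd (nat_lit 234) (nat_lit 152) (nat_lit 0) (XT.nd (nat_lit 78) (nat_lit 152) (nat_lit 0) (XT.lf (nat_lit 0) (nat_lit 11283980077) (nat_lit 152) (nat_lit 3603155104) (nat_lit 0) (nat_lit 3619644132) (nat_lit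 25) (nat_lit 5) (nat_lit 27) (nat_lit 4) (nat_lit 25) (nat_lit 4) (nat_lit 395) (nat_lit 324) (nat_lit 301)) (XT.nd (nat_lit 78) (nat_lit 76) (nat_lit 0) (XT.lf (nat_lit 0) (nat_lit 6900857784) (nat_lit 76) (nat_lit 10043841905) (nat_lit 76) (nat_lit 2203322425) (nat_lit 24) (nat_lit 4) (nat_lit 25) (nat_lit 5) (nat_lit 25) (nat_lit 4) (nat_lit 396) (nat_lit 324) (nat_lit 300)) (XT.lf (nat_lit 0) (nat_lit 2923271429) (nat_lit 152) (nat_lit 2015606891) (nat_lit 76) (nat_lit 14882354040) (nat_lit 23) (nat_lit 5) (nat_lit 25) (nat_lit 5) (nat_lit 24) (nat_lit 4) (nat_lit 397) (nat_lit 324) (nat_lit 299)))) (XT.nd (nat_lit 78) (nat_lit 76) (nat_lit 0) (XT.lf (nat_lit 0) (nat_lit 8274614526) (nat_lit 152) (nat_lit 11754118246) (nat_lit 0) (nat_lit 495455494) (nat_lit 22) (nat_lit 5) (nat_lit 24) (nat_lit 4) (nat_lit 22) (nat_lit 4) (nat_lit 398) (nat_lit 324) (nat_lit 298)) (XT.nd (nat_lit 78)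 (nat_lit 76) (nat_lit 0) (XT.lf (nat_lit 0) (nat_lit 13907102199) (nat_lit 152) (nat_lit 1371528101) (nat_lit 0) (nat_lit 5982996537) (nat_lit 22) (nat_lit 5) (nat_lit 24) (nat_lit 4) (nat_lit 22) (nat_lit 4) (nat_lit 399) (nat_lit 324) (nat_lit 297)) (XT.lf (nat_lit 0) (nat_lit 9654012444) (nat_lit 76) (nat_lit 10220706412) (nat_lit 76) (nat_lit 2158556340) (nat_lit 21) (nat_lit 4) (nat_lit 22) (nat_lit 5) (nat_lit 22) (nat_lit 4) (nat_lit 400) (nat_lit 324) (nat_lit 296))))) (XT.nd (nat_lit 234) (nat_lit 228) (nat_lit 0) (XT.nd (nat_lit 78) (nat_lit 76) (nat_lit 0) (XT.lf (nat_lit 0) (nat_lit 3118274375) (nat_lit 152) (nat_lit 1801158469) (nat_lit 76) (nat_lit 17925181298) (nat_lit 20) (nat_lit 5) (nat_lit 22) (nat_lit 5) (nat_lit 21) (nat_lit 4) (nat_lit 401) (nat_lit 324) (nat_lit 295)) (XT.nd (nat_lit 78) (nat_lit 0) (nat_lit 0) (XT.lf (nat_lit 0) (nat_lit 8652457729) (nat_lit 152)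 (nat_lit 14309240401) (nat_lit 0) (nat_lit 729761264) (nat_lit 19) (nat_lit 5) (nat_lit 21) (nat_lit 4) (nat_lit 19) (nat_lit 4) (nat_lit 402) (nat_lit 324) (nat_lit 294)) (XT.lf (nat_lit 0) (nat_lit 14482998166) (nat_lit 152) (nat_lit 3649944893) (nat_lit 0) (nat_lit 6446732224) (nat_lit 19) (nat_lit 5) (nat_lit 21) (nat_lit 4) (nat_lit 19) (nat_lit 4) (nat_lit 403) (nat_lit 324) (nat_lit 293)))) (XT.nd (nat_lit 156) (nat_lit 76) (nat_lit 0) (XT.nd (nat_lit 78) (nat_lit 76) (nat_lit 0) (XT.lf (nat_lit 0) (nat_lit 7617578678) (nat_lit 76) (nat_lit 13018797677) (nat_lit 76) (nat_lit 4874370328) (nat_lit 18) (nat_lit 4) (nat_lit 19) (nat_lit 5) (nat_lit 19) (nat_lit 4) (nat_lit 404) (nat_lit 324) (nat_lit 292)) (XT.lf (nat_lit 0) (nat_lit 564927716) (nat_lit 152) (nat_lit 7089336393) (nat_lit 76) (nat_lit 18834872925) (nat_lit 17) (nat_lit 5) (nat_lit 19) (nat_lit 5) (nat_lit 18) (nat_lit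 4) (nat_lit 405) (nat_lit 324) (nat_lit 291))) (XT.nd (nat_lit 78) (nat_lit 0) (nat_lit 0) (XT.lf (nat_lit 0) (nat_lit 4146808231) (nat_lit 76) (nat_lit 1947022026) (nat_lit 152) (nat_lit 21419557601) (nat_lit 16) (nat_lit 5) (nat_lit 17) (nat_lit 5) (nat_lit 18) (nat_lit 4) (nat_lit 406) (nat_lit 324) (nat_lit 290)) (XT.lf (nat_lit 0) (nat_lit 12001383987) (nat_lit 152) (nat_lit 12618102989) (nat_lit 0) (nat_lit 3964262379) (nat_lit 16) (nat_lit 5) (nat_lit 18) (nat_lit 4) (nat_lit 16) (nat_lit 4) (nat_lit 407) (nat_lit 324) (nat_lit 289))))))) (XT.nd (nat_lit 1014) (nat_lit 304) (nat_lit 0) (XT.nd (nat_lit 468) (nat_lit 228) (nat_lit 0) (XT.nd (nat_lit 234) (nat_lit 152) (nat_lit 0) (XT.nd (nat_lit 78) (nat_lit 76) (nat_lit 0) (XT.lf (nat_lit 0) (nat_lit 18157199154) (nat_lit 152) (nat_lit 1517463368) (nat_lit 0) (nat_lit 10035330253) (nat_lit 16) (nat_lit 5) (nat_lit 18) (nat_lit 4) (nat_lit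 16) (nat_lit 4) (nat_lit 408) (nat_lit 324) (nat_lit 288)) (XT.nd (nat_lit 78) (nat_lit 0) (nat_lit 0) (XT.lf (nat_lit 0) (nat_lit 10322553993) (nat_lit 76) (nat_lit 14384143994) (nat_lit 76) (nat_lit 6181563386) (nat_lit 15) (nat_lit 4) (nat_lit 16) (nat_lit 5) (nat_lit 16) (nat_lit 4) (nat_lit 409) (nat_lit 324) (nat_lit 287)) (XT.lf (nat_lit 0) (nat_lit 22663570182) (nat_lit 76) (nat_lit 8871870481) (nat_lit 76) (nat_lit 592421580) (nat_lit 15) (nat_lit 4) (nat_lit 16) (nat_lit 5) (nat_lit 16) (nat_lit 4) (nat_lit 410) (nat_lit 324) (nat_lit 286)))) (XT.nd (nat_lit 78) (nat_lit 0) (nat_lit 0) (XT.lf (nat_lit 0) (nat_lit 2035759258) (nat_lit 76) (nat_lit 3031760769) (nat_lit 152) (nat_lit 28359800278) (nat_lit 13) (nat_lit 5) (nat_lit 14) (nat_lit 5) (nat_lit 15) (nat_lit 4) (nat_lit 411) (nat_lit 324) (nat_lit 285)) (XT.nd (nat_lit 78) (nat_lit 0) (nat_lit 0) (XT.lf (nat_lit 0) (nat_lit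 11130522796) (nat_lit 152) (nat_lit 20544540674) (nat_lit 0) (nat_lit 3109209838) (nat_lit 13) (nat_lit 5) (nat_lit 15) (nat_lit 4) (nat_lit 13) (nat_lit 4) (nat_lit 412) (nat_lit 324) (nat_lit 284)) (XT.lf (nat_lit 0) (nat_lit 17478432091) (nat_lit 152) (nat_lit 9337680647) (nat_lit 0) (nat_lit 9393879398) (nat_lit 13) (nat_lit 5) (nat_lit 15) (nat_lit 4) (nat_lit 13) (nat_lit 4) (nat_lit 413) (nat_lit 324) (nat_lit 283))))) (XT.nd (nat_lit 234) (nat_lit 152) (nat_lit 0) (XT.nd (nat_lit 78) (nat_lit 0) (nat_lit 0) (XT.lf (nat_lit 0) (nat_lit 2379185096) (nat_lit 76) (nat_lit 21736988351) (nat_lit 76) (nat_lit 13592207340) (nat_lit 12) (nat_lit 4) (nat_lit 13) (nat_lit 5) (nat_lit 13) (nat_lit 4) (nat_lit 414) (nat_lit 324) (nat_lit 282)) (XT.nd (nat_lit 78) (nat_lit 0) (nat_lit 0) (XT.lf (nat_lit 0) (nat_lit 14881631348) (nat_lit 76) (nat_lit 16298737952) (nat_lit 76) (nat_lit 8096596637)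 (nat_lit 12) (nat_lit 4) (nat_lit 13) (nat_lit 5) (nat_lit 13) (nat_lit 4) (nat_lit 415) (nat_lit 324) (nat_lit 281)) (XT.lf (nat_lit 0) (nat_lit 27890679944) (nat_lit 76) (nat_lit 10646551467) (nat_lit 76) (nat_lit 2389781291) (nat_lit 12) (nat_lit 4) (nat_lit 13) (nat_lit 5) (nat_lit 13) (nat_lit 4) (nat_lit 416) (nat_lit 324) (nat_lit 280)))) (XT.nd (nat_lit 156) (nat_lit 0) (nat_lit 0) (XT.nd (nat_lit 78) (nat_lit 76) (nat_lit 0) (XT.lf (nat_lit 0) (nat_lit 3428465791) (nat_lit 152) (nat_lit 1280442789) (nat_lit 76) (nat_lit 37950776290) (nat_lit 11) (nat_lit 5) (nat_lit 13) (nat_lit 5) (nat_lit 12) (nat_lit 4) (nat_lit 417) (nat_lit 324) (nat_lit 279)) (XT.lf (nat_lit 0) (nat_lit 9604048688) (nat_lit 152) (nat_lit 33221933212) (nat_lit 0) (nat_lit 1643717594) (nat_lit 10) (nat_lit 5) (nat_lit 12) (nat_lit 4) (nat_lit 10) (nat_lit 4) (nat_lit 418) (nat_lit 324) (nat_lit 278))) (XT.nd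 (nat_lit 78) (nat_lit 0) (nat_lit 0) (XT.lf (nat_lit 0) (nat_lit 16131981616) (nat_lit 152) (nat_lit 22109351728) (nat_lit 0) (nat_lit 8126707223) (nat_lit 10) (nat_lit 5) (nat_lit 12) (nat_lit 4) (nat_lit 10) (nat_lit 4) (nat_lit 419) (nat_lit 324) (nat_lit 277)) (XT.lf (nat_lit 0) (nat_lit 22933297146) (nat_lit 152) (nat_lit 10545436697) (nat_lit 0) (nat_lit 14885219611) (nat_lit 10) (nat_lit 5) (nat_lit 12) (nat_lit 4) (nat_lit 10) (nat_lit 4) (nat_lit 420) (nat_lit 324) (nat_lit 276)))))) (XT.nd (nat_lit 468) (nat_lit 76) (nat_lit 0) (XT.nd (nat_lit 234) (nat_lit 152) (nat_lit 0) (XT.nd (nat_lit 78) (nat_lit 0) (nat_lit 0) (XT.lf (nat_lit 0) (nat_lit 1546854001) (nat_lit 76) (nat_lit 28501485611) (nat_lit 76) (nat_lit 20412643180) (nat_lit 9) (nat_lit 4) (nat_lit 10) (nat_lit 5) (nat_lit 10) (nat_lit 4) (nat_lit 421) (nat_lit 324) (nat_lit 275)) (XT.nd (nat_lit 78) (nat_lit 0) (nat_lit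 0) (XT.lf (nat_lit 0) (nat_lit 14512145995) (nat_lit 76) (nat_lit 23135969189) (nat_lit 76) (nat_lit 15008303046) (nat_lit 9) (nat_lit 4) (nat_lit 10) (nat_lit 5) (nat_lit 10) (nat_lit 4) (nat_lit 422) (nat_lit 324) (nat_lit 274)) (XT.lf (nat_lit 0) (nat_lit 28032629263) (nat_lit 76) (nat_lit 17548001610) (nat_lit 76) (nat_lit 9383360504) (nat_lit 9) (nat_lit 4) (nat_lit 10) (nat_lit 5) (nat_lit 10) (nat_lit 4) (nat_lit 423) (nat_lit 324) (nat_lit 273)))) (XT.nd (nat_lit 78) (nat_lit 152) (nat_lit 0) (XT.lf (nat_lit 0) (nat_lit 42140495433) (nat_lit 76) (nat_lit 11724278189) (nat_lit 76) (nat_lit 3524422833) (nat_lit 9) (nat_lit 4) (nat_lit 10) (nat_lit 5) (nat_lit 10) (nat_lit 4) (nat_lit 424) (nat_lit 324) (nat_lit 272)) (XT.nd (nat_lit 78) (nat_lit 76) (nat_lit 0) (XT.lf (nat_lit 0) (nat_lit 2499804975) (nat_lit 152) (nat_lit 3108792537) (nat_lit 76) (nat_lit 54327194281) (nat_lit 8)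 (nat_lit 5) (nat_lit 10) (nat_lit 5) (nat_lit 9) (nat_lit 4) (nat_lit 425) (nat_lit 324) (nat_lit 271)) (XT.lf (nat_lit 0) (nat_lit 8834036641) (nat_lit 152) (nat_lit 52804141630) (nat_lit 0) (nat_lit 962290830) (nat_lit 7) (nat_lit 5) (nat_lit 9) (nat_lit 4) (nat_lit 7) (nat_lit 4) (nat_lit 426) (nat_lit 324) (nat_lit 270))))) (XT.nd (nat_lit 234) (nat_lit 76) (nat_lit 0) (XT.nd (nat_lit 78) (nat_lit 0) (nat_lit 0) (XT.lf (nat_lit 0) (nat_lit 15589048708) (nat_lit 152) (nat_lit 42115798826) (nat_lit 0) (nat_lit 7688332046) (nat_lit 7) (nat_lit 5) (nat_lit 9) (nat_lit 4) (nat_lit 7) (nat_lit 4) (nat_lit 427) (nat_lit 324) (nat_lit 269)) (XT.nd (nat_lit 78) (nat_lit 0) (nat_lit 0) (XT.lf (nat_lit 0) (nat_lit 22642394801) (nat_lit 152) (nat_lit 30971017375) (nat_lit 0) (nat_lit 14714086853) (nat_lit 7) (nat_lit 5) (nat_lit 9) (nat_lit 4) (nat_lit 7) (nat_lit 4) (nat_lit 428) (nat_lit 324)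 (nat_lit 268)) (XT.lf (nat_lit 0) (nat_lit 30010868602) (nat_lit 152) (nat_lit 19343262082) (nat_lit 0) (nat_lit 22056283237) (nat_lit 7) (nat_lit 5) (nat_lit 9) (nat_lit 4) (nat_lit 7) (nat_lit 4) (nat_lit 429) (nat_lit 324) (nat_lit 267)))) (XT.nd (nat_lit 156) (nat_lit 0) (nat_lit 0) (XT.nd (nat_lit 78) (nat_lit 76) (nat_lit 0) (XT.lf (nat_lit 0) (nat_lit 37712014094) (nat_lit 152) (nat_lit 7204847816) (nat_lit 0) (nat_lit 29732402619) (nat_lit 7) (nat_lit 5) (nat_lit 9) (nat_lit 4) (nat_lit 7) (nat_lit 4) (nat_lit 430) (nat_lit 324) (nat_lit 266)) (XT.lf (nat_lit 0) (nat_lit 5654092685) (nat_lit 76) (nat_lit 40198350888) (nat_lit 76) (nat_lit 32194905022) (nat_lit 6) (nat_lit 4) (nat_lit 7) (nat_lit 5) (nat_lit 7) (nat_lit 4) (nat_lit 431) (nat_lit 324) (nat_lit 265))) (XT.nd (nat_lit 78) (nat_lit 0) (nat_lit 0) (XT.lf (nat_lit 0) (nat_lit 19339841969) (nat_lit 76) (nat_lit 35148607296)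 (nat_lit 76) (nat_lit 27122462010) (nat_lit 6) (nat_lit 4) (nat_lit 7) (nat_lit 5) (nat_lit 7) (nat_lit 4) (nat_lit 432) (nat_lit 324) (nat_lit 264)) (XT.lf (nat_lit 0) (nat_lit 33646760346) (nat_lit 76) (nat_lit 29877625523) (nat_lit 76) (nat_lit 21829861741) (nat_lit 6) (nat_lit 4) (nat_lit 7) (nat_lit 5) (nat_lit 7) (nat_lit 4) (nat_lit 433) (nat_lit 324) (nat_lit 263))))))))
noncomputable def xc59 : XT := (XT.nd (nat_lit 1950) (nat_lit 152) (nat_lit 0) (XT.nd (nat_lit 936) (nat_lit 76) (nat_lit 0) (XT.nd (nat_lit 468) (nat_lit 0) (nat_lit 0) (XT.nd (nat_lit 234) (nat_lit 152) (nat_lit 0) (XT.nd (nat_lit 78) (nat_lit 0) (nat_lit 0) (XT.lf (nat_lit 0) (nat_lit 48608911907) (nat_lit 76) (nat_lit 24372855610) (nat_lit 76) (nat_lit 16304502785) (nat_lit 6) (nat_lit 4) (nat_lit 7) (nat_lit 5) (nat_lit 7) (nat_lit 4) (nat_lit 434) (nat_lit 324) (nat_lit 262)) (XT.nd (nat_lit 78) (nat_lit 0)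 (nat_lit 0) (XT.lf (nat_lit 0) (nat_lit 64261920823) (nat_lit 76) (nat_lit 18621190962) (nat_lit 76) (nat_lit 10533229526) (nat_lit 6) (nat_lit 4) (nat_lit 7) (nat_lit 5) (nat_lit 7) (nat_lit 4) (nat_lit 435) (nat_lit 324) (nat_lit 261)) (XT.lf (nat_lit 0) (nat_lit 80643056163) (nat_lit 76) (nat_lit 12608937141) (nat_lit 76) (nat_lit 4502300836) (nat_lit 6) (nat_lit 4) (nat_lit 7) (nat_lit 5) (nat_lit 7) (nat_lit 4) (nat_lit 436) (nat_lit 324) (nat_lit 260)))) (XT.nd (nat_lit 78) (nat_lit 76) (nat_lit 0) (XT.lf (nat_lit 0) (nat_lit 1744946815) (nat_lit 152) (nat_lit 4547280922) (nat_lit 76) (nat_lit 96016822294) (nat_lit 5) (nat_lit 5) (nat_lit 7) (nat_lit 5) (nat_lit 6) (nat_lit 4) (nat_lit 437) (nat_lit 324) (nat_lit 259)) (XT.nd (nat_lit 78) (nat_lit 0) (nat_lit 0) (XT.lf (nat_lit 0) (nat_lit 8273687673) (nat_lit 152) (nat_lit 98288134325) (nat_lit 0) (nat_lit 520010957) (nat_lit 4) (nat_lit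 5) (nat_lit 6) (nat_lit 4) (nat_lit 4) (nat_lit 4) (nat_lit 438) (nat_lit 324) (nat_lit 258)) (XT.lf (nat_lit 0) (nat_lit 15284961244) (nat_lit 152) (nat_lit 89284569785) (nat_lit 0) (nat_lit 7515920667) (nat_lit 4) (nat_lit 5) (nat_lit 6) (nat_lit 4) (nat_lit 4) (nat_lit 4) (nat_lit 439) (nat_lit 324) (nat_lit 257))))) (XT.nd (nat_lit 234) (nat_lit 0) (nat_lit 0) (XT.nd (nat_lit 78) (nat_lit 0) (nat_lit 0) (XT.lf (nat_lit 0) (nat_lit 22622676139) (nat_lit 152) (nat_lit 79878779427) (nat_lit 0) (nat_lit 14839003314) (nat_lit 4) (nat_lit 5) (nat_lit 6) (nat_lit 4) (nat_lit 4) (nat_lit 4) (nat_lit 440) (nat_lit 324) (nat_lit 256)) (XT.nd (nat_lit 78) (nat_lit 0) (nat_lit 0) (XT.lf (nat_lit 0) (nat_lit 30304303108) (nat_lit 152) (nat_lit 70048368511) (nat_lit 0) (nat_lit 22506694808) (nat_lit 4) (nat_lit 5) (nat_lit 6) (nat_lit 4) (nat_lit 4) (nat_lit 4) (nat_lit 441) (nat_lit 324) (nat_lit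 255)) (XT.lf (nat_lit 0) (nat_lit 38348131739) (nat_lit 152) (nat_lit 59769931297) (nat_lit 0) (nat_lit 30537251559) (nat_lit 4) (nat_lit 5) (nat_lit 6) (nat_lit 4) (nat_lit 4) (nat_lit 4) (nat_lit 442) (nat_lit 324) (nat_lit 254)))) (XT.nd (nat_lit 78) (nat_lit 0) (nat_lit 0) (XT.lf (nat_lit 0) (nat_lit 46773314005) (nat_lit 152) (nat_lit 49018995316) (nat_lit 0) (nat_lit 38949793938) (nat_lit 4) (nat_lit 5) (nat_lit 6) (nat_lit 4) (nat_lit 4) (nat_lit 4) (nat_lit 443) (nat_lit 324) (nat_lit 253)) (XT.nd (nat_lit 78) (nat_lit 0) (nat_lit 0) (XT.lf (nat_lit 0) (nat_lit 55599909864) (nat_lit 152) (nat_lit 37769963101) (nat_lit 0) (nat_lit 47764351810) (nat_lit 4) (nat_lit 5) (nat_lit 6) (nat_lit 4) (nat_lit 4) (nat_lit 4) (nat_lit 444) (nat_lit 324) (nat_lit 252)) (XT.lf (nat_lit 0) (nat_lit 64848935020) (nat_lit 152) (nat_lit 25996051241) (nat_lit 0) (nat_lit 57001912216) (nat_lit 4) (nat_lit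 5) (nat_lit 6) (nat_lit 4) (nat_lit 4) (nat_lit 4) (nat_lit 445) (nat_lit 324) (nat_lit 251)))))) (XT.nd (nat_lit 468) (nat_lit 0) (nat_lit 0) (XT.nd (nat_lit 234) (nat_lit 0) (nat_lit 0) (XT.nd (nat_lit 78) (nat_lit 76) (nat_lit 0) (XT.lf (nat_lit 0) (nat_lit 74542410961) (nat_lit 152) (nat_lit 13669226614) (nat_lit 0) (nat_lit 66684469348) (nat_lit 4) (nat_lit 5) (nat_lit 6) (nat_lit 4) (nat_lit 4) (nat_lit 4) (nat_lit 446) (nat_lit 324) (nat_lit 250)) (XT.nd (nat_lit 78) (nat_lit 76) (nat_lit 0) (XT.lf (nat_lit 0) (nat_lit 84703417392) (nat_lit 152) (nat_lit 760139637) (nat_lit 0) (nat_lit 76835076914) (nat_lit 4) (nat_lit 5) (nat_lit 6) (nat_lit 4) (nat_lit 4) (nat_lit 4) (nat_lit 447) (nat_lit 324) (nat_lit 249)) (XT.lf (nat_lit 0) (nat_lit 13183913167) (nat_lit 76) (nat_lit 82378071851) (nat_lit 76) (nat_lit 74499827691) (nat_lit 3) (nat_lit 4) (nat_lit 4) (nat_lit 5) (nat_lit 4) (nat_lit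 4) (nat_lit 448) (nat_lit 324) (nat_lit 248)))) (XT.nd (nat_lit 78) (nat_lit 0) (nat_lit 0) (XT.lf (nat_lit 0) (nat_lit 27819626352) (nat_lit 76) (nat_lit 79140679965) (nat_lit 76) (nat_lit 71253003727) (nat_lit 3) (nat_lit 4) (nat_lit 4) (nat_lit 5) (nat_lit 4) (nat_lit 4) (nat_lit 449) (nat_lit 324) (nat_lit 247)) (XT.nd (nat_lit 78) (nat_lit 0) (nat_lit 0) (XT.lf (nat_lit 0) (nat_lit 43156713203) (nat_lit 76) (nat_lit 75756546628) (nat_lit 76) (nat_lit 67859887459) (nat_lit 3) (nat_lit 4) (nat_lit 4) (nat_lit 5) (nat_lit 4) (nat_lit 4) (nat_lit 450) (nat_lit 324) (nat_lit 246)) (XT.lf (nat_lit 0) (nat_lit 59231690594) (nat_lit 76) (nat_lit 72217614379) (nat_lit 76) (nat_lit 64312400037) (nat_lit 3) (nat_lit 4) (nat_lit 4) (nat_lit 5) (nat_lit 4) (nat_lit 4) (nat_lit 451) (nat_lit 324) (nat_lit 245))))) (XT.nd (nat_lit 234) (nat_lit 0) (nat_lit 0) (XT.nd (nat_lit 78) (nat_lit 0) (nat_lit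 0) (XT.lf (nat_lit 0) (nat_lit 76082832281) (nat_lit 76) (nat_lit 68515457189) (nat_lit 76) (nat_lit 60602095064) (nat_lit 3) (nat_lit 4) (nat_lit 4) (nat_lit 5) (nat_lit 4) (nat_lit 4) (nat_lit 452) (nat_lit 324) (nat_lit 244)) (XT.nd (nat_lit 78) (nat_lit 0) (nat_lit 0) (XT.lf (nat_lit 0) (nat_lit 93750260029) (nat_lit 76) (nat_lit 64641260399) (nat_lit 76) (nat_lit 56720138480) (nat_lit 3) (nat_lit 4) (nat_lit 4) (nat_lit 5) (nat_lit 4) (nat_lit 4) (nat_lit 453) (nat_lit 324) (nat_lit 243)) (XT.lf (nat_lit 0) (nat_lit 112276039143) (nat_lit 76) (nat_lit 60585799731) (nat_lit 76) (nat_lit 52657287532) (nat_lit 3) (nat_lit 4) (nat_lit 4) (nat_lit 5) (nat_lit 4) (nat_lit 4) (nat_lit 454) (nat_lit 324) (nat_lit 242)))) (XT.nd (nat_lit 156) (nat_lit 0) (nat_lit 0) (XT.nd (nat_lit 78) (nat_lit 0) (nat_lit 0) (XT.lf (nat_lit 0) (nat_lit 131704278621) (nat_lit 76) (nat_lit 56339419325) (nat_lit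 76) (nat_lit 48403868764) (nat_lit 3) (nat_lit 4) (nat_lit 4) (nat_lit 5) (nat_lit 4) (nat_lit 4) (nat_lit 455) (nat_lit 324) (nat_lit 241)) (XT.lf (nat_lit 0) (nat_lit 152081236176) (nat_lit 76) (nat_lit 51892008752) (nat_lit 76) (nat_lit 43949754990) (nat_lit 3) (nat_lit 4) (nat_lit 4) (nat_lit 5) (nat_lit 4) (nat_lit 4) (nat_lit 456) (nat_lit 324) (nat_lit 240))) (XT.nd (nat_lit 78) (nat_lit 0) (nat_lit 0) (XT.lf (nat_lit 0) (nat_lit 173455428373) (nat_lit 76) (nat_lit 47232978939) (nat_lit 76) (nat_lit 39284341175) (nat_lit 3) (nat_lit 4) (nat_lit 4) (nat_lit 5) (nat_lit 4) (nat_lit 4) (nat_lit 457) (nat_lit 324) (nat_lit 239)) (XT.lf (nat_lit 0) (nat_lit 195877746146) (nat_lit 76) (nat_lit 42351236958) (nat_lit 76) (nat_lit 34396519193) (nat_lit 3) (nat_lit 4) (nat_lit 4) (nat_lit 5) (nat_lit 4) (nat_lit 4) (nat_lit 458) (nat_lit 324) (nat_lit 238))))))) (XT.nd (nat_lit 1014) (nat_lit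 0) (nat_lit 0) (XT.nd (nat_lit 468) (nat_lit 76) (nat_lit 0) (XT.nd (nat_lit 234) (nat_lit 76) (nat_lit 0) (XT.nd (nat_lit 78) (nat_lit 0) (nat_lit 0) (XT.lf (nat_lit 0) (nat_lit 219401575966) (nat_lit 76) (nat_lit 37235159615) (nat_lit 76) (nat_lit 29274651372) (nat_lit 3) (nat_lit 4) (nat_lit 4) (nat_lit 5) (nat_lit 4) (nat_lit 4) (nat_lit 459) (nat_lit 324) (nat_lit 237)) (XT.nd (nat_lit 78) (nat_lit 0) (nat_lit 0) (XT.lf (nat_lit 0) (nat_lit 244082926952) (nat_lit 76) (nat_lit 31872565771) (nat_lit 76) (nat_lit 23906542788) (nat_lit 3) (nat_lit 4) (nat_lit 4) (nat_lit 5) (nat_lit 4) (nat_lit 4) (nat_lit 460) (nat_lit 324) (nat_lit 236)) (XT.lf (nat_lit 0) (nat_lit 269980564224) (nat_lit 76) (nat_lit 26250687348) (nat_lit 76) (nat_lit 18279412231) (nat_lit 3) (nat_lit 4) (nat_lit 4) (nat_lit 5) (nat_lit 4) (nat_lit 4) (nat_lit 461) (nat_lit 324) (nat_lit 235)))) (XT.nd (nat_lit 78) (nat_lit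 76) (nat_lit 0) (XT.lf (nat_lit 0) (nat_lit 297156148825) (nat_lit 76) (nat_lit 20356138920) (nat_lit 76) (nat_lit 12379861770) (nat_lit 3) (nat_lit 4) (nat_lit 4) (nat_lit 5) (nat_lit 4) (nat_lit 4) (nat_lit 462) (nat_lit 324) (nat_lit 234)) (XT.nd (nat_lit 78) (nat_lit 76) (nat_lit 0) (XT.lf (nat_lit 0) (nat_lit 325674384527) (nat_lit 76) (nat_lit 14174885847) (nat_lit 76) (nat_lit 6193844858) (nat_lit 3) (nat_lit 4) (nat_lit 4) (nat_lit 5) (nat_lit 4) (nat_lit 4) (nat_lit 463) (nat_lit 324) (nat_lit 233)) (XT.lf (nat_lit 0) (nat_lit 283977538) (nat_lit 152) (nat_lit 7403424026) (nat_lit 76) (nat_lit 355314385056) (nat_lit 2) (nat_lit 5) (nat_lit 4) (nat_lit 5) (nat_lit 3) (nat_lit 4) (nat_lit 464) (nat_lit 324) (nat_lit 232))))) (XT.nd (nat_lit 234) (nat_lit 0) (nat_lit 0) (XT.nd (nat_lit 78) (nat_lit 0) (nat_lit 0) (XT.lf (nat_lit 0) (nat_lit 6295219731) (nat_lit 76) (nat_lit 673130831)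 (nat_lit 152) (nat_lit 373830423817) (nat_lit 1) (nat_lit 5) (nat_lit 2) (nat_lit 5) (nat_lit 3) (nat_lit 4) (nat_lit 465) (nat_lit 324) (nat_lit 231)) (XT.nd (nat_lit 78) (nat_lit 0) (nat_lit 0) (XT.lf (nat_lit 0) (nat_lit 14211397603) (nat_lit 152) (nat_lit 378664940694) (nat_lit 0) (nat_lit 6598050833) (nat_lit 1) (nat_lit 5) (nat_lit 3) (nat_lit 4) (nat_lit 1) (nat_lit 4) (nat_lit 466) (nat_lit 324) (nat_lit 230)) (XT.lf (nat_lit 0) (nat_lit 21820527917) (nat_lit 152) (nat_lit 383059611956) (nat_lit 0) (nat_lit 14203448554) (nat_lit 1) (nat_lit 5) (nat_lit 3) (nat_lit 4) (nat_lit 1) (nat_lit 4) (nat_lit 467) (nat_lit 324) (nat_lit 229)))) (XT.nd (nat_lit 156) (nat_lit 0) (nat_lit 0) (XT.nd (nat_lit 78) (nat_lit 0) (nat_lit 0) (XT.lf (nat_lit 0) (nat_lit 29803349023) (nat_lit 152) (nat_lit 387687522480) (nat_lit 0) (nat_lit 22182714809) (nat_lit 1) (nat_lit 5) (nat_lit 3) (nat_lit 4)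 (nat_lit 1) (nat_lit 4) (nat_lit 468) (nat_lit 324) (nat_lit 228)) (XT.lf (nat_lit 0) (nat_lit 38178867638) (nat_lit 152) (nat_lit 392559691100) (nat_lit 0) (nat_lit 30554847851) (nat_lit 1) (nat_lit 5) (nat_lit 3) (nat_lit 4) (nat_lit 1) (nat_lit 4) (nat_lit 469) (nat_lit 324) (nat_lit 227))) (XT.nd (nat_lit 78) (nat_lit 0) (nat_lit 0) (XT.lf (nat_lit 0) (nat_lit 46967025473) (nat_lit 152) (nat_lit 397687718216) (nat_lit 0) (nat_lit 39339781332) (nat_lit 1) (nat_lit 5) (nat_lit 3) (nat_lit 4) (nat_lit 1) (nat_lit 4) (nat_lit 470) (nat_lit 324) (nat_lit 226)) (XT.lf (nat_lit 0) (nat_lit 56188746713) (nat_lit 152) (nat_lit 403083813419) (nat_lit 0) (nat_lit 48558431758) (nat_lit 1) (nat_lit 5) (nat_lit 3) (nat_lit 4) (nat_lit 1) (nat_lit 4) (nat_lit 471) (nat_lit 324) (nat_lit 225)))))) (XT.nd (nat_lit 468) (nat_lit 0) (nat_lit 0) (XT.nd (nat_lit 234) (nat_lit 0) (nat_lit 0) (XT.nd (nat_lit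 78) (nat_lit 0) (nat_lit 0) (XT.lf (nat_lit 0) (nat_lit 65865987838) (nat_lit 152) (nat_lit 408760824553) (nat_lit 0) (nat_lit 58232748298) (nat_lit 1) (nat_lit 5) (nat_lit 3) (nat_lit 4) (nat_lit 1) (nat_lit 4) (nat_lit 472) (nat_lit 324) (nat_lit 224)) (XT.nd (nat_lit 78) (nat_lit 0) (nat_lit 0) (XT.lf (nat_lit 0) (nat_lit 76021789897) (nat_lit 152) (nat_lit 414732268311) (nat_lit 0) (nat_lit 68385765039) (nat_lit 1) (nat_lit 5) (nat_lit 3) (nat_lit 4) (nat_lit 1) (nat_lit 4) (nat_lit 473) (nat_lit 324) (nat_lit 223)) (XT.lf (nat_lit 0) (nat_lit 86680333373) (nat_lit 152) (nat_lit 421012362418) (nat_lit 0) (nat_lit 79041655830) (nat_lit 1) (nat_lit 5) (nat_lit 3) (nat_lit 4) (nat_lit 1) (nat_lit 4) (nat_lit 474) (nat_lit 324) (nat_lit 222)))) (XT.nd (nat_lit 78) (nat_lit 0) (nat_lit 0) (XT.lf (nat_lit 0) (nat_lit 97866995748) (nat_lit 152) (nat_lit 427616059477) (nat_lit 0) (nat_lit 90225791839)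 (nat_lit 1) (nat_lit 5) (nat_lit 3) (nat_lit 4) (nat_lit 1) (nat_lit 4) (nat_lit 475) (nat_lit 324) (nat_lit 221)) (XT.nd (nat_lit 78) (nat_lit 0) (nat_lit 0) (XT.lf (nat_lit 0) (nat_lit 109608411935) (nat_lit 152) (nat_lit 434559082577) (nat_lit 0) (nat_lit 101964801963) (nat_lit 1) (nat_lit 5) (nat_lit 3) (nat_lit 4) (nat_lit 1) (nat_lit 4) (nat_lit 476) (nat_lit 324) (nat_lit 220)) (XT.lf (nat_lit 0) (nat_lit 121932537685) (nat_lit 152) (nat_lit 441857962726) (nat_lit 0) (nat_lit 114286636224) (nat_lit 1) (nat_lit 5) (nat_lit 3) (nat_lit 4) (nat_lit 1) (nat_lit 4) (nat_lit 477) (nat_lit 324) (nat_lit 219))))) (XT.nd (nat_lit 44694) (nat_lit 0) (nat_lit 4256) (XT.nd (nat_lit 78) (nat_lit 0) (nat_lit 0) (XT.lf (nat_lit 0) (nat_lit 134868716155) (nat_lit 152) (nat_lit 449530078209) (nat_lit 0) (nat_lit 127220632324) (nat_lit 1) (nat_lit 5) (nat_lit 3) (nat_lit 4) (nat_lit 1) (nat_lit 4)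 (nat_lit 478) (nat_lit 324) (nat_lit 218)) (XT.nd (nat_lit 78) (nat_lit 0) (nat_lit 0) (XT.lf (nat_lit 0) (nat_lit 148447747770) (nat_lit 152) (nat_lit 457593695969) (nat_lit 0) (nat_lit 140797585492) (nat_lit 1) (nat_lit 5) (nat_lit 3) (nat_lit 4) (nat_lit 1) (nat_lit 4) (nat_lit 479) (nat_lit 324) (nat_lit 217)) (XT.lf (nat_lit 0) (nat_lit 162701963558) (nat_lit 152) (nat_lit 466068015094) (nat_lit 0) (nat_lit 155049821806) (nat_lit 1) (nat_lit 5) (nat_lit 3) (nat_lit 4) (nat_lit 1) (nat_lit 4) (nat_lit 480) (nat_lit 324) (nat_lit 216)))) (XT.nd (nat_lit 156) (nat_lit 456) (nat_lit 0) (XT.nd (nat_lit 78) (nat_lit 228) (nat_lit 0) (XT.lf (nat_lit 0) (nat_lit 2122249302) (nat_lit 304) (nat_lit 364262061) (nat_lit 0) (nat_lit 2122249302) (nat_lit 66) (nat_lit 5) (nat_lit 70) (nat_lit 4) (nat_lit 66) (nat_lit 4) (nat_lit 370) (nat_lit 325) (nat_lit 325)) (XT.lf (nat_lit 0) (nat_lit 7019652910)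 (nat_lit 228) (nat_lit 1640620595) (nat_lit 228) (nat_lit 759141151) (nat_lit 63) (nat_lit 4) (nat_lit 66) (nat_lit 5) (nat_lit 66) (nat_lit 4) (nat_lit 371) (nat_lit 325) (nat_lit 324))) (XT.nd (nat_lit 78) (nat_lit 228) (nat_lit 0) (XT.lf (nat_lit 0) (nat_lit 3510741506) (nat_lit 228) (nat_lit 4248034936) (nat_lit 0) (nat_lit 1871709433) (nat_lit 60) (nat_lit 5) (nat_lit 63) (nat_lit 4) (nat_lit 60) (nat_lit 4) (nat_lit 372) (nat_lit 325) (nat_lit 323)) (XT.lf (nat_lit 0) (nat_lit 3608344639) (nat_lit 228) (nat_lit 4322788390) (nat_lit 228) (nat_lit 1922301231) (nat_lit 57) (nat_lit 4) (nat_lit 60) (nat_lit 5) (nat_lit 60) (nat_lit 4) (nat_lit 373) (nat_lit 325) (nat_lit 322))))))))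
noncomputable def xc60 : XT := (XT.nd (nat_lit 1950) (nat_lit 988) (nat_lit 0) (XT.nd (nat_lit 936) (nat_lit 1064) (nat_lit 0) (XT.nd (nat_lit 468) (nat_lit 608) (nat_lit 0) (XT.nd (nat_lit 234) (nat_lit 532) (nat_lit 0) (XT.nd (nat_lit 78) (nat_lit 228) (nat_lit 0) (XT.lf (nat_lit 0) (nat_lit 1679433982) (nat_lit 152) (nat_lit 664525266) (nat_lit 228) (nat_lit 7744772337) (nat_lit 54) (nat_lit 5) (nat_lit 56) (nat_lit 5) (nat_lit 57) (nat_lit 4) (nat_lit 374) (nat_lit 325) (nat_lit 321)) (XT.nd (nat_lit 78) (nat_lit 228) (nat_lit 0) (XT.lf (nat_lit 0) (nat_lit 6757429082) (nat_lit 228) (nat_lit 454111397) (nat_lit 0) (nat_lit 3122815092) (nat_lit 54) (nat_lit 5) (nat_lit 57) (nat_lit 4) (nat_lit 54) (nat_lit 4) (nat_lit 375) (nat_lit 325) (nat_lit 320)) (XT.lf (nat_lit 0) (nat_lit 756510185) (nat_lit 228) (nat_lit 2710219092) (nat_lit 76) (nat_lit 7125824995) (nat_lit 51) (nat_lit 5) (nat_lit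 54) (nat_lit 5) (nat_lit 52) (nat_lit 4) (nat_lit 376) (nat_lit 325) (nat_lit 319)))) (XT.nd (nat_lit 78) (nat_lit 380) (nat_lit 0) (XT.lf (nat_lit 0) (nat_lit 5140860847) (nat_lit 228) (nat_lit 5207707289) (nat_lit 0) (nat_lit 514494220) (nat_lit 49) (nat_lit 5) (nat_lit 52) (nat_lit 4) (nat_lit 49) (nat_lit 4) (nat_lit 377) (nat_lit 325) (nat_lit 318)) (XT.nd (nat_lit 78) (nat_lit 228) (nat_lit 0) (XT.lf (nat_lit 0) (nat_lit 3184375665) (nat_lit 152) (nat_lit 6565020826) (nat_lit 152) (nat_lit 1397502287) (nat_lit 47) (nat_lit 4) (nat_lit 49) (nat_lit 5) (nat_lit 49) (nat_lit 4) (nat_lit 378) (nat_lit 325) (nat_lit 317)) (XT.lf (nat_lit 0) (nat_lit 450879485) (nat_lit 152) (nat_lit 2541208709) (nat_lit 228) (nat_lit 8452968188) (nat_lit 44) (nat_lit 5) (nat_lit 46) (nat_lit 5) (nat_lit 47) (nat_lit 4) (nat_lit 379) (nat_lit 325) (nat_lit 316))))) (XT.nd (nat_lit 234) (nat_lit 304) (nat_lit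 0) (XT.nd (nat_lit 78) (nat_lit 304) (nat_lit 0) (XT.lf (nat_lit 0) (nat_lit 7571737194) (nat_lit 228) (nat_lit 2492423428) (nat_lit 0) (nat_lit 1691982858) (nat_lit 44) (nat_lit 5) (nat_lit 47) (nat_lit 4) (nat_lit 44) (nat_lit 4) (nat_lit 380) (nat_lit 325) (nat_lit 315)) (XT.nd (nat_lit 78) (nat_lit 76) (nat_lit 0) (XT.lf (nat_lit 0) (nat_lit 290102796) (nat_lit 228) (nat_lit 5730250620) (nat_lit 76) (nat_lit 6062137231) (nat_lit 41) (nat_lit 5) (nat_lit 44) (nat_lit 5) (nat_lit 42) (nat_lit 4) (nat_lit 381) (nat_lit 325) (nat_lit 314)) (XT.lf (nat_lit 0) (nat_lit 3092487968) (nat_lit 76) (nat_lit 1708222278) (nat_lit 152) (nat_lit 7623403550) (nat_lit 40) (nat_lit 5) (nat_lit 41) (nat_lit 5) (nat_lit 42) (nat_lit 4) (nat_lit 382) (nat_lit 325) (nat_lit 313)))) (XT.nd (nat_lit 78) (nat_lit 304) (nat_lit 0) (XT.lf (nat_lit 0) (nat_lit 9542640470) (nat_lit 152) (nat_lit 509459174) (nat_lit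 0) (nat_lit 2730465301) (nat_lit 40) (nat_lit 5) (nat_lit 42) (nat_lit 4) (nat_lit 40) (nat_lit 4) (nat_lit 383) (nat_lit 325) (nat_lit 312)) (XT.nd (nat_lit 78) (nat_lit 76) (nat_lit 0) (XT.lf (nat_lit 0) (nat_lit 1354339225) (nat_lit 228) (nat_lit 4402052672) (nat_lit 76) (nat_lit 7399754702) (nat_lit 37) (nat_lit 5) (nat_lit 40) (nat_lit 5) (nat_lit 38) (nat_lit 4) (nat_lit 384) (nat_lit 325) (nat_lit 311)) (XT.lf (nat_lit 0) (nat_lit 4821272077) (nat_lit 76) (nat_lit 1202411586) (nat_lit 152) (nat_lit 7524386982) (nat_lit 36) (nat_lit 5) (nat_lit 37) (nat_lit 5) (nat_lit 38) (nat_lit 4) (nat_lit 385) (nat_lit 325) (nat_lit 310)))))) (XT.nd (nat_lit 468) (nat_lit 456) (nat_lit 0) (XT.nd (nat_lit 234) (nat_lit 304) (nat_lit 0) (XT.nd (nat_lit 78) (nat_lit 152) (nat_lit 0) (XT.lf (nat_lit 0) (nat_lit 427879625) (nat_lit 152) (nat_lit 10508248742) (nat_lit 152) (nat_lit 3023010871) (nat_lit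 34) (nat_lit 4) (nat_lit 36) (nat_lit 5) (nat_lit 36) (nat_lit 4) (nat_lit 386) (nat_lit 325) (nat_lit 309)) (XT.nd (nat_lit 78) (nat_lit 76) (nat_lit 0) (XT.lf (nat_lit 0) (nat_lit 1690615990) (nat_lit 228) (nat_lit 4320808725) (nat_lit 76) (nat_lit 8375948863) (nat_lit 33) (nat_lit 5) (nat_lit 36) (nat_lit 5) (nat_lit 34) (nat_lit 4) (nat_lit 387) (nat_lit 325) (nat_lit 308)) (XT.lf (nat_lit 0) (nat_lit 5247636988) (nat_lit 76) (nat_lit 1250505893) (nat_lit 152) (nat_lit 8338434205) (nat_lit 32) (nat_lit 5) (nat_lit 33) (nat_lit 5) (nat_lit 34) (nat_lit 4) (nat_lit 388) (nat_lit 325) (nat_lit 307)))) (XT.nd (nat_lit 78) (nat_lit 304) (nat_lit 0) (XT.lf (nat_lit 0) (nat_lit 11557722656) (nat_lit 152) (nat_lit 141640510) (nat_lit 0) (nat_lit 3608318457) (nat_lit 32) (nat_lit 5) (nat_lit 34) (nat_lit 4) (nat_lit 32) (nat_lit 4) (nat_lit 389) (nat_lit 325) (nat_lit 306)) (XT.nd (nat_lit 78)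 (nat_lit 76) (nat_lit 0) (XT.lf (nat_lit 0) (nat_lit 1093726298) (nat_lit 228) (nat_lit 5955173213) (nat_lit 76) (nat_lit 8749632231) (nat_lit 29) (nat_lit 5) (nat_lit 32) (nat_lit 5) (nat_lit 30) (nat_lit 4) (nat_lit 390) (nat_lit 325) (nat_lit 305)) (XT.lf (nat_lit 0) (nat_lit 3869346897) (nat_lit 76) (nat_lit 2132000326) (nat_lit 152) (nat_lit 10312135996) (nat_lit 28) (nat_lit 5) (nat_lit 29) (nat_lit 5) (nat_lit 30) (nat_lit 4) (nat_lit 391) (nat_lit 325) (nat_lit 304))))) (XT.nd (nat_lit 234) (nat_lit 228) (nat_lit 0) (XT.nd (nat_lit 78) (nat_lit 228) (nat_lit 0) (XT.lf (nat_lit 0) (nat_lit 11189837550) (nat_lit 152) (nat_lit 2718728973) (nat_lit 0) (nat_lit 2943861635) (nat_lit 28) (nat_lit 5) (nat_lit 30) (nat_lit 4) (nat_lit 28) (nat_lit 4) (nat_lit 392) (nat_lit 325) (nat_lit 303)) (XT.nd (nat_lit 78) (nat_lit 152) (nat_lit 0) (XT.lf (nat_lit 0) (nat_lit 7495558974) (nat_lit 76)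 (nat_lit 9185278418) (nat_lit 76) (nat_lit 735348038) (nat_lit 27) (nat_lit 4) (nat_lit 28) (nat_lit 5) (nat_lit 28) (nat_lit 4) (nat_lit 393) (nat_lit 325) (nat_lit 302)) (XT.lf (nat_lit 0) (nat_lit 37587791) (nat_lit 76) (nat_lit 4197417339) (nat_lit 152) (nat_lit 13772738273) (nat_lit 25) (nat_lit 5) (nat_lit 26) (nat_lit 5) (nat_lit 27) (nat_lit 4) (nat_lit 394) (nat_lit 325) (nat_lit 301)))) (XT.nd (nat_lit 156) (nat_lit 152) (nat_lit 0) (XT.nd (nat_lit 78) (nat_lit 76) (nat_lit 0) (XT.lf (nat_lit 0) (nat_lit 9508185741) (nat_lit 152) (nat_lit 8016699627) (nat_lit 0) (nat_lit 1099456752) (nat_lit 25) (nat_lit 5) (nat_lit 27) (nat_lit 4) (nat_lit 25) (nat_lit 4) (nat_lit 395) (nat_lit 325) (nat_lit 300)) (XT.lf (nat_lit 0) (nat_lit 2243804845) (nat_lit 76) (nat_lit 12802227168) (nat_lit 76) (nat_lit 4225704335) (nat_lit 24) (nat_lit 4) (nat_lit 25) (nat_lit 5) (nat_lit 25) (nat_lit 4)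 (nat_lit 396) (nat_lit 325) (nat_lit 299))) (XT.nd (nat_lit 78) (nat_lit 76) (nat_lit 0) (XT.lf (nat_lit 0) (nat_lit 915578388) (nat_lit 152) (nat_lit 6859390794) (nat_lit 76) (nat_lit 12174065202) (nat_lit 23) (nat_lit 5) (nat_lit 25) (nat_lit 5) (nat_lit 24) (nat_lit 4) (nat_lit 397) (nat_lit 325) (nat_lit 298)) (XT.lf (nat_lit 0) (nat_lit 3681453419) (nat_lit 76) (nat_lit 2450241152) (nat_lit 152) (nat_lit 14527063768) (nat_lit 22) (nat_lit 5) (nat_lit 23) (nat_lit 5) (nat_lit 24) (nat_lit 4) (nat_lit 398) (nat_lit 325) (nat_lit 297))))))) (XT.nd (nat_lit 1014) (nat_lit 380) (nat_lit 0) (XT.nd (nat_lit 468) (nat_lit 304) (nat_lit 0) (XT.nd (nat_lit 234) (nat_lit 152) (nat_lit 0) (XT.nd (nat_lit 78) (nat_lit 152) (nat_lit 0) (XT.lf (nat_lit 0) (nat_lit 11678501948) (nat_lit 152) (nat_lit 6646785398) (nat_lit 0) (nat_lit 3075199963) (nat_lit 22) (nat_lit 5) (nat_lit 24) (nat_lit 4) (nat_lit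 22) (nat_lit 4) (nat_lit 399) (nat_lit 325) (nat_lit 296)) (XT.nd (nat_lit 78) (nat_lit 76) (nat_lit 0) (XT.lf (nat_lit 0) (nat_lit 4115462431) (nat_lit 76) (nat_lit 13399017062) (nat_lit 76) (nat_lit 4664244211) (nat_lit 21) (nat_lit 4) (nat_lit 22) (nat_lit 5) (nat_lit 22) (nat_lit 4) (nat_lit 400) (nat_lit 325) (nat_lit 295)) (XT.lf (nat_lit 0) (nat_lit 647714271) (nat_lit 152) (nat_lit 7532168944) (nat_lit 76) (nat_lit 14814394485) (nat_lit 20) (nat_lit 5) (nat_lit 22) (nat_lit 5) (nat_lit 21) (nat_lit 4) (nat_lit 401) (nat_lit 325) (nat_lit 294)))) (XT.nd (nat_lit 78) (nat_lit 76) (nat_lit 0) (XT.lf (nat_lit 0) (nat_lit 3389330763) (nat_lit 76) (nat_lit 2644114073) (nat_lit 152) (nat_lit 17815106009) (nat_lit 19) (nat_lit 5) (nat_lit 20) (nat_lit 5) (nat_lit 21) (nat_lit 4) (nat_lit 402) (nat_lit 325) (nat_lit 293)) (XT.nd (nat_lit 78) (nat_lit 76) (nat_lit 0) (XT.lf (nat_lit 0) (nat_lit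 11779961282) (nat_lit 152) (nat_lit 9840860495) (nat_lit 0) (nat_lit 3120151158) (nat_lit 19) (nat_lit 5) (nat_lit 21) (nat_lit 4) (nat_lit 19) (nat_lit 4) (nat_lit 403) (nat_lit 325) (nat_lit 292)) (XT.lf (nat_lit 0) (nat_lit 1141071590) (nat_lit 76) (nat_lit 16650444825) (nat_lit 76) (nat_lit 7887623837) (nat_lit 18) (nat_lit 4) (nat_lit 19) (nat_lit 5) (nat_lit 19) (nat_lit 4) (nat_lit 404) (nat_lit 325) (nat_lit 291))))) (XT.nd (nat_lit 234) (nat_lit 152) (nat_lit 0) (XT.nd (nat_lit 78) (nat_lit 152) (nat_lit 0) (XT.lf (nat_lit 0) (nat_lit 12855821015) (nat_lit 76) (nat_lit 11332547418) (nat_lit 76) (nat_lit 2471620846) (nat_lit 18) (nat_lit 4) (nat_lit 19) (nat_lit 5) (nat_lit 19) (nat_lit 4) (nat_lit 405) (nat_lit 325) (nat_lit 290)) (XT.nd (nat_lit 78) (nat_lit 76) (nat_lit 0) (XT.lf (nat_lit 0) (nat_lit 3032949811) (nat_lit 152) (nat_lit 2736813348) (nat_lit 76) (nat_lit 21921582464)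 (nat_lit 17) (nat_lit 5) (nat_lit 19) (nat_lit 5) (nat_lit 18) (nat_lit 4) (nat_lit 406) (nat_lit 325) (nat_lit 289)) (XT.lf (nat_lit 0) (nat_lit 8797400562) (nat_lit 152) (nat_lit 19786774705) (nat_lit 0) (nat_lit 184690923) (nat_lit 16) (nat_lit 5) (nat_lit 18) (nat_lit 4) (nat_lit 16) (nat_lit 4) (nat_lit 407) (nat_lit 325) (nat_lit 288)))) (XT.nd (nat_lit 156) (nat_lit 76) (nat_lit 0) (XT.nd (nat_lit 78) (nat_lit 76) (nat_lit 0) (XT.lf (nat_lit 0) (nat_lit 14916498124) (nat_lit 152) (nat_lit 8757374319) (nat_lit 0) (nat_lit 6223076779) (nat_lit 16) (nat_lit 5) (nat_lit 18) (nat_lit 4) (nat_lit 16) (nat_lit 4) (nat_lit 408) (nat_lit 325) (nat_lit 287)) (XT.lf (nat_lit 0) (nat_lit 2773168673) (nat_lit 76) (nat_lit 18539992075) (nat_lit 76) (nat_lit 9769702437) (nat_lit 15) (nat_lit 4) (nat_lit 16) (nat_lit 5) (nat_lit 16) (nat_lit 4) (nat_lit 409) (nat_lit 325) (nat_lit 286))) (XT.nd (nat_lit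 78) (nat_lit 76) (nat_lit 0) (XT.lf (nat_lit 0) (nat_lit 15047432276) (nat_lit 76) (nat_lit 13060125005) (nat_lit 76) (nat_lit 4216627468) (nat_lit 15) (nat_lit 4) (nat_lit 16) (nat_lit 5) (nat_lit 16) (nat_lit 4) (nat_lit 410) (nat_lit 325) (nat_lit 285)) (XT.lf (nat_lit 0) (nat_lit 1494277480) (nat_lit 152) (nat_lit 5849950509) (nat_lit 76) (nat_lit 26285498788) (nat_lit 14) (nat_lit 5) (nat_lit 16) (nat_lit 5) (nat_lit 15) (nat_lit 4) (nat_lit 411) (nat_lit 325) (nat_lit 284)))))) (XT.nd (nat_lit 468) (nat_lit 228) (nat_lit 0) (XT.nd (nat_lit 234) (nat_lit 76) (nat_lit 0) (XT.nd (nat_lit 78) (nat_lit 0) (nat_lit 0) (XT.lf (nat_lit 0) (nat_lit 6149619865) (nat_lit 76) (nat_lit 1230497661) (nat_lit 152) (nat_lit 27615423313) (nat_lit 13) (nat_lit 5) (nat_lit 14) (nat_lit 5) (nat_lit 15) (nat_lit 4) (nat_lit 412) (nat_lit 325) (nat_lit 283)) (XT.nd (nat_lit 78) (nat_lit 0) (nat_lit 0) (XT.lf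 (nat_lit 0) (nat_lit 13677249866) (nat_lit 152) (nat_lit 17681549950) (nat_lit 0) (nat_lit 5065001485) (nat_lit 13) (nat_lit 5) (nat_lit 15) (nat_lit 4) (nat_lit 13) (nat_lit 4) (nat_lit 413) (nat_lit 325) (nat_lit 282)) (XT.lf (nat_lit 0) (nat_lit 20247783153) (nat_lit 152) (nat_lit 6099595387) (nat_lit 0) (nat_lit 11578174469) (nat_lit 13) (nat_lit 5) (nat_lit 15) (nat_lit 4) (nat_lit 13) (nat_lit 4) (nat_lit 414) (nat_lit 325) (nat_lit 281)))) (XT.nd (nat_lit 78) (nat_lit 0) (nat_lit 0) (XT.lf (nat_lit 0) (nat_lit 6143356075) (nat_lit 76) (nat_lit 21040708928) (nat_lit 76) (nat_lit 12316471383) (nat_lit 12) (nat_lit 4) (nat_lit 13) (nat_lit 5) (nat_lit 13) (nat_lit 4) (nat_lit 415) (nat_lit 325) (nat_lit 280)) (XT.nd (nat_lit 78) (nat_lit 0) (nat_lit 0) (XT.lf (nat_lit 0) (nat_lit 19097343129) (nat_lit 76) (nat_lit 15415456906) (nat_lit 76) (nat_lit 6639191875) (nat_lit 12) (nat_lit 4)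 (nat_lit 13) (nat_lit 5) (nat_lit 13) (nat_lit 4) (nat_lit 416) (nat_lit 325) (nat_lit 279)) (XT.lf (nat_lit 0) (nat_lit 32591528430) (nat_lit 76) (nat_lit 9561528617) (nat_lit 76) (nat_lit 735713599) (nat_lit 12) (nat_lit 4) (nat_lit 13) (nat_lit 5) (nat_lit 13) (nat_lit 4) (nat_lit 417) (nat_lit 325) (nat_lit 278))))) (XT.nd (nat_lit 234) (nat_lit 76) (nat_lit 0) (XT.nd (nat_lit 78) (nat_lit 0) (nat_lit 0) (XT.lf (nat_lit 0) (nat_lit 1920052540) (nat_lit 76) (nat_lit 3344853811) (nat_lit 152) (nat_lit 39444380844) (nat_lit 10) (nat_lit 5) (nat_lit 11) (nat_lit 5) (nat_lit 12) (nat_lit 4) (nat_lit 418) (nat_lit 325) (nat_lit 277)) (XT.nd (nat_lit 78) (nat_lit 0) (nat_lit 0) (XT.lf (nat_lit 0) (nat_lit 11714756228) (nat_lit 152) (nat_lit 31675306497) (nat_lit 0) (nat_lit 3221471675) (nat_lit 10) (nat_lit 5) (nat_lit 12) (nat_lit 4) (nat_lit 10) (nat_lit 4) (nat_lit 419) (nat_lit 325) (nat_lit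 276)) (XT.lf (nat_lit 0) (nat_lit 18491442702) (nat_lit 152) (nat_lit 20159844671) (nat_lit 0) (nat_lit 9957393252) (nat_lit 10) (nat_lit 5) (nat_lit 12) (nat_lit 4) (nat_lit 10) (nat_lit 4) (nat_lit 420) (nat_lit 325) (nat_lit 275)))) (XT.nd (nat_lit 156) (nat_lit 0) (nat_lit 0) (XT.nd (nat_lit 78) (nat_lit 76) (nat_lit 0) (XT.lf (nat_lit 0) (nat_lit 25558878199) (nat_lit 152) (nat_lit 8163208871) (nat_lit 0) (nat_lit 16986005038) (nat_lit 10) (nat_lit 5) (nat_lit 12) (nat_lit 4) (nat_lit 10) (nat_lit 4) (nat_lit 421) (nat_lit 325) (nat_lit 274)) (XT.lf (nat_lit 0) (nat_lit 4486768948) (nat_lit 76) (nat_lit 28517172035) (nat_lit 76) (nat_lit 19907323911) (nat_lit 9) (nat_lit 4) (nat_lit 10) (nat_lit 5) (nat_lit 10) (nat_lit 4) (nat_lit 422) (nat_lit 325) (nat_lit 273))) (XT.nd (nat_lit 78) (nat_lit 0) (nat_lit 0) (XT.lf (nat_lit 0) (nat_lit 17964012577) (nat_lit 76) (nat_lit 22950493499)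 (nat_lit 76) (nat_lit 14305431124) (nat_lit 9) (nat_lit 4) (nat_lit 10) (nat_lit 5) (nat_lit 10) (nat_lit 4) (nat_lit 423) (nat_lit 325) (nat_lit 272)) (XT.lf (nat_lit 0) (nat_lit 32030698138) (nat_lit 76) (nat_lit 17147045358) (nat_lit 76) (nat_lit 8468445601) (nat_lit 9) (nat_lit 4) (nat_lit 10) (nat_lit 5) (nat_lit 10) (nat_lit 4) (nat_lit 424) (nat_lit 325) (nat_lit 271))))))))
noncomputable def xc61 : XT := (XT.nd (nat_lit 1950) (nat_lit 152) (nat_lit 0) (XT.nd (nat_lit 936) (nat_lit 228) (nat_lit 0) (XT.nd (nat_lit 468) (nat_lit 76) (nat_lit 0) (XT.nd (nat_lit 234) (nat_lit 0) (nat_lit 0) (XT.nd (nat_lit 78) (nat_lit 152) (nat_lit 0) (XT.lf (nat_lit 0) (nat_lit 46720317740) (nat_lit 76) (nat_lit 11093009877) (nat_lit 76) (nat_lit 2382469758) (nat_lit 9) (nat_lit 4) (nat_lit 10) (nat_lit 5) (nat_lit 10) (nat_lit 4) (nat_lit 425) (nat_lit 325) (nat_lit 270)) (XT.nd (nat_lit 78) (nat_lit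 76) (nat_lit 0) (XT.lf (nat_lit 0) (nat_lit 3840018472) (nat_lit 152) (nat_lit 868921645) (nat_lit 76) (nat_lit 58162795625) (nat_lit 8) (nat_lit 5) (nat_lit 10) (nat_lit 5) (nat_lit 9) (nat_lit 4) (nat_lit 426) (nat_lit 325) (nat_lit 269)) (XT.lf (nat_lit 0) (nat_lit 10488038571) (nat_lit 152) (nat_lit 53046034587) (nat_lit 0) (nat_lit 2135723938) (nat_lit 7) (nat_lit 5) (nat_lit 9) (nat_lit 4) (nat_lit 7) (nat_lit 4) (nat_lit 427) (nat_lit 325) (nat_lit 268)))) (XT.nd (nat_lit 78) (nat_lit 0) (nat_lit 0) (XT.lf (nat_lit 0) (nat_lit 17523072665) (nat_lit 152) (nat_lit 41937480078) (nat_lit 0) (nat_lit 9144480616) (nat_lit 7) (nat_lit 5) (nat_lit 9) (nat_lit 4) (nat_lit 7) (nat_lit 4) (nat_lit 428) (nat_lit 325) (nat_lit 267)) (XT.nd (nat_lit 78) (nat_lit 0) (nat_lit 0) (XT.lf (nat_lit 0) (nat_lit 24874106467) (nat_lit 152) (nat_lit 30344226635) (nat_lit 0) (nat_lit 16470488307) (nat_lit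 7) (nat_lit 5) (nat_lit 9) (nat_lit 4) (nat_lit 7) (nat_lit 4) (nat_lit 429) (nat_lit 325) (nat_lit 266)) (XT.lf (nat_lit 0) (nat_lit 32558642437) (nat_lit 152) (nat_lit 18238671273) (nat_lit 0) (nat_lit 24131189886) (nat_lit 7) (nat_lit 5) (nat_lit 9) (nat_lit 4) (nat_lit 7) (nat_lit 4) (nat_lit 430) (nat_lit 325) (nat_lit 265))))) (XT.nd (nat_lit 234) (nat_lit 0) (nat_lit 0) (XT.nd (nat_lit 78) (nat_lit 76) (nat_lit 0) (XT.lf (nat_lit 0) (nat_lit 40594977090) (nat_lit 152) (nat_lit 5591991242) (nat_lit 0) (nat_lit 32144825119) (nat_lit 7) (nat_lit 5) (nat_lit 9) (nat_lit 4) (nat_lit 7) (nat_lit 4) (nat_lit 431) (nat_lit 325) (nat_lit 264)) (XT.nd (nat_lit 78) (nat_lit 0) (nat_lit 0) (XT.lf (nat_lit 0) (nat_lit 7878072107) (nat_lit 76) (nat_lit 41247171231) (nat_lit 76) (nat_lit 32775400766) (nat_lit 6) (nat_lit 4) (nat_lit 7) (nat_lit 5) (nat_lit 7) (nat_lit 4) (nat_lit 432) (nat_lit 325)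 (nat_lit 263)) (XT.lf (nat_lit 0) (nat_lit 22155667199) (nat_lit 76) (nat_lit 35990706994) (nat_lit 76) (nat_lit 27498347486) (nat_lit 6) (nat_lit 4) (nat_lit 7) (nat_lit 5) (nat_lit 7) (nat_lit 4) (nat_lit 433) (nat_lit 325) (nat_lit 262)))) (XT.nd (nat_lit 78) (nat_lit 0) (nat_lit 0) (XT.lf (nat_lit 0) (nat_lit 37089891822) (nat_lit 76) (nat_lit 30499763306) (nat_lit 76) (nat_lit 21987795185) (nat_lit 6) (nat_lit 4) (nat_lit 7) (nat_lit 5) (nat_lit 7) (nat_lit 4) (nat_lit 434) (nat_lit 325) (nat_lit 261)) (XT.nd (nat_lit 78) (nat_lit 0) (nat_lit 0) (XT.lf (nat_lit 0) (nat_lit 52716303654) (nat_lit 76) (nat_lit 24761266492) (nat_lit 76) (nat_lit 16230623503) (nat_lit 6) (nat_lit 4) (nat_lit 7) (nat_lit 5) (nat_lit 7) (nat_lit 4) (nat_lit 435) (nat_lit 325) (nat_lit 260)) (XT.lf (nat_lit 0) (nat_lit 69072108437) (nat_lit 76) (nat_lit 18761553465) (nat_lit 76) (nat_lit 10213124886) (nat_lit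 6) (nat_lit 4) (nat_lit 7) (nat_lit 5) (nat_lit 7) (nat_lit 4) (nat_lit 436) (nat_lit 325) (nat_lit 259)))))) (XT.nd (nat_lit 468) (nat_lit 76) (nat_lit 0) (XT.nd (nat_lit 234) (nat_lit 0) (nat_lit 0) (XT.nd (nat_lit 78) (nat_lit 152) (nat_lit 0) (XT.lf (nat_lit 0) (nat_lit 86196248564) (nat_lit 76) (nat_lit 12486339193) (nat_lit 76) (nat_lit 3920971958) (nat_lit 6) (nat_lit 4) (nat_lit 7) (nat_lit 5) (nat_lit 7) (nat_lit 4) (nat_lit 437) (nat_lit 325) (nat_lit 258)) (XT.nd (nat_lit 78) (nat_lit 76) (nat_lit 0) (XT.lf (nat_lit 0) (nat_lit 2575653850) (nat_lit 152) (nat_lit 3301408896) (nat_lit 76) (nat_lit 101510222002) (nat_lit 5) (nat_lit 5) (nat_lit 7) (nat_lit 5) (nat_lit 6) (nat_lit 4) (nat_lit 438) (nat_lit 325) (nat_lit 257)) (XT.lf (nat_lit 0) (nat_lit 9429281541) (nat_lit 152) (nat_lit 101727712093) (nat_lit 0) (nat_lit 1241792826) (nat_lit 4) (nat_lit 5) (nat_lit 6) (nat_lit 4)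 (nat_lit 4) (nat_lit 4) (nat_lit 439) (nat_lit 325) (nat_lit 256)))) (XT.nd (nat_lit 78) (nat_lit 0) (nat_lit 0) (XT.lf (nat_lit 0) (nat_lit 16755789768) (nat_lit 152) (nat_lit 92344199276) (nat_lit 0) (nat_lit 8554365578) (nat_lit 4) (nat_lit 5) (nat_lit 6) (nat_lit 4) (nat_lit 4) (nat_lit 4) (nat_lit 440) (nat_lit 325) (nat_lit 255)) (XT.nd (nat_lit 78) (nat_lit 0) (nat_lit 0) (XT.lf (nat_lit 0) (nat_lit 24426743719) (nat_lit 152) (nat_lit 82535005066) (nat_lit 0) (nat_lit 16212047649) (nat_lit 4) (nat_lit 5) (nat_lit 6) (nat_lit 4) (nat_lit 4) (nat_lit 4) (nat_lit 441) (nat_lit 325) (nat_lit 254)) (XT.lf (nat_lit 0) (nat_lit 32460407571) (nat_lit 152) (nat_lit 72276774240) (nat_lit 0) (nat_lit 24233071615) (nat_lit 4) (nat_lit 5) (nat_lit 6) (nat_lit 4) (nat_lit 4) (nat_lit 4) (nat_lit 442) (nat_lit 325) (nat_lit 253))))) (XT.nd (nat_lit 234) (nat_lit 76) (nat_lit 0) (XT.nd (nat_lit 78)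 (nat_lit 0) (nat_lit 0) (XT.lf (nat_lit 0) (nat_lit 40875909096) (nat_lit 152) (nat_lit 61545082436) (nat_lit 0) (nat_lit 32636535152) (nat_lit 4) (nat_lit 5) (nat_lit 6) (nat_lit 4) (nat_lit 4) (nat_lit 4) (nat_lit 443) (nat_lit 325) (nat_lit 252)) (XT.nd (nat_lit 78) (nat_lit 0) (nat_lit 0) (XT.lf (nat_lit 0) (nat_lit 49693285200) (nat_lit 152) (nat_lit 50314378010) (nat_lit 0) (nat_lit 41442446507) (nat_lit 4) (nat_lit 5) (nat_lit 6) (nat_lit 4) (nat_lit 4) (nat_lit 4) (nat_lit 444) (nat_lit 325) (nat_lit 251)) (XT.lf (nat_lit 0) (nat_lit 58933529638) (nat_lit 152) (nat_lit 38557921187) (nat_lit 0) (nat_lit 50671772135) (nat_lit 4) (nat_lit 5) (nat_lit 6) (nat_lit 4) (nat_lit 4) (nat_lit 4) (nat_lit 445) (nat_lit 325) (nat_lit 250)))) (XT.nd (nat_lit 156) (nat_lit 76) (nat_lit 0) (XT.nd (nat_lit 78) (nat_lit 0) (nat_lit 0) (XT.lf (nat_lit 0) (nat_lit 68618642990) (nat_lit 152) (nat_lit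 26247720405) (nat_lit 0) (nat_lit 60346486622) (nat_lit 4) (nat_lit 5) (nat_lit 6) (nat_lit 4) (nat_lit 4) (nat_lit 4) (nat_lit 446) (nat_lit 325) (nat_lit 249)) (XT.lf (nat_lit 0) (nat_lit 78771685051) (nat_lit 152) (nat_lit 13354465660) (nat_lit 0) (nat_lit 70489625002) (nat_lit 4) (nat_lit 5) (nat_lit 6) (nat_lit 4) (nat_lit 4) (nat_lit 4) (nat_lit 447) (nat_lit 325) (nat_lit 248))) (XT.nd (nat_lit 78) (nat_lit 0) (nat_lit 0) (XT.lf (nat_lit 0) (nat_lit 157584973) (nat_lit 76) (nat_lit 89261705100) (nat_lit 76) (nat_lit 80970212973) (nat_lit 3) (nat_lit 4) (nat_lit 4) (nat_lit 5) (nat_lit 4) (nat_lit 4) (nat_lit 448) (nat_lit 325) (nat_lit 247)) (XT.lf (nat_lit 0) (nat_lit 14778463039) (nat_lit 76) (nat_lit 86031692796) (nat_lit 76) (nat_lit 77731217737) (nat_lit 3) (nat_lit 4) (nat_lit 4) (nat_lit 5) (nat_lit 4) (nat_lit 4) (nat_lit 449) (nat_lit 325) (nat_lit 246))))))) (XT.nd (nat_lit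 1014) (nat_lit 152) (nat_lit 0) (XT.nd (nat_lit 468) (nat_lit 0) (nat_lit 0) (XT.nd (nat_lit 234) (nat_lit 0) (nat_lit 0) (XT.nd (nat_lit 78) (nat_lit 0) (nat_lit 0) (XT.lf (nat_lit 0) (nat_lit 30101421206) (nat_lit 76) (nat_lit 82654587632) (nat_lit 76) (nat_lit 74345557401) (nat_lit 3) (nat_lit 4) (nat_lit 4) (nat_lit 5) (nat_lit 4) (nat_lit 4) (nat_lit 450) (nat_lit 325) (nat_lit 245)) (XT.nd (nat_lit 78) (nat_lit 0) (nat_lit 0) (XT.lf (nat_lit 0) (nat_lit 46162942708) (nat_lit 76) (nat_lit 79122348882) (nat_lit 76) (nat_lit 70805170867) (nat_lit 3) (nat_lit 4) (nat_lit 4) (nat_lit 5) (nat_lit 4) (nat_lit 4) (nat_lit 451) (nat_lit 325) (nat_lit 244)) (XT.lf (nat_lit 0) (nat_lit 63001269262) (nat_lit 76) (nat_lit 75426566453) (nat_lit 76) (nat_lit 67101628644) (nat_lit 3) (nat_lit 4) (nat_lit 4) (nat_lit 5) (nat_lit 4) (nat_lit 4) (nat_lit 452) (nat_lit 325) (nat_lit 243)))) (XT.nd (nat_lit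 78) (nat_lit 0) (nat_lit 0) (XT.lf (nat_lit 0) (nat_lit 80656492122) (nat_lit 76) (nat_lit 71558440863) (nat_lit 76) (nat_lit 63226112775) (nat_lit 3) (nat_lit 4) (nat_lit 4) (nat_lit 5) (nat_lit 4) (nat_lit 4) (nat_lit 453) (nat_lit 325) (nat_lit 242)) (XT.nd (nat_lit 78) (nat_lit 0) (nat_lit 0) (XT.lf (nat_lit 0) (nat_lit 99170647532) (nat_lit 76) (nat_lit 67508762290) (nat_lit 76) (nat_lit 59169395840) (nat_lit 3) (nat_lit 4) (nat_lit 4) (nat_lit 5) (nat_lit 4) (nat_lit 4) (nat_lit 454) (nat_lit 325) (nat_lit 241)) (XT.lf (nat_lit 0) (nat_lit 118587816817) (nat_lit 76) (nat_lit 63267888642) (nat_lit 76) (nat_lit 54921818990) (nat_lit 3) (nat_lit 4) (nat_lit 4) (nat_lit 5) (nat_lit 4) (nat_lit 4) (nat_lit 455) (nat_lit 325) (nat_lit 240))))) (XT.nd (nat_lit 234) (nat_lit 0) (nat_lit 0) (XT.nd (nat_lit 78) (nat_lit 0) (nat_lit 0) (XT.lf (nat_lit 0) (nat_lit 138954231330) (nat_lit 76) (nat_lit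 58825722600) (nat_lit 76) (nat_lit 50473268946) (nat_lit 3) (nat_lit 4) (nat_lit 4) (nat_lit 5) (nat_lit 4) (nat_lit 4) (nat_lit 456) (nat_lit 325) (nat_lit 239)) (XT.nd (nat_lit 78) (nat_lit 0) (nat_lit 0) (XT.lf (nat_lit 0) (nat_lit 160318382534) (nat_lit 76) (nat_lit 54171687579) (nat_lit 76) (nat_lit 45813153924) (nat_lit 3) (nat_lit 4) (nat_lit 4) (nat_lit 5) (nat_lit 4) (nat_lit 4) (nat_lit 457) (nat_lit 325) (nat_lit 238)) (XT.lf (nat_lit 0) (nat_lit 182731137458) (nat_lit 76) (nat_lit 49294702542) (nat_lit 76) (nat_lit 40930378410) (nat_lit 3) (nat_lit 4) (nat_lit 4) (nat_lit 5) (nat_lit 4) (nat_lit 4) (nat_lit 458) (nat_lit 325) (nat_lit 237)))) (XT.nd (nat_lit 156) (nat_lit 0) (nat_lit 0) (XT.nd (nat_lit 78) (nat_lit 0) (nat_lit 0) (XT.lf (nat_lit 0) (nat_lit 206245859802) (nat_lit 76) (nat_lit 44183155622) (nat_lit 76) (nat_lit 35813316749) (nat_lit 3) (nat_lit 4) (nat_lit 4)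 (nat_lit 5) (nat_lit 4) (nat_lit 4) (nat_lit 459) (nat_lit 325) (nat_lit 236)) (XT.lf (nat_lit 0) (nat_lit 230918537001) (nat_lit 76) (nat_lit 38824876468) (nat_lit 76) (nat_lit 30449785461) (nat_lit 3) (nat_lit 4) (nat_lit 4) (nat_lit 5) (nat_lit 4) (nat_lit 4) (nat_lit 460) (nat_lit 325) (nat_lit 235))) (XT.nd (nat_lit 78) (nat_lit 0) (nat_lit 0) (XT.lf (nat_lit 0) (nat_lit 256807913525) (nat_lit 76) (nat_lit 33207107272) (nat_lit 76) (nat_lit 24827014233) (nat_lit 3) (nat_lit 4) (nat_lit 4) (nat_lit 5) (nat_lit 4) (nat_lit 4) (nat_lit 461) (nat_lit 325) (nat_lit 234)) (XT.lf (nat_lit 0) (nat_lit 283975630746) (nat_lit 76) (nat_lit 27316472393) (nat_lit 76) (nat_lit 18931615514) (nat_lit 3) (nat_lit 4) (nat_lit 4) (nat_lit 5) (nat_lit 4) (nat_lit 4) (nat_lit 462) (nat_lit 325) (nat_lit 233)))))) (XT.nd (nat_lit 468) (nat_lit 0) (nat_lit 0) (XT.nd (nat_lit 234) (nat_lit 76) (nat_lit 0)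 (XT.nd (nat_lit 78) (nat_lit 76) (nat_lit 0) (XT.lf (nat_lit 0) (nat_lit 312486373705) (nat_lit 76) (nat_lit 21138946511) (nat_lit 76) (nat_lit 12749552641) (nat_lit 3) (nat_lit 4) (nat_lit 4) (nat_lit 5) (nat_lit 4) (nat_lit 4) (nat_lit 463) (nat_lit 325) (nat_lit 232)) (XT.nd (nat_lit 78) (nat_lit 76) (nat_lit 0) (XT.lf (nat_lit 0) (nat_lit 342408025123) (nat_lit 76) (nat_lit 14659821231) (nat_lit 76) (nat_lit 6266106417) (nat_lit 3) (nat_lit 4) (nat_lit 4) (nat_lit 5) (nat_lit 4) (nat_lit 4) (nat_lit 464) (nat_lit 325) (nat_lit 231)) (XT.lf (nat_lit 0) (nat_lit 517063480) (nat_lit 152) (nat_lit 7337849862) (nat_lit 76) (nat_lit 373286006827) (nat_lit 2) (nat_lit 5) (nat_lit 4) (nat_lit 5) (nat_lit 3) (nat_lit 4) (nat_lit 465) (nat_lit 325) (nat_lit 230)))) (XT.nd (nat_lit 78) (nat_lit 0) (nat_lit 0) (XT.lf (nat_lit 0) (nat_lit 7038697933) (nat_lit 76) (nat_lit 493227507) (nat_lit 152)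 (nat_lit 392296018907) (nat_lit 1) (nat_lit 5) (nat_lit 2) (nat_lit 5) (nat_lit 3) (nat_lit 4) (nat_lit 466) (nat_lit 325) (nat_lit 229)) (XT.nd (nat_lit 78) (nat_lit 0) (nat_lit 0) (XT.lf (nat_lit 0) (nat_lit 15130054738) (nat_lit 152) (nat_lit 397182805159) (nat_lit 0) (nat_lit 7124833962) (nat_lit 1) (nat_lit 5) (nat_lit 3) (nat_lit 4) (nat_lit 1) (nat_lit 4) (nat_lit 467) (nat_lit 325) (nat_lit 228)) (XT.lf (nat_lit 0) (nat_lit 23109732650) (nat_lit 152) (nat_lit 401816990107) (nat_lit 0) (nat_lit 15101126302) (nat_lit 1) (nat_lit 5) (nat_lit 3) (nat_lit 4) (nat_lit 1) (nat_lit 4) (nat_lit 468) (nat_lit 325) (nat_lit 227))))) (XT.nd (nat_lit 234) (nat_lit 0) (nat_lit 0) (XT.nd (nat_lit 78) (nat_lit 0) (nat_lit 0) (XT.lf (nat_lit 0) (nat_lit 31482257748) (nat_lit 152) (nat_lit 406695134368) (nat_lit 0) (nat_lit 23470427045) (nat_lit 1) (nat_lit 5) (nat_lit 3) (nat_lit 4) (nat_lit 1) (nat_lit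 4) (nat_lit 469) (nat_lit 325) (nat_lit 226)) (XT.nd (nat_lit 78) (nat_lit 0) (nat_lit 0) (XT.lf (nat_lit 0) (nat_lit 40267564614) (nat_lit 152) (nat_lit 411828852573) (nat_lit 0) (nat_lit 32252663097) (nat_lit 1) (nat_lit 5) (nat_lit 3) (nat_lit 4) (nat_lit 1) (nat_lit 4) (nat_lit 470) (nat_lit 325) (nat_lit 225)) (XT.lf (nat_lit 0) (nat_lit 49486570646) (nat_lit 152) (nat_lit 417230367859) (nat_lit 0) (nat_lit 41468744544) (nat_lit 1) (nat_lit 5) (nat_lit 3) (nat_lit 4) (nat_lit 1) (nat_lit 4) (nat_lit 471) (nat_lit 325) (nat_lit 224)))) (XT.nd (nat_lit 156) (nat_lit 0) (nat_lit 0) (XT.nd (nat_lit 78) (nat_lit 0) (nat_lit 0) (XT.lf (nat_lit 0) (nat_lit 59161225857) (nat_lit 152) (nat_lit 422912540977) (nat_lit 0) (nat_lit 51140614437) (nat_lit 1) (nat_lit 5) (nat_lit 3) (nat_lit 4) (nat_lit 1) (nat_lit 4) (nat_lit 472) (nat_lit 325) (nat_lit 223)) (XT.lf (nat_lit 0) (nat_lit 69314565143)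 (nat_lit 152) (nat_lit 428888900911) (nat_lit 0) (nat_lit 61291301038) (nat_lit 1) (nat_lit 5) (nat_lit 3) (nat_lit 4) (nat_lit 1) (nat_lit 4) (nat_lit 473) (nat_lit 325) (nat_lit 222))) (XT.nd (nat_lit 78) (nat_lit 0) (nat_lit 0) (XT.lf (nat_lit 0) (nat_lit 79970763119) (nat_lit 152) (nat_lit 435173677090) (nat_lit 0) (nat_lit 71944972648) (nat_lit 1) (nat_lit 5) (nat_lit 3) (nat_lit 4) (nat_lit 1) (nat_lit 4) (nat_lit 474) (nat_lit 325) (nat_lit 221)) (XT.lf (nat_lit 0) (nat_lit 91155191686) (nat_lit 152) (nat_lit 441781833265) (nat_lit 0) (nat_lit 83126995152) (nat_lit 1) (nat_lit 5) (nat_lit 3) (nat_lit 4) (nat_lit 1) (nat_lit 4) (nat_lit 475) (nat_lit 325) (nat_lit 220))))))))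
noncomputable def xc62 : XT := (XT.nd (nat_lit 46332) (nat_lit 0) (nat_lit 912) (XT.nd (nat_lit 45318) (nat_lit 0) (nat_lit 2356) (XT.nd (nat_lit 44850) (nat_lit 0) (nat_lit 4028) (XT.nd (nat_lit 234) (nat_lit 0) (nat_lit 0) (XT.nd (nat_lit 78) (nat_lit 0) (nat_lit 0) (XT.lf (nat_lit 0) (nat_lit 102894480435) (nat_lit 152) (nat_lit 448729103142) (nat_lit 0) (nat_lit 94863992413) (nat_lit 1) (nat_lit 5) (nat_lit 3) (nat_lit 4) (nat_lit 1) (nat_lit 4) (nat_lit 476) (nat_lit 325) (nat_lit 219)) (XT.nd (nat_lit 78) (nat_lit 0) (nat_lit 0) (XT.lf (nat_lit 0) (nat_lit 115216580055) (nat_lit 152) (nat_lit 456032027841) (nat_lit 0) (nat_lit 107183909663) (nat_lit 1) (nat_lit 5) (nat_lit 3) (nat_lit 4) (nat_lit 1) (nat_lit 4) (nat_lit 477) (nat_lit 325) (nat_lit 218)) (XT.lf (nat_lit 0) (nat_lit 128150828877) (nat_lit 152) (nat_lit 463707995276) (nat_lit 0) (nat_lit 120116080037) (nat_lit 1) (nat_lit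 5) (nat_lit 3) (nat_lit 4) (nat_lit 1) (nat_lit 4) (nat_lit 478) (nat_lit 325) (nat_lit 217)))) (XT.nd (nat_lit 44460) (nat_lit 0) (nat_lit 4940) (XT.lf (nat_lit 0) (nat_lit 141728022732) (nat_lit 152) (nat_lit 471775281562) (nat_lit 0) (nat_lit 133691294418) (nat_lit 1) (nat_lit 5) (nat_lit 3) (nat_lit 4) (nat_lit 1) (nat_lit 4) (nat_lit 479) (nat_lit 325) (nat_lit 216)) (XT.nd (nat_lit 78) (nat_lit 304) (nat_lit 0) (XT.lf (nat_lit 0) (nat_lit 1246298827) (nat_lit 228) (nat_lit 1587211497) (nat_lit 228) (nat_lit 1587211497) (nat_lit 70) (nat_lit 4) (nat_lit 73) (nat_lit 5) (nat_lit 73) (nat_lit 4) (nat_lit 368) (nat_lit 326) (nat_lit 326)) (XT.lf (nat_lit 0) (nat_lit 895928513) (nat_lit 228) (nat_lit 15173730) (nat_lit 304) (nat_lit 8116891817) (nat_lit 66) (nat_lit 5) (nat_lit 69) (nat_lit 5) (nat_lit 70) (nat_lit 4) (nat_lit 369) (nat_lit 326) (nat_lit 325))))) (XT.nd (nat_lit 234) (nat_lit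 456) (nat_lit 0) (XT.nd (nat_lit 78) (nat_lit 456) (nat_lit 0) (XT.lf (nat_lit 0) (nat_lit 5089092231) (nat_lit 304) (nat_lit 850458486) (nat_lit 0) (nat_lit 3282059371) (nat_lit 66) (nat_lit 5) (nat_lit 70) (nat_lit 4) (nat_lit 66) (nat_lit 4) (nat_lit 370) (nat_lit 326) (nat_lit 324)) (XT.nd (nat_lit 78) (nat_lit 228) (nat_lit 0) (XT.lf (nat_lit 0) (nat_lit 6773719167) (nat_lit 228) (nat_lit 2650203689) (nat_lit 228) (nat_lit 3666596) (nat_lit 63) (nat_lit 4) (nat_lit 66) (nat_lit 5) (nat_lit 66) (nat_lit 4) (nat_lit 371) (nat_lit 326) (nat_lit 323)) (XT.lf (nat_lit 0) (nat_lit 4143077625) (nat_lit 228) (nat_lit 4638865415) (nat_lit 0) (nat_lit 861111022) (nat_lit 60) (nat_lit 5) (nat_lit 63) (nat_lit 4) (nat_lit 60) (nat_lit 4) (nat_lit 372) (nat_lit 326) (nat_lit 322)))) (XT.nd (nat_lit 78) (nat_lit 228) (nat_lit 0) (XT.lf (nat_lit 0) (nat_lit 3082616358) (nat_lit 228) (nat_lit 5397377653)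 (nat_lit 228) (nat_lit 1390215730) (nat_lit 57) (nat_lit 4) (nat_lit 60) (nat_lit 5) (nat_lit 60) (nat_lit 4) (nat_lit 373) (nat_lit 326) (nat_lit 321)) (XT.nd (nat_lit 78) (nat_lit 0) (nat_lit 0) (XT.lf (nat_lit 0) (nat_lit 987818612) (nat_lit 152) (nat_lit 1785665653) (nat_lit 228) (nat_lit 7335914378) (nat_lit 54) (nat_lit 5) (nat_lit 56) (nat_lit 5) (nat_lit 57) (nat_lit 4) (nat_lit 374) (nat_lit 326) (nat_lit 320)) (XT.lf (nat_lit 0) (nat_lit 7095770226) (nat_lit 228) (nat_lit 1268639548) (nat_lit 0) (nat_lit 1995201020) (nat_lit 54) (nat_lit 5) (nat_lit 57) (nat_lit 4) (nat_lit 54) (nat_lit 4) (nat_lit 375) (nat_lit 326) (nat_lit 319)))))) (XT.nd (nat_lit 468) (nat_lit 760) (nat_lit 0) (XT.nd (nat_lit 234) (nat_lit 380) (nat_lit 0) (XT.nd (nat_lit 78) (nat_lit 304) (nat_lit 0) (XT.lf (nat_lit 0) (nat_lit 973004623) (nat_lit 228) (nat_lit 3702529710) (nat_lit 76) (nat_lit 5946385572)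 (nat_lit 51) (nat_lit 5) (nat_lit 54) (nat_lit 5) (nat_lit 52) (nat_lit 4) (nat_lit 376) (nat_lit 326) (nat_lit 318)) (XT.nd (nat_lit 78) (nat_lit 152) (nat_lit 0) (XT.lf (nat_lit 0) (nat_lit 4520621546) (nat_lit 152) (nat_lit 740851744) (nat_lit 228) (nat_lit 5635773828) (nat_lit 49) (nat_lit 5) (nat_lit 51) (nat_lit 5) (nat_lit 52) (nat_lit 4) (nat_lit 377) (nat_lit 326) (nat_lit 317)) (XT.lf (nat_lit 0) (nat_lit 1869511776) (nat_lit 152) (nat_lit 7899536396) (nat_lit 152) (nat_lit 1417107241) (nat_lit 47) (nat_lit 4) (nat_lit 49) (nat_lit 5) (nat_lit 49) (nat_lit 4) (nat_lit 378) (nat_lit 326) (nat_lit 316)))) (XT.nd (nat_lit 78) (nat_lit 304) (nat_lit 0) (XT.lf (nat_lit 0) (nat_lit 2897585930) (nat_lit 228) (nat_lit 1033218735) (nat_lit 76) (nat_lit 7557321515) (nat_lit 46) (nat_lit 5) (nat_lit 49) (nat_lit 5) (nat_lit 47) (nat_lit 4) (nat_lit 379) (nat_lit 326) (nat_lit 315)) (XT.nd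 (nat_lit 78) (nat_lit 152) (nat_lit 0) (XT.lf (nat_lit 0) (nat_lit 7370864225) (nat_lit 228) (nat_lit 4149240395) (nat_lit 0) (nat_lit 284447785) (nat_lit 44) (nat_lit 5) (nat_lit 47) (nat_lit 4) (nat_lit 44) (nat_lit 4) (nat_lit 380) (nat_lit 326) (nat_lit 314)) (XT.lf (nat_lit 0) (nat_lit 4530813723) (nat_lit 152) (nat_lit 7557706916) (nat_lit 152) (nat_lit 47283791) (nat_lit 42) (nat_lit 4) (nat_lit 44) (nat_lit 5) (nat_lit 44) (nat_lit 4) (nat_lit 381) (nat_lit 326) (nat_lit 313))))) (XT.nd (nat_lit 234) (nat_lit 380) (nat_lit 0) (XT.nd (nat_lit 78) (nat_lit 228) (nat_lit 0) (XT.lf (nat_lit 0) (nat_lit 1041422014) (nat_lit 76) (nat_lit 3327193121) (nat_lit 152) (nat_lit 8113678237) (nat_lit 40) (nat_lit 5) (nat_lit 41) (nat_lit 5) (nat_lit 42) (nat_lit 4) (nat_lit 382) (nat_lit 326) (nat_lit 312)) (XT.nd (nat_lit 78) (nat_lit 228) (nat_lit 0) (XT.lf (nat_lit 0) (nat_lit 9021685134) (nat_lit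 152) (nat_lit 2705477610) (nat_lit 0) (nat_lit 1118041729) (nat_lit 40) (nat_lit 5) (nat_lit 42) (nat_lit 4) (nat_lit 40) (nat_lit 4) (nat_lit 383) (nat_lit 326) (nat_lit 311)) (XT.lf (nat_lit 0) (nat_lit 690109233) (nat_lit 228) (nat_lit 6837750824) (nat_lit 76) (nat_lit 5696362702) (nat_lit 37) (nat_lit 5) (nat_lit 40) (nat_lit 5) (nat_lit 38) (nat_lit 4) (nat_lit 384) (nat_lit 326) (nat_lit 310)))) (XT.nd (nat_lit 156) (nat_lit 304) (nat_lit 0) (XT.nd (nat_lit 78) (nat_lit 0) (nat_lit 0) (XT.lf (nat_lit 0) (nat_lit 2194499737) (nat_lit 76) (nat_lit 3063644078) (nat_lit 152) (nat_lit 8363083115) (nat_lit 36) (nat_lit 5) (nat_lit 37) (nat_lit 5) (nat_lit 38) (nat_lit 4) (nat_lit 385) (nat_lit 326) (nat_lit 309)) (XT.lf (nat_lit 0) (nat_lit 10075056826) (nat_lit 152) (nat_lit 2364206108) (nat_lit 0) (nat_lit 1597823111) (nat_lit 36) (nat_lit 5) (nat_lit 38) (nat_lit 4) (nat_lit 36) (nat_lit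 4) (nat_lit 386) (nat_lit 326) (nat_lit 308))) (XT.nd (nat_lit 78) (nat_lit 76) (nat_lit 0) (XT.lf (nat_lit 0) (nat_lit 683324545) (nat_lit 228) (nat_lit 7363402810) (nat_lit 76) (nat_lit 6424255083) (nat_lit 33) (nat_lit 5) (nat_lit 36) (nat_lit 5) (nat_lit 34) (nat_lit 4) (nat_lit 387) (nat_lit 326) (nat_lit 307)) (XT.lf (nat_lit 0) (nat_lit 1998409793) (nat_lit 76) (nat_lit 3384978700) (nat_lit 152) (nat_lit 9542182639) (nat_lit 32) (nat_lit 5) (nat_lit 33) (nat_lit 5) (nat_lit 34) (nat_lit 4) (nat_lit 388) (nat_lit 326) (nat_lit 306))))))) (XT.nd (nat_lit 1014) (nat_lit 608) (nat_lit 0) (XT.nd (nat_lit 468) (nat_lit 380) (nat_lit 0) (XT.nd (nat_lit 234) (nat_lit 228) (nat_lit 0) (XT.nd (nat_lit 78) (nat_lit 228) (nat_lit 0) (XT.lf (nat_lit 0) (nat_lit 10353326331) (nat_lit 152) (nat_lit 3549602227) (nat_lit 0) (nat_lit 1498240672) (nat_lit 32) (nat_lit 5) (nat_lit 34) (nat_lit 4) (nat_lit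 32) (nat_lit 4) (nat_lit 389) (nat_lit 326) (nat_lit 305)) (XT.nd (nat_lit 78) (nat_lit 76) (nat_lit 0) (XT.lf (nat_lit 0) (nat_lit 6239833760) (nat_lit 152) (nat_lit 9374888131) (nat_lit 152) (nat_lit 283699685) (nat_lit 30) (nat_lit 4) (nat_lit 32) (nat_lit 5) (nat_lit 32) (nat_lit 4) (nat_lit 390) (nat_lit 326) (nat_lit 304)) (XT.lf (nat_lit 0) (nat_lit 4519129046) (nat_lit 228) (nat_lit 51833697) (nat_lit 76) (nat_lit 11848335301) (nat_lit 29) (nat_lit 5) (nat_lit 32) (nat_lit 5) (nat_lit 30) (nat_lit 4) (nat_lit 391) (nat_lit 326) (nat_lit 303)))) (XT.nd (nat_lit 78) (nat_lit 152) (nat_lit 0) (XT.lf (nat_lit 0) (nat_lit 9615572305) (nat_lit 152) (nat_lit 6808091522) (nat_lit 0) (nat_lit 539190942) (nat_lit 28) (nat_lit 5) (nat_lit 30) (nat_lit 4) (nat_lit 28) (nat_lit 4) (nat_lit 392) (nat_lit 326) (nat_lit 302)) (XT.nd (nat_lit 78) (nat_lit 76) (nat_lit 0) (XT.lf (nat_lit 0) (nat_lit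 3173871420) (nat_lit 76) (nat_lit 11814638220) (nat_lit 76) (nat_lit 2544014509) (nat_lit 27) (nat_lit 4) (nat_lit 28) (nat_lit 5) (nat_lit 28) (nat_lit 4) (nat_lit 393) (nat_lit 326) (nat_lit 301)) (XT.lf (nat_lit 0) (nat_lit 2433194789) (nat_lit 152) (nat_lit 4467567103) (nat_lit 76) (nat_lit 11227291920) (nat_lit 26) (nat_lit 5) (nat_lit 28) (nat_lit 5) (nat_lit 27) (nat_lit 4) (nat_lit 394) (nat_lit 326) (nat_lit 300))))) (XT.nd (nat_lit 234) (nat_lit 228) (nat_lit 0) (XT.nd (nat_lit 78) (nat_lit 76) (nat_lit 0) (XT.lf (nat_lit 0) (nat_lit 5880744329) (nat_lit 76) (nat_lit 1686350444) (nat_lit 152) (nat_lit 11184529547) (nat_lit 25) (nat_lit 5) (nat_lit 26) (nat_lit 5) (nat_lit 27) (nat_lit 4) (nat_lit 395) (nat_lit 326) (nat_lit 299)) (XT.nd (nat_lit 78) (nat_lit 76) (nat_lit 0) (XT.lf (nat_lit 0) (nat_lit 12995805362) (nat_lit 152) (nat_lit 2745818477) (nat_lit 0) (nat_lit 3662858885)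 (nat_lit 25) (nat_lit 5) (nat_lit 27) (nat_lit 4) (nat_lit 25) (nat_lit 4) (nat_lit 396) (nat_lit 326) (nat_lit 298)) (XT.lf (nat_lit 0) (nat_lit 7936231926) (nat_lit 76) (nat_lit 10817996570) (nat_lit 76) (nat_lit 1332856131) (nat_lit 24) (nat_lit 4) (nat_lit 25) (nat_lit 5) (nat_lit 25) (nat_lit 4) (nat_lit 397) (nat_lit 326) (nat_lit 297)))) (XT.nd (nat_lit 156) (nat_lit 76) (nat_lit 0) (XT.nd (nat_lit 78) (nat_lit 76) (nat_lit 0) (XT.lf (nat_lit 0) (nat_lit 3823054228) (nat_lit 152) (nat_lit 1792825900) (nat_lit 76) (nat_lit 15187118595) (nat_lit 23) (nat_lit 5) (nat_lit 25) (nat_lit 5) (nat_lit 24) (nat_lit 4) (nat_lit 398) (nat_lit 326) (nat_lit 296)) (XT.lf (nat_lit 0) (nat_lit 9187809969) (nat_lit 76) (nat_lit 58990737) (nat_lit 152) (nat_lit 12304086114) (nat_lit 22) (nat_lit 5) (nat_lit 23) (nat_lit 5) (nat_lit 24) (nat_lit 4) (nat_lit 399) (nat_lit 326) (nat_lit 295))) (XT.nd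 (nat_lit 78) (nat_lit 76) (nat_lit 0) (XT.lf (nat_lit 0) (nat_lit 14974587315) (nat_lit 152) (nat_lit 1813556631) (nat_lit 0) (nat_lit 5546394605) (nat_lit 22) (nat_lit 5) (nat_lit 24) (nat_lit 4) (nat_lit 22) (nat_lit 4) (nat_lit 400) (nat_lit 326) (nat_lit 294)) (XT.lf (nat_lit 0) (nat_lit 9403487975) (nat_lit 76) (nat_lit 11649073476) (nat_lit 76) (nat_lit 2101632814) (nat_lit 21) (nat_lit 4) (nat_lit 22) (nat_lit 5) (nat_lit 22) (nat_lit 4) (nat_lit 401) (nat_lit 326) (nat_lit 293)))))) (XT.nd (nat_lit 468) (nat_lit 228) (nat_lit 0) (XT.nd (nat_lit 234) (nat_lit 228) (nat_lit 0) (XT.nd (nat_lit 78) (nat_lit 76) (nat_lit 0) (XT.lf (nat_lit 0) (nat_lit 3257566452) (nat_lit 152) (nat_lit 2982998911) (nat_lit 76) (nat_lit 17774237502) (nat_lit 20) (nat_lit 5) (nat_lit 22) (nat_lit 5) (nat_lit 21) (nat_lit 4) (nat_lit 402) (nat_lit 326) (nat_lit 292)) (XT.nd (nat_lit 78) (nat_lit 0) (nat_lit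 0) (XT.lf (nat_lit 0) (nat_lit 8405127743) (nat_lit 76) (nat_lit 460384105) (nat_lit 152) (nat_lit 16048646423) (nat_lit 19) (nat_lit 5) (nat_lit 20) (nat_lit 5) (nat_lit 21) (nat_lit 4) (nat_lit 403) (nat_lit 326) (nat_lit 291)) (XT.lf (nat_lit 0) (nat_lit 14813295551) (nat_lit 152) (nat_lit 5631006080) (nat_lit 0) (nat_lit 5411217065) (nat_lit 19) (nat_lit 5) (nat_lit 21) (nat_lit 4) (nat_lit 19) (nat_lit 4) (nat_lit 404) (nat_lit 326) (nat_lit 290)))) (XT.nd (nat_lit 78) (nat_lit 152) (nat_lit 0) (XT.lf (nat_lit 0) (nat_lit 5824185553) (nat_lit 76) (nat_lit 15257071692) (nat_lit 76) (nat_lit 5761559316) (nat_lit 18) (nat_lit 4) (nat_lit 19) (nat_lit 5) (nat_lit 19) (nat_lit 4) (nat_lit 405) (nat_lit 326) (nat_lit 289)) (XT.nd (nat_lit 78) (nat_lit 152) (nat_lit 0) (XT.lf (nat_lit 0) (nat_lit 17904383860) (nat_lit 76) (nat_lit 9779274434) (nat_lit 76) (nat_lit 194777400) (nat_lit 18) (nat_lit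 4) (nat_lit 19) (nat_lit 5) (nat_lit 19) (nat_lit 4) (nat_lit 406) (nat_lit 326) (nat_lit 288)) (XT.lf (nat_lit 0) (nat_lit 1441873502) (nat_lit 76) (nat_lit 3978183974) (nat_lit 152) (nat_lit 23543847065) (nat_lit 16) (nat_lit 5) (nat_lit 17) (nat_lit 5) (nat_lit 18) (nat_lit 4) (nat_lit 407) (nat_lit 326) (nat_lit 287))))) (XT.nd (nat_lit 234) (nat_lit 152) (nat_lit 0) (XT.nd (nat_lit 78) (nat_lit 76) (nat_lit 0) (XT.lf (nat_lit 0) (nat_lit 11442075293) (nat_lit 152) (nat_lit 16498366945) (nat_lit 0) (nat_lit 2156402879) (nat_lit 16) (nat_lit 5) (nat_lit 18) (nat_lit 4) (nat_lit 16) (nat_lit 4) (nat_lit 408) (nat_lit 326) (nat_lit 286)) (XT.nd (nat_lit 78) (nat_lit 76) (nat_lit 0) (XT.lf (nat_lit 0) (nat_lit 17762137033) (nat_lit 152) (nat_lit 5121198755) (nat_lit 0) (nat_lit 8403256722) (nat_lit 16) (nat_lit 5) (nat_lit 18) (nat_lit 4) (nat_lit 16) (nat_lit 4) (nat_lit 409) (nat_lit 326)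 (nat_lit 285)) (XT.lf (nat_lit 0) (nat_lit 6920160996) (nat_lit 76) (nat_lit 17521061975) (nat_lit 76) (nat_lit 8092459857) (nat_lit 15) (nat_lit 4) (nat_lit 16) (nat_lit 5) (nat_lit 16) (nat_lit 4) (nat_lit 410) (nat_lit 326) (nat_lit 284)))) (XT.nd (nat_lit 156) (nat_lit 76) (nat_lit 0) (XT.nd (nat_lit 78) (nat_lit 76) (nat_lit 0) (XT.lf (nat_lit 0) (nat_lit 19617264736) (nat_lit 76) (nat_lit 11859864870) (nat_lit 76) (nat_lit 2364861030) (nat_lit 15) (nat_lit 4) (nat_lit 16) (nat_lit 5) (nat_lit 16) (nat_lit 4) (nat_lit 411) (nat_lit 326) (nat_lit 283)) (XT.lf (nat_lit 0) (nat_lit 3470497830) (nat_lit 152) (nat_lit 2443723021) (nat_lit 76) (nat_lit 29301741315) (nat_lit 14) (nat_lit 5) (nat_lit 16) (nat_lit 5) (nat_lit 15) (nat_lit 4) (nat_lit 412) (nat_lit 326) (nat_lit 282))) (XT.nd (nat_lit 78) (nat_lit 0) (nat_lit 0) (XT.lf (nat_lit 0) (nat_lit 9624380768) (nat_lit 152) (nat_lit 26563075638)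 (nat_lit 0) (nat_lit 463931346) (nat_lit 13) (nat_lit 5) (nat_lit 15) (nat_lit 4) (nat_lit 13) (nat_lit 4) (nat_lit 413) (nat_lit 326) (nat_lit 281)) (XT.lf (nat_lit 0) (nat_lit 16166283272) (nat_lit 152) (nat_lit 15037085264) (nat_lit 0) (nat_lit 6951204989) (nat_lit 13) (nat_lit 5) (nat_lit 15) (nat_lit 4) (nat_lit 13) (nat_lit 4) (nat_lit 414) (nat_lit 326) (nat_lit 280))))))))
noncomputable def xc63 : XT := (XT.nd (nat_lit 2028) (nat_lit 152) (nat_lit 0) (XT.nd (nat_lit 1014) (nat_lit 228) (nat_lit 0) (XT.nd (nat_lit 468) (nat_lit 228) (nat_lit 0) (XT.nd (nat_lit 234) (nat_lit 152) (nat_lit 0) (XT.nd (nat_lit 78) (nat_lit 76) (nat_lit 0) (XT.lf (nat_lit 0) (nat_lit 22979382704) (nat_lit 152) (nat_lit 3044058790) (nat_lit 0) (nat_lit 13712276935) (nat_lit 13) (nat_lit 5) (nat_lit 15) (nat_lit 4) (nat_lit 13) (nat_lit 4) (nat_lit 415) (nat_lit 326) (nat_lit 279)) (XT.nd (nat_lit 78) (nat_lit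 0) (nat_lit 0) (XT.lf (nat_lit 0) (nat_lit 9756838368) (nat_lit 76) (nat_lit 20475393952) (nat_lit 76) (nat_lit 11158738196) (nat_lit 12) (nat_lit 4) (nat_lit 13) (nat_lit 5) (nat_lit 13) (nat_lit 4) (nat_lit 416) (nat_lit 326) (nat_lit 278)) (XT.lf (nat_lit 0) (nat_lit 23201081227) (nat_lit 76) (nat_lit 14645896016) (nat_lit 76) (nat_lit 5282049796) (nat_lit 12) (nat_lit 4) (nat_lit 13) (nat_lit 5) (nat_lit 13) (nat_lit 4) (nat_lit 417) (nat_lit 326) (nat_lit 277)))) (XT.nd (nat_lit 78) (nat_lit 76) (nat_lit 0) (XT.lf (nat_lit 0) (nat_lit 809406350) (nat_lit 152) (nat_lit 7749506499) (nat_lit 76) (nat_lit 36396915519) (nat_lit 11) (nat_lit 5) (nat_lit 13) (nat_lit 5) (nat_lit 12) (nat_lit 4) (nat_lit 418) (nat_lit 326) (nat_lit 276)) (XT.nd (nat_lit 78) (nat_lit 0) (nat_lit 0) (XT.lf (nat_lit 0) (nat_lit 5017389909) (nat_lit 76) (nat_lit 2040650368) (nat_lit 152) (nat_lit 39810097979) (nat_lit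 10) (nat_lit 5) (nat_lit 11) (nat_lit 5) (nat_lit 12) (nat_lit 4) (nat_lit 419) (nat_lit 326) (nat_lit 275)) (XT.lf (nat_lit 0) (nat_lit 13779410236) (nat_lit 152) (nat_lit 30349572161) (nat_lit 0) (nat_lit 4739069705) (nat_lit 10) (nat_lit 5) (nat_lit 12) (nat_lit 4) (nat_lit 10) (nat_lit 4) (nat_lit 420) (nat_lit 326) (nat_lit 274))))) (XT.nd (nat_lit 234) (nat_lit 152) (nat_lit 0) (XT.nd (nat_lit 78) (nat_lit 76) (nat_lit 0) (XT.lf (nat_lit 0) (nat_lit 20824506452) (nat_lit 152) (nat_lit 18396884847) (nat_lit 0) (nat_lit 11747190959) (nat_lit 10) (nat_lit 5) (nat_lit 12) (nat_lit 4) (nat_lit 10) (nat_lit 4) (nat_lit 421) (nat_lit 326) (nat_lit 273)) (XT.nd (nat_lit 78) (nat_lit 76) (nat_lit 0) (XT.lf (nat_lit 0) (nat_lit 28178242695) (nat_lit 152) (nat_lit 5932367355) (nat_lit 0) (nat_lit 19065712950) (nat_lit 10) (nat_lit 5) (nat_lit 12) (nat_lit 4) (nat_lit 10) (nat_lit 4) (nat_lit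 422) (nat_lit 326) (nat_lit 272)) (XT.lf (nat_lit 0) (nat_lit 7307544807) (nat_lit 76) (nat_lit 28664674304) (nat_lit 76) (nat_lit 19518607179) (nat_lit 9) (nat_lit 4) (nat_lit 10) (nat_lit 5) (nat_lit 10) (nat_lit 4) (nat_lit 423) (nat_lit 326) (nat_lit 271)))) (XT.nd (nat_lit 156) (nat_lit 152) (nat_lit 0) (XT.nd (nat_lit 78) (nat_lit 0) (nat_lit 0) (XT.lf (nat_lit 0) (nat_lit 21335010741) (nat_lit 76) (nat_lit 22880535952) (nat_lit 76) (nat_lit 13702528463) (nat_lit 9) (nat_lit 4) (nat_lit 10) (nat_lit 5) (nat_lit 10) (nat_lit 4) (nat_lit 424) (nat_lit 326) (nat_lit 270)) (XT.lf (nat_lit 0) (nat_lit 35987278316) (nat_lit 76) (nat_lit 16844890748) (nat_lit 76) (nat_lit 7636463865) (nat_lit 9) (nat_lit 4) (nat_lit 10) (nat_lit 5) (nat_lit 10) (nat_lit 4) (nat_lit 425) (nat_lit 326) (nat_lit 269))) (XT.nd (nat_lit 78) (nat_lit 152) (nat_lit 0) (XT.lf (nat_lit 0) (nat_lit 51299233886) (nat_lit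 76) (nat_lit 10543368107) (nat_lit 76) (nat_lit 1305970373) (nat_lit 9) (nat_lit 4) (nat_lit 10) (nat_lit 5) (nat_lit 10) (nat_lit 4) (nat_lit 426) (nat_lit 326) (nat_lit 268)) (XT.lf (nat_lit 0) (nat_lit 1301919063) (nat_lit 76) (nat_lit 3852670245) (nat_lit 152) (nat_lit 60804528101) (nat_lit 7) (nat_lit 5) (nat_lit 8) (nat_lit 5) (nat_lit 9) (nat_lit 4) (nat_lit 427) (nat_lit 326) (nat_lit 267)))))) (XT.nd (nat_lit 468) (nat_lit 152) (nat_lit 0) (XT.nd (nat_lit 234) (nat_lit 76) (nat_lit 0) (XT.nd (nat_lit 78) (nat_lit 0) (nat_lit 0) (XT.lf (nat_lit 0) (nat_lit 12112032425) (nat_lit 152) (nat_lit 53522994707) (nat_lit 0) (nat_lit 3263207247) (nat_lit 7) (nat_lit 5) (nat_lit 9) (nat_lit 4) (nat_lit 7) (nat_lit 4) (nat_lit 428) (nat_lit 326) (nat_lit 266)) (XT.nd (nat_lit 78) (nat_lit 0) (nat_lit 0) (XT.lf (nat_lit 0) (nat_lit 19446456703) (nat_lit 152) (nat_lit 41962600168) (nat_lit 0)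 (nat_lit 10573797135) (nat_lit 7) (nat_lit 5) (nat_lit 9) (nat_lit 4) (nat_lit 7) (nat_lit 4) (nat_lit 429) (nat_lit 326) (nat_lit 265)) (XT.lf (nat_lit 0) (nat_lit 27115174080) (nat_lit 152) (nat_lit 29888339001) (nat_lit 0) (nat_lit 18219815092) (nat_lit 7) (nat_lit 5) (nat_lit 9) (nat_lit 4) (nat_lit 7) (nat_lit 4) (nat_lit 430) (nat_lit 326) (nat_lit 264)))) (XT.nd (nat_lit 78) (nat_lit 76) (nat_lit 0) (XT.lf (nat_lit 0) (nat_lit 35136443407) (nat_lit 152) (nat_lit 17271462965) (nat_lit 0) (nat_lit 26219465923) (nat_lit 7) (nat_lit 5) (nat_lit 9) (nat_lit 4) (nat_lit 7) (nat_lit 4) (nat_lit 431) (nat_lit 326) (nat_lit 263)) (XT.nd (nat_lit 78) (nat_lit 76) (nat_lit 0) (XT.lf (nat_lit 0) (nat_lit 43529362942) (nat_lit 152) (nat_lit 4081931879) (nat_lit 0) (nat_lit 34591796416) (nat_lit 7) (nat_lit 5) (nat_lit 9) (nat_lit 4) (nat_lit 7) (nat_lit 4) (nat_lit 432) (nat_lit 326) (nat_lit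 262)) (XT.lf (nat_lit 0) (nat_lit 10032769172) (nat_lit 76) (nat_lit 42437786301) (nat_lit 76) (nat_lit 33480611161) (nat_lit 6) (nat_lit 4) (nat_lit 7) (nat_lit 5) (nat_lit 7) (nat_lit 4) (nat_lit 433) (nat_lit 326) (nat_lit 261))))) (XT.nd (nat_lit 234) (nat_lit 152) (nat_lit 0) (XT.nd (nat_lit 78) (nat_lit 0) (nat_lit 0) (XT.lf (nat_lit 0) (nat_lit 24940396711) (nat_lit 76) (nat_lit 36960010446) (nat_lit 76) (nat_lit 27984160438) (nat_lit 6) (nat_lit 4) (nat_lit 7) (nat_lit 5) (nat_lit 7) (nat_lit 4) (nat_lit 434) (nat_lit 326) (nat_lit 260)) (XT.nd (nat_lit 78) (nat_lit 0) (nat_lit 0) (XT.lf (nat_lit 0) (nat_lit 40541477986) (nat_lit 76) (nat_lit 31234054426) (nat_lit 76) (nat_lit 22240418829) (nat_lit 6) (nat_lit 4) (nat_lit 7) (nat_lit 5) (nat_lit 7) (nat_lit 4) (nat_lit 435) (nat_lit 326) (nat_lit 259)) (XT.lf (nat_lit 0) (nat_lit 56873158430) (nat_lit 76) (nat_lit 25246285012) (nat_lit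 76) (nat_lit 16235710758) (nat_lit 6) (nat_lit 4) (nat_lit 7) (nat_lit 5) (nat_lit 7) (nat_lit 4) (nat_lit 436) (nat_lit 326) (nat_lit 258)))) (XT.nd (nat_lit 156) (nat_lit 152) (nat_lit 0) (XT.nd (nat_lit 78) (nat_lit 0) (nat_lit 0) (XT.lf (nat_lit 0) (nat_lit 73974322995) (nat_lit 76) (nat_lit 18982445610) (nat_lit 76) (nat_lit 9955739302) (nat_lit 6) (nat_lit 4) (nat_lit 7) (nat_lit 5) (nat_lit 7) (nat_lit 4) (nat_lit 437) (nat_lit 326) (nat_lit 257)) (XT.lf (nat_lit 0) (nat_lit 91885688741) (nat_lit 76) (nat_lit 12427622316) (nat_lit 76) (nat_lit 3385552147) (nat_lit 6) (nat_lit 4) (nat_lit 7) (nat_lit 5) (nat_lit 7) (nat_lit 4) (nat_lit 438) (nat_lit 326) (nat_lit 256))) (XT.nd (nat_lit 78) (nat_lit 76) (nat_lit 0) (XT.lf (nat_lit 0) (nat_lit 3378776400) (nat_lit 152) (nat_lit 2130210795) (nat_lit 76) (nat_lit 107213904161) (nat_lit 5) (nat_lit 5) (nat_lit 7) (nat_lit 5) (nat_lit 6)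 (nat_lit 4) (nat_lit 439) (nat_lit 326) (nat_lit 255)) (XT.lf (nat_lit 0) (nat_lit 10573679392) (nat_lit 152) (nat_lit 105476384366) (nat_lit 0) (nat_lit 1934976637) (nat_lit 4) (nat_lit 5) (nat_lit 6) (nat_lit 4) (nat_lit 4) (nat_lit 4) (nat_lit 440) (nat_lit 326) (nat_lit 254))))))) (XT.nd (nat_lit 1014) (nat_lit 76) (nat_lit 0) (XT.nd (nat_lit 468) (nat_lit 76) (nat_lit 0) (XT.nd (nat_lit 234) (nat_lit 0) (nat_lit 0) (XT.nd (nat_lit 78) (nat_lit 0) (nat_lit 0) (XT.lf (nat_lit 0) (nat_lit 18234468564) (nat_lit 152) (nat_lit 95687396543) (nat_lit 0) (nat_lit 9583125923) (nat_lit 4) (nat_lit 5) (nat_lit 6) (nat_lit 4) (nat_lit 4) (nat_lit 4) (nat_lit 441) (nat_lit 326) (nat_lit 253)) (XT.nd (nat_lit 78) (nat_lit 0) (nat_lit 0) (XT.lf (nat_lit 0) (nat_lit 26258451674) (nat_lit 152) (nat_lit 85448409894) (nat_lit 0) (nat_lit 17595071047) (nat_lit 4) (nat_lit 5) (nat_lit 6) (nat_lit 4) (nat_lit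 4) (nat_lit 4) (nat_lit 442) (nat_lit 326) (nat_lit 252)) (XT.lf (nat_lit 0) (nat_lit 34664733445) (nat_lit 152) (nat_lit 74735045880) (nat_lit 0) (nat_lit 25989888067) (nat_lit 4) (nat_lit 5) (nat_lit 6) (nat_lit 4) (nat_lit 4) (nat_lit 4) (nat_lit 443) (nat_lit 326) (nat_lit 251)))) (XT.nd (nat_lit 78) (nat_lit 0) (nat_lit 0) (XT.lf (nat_lit 0) (nat_lit 43473328831) (nat_lit 152) (nat_lit 63521796490) (nat_lit 0) (nat_lit 34787564645) (nat_lit 4) (nat_lit 5) (nat_lit 6) (nat_lit 4) (nat_lit 4) (nat_lit 4) (nat_lit 444) (nat_lit 326) (nat_lit 250)) (XT.nd (nat_lit 78) (nat_lit 0) (nat_lit 0) (XT.lf (nat_lit 0) (nat_lit 52705210680) (nat_lit 152) (nat_lit 51781963512) (nat_lit 0) (nat_lit 44009047628) (nat_lit 4) (nat_lit 5) (nat_lit 6) (nat_lit 4) (nat_lit 4) (nat_lit 4) (nat_lit 445) (nat_lit 326) (nat_lit 249)) (XT.lf (nat_lit 0) (nat_lit 62382359662) (nat_lit 152) (nat_lit 39487594962)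 (nat_lit 0) (nat_lit 53676292928) (nat_lit 4) (nat_lit 5) (nat_lit 6) (nat_lit 4) (nat_lit 4) (nat_lit 4) (nat_lit 446) (nat_lit 326) (nat_lit 248))))) (XT.nd (nat_lit 234) (nat_lit 0) (nat_lit 0) (XT.nd (nat_lit 78) (nat_lit 76) (nat_lit 0) (XT.lf (nat_lit 0) (nat_lit 72527816609) (nat_lit 152) (nat_lit 26609418535) (nat_lit 0) (nat_lit 63812317797) (nat_lit 4) (nat_lit 5) (nat_lit 6) (nat_lit 4) (nat_lit 4) (nat_lit 4) (nat_lit 447) (nat_lit 326) (nat_lit 247)) (XT.nd (nat_lit 78) (nat_lit 76) (nat_lit 0) (XT.lf (nat_lit 0) (nat_lit 83165737370) (nat_lit 152) (nat_lit 13116771906) (nat_lit 0) (nat_lit 74441255627) (nat_lit 4) (nat_lit 5) (nat_lit 6) (nat_lit 4) (nat_lit 4) (nat_lit 4) (nat_lit 448) (nat_lit 326) (nat_lit 246)) (XT.lf (nat_lit 0) (nat_lit 1056277759) (nat_lit 76) (nat_lit 93281664024) (nat_lit 76) (nat_lit 84548627108) (nat_lit 3) (nat_lit 4) (nat_lit 4) (nat_lit 5) (nat_lit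 4) (nat_lit 4) (nat_lit 449) (nat_lit 326) (nat_lit 245)))) (XT.nd (nat_lit 156) (nat_lit 0) (nat_lit 0) (XT.nd (nat_lit 78) (nat_lit 0) (nat_lit 0) (XT.lf (nat_lit 0) (nat_lit 16365780037) (nat_lit 76) (nat_lit 89911252358) (nat_lit 76) (nat_lit 81170067659) (nat_lit 3) (nat_lit 4) (nat_lit 4) (nat_lit 5) (nat_lit 4) (nat_lit 4) (nat_lit 450) (nat_lit 326) (nat_lit 244)) (XT.lf (nat_lit 0) (nat_lit 32414486405) (nat_lit 76) (nat_lit 86385388369) (nat_lit 76) (nat_lit 77636443876) (nat_lit 3) (nat_lit 4) (nat_lit 4) (nat_lit 5) (nat_lit 4) (nat_lit 4) (nat_lit 451) (nat_lit 326) (nat_lit 243))) (XT.nd (nat_lit 78) (nat_lit 0) (nat_lit 0) (XT.lf (nat_lit 0) (nat_lit 49240608070) (nat_lit 76) (nat_lit 82695677140) (nat_lit 76) (nat_lit 73939342367) (nat_lit 3) (nat_lit 4) (nat_lit 4) (nat_lit 5) (nat_lit 4) (nat_lit 4) (nat_lit 452) (nat_lit 326) (nat_lit 242)) (XT.lf (nat_lit 0) (nat_lit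 66884207227) (nat_lit 76) (nat_lit 78833333646) (nat_lit 76) (nat_lit 70069960511) (nat_lit 3) (nat_lit 4) (nat_lit 4) (nat_lit 5) (nat_lit 4) (nat_lit 4) (nat_lit 453) (nat_lit 326) (nat_lit 241)))))) (XT.nd (nat_lit 468) (nat_lit 76) (nat_lit 0) (XT.nd (nat_lit 234) (nat_lit 0) (nat_lit 0) (XT.nd (nat_lit 78) (nat_lit 0) (nat_lit 0) (XT.lf (nat_lit 0) (nat_lit 85387292444) (nat_lit 76) (nat_lit 74789161831) (nat_lit 76) (nat_lit 66019085495) (nat_lit 3) (nat_lit 4) (nat_lit 4) (nat_lit 5) (nat_lit 4) (nat_lit 4) (nat_lit 454) (nat_lit 326) (nat_lit 240)) (XT.nd (nat_lit 78) (nat_lit 0) (nat_lit 0) (XT.lf (nat_lit 0) (nat_lit 104793918686) (nat_lit 76) (nat_lit 70553532713) (nat_lit 76) (nat_lit 61777072376) (nat_lit 3) (nat_lit 4) (nat_lit 4) (nat_lit 5) (nat_lit 4) (nat_lit 4) (nat_lit 455) (nat_lit 326) (nat_lit 239)) (XT.lf (nat_lit 0) (nat_lit 125150292207) (nat_lit 76) (nat_lit 66116361463)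 (nat_lit 76) (nat_lit 57333821124) (nat_lit 3) (nat_lit 4) (nat_lit 4) (nat_lit 5) (nat_lit 4) (nat_lit 4) (nat_lit 456) (nat_lit 326) (nat_lit 238)))) (XT.nd (nat_lit 78) (nat_lit 0) (nat_lit 0) (XT.lf (nat_lit 0) (nat_lit 146504880562) (nat_lit 76) (nat_lit 61467083386) (nat_lit 76) (nat_lit 52678752570) (nat_lit 3) (nat_lit 4) (nat_lit 4) (nat_lit 5) (nat_lit 4) (nat_lit 4) (nat_lit 457) (nat_lit 326) (nat_lit 237)) (XT.nd (nat_lit 78) (nat_lit 0) (nat_lit 0) (XT.lf (nat_lit 0) (nat_lit 168908528010) (nat_lit 76) (nat_lit 56594628773) (nat_lit 76) (nat_lit 47800783216) (nat_lit 3) (nat_lit 4) (nat_lit 4) (nat_lit 5) (nat_lit 4) (nat_lit 4) (nat_lit 458) (nat_lit 326) (nat_lit 236)) (XT.lf (nat_lit 0) (nat_lit 192414576568) (nat_lit 76) (nat_lit 51487396542) (nat_lit 76) (nat_lit 42688298851) (nat_lit 3) (nat_lit 4) (nat_lit 4) (nat_lit 5) (nat_lit 4) (nat_lit 4) (nat_lit 459) (nat_lit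 326) (nat_lit 235))))) (XT.nd (nat_lit 234) (nat_lit 76) (nat_lit 0) (XT.nd (nat_lit 78) (nat_lit 0) (nat_lit 0) (XT.lf (nat_lit 0) (nat_lit 217078993018) (nat_lit 76) (nat_lit 46133226615) (nat_lit 76) (nat_lit 37329126891) (nat_lit 3) (nat_lit 4) (nat_lit 4) (nat_lit 5) (nat_lit 4) (nat_lit 4) (nat_lit 460) (nat_lit 326) (nat_lit 234)) (XT.nd (nat_lit 78) (nat_lit 0) (nat_lit 0) (XT.lf (nat_lit 0) (nat_lit 242960502162) (nat_lit 76) (nat_lit 40519370969) (nat_lit 76) (nat_lit 31710507405) (nat_lit 3) (nat_lit 4) (nat_lit 4) (nat_lit 5) (nat_lit 4) (nat_lit 4) (nat_lit 461) (nat_lit 326) (nat_lit 233)) (XT.lf (nat_lit 0) (nat_lit 270120726640) (nat_lit 76) (nat_lit 34632463281) (nat_lit 76) (nat_lit 25819062726) (nat_lit 3) (nat_lit 4) (nat_lit 4) (nat_lit 5) (nat_lit 4) (nat_lit 4) (nat_lit 462) (nat_lit 326) (nat_lit 232)))) (XT.nd (nat_lit 156) (nat_lit 76) (nat_lit 0) (XT.nd (nat_lit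 78) (nat_lit 0) (nat_lit 0) (XT.lf (nat_lit 0) (nat_lit 298624333653) (nat_lit 76) (nat_lit 28458487104) (nat_lit 76) (nat_lit 19640765606) (nat_lit 3) (nat_lit 4) (nat_lit 4) (nat_lit 5) (nat_lit 4) (nat_lit 4) (nat_lit 463) (nat_lit 326) (nat_lit 231)) (XT.lf (nat_lit 0) (nat_lit 328539188933) (nat_lit 76) (nat_lit 21982742495) (nat_lit 76) (nat_lit 13160905813) (nat_lit 3) (nat_lit 4) (nat_lit 4) (nat_lit 5) (nat_lit 4) (nat_lit 4) (nat_lit 464) (nat_lit 326) (nat_lit 230))) (XT.nd (nat_lit 78) (nat_lit 76) (nat_lit 0) (XT.lf (nat_lit 0) (nat_lit 359936518325) (nat_lit 76) (nat_lit 15189811014) (nat_lit 76) (nat_lit 6364055109) (nat_lit 3) (nat_lit 4) (nat_lit 4) (nat_lit 5) (nat_lit 4) (nat_lit 4) (nat_lit 465) (nat_lit 326) (nat_lit 229)) (XT.lf (nat_lit 0) (nat_lit 741453675) (nat_lit 152) (nat_lit 7309508463) (nat_lit 76) (nat_lit 392137066823) (nat_lit 2) (nat_lit 5) (nat_lit 4)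 (nat_lit 5) (nat_lit 3) (nat_lit 4) (nat_lit 466) (nat_lit 326) (nat_lit 228))))))))
noncomputable def xc64 : XT := (XT.nd (nat_lit 46176) (nat_lit 0) (nat_lit 1368) (XT.nd (nat_lit 936) (nat_lit 0) (nat_lit 0) (XT.nd (nat_lit 468) (nat_lit 0) (nat_lit 0) (XT.nd (nat_lit 234) (nat_lit 0) (nat_lit 0) (XT.nd (nat_lit 78) (nat_lit 0) (nat_lit 0) (XT.lf (nat_lit 0) (nat_lit 7779491981) (nat_lit 76) (nat_lit 324183789) (nat_lit 152) (nat_lit 411705898219) (nat_lit 1) (nat_lit 5) (nat_lit 2) (nat_lit 5) (nat_lit 3) (nat_lit 4) (nat_lit 467) (nat_lit 326) (nat_lit 227)) (XT.nd (nat_lit 78) (nat_lit 0) (nat_lit 0) (XT.lf (nat_lit 0) (nat_lit 16075298749) (nat_lit 152) (nat_lit 416665181181) (nat_lit 0) (nat_lit 7659652156) (nat_lit 1) (nat_lit 5) (nat_lit 3) (nat_lit 4) (nat_lit 1) (nat_lit 4) (nat_lit 468) (nat_lit 326) (nat_lit 226)) (XT.lf (nat_lit 0) (nat_lit 24444972877) (nat_lit 152) (nat_lit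 421549016530) (nat_lit 0) (nat_lit 16026255471) (nat_lit 1) (nat_lit 5) (nat_lit 3) (nat_lit 4) (nat_lit 1) (nat_lit 4) (nat_lit 469) (nat_lit 326) (nat_lit 225)))) (XT.nd (nat_lit 78) (nat_lit 0) (nat_lit 0) (XT.lf (nat_lit 0) (nat_lit 33227564535) (nat_lit 152) (nat_lit 426688154818) (nat_lit 0) (nat_lit 24805922544) (nat_lit 1) (nat_lit 5) (nat_lit 3) (nat_lit 4) (nat_lit 1) (nat_lit 4) (nat_lit 470) (nat_lit 326) (nat_lit 224)) (XT.nd (nat_lit 78) (nat_lit 0) (nat_lit 0) (XT.lf (nat_lit 0) (nat_lit 42443984653) (nat_lit 152) (nat_lit 432094832089) (nat_lit 0) (nat_lit 34019557344) (nat_lit 1) (nat_lit 5) (nat_lit 3) (nat_lit 4) (nat_lit 1) (nat_lit 4) (nat_lit 471) (nat_lit 326) (nat_lit 223)) (XT.lf (nat_lit 0) (nat_lit 52116177091) (nat_lit 152) (nat_lit 437781921383) (nat_lit 0) (nat_lit 43689097097) (nat_lit 1) (nat_lit 5) (nat_lit 3) (nat_lit 4) (nat_lit 1) (nat_lit 4) (nat_lit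 472) (nat_lit 326) (nat_lit 222))))) (XT.nd (nat_lit 234) (nat_lit 0) (nat_lit 0) (XT.nd (nat_lit 78) (nat_lit 0) (nat_lit 0) (XT.lf (nat_lit 0) (nat_lit 62267170877) (nat_lit 152) (nat_lit 443762963389) (nat_lit 0) (nat_lit 53837564517) (nat_lit 1) (nat_lit 5) (nat_lit 3) (nat_lit 4) (nat_lit 1) (nat_lit 4) (nat_lit 473) (nat_lit 326) (nat_lit 221)) (XT.nd (nat_lit 78) (nat_lit 0) (nat_lit 0) (XT.lf (nat_lit 0) (nat_lit 72921135044) (nat_lit 152) (nat_lit 450052198683) (nat_lit 0) (nat_lit 64489122621) (nat_lit 1) (nat_lit 5) (nat_lit 3) (nat_lit 4) (nat_lit 1) (nat_lit 4) (nat_lit 474) (nat_lit 326) (nat_lit 220)) (XT.lf (nat_lit 0) (nat_lit 84103436174) (nat_lit 152) (nat_lit 456664601636) (nat_lit 0) (nat_lit 75669132262) (nat_lit 1) (nat_lit 5) (nat_lit 3) (nat_lit 4) (nat_lit 1) (nat_lit 4) (nat_lit 475) (nat_lit 326) (nat_lit 219)))) (XT.nd (nat_lit 78) (nat_lit 0) (nat_lit 0) (XT.lf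 (nat_lit 0) (nat_lit 95840698794) (nat_lit 152) (nat_lit 463615916063) (nat_lit 0) (nat_lit 87404212511) (nat_lit 1) (nat_lit 5) (nat_lit 3) (nat_lit 4) (nat_lit 1) (nat_lit 4) (nat_lit 476) (nat_lit 326) (nat_lit 218)) (XT.nd (nat_lit 78) (nat_lit 0) (nat_lit 0) (XT.lf (nat_lit 0) (nat_lit 108160868765) (nat_lit 152) (nat_lit 470922692714) (nat_lit 0) (nat_lit 99722304035) (nat_lit 1) (nat_lit 5) (nat_lit 3) (nat_lit 4) (nat_lit 1) (nat_lit 4) (nat_lit 477) (nat_lit 326) (nat_lit 217)) (XT.lf (nat_lit 0) (nat_lit 121093279827) (nat_lit 152) (nat_lit 478602328675) (nat_lit 0) (nat_lit 112652735623) (nat_lit 1) (nat_lit 5) (nat_lit 3) (nat_lit 4) (nat_lit 1) (nat_lit 4) (nat_lit 478) (nat_lit 326) (nat_lit 216)))))) (XT.nd (nat_lit 44694) (nat_lit 0) (nat_lit 3648) (XT.nd (nat_lit 44460) (nat_lit 0) (nat_lit 4940) (XT.nd (nat_lit 44304) (nat_lit 0) (nat_lit 5472) (XT.lf (nat_lit 0) (nat_lit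 134668723435) (nat_lit 152) (nat_lit 486673108795) (nat_lit 0) (nat_lit 126226294018) (nat_lit 1) (nat_lit 5) (nat_lit 3) (nat_lit 4) (nat_lit 1) (nat_lit 4) (nat_lit 479) (nat_lit 326) (nat_lit 215)) (XT.nd (nat_lit 78) (nat_lit 304) (nat_lit 0) (XT.lf (nat_lit 0) (nat_lit 2780227253) (nat_lit 304) (nat_lit 734306334) (nat_lit 304) (nat_lit 734306334) (nat_lit 77) (nat_lit 4) (nat_lit 81) (nat_lit 5) (nat_lit 81) (nat_lit 4) (nat_lit 366) (nat_lit 327) (nat_lit 327)) (XT.lf (nat_lit 0) (nat_lit 2519218272) (nat_lit 304) (nat_lit 4648660218) (nat_lit 0) (nat_lit 1498795631) (nat_lit 73) (nat_lit 5) (nat_lit 77) (nat_lit 4) (nat_lit 73) (nat_lit 4) (nat_lit 367) (nat_lit 327) (nat_lit 326)))) (XT.nd (nat_lit 78) (nat_lit 304) (nat_lit 0) (XT.lf (nat_lit 0) (nat_lit 2374953909) (nat_lit 228) (nat_lit 4231420917) (nat_lit 228) (nat_lit 2239167188) (nat_lit 70) (nat_lit 4) (nat_lit 73) (nat_lit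 5) (nat_lit 73) (nat_lit 4) (nat_lit 368) (nat_lit 327) (nat_lit 325)) (XT.nd (nat_lit 78) (nat_lit 0) (nat_lit 0) (XT.lf (nat_lit 0) (nat_lit 636605998) (nat_lit 228) (nat_lit 1097254071) (nat_lit 304) (nat_lit 7301671227) (nat_lit 66) (nat_lit 5) (nat_lit 69) (nat_lit 5) (nat_lit 70) (nat_lit 4) (nat_lit 369) (nat_lit 327) (nat_lit 324)) (XT.lf (nat_lit 0) (nat_lit 5817851189) (nat_lit 304) (nat_lit 1216551895) (nat_lit 0) (nat_lit 2199483009) (nat_lit 66) (nat_lit 5) (nat_lit 70) (nat_lit 4) (nat_lit 66) (nat_lit 4) (nat_lit 370) (nat_lit 327) (nat_lit 323))))) (XT.nd (nat_lit 234) (nat_lit 608) (nat_lit 0) (XT.nd (nat_lit 78) (nat_lit 380) (nat_lit 0) (XT.lf (nat_lit 0) (nat_lit 607514638) (nat_lit 304) (nat_lit 3172491010) (nat_lit 76) (nat_lit 5663462930) (nat_lit 62) (nat_lit 5) (nat_lit 66) (nat_lit 5) (nat_lit 63) (nat_lit 4) (nat_lit 371) (nat_lit 327) (nat_lit 322)) (XT.nd (nat_lit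 78) (nat_lit 228) (nat_lit 0) (XT.lf (nat_lit 0) (nat_lit 4368009243) (nat_lit 152) (nat_lit 289239707) (nat_lit 228) (nat_lit 5006559541) (nat_lit 60) (nat_lit 5) (nat_lit 62) (nat_lit 5) (nat_lit 63) (nat_lit 4) (nat_lit 372) (nat_lit 327) (nat_lit 321)) (XT.lf (nat_lit 0) (nat_lit 2292459641) (nat_lit 228) (nat_lit 6613170394) (nat_lit 228) (nat_lit 989792845) (nat_lit 57) (nat_lit 4) (nat_lit 60) (nat_lit 5) (nat_lit 60) (nat_lit 4) (nat_lit 373) (nat_lit 327) (nat_lit 320)))) (XT.nd (nat_lit 156) (nat_lit 380) (nat_lit 0) (XT.nd (nat_lit 78) (nat_lit 0) (nat_lit 0) (XT.lf (nat_lit 0) (nat_lit 22276266) (nat_lit 152) (nat_lit 3052566342) (nat_lit 228) (nat_lit 7063797984) (nat_lit 54) (nat_lit 5) (nat_lit 56) (nat_lit 5) (nat_lit 57) (nat_lit 4) (nat_lit 374) (nat_lit 327) (nat_lit 319)) (XT.lf (nat_lit 0) (nat_lit 7307177529) (nat_lit 228) (nat_lit 2357691465) (nat_lit 0) (nat_lit 728508895)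 (nat_lit 54) (nat_lit 5) (nat_lit 57) (nat_lit 4) (nat_lit 54) (nat_lit 4) (nat_lit 375) (nat_lit 327) (nat_lit 318))) (XT.nd (nat_lit 78) (nat_lit 152) (nat_lit 0) (XT.lf (nat_lit 0) (nat_lit 1057374633) (nat_lit 228) (nat_lit 4979260144) (nat_lit 76) (nat_lit 4623317808) (nat_lit 51) (nat_lit 5) (nat_lit 54) (nat_lit 5) (nat_lit 52) (nat_lit 4) (nat_lit 376) (nat_lit 327) (nat_lit 317)) (XT.lf (nat_lit 0) (nat_lit 3088985361) (nat_lit 152) (nat_lit 2168095330) (nat_lit 228) (nat_lit 5682661072) (nat_lit 49) (nat_lit 5) (nat_lit 51) (nat_lit 5) (nat_lit 52) (nat_lit 4) (nat_lit 377) (nat_lit 327) (nat_lit 316))))))) (XT.nd (nat_lit 1014) (nat_lit 836) (nat_lit 0) (XT.nd (nat_lit 468) (nat_lit 760) (nat_lit 0) (XT.nd (nat_lit 234) (nat_lit 304) (nat_lit 0) (XT.nd (nat_lit 78) (nat_lit 228) (nat_lit 0) (XT.lf (nat_lit 0) (nat_lit 256092807) (nat_lit 152) (nat_lit 9395503520) (nat_lit 152)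 (nat_lit 1582729395) (nat_lit 47) (nat_lit 4) (nat_lit 49) (nat_lit 5) (nat_lit 49) (nat_lit 4) (nat_lit 378) (nat_lit 327) (nat_lit 315)) (XT.nd (nat_lit 78) (nat_lit 152) (nat_lit 0) (XT.lf (nat_lit 0) (nat_lit 2672040626) (nat_lit 228) (nat_lit 2802558210) (nat_lit 76) (nat_lit 6065108739) (nat_lit 46) (nat_lit 5) (nat_lit 49) (nat_lit 5) (nat_lit 47) (nat_lit 4) (nat_lit 379) (nat_lit 327) (nat_lit 314)) (XT.lf (nat_lit 0) (nat_lit 5723731031) (nat_lit 152) (nat_lit 1324649234) (nat_lit 228) (nat_lit 4812620077) (nat_lit 44) (nat_lit 5) (nat_lit 46) (nat_lit 5) (nat_lit 47) (nat_lit 4) (nat_lit 380) (nat_lit 327) (nat_lit 313)))) (XT.nd (nat_lit 78) (nat_lit 152) (nat_lit 0) (XT.lf (nat_lit 0) (nat_lit 2389140219) (nat_lit 152) (nat_lit 9261337806) (nat_lit 152) (nat_lit 547570951) (nat_lit 42) (nat_lit 4) (nat_lit 44) (nat_lit 5) (nat_lit 44) (nat_lit 4) (nat_lit 381) (nat_lit 327)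 (nat_lit 312)) (XT.nd (nat_lit 78) (nat_lit 76) (nat_lit 0) (XT.lf (nat_lit 0) (nat_lit 3806938857) (nat_lit 228) (nat_lit 1294128758) (nat_lit 76) (nat_lit 7447747859) (nat_lit 41) (nat_lit 5) (nat_lit 44) (nat_lit 5) (nat_lit 42) (nat_lit 4) (nat_lit 382) (nat_lit 327) (nat_lit 311)) (XT.lf (nat_lit 0) (nat_lit 7675920804) (nat_lit 76) (nat_lit 685321700) (nat_lit 152) (nat_lit 4555438519) (nat_lit 40) (nat_lit 5) (nat_lit 41) (nat_lit 5) (nat_lit 42) (nat_lit 4) (nat_lit 383) (nat_lit 327) (nat_lit 310))))) (XT.nd (nat_lit 234) (nat_lit 456) (nat_lit 0) (XT.nd (nat_lit 78) (nat_lit 152) (nat_lit 0) (XT.lf (nat_lit 0) (nat_lit 3685109650) (nat_lit 152) (nat_lit 9481424125) (nat_lit 152) (nat_lit 135273953) (nat_lit 38) (nat_lit 4) (nat_lit 40) (nat_lit 5) (nat_lit 40) (nat_lit 4) (nat_lit 384) (nat_lit 327) (nat_lit 309)) (XT.nd (nat_lit 78) (nat_lit 76) (nat_lit 0) (XT.lf (nat_lit 0)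 (nat_lit 4345400731) (nat_lit 228) (nat_lit 754478987) (nat_lit 76) (nat_lit 8603636194) (nat_lit 37) (nat_lit 5) (nat_lit 40) (nat_lit 5) (nat_lit 38) (nat_lit 4) (nat_lit 385) (nat_lit 327) (nat_lit 308)) (XT.lf (nat_lit 0) (nat_lit 8625752500) (nat_lit 76) (nat_lit 442362925) (nat_lit 152) (nat_lit 5055982790) (nat_lit 36) (nat_lit 5) (nat_lit 37) (nat_lit 5) (nat_lit 38) (nat_lit 4) (nat_lit 386) (nat_lit 327) (nat_lit 307)))) (XT.nd (nat_lit 156) (nat_lit 228) (nat_lit 0) (XT.nd (nat_lit 78) (nat_lit 76) (nat_lit 0) (XT.lf (nat_lit 0) (nat_lit 3787768883) (nat_lit 152) (nat_lit 10269589488) (nat_lit 152) (nat_lit 506857550) (nat_lit 34) (nat_lit 4) (nat_lit 36) (nat_lit 5) (nat_lit 36) (nat_lit 4) (nat_lit 387) (nat_lit 327) (nat_lit 306)) (XT.lf (nat_lit 0) (nat_lit 4124196416) (nat_lit 228) (nat_lit 1568432606) (nat_lit 76) (nat_lit 9330844360) (nat_lit 33) (nat_lit 5) (nat_lit 36)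 (nat_lit 5) (nat_lit 34) (nat_lit 4) (nat_lit 388) (nat_lit 327) (nat_lit 305))) (XT.nd (nat_lit 78) (nat_lit 152) (nat_lit 0) (XT.lf (nat_lit 0) (nat_lit 8162065137) (nat_lit 76) (nat_lit 829646240) (nat_lit 152) (nat_lit 6512492167) (nat_lit 32) (nat_lit 5) (nat_lit 33) (nat_lit 5) (nat_lit 34) (nat_lit 4) (nat_lit 389) (nat_lit 327) (nat_lit 304)) (XT.lf (nat_lit 0) (nat_lit 2238706091) (nat_lit 152) (nat_lit 11887897900) (nat_lit 152) (nat_lit 1881187447) (nat_lit 30) (nat_lit 4) (nat_lit 32) (nat_lit 5) (nat_lit 32) (nat_lit 4) (nat_lit 390) (nat_lit 327) (nat_lit 303)))))) (XT.nd (nat_lit 468) (nat_lit 456) (nat_lit 0) (XT.nd (nat_lit 234) (nat_lit 228) (nat_lit 0) (XT.nd (nat_lit 78) (nat_lit 76) (nat_lit 0) (XT.lf (nat_lit 0) (nat_lit 2921855626) (nat_lit 228) (nat_lit 4231058606) (nat_lit 76) (nat_lit 9379555931) (nat_lit 29) (nat_lit 5) (nat_lit 32) (nat_lit 5) (nat_lit 30) (nat_lit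 4) (nat_lit 391) (nat_lit 327) (nat_lit 302)) (XT.nd (nat_lit 78) (nat_lit 0) (nat_lit 0) (XT.lf (nat_lit 0) (nat_lit 5754327892) (nat_lit 76) (nat_lit 2137937960) (nat_lit 152) (nat_lit 9190071670) (nat_lit 28) (nat_lit 5) (nat_lit 29) (nat_lit 5) (nat_lit 30) (nat_lit 4) (nat_lit 392) (nat_lit 327) (nat_lit 301)) (XT.lf (nat_lit 0) (nat_lit 13134091096) (nat_lit 152) (nat_lit 1503778825) (nat_lit 0) (nat_lit 3020701141) (nat_lit 28) (nat_lit 5) (nat_lit 30) (nat_lit 4) (nat_lit 28) (nat_lit 4) (nat_lit 393) (nat_lit 327) (nat_lit 300)))) (XT.nd (nat_lit 78) (nat_lit 76) (nat_lit 0) (XT.lf (nat_lit 0) (nat_lit 443421015) (nat_lit 152) (nat_lit 9380560409) (nat_lit 76) (nat_lit 8435307872) (nat_lit 26) (nat_lit 5) (nat_lit 28) (nat_lit 5) (nat_lit 27) (nat_lit 4) (nat_lit 394) (nat_lit 327) (nat_lit 299)) (XT.nd (nat_lit 78) (nat_lit 0) (nat_lit 0) (XT.lf (nat_lit 0) (nat_lit 717071793)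 (nat_lit 76) (nat_lit 4733874122) (nat_lit 152) (nat_lit 13438240034) (nat_lit 25) (nat_lit 5) (nat_lit 26) (nat_lit 5) (nat_lit 27) (nat_lit 4) (nat_lit 395) (nat_lit 327) (nat_lit 298)) (XT.lf (nat_lit 0) (nat_lit 10786576170) (nat_lit 152) (nat_lit 8085144491) (nat_lit 0) (nat_lit 674984747) (nat_lit 25) (nat_lit 5) (nat_lit 27) (nat_lit 4) (nat_lit 25) (nat_lit 4) (nat_lit 396) (nat_lit 327) (nat_lit 297))))) (XT.nd (nat_lit 234) (nat_lit 228) (nat_lit 0) (XT.nd (nat_lit 78) (nat_lit 152) (nat_lit 0) (XT.lf (nat_lit 0) (nat_lit 2336073256) (nat_lit 76) (nat_lit 14078158592) (nat_lit 76) (nat_lit 3821620539) (nat_lit 24) (nat_lit 4) (nat_lit 25) (nat_lit 5) (nat_lit 25) (nat_lit 4) (nat_lit 397) (nat_lit 327) (nat_lit 296)) (XT.nd (nat_lit 78) (nat_lit 76) (nat_lit 0) (XT.lf (nat_lit 0) (nat_lit 1370719405) (nat_lit 152) (nat_lit 7584607680) (nat_lit 76) (nat_lit 12000549629) (nat_lit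 23) (nat_lit 5) (nat_lit 25) (nat_lit 5) (nat_lit 24) (nat_lit 4) (nat_lit 398) (nat_lit 327) (nat_lit 295)) (XT.lf (nat_lit 0) (nat_lit 3124131726) (nat_lit 76) (nat_lit 3534495130) (nat_lit 152) (nat_lit 15051935698) (nat_lit 22) (nat_lit 5) (nat_lit 23) (nat_lit 5) (nat_lit 24) (nat_lit 4) (nat_lit 399) (nat_lit 327) (nat_lit 294)))) (XT.nd (nat_lit 156) (nat_lit 152) (nat_lit 0) (XT.nd (nat_lit 78) (nat_lit 76) (nat_lit 0) (XT.lf (nat_lit 0) (nat_lit 12291183460) (nat_lit 152) (nat_lit 8060675026) (nat_lit 0) (nat_lit 2147122814) (nat_lit 22) (nat_lit 5) (nat_lit 24) (nat_lit 4) (nat_lit 22) (nat_lit 4) (nat_lit 400) (nat_lit 327) (nat_lit 293)) (XT.lf (nat_lit 0) (nat_lit 2873043348) (nat_lit 76) (nat_lit 15355138904) (nat_lit 76) (nat_lit 5097508781) (nat_lit 21) (nat_lit 4) (nat_lit 22) (nat_lit 5) (nat_lit 22) (nat_lit 4) (nat_lit 401) (nat_lit 327) (nat_lit 292))) (XT.nd (nat_lit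 78) (nat_lit 76) (nat_lit 0) (XT.lf (nat_lit 0) (nat_lit 318644157) (nat_lit 152) (nat_lit 9712571007) (nat_lit 76) (nat_lit 14159374588) (nat_lit 20) (nat_lit 5) (nat_lit 22) (nat_lit 5) (nat_lit 21) (nat_lit 4) (nat_lit 402) (nat_lit 327) (nat_lit 291)) (XT.lf (nat_lit 0) (nat_lit 1379840958) (nat_lit 76) (nat_lit 4399985067) (nat_lit 152) (nat_lit 19317461847) (nat_lit 19) (nat_lit 5) (nat_lit 20) (nat_lit 5) (nat_lit 21) (nat_lit 4) (nat_lit 403) (nat_lit 327) (nat_lit 290))))))))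
noncomputable def xc65 : XT := (XT.nd (nat_lit 1950) (nat_lit 304) (nat_lit 0) (XT.nd (nat_lit 936) (nat_lit 456) (nat_lit 0) (XT.nd (nat_lit 468) (nat_lit 228) (nat_lit 0) (XT.nd (nat_lit 234) (nat_lit 152) (nat_lit 0) (XT.nd (nat_lit 78) (nat_lit 76) (nat_lit 0) (XT.lf (nat_lit 0) (nat_lit 11629179403) (nat_lit 152) (nat_lit 12848937213) (nat_lit 0) (nat_lit 1565457518) (nat_lit 19) (nat_lit 5) (nat_lit 21) (nat_lit 4) (nat_lit 19) (nat_lit 4) (nat_lit 404) (nat_lit 327) (nat_lit 289)) (XT.nd (nat_lit 78) (nat_lit 76) (nat_lit 0) (XT.lf (nat_lit 0) (nat_lit 17771045322) (nat_lit 152) (nat_lit 1647796803) (nat_lit 0) (nat_lit 7618338780) (nat_lit 19) (nat_lit 5) (nat_lit 21) (nat_lit 4) (nat_lit 19) (nat_lit 4) (nat_lit 405) (nat_lit 327) (nat_lit 288)) (XT.lf (nat_lit 0) (nat_lit 10311367968) (nat_lit 76) (nat_lit 14000972558) (nat_lit 76) (nat_lit 3763518722) (nat_lit 18) (nat_lit 4)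 (nat_lit 19) (nat_lit 5) (nat_lit 19) (nat_lit 4) (nat_lit 406) (nat_lit 327) (nat_lit 287)))) (XT.nd (nat_lit 78) (nat_lit 76) (nat_lit 0) (XT.lf (nat_lit 0) (nat_lit 1909599516) (nat_lit 152) (nat_lit 6403486533) (nat_lit 76) (nat_lit 20853828437) (nat_lit 17) (nat_lit 5) (nat_lit 19) (nat_lit 5) (nat_lit 18) (nat_lit 4) (nat_lit 407) (nat_lit 327) (nat_lit 286)) (XT.nd (nat_lit 78) (nat_lit 0) (nat_lit 0) (XT.lf (nat_lit 0) (nat_lit 5514460147) (nat_lit 76) (nat_lit 2246268625) (nat_lit 152) (nat_lit 22547674104) (nat_lit 16) (nat_lit 5) (nat_lit 17) (nat_lit 5) (nat_lit 18) (nat_lit 4) (nat_lit 408) (nat_lit 327) (nat_lit 285)) (XT.lf (nat_lit 0) (nat_lit 14014001917) (nat_lit 152) (nat_lit 13443243121) (nat_lit 0) (nat_lit 4044247885) (nat_lit 16) (nat_lit 5) (nat_lit 18) (nat_lit 4) (nat_lit 16) (nat_lit 4) (nat_lit 409) (nat_lit 327) (nat_lit 284))))) (XT.nd (nat_lit 234) (nat_lit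 152) (nat_lit 0) (XT.nd (nat_lit 78) (nat_lit 76) (nat_lit 0) (XT.lf (nat_lit 0) (nat_lit 20554837085) (nat_lit 152) (nat_lit 1681980434) (nat_lit 0) (nat_lit 10518681331) (nat_lit 16) (nat_lit 5) (nat_lit 18) (nat_lit 4) (nat_lit 16) (nat_lit 4) (nat_lit 410) (nat_lit 327) (nat_lit 283)) (XT.nd (nat_lit 78) (nat_lit 0) (nat_lit 0) (XT.lf (nat_lit 0) (nat_lit 10901846043) (nat_lit 76) (nat_lit 16632099470) (nat_lit 76) (nat_lit 6532703982) (nat_lit 15) (nat_lit 4) (nat_lit 16) (nat_lit 5) (nat_lit 16) (nat_lit 4) (nat_lit 411) (nat_lit 327) (nat_lit 282)) (XT.lf (nat_lit 0) (nat_lit 24060677494) (nat_lit 76) (nat_lit 10771890872) (nat_lit 76) (nat_lit 612267065) (nat_lit 15) (nat_lit 4) (nat_lit 16) (nat_lit 5) (nat_lit 16) (nat_lit 4) (nat_lit 412) (nat_lit 327) (nat_lit 281)))) (XT.nd (nat_lit 78) (nat_lit 0) (nat_lit 0) (XT.lf (nat_lit 0) (nat_lit 815029479) (nat_lit 76) (nat_lit 4566440564)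 (nat_lit 152) (nat_lit 31508258569) (nat_lit 13) (nat_lit 5) (nat_lit 14) (nat_lit 5) (nat_lit 15) (nat_lit 4) (nat_lit 413) (nat_lit 327) (nat_lit 280)) (XT.nd (nat_lit 78) (nat_lit 0) (nat_lit 0) (XT.lf (nat_lit 0) (nat_lit 11824810199) (nat_lit 152) (nat_lit 24530713054) (nat_lit 0) (nat_lit 2042321656) (nat_lit 13) (nat_lit 5) (nat_lit 15) (nat_lit 4) (nat_lit 13) (nat_lit 4) (nat_lit 414) (nat_lit 327) (nat_lit 279)) (XT.lf (nat_lit 0) (nat_lit 18611940667) (nat_lit 152) (nat_lit 12588447750) (nat_lit 0) (nat_lit 8779902136) (nat_lit 13) (nat_lit 5) (nat_lit 15) (nat_lit 4) (nat_lit 13) (nat_lit 4) (nat_lit 415) (nat_lit 327) (nat_lit 278)))))) (XT.nd (nat_lit 468) (nat_lit 228) (nat_lit 0) (XT.nd (nat_lit 234) (nat_lit 152) (nat_lit 0) (XT.nd (nat_lit 78) (nat_lit 76) (nat_lit 0) (XT.lf (nat_lit 0) (nat_lit 25687726345) (nat_lit 152) (nat_lit 148174323) (nat_lit 0) (nat_lit 15808497350)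 (nat_lit 13) (nat_lit 5) (nat_lit 15) (nat_lit 4) (nat_lit 13) (nat_lit 4) (nat_lit 416) (nat_lit 327) (nat_lit 277)) (XT.nd (nat_lit 78) (nat_lit 0) (nat_lit 0) (XT.lf (nat_lit 0) (nat_lit 13243604993) (nat_lit 76) (nat_lit 20032179139) (nat_lit 76) (nat_lit 10108006846) (nat_lit 12) (nat_lit 4) (nat_lit 13) (nat_lit 5) (nat_lit 13) (nat_lit 4) (nat_lit 417) (nat_lit 327) (nat_lit 276)) (XT.lf (nat_lit 0) (nat_lit 27217254056) (nat_lit 76) (nat_lit 13981062711) (nat_lit 76) (nat_lit 4014087276) (nat_lit 12) (nat_lit 4) (nat_lit 13) (nat_lit 5) (nat_lit 13) (nat_lit 4) (nat_lit 418) (nat_lit 327) (nat_lit 275)))) (XT.nd (nat_lit 78) (nat_lit 76) (nat_lit 0) (XT.lf (nat_lit 0) (nat_lit 2262285583) (nat_lit 152) (nat_lit 5370054885) (nat_lit 76) (nat_lit 39500545663) (nat_lit 11) (nat_lit 5) (nat_lit 13) (nat_lit 5) (nat_lit 12) (nat_lit 4) (nat_lit 419) (nat_lit 327) (nat_lit 274)) (XT.nd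 (nat_lit 78) (nat_lit 0) (nat_lit 0) (XT.lf (nat_lit 0) (nat_lit 7990558489) (nat_lit 76) (nat_lit 808037867) (nat_lit 152) (nat_lit 40343458290) (nat_lit 10) (nat_lit 5) (nat_lit 11) (nat_lit 5) (nat_lit 12) (nat_lit 4) (nat_lit 420) (nat_lit 327) (nat_lit 273)) (XT.lf (nat_lit 0) (nat_lit 15809801333) (nat_lit 152) (nat_lit 29228048810) (nat_lit 0) (nat_lit 6206430851) (nat_lit 10) (nat_lit 5) (nat_lit 12) (nat_lit 4) (nat_lit 10) (nat_lit 4) (nat_lit 421) (nat_lit 327) (nat_lit 272))))) (XT.nd (nat_lit 234) (nat_lit 152) (nat_lit 0) (XT.nd (nat_lit 78) (nat_lit 76) (nat_lit 0) (XT.lf (nat_lit 0) (nat_lit 23143275190) (nat_lit 152) (nat_lit 16803393890) (nat_lit 0) (nat_lit 13506367326) (nat_lit 10) (nat_lit 5) (nat_lit 12) (nat_lit 4) (nat_lit 10) (nat_lit 4) (nat_lit 422) (nat_lit 327) (nat_lit 271)) (XT.nd (nat_lit 78) (nat_lit 76) (nat_lit 0) (XT.lf (nat_lit 0) (nat_lit 30803862843)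 (nat_lit 152) (nat_lit 3835333152) (nat_lit 0) (nat_lit 21135014617) (nat_lit 10) (nat_lit 5) (nat_lit 12) (nat_lit 4) (nat_lit 10) (nat_lit 4) (nat_lit 423) (nat_lit 327) (nat_lit 270)) (XT.lf (nat_lit 0) (nat_lit 10027967319) (nat_lit 76) (nat_lit 28938401142) (nat_lit 76) (nat_lit 19239133522) (nat_lit 9) (nat_lit 4) (nat_lit 10) (nat_lit 5) (nat_lit 10) (nat_lit 4) (nat_lit 424) (nat_lit 327) (nat_lit 269)))) (XT.nd (nat_lit 156) (nat_lit 152) (nat_lit 0) (XT.nd (nat_lit 78) (nat_lit 0) (nat_lit 0) (XT.lf (nat_lit 0) (nat_lit 24644661536) (nat_lit 76) (nat_lit 22920270486) (nat_lit 76) (nat_lit 13192032014) (nat_lit 9) (nat_lit 4) (nat_lit 10) (nat_lit 5) (nat_lit 10) (nat_lit 4) (nat_lit 425) (nat_lit 327) (nat_lit 268)) (XT.lf (nat_lit 0) (nat_lit 39922737717) (nat_lit 76) (nat_lit 16635428367) (nat_lit 76) (nat_lit 6879598608) (nat_lit 9) (nat_lit 4) (nat_lit 10) (nat_lit 5) (nat_lit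 10) (nat_lit 4) (nat_lit 426) (nat_lit 327) (nat_lit 267))) (XT.nd (nat_lit 78) (nat_lit 152) (nat_lit 0) (XT.lf (nat_lit 0) (nat_lit 55898572232) (nat_lit 76) (nat_lit 10068910876) (nat_lit 76) (nat_lit 286803701) (nat_lit 9) (nat_lit 4) (nat_lit 10) (nat_lit 5) (nat_lit 10) (nat_lit 4) (nat_lit 427) (nat_lit 327) (nat_lit 266)) (XT.lf (nat_lit 0) (nat_lit 3402800765) (nat_lit 76) (nat_lit 3041069502) (nat_lit 152) (nat_lit 62761555937) (nat_lit 7) (nat_lit 5) (nat_lit 8) (nat_lit 5) (nat_lit 9) (nat_lit 4) (nat_lit 428) (nat_lit 327) (nat_lit 265))))))) (XT.nd (nat_lit 1014) (nat_lit 76) (nat_lit 0) (XT.nd (nat_lit 468) (nat_lit 152) (nat_lit 0) (XT.nd (nat_lit 234) (nat_lit 76) (nat_lit 0) (XT.nd (nat_lit 78) (nat_lit 0) (nat_lit 0) (XT.lf (nat_lit 0) (nat_lit 13714996336) (nat_lit 152) (nat_lit 54226045478) (nat_lit 0) (nat_lit 4352169978) (nat_lit 7) (nat_lit 5) (nat_lit 9) (nat_lit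 4) (nat_lit 7) (nat_lit 4) (nat_lit 429) (nat_lit 327) (nat_lit 264)) (XT.nd (nat_lit 78) (nat_lit 0) (nat_lit 0) (XT.lf (nat_lit 0) (nat_lit 21368648387) (nat_lit 152) (nat_lit 42181588305) (nat_lit 0) (nat_lit 11984203534) (nat_lit 7) (nat_lit 5) (nat_lit 9) (nat_lit 4) (nat_lit 7) (nat_lit 4) (nat_lit 430) (nat_lit 327) (nat_lit 263)) (XT.lf (nat_lit 0) (nat_lit 29375569783) (nat_lit 152) (nat_lit 29593097026) (nat_lit 0) (nat_lit 19970535887) (nat_lit 7) (nat_lit 5) (nat_lit 9) (nat_lit 4) (nat_lit 7) (nat_lit 4) (nat_lit 431) (nat_lit 327) (nat_lit 262)))) (XT.nd (nat_lit 78) (nat_lit 76) (nat_lit 0) (XT.lf (nat_lit 0) (nat_lit 37754824623) (nat_lit 152) (nat_lit 16430599041) (nat_lit 0) (nat_lit 28330182114) (nat_lit 7) (nat_lit 5) (nat_lit 9) (nat_lit 4) (nat_lit 7) (nat_lit 4) (nat_lit 432) (nat_lit 327) (nat_lit 261)) (XT.nd (nat_lit 78) (nat_lit 76) (nat_lit 0) (XT.lf (nat_lit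 0) (nat_lit 46526363514) (nat_lit 152) (nat_lit 2662755071) (nat_lit 0) (nat_lit 37083046137) (nat_lit 7) (nat_lit 5) (nat_lit 9) (nat_lit 4) (nat_lit 7) (nat_lit 4) (nat_lit 433) (nat_lit 327) (nat_lit 260)) (XT.lf (nat_lit 0) (nat_lit 12131499203) (nat_lit 76) (nat_lit 43768978570) (nat_lit 76) (nat_lit 34307875603) (nat_lit 6) (nat_lit 4) (nat_lit 7) (nat_lit 5) (nat_lit 7) (nat_lit 4) (nat_lit 434) (nat_lit 327) (nat_lit 259))))) (XT.nd (nat_lit 234) (nat_lit 152) (nat_lit 0) (XT.nd (nat_lit 78) (nat_lit 0) (nat_lit 0) (XT.lf (nat_lit 0) (nat_lit 27708456139) (nat_lit 76) (nat_lit 38054966163) (nat_lit 76) (nat_lit 28576924540) (nat_lit 6) (nat_lit 4) (nat_lit 7) (nat_lit 5) (nat_lit 7) (nat_lit 4) (nat_lit 435) (nat_lit 327) (nat_lit 258)) (XT.nd (nat_lit 78) (nat_lit 0) (nat_lit 0) (XT.lf (nat_lit 0) (nat_lit 44017161022) (nat_lit 76) (nat_lit 32078571619) (nat_lit 76) (nat_lit 22584397941)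 (nat_lit 6) (nat_lit 4) (nat_lit 7) (nat_lit 5) (nat_lit 7) (nat_lit 4) (nat_lit 436) (nat_lit 327) (nat_lit 257)) (XT.lf (nat_lit 0) (nat_lit 61096444100) (nat_lit 76) (nat_lit 25825565426) (nat_lit 76) (nat_lit 16316027887) (nat_lit 6) (nat_lit 4) (nat_lit 7) (nat_lit 5) (nat_lit 7) (nat_lit 4) (nat_lit 437) (nat_lit 327) (nat_lit 256)))) (XT.nd (nat_lit 156) (nat_lit 152) (nat_lit 0) (XT.nd (nat_lit 78) (nat_lit 0) (nat_lit 0) (XT.lf (nat_lit 0) (nat_lit 78986970334) (nat_lit 76) (nat_lit 19281059474) (nat_lit 76) (nat_lit 9756889688) (nat_lit 6) (nat_lit 4) (nat_lit 7) (nat_lit 5) (nat_lit 7) (nat_lit 4) (nat_lit 438) (nat_lit 327) (nat_lit 255)) (XT.lf (nat_lit 0) (nat_lit 97731336215) (nat_lit 76) (nat_lit 12429471607) (nat_lit 76) (nat_lit 2891366346) (nat_lit 6) (nat_lit 4) (nat_lit 7) (nat_lit 5) (nat_lit 7) (nat_lit 4) (nat_lit 439) (nat_lit 327) (nat_lit 254))) (XT.nd (nat_lit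 78) (nat_lit 76) (nat_lit 0) (XT.lf (nat_lit 0) (nat_lit 4159361350) (nat_lit 152) (nat_lit 1024686373) (nat_lit 76) (nat_lit 113144369038) (nat_lit 5) (nat_lit 5) (nat_lit 7) (nat_lit 5) (nat_lit 6) (nat_lit 4) (nat_lit 440) (nat_lit 327) (nat_lit 253)) (XT.lf (nat_lit 0) (nat_lit 11712734130) (nat_lit 152) (nat_lit 109536858159) (nat_lit 0) (nat_lit 2604146484) (nat_lit 4) (nat_lit 5) (nat_lit 6) (nat_lit 4) (nat_lit 4) (nat_lit 4) (nat_lit 441) (nat_lit 327) (nat_lit 252)))))) (XT.nd (nat_lit 468) (nat_lit 76) (nat_lit 0) (XT.nd (nat_lit 234) (nat_lit 0) (nat_lit 0) (XT.nd (nat_lit 78) (nat_lit 0) (nat_lit 0) (XT.lf (nat_lit 0) (nat_lit 19727497487) (nat_lit 152) (nat_lit 99316199298) (nat_lit 0) (nat_lit 10607445091) (nat_lit 4) (nat_lit 5) (nat_lit 6) (nat_lit 4) (nat_lit 4) (nat_lit 4) (nat_lit 442) (nat_lit 327) (nat_lit 251)) (XT.nd (nat_lit 78) (nat_lit 0) (nat_lit 0) (XT.lf (nat_lit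 0) (nat_lit 28124998539) (nat_lit 152) (nat_lit 88620290321) (nat_lit 0) (nat_lit 18994027334) (nat_lit 4) (nat_lit 5) (nat_lit 6) (nat_lit 4) (nat_lit 4) (nat_lit 4) (nat_lit 443) (nat_lit 327) (nat_lit 250)) (XT.lf (nat_lit 0) (nat_lit 36925231336) (nat_lit 152) (nat_lit 77423664775) (nat_lit 0) (nat_lit 27783861266) (nat_lit 4) (nat_lit 5) (nat_lit 6) (nat_lit 4) (nat_lit 4) (nat_lit 4) (nat_lit 444) (nat_lit 327) (nat_lit 249)))) (XT.nd (nat_lit 78) (nat_lit 0) (nat_lit 0) (XT.lf (nat_lit 0) (nat_lit 46149148815) (nat_lit 152) (nat_lit 65699664030) (nat_lit 0) (nat_lit 36997875063) (nat_lit 4) (nat_lit 5) (nat_lit 6) (nat_lit 4) (nat_lit 4) (nat_lit 4) (nat_lit 445) (nat_lit 327) (nat_lit 248)) (XT.nd (nat_lit 78) (nat_lit 0) (nat_lit 0) (XT.lf (nat_lit 0) (nat_lit 55818712683) (nat_lit 152) (nat_lit 53420373797) (nat_lit 0) (nat_lit 46658006853) (nat_lit 4) (nat_lit 5) (nat_lit 6) (nat_lit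 4) (nat_lit 4) (nat_lit 4) (nat_lit 446) (nat_lit 327) (nat_lit 247)) (XT.lf (nat_lit 0) (nat_lit 65956945711) (nat_lit 152) (nat_lit 40556557672) (nat_lit 0) (nat_lit 56787256949) (nat_lit 4) (nat_lit 5) (nat_lit 6) (nat_lit 4) (nat_lit 4) (nat_lit 4) (nat_lit 447) (nat_lit 327) (nat_lit 246))))) (XT.nd (nat_lit 234) (nat_lit 0) (nat_lit 0) (XT.nd (nat_lit 78) (nat_lit 76) (nat_lit 0) (XT.lf (nat_lit 0) (nat_lit 76587986549) (nat_lit 152) (nat_lit 27077587521) (nat_lit 0) (nat_lit 67409742615) (nat_lit 4) (nat_lit 5) (nat_lit 6) (nat_lit 4) (nat_lit 4) (nat_lit 4) (nat_lit 448) (nat_lit 327) (nat_lit 245)) (XT.nd (nat_lit 78) (nat_lit 76) (nat_lit 0) (XT.lf (nat_lit 0) (nat_lit 87737147200) (nat_lit 152) (nat_lit 12951370557) (nat_lit 0) (nat_lit 78550755483) (nat_lit 4) (nat_lit 5) (nat_lit 6) (nat_lit 4) (nat_lit 4) (nat_lit 4) (nat_lit 449) (nat_lit 327) (nat_lit 244)) (XT.lf (nat_lit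 0) (nat_lit 1917085785) (nat_lit 76) (nat_lit 97543818580) (nat_lit 76) (nat_lit 88349667069) (nat_lit 3) (nat_lit 4) (nat_lit 4) (nat_lit 5) (nat_lit 4) (nat_lit 4) (nat_lit 450) (nat_lit 327) (nat_lit 243)))) (XT.nd (nat_lit 156) (nat_lit 0) (nat_lit 0) (XT.nd (nat_lit 78) (nat_lit 0) (nat_lit 0) (XT.lf (nat_lit 0) (nat_lit 17953587265) (nat_lit 76) (nat_lit 94024025791) (nat_lit 76) (nat_lit 84822483999) (nat_lit 3) (nat_lit 4) (nat_lit 4) (nat_lit 5) (nat_lit 4) (nat_lit 4) (nat_lit 451) (nat_lit 327) (nat_lit 242)) (XT.lf (nat_lit 0) (nat_lit 34768085227) (nat_lit 76) (nat_lit 90340096658) (nat_lit 76) (nat_lit 81131516505) (nat_lit 3) (nat_lit 4) (nat_lit 4) (nat_lit 5) (nat_lit 4) (nat_lit 4) (nat_lit 452) (nat_lit 327) (nat_lit 241))) (XT.nd (nat_lit 78) (nat_lit 0) (nat_lit 0) (XT.lf (nat_lit 0) (nat_lit 52400614190) (nat_lit 76) (nat_lit 86483259921) (nat_lit 76) (nat_lit 77267976567)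 (nat_lit 3) (nat_lit 4) (nat_lit 4) (nat_lit 5) (nat_lit 4) (nat_lit 4) (nat_lit 453) (nat_lit 327) (nat_lit 240)) (XT.lf (nat_lit 0) (nat_lit 70893156365) (nat_lit 76) (nat_lit 82444332637) (nat_lit 76) (nat_lit 73222665281) (nat_lit 3) (nat_lit 4) (nat_lit 4) (nat_lit 5) (nat_lit 4) (nat_lit 4) (nat_lit 454) (nat_lit 327) (nat_lit 239))))))))
noncomputable def xc66 : XT := (XT.nd (nat_lit 46020) (nat_lit 0) (nat_lit 2356) (XT.nd (nat_lit 936) (nat_lit 152) (nat_lit 0) (XT.nd (nat_lit 468) (nat_lit 0) (nat_lit 0) (XT.nd (nat_lit 234) (nat_lit 0) (nat_lit 0) (XT.nd (nat_lit 78) (nat_lit 0) (nat_lit 0) (XT.lf (nat_lit 0) (nat_lit 90289741616) (nat_lit 76) (nat_lit 78213698312) (nat_lit 76) (nat_lit 68985950954) (nat_lit 3) (nat_lit 4) (nat_lit 4) (nat_lit 5) (nat_lit 4) (nat_lit 4) (nat_lit 455) (nat_lit 327) (nat_lit 238)) (XT.nd (nat_lit 78) (nat_lit 0) (nat_lit 0) (XT.lf (nat_lit 0) (nat_lit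 110636552287) (nat_lit 76) (nat_lit 73781284006) (nat_lit 76) (nat_lit 64547746171) (nat_lit 3) (nat_lit 4) (nat_lit 4) (nat_lit 5) (nat_lit 4) (nat_lit 4) (nat_lit 456) (nat_lit 327) (nat_lit 237)) (XT.lf (nat_lit 0) (nat_lit 131982033166) (nat_lit 76) (nat_lit 69136536352) (nat_lit 76) (nat_lit 59897483777) (nat_lit 3) (nat_lit 4) (nat_lit 4) (nat_lit 5) (nat_lit 4) (nat_lit 4) (nat_lit 457) (nat_lit 327) (nat_lit 236)))) (XT.nd (nat_lit 78) (nat_lit 0) (nat_lit 0) (XT.lf (nat_lit 0) (nat_lit 154377006828) (nat_lit 76) (nat_lit 64268396428) (nat_lit 76) (nat_lit 55024091719) (nat_lit 3) (nat_lit 4) (nat_lit 4) (nat_lit 5) (nat_lit 4) (nat_lit 4) (nat_lit 458) (nat_lit 327) (nat_lit 235)) (XT.nd (nat_lit 78) (nat_lit 0) (nat_lit 0) (XT.lf (nat_lit 0) (nat_lit 177874794636) (nat_lit 76) (nat_lit 59165273424) (nat_lit 76) (nat_lit 49915966682) (nat_lit 3) (nat_lit 4) (nat_lit 4) (nat_lit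 5) (nat_lit 4) (nat_lit 4) (nat_lit 459) (nat_lit 327) (nat_lit 234)) (XT.lf (nat_lit 0) (nat_lit 202531343707) (nat_lit 76) (nat_lit 53815017047) (nat_lit 76) (nat_lit 44560946465) (nat_lit 3) (nat_lit 4) (nat_lit 4) (nat_lit 5) (nat_lit 4) (nat_lit 4) (nat_lit 460) (nat_lit 327) (nat_lit 233))))) (XT.nd (nat_lit 234) (nat_lit 0) (nat_lit 0) (XT.nd (nat_lit 78) (nat_lit 0) (nat_lit 0) (XT.lf (nat_lit 0) (nat_lit 228405360107) (nat_lit 76) (nat_lit 48204888591) (nat_lit 76) (nat_lit 38946281018) (nat_lit 3) (nat_lit 4) (nat_lit 4) (nat_lit 5) (nat_lit 4) (nat_lit 4) (nat_lit 461) (nat_lit 327) (nat_lit 232)) (XT.nd (nat_lit 78) (nat_lit 0) (nat_lit 0) (XT.lf (nat_lit 0) (nat_lit 255558448640) (nat_lit 76) (nat_lit 42321530608) (nat_lit 76) (nat_lit 33058602092) (nat_lit 3) (nat_lit 4) (nat_lit 4) (nat_lit 5) (nat_lit 4) (nat_lit 4) (nat_lit 462) (nat_lit 327) (nat_lit 231)) (XT.lf (nat_lit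 0) (nat_lit 284055259514) (nat_lit 76) (nat_lit 36150935103) (nat_lit 76) (nat_lit 26883891402) (nat_lit 3) (nat_lit 4) (nat_lit 4) (nat_lit 5) (nat_lit 4) (nat_lit 4) (nat_lit 463) (nat_lit 327) (nat_lit 230)))) (XT.nd (nat_lit 78) (nat_lit 0) (nat_lit 0) (XT.lf (nat_lit 0) (nat_lit 313963642281) (nat_lit 76) (nat_lit 29678410181) (nat_lit 76) (nat_lit 20407447257) (nat_lit 3) (nat_lit 4) (nat_lit 4) (nat_lit 5) (nat_lit 4) (nat_lit 4) (nat_lit 464) (nat_lit 327) (nat_lit 229)) (XT.nd (nat_lit 78) (nat_lit 0) (nat_lit 0) (XT.lf (nat_lit 0) (nat_lit 345354807375) (nat_lit 76) (nat_lit 22888545069) (nat_lit 76) (nat_lit 13613849552) (nat_lit 3) (nat_lit 4) (nat_lit 4) (nat_lit 5) (nat_lit 4) (nat_lit 4) (nat_lit 465) (nat_lit 327) (nat_lit 228)) (XT.lf (nat_lit 0) (nat_lit 378303495666) (nat_lit 76) (nat_lit 15765173421) (nat_lit 76) (nat_lit 6486923053) (nat_lit 3) (nat_lit 4) (nat_lit 4)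 (nat_lit 5) (nat_lit 4) (nat_lit 4) (nat_lit 466) (nat_lit 327) (nat_lit 227)))))) (XT.nd (nat_lit 468) (nat_lit 0) (nat_lit 0) (XT.nd (nat_lit 234) (nat_lit 0) (nat_lit 0) (XT.nd (nat_lit 78) (nat_lit 76) (nat_lit 0) (XT.lf (nat_lit 0) (nat_lit 958605290) (nat_lit 152) (nat_lit 7316495095) (nat_lit 76) (nat_lit 411913316676) (nat_lit 2) (nat_lit 5) (nat_lit 4) (nat_lit 5) (nat_lit 3) (nat_lit 4) (nat_lit 467) (nat_lit 327) (nat_lit 226)) (XT.nd (nat_lit 78) (nat_lit 0) (nat_lit 0) (XT.lf (nat_lit 0) (nat_lit 8521173294) (nat_lit 76) (nat_lit 164696749) (nat_lit 152) (nat_lit 432105323167) (nat_lit 1) (nat_lit 5) (nat_lit 2) (nat_lit 5) (nat_lit 3) (nat_lit 4) (nat_lit 468) (nat_lit 327) (nat_lit 225)) (XT.lf (nat_lit 0) (nat_lit 17050257585) (nat_lit 152) (nat_lit 437156703972) (nat_lit 0) (nat_lit 8204608910) (nat_lit 1) (nat_lit 5) (nat_lit 3) (nat_lit 4) (nat_lit 1) (nat_lit 4) (nat_lit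 469) (nat_lit 327) (nat_lit 224)))) (XT.nd (nat_lit 78) (nat_lit 0) (nat_lit 0) (XT.lf (nat_lit 0) (nat_lit 25830263330) (nat_lit 152) (nat_lit 442301004244) (nat_lit 0) (nat_lit 16981829336) (nat_lit 1) (nat_lit 5) (nat_lit 3) (nat_lit 4) (nat_lit 1) (nat_lit 4) (nat_lit 470) (nat_lit 327) (nat_lit 223)) (XT.nd (nat_lit 78) (nat_lit 0) (nat_lit 0) (XT.lf (nat_lit 0) (nat_lit 35044220674) (nat_lit 152) (nat_lit 447712597690) (nat_lit 0) (nat_lit 26193133996) (nat_lit 1) (nat_lit 5) (nat_lit 3) (nat_lit 4) (nat_lit 1) (nat_lit 4) (nat_lit 471) (nat_lit 327) (nat_lit 222)) (XT.lf (nat_lit 0) (nat_lit 44714067613) (nat_lit 152) (nat_lit 453404369056) (nat_lit 0) (nat_lit 35860454568) (nat_lit 1) (nat_lit 5) (nat_lit 3) (nat_lit 4) (nat_lit 1) (nat_lit 4) (nat_lit 472) (nat_lit 327) (nat_lit 221))))) (XT.nd (nat_lit 234) (nat_lit 0) (nat_lit 0) (XT.nd (nat_lit 78) (nat_lit 0) (nat_lit 0) (XT.lf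 (nat_lit 0) (nat_lit 54862827590) (nat_lit 152) (nat_lit 459389870178) (nat_lit 0) (nat_lit 46006808483) (nat_lit 1) (nat_lit 5) (nat_lit 3) (nat_lit 4) (nat_lit 1) (nat_lit 4) (nat_lit 473) (nat_lit 327) (nat_lit 220)) (XT.nd (nat_lit 78) (nat_lit 0) (nat_lit 0) (XT.lf (nat_lit 0) (nat_lit 65514664321) (nat_lit 152) (nat_lit 465683352250) (nat_lit 0) (nat_lit 56656353724) (nat_lit 1) (nat_lit 5) (nat_lit 3) (nat_lit 4) (nat_lit 1) (nat_lit 4) (nat_lit 474) (nat_lit 327) (nat_lit 219)) (XT.lf (nat_lit 0) (nat_lit 76694939320) (nat_lit 152) (nat_lit 472299799752) (nat_lit 0) (nat_lit 67834446354) (nat_lit 1) (nat_lit 5) (nat_lit 3) (nat_lit 4) (nat_lit 1) (nat_lit 4) (nat_lit 475) (nat_lit 327) (nat_lit 218)))) (XT.nd (nat_lit 156) (nat_lit 0) (nat_lit 0) (XT.nd (nat_lit 78) (nat_lit 0) (nat_lit 0) (XT.lf (nat_lit 0) (nat_lit 88430272291) (nat_lit 152) (nat_lit 479254966132) (nat_lit 0) (nat_lit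 79567700877) (nat_lit 1) (nat_lit 5) (nat_lit 3) (nat_lit 4) (nat_lit 1) (nat_lit 4) (nat_lit 476) (nat_lit 327) (nat_lit 217)) (XT.lf (nat_lit 0) (nat_lit 100748604503) (nat_lit 152) (nat_lit 486565411308) (nat_lit 0) (nat_lit 91884053615) (nat_lit 1) (nat_lit 5) (nat_lit 3) (nat_lit 4) (nat_lit 1) (nat_lit 4) (nat_lit 477) (nat_lit 327) (nat_lit 216))) (XT.nd (nat_lit 78) (nat_lit 0) (nat_lit 0) (XT.lf (nat_lit 0) (nat_lit 113679265317) (nat_lit 152) (nat_lit 494248541104) (nat_lit 0) (nat_lit 104812829216) (nat_lit 1) (nat_lit 5) (nat_lit 3) (nat_lit 4) (nat_lit 1) (nat_lit 4) (nat_lit 478) (nat_lit 327) (nat_lit 215)) (XT.lf (nat_lit 0) (nat_lit 127253042022) (nat_lit 152) (nat_lit 502322648685) (nat_lit 0) (nat_lit 118384810480) (nat_lit 1) (nat_lit 5) (nat_lit 3) (nat_lit 4) (nat_lit 1) (nat_lit 4) (nat_lit 479) (nat_lit 327) (nat_lit 214))))))) (XT.nd (nat_lit 1014) (nat_lit 1444)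 (nat_lit 0) (XT.nd (nat_lit 468) (nat_lit 1140) (nat_lit 0) (XT.nd (nat_lit 234) (nat_lit 836) (nat_lit 0) (XT.nd (nat_lit 78) (nat_lit 304) (nat_lit 0) (XT.lf (nat_lit 0) (nat_lit 84912264) (nat_lit 304) (nat_lit 3922539789) (nat_lit 0) (nat_lit 84912264) (nat_lit 81) (nat_lit 5) (nat_lit 85) (nat_lit 4) (nat_lit 81) (nat_lit 4) (nat_lit 364) (nat_lit 328) (nat_lit 328)) (XT.nd (nat_lit 78) (nat_lit 304) (nat_lit 0) (XT.lf (nat_lit 0) (nat_lit 4062087210) (nat_lit 304) (nat_lit 1338328804) (nat_lit 0) (nat_lit 2937071247) (nat_lit 81) (nat_lit 5) (nat_lit 85) (nat_lit 4) (nat_lit 81) (nat_lit 4) (nat_lit 365) (nat_lit 328) (nat_lit 327)) (XT.lf (nat_lit 0) (nat_lit 5450974983) (nat_lit 304) (nat_lit 2623594906) (nat_lit 304) (nat_lit 427135170) (nat_lit 77) (nat_lit 4) (nat_lit 81) (nat_lit 5) (nat_lit 81) (nat_lit 4) (nat_lit 366) (nat_lit 328) (nat_lit 326)))) (XT.nd (nat_lit 78) (nat_lit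 532) (nat_lit 0) (XT.lf (nat_lit 0) (nat_lit 3428237027) (nat_lit 304) (nat_lit 4882110959) (nat_lit 0) (nat_lit 364539525) (nat_lit 73) (nat_lit 5) (nat_lit 77) (nat_lit 4) (nat_lit 73) (nat_lit 4) (nat_lit 367) (nat_lit 328) (nat_lit 325)) (XT.nd (nat_lit 78) (nat_lit 304) (nat_lit 0) (XT.lf (nat_lit 0) (nat_lit 2021742570) (nat_lit 228) (nat_lit 5412677614) (nat_lit 228) (nat_lit 1423426696) (nat_lit 70) (nat_lit 4) (nat_lit 73) (nat_lit 5) (nat_lit 73) (nat_lit 4) (nat_lit 368) (nat_lit 328) (nat_lit 324)) (XT.lf (nat_lit 0) (nat_lit 133018229) (nat_lit 228) (nat_lit 2307834742) (nat_lit 304) (nat_lit 6610517158) (nat_lit 66) (nat_lit 5) (nat_lit 69) (nat_lit 5) (nat_lit 70) (nat_lit 4) (nat_lit 369) (nat_lit 328) (nat_lit 323))))) (XT.nd (nat_lit 234) (nat_lit 684) (nat_lit 0) (XT.nd (nat_lit 78) (nat_lit 456) (nat_lit 0) (XT.lf (nat_lit 0) (nat_lit 6432510618) (nat_lit 304) (nat_lit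 1827676001) (nat_lit 0) (nat_lit 994191957) (nat_lit 66) (nat_lit 5) (nat_lit 70) (nat_lit 4) (nat_lit 66) (nat_lit 4) (nat_lit 370) (nat_lit 328) (nat_lit 322)) (XT.nd (nat_lit 78) (nat_lit 152) (nat_lit 0) (XT.lf (nat_lit 0) (nat_lit 1099802666) (nat_lit 304) (nat_lit 3945178281) (nat_lit 76) (nat_lit 4422692916) (nat_lit 62) (nat_lit 5) (nat_lit 66) (nat_lit 5) (nat_lit 63) (nat_lit 4) (nat_lit 371) (nat_lit 328) (nat_lit 321)) (XT.lf (nat_lit 0) (nat_lit 3460311603) (nat_lit 152) (nat_lit 1605678967) (nat_lit 228) (nat_lit 4626232469) (nat_lit 60) (nat_lit 5) (nat_lit 62) (nat_lit 5) (nat_lit 63) (nat_lit 4) (nat_lit 372) (nat_lit 328) (nat_lit 320)))) (XT.nd (nat_lit 156) (nat_lit 380) (nat_lit 0) (XT.nd (nat_lit 78) (nat_lit 76) (nat_lit 0) (XT.lf (nat_lit 0) (nat_lit 1235993162) (nat_lit 228) (nat_lit 7973061356) (nat_lit 228) (nat_lit 720079187) (nat_lit 57) (nat_lit 4) (nat_lit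 60) (nat_lit 5) (nat_lit 60) (nat_lit 4) (nat_lit 373) (nat_lit 328) (nat_lit 319)) (XT.lf (nat_lit 0) (nat_lit 3267791486) (nat_lit 304) (nat_lit 1180460604) (nat_lit 76) (nat_lit 5727322984) (nat_lit 56) (nat_lit 5) (nat_lit 60) (nat_lit 5) (nat_lit 57) (nat_lit 4) (nat_lit 374) (nat_lit 328) (nat_lit 318))) (XT.nd (nat_lit 78) (nat_lit 228) (nat_lit 0) (XT.lf (nat_lit 0) (nat_lit 6700356302) (nat_lit 152) (nat_lit 702770253) (nat_lit 228) (nat_lit 3032062088) (nat_lit 54) (nat_lit 5) (nat_lit 56) (nat_lit 5) (nat_lit 57) (nat_lit 4) (nat_lit 375) (nat_lit 328) (nat_lit 317)) (XT.lf (nat_lit 0) (nat_lit 1009821095) (nat_lit 228) (nat_lit 6543450228) (nat_lit 76) (nat_lit 3153471542) (nat_lit 51) (nat_lit 5) (nat_lit 54) (nat_lit 5) (nat_lit 52) (nat_lit 4) (nat_lit 376) (nat_lit 328) (nat_lit 316)))))) (XT.nd (nat_lit 468) (nat_lit 684) (nat_lit 0) (XT.nd (nat_lit 234) (nat_lit 380) (nat_lit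 0) (XT.nd (nat_lit 78) (nat_lit 228) (nat_lit 0) (XT.lf (nat_lit 0) (nat_lit 1365751064) (nat_lit 152) (nat_lit 3753623234) (nat_lit 228) (nat_lit 5871688088) (nat_lit 49) (nat_lit 5) (nat_lit 51) (nat_lit 5) (nat_lit 52) (nat_lit 4) (nat_lit 377) (nat_lit 328) (nat_lit 315)) (XT.nd (nat_lit 78) (nat_lit 228) (nat_lit 0) (XT.lf (nat_lit 0) (nat_lit 9422674234) (nat_lit 228) (nat_lit 1606601220) (nat_lit 0) (nat_lit 260953296) (nat_lit 49) (nat_lit 5) (nat_lit 52) (nat_lit 4) (nat_lit 49) (nat_lit 4) (nat_lit 378) (nat_lit 328) (nat_lit 314)) (XT.lf (nat_lit 0) (nat_lit 2307875777) (nat_lit 228) (nat_lit 4875782612) (nat_lit 76) (nat_lit 4416616965) (nat_lit 46) (nat_lit 5) (nat_lit 49) (nat_lit 5) (nat_lit 47) (nat_lit 4) (nat_lit 379) (nat_lit 328) (nat_lit 313)))) (XT.nd (nat_lit 78) (nat_lit 228) (nat_lit 0) (XT.lf (nat_lit 0) (nat_lit 3478569409) (nat_lit 152) (nat_lit 3111432566) (nat_lit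 228) (nat_lit 5336295493) (nat_lit 44) (nat_lit 5) (nat_lit 46) (nat_lit 5) (nat_lit 47) (nat_lit 4) (nat_lit 380) (nat_lit 328) (nat_lit 312)) (XT.nd (nat_lit 78) (nat_lit 228) (nat_lit 0) (XT.lf (nat_lit 0) (nat_lit 11068387921) (nat_lit 228) (nat_lit 70631286) (nat_lit 0) (nat_lit 1130530273) (nat_lit 44) (nat_lit 5) (nat_lit 47) (nat_lit 4) (nat_lit 44) (nat_lit 4) (nat_lit 381) (nat_lit 328) (nat_lit 311)) (XT.lf (nat_lit 0) (nat_lit 3114878944) (nat_lit 228) (nat_lit 3918628727) (nat_lit 76) (nat_lit 5590304073) (nat_lit 41) (nat_lit 5) (nat_lit 44) (nat_lit 5) (nat_lit 42) (nat_lit 4) (nat_lit 382) (nat_lit 328) (nat_lit 310))))) (XT.nd (nat_lit 234) (nat_lit 380) (nat_lit 0) (XT.nd (nat_lit 78) (nat_lit 228) (nat_lit 0) (XT.lf (nat_lit 0) (nat_lit 4865214327) (nat_lit 76) (nat_lit 2704627740) (nat_lit 152) (nat_lit 5426817618) (nat_lit 40) (nat_lit 5) (nat_lit 41) (nat_lit 5) (nat_lit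 42) (nat_lit 4) (nat_lit 383) (nat_lit 328) (nat_lit 309)) (XT.nd (nat_lit 78) (nat_lit 76) (nat_lit 0) (XT.lf (nat_lit 0) (nat_lit 631421818) (nat_lit 152) (nat_lit 11609582004) (nat_lit 152) (nat_lit 1147503676) (nat_lit 38) (nat_lit 4) (nat_lit 40) (nat_lit 5) (nat_lit 40) (nat_lit 4) (nat_lit 384) (nat_lit 328) (nat_lit 308)) (XT.lf (nat_lit 0) (nat_lit 3310876094) (nat_lit 228) (nat_lit 3976115969) (nat_lit 76) (nat_lit 6506761708) (nat_lit 37) (nat_lit 5) (nat_lit 40) (nat_lit 5) (nat_lit 38) (nat_lit 4) (nat_lit 385) (nat_lit 328) (nat_lit 307)))) (XT.nd (nat_lit 156) (nat_lit 152) (nat_lit 0) (XT.nd (nat_lit 78) (nat_lit 152) (nat_lit 0) (XT.lf (nat_lit 0) (nat_lit 5202105899) (nat_lit 76) (nat_lit 2725943990) (nat_lit 152) (nat_lit 6291575870) (nat_lit 36) (nat_lit 5) (nat_lit 37) (nat_lit 5) (nat_lit 38) (nat_lit 4) (nat_lit 386) (nat_lit 328) (nat_lit 306)) (XT.lf (nat_lit 0)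 (nat_lit 93114856) (nat_lit 152) (nat_lit 12679190193) (nat_lit 152) (nat_lit 1894699845) (nat_lit 34) (nat_lit 4) (nat_lit 36) (nat_lit 5) (nat_lit 36) (nat_lit 4) (nat_lit 387) (nat_lit 328) (nat_lit 305))) (XT.nd (nat_lit 78) (nat_lit 76) (nat_lit 0) (XT.lf (nat_lit 0) (nat_lit 2729314875) (nat_lit 228) (nat_lit 5437302780) (nat_lit 76) (nat_lit 6963311969) (nat_lit 33) (nat_lit 5) (nat_lit 36) (nat_lit 5) (nat_lit 34) (nat_lit 4) (nat_lit 388) (nat_lit 328) (nat_lit 304)) (XT.lf (nat_lit 0) (nat_lit 4073678900) (nat_lit 76) (nat_lit 3410311325) (nat_lit 152) (nat_lit 8132321941) (nat_lit 32) (nat_lit 5) (nat_lit 33) (nat_lit 5) (nat_lit 34) (nat_lit 4) (nat_lit 389) (nat_lit 328) (nat_lit 303))))))))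
noncomputable def xc67 : XT := (XT.nd (nat_lit 1950) (nat_lit 532) (nat_lit 0) (XT.nd (nat_lit 936) (nat_lit 684) (nat_lit 0) (XT.nd (nat_lit 468) (nat_lit 304) (nat_lit 0) (XT.nd (nat_lit 234) (nat_lit 152) (nat_lit 0) (XT.nd (nat_lit 78) (nat_lit 304) (nat_lit 0) (XT.lf (nat_lit 0) (nat_lit 12494990349) (nat_lit 152) (nat_lit 2082181851) (nat_lit 0) (nat_lit 1548932388) (nat_lit 32) (nat_lit 5) (nat_lit 34) (nat_lit 4) (nat_lit 32) (nat_lit 4) (nat_lit 390) (nat_lit 328) (nat_lit 302)) (XT.nd (nat_lit 78) (nat_lit 76) (nat_lit 0) (XT.lf (nat_lit 0) (nat_lit 1145312582) (nat_lit 228) (nat_lit 8802121631) (nat_lit 76) (nat_lit 6708855388) (nat_lit 29) (nat_lit 5) (nat_lit 32) (nat_lit 5) (nat_lit 30) (nat_lit 4) (nat_lit 391) (nat_lit 328) (nat_lit 301)) (XT.lf (nat_lit 0) (nat_lit 944355493) (nat_lit 76) (nat_lit 5050088539) (nat_lit 152) (nat_lit 11217785423) (nat_lit 28) (nat_lit 5) (nat_lit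 29) (nat_lit 5) (nat_lit 30) (nat_lit 4) (nat_lit 392) (nat_lit 328) (nat_lit 300)))) (XT.nd (nat_lit 78) (nat_lit 152) (nat_lit 0) (XT.lf (nat_lit 0) (nat_lit 11144916864) (nat_lit 152) (nat_lit 6483440737) (nat_lit 0) (nat_lit 164681163) (nat_lit 28) (nat_lit 5) (nat_lit 30) (nat_lit 4) (nat_lit 28) (nat_lit 4) (nat_lit 393) (nat_lit 328) (nat_lit 299)) (XT.nd (nat_lit 78) (nat_lit 76) (nat_lit 0) (XT.lf (nat_lit 0) (nat_lit 3658037233) (nat_lit 76) (nat_lit 12945190519) (nat_lit 76) (nat_lit 1797160975) (nat_lit 27) (nat_lit 4) (nat_lit 28) (nat_lit 5) (nat_lit 28) (nat_lit 4) (nat_lit 394) (nat_lit 328) (nat_lit 298)) (XT.lf (nat_lit 0) (nat_lit 3213111957) (nat_lit 152) (nat_lit 4720953690) (nat_lit 76) (nat_lit 11100368324) (nat_lit 26) (nat_lit 5) (nat_lit 28) (nat_lit 5) (nat_lit 27) (nat_lit 4) (nat_lit 395) (nat_lit 328) (nat_lit 297))))) (XT.nd (nat_lit 234) (nat_lit 152) (nat_lit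 0) (XT.nd (nat_lit 78) (nat_lit 76) (nat_lit 0) (XT.lf (nat_lit 0) (nat_lit 5798840207) (nat_lit 76) (nat_lit 2620119486) (nat_lit 152) (nat_lit 11279489568) (nat_lit 25) (nat_lit 5) (nat_lit 26) (nat_lit 5) (nat_lit 27) (nat_lit 4) (nat_lit 396) (nat_lit 328) (nat_lit 296)) (XT.nd (nat_lit 78) (nat_lit 76) (nat_lit 0) (XT.lf (nat_lit 0) (nat_lit 13927965519) (nat_lit 152) (nat_lit 3589960074) (nat_lit 0) (nat_lit 2875609524) (nat_lit 25) (nat_lit 5) (nat_lit 27) (nat_lit 4) (nat_lit 25) (nat_lit 4) (nat_lit 397) (nat_lit 328) (nat_lit 295)) (XT.lf (nat_lit 0) (nat_lit 7273295309) (nat_lit 76) (nat_lit 12515061269) (nat_lit 76) (nat_lit 1331234406) (nat_lit 24) (nat_lit 4) (nat_lit 25) (nat_lit 5) (nat_lit 25) (nat_lit 4) (nat_lit 398) (nat_lit 328) (nat_lit 294)))) (XT.nd (nat_lit 78) (nat_lit 76) (nat_lit 0) (XT.lf (nat_lit 0) (nat_lit 3911296771) (nat_lit 152) (nat_lit 3290878829) (nat_lit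 76) (nat_lit 14677545156) (nat_lit 23) (nat_lit 5) (nat_lit 25) (nat_lit 5) (nat_lit 24) (nat_lit 4) (nat_lit 399) (nat_lit 328) (nat_lit 293)) (XT.nd (nat_lit 78) (nat_lit 0) (nat_lit 0) (XT.lf (nat_lit 0) (nat_lit 7877927236) (nat_lit 76) (nat_lit 1539737348) (nat_lit 152) (nat_lit 13256789611) (nat_lit 22) (nat_lit 5) (nat_lit 23) (nat_lit 5) (nat_lit 24) (nat_lit 4) (nat_lit 400) (nat_lit 328) (nat_lit 292)) (XT.lf (nat_lit 0) (nat_lit 15248608646) (nat_lit 152) (nat_lit 4001496890) (nat_lit 0) (nat_lit 4256366131) (nat_lit 22) (nat_lit 5) (nat_lit 24) (nat_lit 4) (nat_lit 22) (nat_lit 4) (nat_lit 401) (nat_lit 328) (nat_lit 291)))))) (XT.nd (nat_lit 468) (nat_lit 380) (nat_lit 0) (XT.nd (nat_lit 234) (nat_lit 76) (nat_lit 0) (XT.nd (nat_lit 78) (nat_lit 152) (nat_lit 0) (XT.lf (nat_lit 0) (nat_lit 7406936243) (nat_lit 76) (nat_lit 14032500048) (nat_lit 76) (nat_lit 2937246669) (nat_lit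 21) (nat_lit 4) (nat_lit 22) (nat_lit 5) (nat_lit 22) (nat_lit 4) (nat_lit 402) (nat_lit 328) (nat_lit 290)) (XT.nd (nat_lit 78) (nat_lit 76) (nat_lit 0) (XT.lf (nat_lit 0) (nat_lit 2561088809) (nat_lit 152) (nat_lit 5943126903) (nat_lit 76) (nat_lit 16784305453) (nat_lit 20) (nat_lit 5) (nat_lit 22) (nat_lit 5) (nat_lit 21) (nat_lit 4) (nat_lit 403) (nat_lit 328) (nat_lit 289)) (XT.lf (nat_lit 0) (nat_lit 5635275455) (nat_lit 76) (nat_lit 2619392012) (nat_lit 152) (nat_lit 17987932813) (nat_lit 19) (nat_lit 5) (nat_lit 20) (nat_lit 5) (nat_lit 21) (nat_lit 4) (nat_lit 404) (nat_lit 328) (nat_lit 288)))) (XT.nd (nat_lit 78) (nat_lit 76) (nat_lit 0) (XT.lf (nat_lit 0) (nat_lit 14322147891) (nat_lit 152) (nat_lit 9429708282) (nat_lit 0) (nat_lit 3488074071) (nat_lit 19) (nat_lit 5) (nat_lit 21) (nat_lit 4) (nat_lit 19) (nat_lit 4) (nat_lit 405) (nat_lit 328) (nat_lit 287)) (XT.nd (nat_lit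 78) (nat_lit 0) (nat_lit 0) (XT.lf (nat_lit 0) (nat_lit 2208770465) (nat_lit 76) (nat_lit 18496273666) (nat_lit 76) (nat_lit 7581488138) (nat_lit 18) (nat_lit 4) (nat_lit 19) (nat_lit 5) (nat_lit 19) (nat_lit 4) (nat_lit 406) (nat_lit 328) (nat_lit 286)) (XT.lf (nat_lit 0) (nat_lit 14632807693) (nat_lit 76) (nat_lit 12869771553) (nat_lit 76) (nat_lit 1878117733) (nat_lit 18) (nat_lit 4) (nat_lit 19) (nat_lit 5) (nat_lit 19) (nat_lit 4) (nat_lit 407) (nat_lit 328) (nat_lit 285))))) (XT.nd (nat_lit 234) (nat_lit 228) (nat_lit 0) (XT.nd (nat_lit 78) (nat_lit 76) (nat_lit 0) (XT.lf (nat_lit 0) (nat_lit 3916707600) (nat_lit 152) (nat_lit 3035611136) (nat_lit 76) (nat_lit 23577156761) (nat_lit 17) (nat_lit 5) (nat_lit 19) (nat_lit 5) (nat_lit 18) (nat_lit 4) (nat_lit 408) (nat_lit 328) (nat_lit 284)) (XT.nd (nat_lit 78) (nat_lit 0) (nat_lit 0) (XT.lf (nat_lit 0) (nat_lit 9418748205) (nat_lit 76)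 (nat_lit 607267273) (nat_lit 152) (nat_lit 21703751402) (nat_lit 16) (nat_lit 5) (nat_lit 17) (nat_lit 5) (nat_lit 18) (nat_lit 4) (nat_lit 409) (nat_lit 328) (nat_lit 283)) (XT.lf (nat_lit 0) (nat_lit 16528600298) (nat_lit 152) (nat_lit 10596092649) (nat_lit 0) (nat_lit 5860995301) (nat_lit 16) (nat_lit 5) (nat_lit 18) (nat_lit 4) (nat_lit 16) (nat_lit 4) (nat_lit 410) (nat_lit 328) (nat_lit 282)))) (XT.nd (nat_lit 156) (nat_lit 152) (nat_lit 0) (XT.nd (nat_lit 78) (nat_lit 0) (nat_lit 0) (XT.lf (nat_lit 0) (nat_lit 1638075502) (nat_lit 76) (nat_lit 21697600563) (nat_lit 76) (nat_lit 10969767247) (nat_lit 15) (nat_lit 4) (nat_lit 16) (nat_lit 5) (nat_lit 16) (nat_lit 4) (nat_lit 411) (nat_lit 328) (nat_lit 281)) (XT.lf (nat_lit 0) (nat_lit 14744604555) (nat_lit 76) (nat_lit 15862783260) (nat_lit 76) (nat_lit 5077589641) (nat_lit 15) (nat_lit 4) (nat_lit 16) (nat_lit 5) (nat_lit 16) (nat_lit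 4) (nat_lit 412) (nat_lit 328) (nat_lit 280))) (XT.nd (nat_lit 78) (nat_lit 76) (nat_lit 0) (XT.lf (nat_lit 0) (nat_lit 1020288557) (nat_lit 152) (nat_lit 8748230936) (nat_lit 76) (nat_lit 27366778216) (nat_lit 14) (nat_lit 5) (nat_lit 16) (nat_lit 5) (nat_lit 15) (nat_lit 4) (nat_lit 413) (nat_lit 328) (nat_lit 279)) (XT.lf (nat_lit 0) (nat_lit 3999344852) (nat_lit 76) (nat_lit 3264652620) (nat_lit 152) (nat_lit 31389400388) (nat_lit 13) (nat_lit 5) (nat_lit 14) (nat_lit 5) (nat_lit 15) (nat_lit 4) (nat_lit 414) (nat_lit 328) (nat_lit 278))))))) (XT.nd (nat_lit 1014) (nat_lit 228) (nat_lit 0) (XT.nd (nat_lit 468) (nat_lit 152) (nat_lit 0) (XT.nd (nat_lit 234) (nat_lit 76) (nat_lit 0) (XT.nd (nat_lit 78) (nat_lit 76) (nat_lit 0) (XT.lf (nat_lit 0) (nat_lit 13975425215) (nat_lit 152) (nat_lit 22709161300) (nat_lit 0) (nat_lit 3555044307) (nat_lit 13) (nat_lit 5) (nat_lit 15) (nat_lit 4) (nat_lit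 13) (nat_lit 4) (nat_lit 415) (nat_lit 328) (nat_lit 277)) (XT.nd (nat_lit 78) (nat_lit 76) (nat_lit 0) (XT.lf (nat_lit 0) (nat_lit 21027656277) (nat_lit 152) (nat_lit 10314929751) (nat_lit 0) (nat_lit 10562332070) (nat_lit 13) (nat_lit 5) (nat_lit 15) (nat_lit 4) (nat_lit 13) (nat_lit 4) (nat_lit 416) (nat_lit 328) (nat_lit 276)) (XT.lf (nat_lit 0) (nat_lit 2695391450) (nat_lit 76) (nat_lit 25733202471) (nat_lit 76) (nat_lit 15225075123) (nat_lit 12) (nat_lit 4) (nat_lit 13) (nat_lit 5) (nat_lit 13) (nat_lit 4) (nat_lit 417) (nat_lit 328) (nat_lit 275)))) (XT.nd (nat_lit 78) (nat_lit 76) (nat_lit 0) (XT.lf (nat_lit 0) (nat_lit 16625898355) (nat_lit 76) (nat_lit 19703189901) (nat_lit 76) (nat_lit 9154297655) (nat_lit 12) (nat_lit 4) (nat_lit 13) (nat_lit 5) (nat_lit 13) (nat_lit 4) (nat_lit 418) (nat_lit 328) (nat_lit 274)) (XT.nd (nat_lit 78) (nat_lit 76) (nat_lit 0) (XT.lf (nat_lit 0)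 (nat_lit 31168700676) (nat_lit 76) (nat_lit 13412879470) (nat_lit 76) (nat_lit 2825163514) (nat_lit 12) (nat_lit 4) (nat_lit 13) (nat_lit 5) (nat_lit 13) (nat_lit 4) (nat_lit 419) (nat_lit 328) (nat_lit 273)) (XT.lf (nat_lit 0) (nat_lit 3656496384) (nat_lit 152) (nat_lit 3128873331) (nat_lit 76) (nat_lit 42640003213) (nat_lit 11) (nat_lit 5) (nat_lit 13) (nat_lit 5) (nat_lit 12) (nat_lit 4) (nat_lit 420) (nat_lit 328) (nat_lit 272))))) (XT.nd (nat_lit 234) (nat_lit 76) (nat_lit 0) (XT.nd (nat_lit 78) (nat_lit 0) (nat_lit 0) (XT.lf (nat_lit 0) (nat_lit 10502823067) (nat_lit 152) (nat_lit 40682489244) (nat_lit 0) (nat_lit 350532429) (nat_lit 10) (nat_lit 5) (nat_lit 12) (nat_lit 4) (nat_lit 10) (nat_lit 4) (nat_lit 421) (nat_lit 328) (nat_lit 271)) (XT.nd (nat_lit 78) (nat_lit 0) (nat_lit 0) (XT.lf (nat_lit 0) (nat_lit 17816999414) (nat_lit 152) (nat_lit 28295798679) (nat_lit 0) (nat_lit 7632768412)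 (nat_lit 10) (nat_lit 5) (nat_lit 12) (nat_lit 4) (nat_lit 10) (nat_lit 4) (nat_lit 422) (nat_lit 328) (nat_lit 270)) (XT.lf (nat_lit 0) (nat_lit 25459208487) (nat_lit 152) (nat_lit 15363894469) (nat_lit 0) (nat_lit 15244558091) (nat_lit 10) (nat_lit 5) (nat_lit 12) (nat_lit 4) (nat_lit 10) (nat_lit 4) (nat_lit 423) (nat_lit 328) (nat_lit 269)))) (XT.nd (nat_lit 156) (nat_lit 0) (nat_lit 0) (XT.nd (nat_lit 78) (nat_lit 76) (nat_lit 0) (XT.lf (nat_lit 0) (nat_lit 33447646021) (nat_lit 152) (nat_lit 1855986366) (nat_lit 0) (nat_lit 23204024775) (nat_lit 10) (nat_lit 5) (nat_lit 12) (nat_lit 4) (nat_lit 10) (nat_lit 4) (nat_lit 424) (nat_lit 328) (nat_lit 268)) (XT.lf (nat_lit 0) (nat_lit 12665461170) (nat_lit 76) (nat_lit 29333614281) (nat_lit 76) (nat_lit 19062401748) (nat_lit 9) (nat_lit 4) (nat_lit 10) (nat_lit 5) (nat_lit 10) (nat_lit 4) (nat_lit 425) (nat_lit 328) (nat_lit 267))) (XT.nd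 (nat_lit 78) (nat_lit 0) (nat_lit 0) (XT.lf (nat_lit 0) (nat_lit 27911271265) (nat_lit 76) (nat_lit 23064658373) (nat_lit 76) (nat_lit 12767168424) (nat_lit 9) (nat_lit 4) (nat_lit 10) (nat_lit 5) (nat_lit 10) (nat_lit 4) (nat_lit 426) (nat_lit 328) (nat_lit 266)) (XT.lf (nat_lit 0) (nat_lit 43856376176) (nat_lit 76) (nat_lit 16513270608) (nat_lit 76) (nat_lit 6190754548) (nat_lit 9) (nat_lit 4) (nat_lit 10) (nat_lit 5) (nat_lit 10) (nat_lit 4) (nat_lit 427) (nat_lit 328) (nat_lit 265)))))) (XT.nd (nat_lit 468) (nat_lit 76) (nat_lit 0) (XT.nd (nat_lit 234) (nat_lit 0) (nat_lit 0) (XT.nd (nat_lit 78) (nat_lit 76) (nat_lit 0) (XT.lf (nat_lit 0) (nat_lit 660653810) (nat_lit 152) (nat_lit 8992010138) (nat_lit 76) (nat_lit 59866898135) (nat_lit 8) (nat_lit 5) (nat_lit 10) (nat_lit 5) (nat_lit 9) (nat_lit 4) (nat_lit 428) (nat_lit 328) (nat_lit 264)) (XT.nd (nat_lit 78) (nat_lit 0) (nat_lit 0)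 (XT.lf (nat_lit 0) (nat_lit 5419458490) (nat_lit 76) (nat_lit 2282252905) (nat_lit 152) (nat_lit 64917140700) (nat_lit 7) (nat_lit 5) (nat_lit 8) (nat_lit 5) (nat_lit 9) (nat_lit 4) (nat_lit 429) (nat_lit 328) (nat_lit 263)) (XT.lf (nat_lit 0) (nat_lit 15305383151) (nat_lit 152) (nat_lit 55147688826) (nat_lit 0) (nat_lit 5409508518) (nat_lit 7) (nat_lit 5) (nat_lit 9) (nat_lit 4) (nat_lit 7) (nat_lit 4) (nat_lit 430) (nat_lit 328) (nat_lit 262)))) (XT.nd (nat_lit 78) (nat_lit 0) (nat_lit 0) (XT.lf (nat_lit 0) (nat_lit 23298639852) (nat_lit 152) (nat_lit 42586230649) (nat_lit 0) (nat_lit 13383156606) (nat_lit 7) (nat_lit 5) (nat_lit 9) (nat_lit 4) (nat_lit 7) (nat_lit 4) (nat_lit 431) (nat_lit 328) (nat_lit 261)) (XT.nd (nat_lit 78) (nat_lit 0) (nat_lit 0) (XT.lf (nat_lit 0) (nat_lit 31664880696) (nat_lit 152) (nat_lit 29449478475) (nat_lit 0) (nat_lit 21730722581) (nat_lit 7) (nat_lit 5)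 (nat_lit 9) (nat_lit 4) (nat_lit 7) (nat_lit 4) (nat_lit 432) (nat_lit 328) (nat_lit 260)) (XT.lf (nat_lit 0) (nat_lit 40424025306) (nat_lit 152) (nat_lit 15706154325) (nat_lit 0) (nat_lit 30472081601) (nat_lit 7) (nat_lit 5) (nat_lit 9) (nat_lit 4) (nat_lit 7) (nat_lit 4) (nat_lit 433) (nat_lit 328) (nat_lit 259))))) (XT.nd (nat_lit 234) (nat_lit 0) (nat_lit 0) (XT.nd (nat_lit 78) (nat_lit 76) (nat_lit 0) (XT.lf (nat_lit 0) (nat_lit 49596928787) (nat_lit 152) (nat_lit 1323535997) (nat_lit 0) (nat_lit 39628046426) (nat_lit 7) (nat_lit 5) (nat_lit 9) (nat_lit 4) (nat_lit 7) (nat_lit 4) (nat_lit 434) (nat_lit 328) (nat_lit 258)) (XT.nd (nat_lit 78) (nat_lit 0) (nat_lit 0) (XT.lf (nat_lit 0) (nat_lit 14186683299) (nat_lit 76) (nat_lit 45240241970) (nat_lit 76) (nat_lit 35255227555) (nat_lit 6) (nat_lit 4) (nat_lit 7) (nat_lit 5) (nat_lit 7) (nat_lit 4) (nat_lit 435) (nat_lit 328) (nat_lit 257))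 (XT.lf (nat_lit 0) (nat_lit 30473506695) (nat_lit 76) (nat_lit 39274680635) (nat_lit 76) (nat_lit 29274302359) (nat_lit 6) (nat_lit 4) (nat_lit 7) (nat_lit 5) (nat_lit 7) (nat_lit 4) (nat_lit 436) (nat_lit 328) (nat_lit 256)))) (XT.nd (nat_lit 156) (nat_lit 0) (nat_lit 0) (XT.nd (nat_lit 78) (nat_lit 0) (nat_lit 0) (XT.lf (nat_lit 0) (nat_lit 47531950262) (nat_lit 76) (nat_lit 33031991784) (nat_lit 76) (nat_lit 23016981259) (nat_lit 6) (nat_lit 4) (nat_lit 7) (nat_lit 5) (nat_lit 7) (nat_lit 4) (nat_lit 437) (nat_lit 328) (nat_lit 255)) (XT.lf (nat_lit 0) (nat_lit 65402629343) (nat_lit 76) (nat_lit 26497311872) (nat_lit 76) (nat_lit 16468365873) (nat_lit 6) (nat_lit 4) (nat_lit 7) (nat_lit 5) (nat_lit 7) (nat_lit 4) (nat_lit 438) (nat_lit 328) (nat_lit 254))) (XT.nd (nat_lit 78) (nat_lit 0) (nat_lit 0) (XT.lf (nat_lit 0) (nat_lit 84128093173) (nat_lit 76) (nat_lit 19655082139) (nat_lit 76)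 (nat_lit 9612864259) (nat_lit 6) (nat_lit 4) (nat_lit 7) (nat_lit 5) (nat_lit 7) (nat_lit 4) (nat_lit 439) (nat_lit 328) (nat_lit 253)) (XT.lf (nat_lit 0) (nat_lit 103752926189) (nat_lit 76) (nat_lit 12489011560) (nat_lit 76) (nat_lit 2434153793) (nat_lit 6) (nat_lit 4) (nat_lit 7) (nat_lit 5) (nat_lit 7) (nat_lit 4) (nat_lit 440) (nat_lit 328) (nat_lit 252))))))))
noncomputable def xc68 : XT := (XT.nd (nat_lit 1950) (nat_lit 152) (nat_lit 0) (XT.nd (nat_lit 936) (nat_lit 0) (nat_lit 0) (XT.nd (nat_lit 468) (nat_lit 76) (nat_lit 0) (XT.nd (nat_lit 234) (nat_lit 0) (nat_lit 0) (XT.nd (nat_lit 78) (nat_lit 0) (nat_lit 0) (XT.lf (nat_lit 0) (nat_lit 24205474) (nat_lit 76) (nat_lit 4898282929) (nat_lit 152) (nat_lit 119294557816) (nat_lit 4) (nat_lit 5) (nat_lit 5) (nat_lit 5) (nat_lit 6) (nat_lit 4) (nat_lit 441) (nat_lit 328) (nat_lit 251)) (XT.nd (nat_lit 78) (nat_lit 0) (nat_lit 0) (XT.lf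 (nat_lit 0) (nat_lit 12851995118) (nat_lit 152) (nat_lit 113913160998) (nat_lit 0) (nat_lit 3253556543) (nat_lit 4) (nat_lit 5) (nat_lit 6) (nat_lit 4) (nat_lit 4) (nat_lit 4) (nat_lit 442) (nat_lit 328) (nat_lit 250)) (XT.lf (nat_lit 0) (nat_lit 21241133581) (nat_lit 152) (nat_lit 103233875865) (nat_lit 0) (nat_lit 11632296141) (nat_lit 4) (nat_lit 5) (nat_lit 6) (nat_lit 4) (nat_lit 4) (nat_lit 4) (nat_lit 443) (nat_lit 328) (nat_lit 249)))) (XT.nd (nat_lit 78) (nat_lit 0) (nat_lit 0) (XT.lf (nat_lit 0) (nat_lit 30033402008) (nat_lit 152) (nat_lit 92053082552) (nat_lit 0) (nat_lit 20414660886) (nat_lit 4) (nat_lit 5) (nat_lit 6) (nat_lit 4) (nat_lit 4) (nat_lit 4) (nat_lit 444) (nat_lit 328) (nat_lit 248)) (XT.nd (nat_lit 78) (nat_lit 0) (nat_lit 0) (XT.lf (nat_lit 0) (nat_lit 39249734372) (nat_lit 152) (nat_lit 80344160124) (nat_lit 0) (nat_lit 29621561173) (nat_lit 4) (nat_lit 5) (nat_lit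 6) (nat_lit 4) (nat_lit 4) (nat_lit 4) (nat_lit 445) (nat_lit 328) (nat_lit 247)) (XT.lf (nat_lit 0) (nat_lit 48912074322) (nat_lit 152) (nat_lit 68079230193) (nat_lit 0) (nat_lit 39274918191) (nat_lit 4) (nat_lit 5) (nat_lit 6) (nat_lit 4) (nat_lit 4) (nat_lit 4) (nat_lit 446) (nat_lit 328) (nat_lit 246))))) (XT.nd (nat_lit 234) (nat_lit 76) (nat_lit 0) (XT.nd (nat_lit 78) (nat_lit 0) (nat_lit 0) (XT.lf (nat_lit 0) (nat_lit 59043427427) (nat_lit 152) (nat_lit 55229090546) (nat_lit 0) (nat_lit 49397716124) (nat_lit 4) (nat_lit 5) (nat_lit 6) (nat_lit 4) (nat_lit 4) (nat_lit 4) (nat_lit 447) (nat_lit 328) (nat_lit 245)) (XT.nd (nat_lit 78) (nat_lit 0) (nat_lit 0) (XT.lf (nat_lit 0) (nat_lit 69667915959) (nat_lit 152) (nat_lit 41763145612) (nat_lit 0) (nat_lit 60014056872) (nat_lit 4) (nat_lit 5) (nat_lit 6) (nat_lit 4) (nat_lit 4) (nat_lit 4) (nat_lit 448) (nat_lit 328) (nat_lit 244)) (XT.lf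 (nat_lit 0) (nat_lit 80810836317) (nat_lit 152) (nat_lit 27649333617) (nat_lit 0) (nat_lit 71149217436) (nat_lit 4) (nat_lit 5) (nat_lit 6) (nat_lit 4) (nat_lit 4) (nat_lit 4) (nat_lit 449) (nat_lit 328) (nat_lit 243)))) (XT.nd (nat_lit 78) (nat_lit 76) (nat_lit 0) (XT.lf (nat_lit 0) (nat_lit 92498719265) (nat_lit 152) (nat_lit 12854050247) (nat_lit 0) (nat_lit 82829710105) (nat_lit 4) (nat_lit 5) (nat_lit 6) (nat_lit 4) (nat_lit 4) (nat_lit 4) (nat_lit 450) (nat_lit 328) (nat_lit 242)) (XT.nd (nat_lit 78) (nat_lit 0) (nat_lit 0) (XT.lf (nat_lit 0) (nat_lit 2745814577) (nat_lit 76) (nat_lit 102056448380) (nat_lit 76) (nat_lit 92380400857) (nat_lit 3) (nat_lit 4) (nat_lit 4) (nat_lit 5) (nat_lit 4) (nat_lit 4) (nat_lit 451) (nat_lit 328) (nat_lit 241)) (XT.lf (nat_lit 0) (nat_lit 19549242345) (nat_lit 76) (nat_lit 98378026004) (nat_lit 76) (nat_lit 88695275281) (nat_lit 3) (nat_lit 4) (nat_lit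 4) (nat_lit 5) (nat_lit 4) (nat_lit 4) (nat_lit 452) (nat_lit 328) (nat_lit 240)))))) (XT.nd (nat_lit 468) (nat_lit 0) (nat_lit 0) (XT.nd (nat_lit 234) (nat_lit 0) (nat_lit 0) (XT.nd (nat_lit 78) (nat_lit 0) (nat_lit 0) (XT.lf (nat_lit 0) (nat_lit 37171228266) (nat_lit 76) (nat_lit 94526433799) (nat_lit 76) (nat_lit 84837299074) (nat_lit 3) (nat_lit 4) (nat_lit 4) (nat_lit 5) (nat_lit 4) (nat_lit 4) (nat_lit 453) (nat_lit 328) (nat_lit 239)) (XT.nd (nat_lit 78) (nat_lit 0) (nat_lit 0) (XT.lf (nat_lit 0) (nat_lit 55653729449) (nat_lit 76) (nat_lit 90492501307) (nat_lit 76) (nat_lit 80797286580) (nat_lit 3) (nat_lit 4) (nat_lit 4) (nat_lit 5) (nat_lit 4) (nat_lit 4) (nat_lit 454) (nat_lit 328) (nat_lit 238)) (XT.lf (nat_lit 0) (nat_lit 75040751850) (nat_lit 76) (nat_lit 86266623926) (nat_lit 76) (nat_lit 76565618721) (nat_lit 3) (nat_lit 4) (nat_lit 4) (nat_lit 5) (nat_lit 4) (nat_lit 4) (nat_lit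 455) (nat_lit 328) (nat_lit 237)))) (XT.nd (nat_lit 78) (nat_lit 0) (nat_lit 0) (XT.lf (nat_lit 0) (nat_lit 95378455045) (nat_lit 76) (nat_lit 81838740043) (nat_lit 76) (nat_lit 72132220098) (nat_lit 3) (nat_lit 4) (nat_lit 4) (nat_lit 5) (nat_lit 4) (nat_lit 4) (nat_lit 456) (nat_lit 328) (nat_lit 236)) (XT.nd (nat_lit 78) (nat_lit 0) (nat_lit 0) (XT.lf (nat_lit 0) (nat_lit 116715262138) (nat_lit 76) (nat_lit 77198307078) (nat_lit 76) (nat_lit 67486534999) (nat_lit 3) (nat_lit 4) (nat_lit 4) (nat_lit 5) (nat_lit 4) (nat_lit 4) (nat_lit 457) (nat_lit 328) (nat_lit 235)) (XT.lf (nat_lit 0) (nat_lit 139101975050) (nat_lit 76) (nat_lit 72334276381) (nat_lit 76) (nat_lit 62617502270) (nat_lit 3) (nat_lit 4) (nat_lit 4) (nat_lit 5) (nat_lit 4) (nat_lit 4) (nat_lit 458) (nat_lit 328) (nat_lit 234))))) (XT.nd (nat_lit 234) (nat_lit 0) (nat_lit 0) (XT.nd (nat_lit 78) (nat_lit 0) (nat_lit 0) (XT.lf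 (nat_lit 0) (nat_lit 162591895479) (nat_lit 76) (nat_lit 67235066927) (nat_lit 76) (nat_lit 57513528976) (nat_lit 3) (nat_lit 4) (nat_lit 4) (nat_lit 5) (nat_lit 4) (nat_lit 4) (nat_lit 459) (nat_lit 328) (nat_lit 233)) (XT.nd (nat_lit 78) (nat_lit 0) (nat_lit 0) (XT.lf (nat_lit 0) (nat_lit 187240951807) (nat_lit 76) (nat_lit 61888537740) (nat_lit 76) (nat_lit 52162462798) (nat_lit 3) (nat_lit 4) (nat_lit 4) (nat_lit 5) (nat_lit 4) (nat_lit 4) (nat_lit 460) (nat_lit 328) (nat_lit 232)) (XT.lf (nat_lit 0) (nat_lit 213107832262) (nat_lit 76) (nat_lit 56281958990) (nat_lit 76) (nat_lit 46551563104) (nat_lit 3) (nat_lit 4) (nat_lit 4) (nat_lit 5) (nat_lit 4) (nat_lit 4) (nat_lit 461) (nat_lit 328) (nat_lit 231)))) (XT.nd (nat_lit 156) (nat_lit 0) (nat_lit 0) (XT.nd (nat_lit 78) (nat_lit 0) (nat_lit 0) (XT.lf (nat_lit 0) (nat_lit 240254124655) (nat_lit 76) (nat_lit 50401981679) (nat_lit 76) (nat_lit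 40667470609) (nat_lit 3) (nat_lit 4) (nat_lit 4) (nat_lit 5) (nat_lit 4) (nat_lit 4) (nat_lit 462) (nat_lit 328) (nat_lit 230)) (XT.lf (nat_lit 0) (nat_lit 268744463017) (nat_lit 76) (nat_lit 44234605861) (nat_lit 76) (nat_lit 34496175567) (nat_lit 3) (nat_lit 4) (nat_lit 4) (nat_lit 5) (nat_lit 4) (nat_lit 4) (nat_lit 463) (nat_lit 328) (nat_lit 229))) (XT.nd (nat_lit 78) (nat_lit 0) (nat_lit 0) (XT.lf (nat_lit 0) (nat_lit 298646681486) (nat_lit 76) (nat_lit 37765147307) (nat_lit 76) (nat_lit 28022984421) (nat_lit 3) (nat_lit 4) (nat_lit 4) (nat_lit 5) (nat_lit 4) (nat_lit 4) (nat_lit 464) (nat_lit 328) (nat_lit 228)) (XT.lf (nat_lit 0) (nat_lit 330031975820) (nat_lit 76) (nat_lit 30978202547) (nat_lit 76) (nat_lit 21232484809) (nat_lit 3) (nat_lit 4) (nat_lit 4) (nat_lit 5) (nat_lit 4) (nat_lit 4) (nat_lit 465) (nat_lit 328) (nat_lit 227))))))) (XT.nd (nat_lit 1014) (nat_lit 0) (nat_lit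 0) (XT.nd (nat_lit 468) (nat_lit 0) (nat_lit 0) (XT.nd (nat_lit 234) (nat_lit 76) (nat_lit 0) (XT.nd (nat_lit 78) (nat_lit 76) (nat_lit 0) (XT.lf (nat_lit 0) (nat_lit 362975072910) (nat_lit 76) (nat_lit 23857612186) (nat_lit 76) (nat_lit 14108508876) (nat_lit 3) (nat_lit 4) (nat_lit 4) (nat_lit 5) (nat_lit 4) (nat_lit 4) (nat_lit 466) (nat_lit 328) (nat_lit 226)) (XT.nd (nat_lit 78) (nat_lit 76) (nat_lit 0) (XT.lf (nat_lit 0) (nat_lit 397554408702) (nat_lit 76) (nat_lit 16386422439) (nat_lit 76) (nat_lit 6634094774) (nat_lit 3) (nat_lit 4) (nat_lit 4) (nat_lit 5) (nat_lit 4) (nat_lit 4) (nat_lit 467) (nat_lit 328) (nat_lit 225)) (XT.lf (nat_lit 0) (nat_lit 1169872453) (nat_lit 152) (nat_lit 7357159949) (nat_lit 76) (nat_lit 432662630139) (nat_lit 2) (nat_lit 5) (nat_lit 4) (nat_lit 5) (nat_lit 3) (nat_lit 4) (nat_lit 468) (nat_lit 328) (nat_lit 224)))) (XT.nd (nat_lit 78) (nat_lit 0) (nat_lit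 0) (XT.lf (nat_lit 0) (nat_lit 9267147345) (nat_lit 76) (nat_lit 13569926) (nat_lit 152) (nat_lit 453541999791) (nat_lit 1) (nat_lit 5) (nat_lit 2) (nat_lit 5) (nat_lit 3) (nat_lit 4) (nat_lit 469) (nat_lit 328) (nat_lit 223)) (XT.nd (nat_lit 78) (nat_lit 0) (nat_lit 0) (XT.lf (nat_lit 0) (nat_lit 18058048378) (nat_lit 152) (nat_lit 458704574301) (nat_lit 0) (nat_lit 8761754681) (nat_lit 1) (nat_lit 5) (nat_lit 3) (nat_lit 4) (nat_lit 1) (nat_lit 4) (nat_lit 470) (nat_lit 328) (nat_lit 222)) (XT.lf (nat_lit 0) (nat_lit 27269660223) (nat_lit 152) (nat_lit 464120849819) (nat_lit 0) (nat_lit 17970840160) (nat_lit 1) (nat_lit 5) (nat_lit 3) (nat_lit 4) (nat_lit 1) (nat_lit 4) (nat_lit 471) (nat_lit 328) (nat_lit 221))))) (XT.nd (nat_lit 234) (nat_lit 0) (nat_lit 0) (XT.nd (nat_lit 78) (nat_lit 0) (nat_lit 0) (XT.lf (nat_lit 0) (nat_lit 36937273353) (nat_lit 152) (nat_lit 469817080301) (nat_lit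 0) (nat_lit 27636047227) (nat_lit 1) (nat_lit 5) (nat_lit 3) (nat_lit 4) (nat_lit 1) (nat_lit 4) (nat_lit 472) (nat_lit 328) (nat_lit 220)) (XT.nd (nat_lit 78) (nat_lit 0) (nat_lit 0) (XT.lf (nat_lit 0) (nat_lit 47083905893) (nat_lit 152) (nat_lit 475806828200) (nat_lit 0) (nat_lit 37780388279) (nat_lit 1) (nat_lit 5) (nat_lit 3) (nat_lit 4) (nat_lit 1) (nat_lit 4) (nat_lit 473) (nat_lit 328) (nat_lit 219)) (XT.lf (nat_lit 0) (nat_lit 57733716493) (nat_lit 152) (nat_lit 482104354822) (nat_lit 0) (nat_lit 48428016508) (nat_lit 1) (nat_lit 5) (nat_lit 3) (nat_lit 4) (nat_lit 1) (nat_lit 4) (nat_lit 474) (nat_lit 328) (nat_lit 218)))) (XT.nd (nat_lit 156) (nat_lit 0) (nat_lit 0) (XT.nd (nat_lit 78) (nat_lit 0) (nat_lit 0) (XT.lf (nat_lit 0) (nat_lit 68912061845) (nat_lit 152) (nat_lit 488724654277) (nat_lit 0) (nat_lit 59604283412) (nat_lit 1) (nat_lit 5) (nat_lit 3) (nat_lit 4) (nat_lit 1)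 (nat_lit 4) (nat_lit 475) (nat_lit 328) (nat_lit 217)) (XT.lf (nat_lit 0) (nat_lit 80645557056) (nat_lit 152) (nat_lit 495683489182) (nat_lit 0) (nat_lit 71335799149) (nat_lit 1) (nat_lit 5) (nat_lit 3) (nat_lit 4) (nat_lit 1) (nat_lit 4) (nat_lit 476) (nat_lit 328) (nat_lit 216))) (XT.nd (nat_lit 78) (nat_lit 0) (nat_lit 0) (XT.lf (nat_lit 0) (nat_lit 92962139020) (nat_lit 152) (nat_lit 502997428193) (nat_lit 0) (nat_lit 83650495900) (nat_lit 1) (nat_lit 5) (nat_lit 3) (nat_lit 4) (nat_lit 1) (nat_lit 4) (nat_lit 477) (nat_lit 328) (nat_lit 215)) (XT.lf (nat_lit 0) (nat_lit 105891132932) (nat_lit 152) (nat_lit 510683885450) (nat_lit 0) (nat_lit 96577694371) (nat_lit 1) (nat_lit 5) (nat_lit 3) (nat_lit 4) (nat_lit 1) (nat_lit 4) (nat_lit 478) (nat_lit 328) (nat_lit 214)))))) (XT.nd (nat_lit 44382) (nat_lit 0) (nat_lit 4484) (XT.nd (nat_lit 44148) (nat_lit 0) (nat_lit 5700) (XT.nd (nat_lit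 43992) (nat_lit 0) (nat_lit 6384) (XT.lf (nat_lit 0) (nat_lit 119463322110) (nat_lit 152) (nat_lit 518761162041) (nat_lit 0) (nat_lit 110148173605) (nat_lit 1) (nat_lit 5) (nat_lit 3) (nat_lit 4) (nat_lit 1) (nat_lit 4) (nat_lit 479) (nat_lit 328) (nat_lit 213)) (XT.nd (nat_lit 78) (nat_lit 304) (nat_lit 0) (XT.lf (nat_lit 0) (nat_lit 896169876) (nat_lit 380) (nat_lit 2156330866) (nat_lit 0) (nat_lit 896169876) (nat_lit 89) (nat_lit 5) (nat_lit 94) (nat_lit 4) (nat_lit 89) (nat_lit 4) (nat_lit 362) (nat_lit 329) (nat_lit 329)) (XT.lf (nat_lit 0) (nat_lit 1925818093) (nat_lit 304) (nat_lit 3676026029) (nat_lit 304) (nat_lit 2435695931) (nat_lit 85) (nat_lit 4) (nat_lit 89) (nat_lit 5) (nat_lit 89) (nat_lit 4) (nat_lit 363) (nat_lit 329) (nat_lit 328)))) (XT.nd (nat_lit 78) (nat_lit 380) (nat_lit 0) (XT.lf (nat_lit 0) (nat_lit 214951366) (nat_lit 228) (nat_lit 1071169719) (nat_lit 304) (nat_lit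 6901908090) (nat_lit 81) (nat_lit 5) (nat_lit 84) (nat_lit 5) (nat_lit 85) (nat_lit 4) (nat_lit 364) (nat_lit 329) (nat_lit 327)) (XT.nd (nat_lit 78) (nat_lit 380) (nat_lit 0) (XT.lf (nat_lit 0) (nat_lit 5083855839) (nat_lit 304) (nat_lit 1555578569) (nat_lit 0) (nat_lit 1706129343) (nat_lit 81) (nat_lit 5) (nat_lit 85) (nat_lit 4) (nat_lit 81) (nat_lit 4) (nat_lit 365) (nat_lit 329) (nat_lit 326)) (XT.lf (nat_lit 0) (nat_lit 487207999) (nat_lit 380) (nat_lit 3399372738) (nat_lit 76) (nat_lit 4626816643) (nat_lit 76) (nat_lit 5) (nat_lit 81) (nat_lit 5) (nat_lit 77) (nat_lit 4) (nat_lit 366) (nat_lit 329) (nat_lit 325))))) (XT.nd (nat_lit 234) (nat_lit 684) (nat_lit 0) (XT.nd (nat_lit 78) (nat_lit 304) (nat_lit 0) (XT.lf (nat_lit 0) (nat_lit 3326756486) (nat_lit 228) (nat_lit 915554104) (nat_lit 304) (nat_lit 4448308539) (nat_lit 73) (nat_lit 5) (nat_lit 76) (nat_lit 5) (nat_lit 77) (nat_lit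 4) (nat_lit 367) (nat_lit 329) (nat_lit 324)) (XT.nd (nat_lit 78) (nat_lit 76) (nat_lit 0) (XT.lf (nat_lit 0) (nat_lit 1432122657) (nat_lit 228) (nat_lit 6721005603) (nat_lit 228) (nat_lit 725259279) (nat_lit 70) (nat_lit 4) (nat_lit 73) (nat_lit 5) (nat_lit 73) (nat_lit 4) (nat_lit 368) (nat_lit 329) (nat_lit 323)) (XT.lf (nat_lit 0) (nat_lit 3043382279) (nat_lit 304) (nat_lit 596316883) (nat_lit 76) (nat_lit 5435368205) (nat_lit 69) (nat_lit 5) (nat_lit 73) (nat_lit 5) (nat_lit 70) (nat_lit 4) (nat_lit 369) (nat_lit 329) (nat_lit 322)))) (XT.nd (nat_lit 156) (nat_lit 152) (nat_lit 0) (XT.nd (nat_lit 78) (nat_lit 304) (nat_lit 0) (XT.lf (nat_lit 0) (nat_lit 6592148568) (nat_lit 228) (nat_lit 347815805) (nat_lit 304) (nat_lit 2342900436) (nat_lit 66) (nat_lit 5) (nat_lit 69) (nat_lit 5) (nat_lit 70) (nat_lit 4) (nat_lit 370) (nat_lit 329) (nat_lit 321)) (XT.lf (nat_lit 0) (nat_lit 1474486953)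 (nat_lit 304) (nat_lit 4973714587) (nat_lit 76) (nat_lit 3052064261) (nat_lit 62) (nat_lit 5) (nat_lit 66) (nat_lit 5) (nat_lit 63) (nat_lit 4) (nat_lit 371) (nat_lit 329) (nat_lit 320))) (XT.nd (nat_lit 78) (nat_lit 0) (nat_lit 0) (XT.lf (nat_lit 0) (nat_lit 2293517873) (nat_lit 152) (nat_lit 3062868918) (nat_lit 228) (nat_lit 4372673010) (nat_lit 60) (nat_lit 5) (nat_lit 62) (nat_lit 5) (nat_lit 63) (nat_lit 4) (nat_lit 372) (nat_lit 329) (nat_lit 319)) (XT.lf (nat_lit 0) (nat_lit 9392384101) (nat_lit 228) (nat_lit 86440364) (nat_lit 0) (nat_lit 492528306) (nat_lit 60) (nat_lit 5) (nat_lit 63) (nat_lit 4) (nat_lit 60) (nat_lit 4) (nat_lit 373) (nat_lit 329) (nat_lit 318))))))))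
noncomputable def xc69 : XT := (XT.nd (nat_lit 1950) (nat_lit 1064) (nat_lit 0) (XT.nd (nat_lit 936) (nat_lit 988) (nat_lit 0) (XT.nd (nat_lit 468) (nat_lit 684) (nat_lit 0) (XT.nd (nat_lit 234) (nat_lit 380) (nat_lit 0) (XT.nd (nat_lit 78) (nat_lit 380) (nat_lit 0) (XT.lf (nat_lit 0) (nat_lit 3338411897) (nat_lit 304) (nat_lit 2652731389) (nat_lit 76) (nat_lit 4229865662) (nat_lit 56) (nat_lit 5) (nat_lit 60) (nat_lit 5) (nat_lit 57) (nat_lit 4) (nat_lit 374) (nat_lit 329) (nat_lit 317)) (XT.nd (nat_lit 78) (nat_lit 228) (nat_lit 0) (XT.lf (nat_lit 0) (nat_lit 5078548888) (nat_lit 152) (nat_lit 2308394612) (nat_lit 228) (nat_lit 3098044217) (nat_lit 54) (nat_lit 5) (nat_lit 56) (nat_lit 5) (nat_lit 57) (nat_lit 4) (nat_lit 375) (nat_lit 329) (nat_lit 316)) (XT.lf (nat_lit 0) (nat_lit 830230786) (nat_lit 228) (nat_lit 8398824222) (nat_lit 76) (nat_lit 1533347141) (nat_lit 51) (nat_lit 5)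 (nat_lit 54) (nat_lit 5) (nat_lit 52) (nat_lit 4) (nat_lit 376) (nat_lit 329) (nat_lit 315)))) (XT.nd (nat_lit 78) (nat_lit 380) (nat_lit 0) (XT.lf (nat_lit 0) (nat_lit 4858224275) (nat_lit 228) (nat_lit 632278308) (nat_lit 76) (nat_lit 5560318693) (nat_lit 51) (nat_lit 5) (nat_lit 54) (nat_lit 5) (nat_lit 52) (nat_lit 4) (nat_lit 377) (nat_lit 329) (nat_lit 314)) (XT.nd (nat_lit 78) (nat_lit 228) (nat_lit 0) (XT.lf (nat_lit 0) (nat_lit 7571764589) (nat_lit 152) (nat_lit 1516464693) (nat_lit 228) (nat_lit 2265443693) (nat_lit 49) (nat_lit 5) (nat_lit 51) (nat_lit 5) (nat_lit 52) (nat_lit 4) (nat_lit 378) (nat_lit 329) (nat_lit 313)) (XT.lf (nat_lit 0) (nat_lit 1804224326) (nat_lit 228) (nat_lit 7257828188) (nat_lit 76) (nat_lit 2607921211) (nat_lit 46) (nat_lit 5) (nat_lit 49) (nat_lit 5) (nat_lit 47) (nat_lit 4) (nat_lit 379) (nat_lit 329) (nat_lit 312))))) (XT.nd (nat_lit 234) (nat_lit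 304) (nat_lit 0) (XT.nd (nat_lit 78) (nat_lit 228) (nat_lit 0) (XT.lf (nat_lit 0) (nat_lit 919298783) (nat_lit 152) (nat_lit 5070751328) (nat_lit 228) (nat_lit 6010778535) (nat_lit 44) (nat_lit 5) (nat_lit 46) (nat_lit 5) (nat_lit 47) (nat_lit 4) (nat_lit 380) (nat_lit 329) (nat_lit 311)) (XT.nd (nat_lit 78) (nat_lit 228) (nat_lit 0) (XT.lf (nat_lit 0) (nat_lit 9565018536) (nat_lit 152) (nat_lit 830059046) (nat_lit 228) (nat_lit 1952687939) (nat_lit 44) (nat_lit 5) (nat_lit 46) (nat_lit 5) (nat_lit 47) (nat_lit 4) (nat_lit 381) (nat_lit 329) (nat_lit 310)) (XT.lf (nat_lit 0) (nat_lit 2274528120) (nat_lit 228) (nat_lit 6871658708) (nat_lit 76) (nat_lit 3562086893) (nat_lit 41) (nat_lit 5) (nat_lit 44) (nat_lit 5) (nat_lit 42) (nat_lit 4) (nat_lit 382) (nat_lit 329) (nat_lit 309)))) (XT.nd (nat_lit 78) (nat_lit 228) (nat_lit 0) (XT.lf (nat_lit 0) (nat_lit 1719849850) (nat_lit 76) (nat_lit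 4907716754) (nat_lit 152) (nat_lit 6458665925) (nat_lit 40) (nat_lit 5) (nat_lit 41) (nat_lit 5) (nat_lit 42) (nat_lit 4) (nat_lit 383) (nat_lit 329) (nat_lit 308)) (XT.nd (nat_lit 78) (nat_lit 228) (nat_lit 0) (XT.lf (nat_lit 0) (nat_lit 10794623571) (nat_lit 76) (nat_lit 414003538) (nat_lit 152) (nat_lit 2273972230) (nat_lit 40) (nat_lit 5) (nat_lit 41) (nat_lit 5) (nat_lit 42) (nat_lit 4) (nat_lit 384) (nat_lit 329) (nat_lit 307)) (XT.lf (nat_lit 0) (nat_lit 2117844457) (nat_lit 228) (nat_lit 7548319469) (nat_lit 76) (nat_lit 4227704548) (nat_lit 37) (nat_lit 5) (nat_lit 40) (nat_lit 5) (nat_lit 38) (nat_lit 4) (nat_lit 385) (nat_lit 329) (nat_lit 306)))))) (XT.nd (nat_lit 468) (nat_lit 456) (nat_lit 0) (XT.nd (nat_lit 234) (nat_lit 228) (nat_lit 0) (XT.nd (nat_lit 78) (nat_lit 228) (nat_lit 0) (XT.lf (nat_lit 0) (nat_lit 1420848504) (nat_lit 76) (nat_lit 5205525935) (nat_lit 152) (nat_lit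 7698810254) (nat_lit 36) (nat_lit 5) (nat_lit 37) (nat_lit 5) (nat_lit 38) (nat_lit 4) (nat_lit 386) (nat_lit 329) (nat_lit 305)) (XT.nd (nat_lit 78) (nat_lit 228) (nat_lit 0) (XT.lf (nat_lit 0) (nat_lit 10922984567) (nat_lit 76) (nat_lit 465555426) (nat_lit 152) (nat_lit 3388139779) (nat_lit 36) (nat_lit 5) (nat_lit 37) (nat_lit 5) (nat_lit 38) (nat_lit 4) (nat_lit 387) (nat_lit 329) (nat_lit 304)) (XT.lf (nat_lit 0) (nat_lit 1164221944) (nat_lit 228) (nat_lit 9681373915) (nat_lit 76) (nat_lit 4401157502) (nat_lit 33) (nat_lit 5) (nat_lit 36) (nat_lit 5) (nat_lit 34) (nat_lit 4) (nat_lit 388) (nat_lit 329) (nat_lit 303)))) (XT.nd (nat_lit 78) (nat_lit 228) (nat_lit 0) (XT.lf (nat_lit 0) (nat_lit 5808621041) (nat_lit 228) (nat_lit 385215564) (nat_lit 76) (nat_lit 9544823015) (nat_lit 33) (nat_lit 5) (nat_lit 36) (nat_lit 5) (nat_lit 34) (nat_lit 4) (nat_lit 389) (nat_lit 329) (nat_lit 302))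 (XT.nd (nat_lit 78) (nat_lit 152) (nat_lit 0) (XT.lf (nat_lit 0) (nat_lit 9515444999) (nat_lit 76) (nat_lit 1227231042) (nat_lit 152) (nat_lit 5509632689) (nat_lit 32) (nat_lit 5) (nat_lit 33) (nat_lit 5) (nat_lit 34) (nat_lit 4) (nat_lit 390) (nat_lit 329) (nat_lit 301)) (XT.lf (nat_lit 0) (nat_lit 3001347068) (nat_lit 152) (nat_lit 12947378459) (nat_lit 152) (nat_lit 841668600) (nat_lit 30) (nat_lit 4) (nat_lit 32) (nat_lit 5) (nat_lit 32) (nat_lit 4) (nat_lit 391) (nat_lit 329) (nat_lit 300))))) (XT.nd (nat_lit 234) (nat_lit 304) (nat_lit 0) (XT.nd (nat_lit 78) (nat_lit 76) (nat_lit 0) (XT.lf (nat_lit 0) (nat_lit 3975674963) (nat_lit 228) (nat_lit 4140568896) (nat_lit 76) (nat_lit 9233691637) (nat_lit 29) (nat_lit 5) (nat_lit 32) (nat_lit 5) (nat_lit 30) (nat_lit 4) (nat_lit 392) (nat_lit 329) (nat_lit 299)) (XT.nd (nat_lit 78) (nat_lit 0) (nat_lit 0) (XT.lf (nat_lit 0) (nat_lit 6010947265)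 (nat_lit 76) (nat_lit 3002629989) (nat_lit 152) (nat_lit 8922803839) (nat_lit 28) (nat_lit 5) (nat_lit 29) (nat_lit 5) (nat_lit 30) (nat_lit 4) (nat_lit 393) (nat_lit 329) (nat_lit 298)) (XT.lf (nat_lit 0) (nat_lit 14326276886) (nat_lit 152) (nat_lit 1931493761) (nat_lit 0) (nat_lit 2293248362) (nat_lit 28) (nat_lit 5) (nat_lit 30) (nat_lit 4) (nat_lit 28) (nat_lit 4) (nat_lit 394) (nat_lit 329) (nat_lit 297)))) (XT.nd (nat_lit 156) (nat_lit 152) (nat_lit 0) (XT.nd (nat_lit 78) (nat_lit 0) (nat_lit 0) (XT.lf (nat_lit 0) (nat_lit 790062979) (nat_lit 152) (nat_lit 10565593376) (nat_lit 76) (nat_lit 7834967948) (nat_lit 26) (nat_lit 5) (nat_lit 28) (nat_lit 5) (nat_lit 27) (nat_lit 4) (nat_lit 395) (nat_lit 329) (nat_lit 296)) (XT.lf (nat_lit 0) (nat_lit 5865849089) (nat_lit 152) (nat_lit 305178482) (nat_lit 76) (nat_lit 13690121488) (nat_lit 26) (nat_lit 5) (nat_lit 28) (nat_lit 5) (nat_lit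 27) (nat_lit 4) (nat_lit 396) (nat_lit 329) (nat_lit 295))) (XT.nd (nat_lit 78) (nat_lit 76) (nat_lit 0) (XT.lf (nat_lit 0) (nat_lit 10665575709) (nat_lit 76) (nat_lit 619199527) (nat_lit 152) (nat_lit 9275969744) (nat_lit 25) (nat_lit 5) (nat_lit 26) (nat_lit 5) (nat_lit 27) (nat_lit 4) (nat_lit 397) (nat_lit 329) (nat_lit 294)) (XT.lf (nat_lit 0) (nat_lit 696781271) (nat_lit 76) (nat_lit 16298606847) (nat_lit 76) (nat_lit 4298907427) (nat_lit 24) (nat_lit 4) (nat_lit 25) (nat_lit 5) (nat_lit 25) (nat_lit 4) (nat_lit 398) (nat_lit 329) (nat_lit 293))))))) (XT.nd (nat_lit 1014) (nat_lit 456) (nat_lit 0) (XT.nd (nat_lit 468) (nat_lit 304) (nat_lit 0) (XT.nd (nat_lit 234) (nat_lit 152) (nat_lit 0) (XT.nd (nat_lit 78) (nat_lit 76) (nat_lit 0) (XT.lf (nat_lit 0) (nat_lit 1001267216) (nat_lit 152) (nat_lit 10066349578) (nat_lit 76) (nat_lit 10990997491) (nat_lit 23) (nat_lit 5) (nat_lit 25) (nat_lit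 5) (nat_lit 24) (nat_lit 4) (nat_lit 399) (nat_lit 329) (nat_lit 292)) (XT.nd (nat_lit 78) (nat_lit 0) (nat_lit 0) (XT.lf (nat_lit 0) (nat_lit 808981465) (nat_lit 76) (nat_lit 5552725030) (nat_lit 152) (nat_lit 16498942659) (nat_lit 22) (nat_lit 5) (nat_lit 23) (nat_lit 5) (nat_lit 24) (nat_lit 4) (nat_lit 400) (nat_lit 329) (nat_lit 291)) (XT.lf (nat_lit 0) (nat_lit 12094607183) (nat_lit 152) (nat_lit 11261386104) (nat_lit 0) (nat_lit 341580272) (nat_lit 22) (nat_lit 5) (nat_lit 24) (nat_lit 4) (nat_lit 22) (nat_lit 4) (nat_lit 401) (nat_lit 329) (nat_lit 290)))) (XT.nd (nat_lit 78) (nat_lit 152) (nat_lit 0) (XT.lf (nat_lit 0) (nat_lit 18136087617) (nat_lit 152) (nat_lit 154214013) (nat_lit 0) (nat_lit 6284955120) (nat_lit 22) (nat_lit 5) (nat_lit 24) (nat_lit 4) (nat_lit 22) (nat_lit 4) (nat_lit 402) (nat_lit 329) (nat_lit 289)) (XT.nd (nat_lit 78) (nat_lit 76) (nat_lit 0) (XT.lf (nat_lit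 0) (nat_lit 11759360814) (nat_lit 76) (nat_lit 12838074437) (nat_lit 76) (nat_lit 893508050) (nat_lit 21) (nat_lit 4) (nat_lit 22) (nat_lit 5) (nat_lit 22) (nat_lit 4) (nat_lit 403) (nat_lit 329) (nat_lit 288)) (XT.lf (nat_lit 0) (nat_lit 4708655671) (nat_lit 152) (nat_lit 2380806918) (nat_lit 76) (nat_lit 19362261893) (nat_lit 20) (nat_lit 5) (nat_lit 22) (nat_lit 5) (nat_lit 21) (nat_lit 4) (nat_lit 404) (nat_lit 329) (nat_lit 287))))) (XT.nd (nat_lit 234) (nat_lit 152) (nat_lit 0) (XT.nd (nat_lit 78) (nat_lit 76) (nat_lit 0) (XT.lf (nat_lit 0) (nat_lit 9714265940) (nat_lit 76) (nat_lit 935765414) (nat_lit 152) (nat_lit 16805332061) (nat_lit 19) (nat_lit 5) (nat_lit 20) (nat_lit 5) (nat_lit 21) (nat_lit 4) (nat_lit 405) (nat_lit 329) (nat_lit 286)) (XT.nd (nat_lit 78) (nat_lit 76) (nat_lit 0) (XT.lf (nat_lit 0) (nat_lit 16953456662) (nat_lit 152) (nat_lit 6217134020) (nat_lit 0) (nat_lit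 5335351858) (nat_lit 19) (nat_lit 5) (nat_lit 21) (nat_lit 4) (nat_lit 19) (nat_lit 4) (nat_lit 406) (nat_lit 329) (nat_lit 285)) (XT.lf (nat_lit 0) (nat_lit 5943848346) (nat_lit 76) (nat_lit 17677040080) (nat_lit 76) (nat_lit 5985727378) (nat_lit 18) (nat_lit 4) (nat_lit 19) (nat_lit 5) (nat_lit 19) (nat_lit 4) (nat_lit 407) (nat_lit 329) (nat_lit 284)))) (XT.nd (nat_lit 156) (nat_lit 0) (nat_lit 0) (XT.nd (nat_lit 78) (nat_lit 152) (nat_lit 0) (XT.lf (nat_lit 0) (nat_lit 18816485561) (nat_lit 76) (nat_lit 11852262732) (nat_lit 76) (nat_lit 91228223) (nat_lit 18) (nat_lit 4) (nat_lit 19) (nat_lit 5) (nat_lit 19) (nat_lit 4) (nat_lit 408) (nat_lit 329) (nat_lit 283)) (XT.lf (nat_lit 0) (nat_lit 162994982) (nat_lit 76) (nat_lit 5685995853) (nat_lit 152) (nat_lit 26119951639) (nat_lit 16) (nat_lit 5) (nat_lit 17) (nat_lit 5) (nat_lit 18) (nat_lit 4) (nat_lit 409) (nat_lit 329) (nat_lit 282)))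 (XT.nd (nat_lit 78) (nat_lit 0) (nat_lit 0) (XT.lf (nat_lit 0) (nat_lit 12244883228) (nat_lit 152) (nat_lit 20064888095) (nat_lit 0) (nat_lit 920429927) (nat_lit 16) (nat_lit 5) (nat_lit 18) (nat_lit 4) (nat_lit 16) (nat_lit 4) (nat_lit 410) (nat_lit 329) (nat_lit 281)) (XT.lf (nat_lit 0) (nat_lit 19000289529) (nat_lit 152) (nat_lit 7933776984) (nat_lit 0) (nat_lit 7618475925) (nat_lit 16) (nat_lit 5) (nat_lit 18) (nat_lit 4) (nat_lit 16) (nat_lit 4) (nat_lit 411) (nat_lit 329) (nat_lit 280)))))) (XT.nd (nat_lit 468) (nat_lit 228) (nat_lit 0) (XT.nd (nat_lit 234) (nat_lit 76) (nat_lit 0) (XT.nd (nat_lit 78) (nat_lit 76) (nat_lit 0) (XT.lf (nat_lit 0) (nat_lit 4860613763) (nat_lit 76) (nat_lit 21257793750) (nat_lit 76) (nat_lit 9821351285) (nat_lit 15) (nat_lit 4) (nat_lit 16) (nat_lit 5) (nat_lit 16) (nat_lit 4) (nat_lit 412) (nat_lit 329) (nat_lit 279)) (XT.nd (nat_lit 78) (nat_lit 76)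 (nat_lit 0) (XT.lf (nat_lit 0) (nat_lit 18472915245) (nat_lit 76) (nat_lit 15203839718) (nat_lit 76) (nat_lit 3715369767) (nat_lit 15) (nat_lit 4) (nat_lit 16) (nat_lit 5) (nat_lit 16) (nat_lit 4) (nat_lit 413) (nat_lit 329) (nat_lit 278)) (XT.lf (nat_lit 0) (nat_lit 2561183065) (nat_lit 152) (nat_lit 6287594653) (nat_lit 76) (nat_lit 30068653267) (nat_lit 14) (nat_lit 5) (nat_lit 16) (nat_lit 5) (nat_lit 15) (nat_lit 4) (nat_lit 414) (nat_lit 329) (nat_lit 277)))) (XT.nd (nat_lit 78) (nat_lit 0) (nat_lit 0) (XT.lf (nat_lit 0) (nat_lit 7050617218) (nat_lit 76) (nat_lit 2040030401) (nat_lit 152) (nat_lit 31422116567) (nat_lit 13) (nat_lit 5) (nat_lit 14) (nat_lit 5) (nat_lit 15) (nat_lit 4) (nat_lit 415) (nat_lit 329) (nat_lit 276)) (XT.nd (nat_lit 78) (nat_lit 0) (nat_lit 0) (XT.lf (nat_lit 0) (nat_lit 16088595121) (nat_lit 152) (nat_lit 21079914234) (nat_lit 0) (nat_lit 5012258263) (nat_lit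 13) (nat_lit 5) (nat_lit 15) (nat_lit 4) (nat_lit 13) (nat_lit 4) (nat_lit 416) (nat_lit 329) (nat_lit 275)) (XT.lf (nat_lit 0) (nat_lit 23426085419) (nat_lit 152) (nat_lit 8197623733) (nat_lit 0) (nat_lit 12308983665) (nat_lit 13) (nat_lit 5) (nat_lit 15) (nat_lit 4) (nat_lit 13) (nat_lit 4) (nat_lit 417) (nat_lit 329) (nat_lit 274))))) (XT.nd (nat_lit 234) (nat_lit 152) (nat_lit 0) (XT.nd (nat_lit 78) (nat_lit 0) (nat_lit 0) (XT.lf (nat_lit 0) (nat_lit 5420744939) (nat_lit 76) (nat_lit 25752626218) (nat_lit 76) (nat_lit 14596700752) (nat_lit 12) (nat_lit 4) (nat_lit 13) (nat_lit 5) (nat_lit 13) (nat_lit 4) (nat_lit 418) (nat_lit 329) (nat_lit 273)) (XT.nd (nat_lit 78) (nat_lit 0) (nat_lit 0) (XT.lf (nat_lit 0) (nat_lit 19924416050) (nat_lit 76) (nat_lit 19481457608) (nat_lit 76) (nat_lit 8288557180) (nat_lit 12) (nat_lit 4) (nat_lit 13) (nat_lit 5) (nat_lit 13) (nat_lit 4) (nat_lit 419)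 (nat_lit 329) (nat_lit 272)) (XT.lf (nat_lit 0) (nat_lit 35076871688) (nat_lit 76) (nat_lit 12934102694) (nat_lit 76) (nat_lit 1705988015) (nat_lit 12) (nat_lit 4) (nat_lit 13) (nat_lit 5) (nat_lit 13) (nat_lit 4) (nat_lit 420) (nat_lit 329) (nat_lit 271)))) (XT.nd (nat_lit 156) (nat_lit 0) (nat_lit 0) (XT.nd (nat_lit 78) (nat_lit 76) (nat_lit 0) (XT.lf (nat_lit 0) (nat_lit 5001313513) (nat_lit 152) (nat_lit 1008959357) (nat_lit 76) (nat_lit 45828175951) (nat_lit 11) (nat_lit 5) (nat_lit 13) (nat_lit 5) (nat_lit 12) (nat_lit 4) (nat_lit 421) (nat_lit 329) (nat_lit 270)) (XT.lf (nat_lit 0) (nat_lit 12186733758) (nat_lit 152) (nat_lit 40436944591) (nat_lit 0) (nat_lit 1430931449) (nat_lit 10) (nat_lit 5) (nat_lit 12) (nat_lit 4) (nat_lit 10) (nat_lit 4) (nat_lit 422) (nat_lit 329) (nat_lit 269))) (XT.nd (nat_lit 78) (nat_lit 0) (nat_lit 0) (XT.lf (nat_lit 0) (nat_lit 19811439420) (nat_lit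 152) (nat_lit 27539475170) (nat_lit 0) (nat_lit 9026666260) (nat_lit 10) (nat_lit 5) (nat_lit 12) (nat_lit 4) (nat_lit 10) (nat_lit 4) (nat_lit 423) (nat_lit 329) (nat_lit 268)) (XT.lf (nat_lit 0) (nat_lit 27783207040) (nat_lit 152) (nat_lit 14064362104) (nat_lit 0) (nat_lit 16970842593) (nat_lit 10) (nat_lit 5) (nat_lit 12) (nat_lit 4) (nat_lit 10) (nat_lit 4) (nat_lit 424) (nat_lit 329) (nat_lit 267))))))))
noncomputable def xc70 : XT := (XT.nd (nat_lit 1950) (nat_lit 228) (nat_lit 0) (XT.nd (nat_lit 936) (nat_lit 152) (nat_lit 0) (XT.nd (nat_lit 468) (nat_lit 76) (nat_lit 0) (XT.nd (nat_lit 234) (nat_lit 152) (nat_lit 0) (XT.nd (nat_lit 78) (nat_lit 0) (nat_lit 0) (XT.lf (nat_lit 0) (nat_lit 21155310) (nat_lit 76) (nat_lit 36100191999) (nat_lit 76) (nat_lit 25261550137) (nat_lit 9) (nat_lit 4) (nat_lit 10) (nat_lit 5) (nat_lit 10) (nat_lit 4) (nat_lit 425) (nat_lit 329) (nat_lit 266))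 (XT.nd (nat_lit 78) (nat_lit 0) (nat_lit 0) (XT.lf (nat_lit 0) (nat_lit 15236235801) (nat_lit 76) (nat_lit 29846365817) (nat_lit 76) (nat_lit 18982697844) (nat_lit 9) (nat_lit 4) (nat_lit 10) (nat_lit 5) (nat_lit 10) (nat_lit 4) (nat_lit 426) (nat_lit 329) (nat_lit 265)) (XT.lf (nat_lit 0) (nat_lit 31152074422) (nat_lit 76) (nat_lit 23309387313) (nat_lit 76) (nat_lit 12421884949) (nat_lit 9) (nat_lit 4) (nat_lit 10) (nat_lit 5) (nat_lit 10) (nat_lit 4) (nat_lit 427) (nat_lit 329) (nat_lit 264)))) (XT.nd (nat_lit 78) (nat_lit 152) (nat_lit 0) (XT.lf (nat_lit 0) (nat_lit 47806566026) (nat_lit 76) (nat_lit 16473692253) (nat_lit 76) (nat_lit 5563490470) (nat_lit 9) (nat_lit 4) (nat_lit 10) (nat_lit 5) (nat_lit 10) (nat_lit 4) (nat_lit 428) (nat_lit 329) (nat_lit 263)) (XT.nd (nat_lit 78) (nat_lit 76) (nat_lit 0) (XT.lf (nat_lit 0) (nat_lit 1557322975) (nat_lit 152) (nat_lit 7739308179) (nat_lit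 76) (nat_lit 63655667172) (nat_lit 8) (nat_lit 5) (nat_lit 10) (nat_lit 5) (nat_lit 9) (nat_lit 4) (nat_lit 429) (nat_lit 329) (nat_lit 262)) (XT.lf (nat_lit 0) (nat_lit 7365277389) (nat_lit 76) (nat_lit 1570179543) (nat_lit 152) (nat_lit 67271847592) (nat_lit 7) (nat_lit 5) (nat_lit 8) (nat_lit 5) (nat_lit 9) (nat_lit 4) (nat_lit 430) (nat_lit 329) (nat_lit 261))))) (XT.nd (nat_lit 234) (nat_lit 76) (nat_lit 0) (XT.nd (nat_lit 78) (nat_lit 0) (nat_lit 0) (XT.lf (nat_lit 0) (nat_lit 16891184734) (nat_lit 152) (nat_lit 56281799866) (nat_lit 0) (nat_lit 6441643844) (nat_lit 7) (nat_lit 5) (nat_lit 9) (nat_lit 4) (nat_lit 7) (nat_lit 4) (nat_lit 431) (nat_lit 329) (nat_lit 260)) (XT.nd (nat_lit 78) (nat_lit 0) (nat_lit 0) (XT.lf (nat_lit 0) (nat_lit 25245031297) (nat_lit 152) (nat_lit 43169567513) (nat_lit 0) (nat_lit 14777704817) (nat_lit 7) (nat_lit 5) (nat_lit 9) (nat_lit 4) (nat_lit 7)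 (nat_lit 4) (nat_lit 432) (nat_lit 329) (nat_lit 259)) (XT.lf (nat_lit 0) (nat_lit 33992371829) (nat_lit 152) (nat_lit 29449595572) (nat_lit 0) (nat_lit 23508106693) (nat_lit 7) (nat_lit 5) (nat_lit 9) (nat_lit 4) (nat_lit 7) (nat_lit 4) (nat_lit 433) (nat_lit 329) (nat_lit 258)))) (XT.nd (nat_lit 78) (nat_lit 76) (nat_lit 0) (XT.lf (nat_lit 0) (nat_lit 43154033331) (nat_lit 152) (nat_lit 15089217444) (nat_lit 0) (nat_lit 32653636141) (nat_lit 7) (nat_lit 5) (nat_lit 9) (nat_lit 4) (nat_lit 7) (nat_lit 4) (nat_lit 434) (nat_lit 329) (nat_lit 257)) (XT.nd (nat_lit 78) (nat_lit 76) (nat_lit 0) (XT.lf (nat_lit 0) (nat_lit 52751829283) (nat_lit 152) (nat_lit 54241752) (nat_lit 0) (nat_lit 42236068232) (nat_lit 7) (nat_lit 5) (nat_lit 9) (nat_lit 4) (nat_lit 7) (nat_lit 4) (nat_lit 435) (nat_lit 329) (nat_lit 256)) (XT.lf (nat_lit 0) (nat_lit 16209948654) (nat_lit 76) (nat_lit 46851745653) (nat_lit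 76) (nat_lit 36321352353) (nat_lit 6) (nat_lit 4) (nat_lit 7) (nat_lit 5) (nat_lit 7) (nat_lit 4) (nat_lit 436) (nat_lit 329) (nat_lit 255)))))) (XT.nd (nat_lit 468) (nat_lit 0) (nat_lit 0) (XT.nd (nat_lit 234) (nat_lit 152) (nat_lit 0) (XT.nd (nat_lit 78) (nat_lit 0) (nat_lit 0) (XT.lf (nat_lit 0) (nat_lit 33248545067) (nat_lit 76) (nat_lit 40618882842) (nat_lit 76) (nat_lit 30074554068) (nat_lit 6) (nat_lit 4) (nat_lit 7) (nat_lit 5) (nat_lit 7) (nat_lit 4) (nat_lit 437) (nat_lit 329) (nat_lit 254)) (XT.nd (nat_lit 78) (nat_lit 0) (nat_lit 0) (XT.lf (nat_lit 0) (nat_lit 51100322097) (nat_lit 76) (nat_lit 34093561064) (nat_lit 76) (nat_lit 23535960409) (nat_lit 6) (nat_lit 4) (nat_lit 7) (nat_lit 5) (nat_lit 7) (nat_lit 4) (nat_lit 438) (nat_lit 329) (nat_lit 253)) (XT.lf (nat_lit 0) (nat_lit 69807783973) (nat_lit 76) (nat_lit 27260243838) (nat_lit 76) (nat_lit 16690003297) (nat_lit 6)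 (nat_lit 4) (nat_lit 7) (nat_lit 5) (nat_lit 7) (nat_lit 4) (nat_lit 439) (nat_lit 329) (nat_lit 252)))) (XT.nd (nat_lit 78) (nat_lit 152) (nat_lit 0) (XT.lf (nat_lit 0) (nat_lit 89415472272) (nat_lit 76) (nat_lit 20102661362) (nat_lit 76) (nat_lit 9520382834) (nat_lit 6) (nat_lit 4) (nat_lit 7) (nat_lit 5) (nat_lit 7) (nat_lit 4) (nat_lit 440) (nat_lit 329) (nat_lit 251)) (XT.nd (nat_lit 78) (nat_lit 152) (nat_lit 0) (XT.lf (nat_lit 0) (nat_lit 109970071967) (nat_lit 76) (nat_lit 12603771772) (nat_lit 76) (nat_lit 2010028495) (nat_lit 6) (nat_lit 4) (nat_lit 7) (nat_lit 5) (nat_lit 7) (nat_lit 4) (nat_lit 441) (nat_lit 329) (nat_lit 250)) (XT.lf (nat_lit 0) (nat_lit 1055530000) (nat_lit 76) (nat_lit 4632368578) (nat_lit 152) (nat_lit 124714005341) (nat_lit 4) (nat_lit 5) (nat_lit 5) (nat_lit 5) (nat_lit 6) (nat_lit 4) (nat_lit 442) (nat_lit 329) (nat_lit 249))))) (XT.nd (nat_lit 234) (nat_lit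 0) (nat_lit 0) (XT.nd (nat_lit 78) (nat_lit 0) (nat_lit 0) (XT.lf (nat_lit 0) (nat_lit 13996748416) (nat_lit 152) (nat_lit 118610596764) (nat_lit 0) (nat_lit 3887166556) (nat_lit 4) (nat_lit 5) (nat_lit 6) (nat_lit 4) (nat_lit 4) (nat_lit 4) (nat_lit 443) (nat_lit 329) (nat_lit 248)) (XT.nd (nat_lit 78) (nat_lit 0) (nat_lit 0) (XT.lf (nat_lit 0) (nat_lit 22781431729) (nat_lit 152) (nat_lit 107444881768) (nat_lit 0) (nat_lit 12662417791) (nat_lit 4) (nat_lit 5) (nat_lit 6) (nat_lit 4) (nat_lit 4) (nat_lit 4) (nat_lit 444) (nat_lit 329) (nat_lit 247)) (XT.lf (nat_lit 0) (nat_lit 31990540174) (nat_lit 152) (nat_lit 95750319642) (nat_lit 0) (nat_lit 21862543306) (nat_lit 4) (nat_lit 5) (nat_lit 6) (nat_lit 4) (nat_lit 4) (nat_lit 4) (nat_lit 445) (nat_lit 329) (nat_lit 246)))) (XT.nd (nat_lit 156) (nat_lit 0) (nat_lit 0) (XT.nd (nat_lit 78) (nat_lit 0) (nat_lit 0) (XT.lf (nat_lit 0) (nat_lit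 41646000201) (nat_lit 152) (nat_lit 83499066189) (nat_lit 0) (nat_lit 31509448160) (nat_lit 4) (nat_lit 5) (nat_lit 6) (nat_lit 4) (nat_lit 4) (nat_lit 4) (nat_lit 446) (nat_lit 329) (nat_lit 245)) (XT.lf (nat_lit 0) (nat_lit 51770801000) (nat_lit 152) (nat_lit 70661951759) (nat_lit 0) (nat_lit 41626101175) (nat_lit 4) (nat_lit 5) (nat_lit 6) (nat_lit 4) (nat_lit 4) (nat_lit 4) (nat_lit 447) (nat_lit 329) (nat_lit 244))) (XT.nd (nat_lit 78) (nat_lit 0) (nat_lit 0) (XT.lf (nat_lit 0) (nat_lit 62389049239) (nat_lit 152) (nat_lit 57208411794) (nat_lit 0) (nat_lit 52236589620) (nat_lit 4) (nat_lit 5) (nat_lit 6) (nat_lit 4) (nat_lit 4) (nat_lit 4) (nat_lit 448) (nat_lit 329) (nat_lit 243)) (XT.lf (nat_lit 0) (nat_lit 73526026461) (nat_lit 152) (nat_lit 43106414055) (nat_lit 0) (nat_lit 63366176563) (nat_lit 4) (nat_lit 5) (nat_lit 6) (nat_lit 4) (nat_lit 4) (nat_lit 4) (nat_lit 449) (nat_lit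 329) (nat_lit 242))))))) (XT.nd (nat_lit 1014) (nat_lit 152) (nat_lit 0) (XT.nd (nat_lit 468) (nat_lit 0) (nat_lit 0) (XT.nd (nat_lit 234) (nat_lit 0) (nat_lit 0) (XT.nd (nat_lit 78) (nat_lit 76) (nat_lit 0) (XT.lf (nat_lit 0) (nat_lit 85208249280) (nat_lit 152) (nat_lit 28322382357) (nat_lit 0) (nat_lit 75041361020) (nat_lit 4) (nat_lit 5) (nat_lit 6) (nat_lit 4) (nat_lit 4) (nat_lit 4) (nat_lit 450) (nat_lit 329) (nat_lit 241)) (XT.nd (nat_lit 78) (nat_lit 76) (nat_lit 0) (XT.lf (nat_lit 0) (nat_lit 97463532512) (nat_lit 152) (nat_lit 12821116625) (nat_lit 0) (nat_lit 87289941050) (nat_lit 4) (nat_lit 5) (nat_lit 6) (nat_lit 4) (nat_lit 4) (nat_lit 4) (nat_lit 451) (nat_lit 329) (nat_lit 240)) (XT.lf (nat_lit 0) (nat_lit 3547844082) (nat_lit 76) (nat_lit 106828603108) (nat_lit 76) (nat_lit 96648627644) (nat_lit 3) (nat_lit 4) (nat_lit 4) (nat_lit 5) (nat_lit 4) (nat_lit 4) (nat_lit 452)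 (nat_lit 329) (nat_lit 239)))) (XT.nd (nat_lit 78) (nat_lit 0) (nat_lit 0) (XT.lf (nat_lit 0) (nat_lit 21159789011) (nat_lit 76) (nat_lit 102982005694) (nat_lit 76) (nat_lit 92795950229) (nat_lit 3) (nat_lit 4) (nat_lit 4) (nat_lit 5) (nat_lit 4) (nat_lit 4) (nat_lit 453) (nat_lit 329) (nat_lit 238)) (XT.nd (nat_lit 78) (nat_lit 0) (nat_lit 0) (XT.lf (nat_lit 0) (nat_lit 39632727345) (nat_lit 76) (nat_lit 98952830146) (nat_lit 76) (nat_lit 88760984204) (nat_lit 3) (nat_lit 4) (nat_lit 4) (nat_lit 5) (nat_lit 4) (nat_lit 4) (nat_lit 454) (nat_lit 329) (nat_lit 237)) (XT.lf (nat_lit 0) (nat_lit 59010642270) (nat_lit 76) (nat_lit 94731483188) (nat_lit 76) (nat_lit 84534122505) (nat_lit 3) (nat_lit 4) (nat_lit 4) (nat_lit 5) (nat_lit 4) (nat_lit 4) (nat_lit 455) (nat_lit 329) (nat_lit 236))))) (XT.nd (nat_lit 234) (nat_lit 0) (nat_lit 0) (XT.nd (nat_lit 78) (nat_lit 0) (nat_lit 0) (XT.lf (nat_lit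 0) (nat_lit 79339671679) (nat_lit 76) (nat_lit 90307913994) (nat_lit 76) (nat_lit 80105301178) (nat_lit 3) (nat_lit 4) (nat_lit 4) (nat_lit 5) (nat_lit 4) (nat_lit 4) (nat_lit 456) (nat_lit 329) (nat_lit 235)) (XT.nd (nat_lit 78) (nat_lit 0) (nat_lit 0) (XT.lf (nat_lit 0) (nat_lit 100668218023) (nat_lit 76) (nat_lit 85671590257) (nat_lit 76) (nat_lit 75463975408) (nat_lit 3) (nat_lit 4) (nat_lit 4) (nat_lit 5) (nat_lit 4) (nat_lit 4) (nat_lit 457) (nat_lit 329) (nat_lit 234)) (XT.lf (nat_lit 0) (nat_lit 123047063555) (nat_lit 76) (nat_lit 80811473110) (nat_lit 76) (nat_lit 70599094421) (nat_lit 3) (nat_lit 4) (nat_lit 4) (nat_lit 5) (nat_lit 4) (nat_lit 4) (nat_lit 458) (nat_lit 329) (nat_lit 233)))) (XT.nd (nat_lit 156) (nat_lit 0) (nat_lit 0) (XT.nd (nat_lit 78) (nat_lit 0) (nat_lit 0) (XT.lf (nat_lit 0) (nat_lit 146529491241) (nat_lit 76) (nat_lit 75715990846) (nat_lit 76) (nat_lit 65499075166)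 (nat_lit 3) (nat_lit 4) (nat_lit 4) (nat_lit 5) (nat_lit 4) (nat_lit 4) (nat_lit 459) (nat_lit 329) (nat_lit 232)) (XT.lf (nat_lit 0) (nat_lit 171171411623) (nat_lit 76) (nat_lit 70373011364) (nat_lit 76) (nat_lit 60151774741) (nat_lit 3) (nat_lit 4) (nat_lit 4) (nat_lit 5) (nat_lit 4) (nat_lit 4) (nat_lit 460) (nat_lit 329) (nat_lit 231))) (XT.nd (nat_lit 78) (nat_lit 0) (nat_lit 0) (XT.lf (nat_lit 0) (nat_lit 197031495940) (nat_lit 76) (nat_lit 64769813286) (nat_lit 76) (nat_lit 54544461478) (nat_lit 3) (nat_lit 4) (nat_lit 4) (nat_lit 5) (nat_lit 4) (nat_lit 4) (nat_lit 461) (nat_lit 329) (nat_lit 230)) (XT.lf (nat_lit 0) (nat_lit 224171315820) (nat_lit 76) (nat_lit 58893055661) (nat_lit 76) (nat_lit 48663784631) (nat_lit 3) (nat_lit 4) (nat_lit 4) (nat_lit 5) (nat_lit 4) (nat_lit 4) (nat_lit 462) (nat_lit 329) (nat_lit 229)))))) (XT.nd (nat_lit 468) (nat_lit 152) (nat_lit 0) (XT.nd (nat_lit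 234) (nat_lit 0) (nat_lit 0) (XT.nd (nat_lit 78) (nat_lit 0) (nat_lit 0) (XT.lf (nat_lit 0) (nat_lit 252655489884) (nat_lit 76) (nat_lit 52728746212) (nat_lit 76) (nat_lit 42495742588) (nat_lit 3) (nat_lit 4) (nat_lit 4) (nat_lit 5) (nat_lit 4) (nat_lit 4) (nat_lit 463) (nat_lit 329) (nat_lit 228)) (XT.nd (nat_lit 78) (nat_lit 0) (nat_lit 0) (XT.lf (nat_lit 0) (nat_lit 282551837592) (nat_lit 76) (nat_lit 46262208010) (nat_lit 76) (nat_lit 36025649535) (nat_lit 3) (nat_lit 4) (nat_lit 4) (nat_lit 5) (nat_lit 4) (nat_lit 4) (nat_lit 464) (nat_lit 329) (nat_lit 227)) (XT.lf (nat_lit 0) (nat_lit 313931540726) (nat_lit 76) (nat_lit 39478044536) (nat_lit 76) (nat_lit 29238100489) (nat_lit 3) (nat_lit 4) (nat_lit 4) (nat_lit 5) (nat_lit 4) (nat_lit 4) (nat_lit 465) (nat_lit 329) (nat_lit 226)))) (XT.nd (nat_lit 78) (nat_lit 0) (nat_lit 0) (XT.lf (nat_lit 0) (nat_lit 346869312864) (nat_lit 76) (nat_lit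 32360103020) (nat_lit 76) (nat_lit 22116934618) (nat_lit 3) (nat_lit 4) (nat_lit 4) (nat_lit 5) (nat_lit 4) (nat_lit 4) (nat_lit 466) (nat_lit 329) (nat_lit 225)) (XT.nd (nat_lit 78) (nat_lit 0) (nat_lit 0) (XT.lf (nat_lit 0) (nat_lit 381443577273) (nat_lit 76) (nat_lit 24891435982) (nat_lit 76) (nat_lit 14645196766) (nat_lit 3) (nat_lit 4) (nat_lit 4) (nat_lit 5) (nat_lit 4) (nat_lit 4) (nat_lit 467) (nat_lit 329) (nat_lit 224)) (XT.lf (nat_lit 0) (nat_lit 417736653630) (nat_lit 76) (nat_lit 17054260881) (nat_lit 76) (nat_lit 6805097081) (nat_lit 3) (nat_lit 4) (nat_lit 4) (nat_lit 5) (nat_lit 4) (nat_lit 4) (nat_lit 468) (nat_lit 329) (nat_lit 223))))) (XT.nd (nat_lit 234) (nat_lit 0) (nat_lit 0) (XT.nd (nat_lit 78) (nat_lit 76) (nat_lit 0) (XT.lf (nat_lit 0) (nat_lit 1376517457) (nat_lit 152) (nat_lit 7430088330) (nat_lit 76) (nat_lit 454435124576) (nat_lit 2) (nat_lit 5) (nat_lit 4)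 (nat_lit 5) (nat_lit 3) (nat_lit 4) (nat_lit 469) (nat_lit 329) (nat_lit 222)) (XT.nd (nat_lit 78) (nat_lit 0) (nat_lit 0) (XT.lf (nat_lit 0) (nat_lit 9892414405) (nat_lit 152) (nat_lit 475937921108) (nat_lit 0) (nat_lit 126126972) (nat_lit 1) (nat_lit 5) (nat_lit 3) (nat_lit 4) (nat_lit 1) (nat_lit 4) (nat_lit 470) (nat_lit 329) (nat_lit 221)) (XT.lf (nat_lit 0) (nat_lit 19101792441) (nat_lit 152) (nat_lit 481358655742) (nat_lit 0) (nat_lit 9333098946) (nat_lit 1) (nat_lit 5) (nat_lit 3) (nat_lit 4) (nat_lit 1) (nat_lit 4) (nat_lit 471) (nat_lit 329) (nat_lit 220)))) (XT.nd (nat_lit 156) (nat_lit 0) (nat_lit 0) (XT.nd (nat_lit 78) (nat_lit 0) (nat_lit 0) (XT.lf (nat_lit 0) (nat_lit 28767278134) (nat_lit 152) (nat_lit 487059133002) (nat_lit 0) (nat_lit 18996293150) (nat_lit 1) (nat_lit 5) (nat_lit 3) (nat_lit 4) (nat_lit 1) (nat_lit 4) (nat_lit 472) (nat_lit 329) (nat_lit 219)) (XT.lf (nat_lit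 0) (nat_lit 38911884544) (nat_lit 152) (nat_lit 493052925451) (nat_lit 0) (nat_lit 29138717190) (nat_lit 1) (nat_lit 5) (nat_lit 3) (nat_lit 4) (nat_lit 1) (nat_lit 4) (nat_lit 473) (nat_lit 329) (nat_lit 218))) (XT.nd (nat_lit 78) (nat_lit 0) (nat_lit 0) (XT.lf (nat_lit 0) (nat_lit 49559765496) (nat_lit 152) (nat_lit 499354304025) (nat_lit 0) (nat_lit 39784519694) (nat_lit 1) (nat_lit 5) (nat_lit 3) (nat_lit 4) (nat_lit 1) (nat_lit 4) (nat_lit 474) (nat_lit 329) (nat_lit 217)) (XT.lf (nat_lit 0) (nat_lit 60736273087) (nat_lit 152) (nat_lit 505978272005) (nat_lit 0) (nat_lit 50959047812) (nat_lit 1) (nat_lit 5) (nat_lit 3) (nat_lit 4) (nat_lit 1) (nat_lit 4) (nat_lit 475) (nat_lit 329) (nat_lit 216))))))))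
noncomputable def xc71 : XT := (XT.nd (nat_lit 45708) (nat_lit 0) (nat_lit 1368) (XT.nd (nat_lit 44694) (nat_lit 0) (nat_lit 3420) (XT.nd (nat_lit 44226) (nat_lit 0) (nat_lit 5472) (XT.nd (nat_lit 234) (nat_lit 0) (nat_lit 0) (XT.nd (nat_lit 78) (nat_lit 0) (nat_lit 0) (XT.lf (nat_lit 0) (nat_lit 72468018051) (nat_lit 152) (nat_lit 512940600745) (nat_lit 0) (nat_lit 62688907562) (nat_lit 1) (nat_lit 5) (nat_lit 3) (nat_lit 4) (nat_lit 1) (nat_lit 4) (nat_lit 476) (nat_lit 329) (nat_lit 215)) (XT.nd (nat_lit 78) (nat_lit 0) (nat_lit 0) (XT.lf (nat_lit 0) (nat_lit 84782933112) (nat_lit 152) (nat_lit 520257867217) (nat_lit 0) (nat_lit 75002027182) (nat_lit 1) (nat_lit 5) (nat_lit 3) (nat_lit 4) (nat_lit 1) (nat_lit 4) (nat_lit 477) (nat_lit 329) (nat_lit 214)) (XT.lf (nat_lit 0) (nat_lit 97710339498) (nat_lit 152) (nat_lit 527947493484) (nat_lit 0) (nat_lit 87927723623) (nat_lit 1) (nat_lit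 5) (nat_lit 3) (nat_lit 4) (nat_lit 1) (nat_lit 4) (nat_lit 478) (nat_lit 329) (nat_lit 213)))) (XT.nd (nat_lit 43836) (nat_lit 0) (nat_lit 7068) (XT.lf (nat_lit 0) (nat_lit 111281016747) (nat_lit 152) (nat_lit 536027788181) (nat_lit 0) (nat_lit 101496772354) (nat_lit 1) (nat_lit 5) (nat_lit 3) (nat_lit 4) (nat_lit 1) (nat_lit 4) (nat_lit 479) (nat_lit 329) (nat_lit 212)) (XT.nd (nat_lit 78) (nat_lit 380) (nat_lit 0) (XT.lf (nat_lit 0) (nat_lit 1701376667) (nat_lit 380) (nat_lit 416861568) (nat_lit 0) (nat_lit 1701376667) (nat_lit 99) (nat_lit 5) (nat_lit 104) (nat_lit 4) (nat_lit 99) (nat_lit 4) (nat_lit 360) (nat_lit 330) (nat_lit 330)) (XT.lf (nat_lit 0) (nat_lit 5182275406) (nat_lit 380) (nat_lit 1975706172) (nat_lit 380) (nat_lit 608242239) (nat_lit 94) (nat_lit 4) (nat_lit 99) (nat_lit 5) (nat_lit 99) (nat_lit 4) (nat_lit 361) (nat_lit 330) (nat_lit 329))))) (XT.nd (nat_lit 234) (nat_lit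 836) (nat_lit 0) (XT.nd (nat_lit 78) (nat_lit 380) (nat_lit 0) (XT.lf (nat_lit 0) (nat_lit 3014167541) (nat_lit 380) (nat_lit 4415766163) (nat_lit 0) (nat_lit 471490839) (nat_lit 89) (nat_lit 5) (nat_lit 94) (nat_lit 4) (nat_lit 89) (nat_lit 4) (nat_lit 362) (nat_lit 330) (nat_lit 328)) (XT.nd (nat_lit 78) (nat_lit 76) (nat_lit 0) (XT.lf (nat_lit 0) (nat_lit 1717863108) (nat_lit 304) (nat_lit 5025877455) (nat_lit 304) (nat_lit 1301933994) (nat_lit 85) (nat_lit 4) (nat_lit 89) (nat_lit 5) (nat_lit 89) (nat_lit 4) (nat_lit 363) (nat_lit 330) (nat_lit 327)) (XT.lf (nat_lit 0) (nat_lit 2304425906) (nat_lit 380) (nat_lit 124886315) (nat_lit 76) (nat_lit 5769974433) (nat_lit 84) (nat_lit 5) (nat_lit 89) (nat_lit 5) (nat_lit 85) (nat_lit 4) (nat_lit 364) (nat_lit 330) (nat_lit 326)))) (XT.nd (nat_lit 78) (nat_lit 608) (nat_lit 0) (XT.lf (nat_lit 0) (nat_lit 6004809917) (nat_lit 304) (nat_lit 1990595362)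 (nat_lit 0) (nat_lit 366330681) (nat_lit 81) (nat_lit 5) (nat_lit 85) (nat_lit 4) (nat_lit 81) (nat_lit 4) (nat_lit 365) (nat_lit 330) (nat_lit 325)) (XT.nd (nat_lit 78) (nat_lit 228) (nat_lit 0) (XT.lf (nat_lit 0) (nat_lit 1282553098) (nat_lit 380) (nat_lit 3981076471) (nat_lit 76) (nat_lit 3269300423) (nat_lit 76) (nat_lit 5) (nat_lit 81) (nat_lit 5) (nat_lit 77) (nat_lit 4) (nat_lit 366) (nat_lit 330) (nat_lit 324)) (XT.lf (nat_lit 0) (nat_lit 2625691304) (nat_lit 228) (nat_lit 2331164814) (nat_lit 304) (nat_lit 3757376367) (nat_lit 73) (nat_lit 5) (nat_lit 76) (nat_lit 5) (nat_lit 77) (nat_lit 4) (nat_lit 367) (nat_lit 330) (nat_lit 323)))))) (XT.nd (nat_lit 468) (nat_lit 1064) (nat_lit 0) (XT.nd (nat_lit 234) (nat_lit 456) (nat_lit 0) (XT.nd (nat_lit 78) (nat_lit 304) (nat_lit 0) (XT.lf (nat_lit 0) (nat_lit 604690314) (nat_lit 228) (nat_lit 8159519951) (nat_lit 228) (nat_lit 143002634)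 (nat_lit 70) (nat_lit 4) (nat_lit 73) (nat_lit 5) (nat_lit 73) (nat_lit 4) (nat_lit 368) (nat_lit 330) (nat_lit 322)) (XT.nd (nat_lit 78) (nat_lit 228) (nat_lit 0) (XT.lf (nat_lit 0) (nat_lit 3539178690) (nat_lit 304) (nat_lit 1560728841) (nat_lit 76) (nat_lit 4006957098) (nat_lit 69) (nat_lit 5) (nat_lit 73) (nat_lit 5) (nat_lit 70) (nat_lit 4) (nat_lit 369) (nat_lit 330) (nat_lit 321)) (XT.lf (nat_lit 0) (nat_lit 5498382998) (nat_lit 228) (nat_lit 1855706387) (nat_lit 304) (nat_lit 1964689794) (nat_lit 66) (nat_lit 5) (nat_lit 69) (nat_lit 5) (nat_lit 70) (nat_lit 4) (nat_lit 370) (nat_lit 330) (nat_lit 320)))) (XT.nd (nat_lit 78) (nat_lit 152) (nat_lit 0) (XT.lf (nat_lit 0) (nat_lit 1732459605) (nat_lit 304) (nat_lit 6260548821) (nat_lit 76) (nat_lit 1548313565) (nat_lit 62) (nat_lit 5) (nat_lit 66) (nat_lit 5) (nat_lit 63) (nat_lit 4) (nat_lit 371) (nat_lit 330) (nat_lit 319)) (XT.nd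 (nat_lit 78) (nat_lit 0) (nat_lit 0) (XT.lf (nat_lit 0) (nat_lit 864849973) (nat_lit 152) (nat_lit 4664279060) (nat_lit 228) (nat_lit 4245277452) (nat_lit 60) (nat_lit 5) (nat_lit 62) (nat_lit 5) (nat_lit 63) (nat_lit 4) (nat_lit 372) (nat_lit 330) (nat_lit 318)) (XT.lf (nat_lit 0) (nat_lit 8370028462) (nat_lit 152) (nat_lit 1125749095) (nat_lit 228) (nat_lit 524416931) (nat_lit 60) (nat_lit 5) (nat_lit 62) (nat_lit 5) (nat_lit 63) (nat_lit 4) (nat_lit 373) (nat_lit 330) (nat_lit 317))))) (XT.nd (nat_lit 234) (nat_lit 380) (nat_lit 0) (XT.nd (nat_lit 78) (nat_lit 380) (nat_lit 0) (XT.lf (nat_lit 0) (nat_lit 3286524189) (nat_lit 304) (nat_lit 4398754473) (nat_lit 76) (nat_lit 2589789116) (nat_lit 56) (nat_lit 5) (nat_lit 60) (nat_lit 5) (nat_lit 57) (nat_lit 4) (nat_lit 374) (nat_lit 330) (nat_lit 316)) (XT.nd (nat_lit 78) (nat_lit 228) (nat_lit 0) (XT.lf (nat_lit 0) (nat_lit 3178740387)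 (nat_lit 152) (nat_lit 4068099301) (nat_lit 228) (nat_lit 3296641500) (nat_lit 54) (nat_lit 5) (nat_lit 56) (nat_lit 5) (nat_lit 57) (nat_lit 4) (nat_lit 375) (nat_lit 330) (nat_lit 315)) (XT.lf (nat_lit 0) (nat_lit 273183299) (nat_lit 152) (nat_lit 248878501) (nat_lit 228) (nat_lit 10304806875) (nat_lit 51) (nat_lit 5) (nat_lit 53) (nat_lit 5) (nat_lit 54) (nat_lit 5) (nat_lit 376) (nat_lit 330) (nat_lit 314)))) (XT.nd (nat_lit 156) (nat_lit 228) (nat_lit 0) (XT.nd (nat_lit 78) (nat_lit 152) (nat_lit 0) (XT.lf (nat_lit 0) (nat_lit 4488801492) (nat_lit 228) (nat_lit 2877485023) (nat_lit 76) (nat_lit 3752084567) (nat_lit 51) (nat_lit 5) (nat_lit 54) (nat_lit 5) (nat_lit 52) (nat_lit 4) (nat_lit 377) (nat_lit 330) (nat_lit 313)) (XT.lf (nat_lit 0) (nat_lit 5159609808) (nat_lit 152) (nat_lit 3466899903) (nat_lit 228) (nat_lit 2799347521) (nat_lit 49) (nat_lit 5) (nat_lit 51) (nat_lit 5) (nat_lit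 52) (nat_lit 4) (nat_lit 378) (nat_lit 330) (nat_lit 312))) (XT.nd (nat_lit 78) (nat_lit 0) (nat_lit 0) (XT.lf (nat_lit 0) (nat_lit 1159887100) (nat_lit 228) (nat_lit 9954366477) (nat_lit 76) (nat_lit 634715060) (nat_lit 46) (nat_lit 5) (nat_lit 49) (nat_lit 5) (nat_lit 47) (nat_lit 4) (nat_lit 379) (nat_lit 330) (nat_lit 311)) (XT.lf (nat_lit 0) (nat_lit 5277700033) (nat_lit 228) (nat_lit 1897436527) (nat_lit 76) (nat_lit 4908104582) (nat_lit 46) (nat_lit 5) (nat_lit 49) (nat_lit 5) (nat_lit 47) (nat_lit 4) (nat_lit 380) (nat_lit 330) (nat_lit 310))))))) (XT.nd (nat_lit 1014) (nat_lit 684) (nat_lit 0) (XT.nd (nat_lit 468) (nat_lit 684) (nat_lit 0) (XT.nd (nat_lit 234) (nat_lit 304) (nat_lit 0) (XT.nd (nat_lit 78) (nat_lit 228) (nat_lit 0) (XT.lf (nat_lit 0) (nat_lit 6596235777) (nat_lit 152) (nat_lit 3003388754) (nat_lit 228) (nat_lit 2834724768) (nat_lit 44) (nat_lit 5) (nat_lit 46) (nat_lit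 5) (nat_lit 47) (nat_lit 4) (nat_lit 381) (nat_lit 330) (nat_lit 309)) (XT.nd (nat_lit 78) (nat_lit 0) (nat_lit 0) (XT.lf (nat_lit 0) (nat_lit 1283885549) (nat_lit 228) (nat_lit 10160249727) (nat_lit 76) (nat_lit 1358267229) (nat_lit 41) (nat_lit 5) (nat_lit 44) (nat_lit 5) (nat_lit 42) (nat_lit 4) (nat_lit 382) (nat_lit 330) (nat_lit 308)) (XT.lf (nat_lit 0) (nat_lit 5559770751) (nat_lit 228) (nat_lit 1711085379) (nat_lit 76) (nat_lit 5913376782) (nat_lit 41) (nat_lit 5) (nat_lit 44) (nat_lit 5) (nat_lit 42) (nat_lit 4) (nat_lit 383) (nat_lit 330) (nat_lit 307)))) (XT.nd (nat_lit 78) (nat_lit 228) (nat_lit 0) (XT.lf (nat_lit 0) (nat_lit 7221221893) (nat_lit 76) (nat_lit 2842763935) (nat_lit 152) (nat_lit 3520469441) (nat_lit 40) (nat_lit 5) (nat_lit 41) (nat_lit 5) (nat_lit 42) (nat_lit 4) (nat_lit 384) (nat_lit 330) (nat_lit 306)) (XT.nd (nat_lit 78) (nat_lit 0) (nat_lit 0) (XT.lf (nat_lit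 0) (nat_lit 763465271) (nat_lit 228) (nat_lit 11479594734) (nat_lit 76) (nat_lit 1761038387) (nat_lit 37) (nat_lit 5) (nat_lit 40) (nat_lit 5) (nat_lit 38) (nat_lit 4) (nat_lit 385) (nat_lit 330) (nat_lit 305)) (XT.lf (nat_lit 0) (nat_lit 5202566313) (nat_lit 228) (nat_lit 2639740921) (nat_lit 76) (nat_lit 6596590288) (nat_lit 37) (nat_lit 5) (nat_lit 40) (nat_lit 5) (nat_lit 38) (nat_lit 4) (nat_lit 386) (nat_lit 330) (nat_lit 304))))) (XT.nd (nat_lit 234) (nat_lit 380) (nat_lit 0) (XT.nd (nat_lit 78) (nat_lit 228) (nat_lit 0) (XT.lf (nat_lit 0) (nat_lit 6692627475) (nat_lit 76) (nat_lit 3183244362) (nat_lit 152) (nat_lit 5018974686) (nat_lit 36) (nat_lit 5) (nat_lit 37) (nat_lit 5) (nat_lit 38) (nat_lit 4) (nat_lit 387) (nat_lit 330) (nat_lit 303)) (XT.nd (nat_lit 78) (nat_lit 76) (nat_lit 0) (XT.lf (nat_lit 0) (nat_lit 1053737139) (nat_lit 152) (nat_lit 13726207492) (nat_lit 152) (nat_lit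 593814560) (nat_lit 34) (nat_lit 4) (nat_lit 36) (nat_lit 5) (nat_lit 36) (nat_lit 4) (nat_lit 388) (nat_lit 330) (nat_lit 302)) (XT.lf (nat_lit 0) (nat_lit 4025138206) (nat_lit 228) (nat_lit 5095011797) (nat_lit 76) (nat_lit 6748211041) (nat_lit 33) (nat_lit 5) (nat_lit 36) (nat_lit 5) (nat_lit 34) (nat_lit 4) (nat_lit 389) (nat_lit 330) (nat_lit 301)))) (XT.nd (nat_lit 156) (nat_lit 304) (nat_lit 0) (XT.nd (nat_lit 78) (nat_lit 0) (nat_lit 0) (XT.lf (nat_lit 0) (nat_lit 4570799513) (nat_lit 76) (nat_lit 4268858583) (nat_lit 152) (nat_lit 7548337798) (nat_lit 32) (nat_lit 5) (nat_lit 33) (nat_lit 5) (nat_lit 34) (nat_lit 4) (nat_lit 390) (nat_lit 330) (nat_lit 300)) (XT.lf (nat_lit 0) (nat_lit 13909335324) (nat_lit 152) (nat_lit 2204468222) (nat_lit 0) (nat_lit 819104912) (nat_lit 32) (nat_lit 5) (nat_lit 34) (nat_lit 4) (nat_lit 32) (nat_lit 4) (nat_lit 391) (nat_lit 330) (nat_lit 299)))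 (XT.nd (nat_lit 78) (nat_lit 76) (nat_lit 0) (XT.lf (nat_lit 0) (nat_lit 1785578079) (nat_lit 228) (nat_lit 9605978884) (nat_lit 76) (nat_lit 6106505253) (nat_lit 29) (nat_lit 5) (nat_lit 32) (nat_lit 5) (nat_lit 30) (nat_lit 4) (nat_lit 392) (nat_lit 330) (nat_lit 298)) (XT.lf (nat_lit 0) (nat_lit 289007643) (nat_lit 76) (nat_lit 6405243787) (nat_lit 152) (nat_lit 11396725220) (nat_lit 28) (nat_lit 5) (nat_lit 29) (nat_lit 5) (nat_lit 30) (nat_lit 4) (nat_lit 393) (nat_lit 330) (nat_lit 297)))))) (XT.nd (nat_lit 468) (nat_lit 380) (nat_lit 0) (XT.nd (nat_lit 234) (nat_lit 152) (nat_lit 0) (XT.nd (nat_lit 78) (nat_lit 152) (nat_lit 0) (XT.lf (nat_lit 0) (nat_lit 10864214806) (nat_lit 76) (nat_lit 1066627269) (nat_lit 152) (nat_lit 6778584979) (nat_lit 28) (nat_lit 5) (nat_lit 29) (nat_lit 5) (nat_lit 30) (nat_lit 4) (nat_lit 394) (nat_lit 330) (nat_lit 296)) (XT.nd (nat_lit 78) (nat_lit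 76) (nat_lit 0) (XT.lf (nat_lit 0) (nat_lit 2473895336) (nat_lit 76) (nat_lit 14987468748) (nat_lit 76) (nat_lit 1895844546) (nat_lit 27) (nat_lit 4) (nat_lit 28) (nat_lit 5) (nat_lit 28) (nat_lit 4) (nat_lit 395) (nat_lit 330) (nat_lit 295)) (XT.lf (nat_lit 0) (nat_lit 3202977113) (nat_lit 152) (nat_lit 6663565528) (nat_lit 76) (nat_lit 10164558962) (nat_lit 26) (nat_lit 5) (nat_lit 28) (nat_lit 5) (nat_lit 27) (nat_lit 4) (nat_lit 396) (nat_lit 330) (nat_lit 294)))) (XT.nd (nat_lit 78) (nat_lit 76) (nat_lit 0) (XT.lf (nat_lit 0) (nat_lit 4027818429) (nat_lit 76) (nat_lit 4454600061) (nat_lit 152) (nat_lit 12255259062) (nat_lit 25) (nat_lit 5) (nat_lit 26) (nat_lit 5) (nat_lit 27) (nat_lit 4) (nat_lit 397) (nat_lit 330) (nat_lit 293)) (XT.nd (nat_lit 78) (nat_lit 76) (nat_lit 0) (XT.lf (nat_lit 0) (nat_lit 14086620915) (nat_lit 152) (nat_lit 6147455020) (nat_lit 0) (nat_lit 1242478223)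 (nat_lit 25) (nat_lit 5) (nat_lit 27) (nat_lit 4) (nat_lit 25) (nat_lit 4) (nat_lit 398) (nat_lit 330) (nat_lit 292)) (XT.lf (nat_lit 0) (nat_lit 4895678981) (nat_lit 76) (nat_lit 15155212816) (nat_lit 76) (nat_lit 2197500646) (nat_lit 24) (nat_lit 4) (nat_lit 25) (nat_lit 5) (nat_lit 25) (nat_lit 4) (nat_lit 399) (nat_lit 330) (nat_lit 291))))) (XT.nd (nat_lit 234) (nat_lit 228) (nat_lit 0) (XT.nd (nat_lit 78) (nat_lit 76) (nat_lit 0) (XT.lf (nat_lit 0) (nat_lit 3186772879) (nat_lit 152) (nat_lit 6532989174) (nat_lit 76) (nat_lit 13334710454) (nat_lit 23) (nat_lit 5) (nat_lit 25) (nat_lit 5) (nat_lit 24) (nat_lit 4) (nat_lit 400) (nat_lit 330) (nat_lit 290)) (XT.nd (nat_lit 78) (nat_lit 0) (nat_lit 0) (XT.lf (nat_lit 0) (nat_lit 4821000713) (nat_lit 76) (nat_lit 3954553020) (nat_lit 152) (nat_lit 15123053708) (nat_lit 22) (nat_lit 5) (nat_lit 23) (nat_lit 5) (nat_lit 24) (nat_lit 4) (nat_lit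 401) (nat_lit 330) (nat_lit 289)) (XT.lf (nat_lit 0) (nat_lit 14723193293) (nat_lit 152) (nat_lit 7969829008) (nat_lit 0) (nat_lit 2087964697) (nat_lit 22) (nat_lit 5) (nat_lit 24) (nat_lit 4) (nat_lit 22) (nat_lit 4) (nat_lit 402) (nat_lit 330) (nat_lit 288)))) (XT.nd (nat_lit 156) (nat_lit 76) (nat_lit 0) (XT.nd (nat_lit 78) (nat_lit 76) (nat_lit 0) (XT.lf (nat_lit 0) (nat_lit 3625176331) (nat_lit 76) (nat_lit 17401796496) (nat_lit 76) (nat_lit 4677583242) (nat_lit 21) (nat_lit 4) (nat_lit 22) (nat_lit 5) (nat_lit 22) (nat_lit 4) (nat_lit 403) (nat_lit 330) (nat_lit 287)) (XT.lf (nat_lit 0) (nat_lit 1015189439) (nat_lit 152) (nat_lit 10727822196) (nat_lit 76) (nat_lit 14926808603) (nat_lit 20) (nat_lit 5) (nat_lit 22) (nat_lit 5) (nat_lit 21) (nat_lit 4) (nat_lit 404) (nat_lit 330) (nat_lit 286))) (XT.nd (nat_lit 78) (nat_lit 0) (nat_lit 0) (XT.lf (nat_lit 0) (nat_lit 1033902887) (nat_lit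 76) (nat_lit 5758084986) (nat_lit 152) (nat_lit 20889703715) (nat_lit 19) (nat_lit 5) (nat_lit 20) (nat_lit 5) (nat_lit 21) (nat_lit 4) (nat_lit 405) (nat_lit 330) (nat_lit 285)) (XT.lf (nat_lit 0) (nat_lit 12991193817) (nat_lit 152) (nat_lit 15104183670) (nat_lit 0) (nat_lit 642107582) (nat_lit 19) (nat_lit 5) (nat_lit 21) (nat_lit 4) (nat_lit 19) (nat_lit 4) (nat_lit 406) (nat_lit 330) (nat_lit 284))))))))
noncomputable def xc72 : XT := (XT.nd (nat_lit 1950) (nat_lit 304) (nat_lit 0) (XT.nd (nat_lit 936) (nat_lit 456) (nat_lit 0) (XT.nd (nat_lit 468) (nat_lit 228) (nat_lit 0) (XT.nd (nat_lit 234) (nat_lit 76) (nat_lit 0) (XT.nd (nat_lit 78) (nat_lit 152) (nat_lit 0) (XT.lf (nat_lit 0) (nat_lit 19538273601) (nat_lit 152) (nat_lit 3186439995) (nat_lit 0) (nat_lit 7119465559) (nat_lit 19) (nat_lit 5) (nat_lit 21) (nat_lit 4) (nat_lit 19) (nat_lit 4) (nat_lit 407) (nat_lit 330) (nat_lit 283))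 (XT.nd (nat_lit 78) (nat_lit 76) (nat_lit 0) (XT.lf (nat_lit 0) (nat_lit 9528695510) (nat_lit 76) (nat_lit 16978989800) (nat_lit 76) (nat_lit 4493780036) (nat_lit 18) (nat_lit 4) (nat_lit 19) (nat_lit 5) (nat_lit 19) (nat_lit 4) (nat_lit 408) (nat_lit 330) (nat_lit 282)) (XT.lf (nat_lit 0) (nat_lit 1558612466) (nat_lit 152) (nat_lit 9353293941) (nat_lit 76) (nat_lit 21303401275) (nat_lit 17) (nat_lit 5) (nat_lit 19) (nat_lit 5) (nat_lit 18) (nat_lit 4) (nat_lit 409) (nat_lit 330) (nat_lit 281)))) (XT.nd (nat_lit 78) (nat_lit 0) (nat_lit 0) (XT.lf (nat_lit 0) (nat_lit 3305635651) (nat_lit 76) (nat_lit 4457444089) (nat_lit 152) (nat_lit 25723060628) (nat_lit 16) (nat_lit 5) (nat_lit 17) (nat_lit 5) (nat_lit 18) (nat_lit 4) (nat_lit 410) (nat_lit 330) (nat_lit 280)) (XT.nd (nat_lit 78) (nat_lit 0) (nat_lit 0) (XT.lf (nat_lit 0) (nat_lit 14424040928) (nat_lit 152) (nat_lit 18028017931) (nat_lit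 0) (nat_lit 2361147480) (nat_lit 16) (nat_lit 5) (nat_lit 18) (nat_lit 4) (nat_lit 16) (nat_lit 4) (nat_lit 411) (nat_lit 330) (nat_lit 279)) (XT.lf (nat_lit 0) (nat_lit 21442602614) (nat_lit 152) (nat_lit 5435118625) (nat_lit 0) (nat_lit 9327681680) (nat_lit 16) (nat_lit 5) (nat_lit 18) (nat_lit 4) (nat_lit 16) (nat_lit 4) (nat_lit 412) (nat_lit 330) (nat_lit 278))))) (XT.nd (nat_lit 234) (nat_lit 76) (nat_lit 0) (XT.nd (nat_lit 78) (nat_lit 76) (nat_lit 0) (XT.lf (nat_lit 0) (nat_lit 7952292511) (nat_lit 76) (nat_lit 20937747527) (nat_lit 76) (nat_lit 8773276606) (nat_lit 15) (nat_lit 4) (nat_lit 16) (nat_lit 5) (nat_lit 16) (nat_lit 4) (nat_lit 413) (nat_lit 330) (nat_lit 277)) (XT.nd (nat_lit 78) (nat_lit 76) (nat_lit 0) (XT.lf (nat_lit 0) (nat_lit 22109559160) (nat_lit 76) (nat_lit 14646949884) (nat_lit 76) (nat_lit 2435288499) (nat_lit 15) (nat_lit 4) (nat_lit 16) (nat_lit 5) (nat_lit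 16) (nat_lit 4) (nat_lit 414) (nat_lit 330) (nat_lit 276)) (XT.lf (nat_lit 0) (nat_lit 4040607370) (nat_lit 152) (nat_lit 3973359573) (nat_lit 76) (nat_lit 32781642520) (nat_lit 14) (nat_lit 5) (nat_lit 16) (nat_lit 5) (nat_lit 15) (nat_lit 4) (nat_lit 415) (nat_lit 330) (nat_lit 275)))) (XT.nd (nat_lit 78) (nat_lit 0) (nat_lit 0) (XT.lf (nat_lit 0) (nat_lit 9989365878) (nat_lit 76) (nat_lit 883206660) (nat_lit 152) (nat_lit 31599341361) (nat_lit 13) (nat_lit 5) (nat_lit 14) (nat_lit 5) (nat_lit 15) (nat_lit 4) (nat_lit 416) (nat_lit 330) (nat_lit 274)) (XT.nd (nat_lit 78) (nat_lit 0) (nat_lit 0) (XT.lf (nat_lit 0) (nat_lit 18175926142) (nat_lit 152) (nat_lit 19626240894) (nat_lit 0) (nat_lit 6423380692) (nat_lit 13) (nat_lit 5) (nat_lit 15) (nat_lit 4) (nat_lit 13) (nat_lit 4) (nat_lit 417) (nat_lit 330) (nat_lit 273)) (XT.lf (nat_lit 0) (nat_lit 25819200418) (nat_lit 152) (nat_lit 6219248679)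 (nat_lit 0) (nat_lit 14029680005) (nat_lit 13) (nat_lit 5) (nat_lit 15) (nat_lit 4) (nat_lit 13) (nat_lit 4) (nat_lit 418) (nat_lit 330) (nat_lit 272)))))) (XT.nd (nat_lit 468) (nat_lit 228) (nat_lit 0) (XT.nd (nat_lit 234) (nat_lit 152) (nat_lit 0) (XT.nd (nat_lit 78) (nat_lit 0) (nat_lit 0) (XT.lf (nat_lit 0) (nat_lit 8041518164) (nat_lit 76) (nat_lit 25890836779) (nat_lit 76) (nat_lit 14066102116) (nat_lit 12) (nat_lit 4) (nat_lit 13) (nat_lit 5) (nat_lit 13) (nat_lit 4) (nat_lit 419) (nat_lit 330) (nat_lit 271)) (XT.nd (nat_lit 78) (nat_lit 0) (nat_lit 0) (XT.lf (nat_lit 0) (nat_lit 23158480642) (nat_lit 76) (nat_lit 19360844061) (nat_lit 76) (nat_lit 7502572015) (nat_lit 12) (nat_lit 4) (nat_lit 13) (nat_lit 5) (nat_lit 13) (nat_lit 4) (nat_lit 420) (nat_lit 330) (nat_lit 270)) (XT.lf (nat_lit 0) (nat_lit 38961995072) (nat_lit 76) (nat_lit 12538249326) (nat_lit 76) (nat_lit 648036917)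 (nat_lit 12) (nat_lit 4) (nat_lit 13) (nat_lit 5) (nat_lit 13) (nat_lit 4) (nat_lit 421) (nat_lit 330) (nat_lit 269)))) (XT.nd (nat_lit 78) (nat_lit 0) (nat_lit 0) (XT.lf (nat_lit 0) (nat_lit 1038556449) (nat_lit 76) (nat_lit 5282998795) (nat_lit 152) (nat_lit 48055222737) (nat_lit 10) (nat_lit 5) (nat_lit 11) (nat_lit 5) (nat_lit 12) (nat_lit 4) (nat_lit 422) (nat_lit 330) (nat_lit 268)) (XT.nd (nat_lit 78) (nat_lit 0) (nat_lit 0) (XT.lf (nat_lit 0) (nat_lit 13847108575) (nat_lit 152) (nat_lit 40391064732) (nat_lit 0) (nat_lit 2466534619) (nat_lit 10) (nat_lit 5) (nat_lit 12) (nat_lit 4) (nat_lit 10) (nat_lit 4) (nat_lit 423) (nat_lit 330) (nat_lit 267)) (XT.lf (nat_lit 0) (nat_lit 21803000085) (nat_lit 152) (nat_lit 26947185034) (nat_lit 0) (nat_lit 10396148714) (nat_lit 10) (nat_lit 5) (nat_lit 12) (nat_lit 4) (nat_lit 10) (nat_lit 4) (nat_lit 424) (nat_lit 330) (nat_lit 266))))) (XT.nd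 (nat_lit 234) (nat_lit 152) (nat_lit 0) (XT.nd (nat_lit 78) (nat_lit 76) (nat_lit 0) (XT.lf (nat_lit 0) (nat_lit 30125689958) (nat_lit 152) (nat_lit 12892090786) (nat_lit 0) (nat_lit 18693812476) (nat_lit 10) (nat_lit 5) (nat_lit 12) (nat_lit 4) (nat_lit 10) (nat_lit 4) (nat_lit 425) (nat_lit 330) (nat_lit 265)) (XT.nd (nat_lit 78) (nat_lit 0) (nat_lit 0) (XT.lf (nat_lit 0) (nat_lit 1867452669) (nat_lit 76) (nat_lit 36996697621) (nat_lit 76) (nat_lit 25540985748) (nat_lit 9) (nat_lit 4) (nat_lit 10) (nat_lit 5) (nat_lit 10) (nat_lit 4) (nat_lit 426) (nat_lit 330) (nat_lit 264)) (XT.lf (nat_lit 0) (nat_lit 17755418633) (nat_lit 76) (nat_lit 30473442224) (nat_lit 76) (nat_lit 18995030931) (nat_lit 9) (nat_lit 4) (nat_lit 10) (nat_lit 5) (nat_lit 10) (nat_lit 4) (nat_lit 427) (nat_lit 330) (nat_lit 263)))) (XT.nd (nat_lit 156) (nat_lit 152) (nat_lit 0) (XT.nd (nat_lit 78) (nat_lit 0) (nat_lit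 0) (XT.lf (nat_lit 0) (nat_lit 34383364849) (nat_lit 76) (nat_lit 23650816789) (nat_lit 76) (nat_lit 12150787001) (nat_lit 9) (nat_lit 4) (nat_lit 10) (nat_lit 5) (nat_lit 10) (nat_lit 4) (nat_lit 428) (nat_lit 330) (nat_lit 262)) (XT.lf (nat_lit 0) (nat_lit 51790881666) (nat_lit 76) (nat_lit 16512576971) (nat_lit 76) (nat_lit 4991958140) (nat_lit 9) (nat_lit 4) (nat_lit 10) (nat_lit 5) (nat_lit 10) (nat_lit 4) (nat_lit 429) (nat_lit 330) (nat_lit 261))) (XT.nd (nat_lit 78) (nat_lit 76) (nat_lit 0) (XT.lf (nat_lit 0) (nat_lit 2418532864) (nat_lit 152) (nat_lit 6582235071) (nat_lit 76) (nat_lit 67559923665) (nat_lit 8) (nat_lit 5) (nat_lit 10) (nat_lit 5) (nat_lit 9) (nat_lit 4) (nat_lit 430) (nat_lit 330) (nat_lit 260)) (XT.lf (nat_lit 0) (nat_lit 9252675928) (nat_lit 76) (nat_lit 899313457) (nat_lit 152) (nat_lit 69827140521) (nat_lit 7) (nat_lit 5) (nat_lit 8) (nat_lit 5) (nat_lit 9) (nat_lit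 4) (nat_lit 431) (nat_lit 330) (nat_lit 259))))))) (XT.nd (nat_lit 1014) (nat_lit 76) (nat_lit 0) (XT.nd (nat_lit 468) (nat_lit 152) (nat_lit 0) (XT.nd (nat_lit 234) (nat_lit 76) (nat_lit 0) (XT.nd (nat_lit 78) (nat_lit 0) (nat_lit 0) (XT.lf (nat_lit 0) (nat_lit 18479991067) (nat_lit 152) (nat_lit 57623533032) (nat_lit 0) (nat_lit 7454574018) (nat_lit 7) (nat_lit 5) (nat_lit 9) (nat_lit 4) (nat_lit 7) (nat_lit 4) (nat_lit 432) (nat_lit 330) (nat_lit 258)) (XT.nd (nat_lit 78) (nat_lit 0) (nat_lit 0) (XT.lf (nat_lit 0) (nat_lit 27216089621) (nat_lit 152) (nat_lit 43925801291) (nat_lit 0) (nat_lit 16174540517) (nat_lit 7) (nat_lit 5) (nat_lit 9) (nat_lit 4) (nat_lit 7) (nat_lit 4) (nat_lit 433) (nat_lit 330) (nat_lit 257)) (XT.lf (nat_lit 0) (nat_lit 36367044476) (nat_lit 152) (nat_lit 29586604306) (nat_lit 0) (nat_lit 25310131512) (nat_lit 7) (nat_lit 5) (nat_lit 9) (nat_lit 4) (nat_lit 7)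 (nat_lit 4) (nat_lit 434) (nat_lit 330) (nat_lit 256)))) (XT.nd (nat_lit 78) (nat_lit 76) (nat_lit 0) (XT.lf (nat_lit 0) (nat_lit 45954643622) (nat_lit 152) (nat_lit 14571801131) (nat_lit 0) (nat_lit 34883098410) (nat_lit 7) (nat_lit 5) (nat_lit 9) (nat_lit 4) (nat_lit 7) (nat_lit 4) (nat_lit 435) (nat_lit 330) (nat_lit 255)) (XT.nd (nat_lit 78) (nat_lit 0) (nat_lit 0) (XT.lf (nat_lit 0) (nat_lit 1192526045) (nat_lit 76) (nat_lit 54827807303) (nat_lit 76) (nat_lit 43742326616) (nat_lit 6) (nat_lit 4) (nat_lit 7) (nat_lit 5) (nat_lit 7) (nat_lit 4) (nat_lit 436) (nat_lit 330) (nat_lit 254)) (XT.lf (nat_lit 0) (nat_lit 18212220408) (nat_lit 76) (nat_lit 48604302626) (nat_lit 76) (nat_lit 37505550058) (nat_lit 6) (nat_lit 4) (nat_lit 7) (nat_lit 5) (nat_lit 7) (nat_lit 4) (nat_lit 437) (nat_lit 330) (nat_lit 253))))) (XT.nd (nat_lit 234) (nat_lit 152) (nat_lit 0) (XT.nd (nat_lit 78) (nat_lit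 0) (nat_lit 0) (XT.lf (nat_lit 0) (nat_lit 36045995484) (nat_lit 76) (nat_lit 42087893356) (nat_lit 76) (nat_lit 30976500901) (nat_lit 6) (nat_lit 4) (nat_lit 7) (nat_lit 5) (nat_lit 7) (nat_lit 4) (nat_lit 438) (nat_lit 330) (nat_lit 252)) (XT.nd (nat_lit 78) (nat_lit 0) (nat_lit 0) (XT.lf (nat_lit 0) (nat_lit 54736312643) (nat_lit 76) (nat_lit 35263064233) (nat_lit 76) (nat_lit 24139633792) (nat_lit 6) (nat_lit 4) (nat_lit 7) (nat_lit 5) (nat_lit 7) (nat_lit 4) (nat_lit 439) (nat_lit 330) (nat_lit 251)) (XT.lf (nat_lit 0) (nat_lit 74327672640) (nat_lit 76) (nat_lit 28113565664) (nat_lit 76) (nat_lit 16978670473) (nat_lit 6) (nat_lit 4) (nat_lit 7) (nat_lit 5) (nat_lit 7) (nat_lit 4) (nat_lit 440) (nat_lit 330) (nat_lit 250)))) (XT.nd (nat_lit 156) (nat_lit 152) (nat_lit 0) (XT.nd (nat_lit 78) (nat_lit 0) (nat_lit 0) (XT.lf (nat_lit 0) (nat_lit 94866721570) (nat_lit 76) (nat_lit 20622375034)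 (nat_lit 76) (nat_lit 9476561034) (nat_lit 6) (nat_lit 4) (nat_lit 7) (nat_lit 5) (nat_lit 7) (nat_lit 4) (nat_lit 441) (nat_lit 330) (nat_lit 249)) (XT.lf (nat_lit 0) (nat_lit 116402361930) (nat_lit 76) (nat_lit 12771656175) (nat_lit 76) (nat_lit 1615443309) (nat_lit 6) (nat_lit 4) (nat_lit 7) (nat_lit 5) (nat_lit 7) (nat_lit 4) (nat_lit 442) (nat_lit 330) (nat_lit 248))) (XT.nd (nat_lit 78) (nat_lit 0) (nat_lit 0) (XT.lf (nat_lit 0) (nat_lit 2042650493) (nat_lit 76) (nat_lit 4400650502) (nat_lit 152) (nat_lit 130455120242) (nat_lit 4) (nat_lit 5) (nat_lit 5) (nat_lit 5) (nat_lit 6) (nat_lit 4) (nat_lit 443) (nat_lit 330) (nat_lit 247)) (XT.lf (nat_lit 0) (nat_lit 15152053902) (nat_lit 152) (nat_lit 123635709564) (nat_lit 0) (nat_lit 4508674259) (nat_lit 4) (nat_lit 5) (nat_lit 6) (nat_lit 4) (nat_lit 4) (nat_lit 4) (nat_lit 444) (nat_lit 330) (nat_lit 246)))))) (XT.nd (nat_lit 468) (nat_lit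 76) (nat_lit 0) (XT.nd (nat_lit 234) (nat_lit 0) (nat_lit 0) (XT.nd (nat_lit 78) (nat_lit 0) (nat_lit 0) (XT.lf (nat_lit 0) (nat_lit 24354282425) (nat_lit 152) (nat_lit 111954823916) (nat_lit 0) (nat_lit 13702347609) (nat_lit 4) (nat_lit 5) (nat_lit 6) (nat_lit 4) (nat_lit 4) (nat_lit 4) (nat_lit 445) (nat_lit 330) (nat_lit 245)) (XT.nd (nat_lit 78) (nat_lit 0) (nat_lit 0) (XT.lf (nat_lit 0) (nat_lit 34003190145) (nat_lit 152) (nat_lit 99716595680) (nat_lit 0) (nat_lit 23343107546) (nat_lit 4) (nat_lit 5) (nat_lit 6) (nat_lit 4) (nat_lit 4) (nat_lit 4) (nat_lit 446) (nat_lit 330) (nat_lit 244)) (XT.lf (nat_lit 0) (nat_lit 44121750651) (nat_lit 152) (nat_lit 86891886219) (nat_lit 0) (nat_lit 33453908258) (nat_lit 4) (nat_lit 5) (nat_lit 6) (nat_lit 4) (nat_lit 4) (nat_lit 4) (nat_lit 447) (nat_lit 330) (nat_lit 243)))) (XT.nd (nat_lit 78) (nat_lit 0) (nat_lit 0) (XT.lf (nat_lit 0) (nat_lit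 54734055755) (nat_lit 152) (nat_lit 73450160510) (nat_lit 0) (nat_lit 44058823082) (nat_lit 4) (nat_lit 5) (nat_lit 6) (nat_lit 4) (nat_lit 4) (nat_lit 4) (nat_lit 448) (nat_lit 330) (nat_lit 242)) (XT.nd (nat_lit 78) (nat_lit 0) (nat_lit 0) (XT.lf (nat_lit 0) (nat_lit 65865372848) (nat_lit 152) (nat_lit 59359414443) (nat_lit 0) (nat_lit 55183101813) (nat_lit 4) (nat_lit 5) (nat_lit 6) (nat_lit 4) (nat_lit 4) (nat_lit 4) (nat_lit 449) (nat_lit 330) (nat_lit 241)) (XT.lf (nat_lit 0) (nat_lit 77542205068) (nat_lit 152) (nat_lit 44586098624) (nat_lit 0) (nat_lit 66853230832) (nat_lit 4) (nat_lit 5) (nat_lit 6) (nat_lit 4) (nat_lit 4) (nat_lit 4) (nat_lit 450) (nat_lit 330) (nat_lit 240))))) (XT.nd (nat_lit 234) (nat_lit 0) (nat_lit 0) (XT.nd (nat_lit 78) (nat_lit 76) (nat_lit 0) (XT.lf (nat_lit 0) (nat_lit 89792354395) (nat_lit 152) (nat_lit 29095038490) (nat_lit 0) (nat_lit 79096996157) (nat_lit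 4) (nat_lit 5) (nat_lit 6) (nat_lit 4) (nat_lit 4) (nat_lit 4) (nat_lit 451) (nat_lit 330) (nat_lit 239)) (XT.nd (nat_lit 78) (nat_lit 76) (nat_lit 0) (XT.lf (nat_lit 0) (nat_lit 102644987852) (nat_lit 152) (nat_lit 12849350566) (nat_lit 0) (nat_lit 91943549613) (nat_lit 4) (nat_lit 5) (nat_lit 6) (nat_lit 4) (nat_lit 4) (nat_lit 4) (nat_lit 452) (nat_lit 330) (nat_lit 238)) (XT.lf (nat_lit 0) (nat_lit 4328173953) (nat_lit 76) (nat_lit 111870107920) (nat_lit 76) (nat_lit 101162879203) (nat_lit 3) (nat_lit 4) (nat_lit 4) (nat_lit 5) (nat_lit 4) (nat_lit 4) (nat_lit 453) (nat_lit 330) (nat_lit 237)))) (XT.nd (nat_lit 156) (nat_lit 0) (nat_lit 0) (XT.nd (nat_lit 78) (nat_lit 0) (nat_lit 0) (XT.lf (nat_lit 0) (nat_lit 22792004811) (nat_lit 76) (nat_lit 107845462795) (nat_lit 76) (nat_lit 97132719337) (nat_lit 3) (nat_lit 4) (nat_lit 4) (nat_lit 5) (nat_lit 4) (nat_lit 4) (nat_lit 454) (nat_lit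 330) (nat_lit 236)) (XT.lf (nat_lit 0) (nat_lit 42161245949) (nat_lit 76) (nat_lit 103628430525) (nat_lit 76) (nat_lit 92910434934) (nat_lit 3) (nat_lit 4) (nat_lit 4) (nat_lit 5) (nat_lit 4) (nat_lit 4) (nat_lit 455) (nat_lit 330) (nat_lit 235))) (XT.nd (nat_lit 78) (nat_lit 0) (nat_lit 0) (XT.lf (nat_lit 0) (nat_lit 62482014609) (nat_lit 76) (nat_lit 99208970559) (nat_lit 76) (nat_lit 88485972935) (nat_lit 3) (nat_lit 4) (nat_lit 4) (nat_lit 5) (nat_lit 4) (nat_lit 4) (nat_lit 456) (nat_lit 330) (nat_lit 234)) (XT.lf (nat_lit 0) (nat_lit 83802693573) (nat_lit 76) (nat_lit 94576560372) (nat_lit 76) (nat_lit 83848798908) (nat_lit 3) (nat_lit 4) (nat_lit 4) (nat_lit 5) (nat_lit 4) (nat_lit 4) (nat_lit 457) (nat_lit 330) (nat_lit 233))))))))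
noncomputable def xc73 : XT := (XT.nd (nat_lit 45552) (nat_lit 0) (nat_lit 2736) (XT.nd (nat_lit 936) (nat_lit 152) (nat_lit 0) (XT.nd (nat_lit 468) (nat_lit 0) (nat_lit 0) (XT.nd (nat_lit 234) (nat_lit 0) (nat_lit 0) (XT.nd (nat_lit 78) (nat_lit 0) (nat_lit 0) (XT.lf (nat_lit 0) (nat_lit 106174046363) (nat_lit 76) (nat_lit 89720170415) (nat_lit 76) (nat_lit 78987871961) (nat_lit 3) (nat_lit 4) (nat_lit 4) (nat_lit 5) (nat_lit 4) (nat_lit 4) (nat_lit 458) (nat_lit 330) (nat_lit 232)) (XT.nd (nat_lit 78) (nat_lit 0) (nat_lit 0) (XT.lf (nat_lit 0) (nat_lit 129649338103) (nat_lit 76) (nat_lit 84628237856) (nat_lit 76) (nat_lit 73891618458) (nat_lit 3) (nat_lit 4) (nat_lit 4) (nat_lit 5) (nat_lit 4) (nat_lit 4) (nat_lit 459) (nat_lit 330) (nat_lit 231)) (XT.lf (nat_lit 0) (nat_lit 154284462346) (nat_lit 76) (nat_lit 79288639046) (nat_lit 76) (nat_lit 68547904464) (nat_lit 3) (nat_lit 4) (nat_lit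 4) (nat_lit 5) (nat_lit 4) (nat_lit 4) (nat_lit 460) (nat_lit 330) (nat_lit 230)))) (XT.nd (nat_lit 78) (nat_lit 0) (nat_lit 0) (XT.lf (nat_lit 0) (nat_lit 180138074150) (nat_lit 76) (nat_lit 73688660655) (nat_lit 76) (nat_lit 62944006849) (nat_lit 3) (nat_lit 4) (nat_lit 4) (nat_lit 5) (nat_lit 4) (nat_lit 4) (nat_lit 461) (nat_lit 330) (nat_lit 229)) (XT.nd (nat_lit 78) (nat_lit 0) (nat_lit 0) (XT.lf (nat_lit 0) (nat_lit 207271729732) (nat_lit 76) (nat_lit 67814969399) (nat_lit 76) (nat_lit 57066583000) (nat_lit 3) (nat_lit 4) (nat_lit 4) (nat_lit 5) (nat_lit 4) (nat_lit 4) (nat_lit 462) (nat_lit 330) (nat_lit 228)) (XT.lf (nat_lit 0) (nat_lit 235750033036) (nat_lit 76) (nat_lit 61653580301) (nat_lit 76) (nat_lit 50901639051) (nat_lit 3) (nat_lit 4) (nat_lit 4) (nat_lit 5) (nat_lit 4) (nat_lit 4) (nat_lit 463) (nat_lit 330) (nat_lit 227))))) (XT.nd (nat_lit 234) (nat_lit 0) (nat_lit 0)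 (XT.nd (nat_lit 78) (nat_lit 0) (nat_lit 0) (XT.lf (nat_lit 0) (nat_lit 265640789544) (nat_lit 76) (nat_lit 55189823386) (nat_lit 76) (nat_lit 44434496564) (nat_lit 3) (nat_lit 4) (nat_lit 4) (nat_lit 5) (nat_lit 4) (nat_lit 4) (nat_lit 464) (nat_lit 330) (nat_lit 226)) (XT.nd (nat_lit 78) (nat_lit 0) (nat_lit 0) (XT.lf (nat_lit 0) (nat_lit 297015167725) (nat_lit 76) (nat_lit 48408308757) (nat_lit 76) (nat_lit 37649757580) (nat_lit 3) (nat_lit 4) (nat_lit 4) (nat_lit 5) (nat_lit 4) (nat_lit 4) (nat_lit 465) (nat_lit 330) (nat_lit 225)) (XT.lf (nat_lit 0) (nat_lit 329947868480) (nat_lit 76) (nat_lit 41292889950) (nat_lit 76) (nat_lit 30531267959) (nat_lit 3) (nat_lit 4) (nat_lit 4) (nat_lit 5) (nat_lit 4) (nat_lit 4) (nat_lit 466) (nat_lit 330) (nat_lit 224)))) (XT.nd (nat_lit 78) (nat_lit 0) (nat_lit 0) (XT.lf (nat_lit 0) (nat_lit 364517303000) (nat_lit 76) (nat_lit 33826625492) (nat_lit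 76) (nat_lit 23062078917) (nat_lit 3) (nat_lit 4) (nat_lit 4) (nat_lit 5) (nat_lit 4) (nat_lit 4) (nat_lit 467) (nat_lit 330) (nat_lit 223)) (XT.nd (nat_lit 78) (nat_lit 0) (nat_lit 0) (XT.lf (nat_lit 0) (nat_lit 400805779463) (nat_lit 76) (nat_lit 25991738563) (nat_lit 76) (nat_lit 15224406669) (nat_lit 3) (nat_lit 4) (nat_lit 4) (nat_lit 5) (nat_lit 4) (nat_lit 4) (nat_lit 468) (nat_lit 330) (nat_lit 222)) (XT.lf (nat_lit 0) (nat_lit 438899699004) (nat_lit 76) (nat_lit 17769574670) (nat_lit 76) (nat_lit 6999590091) (nat_lit 3) (nat_lit 4) (nat_lit 4) (nat_lit 5) (nat_lit 4) (nat_lit 4) (nat_lit 469) (nat_lit 330) (nat_lit 221)))))) (XT.nd (nat_lit 468) (nat_lit 0) (nat_lit 0) (XT.nd (nat_lit 234) (nat_lit 0) (nat_lit 0) (XT.nd (nat_lit 78) (nat_lit 76) (nat_lit 0) (XT.lf (nat_lit 0) (nat_lit 1579721001) (nat_lit 152) (nat_lit 7534082892) (nat_lit 76) (nat_lit 477283287090) (nat_lit 2)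 (nat_lit 5) (nat_lit 4) (nat_lit 5) (nat_lit 3) (nat_lit 4) (nat_lit 470) (nat_lit 330) (nat_lit 220)) (XT.nd (nat_lit 78) (nat_lit 0) (nat_lit 0) (XT.lf (nat_lit 0) (nat_lit 10521170025) (nat_lit 152) (nat_lit 499467057855) (nat_lit 0) (nat_lit 259344303) (nat_lit 1) (nat_lit 5) (nat_lit 3) (nat_lit 4) (nat_lit 1) (nat_lit 4) (nat_lit 471) (nat_lit 330) (nat_lit 219)) (XT.lf (nat_lit 0) (nat_lit 20184629587) (nat_lit 152) (nat_lit 505171579664) (nat_lit 0) (nat_lit 9920621495) (nat_lit 1) (nat_lit 5) (nat_lit 3) (nat_lit 4) (nat_lit 1) (nat_lit 4) (nat_lit 472) (nat_lit 330) (nat_lit 218)))) (XT.nd (nat_lit 78) (nat_lit 0) (nat_lit 0) (XT.lf (nat_lit 0) (nat_lit 30327306349) (nat_lit 152) (nat_lit 511169224066) (nat_lit 0) (nat_lit 20061219809) (nat_lit 1) (nat_lit 5) (nat_lit 3) (nat_lit 4) (nat_lit 1) (nat_lit 4) (nat_lit 473) (nat_lit 330) (nat_lit 217)) (XT.nd (nat_lit 78) (nat_lit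 0) (nat_lit 0) (XT.lf (nat_lit 0) (nat_lit 40973349541) (nat_lit 152) (nat_lit 517474271166) (nat_lit 0) (nat_lit 30705283527) (nat_lit 1) (nat_lit 5) (nat_lit 3) (nat_lit 4) (nat_lit 1) (nat_lit 4) (nat_lit 474) (nat_lit 330) (nat_lit 216)) (XT.lf (nat_lit 0) (nat_lit 52148106885) (nat_lit 152) (nat_lit 524101732980) (nat_lit 0) (nat_lit 41878155658) (nat_lit 1) (nat_lit 5) (nat_lit 3) (nat_lit 4) (nat_lit 1) (nat_lit 4) (nat_lit 475) (nat_lit 330) (nat_lit 215))))) (XT.nd (nat_lit 234) (nat_lit 0) (nat_lit 0) (XT.nd (nat_lit 78) (nat_lit 0) (nat_lit 0) (XT.lf (nat_lit 0) (nat_lit 63878184945) (nat_lit 152) (nat_lit 531067389181) (nat_lit 0) (nat_lit 53606438277) (nat_lit 1) (nat_lit 5) (nat_lit 3) (nat_lit 4) (nat_lit 1) (nat_lit 4) (nat_lit 476) (nat_lit 330) (nat_lit 214)) (XT.nd (nat_lit 78) (nat_lit 0) (nat_lit 0) (XT.lf (nat_lit 0) (nat_lit 76191512481) (nat_lit 152) (nat_lit 538387824664)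 (nat_lit 0) (nat_lit 65918055868) (nat_lit 1) (nat_lit 5) (nat_lit 3) (nat_lit 4) (nat_lit 1) (nat_lit 4) (nat_lit 477) (nat_lit 330) (nat_lit 213)) (XT.lf (nat_lit 0) (nat_lit 89117406937) (nat_lit 152) (nat_lit 546080469036) (nat_lit 0) (nat_lit 78842321806) (nat_lit 1) (nat_lit 5) (nat_lit 3) (nat_lit 4) (nat_lit 1) (nat_lit 4) (nat_lit 478) (nat_lit 330) (nat_lit 212)))) (XT.nd (nat_lit 43758) (nat_lit 0) (nat_lit 7448) (XT.nd (nat_lit 43680) (nat_lit 0) (nat_lit 7828) (XT.lf (nat_lit 0) (nat_lit 102686644253) (nat_lit 152) (nat_lit 554163638119) (nat_lit 0) (nat_lit 92410008153) (nat_lit 1) (nat_lit 5) (nat_lit 3) (nat_lit 4) (nat_lit 1) (nat_lit 4) (nat_lit 479) (nat_lit 330) (nat_lit 211)) (XT.lf (nat_lit 0) (nat_lit 1365249960) (nat_lit 380) (nat_lit 1169265711) (nat_lit 380) (nat_lit 1169265711) (nat_lit 104) (nat_lit 4) (nat_lit 109) (nat_lit 5) (nat_lit 109) (nat_lit 4) (nat_lit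 358) (nat_lit 331) (nat_lit 331))) (XT.nd (nat_lit 78) (nat_lit 0) (nat_lit 0) (XT.lf (nat_lit 0) (nat_lit 927249175) (nat_lit 304) (nat_lit 260496269) (nat_lit 380) (nat_lit 6334383018) (nat_lit 99) (nat_lit 5) (nat_lit 103) (nat_lit 5) (nat_lit 104) (nat_lit 4) (nat_lit 359) (nat_lit 331) (nat_lit 330)) (XT.lf (nat_lit 0) (nat_lit 4758912757) (nat_lit 380) (nat_lit 928752484) (nat_lit 0) (nat_lit 1955611694) (nat_lit 99) (nat_lit 5) (nat_lit 104) (nat_lit 4) (nat_lit 99) (nat_lit 4) (nat_lit 360) (nat_lit 331) (nat_lit 329))))))) (XT.nd (nat_lit 1014) (nat_lit 1748) (nat_lit 0) (XT.nd (nat_lit 468) (nat_lit 1216) (nat_lit 0) (XT.nd (nat_lit 234) (nat_lit 684) (nat_lit 0) (XT.nd (nat_lit 78) (nat_lit 608) (nat_lit 0) (XT.lf (nat_lit 0) (nat_lit 639834207) (nat_lit 456) (nat_lit 2793987541) (nat_lit 76) (nat_lit 4339937235) (nat_lit 93) (nat_lit 5) (nat_lit 99) (nat_lit 5) (nat_lit 94) (nat_lit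 4) (nat_lit 361) (nat_lit 331) (nat_lit 328)) (XT.nd (nat_lit 78) (nat_lit 304) (nat_lit 0) (XT.lf (nat_lit 0) (nat_lit 3172244716) (nat_lit 304) (nat_lit 982985762) (nat_lit 380) (nat_lit 3757686342) (nat_lit 89) (nat_lit 5) (nat_lit 93) (nat_lit 5) (nat_lit 94) (nat_lit 4) (nat_lit 362) (nat_lit 331) (nat_lit 327)) (XT.lf (nat_lit 0) (nat_lit 1301458007) (nat_lit 304) (nat_lit 6488464141) (nat_lit 304) (nat_lit 272040784) (nat_lit 85) (nat_lit 4) (nat_lit 89) (nat_lit 5) (nat_lit 89) (nat_lit 4) (nat_lit 363) (nat_lit 331) (nat_lit 326)))) (XT.nd (nat_lit 78) (nat_lit 608) (nat_lit 0) (XT.lf (nat_lit 0) (nat_lit 3229152615) (nat_lit 380) (nat_lit 668104268) (nat_lit 76) (nat_lit 4321171538) (nat_lit 84) (nat_lit 5) (nat_lit 89) (nat_lit 5) (nat_lit 85) (nat_lit 4) (nat_lit 364) (nat_lit 331) (nat_lit 325)) (XT.nd (nat_lit 78) (nat_lit 380) (nat_lit 0) (XT.lf (nat_lit 0) (nat_lit 5723243743)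 (nat_lit 228) (nat_lit 1121406752) (nat_lit 304) (nat_lit 1540516486) (nat_lit 81) (nat_lit 5) (nat_lit 84) (nat_lit 5) (nat_lit 85) (nat_lit 4) (nat_lit 365) (nat_lit 331) (nat_lit 324)) (XT.lf (nat_lit 0) (nat_lit 1974464796) (nat_lit 380) (nat_lit 4790557509) (nat_lit 76) (nat_lit 1795660534) (nat_lit 76) (nat_lit 5) (nat_lit 81) (nat_lit 5) (nat_lit 77) (nat_lit 4) (nat_lit 366) (nat_lit 331) (nat_lit 323))))) (XT.nd (nat_lit 234) (nat_lit 684) (nat_lit 0) (XT.nd (nat_lit 78) (nat_lit 304) (nat_lit 0) (XT.lf (nat_lit 0) (nat_lit 1694085457) (nat_lit 228) (nat_lit 3873609783) (nat_lit 304) (nat_lit 3178382548) (nat_lit 73) (nat_lit 5) (nat_lit 76) (nat_lit 5) (nat_lit 77) (nat_lit 4) (nat_lit 367) (nat_lit 331) (nat_lit 322)) (XT.nd (nat_lit 78) (nat_lit 228) (nat_lit 0) (XT.lf (nat_lit 0) (nat_lit 334463299) (nat_lit 304) (nat_lit 465696606) (nat_lit 76) (nat_lit 8142971833) (nat_lit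 72) (nat_lit 5) (nat_lit 76) (nat_lit 5) (nat_lit 73) (nat_lit 5) (nat_lit 368) (nat_lit 331) (nat_lit 321)) (XT.lf (nat_lit 0) (nat_lit 3927345885) (nat_lit 304) (nat_lit 2766771276) (nat_lit 76) (nat_lit 2452824300) (nat_lit 69) (nat_lit 5) (nat_lit 73) (nat_lit 5) (nat_lit 70) (nat_lit 4) (nat_lit 369) (nat_lit 331) (nat_lit 320)))) (XT.nd (nat_lit 156) (nat_lit 152) (nat_lit 0) (XT.nd (nat_lit 78) (nat_lit 304) (nat_lit 0) (XT.lf (nat_lit 0) (nat_lit 4159638785) (nat_lit 228) (nat_lit 3500197530) (nat_lit 304) (nat_lit 1703172653) (nat_lit 66) (nat_lit 5) (nat_lit 69) (nat_lit 5) (nat_lit 70) (nat_lit 4) (nat_lit 370) (nat_lit 331) (nat_lit 319)) (XT.lf (nat_lit 0) (nat_lit 1780634883) (nat_lit 228) (nat_lit 95186081) (nat_lit 304) (nat_lit 7715044917) (nat_lit 62) (nat_lit 5) (nat_lit 65) (nat_lit 5) (nat_lit 66) (nat_lit 5) (nat_lit 371) (nat_lit 331) (nat_lit 318))) (XT.nd (nat_lit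 78) (nat_lit 152) (nat_lit 0) (XT.lf (nat_lit 0) (nat_lit 5597573063) (nat_lit 304) (nat_lit 802557510) (nat_lit 76) (nat_lit 3427593261) (nat_lit 62) (nat_lit 5) (nat_lit 66) (nat_lit 5) (nat_lit 63) (nat_lit 4) (nat_lit 372) (nat_lit 331) (nat_lit 317)) (XT.lf (nat_lit 0) (nat_lit 6586030276) (nat_lit 152) (nat_lit 2906766089) (nat_lit 228) (nat_lit 584313011) (nat_lit 60) (nat_lit 5) (nat_lit 62) (nat_lit 5) (nat_lit 63) (nat_lit 4) (nat_lit 373) (nat_lit 331) (nat_lit 316)))))) (XT.nd (nat_lit 468) (nat_lit 836) (nat_lit 0) (XT.nd (nat_lit 234) (nat_lit 380) (nat_lit 0) (XT.nd (nat_lit 78) (nat_lit 228) (nat_lit 0) (XT.lf (nat_lit 0) (nat_lit 3112004820) (nat_lit 304) (nat_lit 6422687055) (nat_lit 76) (nat_lit 803188403) (nat_lit 56) (nat_lit 5) (nat_lit 60) (nat_lit 5) (nat_lit 57) (nat_lit 4) (nat_lit 374) (nat_lit 331) (nat_lit 315)) (XT.nd (nat_lit 78) (nat_lit 76) (nat_lit 0) (XT.lf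 (nat_lit 0) (nat_lit 996407446) (nat_lit 152) (nat_lit 5986074093) (nat_lit 228) (nat_lit 3628326788) (nat_lit 54) (nat_lit 5) (nat_lit 56) (nat_lit 5) (nat_lit 57) (nat_lit 4) (nat_lit 375) (nat_lit 331) (nat_lit 314)) (XT.lf (nat_lit 0) (nat_lit 141342312) (nat_lit 228) (nat_lit 2069017501) (nat_lit 76) (nat_lit 8687098029) (nat_lit 53) (nat_lit 5) (nat_lit 56) (nat_lit 5) (nat_lit 54) (nat_lit 5) (nat_lit 376) (nat_lit 331) (nat_lit 313)))) (XT.nd (nat_lit 78) (nat_lit 228) (nat_lit 0) (XT.lf (nat_lit 0) (nat_lit 3988903170) (nat_lit 228) (nat_lit 5418927374) (nat_lit 76) (nat_lit 1787108255) (nat_lit 51) (nat_lit 5) (nat_lit 54) (nat_lit 5) (nat_lit 52) (nat_lit 4) (nat_lit 377) (nat_lit 331) (nat_lit 312)) (XT.nd (nat_lit 78) (nat_lit 76) (nat_lit 0) (XT.lf (nat_lit 0) (nat_lit 2445839330) (nat_lit 152) (nat_lit 5586367932) (nat_lit 228) (nat_lit 3474956570) (nat_lit 49) (nat_lit 5)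 (nat_lit 51) (nat_lit 5) (nat_lit 52) (nat_lit 4) (nat_lit 378) (nat_lit 331) (nat_lit 311)) (XT.lf (nat_lit 0) (nat_lit 415757041) (nat_lit 228) (nat_lit 1122779105) (nat_lit 76) (nat_lit 10296790675) (nat_lit 48) (nat_lit 5) (nat_lit 51) (nat_lit 5) (nat_lit 49) (nat_lit 5) (nat_lit 379) (nat_lit 331) (nat_lit 310))))) (XT.nd (nat_lit 234) (nat_lit 456) (nat_lit 0) (XT.nd (nat_lit 78) (nat_lit 228) (nat_lit 0) (XT.lf (nat_lit 0) (nat_lit 4440038114) (nat_lit 228) (nat_lit 5001339019) (nat_lit 76) (nat_lit 2732914919) (nat_lit 46) (nat_lit 5) (nat_lit 49) (nat_lit 5) (nat_lit 47) (nat_lit 4) (nat_lit 380) (nat_lit 331) (nat_lit 309)) (XT.nd (nat_lit 78) (nat_lit 76) (nat_lit 0) (XT.lf (nat_lit 0) (nat_lit 3304647462) (nat_lit 152) (nat_lit 5357253007) (nat_lit 228) (nat_lit 3868518210) (nat_lit 44) (nat_lit 5) (nat_lit 46) (nat_lit 5) (nat_lit 47) (nat_lit 4) (nat_lit 381) (nat_lit 331)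 (nat_lit 308)) (XT.lf (nat_lit 0) (nat_lit 171248792) (nat_lit 228) (nat_lit 874284373) (nat_lit 76) (nat_lit 11859356237) (nat_lit 43) (nat_lit 5) (nat_lit 46) (nat_lit 5) (nat_lit 44) (nat_lit 5) (nat_lit 382) (nat_lit 331) (nat_lit 307)))) (XT.nd (nat_lit 156) (nat_lit 228) (nat_lit 0) (XT.nd (nat_lit 78) (nat_lit 76) (nat_lit 0) (XT.lf (nat_lit 0) (nat_lit 4368571470) (nat_lit 228) (nat_lit 5426208628) (nat_lit 76) (nat_lit 3495881110) (nat_lit 41) (nat_lit 5) (nat_lit 44) (nat_lit 5) (nat_lit 42) (nat_lit 4) (nat_lit 383) (nat_lit 331) (nat_lit 306)) (XT.lf (nat_lit 0) (nat_lit 3301459664) (nat_lit 76) (nat_lit 5464503369) (nat_lit 152) (nat_lit 4930274346) (nat_lit 40) (nat_lit 5) (nat_lit 41) (nat_lit 5) (nat_lit 42) (nat_lit 4) (nat_lit 384) (nat_lit 331) (nat_lit 305))) (XT.nd (nat_lit 78) (nat_lit 228) (nat_lit 0) (XT.lf (nat_lit 0) (nat_lit 12494191877) (nat_lit 76) (nat_lit 889356865)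 (nat_lit 152) (nat_lit 738552070) (nat_lit 40) (nat_lit 5) (nat_lit 41) (nat_lit 5) (nat_lit 42) (nat_lit 4) (nat_lit 385) (nat_lit 331) (nat_lit 304)) (XT.lf (nat_lit 0) (nat_lit 3638619138) (nat_lit 228) (nat_lit 7019293974) (nat_lit 76) (nat_lit 3903852698) (nat_lit 37) (nat_lit 5) (nat_lit 40) (nat_lit 5) (nat_lit 38) (nat_lit 4) (nat_lit 386) (nat_lit 331) (nat_lit 303))))))))
noncomputable def xc74 : XT := (XT.nd (nat_lit 1950) (nat_lit 760) (nat_lit 0) (XT.nd (nat_lit 936) (nat_lit 684) (nat_lit 0) (XT.nd (nat_lit 468) (nat_lit 380) (nat_lit 0) (XT.nd (nat_lit 234) (nat_lit 228) (nat_lit 0) (XT.nd (nat_lit 78) (nat_lit 228) (nat_lit 0) (XT.lf (nat_lit 0) (nat_lit 2089708611) (nat_lit 76) (nat_lit 6107498513) (nat_lit 152) (nat_lit 6826253962) (nat_lit 36) (nat_lit 5) (nat_lit 37) (nat_lit 5) (nat_lit 38) (nat_lit 4) (nat_lit 387) (nat_lit 331) (nat_lit 302)) (XT.nd (nat_lit 78) (nat_lit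 228) (nat_lit 0) (XT.lf (nat_lit 0) (nat_lit 11744480205) (nat_lit 76) (nat_lit 1272059305) (nat_lit 152) (nat_lit 2490081171) (nat_lit 36) (nat_lit 5) (nat_lit 37) (nat_lit 5) (nat_lit 38) (nat_lit 4) (nat_lit 388) (nat_lit 331) (nat_lit 301)) (XT.lf (nat_lit 0) (nat_lit 2065693787) (nat_lit 228) (nat_lit 10197306764) (nat_lit 76) (nat_lit 3745904776) (nat_lit 33) (nat_lit 5) (nat_lit 36) (nat_lit 5) (nat_lit 34) (nat_lit 4) (nat_lit 389) (nat_lit 331) (nat_lit 300)))) (XT.nd (nat_lit 78) (nat_lit 228) (nat_lit 0) (XT.lf (nat_lit 0) (nat_lit 6768531319) (nat_lit 228) (nat_lit 750732171) (nat_lit 76) (nat_lit 9014869361) (nat_lit 33) (nat_lit 5) (nat_lit 36) (nat_lit 5) (nat_lit 34) (nat_lit 4) (nat_lit 390) (nat_lit 331) (nat_lit 299)) (XT.nd (nat_lit 78) (nat_lit 152) (nat_lit 0) (XT.lf (nat_lit 0) (nat_lit 9324191798) (nat_lit 76) (nat_lit 2449176926) (nat_lit 152) (nat_lit 5308926830)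 (nat_lit 32) (nat_lit 5) (nat_lit 33) (nat_lit 5) (nat_lit 34) (nat_lit 4) (nat_lit 391) (nat_lit 331) (nat_lit 298)) (XT.lf (nat_lit 0) (nat_lit 2152496625) (nat_lit 152) (nat_lit 14889217204) (nat_lit 152) (nat_lit 615505182) (nat_lit 30) (nat_lit 4) (nat_lit 32) (nat_lit 5) (nat_lit 32) (nat_lit 4) (nat_lit 392) (nat_lit 331) (nat_lit 297))))) (XT.nd (nat_lit 234) (nat_lit 228) (nat_lit 0) (XT.nd (nat_lit 78) (nat_lit 76) (nat_lit 0) (XT.lf (nat_lit 0) (nat_lit 4270362221) (nat_lit 228) (nat_lit 5679273128) (nat_lit 76) (nat_lit 8303110921) (nat_lit 29) (nat_lit 5) (nat_lit 32) (nat_lit 5) (nat_lit 30) (nat_lit 4) (nat_lit 393) (nat_lit 331) (nat_lit 296)) (XT.nd (nat_lit 78) (nat_lit 0) (nat_lit 0) (XT.lf (nat_lit 0) (nat_lit 4639382005) (nat_lit 76) (nat_lit 4738711482) (nat_lit 152) (nat_lit 9499552860) (nat_lit 28) (nat_lit 5) (nat_lit 29) (nat_lit 5) (nat_lit 30) (nat_lit 4) (nat_lit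 394) (nat_lit 331) (nat_lit 295)) (XT.lf (nat_lit 0) (nat_lit 14776706977) (nat_lit 152) (nat_lit 4007812230) (nat_lit 0) (nat_lit 747510526) (nat_lit 28) (nat_lit 5) (nat_lit 30) (nat_lit 4) (nat_lit 28) (nat_lit 4) (nat_lit 395) (nat_lit 331) (nat_lit 294)))) (XT.nd (nat_lit 78) (nat_lit 76) (nat_lit 0) (XT.lf (nat_lit 0) (nat_lit 333467448) (nat_lit 152) (nat_lit 13477059048) (nat_lit 76) (nat_lit 6402711855) (nat_lit 26) (nat_lit 5) (nat_lit 28) (nat_lit 5) (nat_lit 27) (nat_lit 4) (nat_lit 396) (nat_lit 331) (nat_lit 293)) (XT.nd (nat_lit 78) (nat_lit 76) (nat_lit 0) (XT.lf (nat_lit 0) (nat_lit 5515879697) (nat_lit 152) (nat_lit 2978324288) (nat_lit 76) (nat_lit 12430467288) (nat_lit 26) (nat_lit 5) (nat_lit 28) (nat_lit 5) (nat_lit 27) (nat_lit 4) (nat_lit 397) (nat_lit 331) (nat_lit 292)) (XT.lf (nat_lit 0) (nat_lit 8182815649) (nat_lit 76) (nat_lit 2835692286) (nat_lit 152) (nat_lit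 10650123903) (nat_lit 25) (nat_lit 5) (nat_lit 26) (nat_lit 5) (nat_lit 27) (nat_lit 4) (nat_lit 398) (nat_lit 331) (nat_lit 291)))))) (XT.nd (nat_lit 468) (nat_lit 380) (nat_lit 0) (XT.nd (nat_lit 234) (nat_lit 152) (nat_lit 0) (XT.nd (nat_lit 78) (nat_lit 152) (nat_lit 0) (XT.lf (nat_lit 0) (nat_lit 16829734481) (nat_lit 152) (nat_lit 2615987043) (nat_lit 0) (nat_lit 3002405818) (nat_lit 25) (nat_lit 5) (nat_lit 27) (nat_lit 4) (nat_lit 25) (nat_lit 4) (nat_lit 399) (nat_lit 331) (nat_lit 290)) (XT.nd (nat_lit 78) (nat_lit 76) (nat_lit 0) (XT.lf (nat_lit 0) (nat_lit 8917386872) (nat_lit 76) (nat_lit 14136715521) (nat_lit 76) (nat_lit 206375994) (nat_lit 24) (nat_lit 4) (nat_lit 25) (nat_lit 5) (nat_lit 25) (nat_lit 4) (nat_lit 400) (nat_lit 331) (nat_lit 289)) (XT.lf (nat_lit 0) (nat_lit 5283020641) (nat_lit 152) (nat_lit 3198252797) (nat_lit 76) (nat_lit 15628804787) (nat_lit 23) (nat_lit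 5) (nat_lit 25) (nat_lit 5) (nat_lit 24) (nat_lit 4) (nat_lit 401) (nat_lit 331) (nat_lit 288)))) (XT.nd (nat_lit 78) (nat_lit 76) (nat_lit 0) (XT.lf (nat_lit 0) (nat_lit 8664381974) (nat_lit 76) (nat_lit 2450867282) (nat_lit 152) (nat_lit 13882983188) (nat_lit 22) (nat_lit 5) (nat_lit 23) (nat_lit 5) (nat_lit 24) (nat_lit 4) (nat_lit 402) (nat_lit 331) (nat_lit 287)) (XT.nd (nat_lit 78) (nat_lit 76) (nat_lit 0) (XT.lf (nat_lit 0) (nat_lit 17295049784) (nat_lit 152) (nat_lit 4872060684) (nat_lit 0) (nat_lit 3760893917) (nat_lit 22) (nat_lit 5) (nat_lit 24) (nat_lit 4) (nat_lit 22) (nat_lit 4) (nat_lit 403) (nat_lit 331) (nat_lit 286)) (XT.lf (nat_lit 0) (nat_lit 7246303635) (nat_lit 76) (nat_lit 16634006512) (nat_lit 76) (nat_lit 3019138938) (nat_lit 21) (nat_lit 4) (nat_lit 22) (nat_lit 5) (nat_lit 22) (nat_lit 4) (nat_lit 404) (nat_lit 331) (nat_lit 285))))) (XT.nd (nat_lit 234) (nat_lit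 228) (nat_lit 0) (XT.nd (nat_lit 78) (nat_lit 76) (nat_lit 0) (XT.lf (nat_lit 0) (nat_lit 2810479671) (nat_lit 152) (nat_lit 7930252541) (nat_lit 76) (nat_lit 17175139027) (nat_lit 20) (nat_lit 5) (nat_lit 22) (nat_lit 5) (nat_lit 21) (nat_lit 4) (nat_lit 405) (nat_lit 331) (nat_lit 284)) (XT.nd (nat_lit 78) (nat_lit 0) (nat_lit 0) (XT.lf (nat_lit 0) (nat_lit 4365785236) (nat_lit 76) (nat_lit 4478472813) (nat_lit 152) (nat_lit 20135681273) (nat_lit 19) (nat_lit 5) (nat_lit 20) (nat_lit 5) (nat_lit 21) (nat_lit 4) (nat_lit 406) (nat_lit 331) (nat_lit 283)) (XT.lf (nat_lit 0) (nat_lit 15295176465) (nat_lit 152) (nat_lit 12676963590) (nat_lit 0) (nat_lit 2119304492) (nat_lit 19) (nat_lit 5) (nat_lit 21) (nat_lit 4) (nat_lit 19) (nat_lit 4) (nat_lit 407) (nat_lit 331) (nat_lit 282)))) (XT.nd (nat_lit 156) (nat_lit 152) (nat_lit 0) (XT.nd (nat_lit 78) (nat_lit 76) (nat_lit 0) (XT.lf (nat_lit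 0) (nat_lit 22090828194) (nat_lit 152) (nat_lit 314876982) (nat_lit 0) (nat_lit 8851716486) (nat_lit 19) (nat_lit 5) (nat_lit 21) (nat_lit 4) (nat_lit 19) (nat_lit 4) (nat_lit 408) (nat_lit 331) (nat_lit 281)) (XT.lf (nat_lit 0) (nat_lit 12987130056) (nat_lit 76) (nat_lit 16393107285) (nat_lit 76) (nat_lit 3093767259) (nat_lit 18) (nat_lit 4) (nat_lit 19) (nat_lit 5) (nat_lit 19) (nat_lit 4) (nat_lit 409) (nat_lit 331) (nat_lit 280))) (XT.nd (nat_lit 78) (nat_lit 76) (nat_lit 0) (XT.lf (nat_lit 0) (nat_lit 3134353733) (nat_lit 152) (nat_lit 6931275176) (nat_lit 76) (nat_lit 23685394329) (nat_lit 17) (nat_lit 5) (nat_lit 19) (nat_lit 5) (nat_lit 18) (nat_lit 4) (nat_lit 410) (nat_lit 331) (nat_lit 279)) (XT.lf (nat_lit 0) (nat_lit 6313993098) (nat_lit 76) (nat_lit 3308115335) (nat_lit 152) (nat_lit 25464643507) (nat_lit 16) (nat_lit 5) (nat_lit 17) (nat_lit 5) (nat_lit 18) (nat_lit 4) (nat_lit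 411) (nat_lit 331) (nat_lit 278))))))) (XT.nd (nat_lit 1014) (nat_lit 304) (nat_lit 0) (XT.nd (nat_lit 468) (nat_lit 228) (nat_lit 0) (XT.nd (nat_lit 234) (nat_lit 152) (nat_lit 0) (XT.nd (nat_lit 78) (nat_lit 76) (nat_lit 0) (XT.lf (nat_lit 0) (nat_lit 16566479744) (nat_lit 152) (nat_lit 16171945296) (nat_lit 0) (nat_lit 3744235290) (nat_lit 16) (nat_lit 5) (nat_lit 18) (nat_lit 4) (nat_lit 16) (nat_lit 4) (nat_lit 412) (nat_lit 331) (nat_lit 277)) (XT.nd (nat_lit 78) (nat_lit 76) (nat_lit 0) (XT.lf (nat_lit 0) (nat_lit 23868291574) (nat_lit 152) (nat_lit 3080709288) (nat_lit 0) (nat_lit 10998856655) (nat_lit 16) (nat_lit 5) (nat_lit 18) (nat_lit 4) (nat_lit 16) (nat_lit 4) (nat_lit 413) (nat_lit 331) (nat_lit 276)) (XT.lf (nat_lit 0) (nat_lit 10933714900) (nat_lit 76) (nat_lit 20730271266) (nat_lit 76) (nat_lit 7815893049) (nat_lit 15) (nat_lit 4) (nat_lit 16) (nat_lit 5) (nat_lit 16)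 (nat_lit 4) (nat_lit 414) (nat_lit 331) (nat_lit 275)))) (XT.nd (nat_lit 78) (nat_lit 152) (nat_lit 0) (XT.lf (nat_lit 0) (nat_lit 25675806417) (nat_lit 76) (nat_lit 14184665343) (nat_lit 76) (nat_lit 1227483984) (nat_lit 15) (nat_lit 4) (nat_lit 16) (nat_lit 5) (nat_lit 16) (nat_lit 4) (nat_lit 415) (nat_lit 331) (nat_lit 274)) (XT.nd (nat_lit 78) (nat_lit 76) (nat_lit 0) (XT.lf (nat_lit 0) (nat_lit 5468365768) (nat_lit 152) (nat_lit 1787796430) (nat_lit 76) (nat_lit 35517828128) (nat_lit 14) (nat_lit 5) (nat_lit 16) (nat_lit 5) (nat_lit 15) (nat_lit 4) (nat_lit 416) (nat_lit 331) (nat_lit 273)) (XT.lf (nat_lit 0) (nat_lit 12623533096) (nat_lit 152) (nat_lit 31703940384) (nat_lit 0) (nat_lit 207561699) (nat_lit 13) (nat_lit 5) (nat_lit 15) (nat_lit 4) (nat_lit 13) (nat_lit 4) (nat_lit 417) (nat_lit 331) (nat_lit 272))))) (XT.nd (nat_lit 234) (nat_lit 152) (nat_lit 0) (XT.nd (nat_lit 78)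 (nat_lit 76) (nat_lit 0) (XT.lf (nat_lit 0) (nat_lit 20248351714) (nat_lit 152) (nat_lit 18333023185) (nat_lit 0) (nat_lit 7797166066) (nat_lit 13) (nat_lit 5) (nat_lit 15) (nat_lit 4) (nat_lit 13) (nat_lit 4) (nat_lit 418) (nat_lit 331) (nat_lit 271)) (XT.nd (nat_lit 78) (nat_lit 76) (nat_lit 0) (XT.lf (nat_lit 0) (nat_lit 28218378787) (nat_lit 152) (nat_lit 4363992301) (nat_lit 0) (nat_lit 15733655758) (nat_lit 13) (nat_lit 5) (nat_lit 15) (nat_lit 4) (nat_lit 13) (nat_lit 4) (nat_lit 419) (nat_lit 331) (nat_lit 270)) (XT.lf (nat_lit 0) (nat_lit 10574873872) (nat_lit 76) (nat_lit 26142820115) (nat_lit 76) (nat_lit 13626156723) (nat_lit 12) (nat_lit 4) (nat_lit 13) (nat_lit 5) (nat_lit 13) (nat_lit 4) (nat_lit 420) (nat_lit 331) (nat_lit 269)))) (XT.nd (nat_lit 156) (nat_lit 76) (nat_lit 0) (XT.nd (nat_lit 78) (nat_lit 76) (nat_lit 0) (XT.lf (nat_lit 0) (nat_lit 26346194959) (nat_lit 76)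 (nat_lit 19335973404) (nat_lit 76) (nat_lit 6788890618) (nat_lit 12) (nat_lit 4) (nat_lit 13) (nat_lit 5) (nat_lit 13) (nat_lit 4) (nat_lit 421) (nat_lit 331) (nat_lit 268)) (XT.lf (nat_lit 0) (nat_lit 345112172) (nat_lit 152) (nat_lit 11868573683) (nat_lit 76) (nat_lit 42492271616) (nat_lit 11) (nat_lit 5) (nat_lit 13) (nat_lit 5) (nat_lit 12) (nat_lit 4) (nat_lit 422) (nat_lit 331) (nat_lit 267))) (XT.nd (nat_lit 78) (nat_lit 0) (nat_lit 0) (XT.lf (nat_lit 0) (nat_lit 3025171407) (nat_lit 76) (nat_lit 4598641437) (nat_lit 152) (nat_lit 49422418421) (nat_lit 10) (nat_lit 5) (nat_lit 11) (nat_lit 5) (nat_lit 12) (nat_lit 4) (nat_lit 423) (nat_lit 331) (nat_lit 266)) (XT.lf (nat_lit 0) (nat_lit 15492786570) (nat_lit 152) (nat_lit 40535128545) (nat_lit 0) (nat_lit 3464289103) (nat_lit 10) (nat_lit 5) (nat_lit 12) (nat_lit 4) (nat_lit 10) (nat_lit 4) (nat_lit 424) (nat_lit 331) (nat_lit 265))))))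 (XT.nd (nat_lit 468) (nat_lit 228) (nat_lit 0) (XT.nd (nat_lit 234) (nat_lit 0) (nat_lit 0) (XT.nd (nat_lit 78) (nat_lit 76) (nat_lit 0) (XT.lf (nat_lit 0) (nat_lit 23801076343) (nat_lit 152) (nat_lit 26508363883) (nat_lit 0) (nat_lit 11748744486) (nat_lit 10) (nat_lit 5) (nat_lit 12) (nat_lit 4) (nat_lit 10) (nat_lit 4) (nat_lit 425) (nat_lit 331) (nat_lit 264)) (XT.nd (nat_lit 78) (nat_lit 76) (nat_lit 0) (XT.lf (nat_lit 0) (nat_lit 32496666126) (nat_lit 152) (nat_lit 11835571133) (nat_lit 0) (nat_lit 20421634848) (nat_lit 10) (nat_lit 5) (nat_lit 12) (nat_lit 4) (nat_lit 10) (nat_lit 4) (nat_lit 426) (nat_lit 331) (nat_lit 263)) (XT.lf (nat_lit 0) (nat_lit 3634512009) (nat_lit 76) (nat_lit 38022492612) (nat_lit 76) (nat_lit 25925842839) (nat_lit 9) (nat_lit 4) (nat_lit 10) (nat_lit 5) (nat_lit 10) (nat_lit 4) (nat_lit 427) (nat_lit 331) (nat_lit 262)))) (XT.nd (nat_lit 78) (nat_lit 0)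 (nat_lit 0) (XT.lf (nat_lit 0) (nat_lit 20237176904) (nat_lit 76) (nat_lit 31212314440) (nat_lit 76) (nat_lit 19095075624) (nat_lit 9) (nat_lit 4) (nat_lit 10) (nat_lit 5) (nat_lit 10) (nat_lit 4) (nat_lit 428) (nat_lit 331) (nat_lit 261)) (XT.nd (nat_lit 78) (nat_lit 0) (nat_lit 0) (XT.lf (nat_lit 0) (nat_lit 37620616272) (nat_lit 76) (nat_lit 24085929157) (nat_lit 76) (nat_lit 11949081729) (nat_lit 9) (nat_lit 4) (nat_lit 10) (nat_lit 5) (nat_lit 10) (nat_lit 4) (nat_lit 429) (nat_lit 331) (nat_lit 260)) (XT.lf (nat_lit 0) (nat_lit 55826219255) (nat_lit 76) (nat_lit 16626369180) (nat_lit 76) (nat_lit 4470846883) (nat_lit 9) (nat_lit 4) (nat_lit 10) (nat_lit 5) (nat_lit 10) (nat_lit 4) (nat_lit 430) (nat_lit 331) (nat_lit 259))))) (XT.nd (nat_lit 234) (nat_lit 76) (nat_lit 0) (XT.nd (nat_lit 78) (nat_lit 76) (nat_lit 0) (XT.lf (nat_lit 0) (nat_lit 3249975371) (nat_lit 152) (nat_lit 5510858373)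 (nat_lit 76) (nat_lit 71592317249) (nat_lit 8) (nat_lit 5) (nat_lit 10) (nat_lit 5) (nat_lit 9) (nat_lit 4) (nat_lit 431) (nat_lit 331) (nat_lit 258)) (XT.nd (nat_lit 78) (nat_lit 0) (nat_lit 0) (XT.lf (nat_lit 0) (nat_lit 11093209653) (nat_lit 76) (nat_lit 264573857) (nat_lit 152) (nat_lit 72585346119) (nat_lit 7) (nat_lit 5) (nat_lit 8) (nat_lit 5) (nat_lit 9) (nat_lit 4) (nat_lit 432) (nat_lit 331) (nat_lit 257)) (XT.lf (nat_lit 0) (nat_lit 20079044677) (nat_lit 152) (nat_lit 59169238639) (nat_lit 0) (nat_lit 8453922204) (nat_lit 7) (nat_lit 5) (nat_lit 9) (nat_lit 4) (nat_lit 7) (nat_lit 4) (nat_lit 433) (nat_lit 331) (nat_lit 256)))) (XT.nd (nat_lit 156) (nat_lit 76) (nat_lit 0) (XT.nd (nat_lit 78) (nat_lit 0) (nat_lit 0) (XT.lf (nat_lit 0) (nat_lit 29219802727) (nat_lit 152) (nat_lit 44850214170) (nat_lit 0) (nat_lit 17580048005) (nat_lit 7) (nat_lit 5) (nat_lit 9) (nat_lit 4) (nat_lit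 7) (nat_lit 4) (nat_lit 434) (nat_lit 331) (nat_lit 255)) (XT.lf (nat_lit 0) (nat_lit 38797690629) (nat_lit 152) (nat_lit 29854622916) (nat_lit 0) (nat_lit 27144000432) (nat_lit 7) (nat_lit 5) (nat_lit 9) (nat_lit 4) (nat_lit 7) (nat_lit 4) (nat_lit 435) (nat_lit 331) (nat_lit 254))) (XT.nd (nat_lit 78) (nat_lit 76) (nat_lit 0) (XT.lf (nat_lit 0) (nat_lit 48835512878) (nat_lit 152) (nat_lit 14146761087) (nat_lit 0) (nat_lit 37168550801) (nat_lit 7) (nat_lit 5) (nat_lit 9) (nat_lit 4) (nat_lit 7) (nat_lit 4) (nat_lit 436) (nat_lit 331) (nat_lit 253)) (XT.lf (nat_lit 0) (nat_lit 2387175511) (nat_lit 76) (nat_lit 57007264041) (nat_lit 76) (nat_lit 45327662077) (nat_lit 6) (nat_lit 4) (nat_lit 7) (nat_lit 5) (nat_lit 7) (nat_lit 4) (nat_lit 437) (nat_lit 331) (nat_lit 252))))))))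
noncomputable def xc75 : XT := (XT.nd (nat_lit 1950) (nat_lit 152) (nat_lit 0) (XT.nd (nat_lit 936) (nat_lit 76) (nat_lit 0) (XT.nd (nat_lit 468) (nat_lit 152) (nat_lit 0) (XT.nd (nat_lit 234) (nat_lit 0) (nat_lit 0) (XT.nd (nat_lit 78) (nat_lit 0) (nat_lit 0) (XT.lf (nat_lit 0) (nat_lit 20203805869) (nat_lit 76) (nat_lit 50499342873) (nat_lit 76) (nat_lit 38807702923) (nat_lit 6) (nat_lit 4) (nat_lit 7) (nat_lit 5) (nat_lit 7) (nat_lit 4) (nat_lit 438) (nat_lit 331) (nat_lit 251)) (XT.nd (nat_lit 78) (nat_lit 0) (nat_lit 0) (XT.lf (nat_lit 0) (nat_lit 38877794726) (nat_lit 76) (nat_lit 43682597658) (nat_lit 76) (nat_lit 31979492958) (nat_lit 6) (nat_lit 4) (nat_lit 7) (nat_lit 5) (nat_lit 7) (nat_lit 4) (nat_lit 439) (nat_lit 331) (nat_lit 250)) (XT.lf (nat_lit 0) (nat_lit 58453603958) (nat_lit 76) (nat_lit 36540798049) (nat_lit 76) (nat_lit 24826774540) (nat_lit 6) (nat_lit 4) (nat_lit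 7) (nat_lit 5) (nat_lit 7) (nat_lit 4) (nat_lit 440) (nat_lit 331) (nat_lit 249)))) (XT.nd (nat_lit 78) (nat_lit 0) (nat_lit 0) (XT.lf (nat_lit 0) (nat_lit 78977842637) (nat_lit 76) (nat_lit 29056939761) (nat_lit 76) (nat_lit 17332517386) (nat_lit 6) (nat_lit 4) (nat_lit 7) (nat_lit 5) (nat_lit 7) (nat_lit 4) (nat_lit 441) (nat_lit 331) (nat_lit 248)) (XT.nd (nat_lit 78) (nat_lit 0) (nat_lit 0) (XT.lf (nat_lit 0) (nat_lit 100499377996) (nat_lit 76) (nat_lit 21213204085) (nat_lit 76) (nat_lit 9478878028) (nat_lit 6) (nat_lit 4) (nat_lit 7) (nat_lit 5) (nat_lit 7) (nat_lit 4) (nat_lit 442) (nat_lit 331) (nat_lit 247)) (XT.lf (nat_lit 0) (nat_lit 123069451787) (nat_lit 76) (nat_lit 12990915458) (nat_lit 76) (nat_lit 1247157324) (nat_lit 6) (nat_lit 4) (nat_lit 7) (nat_lit 5) (nat_lit 7) (nat_lit 4) (nat_lit 443) (nat_lit 331) (nat_lit 246))))) (XT.nd (nat_lit 234) (nat_lit 0) (nat_lit 0) (XT.nd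 (nat_lit 78) (nat_lit 0) (nat_lit 0) (XT.lf (nat_lit 0) (nat_lit 2992260562) (nat_lit 76) (nat_lit 4200423158) (nat_lit 152) (nat_lit 136529272748) (nat_lit 4) (nat_lit 5) (nat_lit 5) (nat_lit 5) (nat_lit 6) (nat_lit 4) (nat_lit 444) (nat_lit 331) (nat_lit 245)) (XT.nd (nat_lit 78) (nat_lit 0) (nat_lit 0) (XT.lf (nat_lit 0) (nat_lit 16322779560) (nat_lit 152) (nat_lit 128996255098) (nat_lit 0) (nat_lit 5121545047) (nat_lit 4) (nat_lit 5) (nat_lit 6) (nat_lit 4) (nat_lit 4) (nat_lit 4) (nat_lit 445) (nat_lit 331) (nat_lit 244)) (XT.lf (nat_lit 0) (nat_lit 25965446987) (nat_lit 152) (nat_lit 116770431832) (nat_lit 0) (nat_lit 14756452680) (nat_lit 4) (nat_lit 5) (nat_lit 6) (nat_lit 4) (nat_lit 4) (nat_lit 4) (nat_lit 446) (nat_lit 331) (nat_lit 243)))) (XT.nd (nat_lit 78) (nat_lit 0) (nat_lit 0) (XT.lf (nat_lit 0) (nat_lit 36078064357) (nat_lit 152) (nat_lit 103957536626) (nat_lit 0) (nat_lit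 24861679771) (nat_lit 4) (nat_lit 5) (nat_lit 6) (nat_lit 4) (nat_lit 4) (nat_lit 4) (nat_lit 447) (nat_lit 331) (nat_lit 242)) (XT.nd (nat_lit 78) (nat_lit 0) (nat_lit 0) (XT.lf (nat_lit 0) (nat_lit 46684709331) (nat_lit 152) (nat_lit 90527062589) (nat_lit 0) (nat_lit 35461286383) (nat_lit 4) (nat_lit 5) (nat_lit 6) (nat_lit 4) (nat_lit 4) (nat_lit 4) (nat_lit 448) (nat_lit 331) (nat_lit 241)) (XT.lf (nat_lit 0) (nat_lit 57810635826) (nat_lit 152) (nat_lit 76447032401) (nat_lit 0) (nat_lit 46580509676) (nat_lit 4) (nat_lit 5) (nat_lit 6) (nat_lit 4) (nat_lit 4) (nat_lit 4) (nat_lit 449) (nat_lit 331) (nat_lit 240)))))) (XT.nd (nat_lit 468) (nat_lit 0) (nat_lit 0) (XT.nd (nat_lit 234) (nat_lit 76) (nat_lit 0) (XT.nd (nat_lit 78) (nat_lit 0) (nat_lit 0) (XT.lf (nat_lit 0) (nat_lit 69482334141) (nat_lit 152) (nat_lit 61683922180) (nat_lit 0) (nat_lit 58245823990) (nat_lit 4) (nat_lit 5) (nat_lit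 6) (nat_lit 4) (nat_lit 4) (nat_lit 4) (nat_lit 450) (nat_lit 331) (nat_lit 239)) (XT.nd (nat_lit 78) (nat_lit 0) (nat_lit 0) (XT.lf (nat_lit 0) (nat_lit 81727594036) (nat_lit 152) (nat_lit 46202581664) (nat_lit 0) (nat_lit 70485003884) (nat_lit 4) (nat_lit 5) (nat_lit 6) (nat_lit 4) (nat_lit 4) (nat_lit 4) (nat_lit 451) (nat_lit 331) (nat_lit 238)) (XT.lf (nat_lit 0) (nat_lit 94575570891) (nat_lit 152) (nat_lit 29966150519) (nat_lit 0) (nat_lit 83327190261) (nat_lit 4) (nat_lit 5) (nat_lit 6) (nat_lit 4) (nat_lit 4) (nat_lit 4) (nat_lit 452) (nat_lit 331) (nat_lit 237)))) (XT.nd (nat_lit 78) (nat_lit 76) (nat_lit 0) (XT.lf (nat_lit 0) (nat_lit 108056855127) (nat_lit 152) (nat_lit 12935970575) (nat_lit 0) (nat_lit 96802959756) (nat_lit 4) (nat_lit 5) (nat_lit 6) (nat_lit 4) (nat_lit 4) (nat_lit 4) (nat_lit 453) (nat_lit 331) (nat_lit 236)) (XT.nd (nat_lit 78) (nat_lit 0) (nat_lit 0) (XT.lf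 (nat_lit 0) (nat_lit 5091464888) (nat_lit 76) (nat_lit 117191572188) (nat_lit 76) (nat_lit 105932424683) (nat_lit 3) (nat_lit 4) (nat_lit 4) (nat_lit 5) (nat_lit 4) (nat_lit 4) (nat_lit 454) (nat_lit 331) (nat_lit 235)) (XT.lf (nat_lit 0) (nat_lit 24452445277) (nat_lit 76) (nat_lit 112978649146) (nat_lit 76) (nat_lit 101714499609) (nat_lit 3) (nat_lit 4) (nat_lit 4) (nat_lit 5) (nat_lit 4) (nat_lit 4) (nat_lit 455) (nat_lit 331) (nat_lit 234))))) (XT.nd (nat_lit 234) (nat_lit 0) (nat_lit 0) (XT.nd (nat_lit 78) (nat_lit 0) (nat_lit 0) (XT.lf (nat_lit 0) (nat_lit 44765346557) (nat_lit 76) (nat_lit 108563102729) (nat_lit 76) (nat_lit 97294189352) (nat_lit 3) (nat_lit 4) (nat_lit 4) (nat_lit 5) (nat_lit 4) (nat_lit 4) (nat_lit 456) (nat_lit 331) (nat_lit 233)) (XT.nd (nat_lit 78) (nat_lit 0) (nat_lit 0) (XT.lf (nat_lit 0) (nat_lit 66078532778) (nat_lit 76) (nat_lit 103934419732) (nat_lit 76)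 (nat_lit 92660969365) (nat_lit 3) (nat_lit 4) (nat_lit 4) (nat_lit 5) (nat_lit 4) (nat_lit 4) (nat_lit 457) (nat_lit 331) (nat_lit 232)) (XT.lf (nat_lit 0) (nat_lit 88442749622) (nat_lit 76) (nat_lit 99081579481) (nat_lit 76) (nat_lit 87803808170) (nat_lit 3) (nat_lit 4) (nat_lit 4) (nat_lit 5) (nat_lit 4) (nat_lit 4) (nat_lit 458) (nat_lit 331) (nat_lit 231)))) (XT.nd (nat_lit 156) (nat_lit 0) (nat_lit 0) (XT.nd (nat_lit 78) (nat_lit 0) (nat_lit 0) (XT.lf (nat_lit 0) (nat_lit 111911245224) (nat_lit 76) (nat_lit 93993027594) (nat_lit 76) (nat_lit 82711141098) (nat_lit 3) (nat_lit 4) (nat_lit 4) (nat_lit 5) (nat_lit 4) (nat_lit 4) (nat_lit 459) (nat_lit 331) (nat_lit 230)) (XT.lf (nat_lit 0) (nat_lit 136539896954) (nat_lit 76) (nat_lit 88656648471) (nat_lit 76) (nat_lit 77370842752) (nat_lit 3) (nat_lit 4) (nat_lit 4) (nat_lit 5) (nat_lit 4) (nat_lit 4) (nat_lit 460) (nat_lit 331) (nat_lit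 229))) (XT.nd (nat_lit 78) (nat_lit 0) (nat_lit 0) (XT.lf (nat_lit 0) (nat_lit 162387344459) (nat_lit 76) (nat_lit 83059736448) (nat_lit 76) (nat_lit 71770198136) (nat_lit 3) (nat_lit 4) (nat_lit 4) (nat_lit 5) (nat_lit 4) (nat_lit 4) (nat_lit 461) (nat_lit 331) (nat_lit 228)) (XT.lf (nat_lit 0) (nat_lit 189515129282) (nat_lit 76) (nat_lit 77188965544) (nat_lit 76) (nat_lit 65895872381) (nat_lit 3) (nat_lit 4) (nat_lit 4) (nat_lit 5) (nat_lit 4) (nat_lit 4) (nat_lit 462) (nat_lit 331) (nat_lit 227))))))) (XT.nd (nat_lit 1014) (nat_lit 0) (nat_lit 0) (XT.nd (nat_lit 468) (nat_lit 152) (nat_lit 0) (XT.nd (nat_lit 234) (nat_lit 0) (nat_lit 0) (XT.nd (nat_lit 78) (nat_lit 0) (nat_lit 0) (XT.lf (nat_lit 0) (nat_lit 217987841385) (nat_lit 76) (nat_lit 71030357733) (nat_lit 76) (nat_lit 59733878997) (nat_lit 3) (nat_lit 4) (nat_lit 4) (nat_lit 5) (nat_lit 4) (nat_lit 4) (nat_lit 463) (nat_lit 331)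 (nat_lit 226)) (XT.nd (nat_lit 78) (nat_lit 0) (nat_lit 0) (XT.lf (nat_lit 0) (nat_lit 247873272941) (nat_lit 76) (nat_lit 64569249662) (nat_lit 76) (nat_lit 53269546572) (nat_lit 3) (nat_lit 4) (nat_lit 4) (nat_lit 5) (nat_lit 4) (nat_lit 4) (nat_lit 464) (nat_lit 331) (nat_lit 225)) (XT.lf (nat_lit 0) (nat_lit 279242579739) (nat_lit 76) (nat_lit 57790257742) (nat_lit 76) (nat_lit 46487483838) (nat_lit 3) (nat_lit 4) (nat_lit 4) (nat_lit 5) (nat_lit 4) (nat_lit 4) (nat_lit 465) (nat_lit 331) (nat_lit 224)))) (XT.nd (nat_lit 78) (nat_lit 0) (nat_lit 0) (XT.lf (nat_lit 0) (nat_lit 312170450605) (nat_lit 76) (nat_lit 50677241515) (nat_lit 76) (nat_lit 39371543027) (nat_lit 3) (nat_lit 4) (nat_lit 4) (nat_lit 5) (nat_lit 4) (nat_lit 4) (nat_lit 466) (nat_lit 331) (nat_lit 223)) (XT.nd (nat_lit 78) (nat_lit 0) (nat_lit 0) (XT.lf (nat_lit 0) (nat_lit 346735285231) (nat_lit 76) (nat_lit 43213265229)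 (nat_lit 76) (nat_lit 31904781422) (nat_lit 3) (nat_lit 4) (nat_lit 4) (nat_lit 5) (nat_lit 4) (nat_lit 4) (nat_lit 467) (nat_lit 331) (nat_lit 222)) (XT.lf (nat_lit 0) (nat_lit 383019380842) (nat_lit 76) (nat_lit 35380557511) (nat_lit 76) (nat_lit 24069421019) (nat_lit 3) (nat_lit 4) (nat_lit 4) (nat_lit 5) (nat_lit 4) (nat_lit 4) (nat_lit 468) (nat_lit 331) (nat_lit 221))))) (XT.nd (nat_lit 234) (nat_lit 76) (nat_lit 0) (XT.nd (nat_lit 78) (nat_lit 76) (nat_lit 0) (XT.lf (nat_lit 0) (nat_lit 421109128143) (nat_lit 76) (nat_lit 27160469057) (nat_lit 76) (nat_lit 15846806199) (nat_lit 3) (nat_lit 4) (nat_lit 4) (nat_lit 5) (nat_lit 4) (nat_lit 4) (nat_lit 469) (nat_lit 331) (nat_lit 220)) (XT.nd (nat_lit 78) (nat_lit 76) (nat_lit 0) (XT.lf (nat_lit 0) (nat_lit 461095217008) (nat_lit 76) (nat_lit 18533428228) (nat_lit 76) (nat_lit 7217359307) (nat_lit 3) (nat_lit 4) (nat_lit 4) (nat_lit 5)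 (nat_lit 4) (nat_lit 4) (nat_lit 470) (nat_lit 331) (nat_lit 219)) (XT.lf (nat_lit 0) (nat_lit 1780591559) (nat_lit 152) (nat_lit 7668147712) (nat_lit 76) (nat_lit 501262105671) (nat_lit 2) (nat_lit 5) (nat_lit 4) (nat_lit 5) (nat_lit 3) (nat_lit 4) (nat_lit 471) (nat_lit 331) (nat_lit 218)))) (XT.nd (nat_lit 156) (nat_lit 0) (nat_lit 0) (XT.nd (nat_lit 78) (nat_lit 0) (nat_lit 0) (XT.lf (nat_lit 0) (nat_lit 11168892834) (nat_lit 152) (nat_lit 524197545162) (nat_lit 0) (nat_lit 387423520) (nat_lit 1) (nat_lit 5) (nat_lit 3) (nat_lit 4) (nat_lit 1) (nat_lit 4) (nat_lit 472) (nat_lit 331) (nat_lit 217)) (XT.lf (nat_lit 0) (nat_lit 21309731836) (nat_lit 152) (nat_lit 530198858090) (nat_lit 0) (nat_lit 10526283047) (nat_lit 1) (nat_lit 5) (nat_lit 3) (nat_lit 4) (nat_lit 1) (nat_lit 4) (nat_lit 473) (nat_lit 331) (nat_lit 216))) (XT.nd (nat_lit 78) (nat_lit 0) (nat_lit 0) (XT.lf (nat_lit 0)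 (nat_lit 31954024780) (nat_lit 152) (nat_lit 536507399024) (nat_lit 0) (nat_lit 21168690778) (nat_lit 1) (nat_lit 5) (nat_lit 3) (nat_lit 4) (nat_lit 1) (nat_lit 4) (nat_lit 474) (nat_lit 331) (nat_lit 215)) (XT.lf (nat_lit 0) (nat_lit 43127115221) (nat_lit 152) (nat_lit 543138188300) (nat_lit 0) (nat_lit 32339985778) (nat_lit 1) (nat_lit 5) (nat_lit 3) (nat_lit 4) (nat_lit 1) (nat_lit 4) (nat_lit 475) (nat_lit 331) (nat_lit 214)))))) (XT.nd (nat_lit 43914) (nat_lit 0) (nat_lit 6308) (XT.nd (nat_lit 234) (nat_lit 0) (nat_lit 0) (XT.nd (nat_lit 78) (nat_lit 0) (nat_lit 0) (XT.lf (nat_lit 0) (nat_lit 54855605756) (nat_lit 152) (nat_lit 550107013511) (nat_lit 0) (nat_lit 44066766369) (nat_lit 1) (nat_lit 5) (nat_lit 3) (nat_lit 4) (nat_lit 1) (nat_lit 4) (nat_lit 476) (nat_lit 331) (nat_lit 213)) (XT.nd (nat_lit 78) (nat_lit 0) (nat_lit 0) (XT.lf (nat_lit 0) (nat_lit 67167421362) (nat_lit 152)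 (nat_lit 557430467099) (nat_lit 0) (nat_lit 56376953456) (nat_lit 1) (nat_lit 5) (nat_lit 3) (nat_lit 4) (nat_lit 1) (nat_lit 4) (nat_lit 477) (nat_lit 331) (nat_lit 212)) (XT.lf (nat_lit 0) (nat_lit 80091875885) (nat_lit 152) (nat_lit 565125985857) (nat_lit 0) (nat_lit 69299857010) (nat_lit 1) (nat_lit 5) (nat_lit 3) (nat_lit 4) (nat_lit 1) (nat_lit 4) (nat_lit 478) (nat_lit 331) (nat_lit 211)))) (XT.nd (nat_lit 43524) (nat_lit 0) (nat_lit 8208) (XT.lf (nat_lit 0) (nat_lit 93659741836) (nat_lit 152) (nat_lit 573211892451) (nat_lit 0) (nat_lit 82866245847) (nat_lit 1) (nat_lit 5) (nat_lit 3) (nat_lit 4) (nat_lit 1) (nat_lit 4) (nat_lit 479) (nat_lit 331) (nat_lit 210)) (XT.nd (nat_lit 78) (nat_lit 836) (nat_lit 0) (XT.lf (nat_lit 0) (nat_lit 3184517355) (nat_lit 684) (nat_lit 208573203) (nat_lit 684) (nat_lit 208573203) (nat_lit 120) (nat_lit 4) (nat_lit 129) (nat_lit 5) (nat_lit 129) (nat_lit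 4) (nat_lit 356) (nat_lit 332) (nat_lit 332)) (XT.lf (nat_lit 0) (nat_lit 3047497329) (nat_lit 836) (nat_lit 2790630288) (nat_lit 0) (nat_lit 1464486894) (nat_lit 109) (nat_lit 5) (nat_lit 120) (nat_lit 4) (nat_lit 109) (nat_lit 4) (nat_lit 357) (nat_lit 332) (nat_lit 331))))) (XT.nd (nat_lit 234) (nat_lit 1140) (nat_lit 0) (XT.nd (nat_lit 78) (nat_lit 380) (nat_lit 0) (XT.lf (nat_lit 0) (nat_lit 2640608491) (nat_lit 380) (nat_lit 3930846384) (nat_lit 380) (nat_lit 840206962) (nat_lit 104) (nat_lit 4) (nat_lit 109) (nat_lit 5) (nat_lit 109) (nat_lit 4) (nat_lit 358) (nat_lit 332) (nat_lit 330)) (XT.nd (nat_lit 78) (nat_lit 0) (nat_lit 0) (XT.lf (nat_lit 0) (nat_lit 714810734) (nat_lit 304) (nat_lit 1841914771) (nat_lit 380) (nat_lit 4972465053) (nat_lit 99) (nat_lit 5) (nat_lit 103) (nat_lit 5) (nat_lit 104) (nat_lit 4) (nat_lit 359) (nat_lit 332) (nat_lit 329)) (XT.lf (nat_lit 0) (nat_lit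 6027318913) (nat_lit 380) (nat_lit 1214066785) (nat_lit 0) (nat_lit 414042259) (nat_lit 99) (nat_lit 5) (nat_lit 104) (nat_lit 4) (nat_lit 99) (nat_lit 4) (nat_lit 360) (nat_lit 332) (nat_lit 328)))) (XT.nd (nat_lit 156) (nat_lit 380) (nat_lit 0) (XT.nd (nat_lit 78) (nat_lit 304) (nat_lit 0) (XT.lf (nat_lit 0) (nat_lit 1776280711) (nat_lit 456) (nat_lit 3212231292) (nat_lit 76) (nat_lit 2800451982) (nat_lit 93) (nat_lit 5) (nat_lit 99) (nat_lit 5) (nat_lit 94) (nat_lit 4) (nat_lit 361) (nat_lit 332) (nat_lit 327)) (XT.lf (nat_lit 0) (nat_lit 2650072643) (nat_lit 304) (nat_lit 2562096212) (nat_lit 380) (nat_lit 2719980404) (nat_lit 89) (nat_lit 5) (nat_lit 93) (nat_lit 5) (nat_lit 94) (nat_lit 4) (nat_lit 362) (nat_lit 332) (nat_lit 326))) (XT.nd (nat_lit 78) (nat_lit 0) (nat_lit 0) (XT.lf (nat_lit 0) (nat_lit 635425778) (nat_lit 380) (nat_lit 7421081415) (nat_lit 76) (nat_lit 29424329) (nat_lit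 84) (nat_lit 5) (nat_lit 89) (nat_lit 5) (nat_lit 85) (nat_lit 4) (nat_lit 363) (nat_lit 332) (nat_lit 325)) (XT.lf (nat_lit 0) (nat_lit 4059146949) (nat_lit 380) (nat_lit 1422875655) (nat_lit 76) (nat_lit 2763645247) (nat_lit 84) (nat_lit 5) (nat_lit 89) (nat_lit 5) (nat_lit 85) (nat_lit 4) (nat_lit 364) (nat_lit 332) (nat_lit 324))))))))
noncomputable def xc76 : XT := (XT.nd (nat_lit 1950) (nat_lit 1444) (nat_lit 0) (XT.nd (nat_lit 936) (nat_lit 1520) (nat_lit 0) (XT.nd (nat_lit 468) (nat_lit 912) (nat_lit 0) (XT.nd (nat_lit 234) (nat_lit 532) (nat_lit 0) (XT.nd (nat_lit 78) (nat_lit 608) (nat_lit 0) (XT.lf (nat_lit 0) (nat_lit 4855019394) (nat_lit 228) (nat_lit 2740579329) (nat_lit 304) (nat_lit 820802799) (nat_lit 81) (nat_lit 5) (nat_lit 84) (nat_lit 5) (nat_lit 85) (nat_lit 4) (nat_lit 365) (nat_lit 332) (nat_lit 323)) (XT.nd (nat_lit 78) (nat_lit 228) (nat_lit 0) (XT.lf (nat_lit 0)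 (nat_lit 2564590503) (nat_lit 380) (nat_lit 5829743187) (nat_lit 76) (nat_lit 202388311) (nat_lit 76) (nat_lit 5) (nat_lit 81) (nat_lit 5) (nat_lit 77) (nat_lit 4) (nat_lit 366) (nat_lit 332) (nat_lit 322)) (XT.lf (nat_lit 0) (nat_lit 529720836) (nat_lit 228) (nat_lit 5546561499) (nat_lit 304) (nat_lit 2709948523) (nat_lit 73) (nat_lit 5) (nat_lit 76) (nat_lit 5) (nat_lit 77) (nat_lit 4) (nat_lit 367) (nat_lit 332) (nat_lit 321)))) (XT.nd (nat_lit 78) (nat_lit 456) (nat_lit 0) (XT.lf (nat_lit 0) (nat_lit 725166154) (nat_lit 304) (nat_lit 1766129886) (nat_lit 76) (nat_lit 6494793546) (nat_lit 72) (nat_lit 5) (nat_lit 76) (nat_lit 5) (nat_lit 73) (nat_lit 5) (nat_lit 368) (nat_lit 332) (nat_lit 320)) (XT.nd (nat_lit 78) (nat_lit 228) (nat_lit 0) (XT.lf (nat_lit 0) (nat_lit 4208808071) (nat_lit 304) (nat_lit 4217315719) (nat_lit 76) (nat_lit 769269496) (nat_lit 69) (nat_lit 5) (nat_lit 73)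 (nat_lit 5) (nat_lit 70) (nat_lit 4) (nat_lit 369) (nat_lit 332) (nat_lit 319)) (XT.lf (nat_lit 0) (nat_lit 2572728441) (nat_lit 228) (nat_lit 5285204688) (nat_lit 304) (nat_lit 1557726353) (nat_lit 66) (nat_lit 5) (nat_lit 69) (nat_lit 5) (nat_lit 70) (nat_lit 4) (nat_lit 370) (nat_lit 332) (nat_lit 318))))) (XT.nd (nat_lit 234) (nat_lit 456) (nat_lit 0) (XT.nd (nat_lit 78) (nat_lit 380) (nat_lit 0) (XT.lf (nat_lit 0) (nat_lit 1930733233) (nat_lit 304) (nat_lit 4330773) (nat_lit 76) (nat_lit 7712660382) (nat_lit 65) (nat_lit 5) (nat_lit 69) (nat_lit 5) (nat_lit 66) (nat_lit 5) (nat_lit 371) (nat_lit 332) (nat_lit 317)) (XT.nd (nat_lit 78) (nat_lit 152) (nat_lit 0) (XT.lf (nat_lit 0) (nat_lit 5566613945) (nat_lit 304) (nat_lit 2702973785) (nat_lit 76) (nat_lit 1619314460) (nat_lit 62) (nat_lit 5) (nat_lit 66) (nat_lit 5) (nat_lit 63) (nat_lit 4) (nat_lit 372) (nat_lit 332) (nat_lit 316))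 (XT.lf (nat_lit 0) (nat_lit 4537011443) (nat_lit 152) (nat_lit 4838477983) (nat_lit 228) (nat_lit 767140725) (nat_lit 60) (nat_lit 5) (nat_lit 62) (nat_lit 5) (nat_lit 63) (nat_lit 4) (nat_lit 373) (nat_lit 332) (nat_lit 315)))) (XT.nd (nat_lit 78) (nat_lit 152) (nat_lit 0) (XT.lf (nat_lit 0) (nat_lit 1661039916) (nat_lit 228) (nat_lit 1171691743) (nat_lit 304) (nat_lit 7575949670) (nat_lit 56) (nat_lit 5) (nat_lit 59) (nat_lit 5) (nat_lit 60) (nat_lit 5) (nat_lit 374) (nat_lit 332) (nat_lit 314)) (XT.nd (nat_lit 78) (nat_lit 152) (nat_lit 0) (XT.lf (nat_lit 0) (nat_lit 6616247375) (nat_lit 304) (nat_lit 1426480090) (nat_lit 76) (nat_lit 2643251584) (nat_lit 56) (nat_lit 5) (nat_lit 60) (nat_lit 5) (nat_lit 57) (nat_lit 4) (nat_lit 375) (nat_lit 332) (nat_lit 313)) (XT.lf (nat_lit 0) (nat_lit 6277805567) (nat_lit 152) (nat_lit 4324662796) (nat_lit 228) (nat_lit 374039028) (nat_lit 54) (nat_lit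 5) (nat_lit 56) (nat_lit 5) (nat_lit 57) (nat_lit 4) (nat_lit 376) (nat_lit 332) (nat_lit 312)))))) (XT.nd (nat_lit 468) (nat_lit 760) (nat_lit 0) (XT.nd (nat_lit 234) (nat_lit 380) (nat_lit 0) (XT.nd (nat_lit 78) (nat_lit 152) (nat_lit 0) (XT.lf (nat_lit 0) (nat_lit 3012304298) (nat_lit 152) (nat_lit 350507176) (nat_lit 228) (nat_lit 7917621638) (nat_lit 51) (nat_lit 5) (nat_lit 53) (nat_lit 5) (nat_lit 54) (nat_lit 5) (nat_lit 377) (nat_lit 332) (nat_lit 311)) (XT.nd (nat_lit 78) (nat_lit 152) (nat_lit 0) (XT.lf (nat_lit 0) (nat_lit 7312900034) (nat_lit 228) (nat_lit 557572341) (nat_lit 76) (nat_lit 3726864333) (nat_lit 51) (nat_lit 5) (nat_lit 54) (nat_lit 5) (nat_lit 52) (nat_lit 4) (nat_lit 378) (nat_lit 332) (nat_lit 310)) (XT.lf (nat_lit 0) (nat_lit 7617653644) (nat_lit 152) (nat_lit 3870764705) (nat_lit 228) (nat_lit 440305594) (nat_lit 49) (nat_lit 5) (nat_lit 51) (nat_lit 5) (nat_lit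 52) (nat_lit 4) (nat_lit 379) (nat_lit 332) (nat_lit 309)))) (XT.nd (nat_lit 78) (nat_lit 152) (nat_lit 0) (XT.lf (nat_lit 0) (nat_lit 3460717091) (nat_lit 228) (nat_lit 8429222238) (nat_lit 76) (nat_lit 384976475) (nat_lit 46) (nat_lit 5) (nat_lit 49) (nat_lit 5) (nat_lit 47) (nat_lit 4) (nat_lit 380) (nat_lit 332) (nat_lit 308)) (XT.nd (nat_lit 78) (nat_lit 152) (nat_lit 0) (XT.lf (nat_lit 0) (nat_lit 7584631093) (nat_lit 228) (nat_lit 307418866) (nat_lit 76) (nat_lit 4743904524) (nat_lit 46) (nat_lit 5) (nat_lit 49) (nat_lit 5) (nat_lit 47) (nat_lit 4) (nat_lit 381) (nat_lit 332) (nat_lit 307)) (XT.lf (nat_lit 0) (nat_lit 8334125211) (nat_lit 152) (nat_lit 3620234853) (nat_lit 228) (nat_lit 1058732636) (nat_lit 44) (nat_lit 5) (nat_lit 46) (nat_lit 5) (nat_lit 47) (nat_lit 4) (nat_lit 382) (nat_lit 332) (nat_lit 306))))) (XT.nd (nat_lit 234) (nat_lit 456) (nat_lit 0) (XT.nd (nat_lit 78)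 (nat_lit 76) (nat_lit 0) (XT.lf (nat_lit 0) (nat_lit 3024280894) (nat_lit 228) (nat_lit 9489411363) (nat_lit 76) (nat_lit 893421140) (nat_lit 41) (nat_lit 5) (nat_lit 44) (nat_lit 5) (nat_lit 42) (nat_lit 4) (nat_lit 383) (nat_lit 332) (nat_lit 305)) (XT.nd (nat_lit 78) (nat_lit 76) (nat_lit 0) (XT.lf (nat_lit 0) (nat_lit 7326675003) (nat_lit 228) (nat_lit 942821930) (nat_lit 76) (nat_lit 5547954548) (nat_lit 41) (nat_lit 5) (nat_lit 44) (nat_lit 5) (nat_lit 42) (nat_lit 4) (nat_lit 384) (nat_lit 332) (nat_lit 304)) (XT.lf (nat_lit 0) (nat_lit 8144541113) (nat_lit 76) (nat_lit 3741971141) (nat_lit 152) (nat_lit 2359701546) (nat_lit 40) (nat_lit 5) (nat_lit 41) (nat_lit 5) (nat_lit 42) (nat_lit 4) (nat_lit 385) (nat_lit 332) (nat_lit 303)))) (XT.nd (nat_lit 156) (nat_lit 228) (nat_lit 0) (XT.nd (nat_lit 78) (nat_lit 0) (nat_lit 0) (XT.lf (nat_lit 0) (nat_lit 1908625803) (nat_lit 228) (nat_lit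 11773714185) (nat_lit 76) (nat_lit 1012851283) (nat_lit 37) (nat_lit 5) (nat_lit 40) (nat_lit 5) (nat_lit 38) (nat_lit 4) (nat_lit 386) (nat_lit 332) (nat_lit 302)) (XT.lf (nat_lit 0) (nat_lit 6393775131) (nat_lit 228) (nat_lit 2804017860) (nat_lit 76) (nat_lit 5962775395) (nat_lit 37) (nat_lit 5) (nat_lit 40) (nat_lit 5) (nat_lit 38) (nat_lit 4) (nat_lit 387) (nat_lit 332) (nat_lit 301))) (XT.nd (nat_lit 78) (nat_lit 152) (nat_lit 0) (XT.lf (nat_lit 0) (nat_lit 6686785810) (nat_lit 76) (nat_lit 4441114130) (nat_lit 152) (nat_lit 4520097851) (nat_lit 36) (nat_lit 5) (nat_lit 37) (nat_lit 5) (nat_lit 38) (nat_lit 4) (nat_lit 388) (nat_lit 332) (nat_lit 300)) (XT.lf (nat_lit 0) (nat_lit 455118694) (nat_lit 152) (nat_lit 15628611608) (nat_lit 152) (nat_lit 76836815) (nat_lit 34) (nat_lit 4) (nat_lit 36) (nat_lit 5) (nat_lit 36) (nat_lit 4) (nat_lit 389) (nat_lit 332) (nat_lit 299))))))) (XT.nd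 (nat_lit 1014) (nat_lit 608) (nat_lit 0) (XT.nd (nat_lit 468) (nat_lit 380) (nat_lit 0) (XT.nd (nat_lit 234) (nat_lit 304) (nat_lit 0) (XT.nd (nat_lit 78) (nat_lit 76) (nat_lit 0) (XT.lf (nat_lit 0) (nat_lit 4590060575) (nat_lit 228) (nat_lit 6327143325) (nat_lit 76) (nat_lit 5770578841) (nat_lit 33) (nat_lit 5) (nat_lit 36) (nat_lit 5) (nat_lit 34) (nat_lit 4) (nat_lit 390) (nat_lit 332) (nat_lit 298)) (XT.nd (nat_lit 78) (nat_lit 0) (nat_lit 0) (XT.lf (nat_lit 0) (nat_lit 3495050646) (nat_lit 76) (nat_lit 5972267249) (nat_lit 152) (nat_lit 7775014314) (nat_lit 32) (nat_lit 5) (nat_lit 33) (nat_lit 5) (nat_lit 34) (nat_lit 4) (nat_lit 391) (nat_lit 332) (nat_lit 297)) (XT.lf (nat_lit 0) (nat_lit 13894575819) (nat_lit 76) (nat_lit 727531840) (nat_lit 152) (nat_lit 3200833164) (nat_lit 32) (nat_lit 5) (nat_lit 33) (nat_lit 5) (nat_lit 34) (nat_lit 4) (nat_lit 392) (nat_lit 332) (nat_lit 296))))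 (XT.nd (nat_lit 78) (nat_lit 76) (nat_lit 0) (XT.lf (nat_lit 0) (nat_lit 1655838129) (nat_lit 228) (nat_lit 12072720923) (nat_lit 76) (nat_lit 4697531082) (nat_lit 29) (nat_lit 5) (nat_lit 32) (nat_lit 5) (nat_lit 30) (nat_lit 4) (nat_lit 393) (nat_lit 332) (nat_lit 295)) (XT.nd (nat_lit 78) (nat_lit 76) (nat_lit 0) (XT.lf (nat_lit 0) (nat_lit 6656674199) (nat_lit 228) (nat_lit 1965953609) (nat_lit 76) (nat_lit 10433713547) (nat_lit 29) (nat_lit 5) (nat_lit 32) (nat_lit 5) (nat_lit 30) (nat_lit 4) (nat_lit 394) (nat_lit 332) (nat_lit 294)) (XT.lf (nat_lit 0) (nat_lit 8804161971) (nat_lit 76) (nat_lit 3173565882) (nat_lit 152) (nat_lit 7736880960) (nat_lit 28) (nat_lit 5) (nat_lit 29) (nat_lit 5) (nat_lit 30) (nat_lit 4) (nat_lit 395) (nat_lit 332) (nat_lit 293))))) (XT.nd (nat_lit 234) (nat_lit 152) (nat_lit 0) (XT.nd (nat_lit 78) (nat_lit 228) (nat_lit 0) (XT.lf (nat_lit 0) (nat_lit 17571604449)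 (nat_lit 152) (nat_lit 387636003) (nat_lit 0) (nat_lit 2446222549) (nat_lit 28) (nat_lit 5) (nat_lit 30) (nat_lit 4) (nat_lit 28) (nat_lit 4) (nat_lit 396) (nat_lit 332) (nat_lit 292)) (XT.nd (nat_lit 78) (nat_lit 76) (nat_lit 0) (XT.lf (nat_lit 0) (nat_lit 2400382466) (nat_lit 152) (nat_lit 10323845794) (nat_lit 76) (nat_lit 8396828759) (nat_lit 26) (nat_lit 5) (nat_lit 28) (nat_lit 5) (nat_lit 27) (nat_lit 4) (nat_lit 397) (nat_lit 332) (nat_lit 291)) (XT.lf (nat_lit 0) (nat_lit 534698135) (nat_lit 76) (nat_lit 7217934774) (nat_lit 152) (nat_lit 14119908569) (nat_lit 25) (nat_lit 5) (nat_lit 26) (nat_lit 5) (nat_lit 27) (nat_lit 4) (nat_lit 398) (nat_lit 332) (nat_lit 290)))) (XT.nd (nat_lit 156) (nat_lit 76) (nat_lit 0) (XT.nd (nat_lit 78) (nat_lit 76) (nat_lit 0) (XT.lf (nat_lit 0) (nat_lit 12177993891) (nat_lit 76) (nat_lit 1307057146) (nat_lit 152) (nat_lit 9170931130) (nat_lit 25)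 (nat_lit 5) (nat_lit 26) (nat_lit 5) (nat_lit 27) (nat_lit 4) (nat_lit 399) (nat_lit 332) (nat_lit 289)) (XT.lf (nat_lit 0) (nat_lit 759462861) (nat_lit 76) (nat_lit 18772851534) (nat_lit 76) (nat_lit 3944878581) (nat_lit 24) (nat_lit 4) (nat_lit 25) (nat_lit 5) (nat_lit 25) (nat_lit 4) (nat_lit 400) (nat_lit 332) (nat_lit 288))) (XT.nd (nat_lit 78) (nat_lit 0) (nat_lit 0) (XT.lf (nat_lit 0) (nat_lit 1634916142) (nat_lit 152) (nat_lit 11569828749) (nat_lit 76) (nat_lit 11126433330) (nat_lit 23) (nat_lit 5) (nat_lit 25) (nat_lit 5) (nat_lit 24) (nat_lit 4) (nat_lit 401) (nat_lit 332) (nat_lit 287)) (XT.lf (nat_lit 0) (nat_lit 7304005339) (nat_lit 152) (nat_lit 37180553) (nat_lit 76) (nat_lit 17886307439) (nat_lit 23) (nat_lit 5) (nat_lit 25) (nat_lit 5) (nat_lit 24) (nat_lit 4) (nat_lit 402) (nat_lit 332) (nat_lit 286)))))) (XT.nd (nat_lit 468) (nat_lit 304) (nat_lit 0) (XT.nd (nat_lit 234)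 (nat_lit 152) (nat_lit 0) (XT.nd (nat_lit 78) (nat_lit 76) (nat_lit 0) (XT.lf (nat_lit 0) (nat_lit 12365021685) (nat_lit 76) (nat_lit 1030178548) (nat_lit 152) (nat_lit 12766499054) (nat_lit 22) (nat_lit 5) (nat_lit 23) (nat_lit 5) (nat_lit 24) (nat_lit 4) (nat_lit 403) (nat_lit 332) (nat_lit 285)) (XT.nd (nat_lit 78) (nat_lit 76) (nat_lit 0) (XT.lf (nat_lit 0) (nat_lit 19824833408) (nat_lit 152) (nat_lit 1944453038) (nat_lit 0) (nat_lit 5371642455) (nat_lit 22) (nat_lit 5) (nat_lit 24) (nat_lit 4) (nat_lit 22) (nat_lit 4) (nat_lit 404) (nat_lit 332) (nat_lit 284)) (XT.lf (nat_lit 0) (nat_lit 10728680937) (nat_lit 76) (nat_lit 15980101568) (nat_lit 76) (nat_lit 1453702718) (nat_lit 21) (nat_lit 4) (nat_lit 22) (nat_lit 5) (nat_lit 22) (nat_lit 4) (nat_lit 405) (nat_lit 332) (nat_lit 283)))) (XT.nd (nat_lit 78) (nat_lit 76) (nat_lit 0) (XT.lf (nat_lit 0) (nat_lit 4533344479) (nat_lit 152)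 (nat_lit 5302764474) (nat_lit 76) (nat_lit 19396245179) (nat_lit 20) (nat_lit 5) (nat_lit 22) (nat_lit 5) (nat_lit 21) (nat_lit 4) (nat_lit 406) (nat_lit 332) (nat_lit 282)) (XT.nd (nat_lit 78) (nat_lit 0) (nat_lit 0) (XT.lf (nat_lit 0) (nat_lit 7559300986) (nat_lit 76) (nat_lit 3280612850) (nat_lit 152) (nat_lit 19511165901) (nat_lit 19) (nat_lit 5) (nat_lit 20) (nat_lit 5) (nat_lit 21) (nat_lit 4) (nat_lit 407) (nat_lit 332) (nat_lit 281)) (XT.lf (nat_lit 0) (nat_lit 17560545681) (nat_lit 152) (nat_lit 10424254615) (nat_lit 0) (nat_lit 3536010334) (nat_lit 19) (nat_lit 5) (nat_lit 21) (nat_lit 4) (nat_lit 19) (nat_lit 4) (nat_lit 408) (nat_lit 332) (nat_lit 280))))) (XT.nd (nat_lit 234) (nat_lit 152) (nat_lit 0) (XT.nd (nat_lit 78) (nat_lit 76) (nat_lit 0) (XT.lf (nat_lit 0) (nat_lit 2498447131) (nat_lit 76) (nat_lit 22165082989) (nat_lit 76) (nat_lit 8083187338) (nat_lit 18) (nat_lit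 4) (nat_lit 19) (nat_lit 5) (nat_lit 19) (nat_lit 4) (nat_lit 409) (nat_lit 332) (nat_lit 279)) (XT.nd (nat_lit 78) (nat_lit 76) (nat_lit 0) (XT.lf (nat_lit 0) (nat_lit 16341248255) (nat_lit 76) (nat_lit 15911327725) (nat_lit 76) (nat_lit 1774803214) (nat_lit 18) (nat_lit 4) (nat_lit 19) (nat_lit 5) (nat_lit 19) (nat_lit 4) (nat_lit 410) (nat_lit 332) (nat_lit 278)) (XT.lf (nat_lit 0) (nat_lit 4649629827) (nat_lit 152) (nat_lit 4656810852) (nat_lit 76) (nat_lit 26064061315) (nat_lit 17) (nat_lit 5) (nat_lit 19) (nat_lit 5) (nat_lit 18) (nat_lit 4) (nat_lit 411) (nat_lit 332) (nat_lit 277)))) (XT.nd (nat_lit 156) (nat_lit 76) (nat_lit 0) (XT.nd (nat_lit 78) (nat_lit 0) (nat_lit 0) (XT.lf (nat_lit 0) (nat_lit 9208446190) (nat_lit 76) (nat_lit 2228894382) (nat_lit 152) (nat_lit 25336905023) (nat_lit 16) (nat_lit 5) (nat_lit 17) (nat_lit 5) (nat_lit 18) (nat_lit 4) (nat_lit 412) (nat_lit 332)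 (nat_lit 276)) (XT.lf (nat_lit 0) (nat_lit 18683907378) (nat_lit 152) (nat_lit 14479432782) (nat_lit 0) (nat_lit 5078866951) (nat_lit 16) (nat_lit 5) (nat_lit 18) (nat_lit 4) (nat_lit 16) (nat_lit 4) (nat_lit 413) (nat_lit 332) (nat_lit 275))) (XT.nd (nat_lit 78) (nat_lit 76) (nat_lit 0) (XT.lf (nat_lit 0) (nat_lit 26289423911) (nat_lit 152) (nat_lit 852735439) (nat_lit 0) (nat_lit 12641580342) (nat_lit 16) (nat_lit 5) (nat_lit 18) (nat_lit 4) (nat_lit 16) (nat_lit 4) (nat_lit 414) (nat_lit 332) (nat_lit 274)) (XT.lf (nat_lit 0) (nat_lit 13823990454) (nat_lit 76) (nat_lit 20629040034) (nat_lit 76) (nat_lit 6940431569) (nat_lit 15) (nat_lit 4) (nat_lit 16) (nat_lit 5) (nat_lit 16) (nat_lit 4) (nat_lit 415) (nat_lit 332) (nat_lit 273))))))))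
noncomputable def xc77 : XT := (XT.nd (nat_lit 1950) (nat_lit 228) (nat_lit 0) (XT.nd (nat_lit 936) (nat_lit 304) (nat_lit 0) (XT.nd (nat_lit 468) (nat_lit 152) (nat_lit 0) (XT.nd (nat_lit 234) (nat_lit 76) (nat_lit 0) (XT.nd (nat_lit 78) (nat_lit 152) (nat_lit 0) (XT.lf (nat_lit 0) (nat_lit 29191587032) (nat_lit 76) (nat_lit 13810332138) (nat_lit 76) (nat_lit 82899961) (nat_lit 15) (nat_lit 4) (nat_lit 16) (nat_lit 5) (nat_lit 16) (nat_lit 4) (nat_lit 416) (nat_lit 332) (nat_lit 272)) (XT.nd (nat_lit 78) (nat_lit 0) (nat_lit 0) (XT.lf (nat_lit 0) (nat_lit 294817665) (nat_lit 76) (nat_lit 6563340776) (nat_lit 152) (nat_lit 37998609999) (nat_lit 13) (nat_lit 5) (nat_lit 14) (nat_lit 5) (nat_lit 15) (nat_lit 4) (nat_lit 417) (nat_lit 332) (nat_lit 271)) (XT.lf (nat_lit 0) (nat_lit 14362928099) (nat_lit 152) (nat_lit 31122918591) (nat_lit 0) (nat_lit 1220431536) (nat_lit 13) (nat_lit 5) (nat_lit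 15) (nat_lit 4) (nat_lit 13) (nat_lit 4) (nat_lit 418) (nat_lit 332) (nat_lit 270)))) (XT.nd (nat_lit 78) (nat_lit 76) (nat_lit 0) (XT.lf (nat_lit 0) (nat_lit 22316215345) (nat_lit 152) (nat_lit 17186608809) (nat_lit 0) (nat_lit 9141778420) (nat_lit 13) (nat_lit 5) (nat_lit 15) (nat_lit 4) (nat_lit 13) (nat_lit 4) (nat_lit 419) (nat_lit 332) (nat_lit 269)) (XT.nd (nat_lit 78) (nat_lit 76) (nat_lit 0) (XT.lf (nat_lit 0) (nat_lit 30634484437) (nat_lit 152) (nat_lit 2617367596) (nat_lit 0) (nat_lit 17429628118) (nat_lit 13) (nat_lit 5) (nat_lit 15) (nat_lit 4) (nat_lit 13) (nat_lit 4) (nat_lit 420) (nat_lit 332) (nat_lit 268)) (XT.lf (nat_lit 0) (nat_lit 13036751170) (nat_lit 76) (nat_lit 26504329826) (nat_lit 76) (nat_lit 13270502655) (nat_lit 12) (nat_lit 4) (nat_lit 13) (nat_lit 5) (nat_lit 13) (nat_lit 4) (nat_lit 421) (nat_lit 332) (nat_lit 267))))) (XT.nd (nat_lit 234) (nat_lit 0) (nat_lit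 0) (XT.nd (nat_lit 78) (nat_lit 152) (nat_lit 0) (XT.lf (nat_lit 0) (nat_lit 29504584331) (nat_lit 76) (nat_lit 19402170840) (nat_lit 76) (nat_lit 6140752383) (nat_lit 12) (nat_lit 4) (nat_lit 13) (nat_lit 5) (nat_lit 13) (nat_lit 4) (nat_lit 422) (nat_lit 332) (nat_lit 266)) (XT.nd (nat_lit 78) (nat_lit 76) (nat_lit 0) (XT.lf (nat_lit 0) (nat_lit 1272819161) (nat_lit 152) (nat_lit 10678416591) (nat_lit 76) (nat_lit 45444424048) (nat_lit 11) (nat_lit 5) (nat_lit 13) (nat_lit 5) (nat_lit 12) (nat_lit 4) (nat_lit 423) (nat_lit 332) (nat_lit 265)) (XT.lf (nat_lit 0) (nat_lit 4931248240) (nat_lit 76) (nat_lit 3968249429) (nat_lit 152) (nat_lit 50954250948) (nat_lit 10) (nat_lit 5) (nat_lit 11) (nat_lit 5) (nat_lit 12) (nat_lit 4) (nat_lit 424) (nat_lit 332) (nat_lit 264)))) (XT.nd (nat_lit 78) (nat_lit 0) (nat_lit 0) (XT.lf (nat_lit 0) (nat_lit 17132117568) (nat_lit 152) (nat_lit 40860760780)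 (nat_lit 0) (nat_lit 4430635307) (nat_lit 10) (nat_lit 5) (nat_lit 12) (nat_lit 4) (nat_lit 10) (nat_lit 4) (nat_lit 425) (nat_lit 332) (nat_lit 263)) (XT.nd (nat_lit 78) (nat_lit 0) (nat_lit 0) (XT.lf (nat_lit 0) (nat_lit 25814646036) (nat_lit 152) (nat_lit 26213663799) (nat_lit 0) (nat_lit 13091545280) (nat_lit 10) (nat_lit 5) (nat_lit 12) (nat_lit 4) (nat_lit 10) (nat_lit 4) (nat_lit 426) (nat_lit 332) (nat_lit 262)) (XT.lf (nat_lit 0) (nat_lit 34905800266) (nat_lit 152) (nat_lit 10884379900) (nat_lit 0) (nat_lit 22162110467) (nat_lit 10) (nat_lit 5) (nat_lit 12) (nat_lit 4) (nat_lit 10) (nat_lit 4) (nat_lit 427) (nat_lit 332) (nat_lit 261)))))) (XT.nd (nat_lit 468) (nat_lit 76) (nat_lit 0) (XT.nd (nat_lit 234) (nat_lit 152) (nat_lit 0) (XT.nd (nat_lit 78) (nat_lit 0) (nat_lit 0) (XT.lf (nat_lit 0) (nat_lit 5334320790) (nat_lit 76) (nat_lit 39176188770) (nat_lit 76) (nat_lit 26412890359)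 (nat_lit 9) (nat_lit 4) (nat_lit 10) (nat_lit 5) (nat_lit 10) (nat_lit 4) (nat_lit 428) (nat_lit 332) (nat_lit 260)) (XT.nd (nat_lit 78) (nat_lit 0) (nat_lit 0) (XT.lf (nat_lit 0) (nat_lit 22694829254) (nat_lit 76) (nat_lit 32061093522) (nat_lit 76) (nat_lit 19279120241) (nat_lit 9) (nat_lit 4) (nat_lit 10) (nat_lit 5) (nat_lit 10) (nat_lit 4) (nat_lit 429) (nat_lit 332) (nat_lit 259)) (XT.lf (nat_lit 0) (nat_lit 40878593280) (nat_lit 76) (nat_lit 24612285958) (nat_lit 76) (nat_lit 11812527088) (nat_lit 9) (nat_lit 4) (nat_lit 10) (nat_lit 5) (nat_lit 10) (nat_lit 4) (nat_lit 430) (nat_lit 332) (nat_lit 258)))) (XT.nd (nat_lit 78) (nat_lit 152) (nat_lit 0) (XT.lf (nat_lit 0) (nat_lit 59928907546) (nat_lit 76) (nat_lit 16812030823) (nat_lit 76) (nat_lit 3995333296) (nat_lit 9) (nat_lit 4) (nat_lit 10) (nat_lit 5) (nat_lit 10) (nat_lit 4) (nat_lit 431) (nat_lit 332) (nat_lit 257)) (XT.nd (nat_lit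 78) (nat_lit 76) (nat_lit 0) (XT.lf (nat_lit 0) (nat_lit 4056932974) (nat_lit 152) (nat_lit 4516116983) (nat_lit 76) (nat_lit 75765490845) (nat_lit 8) (nat_lit 5) (nat_lit 10) (nat_lit 5) (nat_lit 9) (nat_lit 4) (nat_lit 432) (nat_lit 332) (nat_lit 256)) (XT.lf (nat_lit 0) (nat_lit 12564244034) (nat_lit 152) (nat_lit 75216201513) (nat_lit 0) (nat_lit 327869328) (nat_lit 7) (nat_lit 5) (nat_lit 9) (nat_lit 4) (nat_lit 7) (nat_lit 4) (nat_lit 433) (nat_lit 332) (nat_lit 255))))) (XT.nd (nat_lit 234) (nat_lit 76) (nat_lit 0) (XT.nd (nat_lit 78) (nat_lit 0) (nat_lit 0) (XT.lf (nat_lit 0) (nat_lit 21695290840) (nat_lit 152) (nat_lit 60916388965) (nat_lit 0) (nat_lit 9444980659) (nat_lit 7) (nat_lit 5) (nat_lit 9) (nat_lit 4) (nat_lit 7) (nat_lit 4) (nat_lit 434) (nat_lit 332) (nat_lit 254)) (XT.nd (nat_lit 78) (nat_lit 0) (nat_lit 0) (XT.lf (nat_lit 0) (nat_lit 31263929938) (nat_lit 152) (nat_lit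 45939094778) (nat_lit 0) (nat_lit 19000347876) (nat_lit 7) (nat_lit 5) (nat_lit 9) (nat_lit 4) (nat_lit 7) (nat_lit 4) (nat_lit 435) (nat_lit 332) (nat_lit 253)) (XT.lf (nat_lit 0) (nat_lit 41292943803) (nat_lit 152) (nat_lit 30248658728) (nat_lit 0) (nat_lit 29016721855) (nat_lit 7) (nat_lit 5) (nat_lit 9) (nat_lit 4) (nat_lit 7) (nat_lit 4) (nat_lit 436) (nat_lit 332) (nat_lit 252)))) (XT.nd (nat_lit 156) (nat_lit 0) (nat_lit 0) (XT.nd (nat_lit 78) (nat_lit 76) (nat_lit 0) (XT.lf (nat_lit 0) (nat_lit 51806211039) (nat_lit 152) (nat_lit 13807722633) (nat_lit 0) (nat_lit 39517951104) (nat_lit 7) (nat_lit 5) (nat_lit 9) (nat_lit 4) (nat_lit 7) (nat_lit 4) (nat_lit 437) (nat_lit 332) (nat_lit 251)) (XT.lf (nat_lit 0) (nat_lit 3536033754) (nat_lit 76) (nat_lit 59347936877) (nat_lit 76) (nat_lit 47048212193) (nat_lit 6) (nat_lit 4) (nat_lit 7) (nat_lit 5) (nat_lit 7) (nat_lit 4) (nat_lit 438)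 (nat_lit 332) (nat_lit 250))) (XT.nd (nat_lit 78) (nat_lit 0) (nat_lit 0) (XT.lf (nat_lit 0) (nat_lit 22194471846) (nat_lit 76) (nat_lit 52538890621) (nat_lit 76) (nat_lit 40228247128) (nat_lit 6) (nat_lit 4) (nat_lit 7) (nat_lit 5) (nat_lit 7) (nat_lit 4) (nat_lit 439) (nat_lit 332) (nat_lit 249)) (XT.lf (nat_lit 0) (nat_lit 41755470827) (nat_lit 76) (nat_lit 45404423355) (nat_lit 76) (nat_lit 33083380995) (nat_lit 6) (nat_lit 4) (nat_lit 7) (nat_lit 5) (nat_lit 7) (nat_lit 4) (nat_lit 440) (nat_lit 332) (nat_lit 248))))))) (XT.nd (nat_lit 1014) (nat_lit 76) (nat_lit 0) (XT.nd (nat_lit 468) (nat_lit 0) (nat_lit 0) (XT.nd (nat_lit 234) (nat_lit 152) (nat_lit 0) (XT.nd (nat_lit 78) (nat_lit 0) (nat_lit 0) (XT.lf (nat_lit 0) (nat_lit 62265604504) (nat_lit 76) (nat_lit 37927548250) (nat_lit 76) (nat_lit 25596602209) (nat_lit 6) (nat_lit 4) (nat_lit 7) (nat_lit 5) (nat_lit 7) (nat_lit 4) (nat_lit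 441) (nat_lit 332) (nat_lit 247)) (XT.nd (nat_lit 78) (nat_lit 0) (nat_lit 0) (XT.lf (nat_lit 0) (nat_lit 83773706529) (nat_lit 76) (nat_lit 30090463224) (nat_lit 76) (nat_lit 17750085105) (nat_lit 6) (nat_lit 4) (nat_lit 7) (nat_lit 5) (nat_lit 7) (nat_lit 4) (nat_lit 442) (nat_lit 332) (nat_lit 246)) (XT.lf (nat_lit 0) (nat_lit 106330986667) (nat_lit 76) (nat_lit 21874508551) (nat_lit 76) (nat_lit 9525147500) (nat_lit 6) (nat_lit 4) (nat_lit 7) (nat_lit 5) (nat_lit 7) (nat_lit 4) (nat_lit 443) (nat_lit 332) (nat_lit 245)))) (XT.nd (nat_lit 78) (nat_lit 152) (nat_lit 0) (XT.lf (nat_lit 0) (nat_lit 129991152730) (nat_lit 76) (nat_lit 13260122433) (nat_lit 76) (nat_lit 902206210) (nat_lit 6) (nat_lit 4) (nat_lit 7) (nat_lit 5) (nat_lit 7) (nat_lit 4) (nat_lit 444) (nat_lit 332) (nat_lit 244)) (XT.nd (nat_lit 78) (nat_lit 0) (nat_lit 0) (XT.lf (nat_lit 0) (nat_lit 3910560706) (nat_lit 76)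 (nat_lit 4029256226) (nat_lit 152) (nat_lit 142948839781) (nat_lit 4) (nat_lit 5) (nat_lit 5) (nat_lit 5) (nat_lit 6) (nat_lit 4) (nat_lit 445) (nat_lit 332) (nat_lit 243)) (XT.lf (nat_lit 0) (nat_lit 17513633243) (nat_lit 152) (nat_lit 134701179015) (nat_lit 0) (nat_lit 5729039147) (nat_lit 4) (nat_lit 5) (nat_lit 6) (nat_lit 4) (nat_lit 4) (nat_lit 4) (nat_lit 446) (nat_lit 332) (nat_lit 242))))) (XT.nd (nat_lit 234) (nat_lit 0) (nat_lit 0) (XT.nd (nat_lit 78) (nat_lit 0) (nat_lit 0) (XT.lf (nat_lit 0) (nat_lit 27620590484) (nat_lit 152) (nat_lit 121899535482) (nat_lit 0) (nat_lit 15828958026) (nat_lit 4) (nat_lit 5) (nat_lit 6) (nat_lit 4) (nat_lit 4) (nat_lit 4) (nat_lit 447) (nat_lit 332) (nat_lit 241)) (XT.nd (nat_lit 78) (nat_lit 0) (nat_lit 0) (XT.lf (nat_lit 0) (nat_lit 38221844859) (nat_lit 152) (nat_lit 108479777324) (nat_lit 0) (nat_lit 26423509200) (nat_lit 4) (nat_lit 5) (nat_lit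 6) (nat_lit 4) (nat_lit 4) (nat_lit 4) (nat_lit 448) (nat_lit 332) (nat_lit 240)) (XT.lf (nat_lit 0) (nat_lit 49342637449) (nat_lit 152) (nat_lit 94409952734) (nat_lit 0) (nat_lit 37537917788) (nat_lit 4) (nat_lit 5) (nat_lit 6) (nat_lit 4) (nat_lit 4) (nat_lit 4) (nat_lit 449) (nat_lit 332) (nat_lit 239)))) (XT.nd (nat_lit 156) (nat_lit 0) (nat_lit 0) (XT.nd (nat_lit 78) (nat_lit 0) (nat_lit 0) (XT.lf (nat_lit 0) (nat_lit 61009446332) (nat_lit 152) (nat_lit 79656562131) (nat_lit 0) (nat_lit 49198646670) (nat_lit 4) (nat_lit 5) (nat_lit 6) (nat_lit 4) (nat_lit 4) (nat_lit 4) (nat_lit 450) (nat_lit 332) (nat_lit 238)) (XT.lf (nat_lit 0) (nat_lit 73250049625) (nat_lit 152) (nat_lit 64184478394) (nat_lit 0) (nat_lit 61433459485) (nat_lit 4) (nat_lit 5) (nat_lit 6) (nat_lit 4) (nat_lit 4) (nat_lit 4) (nat_lit 451) (nat_lit 332) (nat_lit 237))) (XT.nd (nat_lit 78) (nat_lit 0) (nat_lit 0) (XT.lf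 (nat_lit 0) (nat_lit 86093591620) (nat_lit 152) (nat_lit 47956863228) (nat_lit 0) (nat_lit 74271486740) (nat_lit 4) (nat_lit 5) (nat_lit 6) (nat_lit 4) (nat_lit 4) (nat_lit 4) (nat_lit 452) (nat_lit 332) (nat_lit 236)) (XT.lf (nat_lit 0) (nat_lit 99570652181) (nat_lit 152) (nat_lit 30935079455) (nat_lit 0) (nat_lit 87743295167) (nat_lit 4) (nat_lit 5) (nat_lit 6) (nat_lit 4) (nat_lit 4) (nat_lit 4) (nat_lit 453) (nat_lit 332) (nat_lit 235)))))) (XT.nd (nat_lit 468) (nat_lit 0) (nat_lit 0) (XT.nd (nat_lit 234) (nat_lit 0) (nat_lit 0) (XT.nd (nat_lit 78) (nat_lit 76) (nat_lit 0) (XT.lf (nat_lit 0) (nat_lit 113713319545) (nat_lit 152) (nat_lit 13078599018) (nat_lit 0) (nat_lit 101880960499) (nat_lit 4) (nat_lit 5) (nat_lit 6) (nat_lit 4) (nat_lit 4) (nat_lit 4) (nat_lit 454) (nat_lit 332) (nat_lit 234)) (XT.nd (nat_lit 78) (nat_lit 0) (nat_lit 0) (XT.lf (nat_lit 0) (nat_lit 5842076442) (nat_lit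 76) (nat_lit 122804401475) (nat_lit 76) (nat_lit 110967278589) (nat_lit 3) (nat_lit 4) (nat_lit 4) (nat_lit 5) (nat_lit 4) (nat_lit 4) (nat_lit 455) (nat_lit 332) (nat_lit 233)) (XT.lf (nat_lit 0) (nat_lit 26147484979) (nat_lit 76) (nat_lit 118392582249) (nat_lit 76) (nat_lit 106550922372) (nat_lit 3) (nat_lit 4) (nat_lit 4) (nat_lit 5) (nat_lit 4) (nat_lit 4) (nat_lit 456) (nat_lit 332) (nat_lit 232)))) (XT.nd (nat_lit 78) (nat_lit 0) (nat_lit 0) (XT.lf (nat_lit 0) (nat_lit 47453535255) (nat_lit 76) (nat_lit 113767448957) (nat_lit 76) (nat_lit 101921468136) (nat_lit 3) (nat_lit 4) (nat_lit 4) (nat_lit 5) (nat_lit 4) (nat_lit 4) (nat_lit 457) (nat_lit 332) (nat_lit 231)) (XT.nd (nat_lit 78) (nat_lit 0) (nat_lit 0) (XT.lf (nat_lit 0) (nat_lit 69810955960) (nat_lit 76) (nat_lit 108917989377) (nat_lit 76) (nat_lit 97067893372) (nat_lit 3) (nat_lit 4) (nat_lit 4) (nat_lit 5) (nat_lit 4) (nat_lit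 4) (nat_lit 458) (nat_lit 332) (nat_lit 230)) (XT.lf (nat_lit 0) (nat_lit 93272979049) (nat_lit 76) (nat_lit 103832657177) (nat_lit 76) (nat_lit 91978641949) (nat_lit 3) (nat_lit 4) (nat_lit 4) (nat_lit 5) (nat_lit 4) (nat_lit 4) (nat_lit 459) (nat_lit 332) (nat_lit 229))))) (XT.nd (nat_lit 234) (nat_lit 0) (nat_lit 0) (XT.nd (nat_lit 78) (nat_lit 0) (nat_lit 0) (XT.lf (nat_lit 0) (nat_lit 117895466480) (nat_lit 76) (nat_lit 98499344423) (nat_lit 76) (nat_lit 86641596602) (nat_lit 3) (nat_lit 4) (nat_lit 4) (nat_lit 5) (nat_lit 4) (nat_lit 4) (nat_lit 460) (nat_lit 332) (nat_lit 228)) (XT.nd (nat_lit 78) (nat_lit 0) (nat_lit 0) (XT.lf (nat_lit 0) (nat_lit 143737043226) (nat_lit 76) (nat_lit 92905352751) (nat_lit 76) (nat_lit 81044050079) (nat_lit 3) (nat_lit 4) (nat_lit 4) (nat_lit 5) (nat_lit 4) (nat_lit 4) (nat_lit 461) (nat_lit 332) (nat_lit 227)) (XT.lf (nat_lit 0) (nat_lit 170859236848)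 (nat_lit 76) (nat_lit 87037363134) (nat_lit 76) (nat_lit 75172674889) (nat_lit 3) (nat_lit 4) (nat_lit 4) (nat_lit 5) (nat_lit 4) (nat_lit 4) (nat_lit 462) (nat_lit 332) (nat_lit 226)))) (XT.nd (nat_lit 156) (nat_lit 0) (nat_lit 0) (XT.nd (nat_lit 78) (nat_lit 0) (nat_lit 0) (XT.lf (nat_lit 0) (nat_lit 199326623999) (nat_lit 76) (nat_lit 80881404167) (nat_lit 76) (nat_lit 69013491568) (nat_lit 3) (nat_lit 4) (nat_lit 4) (nat_lit 5) (nat_lit 4) (nat_lit 4) (nat_lit 463) (nat_lit 332) (nat_lit 225)) (XT.lf (nat_lit 0) (nat_lit 229206984172) (nat_lit 76) (nat_lit 74422818806) (nat_lit 76) (nat_lit 62551835393) (nat_lit 3) (nat_lit 4) (nat_lit 4) (nat_lit 5) (nat_lit 4) (nat_lit 4) (nat_lit 464) (nat_lit 332) (nat_lit 224))) (XT.nd (nat_lit 78) (nat_lit 0) (nat_lit 0) (XT.lf (nat_lit 0) (nat_lit 260571461081) (nat_lit 76) (nat_lit 67646229466) (nat_lit 76) (nat_lit 55772321468) (nat_lit 3) (nat_lit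 4) (nat_lit 4) (nat_lit 5) (nat_lit 4) (nat_lit 4) (nat_lit 465) (nat_lit 332) (nat_lit 223)) (XT.lf (nat_lit 0) (nat_lit 293494732052) (nat_lit 76) (nat_lit 60535501411) (nat_lit 76) (nat_lit 48658808094) (nat_lit 3) (nat_lit 4) (nat_lit 4) (nat_lit 5) (nat_lit 4) (nat_lit 4) (nat_lit 466) (nat_lit 332) (nat_lit 222))))))))
noncomputable def xc78 : XT := (XT.nd (nat_lit 45240) (nat_lit 0) (nat_lit 2432) (XT.nd (nat_lit 936) (nat_lit 0) (nat_lit 0) (XT.nd (nat_lit 468) (nat_lit 76) (nat_lit 0) (XT.nd (nat_lit 234) (nat_lit 76) (nat_lit 0) (XT.nd (nat_lit 78) (nat_lit 0) (nat_lit 0) (XT.lf (nat_lit 0) (nat_lit 328055185827) (nat_lit 76) (nat_lit 53073704336) (nat_lit 76) (nat_lit 41194358335) (nat_lit 3) (nat_lit 4) (nat_lit 4) (nat_lit 5) (nat_lit 4) (nat_lit 4) (nat_lit 467) (nat_lit 332) (nat_lit 221)) (XT.nd (nat_lit 78) (nat_lit 0) (nat_lit 0) (XT.lf (nat_lit 0) (nat_lit 364335109199)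 (nat_lit 76) (nat_lit 45243072057) (nat_lit 76) (nat_lit 33361199689) (nat_lit 3) (nat_lit 4) (nat_lit 4) (nat_lit 5) (nat_lit 4) (nat_lit 4) (nat_lit 468) (nat_lit 332) (nat_lit 220)) (XT.lf (nat_lit 0) (nat_lit 402420882938) (nat_lit 76) (nat_lit 37024960212) (nat_lit 76) (nat_lit 25140681781) (nat_lit 3) (nat_lit 4) (nat_lit 4) (nat_lit 5) (nat_lit 4) (nat_lit 4) (nat_lit 469) (nat_lit 332) (nat_lit 219)))) (XT.nd (nat_lit 78) (nat_lit 76) (nat_lit 0) (XT.lf (nat_lit 0) (nat_lit 442403187459) (nat_lit 76) (nat_lit 28399801867) (nat_lit 76) (nat_lit 16513231948) (nat_lit 3) (nat_lit 4) (nat_lit 4) (nat_lit 5) (nat_lit 4) (nat_lit 4) (nat_lit 470) (nat_lit 332) (nat_lit 218)) (XT.nd (nat_lit 78) (nat_lit 76) (nat_lit 0) (XT.lf (nat_lit 0) (nat_lit 484377218724) (nat_lit 76) (nat_lit 19347060932) (nat_lit 76) (nat_lit 7458308643) (nat_lit 3) (nat_lit 4) (nat_lit 4) (nat_lit 5) (nat_lit 4)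 (nat_lit 4) (nat_lit 471) (nat_lit 332) (nat_lit 217)) (XT.lf (nat_lit 0) (nat_lit 1980173980) (nat_lit 152) (nat_lit 7831474077) (nat_lit 76) (nat_lit 526429205718) (nat_lit 2) (nat_lit 5) (nat_lit 4) (nat_lit 5) (nat_lit 3) (nat_lit 4) (nat_lit 472) (nat_lit 332) (nat_lit 216))))) (XT.nd (nat_lit 234) (nat_lit 0) (nat_lit 0) (XT.nd (nat_lit 78) (nat_lit 0) (nat_lit 0) (XT.lf (nat_lit 0) (nat_lit 11837690589) (nat_lit 152) (nat_lit 550187136175) (nat_lit 0) (nat_lit 511204674) (nat_lit 1) (nat_lit 5) (nat_lit 3) (nat_lit 4) (nat_lit 1) (nat_lit 4) (nat_lit 473) (nat_lit 332) (nat_lit 215)) (XT.nd (nat_lit 78) (nat_lit 0) (nat_lit 0) (XT.lf (nat_lit 0) (nat_lit 22480316631) (nat_lit 152) (nat_lit 556499004570) (nat_lit 0) (nat_lit 11152035275) (nat_lit 1) (nat_lit 5) (nat_lit 3) (nat_lit 4) (nat_lit 1) (nat_lit 4) (nat_lit 474) (nat_lit 332) (nat_lit 214)) (XT.lf (nat_lit 0) (nat_lit 33651819546)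 (nat_lit 152) (nat_lit 563132962856) (nat_lit 0) (nat_lit 22321828246) (nat_lit 1) (nat_lit 5) (nat_lit 3) (nat_lit 4) (nat_lit 1) (nat_lit 4) (nat_lit 475) (nat_lit 332) (nat_lit 213)))) (XT.nd (nat_lit 78) (nat_lit 0) (nat_lit 0) (XT.lf (nat_lit 0) (nat_lit 45378798151) (nat_lit 152) (nat_lit 570104806173) (nat_lit 0) (nat_lit 34047178333) (nat_lit 1) (nat_lit 5) (nat_lit 3) (nat_lit 4) (nat_lit 1) (nat_lit 4) (nat_lit 476) (nat_lit 332) (nat_lit 212)) (XT.nd (nat_lit 78) (nat_lit 0) (nat_lit 0) (XT.lf (nat_lit 0) (nat_lit 57689173824) (nat_lit 152) (nat_lit 577431134147) (nat_lit 0) (nat_lit 46356003035) (nat_lit 1) (nat_lit 5) (nat_lit 3) (nat_lit 4) (nat_lit 1) (nat_lit 4) (nat_lit 477) (nat_lit 332) (nat_lit 211)) (XT.lf (nat_lit 0) (nat_lit 70612256982) (nat_lit 152) (nat_lit 585129390416) (nat_lit 0) (nat_lit 59277609080) (nat_lit 1) (nat_lit 5) (nat_lit 3) (nat_lit 4) (nat_lit 1)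 (nat_lit 4) (nat_lit 478) (nat_lit 332) (nat_lit 210)))))) (XT.nd (nat_lit 43758) (nat_lit 0) (nat_lit 6080) (XT.nd (nat_lit 43524) (nat_lit 0) (nat_lit 7752) (XT.nd (nat_lit 43368) (nat_lit 0) (nat_lit 9044) (XT.lf (nat_lit 0) (nat_lit 84178816871) (nat_lit 152) (nat_lit 593217904162) (nat_lit 0) (nat_lit 72842762194) (nat_lit 1) (nat_lit 5) (nat_lit 3) (nat_lit 4) (nat_lit 1) (nat_lit 4) (nat_lit 479) (nat_lit 332) (nat_lit 209)) (XT.nd (nat_lit 78) (nat_lit 684) (nat_lit 0) (XT.lf (nat_lit 0) (nat_lit 780934355) (nat_lit 684) (nat_lit 1949158473) (nat_lit 0) (nat_lit 780934355) (nat_lit 129) (nat_lit 5) (nat_lit 138) (nat_lit 4) (nat_lit 129) (nat_lit 4) (nat_lit 354) (nat_lit 333) (nat_lit 333)) (XT.lf (nat_lit 0) (nat_lit 1085941040) (nat_lit 684) (nat_lit 3884661007) (nat_lit 684) (nat_lit 2139392001) (nat_lit 120) (nat_lit 4) (nat_lit 129) (nat_lit 5) (nat_lit 129) (nat_lit 4) (nat_lit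 355) (nat_lit 333) (nat_lit 332)))) (XT.nd (nat_lit 78) (nat_lit 1216) (nat_lit 0) (XT.lf (nat_lit 0) (nat_lit 1203897622) (nat_lit 760) (nat_lit 939439837) (nat_lit 76) (nat_lit 5063112331) (nat_lit 119) (nat_lit 5) (nat_lit 129) (nat_lit 5) (nat_lit 120) (nat_lit 4) (nat_lit 356) (nat_lit 333) (nat_lit 331)) (XT.nd (nat_lit 78) (nat_lit 456) (nat_lit 0) (XT.lf (nat_lit 0) (nat_lit 4338384359) (nat_lit 760) (nat_lit 212261864) (nat_lit 836) (nat_lit 2760061830) (nat_lit 109) (nat_lit 5) (nat_lit 119) (nat_lit 5) (nat_lit 120) (nat_lit 4) (nat_lit 357) (nat_lit 333) (nat_lit 330)) (XT.lf (nat_lit 0) (nat_lit 549524669) (nat_lit 456) (nat_lit 5062111938) (nat_lit 76) (nat_lit 1811889038) (nat_lit 103) (nat_lit 5) (nat_lit 109) (nat_lit 5) (nat_lit 104) (nat_lit 4) (nat_lit 358) (nat_lit 333) (nat_lit 329))))) (XT.nd (nat_lit 234) (nat_lit 912) (nat_lit 0) (XT.nd (nat_lit 78) (nat_lit 456)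 (nat_lit 0) (XT.lf (nat_lit 0) (nat_lit 313744643) (nat_lit 304) (nat_lit 3525204667) (nat_lit 380) (nat_lit 3705540187) (nat_lit 99) (nat_lit 5) (nat_lit 103) (nat_lit 5) (nat_lit 104) (nat_lit 4) (nat_lit 359) (nat_lit 333) (nat_lit 328)) (XT.nd (nat_lit 78) (nat_lit 456) (nat_lit 0) (XT.lf (nat_lit 0) (nat_lit 5964609885) (nat_lit 304) (nat_lit 1266150081) (nat_lit 380) (nat_lit 443963431) (nat_lit 99) (nat_lit 5) (nat_lit 103) (nat_lit 5) (nat_lit 104) (nat_lit 4) (nat_lit 360) (nat_lit 333) (nat_lit 327)) (XT.lf (nat_lit 0) (nat_lit 2823270649) (nat_lit 456) (nat_lit 3830179116) (nat_lit 76) (nat_lit 1158900080) (nat_lit 93) (nat_lit 5) (nat_lit 99) (nat_lit 5) (nat_lit 94) (nat_lit 4) (nat_lit 361) (nat_lit 333) (nat_lit 326)))) (XT.nd (nat_lit 156) (nat_lit 532) (nat_lit 0) (XT.nd (nat_lit 78) (nat_lit 76) (nat_lit 0) (XT.lf (nat_lit 0) (nat_lit 1925883822) (nat_lit 304) (nat_lit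 4254010681) (nat_lit 380) (nat_lit 1779653384) (nat_lit 89) (nat_lit 5) (nat_lit 93) (nat_lit 5) (nat_lit 94) (nat_lit 4) (nat_lit 362) (nat_lit 333) (nat_lit 325)) (XT.lf (nat_lit 0) (nat_lit 1467668797) (nat_lit 380) (nat_lit 206202592) (nat_lit 76) (nat_lit 6442669031) (nat_lit 88) (nat_lit 5) (nat_lit 93) (nat_lit 5) (nat_lit 89) (nat_lit 5) (nat_lit 363) (nat_lit 333) (nat_lit 324))) (XT.nd (nat_lit 78) (nat_lit 228) (nat_lit 0) (XT.lf (nat_lit 0) (nat_lit 4796385085) (nat_lit 380) (nat_lit 2390997551) (nat_lit 76) (nat_lit 1093687165) (nat_lit 84) (nat_lit 5) (nat_lit 89) (nat_lit 5) (nat_lit 85) (nat_lit 4) (nat_lit 364) (nat_lit 333) (nat_lit 323)) (XT.lf (nat_lit 0) (nat_lit 3770604339) (nat_lit 228) (nat_lit 4482929676) (nat_lit 304) (nat_lit 202275366) (nat_lit 81) (nat_lit 5) (nat_lit 84) (nat_lit 5) (nat_lit 85) (nat_lit 4) (nat_lit 365) (nat_lit 333) (nat_lit 322))))))) (XT.nd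 (nat_lit 1014) (nat_lit 1368) (nat_lit 0) (XT.nd (nat_lit 468) (nat_lit 1064) (nat_lit 0) (XT.nd (nat_lit 234) (nat_lit 532) (nat_lit 0) (XT.nd (nat_lit 78) (nat_lit 304) (nat_lit 0) (XT.lf (nat_lit 0) (nat_lit 1514379961) (nat_lit 304) (nat_lit 1564379670) (nat_lit 380) (nat_lit 5561152437) (nat_lit 76) (nat_lit 5) (nat_lit 80) (nat_lit 5) (nat_lit 81) (nat_lit 5) (nat_lit 366) (nat_lit 333) (nat_lit 321)) (XT.nd (nat_lit 78) (nat_lit 304) (nat_lit 0) (XT.lf (nat_lit 0) (nat_lit 6497414193) (nat_lit 380) (nat_lit 842323826) (nat_lit 76) (nat_lit 1494369985) (nat_lit 76) (nat_lit 5) (nat_lit 81) (nat_lit 5) (nat_lit 77) (nat_lit 4) (nat_lit 367) (nat_lit 333) (nat_lit 320)) (XT.lf (nat_lit 0) (nat_lit 1012914980) (nat_lit 304) (nat_lit 3304569729) (nat_lit 76) (nat_lit 4719900558) (nat_lit 72) (nat_lit 5) (nat_lit 76) (nat_lit 5) (nat_lit 73) (nat_lit 5) (nat_lit 368) (nat_lit 333) (nat_lit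 319)))) (XT.nd (nat_lit 78) (nat_lit 304) (nat_lit 0) (XT.lf (nat_lit 0) (nat_lit 3318776044) (nat_lit 228) (nat_lit 1082357993) (nat_lit 304) (nat_lit 4850356495) (nat_lit 69) (nat_lit 5) (nat_lit 72) (nat_lit 5) (nat_lit 73) (nat_lit 5) (nat_lit 369) (nat_lit 333) (nat_lit 318)) (XT.nd (nat_lit 78) (nat_lit 76) (nat_lit 0) (XT.lf (nat_lit 0) (nat_lit 733873609) (nat_lit 228) (nat_lit 7214977878) (nat_lit 304) (nat_lit 1528004593) (nat_lit 66) (nat_lit 5) (nat_lit 69) (nat_lit 5) (nat_lit 70) (nat_lit 4) (nat_lit 370) (nat_lit 333) (nat_lit 317)) (XT.lf (nat_lit 0) (nat_lit 1904191197) (nat_lit 304) (nat_lit 1986886757) (nat_lit 76) (nat_lit 5820611737) (nat_lit 65) (nat_lit 5) (nat_lit 69) (nat_lit 5) (nat_lit 66) (nat_lit 5) (nat_lit 371) (nat_lit 333) (nat_lit 316))))) (XT.nd (nat_lit 234) (nat_lit 608) (nat_lit 0) (XT.nd (nat_lit 78) (nat_lit 228) (nat_lit 0) (XT.lf (nat_lit 0) (nat_lit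 5084526763) (nat_lit 228) (nat_lit 343511652) (nat_lit 304) (nat_lit 4530455779) (nat_lit 62) (nat_lit 5) (nat_lit 65) (nat_lit 5) (nat_lit 66) (nat_lit 5) (nat_lit 372) (nat_lit 333) (nat_lit 315)) (XT.nd (nat_lit 78) (nat_lit 76) (nat_lit 0) (XT.lf (nat_lit 0) (nat_lit 2218093344) (nat_lit 152) (nat_lit 6925484091) (nat_lit 228) (nat_lit 1073335379) (nat_lit 60) (nat_lit 5) (nat_lit 62) (nat_lit 5) (nat_lit 63) (nat_lit 4) (nat_lit 373) (nat_lit 333) (nat_lit 314)) (XT.lf (nat_lit 0) (nat_lit 2459035658) (nat_lit 228) (nat_lit 860056500) (nat_lit 76) (nat_lit 7167997555) (nat_lit 59) (nat_lit 5) (nat_lit 62) (nat_lit 5) (nat_lit 60) (nat_lit 5) (nat_lit 374) (nat_lit 333) (nat_lit 313)))) (XT.nd (nat_lit 156) (nat_lit 228) (nat_lit 0) (XT.nd (nat_lit 78) (nat_lit 152) (nat_lit 0) (XT.lf (nat_lit 0) (nat_lit 6144343337) (nat_lit 304) (nat_lit 4101680835) (nat_lit 76) (nat_lit 523294254)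 (nat_lit 56) (nat_lit 5) (nat_lit 60) (nat_lit 5) (nat_lit 57) (nat_lit 4) (nat_lit 375) (nat_lit 333) (nat_lit 312)) (XT.lf (nat_lit 0) (nat_lit 3435126734) (nat_lit 152) (nat_lit 6602882255) (nat_lit 228) (nat_lit 1026485154) (nat_lit 54) (nat_lit 5) (nat_lit 56) (nat_lit 5) (nat_lit 57) (nat_lit 4) (nat_lit 376) (nat_lit 333) (nat_lit 311))) (XT.nd (nat_lit 78) (nat_lit 152) (nat_lit 0) (XT.lf (nat_lit 0) (nat_lit 2636373502) (nat_lit 228) (nat_lit 81447867) (nat_lit 76) (nat_lit 8655869318) (nat_lit 53) (nat_lit 5) (nat_lit 56) (nat_lit 5) (nat_lit 54) (nat_lit 5) (nat_lit 377) (nat_lit 333) (nat_lit 310)) (XT.lf (nat_lit 0) (nat_lit 6500969557) (nat_lit 228) (nat_lit 3787883139) (nat_lit 76) (nat_lit 1406033151) (nat_lit 51) (nat_lit 5) (nat_lit 54) (nat_lit 5) (nat_lit 52) (nat_lit 4) (nat_lit 378) (nat_lit 333) (nat_lit 309)))))) (XT.nd (nat_lit 468) (nat_lit 608) (nat_lit 0) (XT.nd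 (nat_lit 234) (nat_lit 380) (nat_lit 0) (XT.nd (nat_lit 78) (nat_lit 228) (nat_lit 0) (XT.lf (nat_lit 0) (nat_lit 4204260290) (nat_lit 152) (nat_lit 6373985533) (nat_lit 228) (nat_lit 1452955494) (nat_lit 49) (nat_lit 5) (nat_lit 51) (nat_lit 5) (nat_lit 52) (nat_lit 4) (nat_lit 379) (nat_lit 333) (nat_lit 308)) (XT.nd (nat_lit 78) (nat_lit 0) (nat_lit 0) (XT.lf (nat_lit 0) (nat_lit 159840200) (nat_lit 152) (nat_lit 2212102161) (nat_lit 228) (nat_lit 10011682764) (nat_lit 46) (nat_lit 5) (nat_lit 48) (nat_lit 5) (nat_lit 49) (nat_lit 5) (nat_lit 380) (nat_lit 333) (nat_lit 307)) (XT.lf (nat_lit 0) (nat_lit 6417173015) (nat_lit 228) (nat_lit 4142124203) (nat_lit 76) (nat_lit 2189314689) (nat_lit 46) (nat_lit 5) (nat_lit 49) (nat_lit 5) (nat_lit 47) (nat_lit 4) (nat_lit 381) (nat_lit 333) (nat_lit 306)))) (XT.nd (nat_lit 78) (nat_lit 228) (nat_lit 0) (XT.lf (nat_lit 0) (nat_lit 4299151946)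 (nat_lit 152) (nat_lit 6382708768) (nat_lit 228) (nat_lit 2449154748) (nat_lit 44) (nat_lit 5) (nat_lit 46) (nat_lit 5) (nat_lit 47) (nat_lit 4) (nat_lit 382) (nat_lit 333) (nat_lit 305)) (XT.nd (nat_lit 78) (nat_lit 152) (nat_lit 0) (XT.lf (nat_lit 0) (nat_lit 1560727381) (nat_lit 228) (nat_lit 395601551) (nat_lit 76) (nat_lit 11575686364) (nat_lit 43) (nat_lit 5) (nat_lit 46) (nat_lit 5) (nat_lit 44) (nat_lit 5) (nat_lit 383) (nat_lit 333) (nat_lit 304)) (XT.lf (nat_lit 0) (nat_lit 5784709186) (nat_lit 228) (nat_lit 5435598951) (nat_lit 76) (nat_lit 2725977323) (nat_lit 41) (nat_lit 5) (nat_lit 44) (nat_lit 5) (nat_lit 42) (nat_lit 4) (nat_lit 384) (nat_lit 333) (nat_lit 303))))) (XT.nd (nat_lit 234) (nat_lit 304) (nat_lit 0) (XT.nd (nat_lit 78) (nat_lit 228) (nat_lit 0) (XT.lf (nat_lit 0) (nat_lit 3432550482) (nat_lit 76) (nat_lit 6799015952) (nat_lit 152) (nat_lit 4149141265) (nat_lit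 40) (nat_lit 5) (nat_lit 41) (nat_lit 5) (nat_lit 42) (nat_lit 4) (nat_lit 385) (nat_lit 333) (nat_lit 302)) (XT.nd (nat_lit 78) (nat_lit 152) (nat_lit 0) (XT.lf (nat_lit 0) (nat_lit 75013602) (nat_lit 152) (nat_lit 2042574913) (nat_lit 76) (nat_lit 12718575754) (nat_lit 39) (nat_lit 5) (nat_lit 41) (nat_lit 5) (nat_lit 40) (nat_lit 5) (nat_lit 386) (nat_lit 333) (nat_lit 301)) (XT.lf (nat_lit 0) (nat_lit 4454747604) (nat_lit 228) (nat_lit 8013599120) (nat_lit 76) (nat_lit 2838474858) (nat_lit 37) (nat_lit 5) (nat_lit 40) (nat_lit 5) (nat_lit 38) (nat_lit 4) (nat_lit 387) (nat_lit 333) (nat_lit 300)))) (XT.nd (nat_lit 156) (nat_lit 228) (nat_lit 0) (XT.nd (nat_lit 78) (nat_lit 0) (nat_lit 0) (XT.lf (nat_lit 0) (nat_lit 1237090905) (nat_lit 76) (nat_lit 7829678401) (nat_lit 152) (nat_lit 6733595821) (nat_lit 36) (nat_lit 5) (nat_lit 37) (nat_lit 5) (nat_lit 38) (nat_lit 4) (nat_lit 388) (nat_lit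 333) (nat_lit 299)) (XT.lf (nat_lit 0) (nat_lit 11096038269) (nat_lit 76) (nat_lit 2874726018) (nat_lit 152) (nat_lit 2344770490) (nat_lit 36) (nat_lit 5) (nat_lit 37) (nat_lit 5) (nat_lit 38) (nat_lit 4) (nat_lit 389) (nat_lit 333) (nat_lit 298))) (XT.nd (nat_lit 78) (nat_lit 0) (nat_lit 0) (XT.lf (nat_lit 0) (nat_lit 2227696039) (nat_lit 228) (nat_lit 12318005246) (nat_lit 76) (nat_lit 2307178262) (nat_lit 33) (nat_lit 5) (nat_lit 36) (nat_lit 5) (nat_lit 34) (nat_lit 4) (nat_lit 390) (nat_lit 333) (nat_lit 297)) (XT.lf (nat_lit 0) (nat_lit 7015556437) (nat_lit 228) (nat_lit 2670685273) (nat_lit 76) (nat_lit 7725664542) (nat_lit 33) (nat_lit 5) (nat_lit 36) (nat_lit 5) (nat_lit 34) (nat_lit 4) (nat_lit 391) (nat_lit 333) (nat_lit 296))))))))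
noncomputable def xc79 : XT := (XT.nd (nat_lit 1950) (nat_lit 684) (nat_lit 0) (XT.nd (nat_lit 936) (nat_lit 532) (nat_lit 0) (XT.nd (nat_lit 468) (nat_lit 380) (nat_lit 0) (XT.nd (nat_lit 234) (nat_lit 152) (nat_lit 0) (XT.nd (nat_lit 78) (nat_lit 228) (nat_lit 0) (XT.lf (nat_lit 0) (nat_lit 7578540731) (nat_lit 76) (nat_lit 4514591151) (nat_lit 152) (nat_lit 5903250738) (nat_lit 32) (nat_lit 5) (nat_lit 33) (nat_lit 5) (nat_lit 34) (nat_lit 4) (nat_lit 392) (nat_lit 333) (nat_lit 295)) (XT.nd (nat_lit 78) (nat_lit 228) (nat_lit 0) (XT.lf (nat_lit 0) (nat_lit 17417351713) (nat_lit 152) (nat_lit 313443978) (nat_lit 0) (nat_lit 879662578) (nat_lit 32) (nat_lit 5) (nat_lit 34) (nat_lit 4) (nat_lit 32) (nat_lit 4) (nat_lit 393) (nat_lit 333) (nat_lit 294)) (XT.lf (nat_lit 0) (nat_lit 3807957527) (nat_lit 228) (nat_lit 8869420612) (nat_lit 76) (nat_lit 6566166760) (nat_lit 29) (nat_lit 5) (nat_lit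 32) (nat_lit 5) (nat_lit 30) (nat_lit 4) (nat_lit 394) (nat_lit 333) (nat_lit 293)))) (XT.nd (nat_lit 78) (nat_lit 76) (nat_lit 0) (XT.lf (nat_lit 0) (nat_lit 1613029397) (nat_lit 76) (nat_lit 7372450509) (nat_lit 152) (nat_lit 10923514806) (nat_lit 28) (nat_lit 5) (nat_lit 29) (nat_lit 5) (nat_lit 30) (nat_lit 4) (nat_lit 395) (nat_lit 333) (nat_lit 292)) (XT.nd (nat_lit 78) (nat_lit 76) (nat_lit 0) (XT.lf (nat_lit 0) (nat_lit 12811545458) (nat_lit 76) (nat_lit 1697703428) (nat_lit 152) (nat_lit 6094110911) (nat_lit 28) (nat_lit 5) (nat_lit 29) (nat_lit 5) (nat_lit 30) (nat_lit 4) (nat_lit 396) (nat_lit 333) (nat_lit 291)) (XT.lf (nat_lit 0) (nat_lit 3159471769) (nat_lit 76) (nat_lit 17204950066) (nat_lit 76) (nat_lit 965271293) (nat_lit 27) (nat_lit 4) (nat_lit 28) (nat_lit 5) (nat_lit 28) (nat_lit 4) (nat_lit 397) (nat_lit 333) (nat_lit 290))))) (XT.nd (nat_lit 234) (nat_lit 228) (nat_lit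 0) (XT.nd (nat_lit 78) (nat_lit 76) (nat_lit 0) (XT.lf (nat_lit 0) (nat_lit 4380031200) (nat_lit 152) (nat_lit 7368776218) (nat_lit 76) (nat_lit 10335020594) (nat_lit 26) (nat_lit 5) (nat_lit 28) (nat_lit 5) (nat_lit 27) (nat_lit 4) (nat_lit 398) (nat_lit 333) (nat_lit 289)) (XT.nd (nat_lit 78) (nat_lit 0) (nat_lit 0) (XT.lf (nat_lit 0) (nat_lit 3976706812) (nat_lit 76) (nat_lit 5987955556) (nat_lit 152) (nat_lit 12910000219) (nat_lit 25) (nat_lit 5) (nat_lit 26) (nat_lit 5) (nat_lit 27) (nat_lit 4) (nat_lit 399) (nat_lit 333) (nat_lit 288)) (XT.lf (nat_lit 0) (nat_lit 15899053420) (nat_lit 152) (nat_lit 7664325569) (nat_lit 0) (nat_lit 138142344) (nat_lit 25) (nat_lit 5) (nat_lit 27) (nat_lit 4) (nat_lit 25) (nat_lit 4) (nat_lit 400) (nat_lit 333) (nat_lit 287)))) (XT.nd (nat_lit 78) (nat_lit 152) (nat_lit 0) (XT.lf (nat_lit 0) (nat_lit 4060084912) (nat_lit 76) (nat_lit 18177095721) (nat_lit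 76) (nat_lit 2327199988) (nat_lit 24) (nat_lit 4) (nat_lit 25) (nat_lit 5) (nat_lit 25) (nat_lit 4) (nat_lit 401) (nat_lit 333) (nat_lit 286)) (XT.nd (nat_lit 78) (nat_lit 76) (nat_lit 0) (XT.lf (nat_lit 0) (nat_lit 3389836870) (nat_lit 152) (nat_lit 8985477440) (nat_lit 76) (nat_lit 13088528723) (nat_lit 23) (nat_lit 5) (nat_lit 25) (nat_lit 5) (nat_lit 24) (nat_lit 4) (nat_lit 402) (nat_lit 333) (nat_lit 285)) (XT.lf (nat_lit 0) (nat_lit 3071498748) (nat_lit 76) (nat_lit 6239161486) (nat_lit 152) (nat_lit 17095910886) (nat_lit 22) (nat_lit 5) (nat_lit 23) (nat_lit 5) (nat_lit 24) (nat_lit 4) (nat_lit 403) (nat_lit 333) (nat_lit 284)))))) (XT.nd (nat_lit 468) (nat_lit 304) (nat_lit 0) (XT.nd (nat_lit 234) (nat_lit 76) (nat_lit 0) (XT.nd (nat_lit 78) (nat_lit 152) (nat_lit 0) (XT.lf (nat_lit 0) (nat_lit 15633816009) (nat_lit 152) (nat_lit 11449422662) (nat_lit 0) (nat_lit 307889318) (nat_lit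 22) (nat_lit 5) (nat_lit 24) (nat_lit 4) (nat_lit 22) (nat_lit 4) (nat_lit 404) (nat_lit 333) (nat_lit 283)) (XT.nd (nat_lit 78) (nat_lit 76) (nat_lit 0) (XT.lf (nat_lit 0) (nat_lit 862305024) (nat_lit 76) (nat_lit 21477465374) (nat_lit 76) (nat_lit 6081816875) (nat_lit 21) (nat_lit 4) (nat_lit 22) (nat_lit 5) (nat_lit 22) (nat_lit 4) (nat_lit 405) (nat_lit 333) (nat_lit 282)) (XT.lf (nat_lit 0) (nat_lit 29457351) (nat_lit 152) (nat_lit 15401662648) (nat_lit 76) (nat_lit 14065147075) (nat_lit 20) (nat_lit 5) (nat_lit 22) (nat_lit 5) (nat_lit 21) (nat_lit 4) (nat_lit 406) (nat_lit 333) (nat_lit 281)))) (XT.nd (nat_lit 78) (nat_lit 76) (nat_lit 0) (XT.lf (nat_lit 0) (nat_lit 6195241477) (nat_lit 152) (nat_lit 2825044926) (nat_lit 76) (nat_lit 21601748323) (nat_lit 20) (nat_lit 5) (nat_lit 22) (nat_lit 5) (nat_lit 21) (nat_lit 4) (nat_lit 407) (nat_lit 333) (nat_lit 280)) (XT.nd (nat_lit 78)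 (nat_lit 0) (nat_lit 0) (XT.lf (nat_lit 0) (nat_lit 10635884166) (nat_lit 76) (nat_lit 2155043852) (nat_lit 152) (nat_lit 19007087519) (nat_lit 19) (nat_lit 5) (nat_lit 20) (nat_lit 5) (nat_lit 21) (nat_lit 4) (nat_lit 408) (nat_lit 333) (nat_lit 279)) (XT.lf (nat_lit 0) (nat_lit 19799670827) (nat_lit 152) (nat_lit 8327274915) (nat_lit 0) (nat_lit 4901691230) (nat_lit 19) (nat_lit 5) (nat_lit 21) (nat_lit 4) (nat_lit 19) (nat_lit 4) (nat_lit 409) (nat_lit 333) (nat_lit 278))))) (XT.nd (nat_lit 234) (nat_lit 152) (nat_lit 0) (XT.nd (nat_lit 78) (nat_lit 76) (nat_lit 0) (XT.lf (nat_lit 0) (nat_lit 5199333008) (nat_lit 76) (nat_lit 22033875305) (nat_lit 76) (nat_lit 7083868222) (nat_lit 18) (nat_lit 4) (nat_lit 19) (nat_lit 5) (nat_lit 19) (nat_lit 4) (nat_lit 410) (nat_lit 333) (nat_lit 277)) (XT.nd (nat_lit 78) (nat_lit 76) (nat_lit 0) (XT.lf (nat_lit 0) (nat_lit 19611609259) (nat_lit 76)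 (nat_lit 15526454271) (nat_lit 76) (nat_lit 526897200) (nat_lit 18) (nat_lit 4) (nat_lit 19) (nat_lit 5) (nat_lit 19) (nat_lit 4) (nat_lit 411) (nat_lit 333) (nat_lit 276)) (XT.lf (nat_lit 0) (nat_lit 6114363841) (nat_lit 152) (nat_lit 2512301658) (nat_lit 76) (nat_lit 28450617913) (nat_lit 17) (nat_lit 5) (nat_lit 19) (nat_lit 5) (nat_lit 18) (nat_lit 4) (nat_lit 412) (nat_lit 333) (nat_lit 275)))) (XT.nd (nat_lit 156) (nat_lit 76) (nat_lit 0) (XT.nd (nat_lit 78) (nat_lit 0) (nat_lit 0) (XT.lf (nat_lit 0) (nat_lit 12007873884) (nat_lit 76) (nat_lit 1211425977) (nat_lit 152) (nat_lit 25333028587) (nat_lit 16) (nat_lit 5) (nat_lit 17) (nat_lit 5) (nat_lit 18) (nat_lit 4) (nat_lit 413) (nat_lit 333) (nat_lit 274)) (XT.lf (nat_lit 0) (nat_lit 20787357755) (nat_lit 152) (nat_lit 12934824122) (nat_lit 0) (nat_lit 6373553970) (nat_lit 16) (nat_lit 5) (nat_lit 18) (nat_lit 4) (nat_lit 16) (nat_lit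 4) (nat_lit 414) (nat_lit 333) (nat_lit 273))) (XT.nd (nat_lit 78) (nat_lit 0) (nat_lit 0) (XT.lf (nat_lit 0) (nat_lit 1307013033) (nat_lit 76) (nat_lit 27430864407) (nat_lit 76) (nat_lit 12978236911) (nat_lit 15) (nat_lit 4) (nat_lit 16) (nat_lit 5) (nat_lit 16) (nat_lit 4) (nat_lit 415) (nat_lit 333) (nat_lit 272)) (XT.lf (nat_lit 0) (nat_lit 16640895018) (nat_lit 76) (nat_lit 20628523967) (nat_lit 76) (nat_lit 6138921507) (nat_lit 15) (nat_lit 4) (nat_lit 16) (nat_lit 5) (nat_lit 16) (nat_lit 4) (nat_lit 416) (nat_lit 333) (nat_lit 271))))))) (XT.nd (nat_lit 1014) (nat_lit 228) (nat_lit 0) (XT.nd (nat_lit 468) (nat_lit 228) (nat_lit 0) (XT.nd (nat_lit 234) (nat_lit 76) (nat_lit 0) (XT.nd (nat_lit 78) (nat_lit 76) (nat_lit 0) (XT.lf (nat_lit 0) (nat_lit 974570979) (nat_lit 152) (nat_lit 12526946202) (nat_lit 76) (nat_lit 31684571565) (nat_lit 14) (nat_lit 5) (nat_lit 16) (nat_lit 5) (nat_lit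 15) (nat_lit 4) (nat_lit 417) (nat_lit 333) (nat_lit 270)) (XT.nd (nat_lit 78) (nat_lit 0) (nat_lit 0) (XT.lf (nat_lit 0) (nat_lit 2335927866) (nat_lit 76) (nat_lit 5905185283) (nat_lit 152) (nat_lit 38806398235) (nat_lit 13) (nat_lit 5) (nat_lit 14) (nat_lit 5) (nat_lit 15) (nat_lit 4) (nat_lit 418) (nat_lit 333) (nat_lit 269)) (XT.lf (nat_lit 0) (nat_lit 16086261214) (nat_lit 152) (nat_lit 30714240201) (nat_lit 0) (nat_lit 2190742685) (nat_lit 13) (nat_lit 5) (nat_lit 15) (nat_lit 4) (nat_lit 13) (nat_lit 4) (nat_lit 419) (nat_lit 333) (nat_lit 268)))) (XT.nd (nat_lit 78) (nat_lit 76) (nat_lit 0) (XT.lf (nat_lit 0) (nat_lit 24389346789) (nat_lit 152) (nat_lit 16174677993) (nat_lit 0) (nat_lit 10464857409) (nat_lit 13) (nat_lit 5) (nat_lit 15) (nat_lit 4) (nat_lit 13) (nat_lit 4) (nat_lit 420) (nat_lit 333) (nat_lit 267)) (XT.nd (nat_lit 78) (nat_lit 76) (nat_lit 0) (XT.lf (nat_lit 0) (nat_lit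 33077942636) (nat_lit 152) (nat_lit 966082398) (nat_lit 0) (nat_lit 19125861970) (nat_lit 13) (nat_lit 5) (nat_lit 15) (nat_lit 4) (nat_lit 13) (nat_lit 4) (nat_lit 421) (nat_lit 333) (nat_lit 266)) (XT.lf (nat_lit 0) (nat_lit 15441997894) (nat_lit 76) (nat_lit 26971830856) (nat_lit 76) (nat_lit 12993472774) (nat_lit 12) (nat_lit 4) (nat_lit 13) (nat_lit 5) (nat_lit 13) (nat_lit 4) (nat_lit 422) (nat_lit 333) (nat_lit 265))))) (XT.nd (nat_lit 234) (nat_lit 76) (nat_lit 0) (XT.nd (nat_lit 78) (nat_lit 152) (nat_lit 0) (XT.lf (nat_lit 0) (nat_lit 32649727038) (nat_lit 76) (nat_lit 19555407515) (nat_lit 76) (nat_lit 5552023322) (nat_lit 12) (nat_lit 4) (nat_lit 13) (nat_lit 5) (nat_lit 13) (nat_lit 4) (nat_lit 423) (nat_lit 333) (nat_lit 264)) (XT.nd (nat_lit 78) (nat_lit 76) (nat_lit 0) (XT.lf (nat_lit 0) (nat_lit 2162266360) (nat_lit 152) (nat_lit 9594572545) (nat_lit 76) (nat_lit 48467247382)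 (nat_lit 11) (nat_lit 5) (nat_lit 13) (nat_lit 5) (nat_lit 12) (nat_lit 4) (nat_lit 424) (nat_lit 333) (nat_lit 263)) (XT.lf (nat_lit 0) (nat_lit 6769482546) (nat_lit 76) (nat_lit 3386322600) (nat_lit 152) (nat_lit 52650001234) (nat_lit 10) (nat_lit 5) (nat_lit 11) (nat_lit 5) (nat_lit 12) (nat_lit 4) (nat_lit 425) (nat_lit 333) (nat_lit 262)))) (XT.nd (nat_lit 156) (nat_lit 76) (nat_lit 0) (XT.nd (nat_lit 78) (nat_lit 0) (nat_lit 0) (XT.lf (nat_lit 0) (nat_lit 18773024281) (nat_lit 152) (nat_lit 41360829029) (nat_lit 0) (nat_lit 5371560949) (nat_lit 10) (nat_lit 5) (nat_lit 12) (nat_lit 4) (nat_lit 10) (nat_lit 4) (nat_lit 426) (nat_lit 333) (nat_lit 261)) (XT.lf (nat_lit 0) (nat_lit 27852331514) (nat_lit 152) (nat_lit 26054851951) (nat_lit 0) (nat_lit 14431259569) (nat_lit 10) (nat_lit 5) (nat_lit 12) (nat_lit 4) (nat_lit 10) (nat_lit 4) (nat_lit 427) (nat_lit 333) (nat_lit 260))) (XT.nd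 (nat_lit 78) (nat_lit 76) (nat_lit 0) (XT.lf (nat_lit 0) (nat_lit 37362474257) (nat_lit 152) (nat_lit 10029079811) (nat_lit 0) (nat_lit 23922727443) (nat_lit 10) (nat_lit 5) (nat_lit 12) (nat_lit 4) (nat_lit 10) (nat_lit 4) (nat_lit 428) (nat_lit 333) (nat_lit 259)) (XT.lf (nat_lit 0) (nat_lit 6977983024) (nat_lit 76) (nat_lit 40457058552) (nat_lit 76) (nat_lit 26999526149) (nat_lit 9) (nat_lit 4) (nat_lit 10) (nat_lit 5) (nat_lit 10) (nat_lit 4) (nat_lit 429) (nat_lit 333) (nat_lit 258)))))) (XT.nd (nat_lit 468) (nat_lit 76) (nat_lit 0) (XT.nd (nat_lit 234) (nat_lit 152) (nat_lit 0) (XT.nd (nat_lit 78) (nat_lit 0) (nat_lit 0) (XT.lf (nat_lit 0) (nat_lit 25140948045) (nat_lit 76) (nat_lit 33018491382) (nat_lit 76) (nat_lit 19544020322) (nat_lit 9) (nat_lit 4) (nat_lit 10) (nat_lit 5) (nat_lit 10) (nat_lit 4) (nat_lit 430) (nat_lit 333) (nat_lit 257)) (XT.nd (nat_lit 78) (nat_lit 0) (nat_lit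 0) (XT.lf (nat_lit 0) (nat_lit 44171453734) (nat_lit 76) (nat_lit 25227989002) (nat_lit 76) (nat_lit 11737385889) (nat_lit 9) (nat_lit 4) (nat_lit 10) (nat_lit 5) (nat_lit 10) (nat_lit 4) (nat_lit 431) (nat_lit 333) (nat_lit 256)) (XT.lf (nat_lit 0) (nat_lit 64114810818) (nat_lit 76) (nat_lit 17067002599) (nat_lit 76) (nat_lit 3561035624) (nat_lit 9) (nat_lit 4) (nat_lit 10) (nat_lit 5) (nat_lit 10) (nat_lit 4) (nat_lit 432) (nat_lit 333) (nat_lit 255)))) (XT.nd (nat_lit 78) (nat_lit 76) (nat_lit 0) (XT.lf (nat_lit 0) (nat_lit 4844322783) (nat_lit 152) (nat_lit 3589737517) (nat_lit 76) (nat_lit 80092139748) (nat_lit 8) (nat_lit 5) (nat_lit 10) (nat_lit 5) (nat_lit 9) (nat_lit 4) (nat_lit 433) (nat_lit 333) (nat_lit 254)) (XT.nd (nat_lit 78) (nat_lit 0) (nat_lit 0) (XT.lf (nat_lit 0) (nat_lit 13775593311) (nat_lit 152) (nat_lit 77823381488) (nat_lit 0) (nat_lit 885560265) (nat_lit 7) (nat_lit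 5) (nat_lit 9) (nat_lit 4) (nat_lit 7) (nat_lit 4) (nat_lit 434) (nat_lit 333) (nat_lit 253)) (XT.lf (nat_lit 0) (nat_lit 23335424025) (nat_lit 152) (nat_lit 62863513080) (nat_lit 0) (nat_lit 10432751093) (nat_lit 7) (nat_lit 5) (nat_lit 9) (nat_lit 4) (nat_lit 7) (nat_lit 4) (nat_lit 435) (nat_lit 333) (nat_lit 252))))) (XT.nd (nat_lit 234) (nat_lit 76) (nat_lit 0) (XT.nd (nat_lit 78) (nat_lit 0) (nat_lit 0) (XT.lf (nat_lit 0) (nat_lit 33356048952) (nat_lit 152) (nat_lit 47189673009) (nat_lit 0) (nat_lit 20441338033) (nat_lit 7) (nat_lit 5) (nat_lit 9) (nat_lit 4) (nat_lit 7) (nat_lit 4) (nat_lit 436) (nat_lit 333) (nat_lit 251)) (XT.nd (nat_lit 78) (nat_lit 0) (nat_lit 0) (XT.lf (nat_lit 0) (nat_lit 43861326724) (nat_lit 152) (nat_lit 30764542609) (nat_lit 0) (nat_lit 30935151055) (nat_lit 7) (nat_lit 5) (nat_lit 9) (nat_lit 4) (nat_lit 7) (nat_lit 4) (nat_lit 437) (nat_lit 333) (nat_lit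 250)) (XT.lf (nat_lit 0) (nat_lit 54876269906) (nat_lit 152) (nat_lit 13549014426) (nat_lit 0) (nat_lit 41939175428) (nat_lit 7) (nat_lit 5) (nat_lit 9) (nat_lit 4) (nat_lit 7) (nat_lit 4) (nat_lit 438) (nat_lit 333) (nat_lit 249)))) (XT.nd (nat_lit 156) (nat_lit 0) (nat_lit 0) (XT.nd (nat_lit 78) (nat_lit 0) (nat_lit 0) (XT.lf (nat_lit 0) (nat_lit 4646621807) (nat_lit 76) (nat_lit 61853029535) (nat_lit 76) (nat_lit 48905536191) (nat_lit 6) (nat_lit 4) (nat_lit 7) (nat_lit 5) (nat_lit 7) (nat_lit 4) (nat_lit 439) (nat_lit 333) (nat_lit 248)) (XT.lf (nat_lit 0) (nat_lit 24193515787) (nat_lit 76) (nat_lit 54725545451) (nat_lit 76) (nat_lit 41768148426) (nat_lit 6) (nat_lit 4) (nat_lit 7) (nat_lit 5) (nat_lit 7) (nat_lit 4) (nat_lit 440) (nat_lit 333) (nat_lit 247))) (XT.nd (nat_lit 78) (nat_lit 0) (nat_lit 0) (XT.lf (nat_lit 0) (nat_lit 44690216129) (nat_lit 76) (nat_lit 47255320997) (nat_lit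 76) (nat_lit 34288491894) (nat_lit 6) (nat_lit 4) (nat_lit 7) (nat_lit 5) (nat_lit 7) (nat_lit 4) (nat_lit 441) (nat_lit 333) (nat_lit 246)) (XT.lf (nat_lit 0) (nat_lit 66185524501) (nat_lit 76) (nat_lit 39424569925) (nat_lit 76) (nat_lit 26448757890) (nat_lit 6) (nat_lit 4) (nat_lit 7) (nat_lit 5) (nat_lit 7) (nat_lit 4) (nat_lit 442) (nat_lit 333) (nat_lit 245))))))))
noncomputable def xc80 : XT := (XT.nd (nat_lit 1950) (nat_lit 152) (nat_lit 0) (XT.nd (nat_lit 936) (nat_lit 76) (nat_lit 0) (XT.nd (nat_lit 468) (nat_lit 0) (nat_lit 0) (XT.nd (nat_lit 234) (nat_lit 152) (nat_lit 0) (XT.nd (nat_lit 78) (nat_lit 0) (nat_lit 0) (XT.lf (nat_lit 0) (nat_lit 88730620209) (nat_lit 76) (nat_lit 31214647587) (nat_lit 76) (nat_lit 18230280381) (nat_lit 6) (nat_lit 4) (nat_lit 7) (nat_lit 5) (nat_lit 7) (nat_lit 4) (nat_lit 443) (nat_lit 333) (nat_lit 244)) (XT.nd (nat_lit 78) (nat_lit 0) (nat_lit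 0) (XT.lf (nat_lit 0) (nat_lit 112379182052) (nat_lit 76) (nat_lit 22606006552) (nat_lit 76) (nat_lit 9613491561) (nat_lit 6) (nat_lit 4) (nat_lit 7) (nat_lit 5) (nat_lit 7) (nat_lit 4) (nat_lit 444) (nat_lit 333) (nat_lit 243)) (XT.lf (nat_lit 0) (nat_lit 137187516129) (nat_lit 76) (nat_lit 13578150053) (nat_lit 76) (nat_lit 577875269) (nat_lit 6) (nat_lit 4) (nat_lit 7) (nat_lit 5) (nat_lit 7) (nat_lit 4) (nat_lit 445) (nat_lit 333) (nat_lit 242)))) (XT.nd (nat_lit 78) (nat_lit 0) (nat_lit 0) (XT.lf (nat_lit 0) (nat_lit 4803310615) (nat_lit 76) (nat_lit 3884970203) (nat_lit 152) (nat_lit 149727214555) (nat_lit 4) (nat_lit 5) (nat_lit 5) (nat_lit 5) (nat_lit 6) (nat_lit 4) (nat_lit 446) (nat_lit 333) (nat_lit 241)) (XT.nd (nat_lit 78) (nat_lit 0) (nat_lit 0) (XT.lf (nat_lit 0) (nat_lit 18729192188) (nat_lit 152) (nat_lit 140760601832) (nat_lit 0) (nat_lit 6334236545) (nat_lit 4) (nat_lit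 5) (nat_lit 6) (nat_lit 4) (nat_lit 4) (nat_lit 4) (nat_lit 447) (nat_lit 333) (nat_lit 240)) (XT.lf (nat_lit 0) (nat_lit 29325312659) (nat_lit 152) (nat_lit 127351049272) (nat_lit 0) (nat_lit 16923973014) (nat_lit 4) (nat_lit 5) (nat_lit 6) (nat_lit 4) (nat_lit 4) (nat_lit 4) (nat_lit 448) (nat_lit 333) (nat_lit 239))))) (XT.nd (nat_lit 234) (nat_lit 0) (nat_lit 0) (XT.nd (nat_lit 78) (nat_lit 0) (nat_lit 0) (XT.lf (nat_lit 0) (nat_lit 40441215816) (nat_lit 152) (nat_lit 113290944300) (nat_lit 0) (nat_lit 28033796170) (nat_lit 4) (nat_lit 5) (nat_lit 6) (nat_lit 4) (nat_lit 4) (nat_lit 4) (nat_lit 449) (nat_lit 333) (nat_lit 238)) (XT.nd (nat_lit 78) (nat_lit 0) (nat_lit 0) (XT.lf (nat_lit 0) (nat_lit 52103368097) (nat_lit 152) (nat_lit 98546810475) (nat_lit 0) (nat_lit 39690157973) (nat_lit 4) (nat_lit 5) (nat_lit 6) (nat_lit 4) (nat_lit 4) (nat_lit 4) (nat_lit 450) (nat_lit 333) (nat_lit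 237)) (XT.lf (nat_lit 0) (nat_lit 64339536531) (nat_lit 152) (nat_lit 83083542718) (nat_lit 0) (nat_lit 51920811666) (nat_lit 4) (nat_lit 5) (nat_lit 6) (nat_lit 4) (nat_lit 4) (nat_lit 4) (nat_lit 451) (nat_lit 333) (nat_lit 236)))) (XT.nd (nat_lit 78) (nat_lit 0) (nat_lit 0) (XT.lf (nat_lit 0) (nat_lit 77178854851) (nat_lit 152) (nat_lit 66864323723) (nat_lit 0) (nat_lit 64754877852) (nat_lit 4) (nat_lit 5) (nat_lit 6) (nat_lit 4) (nat_lit 4) (nat_lit 4) (nat_lit 452) (nat_lit 333) (nat_lit 235)) (XT.nd (nat_lit 78) (nat_lit 0) (nat_lit 0) (XT.lf (nat_lit 0) (nat_lit 90651892863) (nat_lit 152) (nat_lit 49850536304) (nat_lit 0) (nat_lit 78222913832) (nat_lit 4) (nat_lit 5) (nat_lit 6) (nat_lit 4) (nat_lit 4) (nat_lit 4) (nat_lit 453) (nat_lit 333) (nat_lit 234)) (XT.lf (nat_lit 0) (nat_lit 104790729230) (nat_lit 152) (nat_lit 32001671441) (nat_lit 0) (nat_lit 92356986359) (nat_lit 4) (nat_lit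 5) (nat_lit 6) (nat_lit 4) (nat_lit 4) (nat_lit 4) (nat_lit 454) (nat_lit 333) (nat_lit 233)))))) (XT.nd (nat_lit 468) (nat_lit 0) (nat_lit 0) (XT.nd (nat_lit 234) (nat_lit 0) (nat_lit 0) (XT.nd (nat_lit 78) (nat_lit 76) (nat_lit 0) (XT.lf (nat_lit 0) (nat_lit 119629027846) (nat_lit 152) (nat_lit 13275231839) (nat_lit 0) (nat_lit 107190747985) (nat_lit 4) (nat_lit 5) (nat_lit 6) (nat_lit 4) (nat_lit 4) (nat_lit 4) (nat_lit 455) (nat_lit 333) (nat_lit 232)) (XT.nd (nat_lit 78) (nat_lit 0) (nat_lit 0) (XT.lf (nat_lit 0) (nat_lit 6584101634) (nat_lit 76) (nat_lit 128720812640) (nat_lit 76) (nat_lit 116278211834) (nat_lit 3) (nat_lit 4) (nat_lit 4) (nat_lit 5) (nat_lit 4) (nat_lit 4) (nat_lit 456) (nat_lit 333) (nat_lit 231)) (XT.lf (nat_lit 0) (nat_lit 27883355771) (nat_lit 76) (nat_lit 124099060019) (nat_lit 76) (nat_lit 111652344030) (nat_lit 3) (nat_lit 4) (nat_lit 4) (nat_lit 5) (nat_lit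 4) (nat_lit 4) (nat_lit 457) (nat_lit 333) (nat_lit 230)))) (XT.nd (nat_lit 78) (nat_lit 0) (nat_lit 0) (XT.lf (nat_lit 0) (nat_lit 50234303963) (nat_lit 76) (nat_lit 119252820127) (nat_lit 76) (nat_lit 106802184914) (nat_lit 3) (nat_lit 4) (nat_lit 4) (nat_lit 5) (nat_lit 4) (nat_lit 4) (nat_lit 458) (nat_lit 333) (nat_lit 229)) (XT.nd (nat_lit 78) (nat_lit 0) (nat_lit 0) (XT.lf (nat_lit 0) (nat_lit 73690162754) (nat_lit 76) (nat_lit 114170554295) (nat_lit 76) (nat_lit 101716186489) (nat_lit 3) (nat_lit 4) (nat_lit 4) (nat_lit 5) (nat_lit 4) (nat_lit 4) (nat_lit 459) (nat_lit 333) (nat_lit 228)) (XT.lf (nat_lit 0) (nat_lit 98306779425) (nat_lit 76) (nat_lit 108840161893) (nat_lit 76) (nat_lit 96382239236) (nat_lit 3) (nat_lit 4) (nat_lit 4) (nat_lit 5) (nat_lit 4) (nat_lit 4) (nat_lit 460) (nat_lit 333) (nat_lit 227))))) (XT.nd (nat_lit 234) (nat_lit 0) (nat_lit 0) (XT.nd (nat_lit 78) (nat_lit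 0) (nat_lit 0) (XT.lf (nat_lit 0) (nat_lit 124142764971) (nat_lit 76) (nat_lit 103248951508) (nat_lit 76) (nat_lit 90787643278) (nat_lit 3) (nat_lit 4) (nat_lit 4) (nat_lit 5) (nat_lit 4) (nat_lit 4) (nat_lit 461) (nat_lit 333) (nat_lit 226)) (XT.nd (nat_lit 78) (nat_lit 0) (nat_lit 0) (XT.lf (nat_lit 0) (nat_lit 151259633640) (nat_lit 76) (nat_lit 97383610735) (nat_lit 76) (nat_lit 84919078151) (nat_lit 3) (nat_lit 4) (nat_lit 4) (nat_lit 5) (nat_lit 4) (nat_lit 4) (nat_lit 462) (nat_lit 333) (nat_lit 225)) (XT.lf (nat_lit 0) (nat_lit 179721949408) (nat_lit 76) (nat_lit 91230174478) (nat_lit 76) (nat_lit 78762571080) (nat_lit 3) (nat_lit 4) (nat_lit 4) (nat_lit 5) (nat_lit 4) (nat_lit 4) (nat_lit 463) (nat_lit 333) (nat_lit 224)))) (XT.nd (nat_lit 156) (nat_lit 0) (nat_lit 0) (XT.nd (nat_lit 78) (nat_lit 0) (nat_lit 0) (XT.lf (nat_lit 0) (nat_lit 209597479692) (nat_lit 76) (nat_lit 84773991697)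 (nat_lit 76) (nat_lit 72303463714) (nat_lit 3) (nat_lit 4) (nat_lit 4) (nat_lit 5) (nat_lit 4) (nat_lit 4) (nat_lit 464) (nat_lit 333) (nat_lit 223)) (XT.lf (nat_lit 0) (nat_lit 240957356707) (nat_lit 76) (nat_lit 77999690528) (nat_lit 76) (nat_lit 65526377227) (nat_lit 3) (nat_lit 4) (nat_lit 4) (nat_lit 5) (nat_lit 4) (nat_lit 4) (nat_lit 465) (nat_lit 333) (nat_lit 222))) (XT.nd (nat_lit 78) (nat_lit 0) (nat_lit 0) (XT.lf (nat_lit 0) (nat_lit 273876246827) (nat_lit 76) (nat_lit 70891141684) (nat_lit 76) (nat_lit 58415175698) (nat_lit 3) (nat_lit 4) (nat_lit 4) (nat_lit 5) (nat_lit 4) (nat_lit 4) (nat_lit 466) (nat_lit 333) (nat_lit 221)) (XT.lf (nat_lit 0) (nat_lit 308432528362) (nat_lit 76) (nat_lit 63431420048) (nat_lit 76) (nat_lit 50952927696) (nat_lit 3) (nat_lit 4) (nat_lit 4) (nat_lit 5) (nat_lit 4) (nat_lit 4) (nat_lit 467) (nat_lit 333) (nat_lit 220))))))) (XT.nd (nat_lit 44148)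 (nat_lit 0) (nat_lit 6004) (XT.nd (nat_lit 468) (nat_lit 76) (nat_lit 0) (XT.nd (nat_lit 234) (nat_lit 76) (nat_lit 0) (XT.nd (nat_lit 78) (nat_lit 0) (nat_lit 0) (XT.lf (nat_lit 0) (nat_lit 344708478172) (nat_lit 76) (nat_lit 55602764377) (nat_lit 76) (nat_lit 43121865962) (nat_lit 3) (nat_lit 4) (nat_lit 4) (nat_lit 5) (nat_lit 4) (nat_lit 4) (nat_lit 468) (nat_lit 333) (nat_lit 219)) (XT.nd (nat_lit 78) (nat_lit 0) (nat_lit 0) (XT.lf (nat_lit 0) (nat_lit 382790467567) (nat_lit 76) (nat_lit 47386535017) (nat_lit 76) (nat_lit 34903345113) (nat_lit 3) (nat_lit 4) (nat_lit 4) (nat_lit 5) (nat_lit 4) (nat_lit 4) (nat_lit 469) (nat_lit 333) (nat_lit 218)) (XT.lf (nat_lit 0) (nat_lit 422769167951) (nat_lit 76) (nat_lit 38763169515) (nat_lit 76) (nat_lit 26277797241) (nat_lit 3) (nat_lit 4) (nat_lit 4) (nat_lit 5) (nat_lit 4) (nat_lit 4) (nat_lit 470) (nat_lit 333) (nat_lit 217)))) (XT.nd (nat_lit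 78) (nat_lit 76) (nat_lit 0) (XT.lf (nat_lit 0) (nat_lit 464739766704) (nat_lit 76) (nat_lit 29712136049) (nat_lit 76) (nat_lit 17224685327) (nat_lit 3) (nat_lit 4) (nat_lit 4) (nat_lit 5) (nat_lit 4) (nat_lit 4) (nat_lit 471) (nat_lit 333) (nat_lit 216)) (XT.nd (nat_lit 78) (nat_lit 76) (nat_lit 0) (XT.lf (nat_lit 0) (nat_lit 508802193824) (nat_lit 76) (nat_lit 20211884539) (nat_lit 76) (nat_lit 7722454344) (nat_lit 3) (nat_lit 4) (nat_lit 4) (nat_lit 5) (nat_lit 4) (nat_lit 4) (nat_lit 472) (nat_lit 333) (nat_lit 215)) (XT.lf (nat_lit 0) (nat_lit 2179457365) (nat_lit 152) (nat_lit 8023427808) (nat_lit 76) (nat_lit 552844992320) (nat_lit 2) (nat_lit 5) (nat_lit 4) (nat_lit 5) (nat_lit 3) (nat_lit 4) (nat_lit 473) (nat_lit 333) (nat_lit 214))))) (XT.nd (nat_lit 234) (nat_lit 0) (nat_lit 0) (XT.nd (nat_lit 78) (nat_lit 0) (nat_lit 0) (XT.lf (nat_lit 0) (nat_lit 12529668646) (nat_lit 152)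 (nat_lit 577496686865) (nat_lit 0) (nat_lit 631467837) (nat_lit 1) (nat_lit 5) (nat_lit 3) (nat_lit 4) (nat_lit 1) (nat_lit 4) (nat_lit 474) (nat_lit 333) (nat_lit 213)) (XT.nd (nat_lit 78) (nat_lit 0) (nat_lit 0) (XT.lf (nat_lit 0) (nat_lit 23699659632) (nat_lit 152) (nat_lit 584133663257) (nat_lit 0) (nat_lit 11799830304) (nat_lit 1) (nat_lit 5) (nat_lit 3) (nat_lit 4) (nat_lit 1) (nat_lit 4) (nat_lit 475) (nat_lit 333) (nat_lit 212)) (XT.lf (nat_lit 0) (nat_lit 35425198304) (nat_lit 152) (nat_lit 591108380960) (nat_lit 0) (nat_lit 23523818006) (nat_lit 1) (nat_lit 5) (nat_lit 3) (nat_lit 4) (nat_lit 1) (nat_lit 4) (nat_lit 476) (nat_lit 333) (nat_lit 211)))) (XT.nd (nat_lit 156) (nat_lit 0) (nat_lit 0) (XT.nd (nat_lit 78) (nat_lit 0) (nat_lit 0) (XT.lf (nat_lit 0) (nat_lit 47734202611) (nat_lit 152) (nat_lit 598437446444) (nat_lit 0) (nat_lit 35831345200) (nat_lit 1) (nat_lit 5) (nat_lit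 3) (nat_lit 4) (nat_lit 1) (nat_lit 4) (nat_lit 477) (nat_lit 333) (nat_lit 210)) (XT.lf (nat_lit 0) (nat_lit 60655979708) (nat_lit 152) (nat_lit 606138309866) (nat_lit 0) (nat_lit 48751715521) (nat_lit 1) (nat_lit 5) (nat_lit 3) (nat_lit 4) (nat_lit 1) (nat_lit 4) (nat_lit 478) (nat_lit 333) (nat_lit 209))) (XT.nd (nat_lit 43212) (nat_lit 0) (nat_lit 10412) (XT.lf (nat_lit 0) (nat_lit 74221295729) (nat_lit 152) (nat_lit 614229306615) (nat_lit 0) (nat_lit 62315691756) (nat_lit 1) (nat_lit 5) (nat_lit 3) (nat_lit 4) (nat_lit 1) (nat_lit 4) (nat_lit 479) (nat_lit 333) (nat_lit 208)) (XT.lf (nat_lit 0) (nat_lit 175157226) (nat_lit 532) (nat_lit 1629144322) (nat_lit 532) (nat_lit 1629144322) (nat_lit 138) (nat_lit 4) (nat_lit 145) (nat_lit 5) (nat_lit 145) (nat_lit 4) (nat_lit 352) (nat_lit 334) (nat_lit 334)))))) (XT.nd (nat_lit 468) (nat_lit 1748) (nat_lit 0) (XT.nd (nat_lit 234) (nat_lit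 1292) (nat_lit 0) (XT.nd (nat_lit 78) (nat_lit 1292) (nat_lit 0) (XT.lf (nat_lit 0) (nat_lit 60634587) (nat_lit 608) (nat_lit 1799858173) (nat_lit 76) (nat_lit 5082334813) (nat_lit 137) (nat_lit 5) (nat_lit 145) (nat_lit 5) (nat_lit 138) (nat_lit 4) (nat_lit 353) (nat_lit 334) (nat_lit 333)) (XT.nd (nat_lit 78) (nat_lit 684) (nat_lit 0) (XT.lf (nat_lit 0) (nat_lit 3040482169) (nat_lit 608) (nat_lit 275212320) (nat_lit 684) (nat_lit 3710375929) (nat_lit 129) (nat_lit 5) (nat_lit 137) (nat_lit 5) (nat_lit 138) (nat_lit 4) (nat_lit 354) (nat_lit 334) (nat_lit 332)) (XT.lf (nat_lit 0) (nat_lit 918586893) (nat_lit 684) (nat_lit 5719880265) (nat_lit 684) (nat_lit 479917846) (nat_lit 120) (nat_lit 4) (nat_lit 129) (nat_lit 5) (nat_lit 129) (nat_lit 4) (nat_lit 355) (nat_lit 334) (nat_lit 331)))) (XT.nd (nat_lit 78) (nat_lit 1216) (nat_lit 0) (XT.lf (nat_lit 0) (nat_lit 2732432757) (nat_lit 760)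 (nat_lit 1221485702) (nat_lit 76) (nat_lit 3263587835) (nat_lit 119) (nat_lit 5) (nat_lit 129) (nat_lit 5) (nat_lit 120) (nat_lit 4) (nat_lit 356) (nat_lit 334) (nat_lit 330)) (XT.nd (nat_lit 78) (nat_lit 456) (nat_lit 0) (XT.lf (nat_lit 0) (nat_lit 3967917704) (nat_lit 760) (nat_lit 2031360122) (nat_lit 836) (nat_lit 1326548313) (nat_lit 109) (nat_lit 5) (nat_lit 119) (nat_lit 5) (nat_lit 120) (nat_lit 4) (nat_lit 357) (nat_lit 334) (nat_lit 329)) (XT.lf (nat_lit 0) (nat_lit 1828080327) (nat_lit 456) (nat_lit 5553805778) (nat_lit 76) (nat_lit 61152624) (nat_lit 103) (nat_lit 5) (nat_lit 109) (nat_lit 5) (nat_lit 104) (nat_lit 4) (nat_lit 358) (nat_lit 334) (nat_lit 328))))) (XT.nd (nat_lit 234) (nat_lit 988) (nat_lit 0) (XT.nd (nat_lit 78) (nat_lit 760) (nat_lit 0) (XT.lf (nat_lit 0) (nat_lit 5041793020) (nat_lit 456) (nat_lit 268041359) (nat_lit 76) (nat_lit 2258011162) (nat_lit 103) (nat_lit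 5) (nat_lit 109) (nat_lit 5) (nat_lit 104) (nat_lit 4) (nat_lit 359) (nat_lit 334) (nat_lit 327)) (XT.nd (nat_lit 78) (nat_lit 380) (nat_lit 0) (XT.lf (nat_lit 0) (nat_lit 637739009) (nat_lit 380) (nat_lit 2416867921) (nat_lit 76) (nat_lit 4646662555) (nat_lit 98) (nat_lit 5) (nat_lit 103) (nat_lit 5) (nat_lit 99) (nat_lit 5) (nat_lit 360) (nat_lit 334) (nat_lit 326)) (XT.lf (nat_lit 0) (nat_lit 3184701242) (nat_lit 380) (nat_lit 608089592) (nat_lit 456) (nat_lit 4050706709) (nat_lit 93) (nat_lit 5) (nat_lit 98) (nat_lit 5) (nat_lit 99) (nat_lit 5) (nat_lit 361) (nat_lit 334) (nat_lit 325)))) (XT.nd (nat_lit 156) (nat_lit 608) (nat_lit 0) (XT.nd (nat_lit 78) (nat_lit 76) (nat_lit 0) (XT.lf (nat_lit 0) (nat_lit 997953991) (nat_lit 304) (nat_lit 6062757536) (nat_lit 380) (nat_lit 934466409) (nat_lit 89) (nat_lit 5) (nat_lit 93) (nat_lit 5) (nat_lit 94) (nat_lit 4) (nat_lit 362) (nat_lit 334)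 (nat_lit 324)) (XT.lf (nat_lit 0) (nat_lit 2221875822) (nat_lit 380) (nat_lit 1262945944) (nat_lit 76) (nat_lit 4669928158) (nat_lit 88) (nat_lit 5) (nat_lit 93) (nat_lit 5) (nat_lit 89) (nat_lit 5) (nat_lit 363) (nat_lit 334) (nat_lit 323))) (XT.nd (nat_lit 78) (nat_lit 304) (nat_lit 0) (XT.lf (nat_lit 0) (nat_lit 4738212701) (nat_lit 304) (nat_lit 715581888) (nat_lit 380) (nat_lit 2870365357) (nat_lit 84) (nat_lit 5) (nat_lit 88) (nat_lit 5) (nat_lit 89) (nat_lit 5) (nat_lit 364) (nat_lit 334) (nat_lit 322)) (XT.lf (nat_lit 0) (nat_lit 306407288) (nat_lit 304) (nat_lit 6041009801) (nat_lit 76) (nat_lit 2155820193) (nat_lit 80) (nat_lit 5) (nat_lit 84) (nat_lit 5) (nat_lit 81) (nat_lit 5) (nat_lit 365) (nat_lit 334) (nat_lit 321))))))))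
noncomputable def xc81 : XT := (XT.nd (nat_lit 1950) (nat_lit 1596) (nat_lit 0) (XT.nd (nat_lit 936) (nat_lit 1292) (nat_lit 0) (XT.nd (nat_lit 468) (nat_lit 912) (nat_lit 0) (XT.nd (nat_lit 234) (nat_lit 532) (nat_lit 0) (XT.nd (nat_lit 78) (nat_lit 304) (nat_lit 0) (XT.lf (nat_lit 0) (nat_lit 29465977) (nat_lit 304) (nat_lit 3469568902) (nat_lit 380) (nat_lit 5192279069) (nat_lit 76) (nat_lit 5) (nat_lit 80) (nat_lit 5) (nat_lit 81) (nat_lit 5) (nat_lit 366) (nat_lit 334) (nat_lit 320)) (XT.nd (nat_lit 78) (nat_lit 304) (nat_lit 0) (XT.lf (nat_lit 0) (nat_lit 6455018369) (nat_lit 304) (nat_lit 381411592) (nat_lit 380) (nat_lit 2053176436) (nat_lit 76) (nat_lit 5) (nat_lit 80) (nat_lit 5) (nat_lit 81) (nat_lit 5) (nat_lit 367) (nat_lit 334) (nat_lit 319)) (XT.lf (nat_lit 0) (nat_lit 1198394895) (nat_lit 304) (nat_lit 5084679086) (nat_lit 76) (nat_lit 2814066932) (nat_lit 72) (nat_lit 5)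 (nat_lit 76) (nat_lit 5) (nat_lit 73) (nat_lit 5) (nat_lit 368) (nat_lit 334) (nat_lit 318)))) (XT.nd (nat_lit 78) (nat_lit 304) (nat_lit 0) (XT.lf (nat_lit 0) (nat_lit 1400739791) (nat_lit 228) (nat_lit 3101732488) (nat_lit 304) (nat_lit 4813009954) (nat_lit 69) (nat_lit 5) (nat_lit 72) (nat_lit 5) (nat_lit 73) (nat_lit 5) (nat_lit 369) (nat_lit 334) (nat_lit 317)) (XT.nd (nat_lit 78) (nat_lit 304) (nat_lit 0) (XT.lf (nat_lit 0) (nat_lit 7954061631) (nat_lit 304) (nat_lit 1317733709) (nat_lit 76) (nat_lit 273886440) (nat_lit 69) (nat_lit 5) (nat_lit 73) (nat_lit 5) (nat_lit 70) (nat_lit 4) (nat_lit 370) (nat_lit 334) (nat_lit 316)) (XT.lf (nat_lit 0) (nat_lit 1768330958) (nat_lit 304) (nat_lit 4228744874) (nat_lit 76) (nat_lit 3787228285) (nat_lit 65) (nat_lit 5) (nat_lit 69) (nat_lit 5) (nat_lit 66) (nat_lit 5) (nat_lit 371) (nat_lit 334) (nat_lit 315))))) (XT.nd (nat_lit 234) (nat_lit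 456) (nat_lit 0) (XT.nd (nat_lit 78) (nat_lit 228) (nat_lit 0) (XT.lf (nat_lit 0) (nat_lit 2691669093) (nat_lit 228) (nat_lit 2512979787) (nat_lit 304) (nat_lit 4830860041) (nat_lit 62) (nat_lit 5) (nat_lit 65) (nat_lit 5) (nat_lit 66) (nat_lit 5) (nat_lit 372) (nat_lit 334) (nat_lit 314)) (XT.nd (nat_lit 78) (nat_lit 228) (nat_lit 0) (XT.lf (nat_lit 0) (nat_lit 8802382464) (nat_lit 304) (nat_lit 364203054) (nat_lit 76) (nat_lit 1133254996) (nat_lit 62) (nat_lit 5) (nat_lit 66) (nat_lit 5) (nat_lit 63) (nat_lit 4) (nat_lit 373) (nat_lit 334) (nat_lit 313)) (XT.lf (nat_lit 0) (nat_lit 1993595112) (nat_lit 228) (nat_lit 3606624718) (nat_lit 76) (nat_lit 4972893884) (nat_lit 59) (nat_lit 5) (nat_lit 62) (nat_lit 5) (nat_lit 60) (nat_lit 5) (nat_lit 374) (nat_lit 334) (nat_lit 312)))) (XT.nd (nat_lit 78) (nat_lit 228) (nat_lit 0) (XT.lf (nat_lit 0) (nat_lit 3764612807) (nat_lit 228) (nat_lit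 1813794746) (nat_lit 304) (nat_lit 5281979245) (nat_lit 56) (nat_lit 5) (nat_lit 59) (nat_lit 5) (nat_lit 60) (nat_lit 5) (nat_lit 375) (nat_lit 334) (nat_lit 311)) (XT.nd (nat_lit 78) (nat_lit 76) (nat_lit 0) (XT.lf (nat_lit 0) (nat_lit 296029262) (nat_lit 152) (nat_lit 9052836223) (nat_lit 228) (nat_lit 1812876094) (nat_lit 54) (nat_lit 5) (nat_lit 56) (nat_lit 5) (nat_lit 57) (nat_lit 4) (nat_lit 376) (nat_lit 334) (nat_lit 310)) (XT.lf (nat_lit 0) (nat_lit 1829586570) (nat_lit 228) (nat_lit 3378715525) (nat_lit 76) (nat_lit 6265545125) (nat_lit 53) (nat_lit 5) (nat_lit 56) (nat_lit 5) (nat_lit 54) (nat_lit 5) (nat_lit 377) (nat_lit 334) (nat_lit 309)))))) (XT.nd (nat_lit 468) (nat_lit 532) (nat_lit 0) (XT.nd (nat_lit 234) (nat_lit 380) (nat_lit 0) (XT.nd (nat_lit 78) (nat_lit 228) (nat_lit 0) (XT.lf (nat_lit 0) (nat_lit 4452504479) (nat_lit 152) (nat_lit 1121298391) (nat_lit 228) (nat_lit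 6227274631) (nat_lit 51) (nat_lit 5) (nat_lit 53) (nat_lit 5) (nat_lit 54) (nat_lit 5) (nat_lit 378) (nat_lit 334) (nat_lit 308)) (XT.nd (nat_lit 78) (nat_lit 76) (nat_lit 0) (XT.lf (nat_lit 0) (nat_lit 471281575) (nat_lit 152) (nat_lit 9061199727) (nat_lit 228) (nat_lit 2610856926) (nat_lit 49) (nat_lit 5) (nat_lit 51) (nat_lit 5) (nat_lit 52) (nat_lit 4) (nat_lit 379) (nat_lit 334) (nat_lit 307)) (XT.lf (nat_lit 0) (nat_lit 1206054635) (nat_lit 228) (nat_lit 3742916750) (nat_lit 76) (nat_lit 7549960809) (nat_lit 48) (nat_lit 5) (nat_lit 51) (nat_lit 5) (nat_lit 49) (nat_lit 5) (nat_lit 380) (nat_lit 334) (nat_lit 306)))) (XT.nd (nat_lit 78) (nat_lit 228) (nat_lit 0) (XT.lf (nat_lit 0) (nat_lit 4547585365) (nat_lit 152) (nat_lit 566409643) (nat_lit 228) (nat_lit 7756801755) (nat_lit 46) (nat_lit 5) (nat_lit 48) (nat_lit 5) (nat_lit 49) (nat_lit 5) (nat_lit 381) (nat_lit 334) (nat_lit 305))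 (XT.nd (nat_lit 78) (nat_lit 228) (nat_lit 0) (XT.lf (nat_lit 0) (nat_lit 9262675720) (nat_lit 228) (nat_lit 78428466) (nat_lit 76) (nat_lit 3917909122) (nat_lit 46) (nat_lit 5) (nat_lit 49) (nat_lit 5) (nat_lit 47) (nat_lit 4) (nat_lit 382) (nat_lit 334) (nat_lit 304)) (XT.lf (nat_lit 0) (nat_lit 21948784) (nat_lit 228) (nat_lit 4947632290) (nat_lit 76) (nat_lit 8693707090) (nat_lit 43) (nat_lit 5) (nat_lit 46) (nat_lit 5) (nat_lit 44) (nat_lit 5) (nat_lit 383) (nat_lit 334) (nat_lit 303))))) (XT.nd (nat_lit 234) (nat_lit 304) (nat_lit 0) (XT.nd (nat_lit 78) (nat_lit 76) (nat_lit 0) (XT.lf (nat_lit 0) (nat_lit 3787434524) (nat_lit 152) (nat_lit 302131798) (nat_lit 228) (nat_lit 9995821138) (nat_lit 41) (nat_lit 5) (nat_lit 43) (nat_lit 5) (nat_lit 44) (nat_lit 5) (nat_lit 384) (nat_lit 334) (nat_lit 302)) (XT.nd (nat_lit 78) (nat_lit 76) (nat_lit 0) (XT.lf (nat_lit 0) (nat_lit 8440578883)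 (nat_lit 228) (nat_lit 1600092748) (nat_lit 76) (nat_lit 4483940703) (nat_lit 41) (nat_lit 5) (nat_lit 44) (nat_lit 5) (nat_lit 42) (nat_lit 4) (nat_lit 385) (nat_lit 334) (nat_lit 301)) (XT.lf (nat_lit 0) (nat_lit 7645217606) (nat_lit 76) (nat_lit 5414956473) (nat_lit 152) (nat_lit 1923093076) (nat_lit 40) (nat_lit 5) (nat_lit 41) (nat_lit 5) (nat_lit 42) (nat_lit 4) (nat_lit 386) (nat_lit 334) (nat_lit 300)))) (XT.nd (nat_lit 156) (nat_lit 76) (nat_lit 0) (XT.nd (nat_lit 78) (nat_lit 0) (nat_lit 0) (XT.lf (nat_lit 0) (nat_lit 1837460546) (nat_lit 152) (nat_lit 513437251) (nat_lit 228) (nat_lit 13112901603) (nat_lit 37) (nat_lit 5) (nat_lit 39) (nat_lit 5) (nat_lit 40) (nat_lit 5) (nat_lit 387) (nat_lit 334) (nat_lit 299)) (XT.lf (nat_lit 0) (nat_lit 6900333520) (nat_lit 228) (nat_lit 4469788578) (nat_lit 76) (nat_lit 4590358701) (nat_lit 37) (nat_lit 5) (nat_lit 40) (nat_lit 5) (nat_lit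 38) (nat_lit 4) (nat_lit 388) (nat_lit 334) (nat_lit 298))) (XT.nd (nat_lit 78) (nat_lit 0) (nat_lit 0) (XT.lf (nat_lit 0) (nat_lit 5179815134) (nat_lit 76) (nat_lit 6517882495) (nat_lit 152) (nat_lit 4783292513) (nat_lit 36) (nat_lit 5) (nat_lit 37) (nat_lit 5) (nat_lit 38) (nat_lit 4) (nat_lit 389) (nat_lit 334) (nat_lit 297)) (XT.lf (nat_lit 0) (nat_lit 15346906548) (nat_lit 76) (nat_lit 1396291056) (nat_lit 152) (nat_lit 283929874) (nat_lit 36) (nat_lit 5) (nat_lit 37) (nat_lit 5) (nat_lit 38) (nat_lit 4) (nat_lit 390) (nat_lit 334) (nat_lit 296))))))) (XT.nd (nat_lit 1014) (nat_lit 608) (nat_lit 0) (XT.nd (nat_lit 468) (nat_lit 380) (nat_lit 0) (XT.nd (nat_lit 234) (nat_lit 304) (nat_lit 0) (XT.nd (nat_lit 78) (nat_lit 76) (nat_lit 0) (XT.lf (nat_lit 0) (nat_lit 4430502586) (nat_lit 228) (nat_lit 9150271968) (nat_lit 76) (nat_lit 4009734088) (nat_lit 33) (nat_lit 5) (nat_lit 36) (nat_lit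 5) (nat_lit 34) (nat_lit 4) (nat_lit 391) (nat_lit 334) (nat_lit 295)) (XT.nd (nat_lit 78) (nat_lit 0) (nat_lit 0) (XT.lf (nat_lit 0) (nat_lit 825667493) (nat_lit 76) (nat_lit 8545387982) (nat_lit 152) (nat_lit 8810787366) (nat_lit 32) (nat_lit 5) (nat_lit 33) (nat_lit 5) (nat_lit 34) (nat_lit 4) (nat_lit 392) (nat_lit 334) (nat_lit 294)) (XT.lf (nat_lit 0) (nat_lit 11502807952) (nat_lit 76) (nat_lit 3147314396) (nat_lit 152) (nat_lit 4148060175) (nat_lit 32) (nat_lit 5) (nat_lit 33) (nat_lit 5) (nat_lit 34) (nat_lit 4) (nat_lit 393) (nat_lit 334) (nat_lit 293)))) (XT.nd (nat_lit 78) (nat_lit 76) (nat_lit 0) (XT.lf (nat_lit 0) (nat_lit 752727059) (nat_lit 228) (nat_lit 16235945025) (nat_lit 76) (nat_lit 2454652306) (nat_lit 29) (nat_lit 5) (nat_lit 32) (nat_lit 5) (nat_lit 30) (nat_lit 4) (nat_lit 394) (nat_lit 334) (nat_lit 292)) (XT.nd (nat_lit 78) (nat_lit 76) (nat_lit 0) (XT.lf (nat_lit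 0) (nat_lit 5875296440) (nat_lit 228) (nat_lit 5859888144) (nat_lit 76) (nat_lit 8376342784) (nat_lit 29) (nat_lit 5) (nat_lit 32) (nat_lit 5) (nat_lit 30) (nat_lit 4) (nat_lit 395) (nat_lit 334) (nat_lit 291)) (XT.lf (nat_lit 0) (nat_lit 5090990761) (nat_lit 76) (nat_lit 6184367560) (nat_lit 152) (nat_lit 9536724739) (nat_lit 28) (nat_lit 5) (nat_lit 29) (nat_lit 5) (nat_lit 30) (nat_lit 4) (nat_lit 396) (nat_lit 334) (nat_lit 290))))) (XT.nd (nat_lit 234) (nat_lit 228) (nat_lit 0) (XT.nd (nat_lit 78) (nat_lit 152) (nat_lit 0) (XT.lf (nat_lit 0) (nat_lit 16687655963) (nat_lit 76) (nat_lit 300011958) (nat_lit 152) (nat_lit 4557896640) (nat_lit 28) (nat_lit 5) (nat_lit 29) (nat_lit 5) (nat_lit 30) (nat_lit 4) (nat_lit 397) (nat_lit 334) (nat_lit 289)) (XT.nd (nat_lit 78) (nat_lit 0) (nat_lit 0) (XT.lf (nat_lit 0) (nat_lit 789980406) (nat_lit 152) (nat_lit 15756944626) (nat_lit 76) (nat_lit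 5761204093) (nat_lit 26) (nat_lit 5) (nat_lit 28) (nat_lit 5) (nat_lit 27) (nat_lit 4) (nat_lit 398) (nat_lit 334) (nat_lit 288)) (XT.lf (nat_lit 0) (nat_lit 6285771636) (nat_lit 152) (nat_lit 4588678190) (nat_lit 76) (nat_lit 12228960192) (nat_lit 26) (nat_lit 5) (nat_lit 28) (nat_lit 5) (nat_lit 27) (nat_lit 4) (nat_lit 399) (nat_lit 334) (nat_lit 287)))) (XT.nd (nat_lit 156) (nat_lit 152) (nat_lit 0) (XT.nd (nat_lit 78) (nat_lit 0) (nat_lit 0) (XT.lf (nat_lit 0) (nat_lit 7273296140) (nat_lit 76) (nat_lit 4844381945) (nat_lit 152) (nat_lit 11817719024) (nat_lit 25) (nat_lit 5) (nat_lit 26) (nat_lit 5) (nat_lit 27) (nat_lit 4) (nat_lit 400) (nat_lit 334) (nat_lit 286)) (XT.lf (nat_lit 0) (nat_lit 18291445543) (nat_lit 152) (nat_lit 5039709688) (nat_lit 0) (nat_lit 1475323074) (nat_lit 25) (nat_lit 5) (nat_lit 27) (nat_lit 4) (nat_lit 25) (nat_lit 4) (nat_lit 401) (nat_lit 334) (nat_lit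 285))) (XT.nd (nat_lit 78) (nat_lit 76) (nat_lit 0) (XT.lf (nat_lit 0) (nat_lit 7222407895) (nat_lit 76) (nat_lit 17694205936) (nat_lit 76) (nat_lit 797371759) (nat_lit 24) (nat_lit 4) (nat_lit 25) (nat_lit 5) (nat_lit 25) (nat_lit 4) (nat_lit 402) (nat_lit 334) (nat_lit 284)) (XT.lf (nat_lit 0) (nat_lit 5076947690) (nat_lit 152) (nat_lit 6565959705) (nat_lit 76) (nat_lit 15018033369) (nat_lit 23) (nat_lit 5) (nat_lit 25) (nat_lit 5) (nat_lit 24) (nat_lit 4) (nat_lit 403) (nat_lit 334) (nat_lit 283)))))) (XT.nd (nat_lit 468) (nat_lit 304) (nat_lit 0) (XT.nd (nat_lit 234) (nat_lit 152) (nat_lit 0) (XT.nd (nat_lit 78) (nat_lit 76) (nat_lit 0) (XT.lf (nat_lit 0) (nat_lit 6047594460) (nat_lit 76) (nat_lit 5218017650) (nat_lit 152) (nat_lit 16386613315) (nat_lit 22) (nat_lit 5) (nat_lit 23) (nat_lit 5) (nat_lit 24) (nat_lit 4) (nat_lit 404) (nat_lit 334) (nat_lit 282)) (XT.nd (nat_lit 78) (nat_lit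 76) (nat_lit 0) (XT.lf (nat_lit 0) (nat_lit 17853823307) (nat_lit 152) (nat_lit 9282482777) (nat_lit 0) (nat_lit 1552268854) (nat_lit 22) (nat_lit 5) (nat_lit 24) (nat_lit 4) (nat_lit 22) (nat_lit 4) (nat_lit 405) (nat_lit 334) (nat_lit 281)) (XT.lf (nat_lit 0) (nat_lit 3600647244) (nat_lit 76) (nat_lit 21268016954) (nat_lit 76) (nat_lit 4903222767) (nat_lit 21) (nat_lit 4) (nat_lit 22) (nat_lit 5) (nat_lit 22) (nat_lit 4) (nat_lit 406) (nat_lit 334) (nat_lit 280)))) (XT.nd (nat_lit 78) (nat_lit 76) (nat_lit 0) (XT.lf (nat_lit 0) (nat_lit 1397815718) (nat_lit 152) (nat_lit 13559500283) (nat_lit 76) (nat_lit 15945252891) (nat_lit 20) (nat_lit 5) (nat_lit 22) (nat_lit 5) (nat_lit 21) (nat_lit 4) (nat_lit 407) (nat_lit 334) (nat_lit 279)) (XT.nd (nat_lit 78) (nat_lit 76) (nat_lit 0) (XT.lf (nat_lit 0) (nat_lit 7806799264) (nat_lit 152) (nat_lit 478444318) (nat_lit 76) (nat_lit 23802643799)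 (nat_lit 20) (nat_lit 5) (nat_lit 22) (nat_lit 5) (nat_lit 21) (nat_lit 4) (nat_lit 408) (nat_lit 334) (nat_lit 278)) (XT.lf (nat_lit 0) (nat_lit 13615404570) (nat_lit 76) (nat_lit 1093091156) (nat_lit 152) (nat_lit 18615367812) (nat_lit 19) (nat_lit 5) (nat_lit 20) (nat_lit 5) (nat_lit 21) (nat_lit 4) (nat_lit 409) (nat_lit 334) (nat_lit 277))))) (XT.nd (nat_lit 234) (nat_lit 152) (nat_lit 0) (XT.nd (nat_lit 78) (nat_lit 152) (nat_lit 0) (XT.lf (nat_lit 0) (nat_lit 22024210252) (nat_lit 152) (nat_lit 6368860946) (nat_lit 0) (nat_lit 6225125341) (nat_lit 19) (nat_lit 5) (nat_lit 21) (nat_lit 4) (nat_lit 19) (nat_lit 4) (nat_lit 410) (nat_lit 334) (nat_lit 276)) (XT.nd (nat_lit 78) (nat_lit 76) (nat_lit 0) (XT.lf (nat_lit 0) (nat_lit 7795774507) (nat_lit 76) (nat_lit 22011340651) (nat_lit 76) (nat_lit 6165065276) (nat_lit 18) (nat_lit 4) (nat_lit 19) (nat_lit 5) (nat_lit 19) (nat_lit 4) (nat_lit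 411) (nat_lit 334) (nat_lit 275)) (XT.lf (nat_lit 0) (nat_lit 638038971) (nat_lit 152) (nat_lit 14583238781) (nat_lit 76) (nat_lit 22168559393) (nat_lit 17) (nat_lit 5) (nat_lit 19) (nat_lit 5) (nat_lit 18) (nat_lit 4) (nat_lit 412) (nat_lit 334) (nat_lit 274)))) (XT.nd (nat_lit 156) (nat_lit 76) (nat_lit 0) (XT.nd (nat_lit 78) (nat_lit 76) (nat_lit 0) (XT.lf (nat_lit 0) (nat_lit 7537771397) (nat_lit 152) (nat_lit 481590451) (nat_lit 76) (nat_lit 30855782399) (nat_lit 17) (nat_lit 5) (nat_lit 19) (nat_lit 5) (nat_lit 18) (nat_lit 4) (nat_lit 413) (nat_lit 334) (nat_lit 273)) (XT.lf (nat_lit 0) (nat_lit 14729814413) (nat_lit 76) (nat_lit 248039793) (nat_lit 152) (nat_lit 25447097987) (nat_lit 16) (nat_lit 5) (nat_lit 17) (nat_lit 5) (nat_lit 18) (nat_lit 4) (nat_lit 414) (nat_lit 334) (nat_lit 272))) (XT.nd (nat_lit 78) (nat_lit 76) (nat_lit 0) (XT.lf (nat_lit 0) (nat_lit 22887274403) (nat_lit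 152) (nat_lit 11523896123) (nat_lit 0) (nat_lit 7636216857) (nat_lit 16) (nat_lit 5) (nat_lit 18) (nat_lit 4) (nat_lit 16) (nat_lit 4) (nat_lit 415) (nat_lit 334) (nat_lit 271)) (XT.lf (nat_lit 0) (nat_lit 3396844677) (nat_lit 76) (nat_lit 27819580896) (nat_lit 76) (nat_lit 12533309099) (nat_lit 15) (nat_lit 4) (nat_lit 16) (nat_lit 5) (nat_lit 16) (nat_lit 4) (nat_lit 416) (nat_lit 334) (nat_lit 270))))))))
noncomputable def xc82 : XT := (XT.nd (nat_lit 1950) (nat_lit 228) (nat_lit 0) (XT.nd (nat_lit 936) (nat_lit 304) (nat_lit 0) (XT.nd (nat_lit 468) (nat_lit 152) (nat_lit 0) (XT.nd (nat_lit 234) (nat_lit 76) (nat_lit 0) (XT.nd (nat_lit 78) (nat_lit 152) (nat_lit 0) (XT.lf (nat_lit 0) (nat_lit 19401016905) (nat_lit 76) (nat_lit 20723924706) (nat_lit 76) (nat_lit 5404115528) (nat_lit 15) (nat_lit 4) (nat_lit 16) (nat_lit 5) (nat_lit 16) (nat_lit 4) (nat_lit 417) (nat_lit 334) (nat_lit 269))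 (XT.nd (nat_lit 78) (nat_lit 76) (nat_lit 0) (XT.lf (nat_lit 0) (nat_lit 1983689511) (nat_lit 152) (nat_lit 11285186041) (nat_lit 76) (nat_lit 34128409429) (nat_lit 14) (nat_lit 5) (nat_lit 16) (nat_lit 5) (nat_lit 15) (nat_lit 4) (nat_lit 418) (nat_lit 334) (nat_lit 268)) (XT.lf (nat_lit 0) (nat_lit 4290700965) (nat_lit 76) (nat_lit 5305820937) (nat_lit 152) (nat_lit 39756112919) (nat_lit 13) (nat_lit 5) (nat_lit 14) (nat_lit 5) (nat_lit 15) (nat_lit 4) (nat_lit 419) (nat_lit 334) (nat_lit 267)))) (XT.nd (nat_lit 78) (nat_lit 76) (nat_lit 0) (XT.lf (nat_lit 0) (nat_lit 17802308252) (nat_lit 152) (nat_lit 30467798633) (nat_lit 0) (nat_lit 3125032265) (nat_lit 13) (nat_lit 5) (nat_lit 15) (nat_lit 4) (nat_lit 13) (nat_lit 4) (nat_lit 420) (nat_lit 334) (nat_lit 266)) (XT.nd (nat_lit 78) (nat_lit 76) (nat_lit 0) (XT.lf (nat_lit 0) (nat_lit 26477132202) (nat_lit 152) (nat_lit 15286122770) (nat_lit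 0) (nat_lit 11773578800) (nat_lit 13) (nat_lit 5) (nat_lit 15) (nat_lit 4) (nat_lit 13) (nat_lit 4) (nat_lit 421) (nat_lit 334) (nat_lit 265)) (XT.lf (nat_lit 0) (nat_lit 621986773) (nat_lit 76) (nat_lit 34946533546) (nat_lit 76) (nat_lit 20217954032) (nat_lit 12) (nat_lit 4) (nat_lit 13) (nat_lit 5) (nat_lit 13) (nat_lit 4) (nat_lit 422) (nat_lit 334) (nat_lit 264))))) (XT.nd (nat_lit 234) (nat_lit 76) (nat_lit 0) (XT.nd (nat_lit 78) (nat_lit 76) (nat_lit 0) (XT.lf (nat_lit 0) (nat_lit 17804491590) (nat_lit 76) (nat_lit 27542449192) (nat_lit 76) (nat_lit 12790035288) (nat_lit 12) (nat_lit 4) (nat_lit 13) (nat_lit 5) (nat_lit 13) (nat_lit 4) (nat_lit 423) (nat_lit 334) (nat_lit 263)) (XT.nd (nat_lit 78) (nat_lit 76) (nat_lit 0) (XT.lf (nat_lit 0) (nat_lit 35796874153) (nat_lit 76) (nat_lit 19792251027) (nat_lit 76) (nat_lit 5017137703) (nat_lit 12) (nat_lit 4) (nat_lit 13) (nat_lit 5) (nat_lit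 13) (nat_lit 4) (nat_lit 424) (nat_lit 334) (nat_lit 262)) (XT.lf (nat_lit 0) (nat_lit 3019410281) (nat_lit 152) (nat_lit 8606940741) (nat_lit 76) (nat_lit 51571428011) (nat_lit 11) (nat_lit 5) (nat_lit 13) (nat_lit 5) (nat_lit 12) (nat_lit 4) (nat_lit 425) (nat_lit 334) (nat_lit 261)))) (XT.nd (nat_lit 78) (nat_lit 0) (nat_lit 0) (XT.lf (nat_lit 0) (nat_lit 8551650001) (nat_lit 76) (nat_lit 2847847980) (nat_lit 152) (nat_lit 54509746410) (nat_lit 10) (nat_lit 5) (nat_lit 11) (nat_lit 5) (nat_lit 12) (nat_lit 4) (nat_lit 426) (nat_lit 334) (nat_lit 260)) (XT.nd (nat_lit 78) (nat_lit 0) (nat_lit 0) (XT.lf (nat_lit 0) (nat_lit 20423059472) (nat_lit 152) (nat_lit 42029351397) (nat_lit 0) (nat_lit 6292650448) (nat_lit 10) (nat_lit 5) (nat_lit 12) (nat_lit 4) (nat_lit 10) (nat_lit 4) (nat_lit 427) (nat_lit 334) (nat_lit 259)) (XT.lf (nat_lit 0) (nat_lit 29922456639) (nat_lit 152) (nat_lit 26024719231)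 (nat_lit 0) (nat_lit 15774262026) (nat_lit 10) (nat_lit 5) (nat_lit 12) (nat_lit 4) (nat_lit 10) (nat_lit 4) (nat_lit 428) (nat_lit 334) (nat_lit 258)))))) (XT.nd (nat_lit 468) (nat_lit 152) (nat_lit 0) (XT.nd (nat_lit 234) (nat_lit 76) (nat_lit 0) (XT.nd (nat_lit 78) (nat_lit 76) (nat_lit 0) (XT.lf (nat_lit 0) (nat_lit 39875844207) (nat_lit 152) (nat_lit 9261128737) (nat_lit 0) (nat_lit 25710710937) (nat_lit 10) (nat_lit 5) (nat_lit 12) (nat_lit 4) (nat_lit 10) (nat_lit 4) (nat_lit 429) (nat_lit 334) (nat_lit 257)) (XT.nd (nat_lit 78) (nat_lit 0) (nat_lit 0) (XT.lf (nat_lit 0) (nat_lit 8575812965) (nat_lit 76) (nat_lit 41865000226) (nat_lit 76) (nat_lit 27683734903) (nat_lit 9) (nat_lit 4) (nat_lit 10) (nat_lit 5) (nat_lit 10) (nat_lit 4) (nat_lit 430) (nat_lit 334) (nat_lit 256)) (XT.lf (nat_lit 0) (nat_lit 27587453342) (nat_lit 76) (nat_lit 34083786186) (nat_lit 76) (nat_lit 19887157002)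 (nat_lit 9) (nat_lit 4) (nat_lit 10) (nat_lit 5) (nat_lit 10) (nat_lit 4) (nat_lit 431) (nat_lit 334) (nat_lit 255)))) (XT.nd (nat_lit 78) (nat_lit 76) (nat_lit 0) (XT.lf (nat_lit 0) (nat_lit 47512843463) (nat_lit 76) (nat_lit 25931645819) (nat_lit 76) (nat_lit 11720384386) (nat_lit 9) (nat_lit 4) (nat_lit 10) (nat_lit 5) (nat_lit 10) (nat_lit 4) (nat_lit 432) (nat_lit 334) (nat_lit 254)) (XT.nd (nat_lit 78) (nat_lit 76) (nat_lit 0) (XT.lf (nat_lit 0) (nat_lit 68399424733) (nat_lit 76) (nat_lit 17389169268) (nat_lit 76) (nat_lit 3163972361) (nat_lit 9) (nat_lit 4) (nat_lit 10) (nat_lit 5) (nat_lit 10) (nat_lit 4) (nat_lit 433) (nat_lit 334) (nat_lit 253)) (XT.lf (nat_lit 0) (nat_lit 5616736799) (nat_lit 152) (nat_lit 2724158348) (nat_lit 76) (nat_lit 84585068151) (nat_lit 8) (nat_lit 5) (nat_lit 10) (nat_lit 5) (nat_lit 9) (nat_lit 4) (nat_lit 434) (nat_lit 334) (nat_lit 252))))) (XT.nd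 (nat_lit 234) (nat_lit 76) (nat_lit 0) (XT.nd (nat_lit 78) (nat_lit 0) (nat_lit 0) (XT.lf (nat_lit 0) (nat_lit 14993295493) (nat_lit 152) (nat_lit 80668174054) (nat_lit 0) (nat_lit 1420811041) (nat_lit 7) (nat_lit 5) (nat_lit 9) (nat_lit 4) (nat_lit 7) (nat_lit 4) (nat_lit 435) (nat_lit 334) (nat_lit 251)) (XT.nd (nat_lit 78) (nat_lit 0) (nat_lit 0) (XT.lf (nat_lit 0) (nat_lit 25005930956) (nat_lit 152) (nat_lit 65010139678) (nat_lit 0) (nat_lit 11421981755) (nat_lit 7) (nat_lit 5) (nat_lit 9) (nat_lit 4) (nat_lit 7) (nat_lit 4) (nat_lit 436) (nat_lit 334) (nat_lit 250)) (XT.lf (nat_lit 0) (nat_lit 35503599714) (nat_lit 152) (nat_lit 48600062321) (nat_lit 0) (nat_lit 21908731704) (nat_lit 7) (nat_lit 5) (nat_lit 9) (nat_lit 4) (nat_lit 7) (nat_lit 4) (nat_lit 437) (nat_lit 334) (nat_lit 249)))) (XT.nd (nat_lit 156) (nat_lit 76) (nat_lit 0) (XT.nd (nat_lit 78) (nat_lit 0) (nat_lit 0) (XT.lf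 (nat_lit 0) (nat_lit 46511296217) (nat_lit 152) (nat_lit 31398870369) (nat_lit 0) (nat_lit 32906029341) (nat_lit 7) (nat_lit 5) (nat_lit 9) (nat_lit 4) (nat_lit 7) (nat_lit 4) (nat_lit 438) (nat_lit 334) (nat_lit 248)) (XT.lf (nat_lit 0) (nat_lit 58055229265) (nat_lit 152) (nat_lit 13365608605) (nat_lit 0) (nat_lit 44440058707) (nat_lit 7) (nat_lit 5) (nat_lit 9) (nat_lit 4) (nat_lit 7) (nat_lit 4) (nat_lit 439) (nat_lit 334) (nat_lit 247))) (XT.nd (nat_lit 78) (nat_lit 0) (nat_lit 0) (XT.lf (nat_lit 0) (nat_lit 5725924658) (nat_lit 76) (nat_lit 64526357486) (nat_lit 76) (nat_lit 50901754851) (nat_lit 6) (nat_lit 4) (nat_lit 7) (nat_lit 5) (nat_lit 7) (nat_lit 4) (nat_lit 440) (nat_lit 334) (nat_lit 246)) (XT.lf (nat_lit 0) (nat_lit 26209831347) (nat_lit 76) (nat_lit 57062466986) (nat_lit 76) (nat_lit 43428881418) (nat_lit 6) (nat_lit 4) (nat_lit 7) (nat_lit 5) (nat_lit 7) (nat_lit 4) (nat_lit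 441) (nat_lit 334) (nat_lit 245))))))) (XT.nd (nat_lit 1014) (nat_lit 76) (nat_lit 0) (XT.nd (nat_lit 468) (nat_lit 0) (nat_lit 0) (XT.nd (nat_lit 234) (nat_lit 152) (nat_lit 0) (XT.nd (nat_lit 78) (nat_lit 0) (nat_lit 0) (XT.lf (nat_lit 0) (nat_lit 47692955289) (nat_lit 76) (nat_lit 49237748249) (nat_lit 76) (nat_lit 35595607509) (nat_lit 6) (nat_lit 4) (nat_lit 7) (nat_lit 5) (nat_lit 7) (nat_lit 4) (nat_lit 442) (nat_lit 334) (nat_lit 244)) (XT.nd (nat_lit 78) (nat_lit 0) (nat_lit 0) (XT.lf (nat_lit 0) (nat_lit 70226446777) (nat_lit 76) (nat_lit 41033570994) (nat_lit 76) (nat_lit 27383282471) (nat_lit 6) (nat_lit 4) (nat_lit 7) (nat_lit 5) (nat_lit 7) (nat_lit 4) (nat_lit 443) (nat_lit 334) (nat_lit 243)) (XT.lf (nat_lit 0) (nat_lit 93863956982) (nat_lit 76) (nat_lit 32430401465) (nat_lit 76) (nat_lit 18772353148) (nat_lit 6) (nat_lit 4) (nat_lit 7) (nat_lit 5) (nat_lit 7) (nat_lit 4)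 (nat_lit 444) (nat_lit 334) (nat_lit 242)))) (XT.nd (nat_lit 78) (nat_lit 152) (nat_lit 0) (XT.lf (nat_lit 0) (nat_lit 118661765691) (nat_lit 76) (nat_lit 23407755925) (nat_lit 76) (nat_lit 9742317328) (nat_lit 6) (nat_lit 4) (nat_lit 7) (nat_lit 5) (nat_lit 7) (nat_lit 4) (nat_lit 445) (nat_lit 334) (nat_lit 241)) (XT.nd (nat_lit 78) (nat_lit 152) (nat_lit 0) (XT.lf (nat_lit 0) (nat_lit 144678915304) (nat_lit 76) (nat_lit 13944151885) (nat_lit 76) (nat_lit 271674927) (nat_lit 6) (nat_lit 4) (nat_lit 7) (nat_lit 5) (nat_lit 7) (nat_lit 4) (nat_lit 446) (nat_lit 334) (nat_lit 240)) (XT.lf (nat_lit 0) (nat_lit 5675876938) (nat_lit 76) (nat_lit 3765614329) (nat_lit 152) (nat_lit 156878820439) (nat_lit 4) (nat_lit 5) (nat_lit 5) (nat_lit 5) (nat_lit 6) (nat_lit 4) (nat_lit 447) (nat_lit 334) (nat_lit 239))))) (XT.nd (nat_lit 234) (nat_lit 0) (nat_lit 0) (XT.nd (nat_lit 78) (nat_lit 0) (nat_lit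 0) (XT.lf (nat_lit 0) (nat_lit 19973930512) (nat_lit 152) (nat_lit 147185810033) (nat_lit 0) (nat_lit 6940059882) (nat_lit 4) (nat_lit 5) (nat_lit 6) (nat_lit 4) (nat_lit 4) (nat_lit 4) (nat_lit 448) (nat_lit 334) (nat_lit 238)) (XT.nd (nat_lit 78) (nat_lit 0) (nat_lit 0) (XT.lf (nat_lit 0) (nat_lit 31085177068) (nat_lit 152) (nat_lit 133134961840) (nat_lit 0) (nat_lit 18045515960) (nat_lit 4) (nat_lit 5) (nat_lit 6) (nat_lit 4) (nat_lit 4) (nat_lit 4) (nat_lit 449) (nat_lit 334) (nat_lit 237)) (XT.lf (nat_lit 0) (nat_lit 42742894489) (nat_lit 152) (nat_lit 118399643995) (nat_lit 0) (nat_lit 29697718641) (nat_lit 4) (nat_lit 5) (nat_lit 6) (nat_lit 4) (nat_lit 4) (nat_lit 4) (nat_lit 450) (nat_lit 334) (nat_lit 236)))) (XT.nd (nat_lit 156) (nat_lit 0) (nat_lit 0) (XT.nd (nat_lit 78) (nat_lit 0) (nat_lit 0) (XT.lf (nat_lit 0) (nat_lit 54974839247) (nat_lit 152) (nat_lit 102944772409) (nat_lit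 0) (nat_lit 41924411265) (nat_lit 4) (nat_lit 5) (nat_lit 6) (nat_lit 4) (nat_lit 4) (nat_lit 4) (nat_lit 451) (nat_lit 334) (nat_lit 235)) (XT.lf (nat_lit 0) (nat_lit 67810135019) (nat_lit 152) (nat_lit 86733549768) (nat_lit 0) (nat_lit 54754705005) (nat_lit 4) (nat_lit 5) (nat_lit 6) (nat_lit 4) (nat_lit 4) (nat_lit 4) (nat_lit 452) (nat_lit 334) (nat_lit 234))) (XT.nd (nat_lit 78) (nat_lit 0) (nat_lit 0) (XT.lf (nat_lit 0) (nat_lit 81279342033) (nat_lit 152) (nat_lit 69727377923) (nat_lit 0) (nat_lit 68219148178) (nat_lit 4) (nat_lit 5) (nat_lit 6) (nat_lit 4) (nat_lit 4) (nat_lit 4) (nat_lit 453) (nat_lit 334) (nat_lit 233)) (XT.lf (nat_lit 0) (nat_lit 95414529830) (nat_lit 152) (nat_lit 51885765989) (nat_lit 0) (nat_lit 82349798984) (nat_lit 4) (nat_lit 5) (nat_lit 6) (nat_lit 4) (nat_lit 4) (nat_lit 4) (nat_lit 454) (nat_lit 334) (nat_lit 232)))))) (XT.nd (nat_lit 468) (nat_lit 0)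 (nat_lit 0) (XT.nd (nat_lit 234) (nat_lit 0) (nat_lit 0) (XT.nd (nat_lit 78) (nat_lit 76) (nat_lit 0) (XT.lf (nat_lit 0) (nat_lit 110249353618) (nat_lit 152) (nat_lit 33166233937) (nat_lit 0) (nat_lit 97180301829) (nat_lit 4) (nat_lit 5) (nat_lit 6) (nat_lit 4) (nat_lit 4) (nat_lit 4) (nat_lit 455) (nat_lit 334) (nat_lit 231)) (XT.nd (nat_lit 78) (nat_lit 76) (nat_lit 0) (XT.lf (nat_lit 0) (nat_lit 125819134407) (nat_lit 152) (nat_lit 13524211454) (nat_lit 0) (nat_lit 112745967434) (nat_lit 4) (nat_lit 5) (nat_lit 6) (nat_lit 4) (nat_lit 4) (nat_lit 4) (nat_lit 456) (nat_lit 334) (nat_lit 230)) (XT.lf (nat_lit 0) (nat_lit 7321398661) (nat_lit 76) (nat_lit 134953851994) (nat_lit 76) (nat_lit 121876765797) (nat_lit 3) (nat_lit 4) (nat_lit 4) (nat_lit 5) (nat_lit 4) (nat_lit 4) (nat_lit 457) (nat_lit 334) (nat_lit 229)))) (XT.nd (nat_lit 78) (nat_lit 0) (nat_lit 0) (XT.lf (nat_lit 0) (nat_lit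 29666182555) (nat_lit 76) (nat_lit 130110678470) (nat_lit 76) (nat_lit 117029859680) (nat_lit 3) (nat_lit 4) (nat_lit 4) (nat_lit 5) (nat_lit 4) (nat_lit 4) (nat_lit 458) (nat_lit 334) (nat_lit 228)) (XT.nd (nat_lit 78) (nat_lit 0) (nat_lit 0) (XT.lf (nat_lit 0) (nat_lit 53116170586) (nat_lit 76) (nat_lit 125031332990) (nat_lit 76) (nat_lit 111946959349) (nat_lit 3) (nat_lit 4) (nat_lit 4) (nat_lit 5) (nat_lit 4) (nat_lit 4) (nat_lit 459) (nat_lit 334) (nat_lit 227)) (XT.lf (nat_lit 0) (nat_lit 77727196057) (nat_lit 76) (nat_lit 119703721874) (nat_lit 76) (nat_lit 106615962661) (nat_lit 3) (nat_lit 4) (nat_lit 4) (nat_lit 5) (nat_lit 4) (nat_lit 4) (nat_lit 460) (nat_lit 334) (nat_lit 226))))) (XT.nd (nat_lit 234) (nat_lit 0) (nat_lit 0) (XT.nd (nat_lit 78) (nat_lit 0) (nat_lit 0) (XT.lf (nat_lit 0) (nat_lit 103557856650) (nat_lit 76) (nat_lit 114115160333) (nat_lit 76) (nat_lit 101024176766)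 (nat_lit 3) (nat_lit 4) (nat_lit 4) (nat_lit 5) (nat_lit 4) (nat_lit 4) (nat_lit 461) (nat_lit 334) (nat_lit 225)) (XT.nd (nat_lit 78) (nat_lit 0) (nat_lit 0) (XT.lf (nat_lit 0) (nat_lit 130669653937) (nat_lit 76) (nat_lit 108252342270) (nat_lit 76) (nat_lit 95158287888) (nat_lit 3) (nat_lit 4) (nat_lit 4) (nat_lit 5) (nat_lit 4) (nat_lit 4) (nat_lit 462) (nat_lit 334) (nat_lit 224)) (XT.lf (nat_lit 0) (nat_lit 159127139815) (nat_lit 76) (nat_lit 102101308593) (nat_lit 76) (nat_lit 89004329626) (nat_lit 3) (nat_lit 4) (nat_lit 4) (nat_lit 5) (nat_lit 4) (nat_lit 4) (nat_lit 463) (nat_lit 334) (nat_lit 223)))) (XT.nd (nat_lit 156) (nat_lit 0) (nat_lit 0) (XT.nd (nat_lit 78) (nat_lit 0) (nat_lit 0) (XT.lf (nat_lit 0) (nat_lit 188998070205) (nat_lit 76) (nat_lit 95647413983) (nat_lit 76) (nat_lit 82547649698) (nat_lit 3) (nat_lit 4) (nat_lit 4) (nat_lit 5) (nat_lit 4) (nat_lit 4) (nat_lit 464)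 (nat_lit 334) (nat_lit 222)) (XT.lf (nat_lit 0) (nat_lit 220353566369) (nat_lit 76) (nat_lit 88875292026) (nat_lit 76) (nat_lit 75772875056) (nat_lit 3) (nat_lit 4) (nat_lit 4) (nat_lit 5) (nat_lit 4) (nat_lit 4) (nat_lit 465) (nat_lit 334) (nat_lit 221))) (XT.nd (nat_lit 78) (nat_lit 0) (nat_lit 0) (XT.lf (nat_lit 0) (nat_lit 253268284249) (nat_lit 76) (nat_lit 81768818621) (nat_lit 76) (nat_lit 68663875285) (nat_lit 3) (nat_lit 4) (nat_lit 4) (nat_lit 5) (nat_lit 4) (nat_lit 4) (nat_lit 466) (nat_lit 334) (nat_lit 220)) (XT.lf (nat_lit 0) (nat_lit 287820592222) (nat_lit 76) (nat_lit 74311073593) (nat_lit 76) (nat_lit 61203724194) (nat_lit 3) (nat_lit 4) (nat_lit 4) (nat_lit 5) (nat_lit 4) (nat_lit 4) (nat_lit 467) (nat_lit 334) (nat_lit 219))))))))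
noncomputable def xc83 : XT := (XT.nd (nat_lit 44928) (nat_lit 0) (nat_lit 2736) (XT.nd (nat_lit 43914) (nat_lit 0) (nat_lit 6992) (XT.nd (nat_lit 468) (nat_lit 152) (nat_lit 0) (XT.nd (nat_lit 234) (nat_lit 0) (nat_lit 0) (XT.nd (nat_lit 78) (nat_lit 0) (nat_lit 0) (XT.lf (nat_lit 0) (nat_lit 324092757688) (nat_lit 76) (nat_lit 66484300407) (nat_lit 76) (nat_lit 53374659520) (nat_lit 3) (nat_lit 4) (nat_lit 4) (nat_lit 5) (nat_lit 4) (nat_lit 4) (nat_lit 468) (nat_lit 334) (nat_lit 218)) (XT.nd (nat_lit 78) (nat_lit 0) (nat_lit 0) (XT.lf (nat_lit 0) (nat_lit 362171142946) (nat_lit 76) (nat_lit 58269863889) (nat_lit 76) (nat_lit 45158040631) (nat_lit 3) (nat_lit 4) (nat_lit 4) (nat_lit 5) (nat_lit 4) (nat_lit 4) (nat_lit 469) (nat_lit 334) (nat_lit 217)) (XT.lf (nat_lit 0) (nat_lit 402146410817) (nat_lit 76) (nat_lit 49648205856) (nat_lit 76) (nat_lit 36534304150) (nat_lit 3) (nat_lit 4)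 (nat_lit 4) (nat_lit 5) (nat_lit 4) (nat_lit 4) (nat_lit 470) (nat_lit 334) (nat_lit 216)))) (XT.nd (nat_lit 78) (nat_lit 0) (nat_lit 0) (XT.lf (nat_lit 0) (nat_lit 444113740512) (nat_lit 76) (nat_lit 40598798550) (nat_lit 76) (nat_lit 27482917371) (nat_lit 3) (nat_lit 4) (nat_lit 4) (nat_lit 5) (nat_lit 4) (nat_lit 4) (nat_lit 471) (nat_lit 334) (nat_lit 215)) (XT.nd (nat_lit 78) (nat_lit 0) (nat_lit 0) (XT.lf (nat_lit 0) (nat_lit 488173054242) (nat_lit 76) (nat_lit 31100095765) (nat_lit 76) (nat_lit 17982329373) (nat_lit 3) (nat_lit 4) (nat_lit 4) (nat_lit 5) (nat_lit 4) (nat_lit 4) (nat_lit 472) (nat_lit 334) (nat_lit 214)) (XT.lf (nat_lit 0) (nat_lit 534429255137) (nat_lit 76) (nat_lit 21129481541) (nat_lit 76) (nat_lit 8009919708) (nat_lit 3) (nat_lit 4) (nat_lit 4) (nat_lit 5) (nat_lit 4) (nat_lit 4) (nat_lit 473) (nat_lit 334) (nat_lit 213))))) (XT.nd (nat_lit 234) (nat_lit 0) (nat_lit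 0) (XT.nd (nat_lit 78) (nat_lit 76) (nat_lit 0) (XT.lf (nat_lit 0) (nat_lit 2379382330) (nat_lit 152) (nat_lit 8243537999) (nat_lit 76) (nat_lit 580572798686) (nat_lit 2) (nat_lit 5) (nat_lit 4) (nat_lit 5) (nat_lit 3) (nat_lit 4) (nat_lit 474) (nat_lit 334) (nat_lit 212)) (XT.nd (nat_lit 78) (nat_lit 0) (nat_lit 0) (XT.lf (nat_lit 0) (nat_lit 13246939858) (nat_lit 152) (nat_lit 606190291169) (nat_lit 0) (nat_lit 748939577) (nat_lit 1) (nat_lit 5) (nat_lit 3) (nat_lit 4) (nat_lit 1) (nat_lit 4) (nat_lit 475) (nat_lit 334) (nat_lit 211)) (XT.lf (nat_lit 0) (nat_lit 24971107166) (nat_lit 152) (nat_lit 613167746382) (nat_lit 0) (nat_lit 12471629770) (nat_lit 1) (nat_lit 5) (nat_lit 3) (nat_lit 4) (nat_lit 1) (nat_lit 4) (nat_lit 476) (nat_lit 334) (nat_lit 210)))) (XT.nd (nat_lit 78) (nat_lit 0) (nat_lit 0) (XT.lf (nat_lit 0) (nat_lit 37278805411) (nat_lit 152) (nat_lit 620499419020) (nat_lit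 0) (nat_lit 24777921240) (nat_lit 1) (nat_lit 5) (nat_lit 3) (nat_lit 4) (nat_lit 1) (nat_lit 4) (nat_lit 477) (nat_lit 334) (nat_lit 209)) (XT.nd (nat_lit 78) (nat_lit 0) (nat_lit 0) (XT.lf (nat_lit 0) (nat_lit 50199338640) (nat_lit 152) (nat_lit 628202765445) (nat_lit 0) (nat_lit 37697114682) (nat_lit 1) (nat_lit 5) (nat_lit 3) (nat_lit 4) (nat_lit 1) (nat_lit 4) (nat_lit 478) (nat_lit 334) (nat_lit 208)) (XT.lf (nat_lit 0) (nat_lit 63763470024) (nat_lit 152) (nat_lit 636296126958) (nat_lit 0) (nat_lit 51259970080) (nat_lit 1) (nat_lit 5) (nat_lit 3) (nat_lit 4) (nat_lit 1) (nat_lit 4) (nat_lit 479) (nat_lit 334) (nat_lit 207)))))) (XT.nd (nat_lit 468) (nat_lit 1976) (nat_lit 0) (XT.nd (nat_lit 234) (nat_lit 1444) (nat_lit 0) (XT.nd (nat_lit 78) (nat_lit 1064) (nat_lit 0) (XT.lf (nat_lit 0) (nat_lit 2429345609) (nat_lit 380) (nat_lit 469421112) (nat_lit 380) (nat_lit 469421112) (nat_lit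 152) (nat_lit 4) (nat_lit 157) (nat_lit 5) (nat_lit 157) (nat_lit 4) (nat_lit 350) (nat_lit 335) (nat_lit 335)) (XT.nd (nat_lit 78) (nat_lit 532) (nat_lit 0) (XT.lf (nat_lit 0) (nat_lit 2297064254) (nat_lit 532) (nat_lit 4225775141) (nat_lit 0) (nat_lit 276697222) (nat_lit 145) (nat_lit 5) (nat_lit 152) (nat_lit 4) (nat_lit 145) (nat_lit 4) (nat_lit 351) (nat_lit 335) (nat_lit 334)) (XT.lf (nat_lit 0) (nat_lit 273279516) (nat_lit 532) (nat_lit 5271225297) (nat_lit 532) (nat_lit 1326699186) (nat_lit 138) (nat_lit 4) (nat_lit 145) (nat_lit 5) (nat_lit 145) (nat_lit 4) (nat_lit 352) (nat_lit 335) (nat_lit 333)))) (XT.nd (nat_lit 78) (nat_lit 1368) (nat_lit 0) (XT.lf (nat_lit 0) (nat_lit 1848557181) (nat_lit 608) (nat_lit 1987516344) (nat_lit 76) (nat_lit 3113731341) (nat_lit 137) (nat_lit 5) (nat_lit 145) (nat_lit 5) (nat_lit 138) (nat_lit 4) (nat_lit 353) (nat_lit 335) (nat_lit 332)) (XT.nd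 (nat_lit 78) (nat_lit 760) (nat_lit 0) (XT.lf (nat_lit 0) (nat_lit 2771693999) (nat_lit 608) (nat_lit 2249779937) (nat_lit 684) (nat_lit 2015757804) (nat_lit 129) (nat_lit 5) (nat_lit 137) (nat_lit 5) (nat_lit 138) (nat_lit 4) (nat_lit 354) (nat_lit 335) (nat_lit 331)) (XT.lf (nat_lit 0) (nat_lit 557066322) (nat_lit 684) (nat_lit 513530253) (nat_lit 760) (nat_lit 6063332520) (nat_lit 119) (nat_lit 5) (nat_lit 128) (nat_lit 5) (nat_lit 129) (nat_lit 5) (nat_lit 355) (nat_lit 335) (nat_lit 330))))) (XT.nd (nat_lit 234) (nat_lit 760) (nat_lit 0) (XT.nd (nat_lit 78) (nat_lit 1216) (nat_lit 0) (XT.lf (nat_lit 0) (nat_lit 4185449656) (nat_lit 760) (nat_lit 1674589124) (nat_lit 76) (nat_lit 1376810225) (nat_lit 119) (nat_lit 5) (nat_lit 129) (nat_lit 5) (nat_lit 120) (nat_lit 4) (nat_lit 356) (nat_lit 335) (nat_lit 329)) (XT.nd (nat_lit 78) (nat_lit 380) (nat_lit 0) (XT.lf (nat_lit 0) (nat_lit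 23265441) (nat_lit 836) (nat_lit 3925057064) (nat_lit 76) (nat_lit 3400844537) (nat_lit 108) (nat_lit 5) (nat_lit 119) (nat_lit 5) (nat_lit 109) (nat_lit 5) (nat_lit 357) (nat_lit 335) (nat_lit 328)) (XT.lf (nat_lit 0) (nat_lit 1206423704) (nat_lit 380) (nat_lit 1847822038) (nat_lit 456) (nat_lit 4415215221) (nat_lit 103) (nat_lit 5) (nat_lit 108) (nat_lit 5) (nat_lit 109) (nat_lit 5) (nat_lit 358) (nat_lit 335) (nat_lit 327)))) (XT.nd (nat_lit 156) (nat_lit 380) (nat_lit 0) (XT.nd (nat_lit 78) (nat_lit 380) (nat_lit 0) (XT.lf (nat_lit 0) (nat_lit 6171667313) (nat_lit 456) (nat_lit 1024661614) (nat_lit 76) (nat_lit 402808038) (nat_lit 103) (nat_lit 5) (nat_lit 109) (nat_lit 5) (nat_lit 104) (nat_lit 4) (nat_lit 359) (nat_lit 335) (nat_lit 326)) (XT.lf (nat_lit 0) (nat_lit 1622233198) (nat_lit 380) (nat_lit 3324616881) (nat_lit 76) (nat_lit 2788849143) (nat_lit 98) (nat_lit 5) (nat_lit 103)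 (nat_lit 5) (nat_lit 99) (nat_lit 5) (nat_lit 360) (nat_lit 335) (nat_lit 325))) (XT.nd (nat_lit 78) (nat_lit 0) (nat_lit 0) (XT.lf (nat_lit 0) (nat_lit 2170926176) (nat_lit 380) (nat_lit 2527175210) (nat_lit 456) (nat_lit 3183832269) (nat_lit 93) (nat_lit 5) (nat_lit 98) (nat_lit 5) (nat_lit 99) (nat_lit 5) (nat_lit 361) (nat_lit 335) (nat_lit 324)) (XT.lf (nat_lit 0) (nat_lit 7858839303) (nat_lit 456) (nat_lit 131575716) (nat_lit 76) (nat_lit 48603114) (nat_lit 93) (nat_lit 5) (nat_lit 99) (nat_lit 5) (nat_lit 94) (nat_lit 4) (nat_lit 362) (nat_lit 335) (nat_lit 323))))))) (XT.nd (nat_lit 1014) (nat_lit 1444) (nat_lit 0) (XT.nd (nat_lit 468) (nat_lit 1216) (nat_lit 0) (XT.nd (nat_lit 234) (nat_lit 608) (nat_lit 0) (XT.nd (nat_lit 78) (nat_lit 608) (nat_lit 0) (XT.lf (nat_lit 0) (nat_lit 2888980042) (nat_lit 380) (nat_lit 2528692994) (nat_lit 76) (nat_lit 2783521096) (nat_lit 88) (nat_lit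 5) (nat_lit 93) (nat_lit 5) (nat_lit 89) (nat_lit 5) (nat_lit 363) (nat_lit 335) (nat_lit 322)) (XT.nd (nat_lit 78) (nat_lit 304) (nat_lit 0) (XT.lf (nat_lit 0) (nat_lit 3355664233) (nat_lit 304) (nat_lit 2685663915) (nat_lit 380) (nat_lit 2333293366) (nat_lit 84) (nat_lit 5) (nat_lit 88) (nat_lit 5) (nat_lit 89) (nat_lit 5) (nat_lit 364) (nat_lit 335) (nat_lit 321)) (XT.lf (nat_lit 0) (nat_lit 713289489) (nat_lit 304) (nat_lit 7628691255) (nat_lit 76) (nat_lit 216984069) (nat_lit 80) (nat_lit 5) (nat_lit 84) (nat_lit 5) (nat_lit 81) (nat_lit 5) (nat_lit 365) (nat_lit 335) (nat_lit 320)))) (XT.nd (nat_lit 78) (nat_lit 608) (nat_lit 0) (XT.lf (nat_lit 0) (nat_lit 3849504976) (nat_lit 304) (nat_lit 1633848684) (nat_lit 76) (nat_lit 3266541964) (nat_lit 80) (nat_lit 5) (nat_lit 84) (nat_lit 5) (nat_lit 81) (nat_lit 5) (nat_lit 366) (nat_lit 335) (nat_lit 319)) (XT.nd (nat_lit 78) (nat_lit 304)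 (nat_lit 0) (XT.lf (nat_lit 0) (nat_lit 4664195857) (nat_lit 304) (nat_lit 2441916813) (nat_lit 380) (nat_lit 1846146715) (nat_lit 76) (nat_lit 5) (nat_lit 80) (nat_lit 5) (nat_lit 81) (nat_lit 5) (nat_lit 367) (nat_lit 335) (nat_lit 318)) (XT.lf (nat_lit 0) (nat_lit 1282047517) (nat_lit 304) (nat_lit 7110696313) (nat_lit 76) (nat_lit 772754970) (nat_lit 72) (nat_lit 5) (nat_lit 76) (nat_lit 5) (nat_lit 73) (nat_lit 5) (nat_lit 368) (nat_lit 335) (nat_lit 317))))) (XT.nd (nat_lit 234) (nat_lit 684) (nat_lit 0) (XT.nd (nat_lit 78) (nat_lit 532) (nat_lit 0) (XT.lf (nat_lit 0) (nat_lit 4512640428) (nat_lit 304) (nat_lit 743002958) (nat_lit 76) (nat_lit 4131898552) (nat_lit 72) (nat_lit 5) (nat_lit 76) (nat_lit 5) (nat_lit 73) (nat_lit 5) (nat_lit 369) (nat_lit 335) (nat_lit 316)) (XT.nd (nat_lit 78) (nat_lit 304) (nat_lit 0) (XT.lf (nat_lit 0) (nat_lit 5992559281) (nat_lit 228) (nat_lit 1904992203)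 (nat_lit 304) (nat_lit 1723550194) (nat_lit 69) (nat_lit 5) (nat_lit 72) (nat_lit 5) (nat_lit 73) (nat_lit 5) (nat_lit 370) (nat_lit 335) (nat_lit 315)) (XT.lf (nat_lit 0) (nat_lit 1522829041) (nat_lit 304) (nat_lit 6735242883) (nat_lit 76) (nat_lit 1607668640) (nat_lit 65) (nat_lit 5) (nat_lit 69) (nat_lit 5) (nat_lit 66) (nat_lit 5) (nat_lit 371) (nat_lit 335) (nat_lit 314)))) (XT.nd (nat_lit 156) (nat_lit 456) (nat_lit 0) (XT.nd (nat_lit 78) (nat_lit 0) (nat_lit 0) (XT.lf (nat_lit 0) (nat_lit 29081989) (nat_lit 228) (nat_lit 4840713498) (nat_lit 304) (nat_lit 5251640155) (nat_lit 62) (nat_lit 5) (nat_lit 65) (nat_lit 5) (nat_lit 66) (nat_lit 5) (nat_lit 372) (nat_lit 335) (nat_lit 313)) (XT.lf (nat_lit 0) (nat_lit 7222515958) (nat_lit 228) (nat_lit 1180140435) (nat_lit 304) (nat_lit 1986376095) (nat_lit 62) (nat_lit 5) (nat_lit 65) (nat_lit 5) (nat_lit 66) (nat_lit 5) (nat_lit 373) (nat_lit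 335) (nat_lit 312))) (XT.nd (nat_lit 78) (nat_lit 228) (nat_lit 0) (XT.lf (nat_lit 0) (nat_lit 1409368343) (nat_lit 228) (nat_lit 6638367834) (nat_lit 76) (nat_lit 2620518647) (nat_lit 59) (nat_lit 5) (nat_lit 62) (nat_lit 5) (nat_lit 60) (nat_lit 5) (nat_lit 374) (nat_lit 335) (nat_lit 311)) (XT.lf (nat_lit 0) (nat_lit 561669563) (nat_lit 228) (nat_lit 4338130689) (nat_lit 304) (nat_lit 6060465359) (nat_lit 56) (nat_lit 5) (nat_lit 59) (nat_lit 5) (nat_lit 60) (nat_lit 5) (nat_lit 375) (nat_lit 335) (nat_lit 310)))))) (XT.nd (nat_lit 468) (nat_lit 684) (nat_lit 0) (XT.nd (nat_lit 234) (nat_lit 380) (nat_lit 0) (XT.nd (nat_lit 78) (nat_lit 380) (nat_lit 0) (XT.lf (nat_lit 0) (nat_lit 8213642861) (nat_lit 228) (nat_lit 374737755) (nat_lit 304) (nat_lit 2677351440) (nat_lit 56) (nat_lit 5) (nat_lit 59) (nat_lit 5) (nat_lit 60) (nat_lit 5) (nat_lit 376) (nat_lit 335) (nat_lit 309)) (XT.nd (nat_lit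 78) (nat_lit 152) (nat_lit 0) (XT.lf (nat_lit 0) (nat_lit 893499245) (nat_lit 228) (nat_lit 6983761862) (nat_lit 76) (nat_lit 3706231597) (nat_lit 53) (nat_lit 5) (nat_lit 56) (nat_lit 5) (nat_lit 54) (nat_lit 5) (nat_lit 377) (nat_lit 335) (nat_lit 308)) (XT.lf (nat_lit 0) (nat_lit 659668683) (nat_lit 152) (nat_lit 3877500893) (nat_lit 228) (nat_lit 7378596074) (nat_lit 51) (nat_lit 5) (nat_lit 53) (nat_lit 5) (nat_lit 54) (nat_lit 5) (nat_lit 378) (nat_lit 335) (nat_lit 307)))) (XT.nd (nat_lit 78) (nat_lit 380) (nat_lit 0) (XT.lf (nat_lit 0) (nat_lit 8404687493) (nat_lit 228) (nat_lit 3475262668) (nat_lit 76) (nat_lit 382648873) (nat_lit 51) (nat_lit 5) (nat_lit 54) (nat_lit 5) (nat_lit 52) (nat_lit 4) (nat_lit 379) (nat_lit 335) (nat_lit 306)) (XT.nd (nat_lit 78) (nat_lit 228) (nat_lit 0) (XT.lf (nat_lit 0) (nat_lit 4649100185) (nat_lit 152) (nat_lit 7873032757) (nat_lit 228) (nat_lit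 101842136) (nat_lit 49) (nat_lit 5) (nat_lit 51) (nat_lit 5) (nat_lit 52) (nat_lit 4) (nat_lit 380) (nat_lit 335) (nat_lit 305)) (XT.lf (nat_lit 0) (nat_lit 111185274) (nat_lit 152) (nat_lit 3590313061) (nat_lit 228) (nat_lit 9299826428) (nat_lit 46) (nat_lit 5) (nat_lit 48) (nat_lit 5) (nat_lit 49) (nat_lit 5) (nat_lit 381) (nat_lit 335) (nat_lit 304))))) (XT.nd (nat_lit 234) (nat_lit 456) (nat_lit 0) (XT.nd (nat_lit 78) (nat_lit 228) (nat_lit 0) (XT.lf (nat_lit 0) (nat_lit 7764832264) (nat_lit 228) (nat_lit 4662656139) (nat_lit 76) (nat_lit 966332284) (nat_lit 46) (nat_lit 5) (nat_lit 49) (nat_lit 5) (nat_lit 47) (nat_lit 4) (nat_lit 382) (nat_lit 335) (nat_lit 303)) (XT.nd (nat_lit 78) (nat_lit 76) (nat_lit 0) (XT.lf (nat_lit 0) (nat_lit 3916753960) (nat_lit 152) (nat_lit 8160133632) (nat_lit 228) (nat_lit 1726799583) (nat_lit 44) (nat_lit 5) (nat_lit 46) (nat_lit 5) (nat_lit 47) (nat_lit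 4) (nat_lit 383) (nat_lit 335) (nat_lit 302)) (XT.lf (nat_lit 0) (nat_lit 2300827276) (nat_lit 228) (nat_lit 1307780957) (nat_lit 76) (nat_lit 10623299600) (nat_lit 43) (nat_lit 5) (nat_lit 46) (nat_lit 5) (nat_lit 44) (nat_lit 5) (nat_lit 384) (nat_lit 335) (nat_lit 301)))) (XT.nd (nat_lit 156) (nat_lit 228) (nat_lit 0) (XT.nd (nat_lit 78) (nat_lit 76) (nat_lit 0) (XT.lf (nat_lit 0) (nat_lit 6543029028) (nat_lit 228) (nat_lit 6896196508) (nat_lit 76) (nat_lit 1237357614) (nat_lit 41) (nat_lit 5) (nat_lit 44) (nat_lit 5) (nat_lit 42) (nat_lit 4) (nat_lit 385) (nat_lit 335) (nat_lit 300)) (XT.lf (nat_lit 0) (nat_lit 2112960149) (nat_lit 76) (nat_lit 8929243926) (nat_lit 152) (nat_lit 4099064337) (nat_lit 40) (nat_lit 5) (nat_lit 41) (nat_lit 5) (nat_lit 42) (nat_lit 4) (nat_lit 386) (nat_lit 335) (nat_lit 299))) (XT.nd (nat_lit 78) (nat_lit 152) (nat_lit 0) (XT.lf (nat_lit 0) (nat_lit 181995670)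 (nat_lit 152) (nat_lit 3936898298) (nat_lit 76) (nat_lit 11507742671) (nat_lit 39) (nat_lit 5) (nat_lit 41) (nat_lit 5) (nat_lit 40) (nat_lit 5) (nat_lit 387) (nat_lit 335) (nat_lit 298)) (XT.lf (nat_lit 0) (nat_lit 4577024289) (nat_lit 228) (nat_lit 10542581176) (nat_lit 76) (nat_lit 1011441078) (nat_lit 37) (nat_lit 5) (nat_lit 40) (nat_lit 5) (nat_lit 38) (nat_lit 4) (nat_lit 388) (nat_lit 335) (nat_lit 297))))))))
noncomputable def xc84 : XT := (XT.nd (nat_lit 1950) (nat_lit 760) (nat_lit 0) (XT.nd (nat_lit 936) (nat_lit 684) (nat_lit 0) (XT.nd (nat_lit 468) (nat_lit 456) (nat_lit 0) (XT.nd (nat_lit 234) (nat_lit 76) (nat_lit 0) (XT.nd (nat_lit 78) (nat_lit 304) (nat_lit 0) (XT.lf (nat_lit 0) (nat_lit 9261539344) (nat_lit 228) (nat_lit 1115508847) (nat_lit 76) (nat_lit 6280157907) (nat_lit 37) (nat_lit 5) (nat_lit 40) (nat_lit 5) (nat_lit 38) (nat_lit 4) (nat_lit 389) (nat_lit 335) (nat_lit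 296)) (XT.nd (nat_lit 78) (nat_lit 228) (nat_lit 0) (XT.lf (nat_lit 0) (nat_lit 8958869096) (nat_lit 76) (nat_lit 5298851607) (nat_lit 152) (nat_lit 2948096052) (nat_lit 36) (nat_lit 5) (nat_lit 37) (nat_lit 5) (nat_lit 38) (nat_lit 4) (nat_lit 390) (nat_lit 335) (nat_lit 295)) (XT.lf (nat_lit 0) (nat_lit 1651433918) (nat_lit 228) (nat_lit 16071000473) (nat_lit 76) (nat_lit 58858609) (nat_lit 33) (nat_lit 5) (nat_lit 36) (nat_lit 5) (nat_lit 34) (nat_lit 4) (nat_lit 391) (nat_lit 335) (nat_lit 294)))) (XT.nd (nat_lit 78) (nat_lit 76) (nat_lit 0) (XT.lf (nat_lit 0) (nat_lit 6549008891) (nat_lit 228) (nat_lit 6175918409) (nat_lit 76) (nat_lit 5649855180) (nat_lit 33) (nat_lit 5) (nat_lit 36) (nat_lit 5) (nat_lit 34) (nat_lit 4) (nat_lit 392) (nat_lit 335) (nat_lit 293)) (XT.nd (nat_lit 78) (nat_lit 0) (nat_lit 0) (XT.lf (nat_lit 0) (nat_lit 4243465329) (nat_lit 76) (nat_lit 7455508512) (nat_lit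 152) (nat_lit 7298609497) (nat_lit 32) (nat_lit 5) (nat_lit 33) (nat_lit 5) (nat_lit 34) (nat_lit 4) (nat_lit 393) (nat_lit 335) (nat_lit 292)) (XT.lf (nat_lit 0) (nat_lit 15293676407) (nat_lit 76) (nat_lit 1859776431) (nat_lit 152) (nat_lit 2495732481) (nat_lit 32) (nat_lit 5) (nat_lit 33) (nat_lit 5) (nat_lit 34) (nat_lit 4) (nat_lit 394) (nat_lit 335) (nat_lit 291))))) (XT.nd (nat_lit 234) (nat_lit 152) (nat_lit 0) (XT.nd (nat_lit 78) (nat_lit 76) (nat_lit 0) (XT.lf (nat_lit 0) (nat_lit 2577926304) (nat_lit 228) (nat_lit 13759167516) (nat_lit 76) (nat_lit 3988687479) (nat_lit 29) (nat_lit 5) (nat_lit 32) (nat_lit 5) (nat_lit 30) (nat_lit 4) (nat_lit 395) (nat_lit 335) (nat_lit 290)) (XT.nd (nat_lit 78) (nat_lit 76) (nat_lit 0) (XT.lf (nat_lit 0) (nat_lit 7871502111) (nat_lit 228) (nat_lit 3020906589) (nat_lit 76) (nat_lit 10139257598) (nat_lit 29) (nat_lit 5) (nat_lit 32) (nat_lit 5)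 (nat_lit 30) (nat_lit 4) (nat_lit 396) (nat_lit 335) (nat_lit 289)) (XT.lf (nat_lit 0) (nat_lit 8427000520) (nat_lit 76) (nat_lit 5081608184) (nat_lit 152) (nat_lit 8260304008) (nat_lit 28) (nat_lit 5) (nat_lit 29) (nat_lit 5) (nat_lit 30) (nat_lit 4) (nat_lit 397) (nat_lit 335) (nat_lit 288)))) (XT.nd (nat_lit 78) (nat_lit 152) (nat_lit 0) (XT.lf (nat_lit 0) (nat_lit 19443111562) (nat_lit 152) (nat_lit 2102371711) (nat_lit 0) (nat_lit 996770430) (nat_lit 28) (nat_lit 5) (nat_lit 30) (nat_lit 4) (nat_lit 28) (nat_lit 4) (nat_lit 398) (nat_lit 335) (nat_lit 287)) (XT.nd (nat_lit 78) (nat_lit 0) (nat_lit 0) (XT.lf (nat_lit 0) (nat_lit 2435897404) (nat_lit 152) (nat_lit 13546185344) (nat_lit 76) (nat_lit 7360872457) (nat_lit 26) (nat_lit 5) (nat_lit 28) (nat_lit 5) (nat_lit 27) (nat_lit 4) (nat_lit 399) (nat_lit 335) (nat_lit 286)) (XT.lf (nat_lit 0) (nat_lit 8129982101) (nat_lit 152) (nat_lit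 1962296372) (nat_lit 76) (nat_lit 14089558830) (nat_lit 26) (nat_lit 5) (nat_lit 28) (nat_lit 5) (nat_lit 27) (nat_lit 4) (nat_lit 400) (nat_lit 335) (nat_lit 285)))))) (XT.nd (nat_lit 468) (nat_lit 380) (nat_lit 0) (XT.nd (nat_lit 234) (nat_lit 76) (nat_lit 0) (XT.nd (nat_lit 78) (nat_lit 152) (nat_lit 0) (XT.lf (nat_lit 0) (nat_lit 10446715130) (nat_lit 76) (nat_lit 3777783456) (nat_lit 152) (nat_lit 10832386195) (nat_lit 25) (nat_lit 5) (nat_lit 26) (nat_lit 5) (nat_lit 27) (nat_lit 4) (nat_lit 401) (nat_lit 335) (nat_lit 284)) (XT.nd (nat_lit 78) (nat_lit 152) (nat_lit 0) (XT.lf (nat_lit 0) (nat_lit 20654942494) (nat_lit 152) (nat_lit 2563502738) (nat_lit 0) (nat_lit 2755686608) (nat_lit 25) (nat_lit 5) (nat_lit 27) (nat_lit 4) (nat_lit 25) (nat_lit 4) (nat_lit 402) (nat_lit 335) (nat_lit 283)) (XT.lf (nat_lit 0) (nat_lit 634907977) (nat_lit 152) (nat_lit 16670902429) (nat_lit 76) (nat_lit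 9622057169) (nat_lit 23) (nat_lit 5) (nat_lit 25) (nat_lit 5) (nat_lit 24) (nat_lit 4) (nat_lit 403) (nat_lit 335) (nat_lit 282)))) (XT.nd (nat_lit 78) (nat_lit 76) (nat_lit 0) (XT.lf (nat_lit 0) (nat_lit 6707320222) (nat_lit 152) (nat_lit 4292179134) (nat_lit 76) (nat_lit 16925468561) (nat_lit 23) (nat_lit 5) (nat_lit 25) (nat_lit 5) (nat_lit 24) (nat_lit 4) (nat_lit 404) (nat_lit 335) (nat_lit 281)) (XT.nd (nat_lit 78) (nat_lit 0) (nat_lit 0) (XT.lf (nat_lit 0) (nat_lit 8910083730) (nat_lit 76) (nat_lit 4269755802) (nat_lit 152) (nat_lit 15787265418) (nat_lit 22) (nat_lit 5) (nat_lit 23) (nat_lit 5) (nat_lit 24) (nat_lit 4) (nat_lit 405) (nat_lit 335) (nat_lit 280)) (XT.lf (nat_lit 0) (nat_lit 20051109934) (nat_lit 152) (nat_lit 7261880369) (nat_lit 0) (nat_lit 2744607984) (nat_lit 22) (nat_lit 5) (nat_lit 24) (nat_lit 4) (nat_lit 22) (nat_lit 4) (nat_lit 406) (nat_lit 335) (nat_lit 279)))))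 (XT.nd (nat_lit 234) (nat_lit 152) (nat_lit 0) (XT.nd (nat_lit 78) (nat_lit 152) (nat_lit 0) (XT.lf (nat_lit 0) (nat_lit 6225329919) (nat_lit 76) (nat_lit 21167407201) (nat_lit 76) (nat_lit 3803544947) (nat_lit 21) (nat_lit 4) (nat_lit 22) (nat_lit 5) (nat_lit 22) (nat_lit 4) (nat_lit 407) (nat_lit 335) (nat_lit 278)) (XT.nd (nat_lit 78) (nat_lit 76) (nat_lit 0) (XT.lf (nat_lit 0) (nat_lit 2707511944) (nat_lit 152) (nat_lit 11868091627) (nat_lit 76) (nat_lit 17809951782) (nat_lit 20) (nat_lit 5) (nat_lit 22) (nat_lit 5) (nat_lit 21) (nat_lit 4) (nat_lit 408) (nat_lit 335) (nat_lit 277)) (XT.lf (nat_lit 0) (nat_lit 1812190764) (nat_lit 76) (nat_lit 7594008925) (nat_lit 152) (nat_lit 24225484550) (nat_lit 19) (nat_lit 5) (nat_lit 20) (nat_lit 5) (nat_lit 21) (nat_lit 4) (nat_lit 409) (nat_lit 335) (nat_lit 276)))) (XT.nd (nat_lit 156) (nat_lit 152) (nat_lit 0) (XT.nd (nat_lit 78) (nat_lit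 0) (nat_lit 0) (XT.lf (nat_lit 0) (nat_lit 16516334613) (nat_lit 76) (nat_lit 86788899) (nat_lit 152) (nat_lit 18328835447) (nat_lit 19) (nat_lit 5) (nat_lit 20) (nat_lit 5) (nat_lit 21) (nat_lit 4) (nat_lit 410) (nat_lit 335) (nat_lit 275)) (XT.lf (nat_lit 0) (nat_lit 24245199344) (nat_lit 152) (nat_lit 4533310602) (nat_lit 0) (nat_lit 7514476439) (nat_lit 19) (nat_lit 5) (nat_lit 21) (nat_lit 4) (nat_lit 19) (nat_lit 4) (nat_lit 411) (nat_lit 335) (nat_lit 274))) (XT.nd (nat_lit 78) (nat_lit 76) (nat_lit 0) (XT.lf (nat_lit 0) (nat_lit 10304814795) (nat_lit 76) (nat_lit 22092199366) (nat_lit 76) (nat_lit 5318673319) (nat_lit 18) (nat_lit 4) (nat_lit 19) (nat_lit 5) (nat_lit 19) (nat_lit 4) (nat_lit 412) (nat_lit 335) (nat_lit 273)) (XT.lf (nat_lit 0) (nat_lit 1734406980) (nat_lit 152) (nat_lit 13258756634) (nat_lit 76) (nat_lit 24212828877) (nat_lit 17) (nat_lit 5) (nat_lit 19) (nat_lit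 5) (nat_lit 18) (nat_lit 4) (nat_lit 413) (nat_lit 335) (nat_lit 272))))))) (XT.nd (nat_lit 1014) (nat_lit 304) (nat_lit 0) (XT.nd (nat_lit 468) (nat_lit 228) (nat_lit 0) (XT.nd (nat_lit 234) (nat_lit 152) (nat_lit 0) (XT.nd (nat_lit 78) (nat_lit 0) (nat_lit 0) (XT.lf (nat_lit 0) (nat_lit 1498131088) (nat_lit 76) (nat_lit 7453696103) (nat_lit 152) (nat_lit 31815108087) (nat_lit 16) (nat_lit 5) (nat_lit 17) (nat_lit 5) (nat_lit 18) (nat_lit 4) (nat_lit 414) (nat_lit 335) (nat_lit 271)) (XT.nd (nat_lit 78) (nat_lit 0) (nat_lit 0) (XT.lf (nat_lit 0) (nat_lit 16732727129) (nat_lit 152) (nat_lit 25016143487) (nat_lit 0) (nat_lit 646927493) (nat_lit 16) (nat_lit 5) (nat_lit 18) (nat_lit 4) (nat_lit 16) (nat_lit 4) (nat_lit 415) (nat_lit 335) (nat_lit 270)) (XT.lf (nat_lit 0) (nat_lit 24993587112) (nat_lit 152) (nat_lit 10233724303) (nat_lit 0) (nat_lit 8874250093) (nat_lit 16) (nat_lit 5) (nat_lit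 18) (nat_lit 4) (nat_lit 16) (nat_lit 4) (nat_lit 416) (nat_lit 335) (nat_lit 269)))) (XT.nd (nat_lit 78) (nat_lit 76) (nat_lit 0) (XT.lf (nat_lit 0) (nat_lit 5402950849) (nat_lit 76) (nat_lit 28319107122) (nat_lit 76) (nat_lit 12167829740) (nat_lit 15) (nat_lit 4) (nat_lit 16) (nat_lit 5) (nat_lit 16) (nat_lit 4) (nat_lit 417) (nat_lit 335) (nat_lit 268)) (XT.nd (nat_lit 78) (nat_lit 76) (nat_lit 0) (XT.lf (nat_lit 0) (nat_lit 22119890549) (nat_lit 76) (nat_lit 20911118257) (nat_lit 76) (nat_lit 4729421482) (nat_lit 15) (nat_lit 4) (nat_lit 16) (nat_lit 5) (nat_lit 16) (nat_lit 4) (nat_lit 418) (nat_lit 335) (nat_lit 267)) (XT.lf (nat_lit 0) (nat_lit 2953976013) (nat_lit 152) (nat_lit 10155016798) (nat_lit 76) (nat_lit 36614520863) (nat_lit 14) (nat_lit 5) (nat_lit 16) (nat_lit 5) (nat_lit 15) (nat_lit 4) (nat_lit 419) (nat_lit 335) (nat_lit 266))))) (XT.nd (nat_lit 234) (nat_lit 152) (nat_lit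 0) (XT.nd (nat_lit 78) (nat_lit 0) (nat_lit 0) (XT.lf (nat_lit 0) (nat_lit 6172335065) (nat_lit 76) (nat_lit 4759661997) (nat_lit 152) (nat_lit 40845410422) (nat_lit 13) (nat_lit 5) (nat_lit 14) (nat_lit 5) (nat_lit 15) (nat_lit 4) (nat_lit 420) (nat_lit 335) (nat_lit 265)) (XT.nd (nat_lit 78) (nat_lit 0) (nat_lit 0) (XT.lf (nat_lit 0) (nat_lit 19519393258) (nat_lit 152) (nat_lit 30374722734) (nat_lit 0) (nat_lit 4029358659) (nat_lit 13) (nat_lit 5) (nat_lit 15) (nat_lit 4) (nat_lit 13) (nat_lit 4) (nat_lit 421) (nat_lit 335) (nat_lit 264)) (XT.lf (nat_lit 0) (nat_lit 28588578902) (nat_lit 152) (nat_lit 14510937642) (nat_lit 0) (nat_lit 13074709912) (nat_lit 13) (nat_lit 5) (nat_lit 15) (nat_lit 4) (nat_lit 13) (nat_lit 4) (nat_lit 422) (nat_lit 335) (nat_lit 263)))) (XT.nd (nat_lit 156) (nat_lit 76) (nat_lit 0) (XT.nd (nat_lit 78) (nat_lit 0) (nat_lit 0) (XT.lf (nat_lit 0) (nat_lit 2167746874)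 (nat_lit 76) (nat_lit 35952933359) (nat_lit 76) (nat_lit 20416364949) (nat_lit 12) (nat_lit 4) (nat_lit 13) (nat_lit 5) (nat_lit 13) (nat_lit 4) (nat_lit 423) (nat_lit 335) (nat_lit 262)) (XT.lf (nat_lit 0) (nat_lit 20137250229) (nat_lit 76) (nat_lit 28213927020) (nat_lit 76) (nat_lit 12655740115) (nat_lit 12) (nat_lit 4) (nat_lit 13) (nat_lit 5) (nat_lit 13) (nat_lit 4) (nat_lit 424) (nat_lit 335) (nat_lit 261))) (XT.nd (nat_lit 78) (nat_lit 76) (nat_lit 0) (XT.lf (nat_lit 0) (nat_lit 38960559822) (nat_lit 76) (nat_lit 20109821072) (nat_lit 76) (nat_lit 4531045124) (nat_lit 12) (nat_lit 4) (nat_lit 13) (nat_lit 5) (nat_lit 13) (nat_lit 4) (nat_lit 425) (nat_lit 335) (nat_lit 260)) (XT.lf (nat_lit 0) (nat_lit 3849773633) (nat_lit 152) (nat_lit 7706348612) (nat_lit 76) (nat_lit 54767521644) (nat_lit 11) (nat_lit 5) (nat_lit 13) (nat_lit 5) (nat_lit 12) (nat_lit 4) (nat_lit 426) (nat_lit 335)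 (nat_lit 259)))))) (XT.nd (nat_lit 468) (nat_lit 152) (nat_lit 0) (XT.nd (nat_lit 234) (nat_lit 76) (nat_lit 0) (XT.nd (nat_lit 78) (nat_lit 0) (nat_lit 0) (XT.lf (nat_lit 0) (nat_lit 10288704907) (nat_lit 76) (nat_lit 2348253305) (nat_lit 152) (nat_lit 56534322270) (nat_lit 10) (nat_lit 5) (nat_lit 11) (nat_lit 5) (nat_lit 12) (nat_lit 4) (nat_lit 427) (nat_lit 335) (nat_lit 258)) (XT.nd (nat_lit 78) (nat_lit 0) (nat_lit 0) (XT.lf (nat_lit 0) (nat_lit 22089458683) (nat_lit 152) (nat_lit 42861413902) (nat_lit 0) (nat_lit 7199130093) (nat_lit 10) (nat_lit 5) (nat_lit 12) (nat_lit 4) (nat_lit 10) (nat_lit 4) (nat_lit 428) (nat_lit 335) (nat_lit 257)) (XT.lf (nat_lit 0) (nat_lit 32033099697) (nat_lit 152) (nat_lit 26116997988) (nat_lit 0) (nat_lit 17126639053) (nat_lit 10) (nat_lit 5) (nat_lit 12) (nat_lit 4) (nat_lit 10) (nat_lit 4) (nat_lit 429) (nat_lit 335) (nat_lit 256)))) (XT.nd (nat_lit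 78) (nat_lit 76) (nat_lit 0) (XT.lf (nat_lit 0) (nat_lit 42454893775) (nat_lit 152) (nat_lit 8572797361) (nat_lit 0) (nat_lit 27533069271) (nat_lit 10) (nat_lit 5) (nat_lit 12) (nat_lit 4) (nat_lit 10) (nat_lit 4) (nat_lit 430) (nat_lit 335) (nat_lit 255)) (XT.nd (nat_lit 78) (nat_lit 0) (nat_lit 0) (XT.lf (nat_lit 0) (nat_lit 10137420656) (nat_lit 76) (nat_lit 43400507604) (nat_lit 76) (nat_lit 28464050851) (nat_lit 9) (nat_lit 4) (nat_lit 10) (nat_lit 5) (nat_lit 10) (nat_lit 4) (nat_lit 431) (nat_lit 335) (nat_lit 254)) (XT.lf (nat_lit 0) (nat_lit 30045699383) (nat_lit 76) (nat_lit 35256792035) (nat_lit 76) (nat_lit 20306399807) (nat_lit 9) (nat_lit 4) (nat_lit 10) (nat_lit 5) (nat_lit 10) (nat_lit 4) (nat_lit 432) (nat_lit 335) (nat_lit 253))))) (XT.nd (nat_lit 234) (nat_lit 76) (nat_lit 0) (XT.nd (nat_lit 78) (nat_lit 76) (nat_lit 0) (XT.lf (nat_lit 0) (nat_lit 50915984087) (nat_lit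 76) (nat_lit 26722339100) (nat_lit 76) (nat_lit 11758674992) (nat_lit 9) (nat_lit 4) (nat_lit 10) (nat_lit 5) (nat_lit 10) (nat_lit 4) (nat_lit 433) (nat_lit 335) (nat_lit 252)) (XT.nd (nat_lit 78) (nat_lit 76) (nat_lit 0) (XT.lf (nat_lit 0) (nat_lit 72797965923) (nat_lit 76) (nat_lit 17776828675) (nat_lit 76) (nat_lit 2800524680) (nat_lit 9) (nat_lit 4) (nat_lit 10) (nat_lit 5) (nat_lit 10) (nat_lit 4) (nat_lit 434) (nat_lit 335) (nat_lit 251)) (XT.lf (nat_lit 0) (nat_lit 6378478744) (nat_lit 152) (nat_lit 1912460555) (nat_lit 76) (nat_lit 89257243478) (nat_lit 8) (nat_lit 5) (nat_lit 10) (nat_lit 5) (nat_lit 9) (nat_lit 4) (nat_lit 435) (nat_lit 335) (nat_lit 250)))) (XT.nd (nat_lit 156) (nat_lit 0) (nat_lit 0) (XT.nd (nat_lit 78) (nat_lit 0) (nat_lit 0) (XT.lf (nat_lit 0) (nat_lit 16222708583) (nat_lit 152) (nat_lit 83752488419) (nat_lit 0) (nat_lit 1937178363) (nat_lit 7) (nat_lit 5)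 (nat_lit 9) (nat_lit 4) (nat_lit 7) (nat_lit 4) (nat_lit 436) (nat_lit 335) (nat_lit 249)) (XT.lf (nat_lit 0) (nat_lit 26713130661) (nat_lit 152) (nat_lit 67356747292) (nat_lit 0) (nat_lit 12417201575) (nat_lit 7) (nat_lit 5) (nat_lit 9) (nat_lit 4) (nat_lit 7) (nat_lit 4) (nat_lit 437) (nat_lit 335) (nat_lit 248))) (XT.nd (nat_lit 78) (nat_lit 0) (nat_lit 0) (XT.lf (nat_lit 0) (nat_lit 37713925564) (nat_lit 152) (nat_lit 50169208894) (nat_lit 0) (nat_lit 23408092796) (nat_lit 7) (nat_lit 5) (nat_lit 9) (nat_lit 4) (nat_lit 7) (nat_lit 4) (nat_lit 438) (nat_lit 335) (nat_lit 247)) (XT.lf (nat_lit 0) (nat_lit 49251285660) (nat_lit 152) (nat_lit 32148950514) (nat_lit 0) (nat_lit 34936020814) (nat_lit 7) (nat_lit 5) (nat_lit 9) (nat_lit 4) (nat_lit 7) (nat_lit 4) (nat_lit 439) (nat_lit 335) (nat_lit 246))))))))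
noncomputable def xc85 : XT := (XT.nd (nat_lit 1950) (nat_lit 152) (nat_lit 0) (XT.nd (nat_lit 936) (nat_lit 76) (nat_lit 0) (XT.nd (nat_lit 468) (nat_lit 152) (nat_lit 0) (XT.nd (nat_lit 234) (nat_lit 0) (nat_lit 0) (XT.nd (nat_lit 78) (nat_lit 76) (nat_lit 0) (XT.lf (nat_lit 0) (nat_lit 61352680854) (nat_lit 152) (nat_lit 13253066774) (nat_lit 0) (nat_lit 47028433077) (nat_lit 7) (nat_lit 5) (nat_lit 9) (nat_lit 4) (nat_lit 7) (nat_lit 4) (nat_lit 440) (nat_lit 335) (nat_lit 245)) (XT.nd (nat_lit 78) (nat_lit 0) (nat_lit 0) (XT.lf (nat_lit 0) (nat_lit 6780449244) (nat_lit 76) (nat_lit 67372336563) (nat_lit 76) (nat_lit 53039533613) (nat_lit 6) (nat_lit 4) (nat_lit 7) (nat_lit 5) (nat_lit 7) (nat_lit 4) (nat_lit 441) (nat_lit 335) (nat_lit 244)) (XT.lf (nat_lit 0) (nat_lit 28251968966) (nat_lit 76) (nat_lit 59553362908) (nat_lit 76) (nat_lit 45212412175) (nat_lit 6) (nat_lit 4) (nat_lit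 7) (nat_lit 5) (nat_lit 7) (nat_lit 4) (nat_lit 442) (nat_lit 335) (nat_lit 243)))) (XT.nd (nat_lit 78) (nat_lit 0) (nat_lit 0) (XT.lf (nat_lit 0) (nat_lit 50774408816) (nat_lit 76) (nat_lit 51354657160) (nat_lit 76) (nat_lit 37005946633) (nat_lit 6) (nat_lit 4) (nat_lit 7) (nat_lit 5) (nat_lit 7) (nat_lit 4) (nat_lit 443) (nat_lit 335) (nat_lit 242)) (XT.nd (nat_lit 78) (nat_lit 0) (nat_lit 0) (XT.lf (nat_lit 0) (nat_lit 74401393652) (nat_lit 76) (nat_lit 42756698590) (nat_lit 76) (nat_lit 28400597783) (nat_lit 6) (nat_lit 4) (nat_lit 7) (nat_lit 5) (nat_lit 7) (nat_lit 4) (nat_lit 444) (nat_lit 335) (nat_lit 241)) (XT.lf (nat_lit 0) (nat_lit 99189178199) (nat_lit 76) (nat_lit 33739015868) (nat_lit 76) (nat_lit 19375876700) (nat_lit 6) (nat_lit 4) (nat_lit 7) (nat_lit 5) (nat_lit 7) (nat_lit 4) (nat_lit 445) (nat_lit 335) (nat_lit 240))))) (XT.nd (nat_lit 234) (nat_lit 0) (nat_lit 0) (XT.nd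 (nat_lit 78) (nat_lit 152) (nat_lit 0) (XT.lf (nat_lit 0) (nat_lit 125196780992) (nat_lit 76) (nat_lit 24280138321) (nat_lit 76) (nat_lit 9910295951) (nat_lit 6) (nat_lit 4) (nat_lit 7) (nat_lit 5) (nat_lit 7) (nat_lit 4) (nat_lit 446) (nat_lit 335) (nat_lit 239)) (XT.nd (nat_lit 78) (nat_lit 76) (nat_lit 0) (XT.lf (nat_lit 0) (nat_lit 18083632) (nat_lit 152) (nat_lit 14339154925) (nat_lit 76) (nat_lit 152467735007) (nat_lit 5) (nat_lit 5) (nat_lit 7) (nat_lit 5) (nat_lit 6) (nat_lit 4) (nat_lit 447) (nat_lit 335) (nat_lit 238)) (XT.lf (nat_lit 0) (nat_lit 6533276945) (nat_lit 76) (nat_lit 3669446624) (nat_lit 152) (nat_lit 164419128950) (nat_lit 4) (nat_lit 5) (nat_lit 5) (nat_lit 5) (nat_lit 6) (nat_lit 4) (nat_lit 448) (nat_lit 335) (nat_lit 237)))) (XT.nd (nat_lit 78) (nat_lit 0) (nat_lit 0) (XT.lf (nat_lit 0) (nat_lit 21252244920) (nat_lit 152) (nat_lit 153989253015) (nat_lit 0) (nat_lit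 7549295539) (nat_lit 4) (nat_lit 5) (nat_lit 6) (nat_lit 4) (nat_lit 4) (nat_lit 4) (nat_lit 449) (nat_lit 335) (nat_lit 236)) (XT.nd (nat_lit 78) (nat_lit 0) (nat_lit 0) (XT.lf (nat_lit 0) (nat_lit 32905738666) (nat_lit 152) (nat_lit 139262331342) (nat_lit 0) (nat_lit 19197537151) (nat_lit 4) (nat_lit 5) (nat_lit 6) (nat_lit 4) (nat_lit 4) (nat_lit 4) (nat_lit 450) (nat_lit 335) (nat_lit 235)) (XT.lf (nat_lit 0) (nat_lit 45133660876) (nat_lit 152) (nat_lit 123815456109) (nat_lit 0) (nat_lit 31420457328) (nat_lit 4) (nat_lit 5) (nat_lit 6) (nat_lit 4) (nat_lit 4) (nat_lit 4) (nat_lit 451) (nat_lit 335) (nat_lit 234)))))) (XT.nd (nat_lit 468) (nat_lit 76) (nat_lit 0) (XT.nd (nat_lit 234) (nat_lit 0) (nat_lit 0) (XT.nd (nat_lit 78) (nat_lit 0) (nat_lit 0) (XT.lf (nat_lit 0) (nat_lit 57965125649) (nat_lit 152) (nat_lit 107611849043) (nat_lit 0) (nat_lit 44247158262) (nat_lit 4) (nat_lit 5)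 (nat_lit 6) (nat_lit 4) (nat_lit 4) (nat_lit 4) (nat_lit 452) (nat_lit 335) (nat_lit 233)) (XT.nd (nat_lit 78) (nat_lit 0) (nat_lit 0) (XT.lf (nat_lit 0) (nat_lit 71430684094) (nat_lit 152) (nat_lit 90612930126) (nat_lit 0) (nat_lit 57708179715) (nat_lit 4) (nat_lit 5) (nat_lit 6) (nat_lit 4) (nat_lit 4) (nat_lit 4) (nat_lit 453) (nat_lit 335) (nat_lit 232)) (XT.lf (nat_lit 0) (nat_lit 85562397062) (nat_lit 152) (nat_lit 72778225743) (nat_lit 0) (nat_lit 71835571740) (nat_lit 4) (nat_lit 5) (nat_lit 6) (nat_lit 4) (nat_lit 4) (nat_lit 4) (nat_lit 454) (nat_lit 335) (nat_lit 231)))) (XT.nd (nat_lit 78) (nat_lit 0) (nat_lit 0) (XT.lf (nat_lit 0) (nat_lit 100393911490) (nat_lit 152) (nat_lit 54065272311) (nat_lit 0) (nat_lit 86662970984) (nat_lit 4) (nat_lit 5) (nat_lit 6) (nat_lit 4) (nat_lit 4) (nat_lit 4) (nat_lit 455) (nat_lit 335) (nat_lit 230)) (XT.nd (nat_lit 78) (nat_lit 0) (nat_lit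 0) (XT.lf (nat_lit 0) (nat_lit 115960540508) (nat_lit 152) (nat_lit 34429515180) (nat_lit 0) (nat_lit 102225680778) (nat_lit 4) (nat_lit 5) (nat_lit 6) (nat_lit 4) (nat_lit 4) (nat_lit 4) (nat_lit 456) (nat_lit 335) (nat_lit 229)) (XT.lf (nat_lit 0) (nat_lit 132299347517) (nat_lit 152) (nat_lit 13824202546) (nat_lit 0) (nat_lit 118560755194) (nat_lit 4) (nat_lit 5) (nat_lit 6) (nat_lit 4) (nat_lit 4) (nat_lit 4) (nat_lit 457) (nat_lit 335) (nat_lit 228))))) (XT.nd (nat_lit 234) (nat_lit 0) (nat_lit 0) (XT.nd (nat_lit 78) (nat_lit 0) (nat_lit 0) (XT.lf (nat_lit 0) (nat_lit 8057620019) (nat_lit 76) (nat_lit 141517416450) (nat_lit 76) (nat_lit 127775269276) (nat_lit 3) (nat_lit 4) (nat_lit 4) (nat_lit 5) (nat_lit 4) (nat_lit 4) (nat_lit 458) (nat_lit 335) (nat_lit 227)) (XT.nd (nat_lit 78) (nat_lit 0) (nat_lit 0) (XT.lf (nat_lit 0) (nat_lit 31502016849) (nat_lit 76) (nat_lit 136440852257) (nat_lit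 76) (nat_lit 122695319511) (nat_lit 3) (nat_lit 4) (nat_lit 4) (nat_lit 5) (nat_lit 4) (nat_lit 4) (nat_lit 459) (nat_lit 335) (nat_lit 226)) (XT.lf (nat_lit 0) (nat_lit 56107717368) (nat_lit 76) (nat_lit 131115889985) (nat_lit 76) (nat_lit 117367132885) (nat_lit 3) (nat_lit 4) (nat_lit 4) (nat_lit 5) (nat_lit 4) (nat_lit 4) (nat_lit 460) (nat_lit 335) (nat_lit 225)))) (XT.nd (nat_lit 156) (nat_lit 0) (nat_lit 0) (XT.nd (nat_lit 78) (nat_lit 0) (nat_lit 0) (XT.lf (nat_lit 0) (nat_lit 81933306578) (nat_lit 76) (nat_lit 125529851154) (nat_lit 76) (nat_lit 111778023240) (nat_lit 3) (nat_lit 4) (nat_lit 4) (nat_lit 5) (nat_lit 4) (nat_lit 4) (nat_lit 461) (nat_lit 335) (nat_lit 224)) (XT.lf (nat_lit 0) (nat_lit 109040273976) (nat_lit 76) (nat_lit 119669435671) (nat_lit 76) (nat_lit 105914683172) (nat_lit 3) (nat_lit 4) (nat_lit 4) (nat_lit 5) (nat_lit 4) (nat_lit 4) (nat_lit 462) (nat_lit 335)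 (nat_lit 223))) (XT.nd (nat_lit 78) (nat_lit 0) (nat_lit 0) (XT.lf (nat_lit 0) (nat_lit 137493159960) (nat_lit 76) (nat_lit 113520690165) (nat_lit 76) (nat_lit 99763152347) (nat_lit 3) (nat_lit 4) (nat_lit 4) (nat_lit 5) (nat_lit 4) (nat_lit 4) (nat_lit 463) (nat_lit 335) (nat_lit 222)) (XT.lf (nat_lit 0) (nat_lit 167359709498) (nat_lit 76) (nat_lit 107068974767) (nat_lit 76) (nat_lit 93308784264) (nat_lit 3) (nat_lit 4) (nat_lit 4) (nat_lit 5) (nat_lit 4) (nat_lit 4) (nat_lit 464) (nat_lit 335) (nat_lit 221))))))) (XT.nd (nat_lit 1014) (nat_lit 0) (nat_lit 0) (XT.nd (nat_lit 468) (nat_lit 152) (nat_lit 0) (XT.nd (nat_lit 234) (nat_lit 0) (nat_lit 0) (XT.nd (nat_lit 78) (nat_lit 0) (nat_lit 0) (XT.lf (nat_lit 0) (nat_lit 198711033422) (nat_lit 76) (nat_lit 100298928248) (nat_lit 76) (nat_lit 86536211380) (nat_lit 3) (nat_lit 4) (nat_lit 4) (nat_lit 5) (nat_lit 4) (nat_lit 4) (nat_lit 465)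 (nat_lit 335) (nat_lit 220)) (XT.nd (nat_lit 78) (nat_lit 0) (nat_lit 0) (XT.lf (nat_lit 0) (nat_lit 231621777741) (nat_lit 76) (nat_lit 93194431452) (nat_lit 76) (nat_lit 79429308520) (nat_lit 3) (nat_lit 4) (nat_lit 4) (nat_lit 5) (nat_lit 4) (nat_lit 4) (nat_lit 466) (nat_lit 335) (nat_lit 219)) (XT.lf (nat_lit 0) (nat_lit 266170301370) (nat_lit 76) (nat_lit 85738568909) (nat_lit 76) (nat_lit 71971154489) (nat_lit 3) (nat_lit 4) (nat_lit 4) (nat_lit 5) (nat_lit 4) (nat_lit 4) (nat_lit 467) (nat_lit 335) (nat_lit 218)))) (XT.nd (nat_lit 78) (nat_lit 0) (nat_lit 0) (XT.lf (nat_lit 0) (nat_lit 302438862699) (nat_lit 76) (nat_lit 77913588565) (nat_lit 76) (nat_lit 64143991775) (nat_lit 3) (nat_lit 4) (nat_lit 4) (nat_lit 5) (nat_lit 4) (nat_lit 4) (nat_lit 468) (nat_lit 335) (nat_lit 217)) (XT.nd (nat_lit 78) (nat_lit 0) (nat_lit 0) (XT.lf (nat_lit 0) (nat_lit 340513815445) (nat_lit 76) (nat_lit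 69700859516) (nat_lit 76) (nat_lit 55929184278) (nat_lit 3) (nat_lit 4) (nat_lit 4) (nat_lit 5) (nat_lit 4) (nat_lit 4) (nat_lit 469) (nat_lit 335) (nat_lit 216)) (XT.lf (nat_lit 0) (nat_lit 380485814257) (nat_lit 76) (nat_lit 61080827643) (nat_lit 76) (nat_lit 47307172931) (nat_lit 3) (nat_lit 4) (nat_lit 4) (nat_lit 5) (nat_lit 4) (nat_lit 4) (nat_lit 470) (nat_lit 335) (nat_lit 215))))) (XT.nd (nat_lit 234) (nat_lit 152) (nat_lit 0) (XT.nd (nat_lit 78) (nat_lit 0) (nat_lit 0) (XT.lf (nat_lit 0) (nat_lit 422450030562) (nat_lit 76) (nat_lit 52032969063) (nat_lit 76) (nat_lit 38257429137) (nat_lit 3) (nat_lit 4) (nat_lit 4) (nat_lit 5) (nat_lit 4) (nat_lit 4) (nat_lit 471) (nat_lit 335) (nat_lit 214)) (XT.nd (nat_lit 78) (nat_lit 0) (nat_lit 0) (XT.lf (nat_lit 0) (nat_lit 466506379159) (nat_lit 76) (nat_lit 42535741253) (nat_lit 76) (nat_lit 28758405887) (nat_lit 3) (nat_lit 4) (nat_lit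 4) (nat_lit 5) (nat_lit 4) (nat_lit 4) (nat_lit 472) (nat_lit 335) (nat_lit 213)) (XT.lf (nat_lit 0) (nat_lit 512759756118) (nat_lit 76) (nat_lit 32566531768) (nat_lit 76) (nat_lit 18787486458) (nat_lit 3) (nat_lit 4) (nat_lit 4) (nat_lit 5) (nat_lit 4) (nat_lit 4) (nat_lit 473) (nat_lit 335) (nat_lit 212)))) (XT.nd (nat_lit 156) (nat_lit 76) (nat_lit 0) (XT.nd (nat_lit 78) (nat_lit 76) (nat_lit 0) (XT.lf (nat_lit 0) (nat_lit 561320288526) (nat_lit 76) (nat_lit 22101604395) (nat_lit 76) (nat_lit 8320930565) (nat_lit 3) (nat_lit 4) (nat_lit 4) (nat_lit 5) (nat_lit 4) (nat_lit 4) (nat_lit 474) (nat_lit 335) (nat_lit 211)) (XT.lf (nat_lit 0) (nat_lit 2580847680) (nat_lit 152) (nat_lit 8491487053) (nat_lit 76) (nat_lit 609679041114) (nat_lit 2) (nat_lit 5) (nat_lit 4) (nat_lit 5) (nat_lit 3) (nat_lit 4) (nat_lit 475) (nat_lit 335) (nat_lit 210))) (XT.nd (nat_lit 78) (nat_lit 0) (nat_lit 0) (XT.lf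 (nat_lit 0) (nat_lit 13991634044) (nat_lit 152) (nat_lit 636335424740) (nat_lit 0) (nat_lit 864298889) (nat_lit 1) (nat_lit 5) (nat_lit 3) (nat_lit 4) (nat_lit 1) (nat_lit 4) (nat_lit 476) (nat_lit 335) (nat_lit 209)) (XT.lf (nat_lit 0) (nat_lit 26298088422) (nat_lit 152) (nat_lit 643669580380) (nat_lit 0) (nat_lit 13169413481) (nat_lit 1) (nat_lit 5) (nat_lit 3) (nat_lit 4) (nat_lit 1) (nat_lit 4) (nat_lit 477) (nat_lit 335) (nat_lit 208)))))) (XT.nd (nat_lit 43290) (nat_lit 0) (nat_lit 7752) (XT.nd (nat_lit 43056) (nat_lit 0) (nat_lit 10944) (XT.nd (nat_lit 78) (nat_lit 0) (nat_lit 0) (XT.lf (nat_lit 0) (nat_lit 39217437013) (nat_lit 152) (nat_lit 651375291569) (nat_lit 0) (nat_lit 26087486086) (nat_lit 1) (nat_lit 5) (nat_lit 3) (nat_lit 4) (nat_lit 1) (nat_lit 4) (nat_lit 478) (nat_lit 335) (nat_lit 207)) (XT.nd (nat_lit 42900) (nat_lit 0) (nat_lit 11856) (XT.lf (nat_lit 0) (nat_lit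 52780440173) (nat_lit 152) (nat_lit 659470905239) (nat_lit 0) (nat_lit 39649274020) (nat_lit 1) (nat_lit 5) (nat_lit 3) (nat_lit 4) (nat_lit 1) (nat_lit 4) (nat_lit 479) (nat_lit 335) (nat_lit 206)) (XT.lf (nat_lit 0) (nat_lit 739009706) (nat_lit 380) (nat_lit 1836660630) (nat_lit 0) (nat_lit 739009706) (nat_lit 157) (nat_lit 5) (nat_lit 162) (nat_lit 4) (nat_lit 157) (nat_lit 4) (nat_lit 348) (nat_lit 336) (nat_lit 336)))) (XT.nd (nat_lit 78) (nat_lit 532) (nat_lit 0) (XT.lf (nat_lit 0) (nat_lit 461406298) (nat_lit 380) (nat_lit 4223450600) (nat_lit 380) (nat_lit 1995995946) (nat_lit 152) (nat_lit 4) (nat_lit 157) (nat_lit 5) (nat_lit 157) (nat_lit 4) (nat_lit 349) (nat_lit 336) (nat_lit 335)) (XT.nd (nat_lit 78) (nat_lit 456) (nat_lit 0) (XT.lf (nat_lit 0) (nat_lit 1160872978) (nat_lit 456) (nat_lit 1969050430) (nat_lit 76) (nat_lit 3609864546) (nat_lit 151) (nat_lit 5) (nat_lit 157) (nat_lit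 5) (nat_lit 152) (nat_lit 4) (nat_lit 350) (nat_lit 336) (nat_lit 334)) (XT.lf (nat_lit 0) (nat_lit 2398819925) (nat_lit 456) (nat_lit 1878266413) (nat_lit 532) (nat_lit 2529700873) (nat_lit 145) (nat_lit 5) (nat_lit 151) (nat_lit 5) (nat_lit 152) (nat_lit 4) (nat_lit 351) (nat_lit 336) (nat_lit 333))))) (XT.nd (nat_lit 234) (nat_lit 1976) (nat_lit 0) (XT.nd (nat_lit 78) (nat_lit 608) (nat_lit 0) (XT.lf (nat_lit 0) (nat_lit 25239668) (nat_lit 532) (nat_lit 493706734) (nat_lit 608) (nat_lit 6364406936) (nat_lit 137) (nat_lit 5) (nat_lit 144) (nat_lit 5) (nat_lit 145) (nat_lit 5) (nat_lit 352) (nat_lit 336) (nat_lit 332)) (XT.nd (nat_lit 78) (nat_lit 608) (nat_lit 0) (XT.lf (nat_lit 0) (nat_lit 3566085356) (nat_lit 608) (nat_lit 2333237976) (nat_lit 76) (nat_lit 1065954809) (nat_lit 137) (nat_lit 5) (nat_lit 145) (nat_lit 5) (nat_lit 138) (nat_lit 4) (nat_lit 353) (nat_lit 336) (nat_lit 331))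 (XT.lf (nat_lit 0) (nat_lit 2343183943) (nat_lit 608) (nat_lit 4314893060) (nat_lit 684) (nat_lit 398747480) (nat_lit 129) (nat_lit 5) (nat_lit 137) (nat_lit 5) (nat_lit 138) (nat_lit 4) (nat_lit 354) (nat_lit 336) (nat_lit 330)))) (XT.nd (nat_lit 156) (nat_lit 1216) (nat_lit 0) (XT.nd (nat_lit 78) (nat_lit 684) (nat_lit 0) (XT.lf (nat_lit 0) (nat_lit 2554150293) (nat_lit 684) (nat_lit 4551754) (nat_lit 76) (nat_lit 4597709001) (nat_lit 128) (nat_lit 5) (nat_lit 137) (nat_lit 5) (nat_lit 129) (nat_lit 5) (nat_lit 355) (nat_lit 336) (nat_lit 329)) (XT.lf (nat_lit 0) (nat_lit 4954504759) (nat_lit 684) (nat_lit 621608169) (nat_lit 760) (nat_lit 1687925796) (nat_lit 119) (nat_lit 5) (nat_lit 128) (nat_lit 5) (nat_lit 129) (nat_lit 5) (nat_lit 356) (nat_lit 336) (nat_lit 328))) (XT.nd (nat_lit 78) (nat_lit 380) (nat_lit 0) (XT.lf (nat_lit 0) (nat_lit 1253457909) (nat_lit 836) (nat_lit 4694210356)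 (nat_lit 76) (nat_lit 1432163548) (nat_lit 108) (nat_lit 5) (nat_lit 119) (nat_lit 5) (nat_lit 109) (nat_lit 5) (nat_lit 357) (nat_lit 336) (nat_lit 327)) (XT.lf (nat_lit 0) (nat_lit 338936034) (nat_lit 380) (nat_lit 3865741653) (nat_lit 456) (nat_lit 3299490706) (nat_lit 103) (nat_lit 5) (nat_lit 108) (nat_lit 5) (nat_lit 109) (nat_lit 5) (nat_lit 358) (nat_lit 336) (nat_lit 326))))))))
noncomputable def xc86 : XT := (XT.nd (nat_lit 1950) (nat_lit 1976) (nat_lit 0) (XT.nd (nat_lit 936) (nat_lit 1748) (nat_lit 0) (XT.nd (nat_lit 468) (nat_lit 1140) (nat_lit 0) (XT.nd (nat_lit 234) (nat_lit 684) (nat_lit 0) (XT.nd (nat_lit 78) (nat_lit 760) (nat_lit 0) (XT.lf (nat_lit 0) (nat_lit 5644378289) (nat_lit 380) (nat_lit 1607076612) (nat_lit 456) (nat_lit 385973741) (nat_lit 103) (nat_lit 5) (nat_lit 108) (nat_lit 5) (nat_lit 109) (nat_lit 5) (nat_lit 359) (nat_lit 336) (nat_lit 325)) (XT.nd (nat_lit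 78) (nat_lit 380) (nat_lit 0) (XT.lf (nat_lit 0) (nat_lit 2526072772) (nat_lit 380) (nat_lit 4428590184) (nat_lit 76) (nat_lit 823778201) (nat_lit 98) (nat_lit 5) (nat_lit 103) (nat_lit 5) (nat_lit 99) (nat_lit 5) (nat_lit 360) (nat_lit 336) (nat_lit 324)) (XT.lf (nat_lit 0) (nat_lit 958058313) (nat_lit 380) (nat_lit 4564607554) (nat_lit 456) (nat_lit 2406018425) (nat_lit 93) (nat_lit 5) (nat_lit 98) (nat_lit 5) (nat_lit 99) (nat_lit 5) (nat_lit 361) (nat_lit 336) (nat_lit 323)))) (XT.nd (nat_lit 78) (nat_lit 608) (nat_lit 0) (XT.lf (nat_lit 0) (nat_lit 518167074) (nat_lit 456) (nat_lit 1470682700) (nat_lit 76) (nat_lit 6099510219) (nat_lit 92) (nat_lit 5) (nat_lit 98) (nat_lit 5) (nat_lit 93) (nat_lit 5) (nat_lit 362) (nat_lit 336) (nat_lit 322)) (XT.nd (nat_lit 78) (nat_lit 304) (nat_lit 0) (XT.lf (nat_lit 0) (nat_lit 3470569802) (nat_lit 380) (nat_lit 4006457425) (nat_lit 76) (nat_lit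 778956402) (nat_lit 88) (nat_lit 5) (nat_lit 93) (nat_lit 5) (nat_lit 89) (nat_lit 5) (nat_lit 363) (nat_lit 336) (nat_lit 321)) (XT.lf (nat_lit 0) (nat_lit 1757657184) (nat_lit 304) (nat_lit 4785087350) (nat_lit 380) (nat_lit 1890712122) (nat_lit 84) (nat_lit 5) (nat_lit 88) (nat_lit 5) (nat_lit 89) (nat_lit 5) (nat_lit 364) (nat_lit 336) (nat_lit 320))))) (XT.nd (nat_lit 234) (nat_lit 532) (nat_lit 0) (XT.nd (nat_lit 78) (nat_lit 532) (nat_lit 0) (XT.lf (nat_lit 0) (nat_lit 1069054706) (nat_lit 380) (nat_lit 829515816) (nat_lit 76) (nat_lit 6722550008) (nat_lit 83) (nat_lit 5) (nat_lit 88) (nat_lit 5) (nat_lit 84) (nat_lit 5) (nat_lit 365) (nat_lit 336) (nat_lit 319)) (XT.nd (nat_lit 78) (nat_lit 304) (nat_lit 0) (XT.lf (nat_lit 0) (nat_lit 4108741891) (nat_lit 304) (nat_lit 3525162382) (nat_lit 76) (nat_lit 1183005426) (nat_lit 80) (nat_lit 5) (nat_lit 84) (nat_lit 5) (nat_lit 81) (nat_lit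 5) (nat_lit 366) (nat_lit 336) (nat_lit 318)) (XT.lf (nat_lit 0) (nat_lit 2640360659) (nat_lit 304) (nat_lit 4642641020) (nat_lit 380) (nat_lit 1740419597) (nat_lit 76) (nat_lit 5) (nat_lit 80) (nat_lit 5) (nat_lit 81) (nat_lit 5) (nat_lit 367) (nat_lit 336) (nat_lit 317)))) (XT.nd (nat_lit 78) (nat_lit 456) (nat_lit 0) (XT.lf (nat_lit 0) (nat_lit 1289429770) (nat_lit 380) (nat_lit 163284964) (nat_lit 76) (nat_lit 7788639063) (nat_lit 75) (nat_lit 5) (nat_lit 80) (nat_lit 5) (nat_lit 76) (nat_lit 5) (nat_lit 368) (nat_lit 336) (nat_lit 316)) (XT.nd (nat_lit 78) (nat_lit 228) (nat_lit 0) (XT.lf (nat_lit 0) (nat_lit 4445507786) (nat_lit 304) (nat_lit 3089173907) (nat_lit 76) (nat_lit 1932467264) (nat_lit 72) (nat_lit 5) (nat_lit 76) (nat_lit 5) (nat_lit 73) (nat_lit 5) (nat_lit 369) (nat_lit 336) (nat_lit 315)) (XT.lf (nat_lit 0) (nat_lit 3500511032) (nat_lit 228) (nat_lit 4244183625) (nat_lit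 304) (nat_lit 1960325277) (nat_lit 69) (nat_lit 5) (nat_lit 72) (nat_lit 5) (nat_lit 73) (nat_lit 5) (nat_lit 370) (nat_lit 336) (nat_lit 314)))))) (XT.nd (nat_lit 468) (nat_lit 760) (nat_lit 0) (XT.nd (nat_lit 234) (nat_lit 456) (nat_lit 0) (XT.nd (nat_lit 78) (nat_lit 228) (nat_lit 0) (XT.lf (nat_lit 0) (nat_lit 431595588) (nat_lit 228) (nat_lit 747170758) (nat_lit 304) (nat_lit 8776843306) (nat_lit 65) (nat_lit 5) (nat_lit 68) (nat_lit 5) (nat_lit 69) (nat_lit 5) (nat_lit 371) (nat_lit 336) (nat_lit 313)) (XT.nd (nat_lit 78) (nat_lit 228) (nat_lit 0) (XT.lf (nat_lit 0) (nat_lit 4468107569) (nat_lit 304) (nat_lit 2816449501) (nat_lit 76) (nat_lit 2929650542) (nat_lit 65) (nat_lit 5) (nat_lit 69) (nat_lit 5) (nat_lit 66) (nat_lit 5) (nat_lit 372) (nat_lit 336) (nat_lit 312)) (XT.lf (nat_lit 0) (nat_lit 4217453622) (nat_lit 228) (nat_lit 3693712656) (nat_lit 304) (nat_lit 2575148879) (nat_lit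 62) (nat_lit 5) (nat_lit 65) (nat_lit 5) (nat_lit 66) (nat_lit 5) (nat_lit 373) (nat_lit 336) (nat_lit 311)))) (XT.nd (nat_lit 78) (nat_lit 228) (nat_lit 0) (XT.lf (nat_lit 0) (nat_lit 704964333) (nat_lit 228) (nat_lit 9962504286) (nat_lit 76) (nat_lit 105270953) (nat_lit 59) (nat_lit 5) (nat_lit 62) (nat_lit 5) (nat_lit 60) (nat_lit 5) (nat_lit 374) (nat_lit 336) (nat_lit 310)) (XT.nd (nat_lit 78) (nat_lit 228) (nat_lit 0) (XT.lf (nat_lit 0) (nat_lit 4144366426) (nat_lit 228) (nat_lit 2845859003) (nat_lit 76) (nat_lit 4077094206) (nat_lit 59) (nat_lit 5) (nat_lit 62) (nat_lit 5) (nat_lit 60) (nat_lit 5) (nat_lit 375) (nat_lit 336) (nat_lit 309)) (XT.lf (nat_lit 0) (nat_lit 4647657244) (nat_lit 228) (nat_lit 3098135578) (nat_lit 304) (nat_lit 3631367896) (nat_lit 56) (nat_lit 5) (nat_lit 59) (nat_lit 5) (nat_lit 60) (nat_lit 5) (nat_lit 376) (nat_lit 336) (nat_lit 308))))) (XT.nd (nat_lit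 234) (nat_lit 380) (nat_lit 0) (XT.nd (nat_lit 78) (nat_lit 228) (nat_lit 0) (XT.lf (nat_lit 0) (nat_lit 794769121) (nat_lit 152) (nat_lit 10728104310) (nat_lit 228) (nat_lit 179874354) (nat_lit 54) (nat_lit 5) (nat_lit 56) (nat_lit 5) (nat_lit 57) (nat_lit 4) (nat_lit 377) (nat_lit 336) (nat_lit 307)) (XT.nd (nat_lit 78) (nat_lit 152) (nat_lit 0) (XT.lf (nat_lit 0) (nat_lit 3419892684) (nat_lit 228) (nat_lit 3346086653) (nat_lit 76) (nat_lit 5271679462) (nat_lit 53) (nat_lit 5) (nat_lit 56) (nat_lit 5) (nat_lit 54) (nat_lit 5) (nat_lit 378) (nat_lit 336) (nat_lit 306)) (XT.lf (nat_lit 0) (nat_lit 4615211172) (nat_lit 152) (nat_lit 2573600428) (nat_lit 228) (nat_lit 5200624471) (nat_lit 51) (nat_lit 5) (nat_lit 53) (nat_lit 5) (nat_lit 54) (nat_lit 5) (nat_lit 379) (nat_lit 336) (nat_lit 305)))) (XT.nd (nat_lit 156) (nat_lit 152) (nat_lit 0) (XT.nd (nat_lit 78) (nat_lit 76) (nat_lit 0) (XT.lf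 (nat_lit 0) (nat_lit 186753812) (nat_lit 152) (nat_lit 10972672395) (nat_lit 228) (nat_lit 1598740721) (nat_lit 49) (nat_lit 5) (nat_lit 51) (nat_lit 5) (nat_lit 52) (nat_lit 4) (nat_lit 380) (nat_lit 336) (nat_lit 304)) (XT.lf (nat_lit 0) (nat_lit 2214016944) (nat_lit 228) (nat_lit 4526530771) (nat_lit 76) (nat_lit 6398074123) (nat_lit 48) (nat_lit 5) (nat_lit 51) (nat_lit 5) (nat_lit 49) (nat_lit 5) (nat_lit 381) (nat_lit 336) (nat_lit 303))) (XT.nd (nat_lit 78) (nat_lit 0) (nat_lit 0) (XT.lf (nat_lit 0) (nat_lit 3900139985) (nat_lit 152) (nat_lit 2252672791) (nat_lit 228) (nat_lit 7384543354) (nat_lit 46) (nat_lit 5) (nat_lit 48) (nat_lit 5) (nat_lit 49) (nat_lit 5) (nat_lit 382) (nat_lit 336) (nat_lit 302)) (XT.lf (nat_lit 0) (nat_lit 10333956334) (nat_lit 228) (nat_lit 1206509648) (nat_lit 76) (nat_lit 2413313145) (nat_lit 46) (nat_lit 5) (nat_lit 49) (nat_lit 5) (nat_lit 47) (nat_lit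 4) (nat_lit 383) (nat_lit 336) (nat_lit 301))))))) (XT.nd (nat_lit 1014) (nat_lit 684) (nat_lit 0) (XT.nd (nat_lit 468) (nat_lit 608) (nat_lit 0) (XT.nd (nat_lit 234) (nat_lit 304) (nat_lit 0) (XT.nd (nat_lit 78) (nat_lit 152) (nat_lit 0) (XT.lf (nat_lit 0) (nat_lit 414207514) (nat_lit 228) (nat_lit 6650845069) (nat_lit 76) (nat_lit 7321144131) (nat_lit 43) (nat_lit 5) (nat_lit 46) (nat_lit 5) (nat_lit 44) (nat_lit 5) (nat_lit 384) (nat_lit 336) (nat_lit 300)) (XT.nd (nat_lit 78) (nat_lit 0) (nat_lit 0) (XT.lf (nat_lit 0) (nat_lit 2223841690) (nat_lit 152) (nat_lit 2292761910) (nat_lit 228) (nat_lit 10321268148) (nat_lit 41) (nat_lit 5) (nat_lit 43) (nat_lit 5) (nat_lit 44) (nat_lit 5) (nat_lit 385) (nat_lit 336) (nat_lit 299)) (XT.lf (nat_lit 0) (nat_lit 8914568116) (nat_lit 228) (nat_lit 3692978129) (nat_lit 76) (nat_lit 2700080274) (nat_lit 41) (nat_lit 5) (nat_lit 44) (nat_lit 5) (nat_lit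 42) (nat_lit 4) (nat_lit 386) (nat_lit 336) (nat_lit 298)))) (XT.nd (nat_lit 78) (nat_lit 228) (nat_lit 0) (XT.lf (nat_lit 0) (nat_lit 5709410099) (nat_lit 76) (nat_lit 7886441224) (nat_lit 152) (nat_lit 2201864220) (nat_lit 40) (nat_lit 5) (nat_lit 41) (nat_lit 5) (nat_lit 42) (nat_lit 4) (nat_lit 387) (nat_lit 336) (nat_lit 297)) (XT.nd (nat_lit 78) (nat_lit 152) (nat_lit 0) (XT.lf (nat_lit 0) (nat_lit 2129068119) (nat_lit 152) (nat_lit 744602522) (nat_lit 76) (nat_lit 13436909913) (nat_lit 39) (nat_lit 5) (nat_lit 41) (nat_lit 5) (nat_lit 40) (nat_lit 5) (nat_lit 388) (nat_lit 336) (nat_lit 296)) (XT.lf (nat_lit 0) (nat_lit 6726055644) (nat_lit 228) (nat_lit 7662311035) (nat_lit 76) (nat_lit 2452757198) (nat_lit 37) (nat_lit 5) (nat_lit 40) (nat_lit 5) (nat_lit 38) (nat_lit 4) (nat_lit 389) (nat_lit 336) (nat_lit 295))))) (XT.nd (nat_lit 234) (nat_lit 304) (nat_lit 0) (XT.nd (nat_lit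 78) (nat_lit 228) (nat_lit 0) (XT.lf (nat_lit 0) (nat_lit 2142428909) (nat_lit 76) (nat_lit 9444379713) (nat_lit 152) (nat_lit 5809704371) (nat_lit 36) (nat_lit 5) (nat_lit 37) (nat_lit 5) (nat_lit 38) (nat_lit 4) (nat_lit 390) (nat_lit 336) (nat_lit 294)) (XT.nd (nat_lit 78) (nat_lit 228) (nat_lit 0) (XT.lf (nat_lit 0) (nat_lit 12599613644) (nat_lit 76) (nat_lit 4162501659) (nat_lit 152) (nat_lit 1213994200) (nat_lit 36) (nat_lit 5) (nat_lit 37) (nat_lit 5) (nat_lit 38) (nat_lit 4) (nat_lit 391) (nat_lit 336) (nat_lit 293)) (XT.lf (nat_lit 0) (nat_lit 3540654352) (nat_lit 228) (nat_lit 13606105585) (nat_lit 76) (nat_lit 1432881909) (nat_lit 33) (nat_lit 5) (nat_lit 36) (nat_lit 5) (nat_lit 34) (nat_lit 4) (nat_lit 392) (nat_lit 336) (nat_lit 292)))) (XT.nd (nat_lit 156) (nat_lit 228) (nat_lit 0) (XT.nd (nat_lit 78) (nat_lit 76) (nat_lit 0) (XT.lf (nat_lit 0) (nat_lit 8597077181) (nat_lit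 228) (nat_lit 3371909652) (nat_lit 76) (nat_lit 7238138767) (nat_lit 33) (nat_lit 5) (nat_lit 36) (nat_lit 5) (nat_lit 34) (nat_lit 4) (nat_lit 393) (nat_lit 336) (nat_lit 291)) (XT.lf (nat_lit 0) (nat_lit 7518236746) (nat_lit 76) (nat_lit 6452185190) (nat_lit 152) (nat_lit 5892367874) (nat_lit 32) (nat_lit 5) (nat_lit 33) (nat_lit 5) (nat_lit 34) (nat_lit 4) (nat_lit 394) (nat_lit 336) (nat_lit 290))) (XT.nd (nat_lit 78) (nat_lit 228) (nat_lit 0) (XT.lf (nat_lit 0) (nat_lit 18975120371) (nat_lit 76) (nat_lit 642195017) (nat_lit 152) (nat_lit 933688536) (nat_lit 32) (nat_lit 5) (nat_lit 33) (nat_lit 5) (nat_lit 34) (nat_lit 4) (nat_lit 395) (nat_lit 336) (nat_lit 289)) (XT.lf (nat_lit 0) (nat_lit 4328194856) (nat_lit 228) (nat_lit 11464291642) (nat_lit 76) (nat_lit 5468214877) (nat_lit 29) (nat_lit 5) (nat_lit 32) (nat_lit 5) (nat_lit 30) (nat_lit 4) (nat_lit 396) (nat_lit 336) (nat_lit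 288)))))) (XT.nd (nat_lit 468) (nat_lit 380) (nat_lit 0) (XT.nd (nat_lit 234) (nat_lit 152) (nat_lit 0) (XT.nd (nat_lit 78) (nat_lit 152) (nat_lit 0) (XT.lf (nat_lit 0) (nat_lit 9809241252) (nat_lit 228) (nat_lit 331157394) (nat_lit 76) (nat_lit 11865356690) (nat_lit 29) (nat_lit 5) (nat_lit 32) (nat_lit 5) (nat_lit 30) (nat_lit 4) (nat_lit 397) (nat_lit 336) (nat_lit 287)) (XT.nd (nat_lit 78) (nat_lit 76) (nat_lit 0) (XT.lf (nat_lit 0) (nat_lit 11643325803) (nat_lit 76) (nat_lit 4054983148) (nat_lit 152) (nat_lit 7083063455) (nat_lit 28) (nat_lit 5) (nat_lit 29) (nat_lit 5) (nat_lit 30) (nat_lit 4) (nat_lit 398) (nat_lit 336) (nat_lit 286)) (XT.lf (nat_lit 0) (nat_lit 524502583) (nat_lit 76) (nat_lit 21360158476) (nat_lit 76) (nat_lit 1710976155) (nat_lit 27) (nat_lit 4) (nat_lit 28) (nat_lit 5) (nat_lit 28) (nat_lit 4) (nat_lit 399) (nat_lit 336) (nat_lit 285)))) (XT.nd (nat_lit 78) (nat_lit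 76) (nat_lit 0) (XT.lf (nat_lit 0) (nat_lit 4014760734) (nat_lit 152) (nat_lit 11503670109) (nat_lit 76) (nat_lit 8918583346) (nat_lit 26) (nat_lit 5) (nat_lit 28) (nat_lit 5) (nat_lit 27) (nat_lit 4) (nat_lit 400) (nat_lit 336) (nat_lit 284)) (XT.nd (nat_lit 78) (nat_lit 0) (nat_lit 0) (XT.lf (nat_lit 0) (nat_lit 547418674) (nat_lit 76) (nat_lit 9385293518) (nat_lit 152) (nat_lit 15388181280) (nat_lit 25) (nat_lit 5) (nat_lit 26) (nat_lit 5) (nat_lit 27) (nat_lit 4) (nat_lit 401) (nat_lit 336) (nat_lit 283)) (XT.lf (nat_lit 0) (nat_lit 13517580758) (nat_lit 76) (nat_lit 2779536496) (nat_lit 152) (nat_lit 9944328606) (nat_lit 25) (nat_lit 5) (nat_lit 26) (nat_lit 5) (nat_lit 27) (nat_lit 4) (nat_lit 402) (nat_lit 336) (nat_lit 282))))) (XT.nd (nat_lit 234) (nat_lit 228) (nat_lit 0) (XT.nd (nat_lit 78) (nat_lit 152) (nat_lit 0) (XT.lf (nat_lit 0) (nat_lit 23001907010) (nat_lit 152) (nat_lit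 217126914) (nat_lit 0) (nat_lit 3987890332) (nat_lit 25) (nat_lit 5) (nat_lit 27) (nat_lit 4) (nat_lit 25) (nat_lit 4) (nat_lit 403) (nat_lit 336) (nat_lit 281)) (XT.nd (nat_lit 78) (nat_lit 0) (nat_lit 0) (XT.lf (nat_lit 0) (nat_lit 1977629707) (nat_lit 152) (nat_lit 15026277498) (nat_lit 76) (nat_lit 11204620527) (nat_lit 23) (nat_lit 5) (nat_lit 25) (nat_lit 5) (nat_lit 24) (nat_lit 4) (nat_lit 404) (nat_lit 336) (nat_lit 280)) (XT.lf (nat_lit 0) (nat_lit 8291235120) (nat_lit 152) (nat_lit 2146626136) (nat_lit 76) (nat_lit 18820751988) (nat_lit 23) (nat_lit 5) (nat_lit 25) (nat_lit 5) (nat_lit 24) (nat_lit 4) (nat_lit 405) (nat_lit 336) (nat_lit 279)))) (XT.nd (nat_lit 156) (nat_lit 152) (nat_lit 0) (XT.nd (nat_lit 78) (nat_lit 0) (nat_lit 0) (XT.lf (nat_lit 0) (nat_lit 11677682743) (nat_lit 76) (nat_lit 3386497352) (nat_lit 152) (nat_lit 15289845411) (nat_lit 22) (nat_lit 5) (nat_lit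 23) (nat_lit 5) (nat_lit 24) (nat_lit 4) (nat_lit 406) (nat_lit 336) (nat_lit 278)) (XT.lf (nat_lit 0) (nat_lit 22236971972) (nat_lit 152) (nat_lit 5371254164) (nat_lit 0) (nat_lit 3892927442) (nat_lit 22) (nat_lit 5) (nat_lit 24) (nat_lit 4) (nat_lit 22) (nat_lit 4) (nat_lit 407) (nat_lit 336) (nat_lit 277))) (XT.nd (nat_lit 78) (nat_lit 76) (nat_lit 0) (XT.lf (nat_lit 0) (nat_lit 8753966312) (nat_lit 76) (nat_lit 21169985633) (nat_lit 76) (nat_lit 2773913616) (nat_lit 21) (nat_lit 4) (nat_lit 22) (nat_lit 5) (nat_lit 22) (nat_lit 4) (nat_lit 408) (nat_lit 336) (nat_lit 276)) (XT.lf (nat_lit 0) (nat_lit 3967427624) (nat_lit 152) (nat_lit 10312395373) (nat_lit 76) (nat_lit 19668645514) (nat_lit 20) (nat_lit 5) (nat_lit 22) (nat_lit 5) (nat_lit 21) (nat_lit 4) (nat_lit 409) (nat_lit 336) (nat_lit 275))))))))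
noncomputable def xc87 : XT := (XT.nd (nat_lit 1950) (nat_lit 456) (nat_lit 0) (XT.nd (nat_lit 936) (nat_lit 304) (nat_lit 0) (XT.nd (nat_lit 468) (nat_lit 228) (nat_lit 0) (XT.nd (nat_lit 234) (nat_lit 228) (nat_lit 0) (XT.nd (nat_lit 78) (nat_lit 0) (nat_lit 0) (XT.lf (nat_lit 0) (nat_lit 4017238221) (nat_lit 76) (nat_lit 6963274309) (nat_lit 152) (nat_lit 24277424724) (nat_lit 19) (nat_lit 5) (nat_lit 20) (nat_lit 5) (nat_lit 21) (nat_lit 4) (nat_lit 410) (nat_lit 336) (nat_lit 274)) (XT.nd (nat_lit 78) (nat_lit 0) (nat_lit 0) (XT.lf (nat_lit 0) (nat_lit 18498312709) (nat_lit 152) (nat_lit 17283560517) (nat_lit 0) (nat_lit 843307217) (nat_lit 19) (nat_lit 5) (nat_lit 21) (nat_lit 4) (nat_lit 19) (nat_lit 4) (nat_lit 411) (nat_lit 336) (nat_lit 273)) (XT.lf (nat_lit 0) (nat_lit 26473131492) (nat_lit 152) (nat_lit 2806240629) (nat_lit 0) (nat_lit 8777361104) (nat_lit 19) (nat_lit 5) (nat_lit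 21) (nat_lit 4) (nat_lit 19) (nat_lit 4) (nat_lit 412) (nat_lit 336) (nat_lit 272)))) (XT.nd (nat_lit 78) (nat_lit 152) (nat_lit 0) (XT.lf (nat_lit 0) (nat_lit 12742279175) (nat_lit 76) (nat_lit 22271903831) (nat_lit 76) (nat_lit 4537309732) (nat_lit 18) (nat_lit 4) (nat_lit 19) (nat_lit 5) (nat_lit 19) (nat_lit 4) (nat_lit 413) (nat_lit 336) (nat_lit 271)) (XT.nd (nat_lit 78) (nat_lit 76) (nat_lit 0) (XT.lf (nat_lit 0) (nat_lit 2786629425) (nat_lit 152) (nat_lit 12058978740) (nat_lit 76) (nat_lit 26272306161) (nat_lit 17) (nat_lit 5) (nat_lit 19) (nat_lit 5) (nat_lit 18) (nat_lit 4) (nat_lit 414) (nat_lit 336) (nat_lit 270)) (XT.lf (nat_lit 0) (nat_lit 3405709565) (nat_lit 76) (nat_lit 6941847936) (nat_lit 152) (nat_lit 32410219800) (nat_lit 16) (nat_lit 5) (nat_lit 17) (nat_lit 5) (nat_lit 18) (nat_lit 4) (nat_lit 415) (nat_lit 336) (nat_lit 269))))) (XT.nd (nat_lit 234) (nat_lit 152)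 (nat_lit 0) (XT.nd (nat_lit 78) (nat_lit 76) (nat_lit 0) (XT.lf (nat_lit 0) (nat_lit 18485505380) (nat_lit 152) (nat_lit 24489458636) (nat_lit 0) (nat_lit 1494723766) (nat_lit 16) (nat_lit 5) (nat_lit 18) (nat_lit 4) (nat_lit 16) (nat_lit 4) (nat_lit 416) (nat_lit 336) (nat_lit 268)) (XT.nd (nat_lit 78) (nat_lit 76) (nat_lit 0) (XT.lf (nat_lit 0) (nat_lit 27115782557) (nat_lit 152) (nat_lit 9052560971) (nat_lit 0) (nat_lit 10094581549) (nat_lit 16) (nat_lit 5) (nat_lit 18) (nat_lit 4) (nat_lit 16) (nat_lit 4) (nat_lit 417) (nat_lit 336) (nat_lit 267)) (XT.lf (nat_lit 0) (nat_lit 7338643914) (nat_lit 76) (nat_lit 28926488493) (nat_lit 76) (nat_lit 11876316635) (nat_lit 15) (nat_lit 4) (nat_lit 16) (nat_lit 5) (nat_lit 16) (nat_lit 4) (nat_lit 418) (nat_lit 336) (nat_lit 266)))) (XT.nd (nat_lit 78) (nat_lit 152) (nat_lit 0) (XT.lf (nat_lit 0) (nat_lit 24812118907) (nat_lit 76) (nat_lit 21186603708)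 (nat_lit 76) (nat_lit 4108840563) (nat_lit 15) (nat_lit 4) (nat_lit 16) (nat_lit 5) (nat_lit 16) (nat_lit 4) (nat_lit 419) (nat_lit 336) (nat_lit 265)) (XT.nd (nat_lit 78) (nat_lit 76) (nat_lit 0) (XT.lf (nat_lit 0) (nat_lit 3891790030) (nat_lit 152) (nat_lit 9125870999) (nat_lit 76) (nat_lit 39152449593) (nat_lit 14) (nat_lit 5) (nat_lit 16) (nat_lit 5) (nat_lit 15) (nat_lit 4) (nat_lit 420) (nat_lit 336) (nat_lit 264)) (XT.lf (nat_lit 0) (nat_lit 7993059803) (nat_lit 76) (nat_lit 4261636038) (nat_lit 152) (nat_lit 42072707571) (nat_lit 13) (nat_lit 5) (nat_lit 14) (nat_lit 5) (nat_lit 15) (nat_lit 4) (nat_lit 421) (nat_lit 336) (nat_lit 263)))))) (XT.nd (nat_lit 468) (nat_lit 152) (nat_lit 0) (XT.nd (nat_lit 234) (nat_lit 76) (nat_lit 0) (XT.nd (nat_lit 78) (nat_lit 76) (nat_lit 0) (XT.lf (nat_lit 0) (nat_lit 21245448721) (nat_lit 152) (nat_lit 30427276712) (nat_lit 0) (nat_lit 4909352470)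 (nat_lit 13) (nat_lit 5) (nat_lit 15) (nat_lit 4) (nat_lit 13) (nat_lit 4) (nat_lit 422) (nat_lit 336) (nat_lit 262)) (XT.nd (nat_lit 78) (nat_lit 76) (nat_lit 0) (XT.lf (nat_lit 0) (nat_lit 30732375275) (nat_lit 152) (nat_lit 13840120563) (nat_lit 0) (nat_lit 14374660530) (nat_lit 13) (nat_lit 5) (nat_lit 15) (nat_lit 4) (nat_lit 13) (nat_lit 4) (nat_lit 423) (nat_lit 336) (nat_lit 261)) (XT.lf (nat_lit 0) (nat_lit 3649976179) (nat_lit 76) (nat_lit 37078537520) (nat_lit 76) (nat_lit 20700233732) (nat_lit 12) (nat_lit 4) (nat_lit 13) (nat_lit 5) (nat_lit 13) (nat_lit 4) (nat_lit 424) (nat_lit 336) (nat_lit 260)))) (XT.nd (nat_lit 78) (nat_lit 76) (nat_lit 0) (XT.lf (nat_lit 0) (nat_lit 22452533656) (nat_lit 76) (nat_lit 28984582888) (nat_lit 76) (nat_lit 12586670487) (nat_lit 12) (nat_lit 4) (nat_lit 13) (nat_lit 5) (nat_lit 13) (nat_lit 4) (nat_lit 425) (nat_lit 336) (nat_lit 259)) (XT.nd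 (nat_lit 78) (nat_lit 76) (nat_lit 0) (XT.lf (nat_lit 0) (nat_lit 42154702971) (nat_lit 76) (nat_lit 20505749761) (nat_lit 76) (nat_lit 4089162491) (nat_lit 12) (nat_lit 4) (nat_lit 13) (nat_lit 5) (nat_lit 13) (nat_lit 4) (nat_lit 426) (nat_lit 336) (nat_lit 258)) (XT.lf (nat_lit 0) (nat_lit 4658491646) (nat_lit 152) (nat_lit 6884464984) (nat_lit 76) (nat_lit 58066008594) (nat_lit 11) (nat_lit 5) (nat_lit 13) (nat_lit 5) (nat_lit 12) (nat_lit 4) (nat_lit 427) (nat_lit 336) (nat_lit 257))))) (XT.nd (nat_lit 234) (nat_lit 76) (nat_lit 0) (XT.nd (nat_lit 78) (nat_lit 0) (nat_lit 0) (XT.lf (nat_lit 0) (nat_lit 11990870226) (nat_lit 76) (nat_lit 1883364770) (nat_lit 152) (nat_lit 58725291027) (nat_lit 10) (nat_lit 5) (nat_lit 11) (nat_lit 5) (nat_lit 12) (nat_lit 4) (nat_lit 428) (nat_lit 336) (nat_lit 256)) (XT.nd (nat_lit 78) (nat_lit 0) (nat_lit 0) (XT.lf (nat_lit 0) (nat_lit 23779188975)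 (nat_lit 152) (nat_lit 43853096784) (nat_lit 0) (nat_lit 8095909385) (nat_lit 10) (nat_lit 5) (nat_lit 12) (nat_lit 4) (nat_lit 10) (nat_lit 4) (nat_lit 429) (nat_lit 336) (nat_lit 255)) (XT.lf (nat_lit 0) (nat_lit 34192142642) (nat_lit 152) (nat_lit 26326288065) (nat_lit 0) (nat_lit 18494230803) (nat_lit 10) (nat_lit 5) (nat_lit 12) (nat_lit 4) (nat_lit 10) (nat_lit 4) (nat_lit 430) (nat_lit 336) (nat_lit 254)))) (XT.nd (nat_lit 156) (nat_lit 0) (nat_lit 0) (XT.nd (nat_lit 78) (nat_lit 76) (nat_lit 0) (XT.lf (nat_lit 0) (nat_lit 45108484141) (nat_lit 152) (nat_lit 7957094541) (nat_lit 0) (nat_lit 29396636827) (nat_lit 10) (nat_lit 5) (nat_lit 12) (nat_lit 4) (nat_lit 10) (nat_lit 4) (nat_lit 431) (nat_lit 336) (nat_lit 253)) (XT.lf (nat_lit 0) (nat_lit 11671790139) (nat_lit 76) (nat_lit 45064643975) (nat_lit 76) (nat_lit 29339524780) (nat_lit 9) (nat_lit 4) (nat_lit 10) (nat_lit 5) (nat_lit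 10) (nat_lit 4) (nat_lit 432) (nat_lit 336) (nat_lit 252))) (XT.nd (nat_lit 78) (nat_lit 0) (nat_lit 0) (XT.lf (nat_lit 0) (nat_lit 32526554305) (nat_lit 76) (nat_lit 36537832579) (nat_lit 76) (nat_lit 20800073499) (nat_lit 9) (nat_lit 4) (nat_lit 10) (nat_lit 5) (nat_lit 10) (nat_lit 4) (nat_lit 433) (nat_lit 336) (nat_lit 251)) (XT.lf (nat_lit 0) (nat_lit 54393754676) (nat_lit 76) (nat_lit 27599599810) (nat_lit 76) (nat_lit 11849802743) (nat_lit 9) (nat_lit 4) (nat_lit 10) (nat_lit 5) (nat_lit 10) (nat_lit 4) (nat_lit 434) (nat_lit 336) (nat_lit 250))))))) (XT.nd (nat_lit 1014) (nat_lit 228) (nat_lit 0) (XT.nd (nat_lit 468) (nat_lit 76) (nat_lit 0) (XT.nd (nat_lit 234) (nat_lit 0) (nat_lit 0) (XT.nd (nat_lit 78) (nat_lit 152) (nat_lit 0) (XT.lf (nat_lit 0) (nat_lit 77325456013) (nat_lit 76) (nat_lit 18228664161) (nat_lit 76) (nat_lit 2467402343) (nat_lit 9) (nat_lit 4) (nat_lit 10) (nat_lit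 5) (nat_lit 10) (nat_lit 4) (nat_lit 435) (nat_lit 336) (nat_lit 249)) (XT.nd (nat_lit 78) (nat_lit 76) (nat_lit 0) (XT.lf (nat_lit 0) (nat_lit 7133597787) (nat_lit 152) (nat_lit 1148305162) (nat_lit 76) (nat_lit 94121848890) (nat_lit 8) (nat_lit 5) (nat_lit 10) (nat_lit 5) (nat_lit 9) (nat_lit 4) (nat_lit 436) (nat_lit 336) (nat_lit 248)) (XT.lf (nat_lit 0) (nat_lit 17468989876) (nat_lit 152) (nat_lit 87079256297) (nat_lit 0) (nat_lit 2437961788) (nat_lit 7) (nat_lit 5) (nat_lit 9) (nat_lit 4) (nat_lit 7) (nat_lit 4) (nat_lit 437) (nat_lit 336) (nat_lit 247)))) (XT.nd (nat_lit 78) (nat_lit 0) (nat_lit 0) (XT.lf (nat_lit 0) (nat_lit 28463211826) (nat_lit 152) (nat_lit 69904721283) (nat_lit 0) (nat_lit 13422751661) (nat_lit 7) (nat_lit 5) (nat_lit 9) (nat_lit 4) (nat_lit 7) (nat_lit 4) (nat_lit 438) (nat_lit 336) (nat_lit 246)) (XT.nd (nat_lit 78) (nat_lit 0) (nat_lit 0) (XT.lf (nat_lit 0)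 (nat_lit 39994311968) (nat_lit 152) (nat_lit 51896847078) (nat_lit 0) (nat_lit 24944868871) (nat_lit 7) (nat_lit 5) (nat_lit 9) (nat_lit 4) (nat_lit 7) (nat_lit 4) (nat_lit 439) (nat_lit 336) (nat_lit 245)) (XT.lf (nat_lit 0) (nat_lit 52089745301) (nat_lit 152) (nat_lit 33012757791) (nat_lit 0) (nat_lit 37031747031) (nat_lit 7) (nat_lit 5) (nat_lit 9) (nat_lit 4) (nat_lit 7) (nat_lit 4) (nat_lit 440) (nat_lit 336) (nat_lit 244))))) (XT.nd (nat_lit 234) (nat_lit 0) (nat_lit 0) (XT.nd (nat_lit 78) (nat_lit 76) (nat_lit 0) (XT.lf (nat_lit 0) (nat_lit 64778310476) (nat_lit 152) (nat_lit 13207491304) (nat_lit 0) (nat_lit 49712164423) (nat_lit 7) (nat_lit 5) (nat_lit 9) (nat_lit 4) (nat_lit 7) (nat_lit 4) (nat_lit 441) (nat_lit 336) (nat_lit 243)) (XT.nd (nat_lit 78) (nat_lit 0) (nat_lit 0) (XT.lf (nat_lit 0) (nat_lit 7816277469) (nat_lit 76) (nat_lit 70395974889) (nat_lit 76) (nat_lit 55322069042)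 (nat_lit 6) (nat_lit 4) (nat_lit 7) (nat_lit 5) (nat_lit 7) (nat_lit 4) (nat_lit 442) (nat_lit 336) (nat_lit 242)) (XT.lf (nat_lit 0) (nat_lit 30328191950) (nat_lit 76) (nat_lit 62202480099) (nat_lit 76) (nat_lit 47121183973) (nat_lit 6) (nat_lit 4) (nat_lit 7) (nat_lit 5) (nat_lit 7) (nat_lit 4) (nat_lit 443) (nat_lit 336) (nat_lit 241)))) (XT.nd (nat_lit 156) (nat_lit 0) (nat_lit 0) (XT.nd (nat_lit 78) (nat_lit 0) (nat_lit 0) (XT.lf (nat_lit 0) (nat_lit 53945152625) (nat_lit 76) (nat_lit 53609484347) (nat_lit 76) (nat_lit 38521149859) (nat_lit 6) (nat_lit 4) (nat_lit 7) (nat_lit 5) (nat_lit 7) (nat_lit 4) (nat_lit 444) (nat_lit 336) (nat_lit 240)) (XT.lf (nat_lit 0) (nat_lit 78723390352) (nat_lit 76) (nat_lit 44596528119) (nat_lit 76) (nat_lit 29501490429) (nat_lit 6) (nat_lit 4) (nat_lit 7) (nat_lit 5) (nat_lit 7) (nat_lit 4) (nat_lit 445) (nat_lit 336) (nat_lit 239))) (XT.nd (nat_lit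 78) (nat_lit 0) (nat_lit 0) (XT.lf (nat_lit 0) (nat_lit 104721900935) (nat_lit 76) (nat_lit 35142151994) (nat_lit 76) (nat_lit 20040730302) (nat_lit 6) (nat_lit 4) (nat_lit 7) (nat_lit 5) (nat_lit 7) (nat_lit 4) (nat_lit 446) (nat_lit 336) (nat_lit 238)) (XT.lf (nat_lit 0) (nat_lit 132002585590) (nat_lit 76) (nat_lit 25223845554) (nat_lit 76) (nat_lit 10116343861) (nat_lit 6) (nat_lit 4) (nat_lit 7) (nat_lit 5) (nat_lit 7) (nat_lit 4) (nat_lit 447) (nat_lit 336) (nat_lit 237)))))) (XT.nd (nat_lit 468) (nat_lit 76) (nat_lit 0) (XT.nd (nat_lit 234) (nat_lit 0) (nat_lit 0) (XT.nd (nat_lit 78) (nat_lit 76) (nat_lit 0) (XT.lf (nat_lit 0) (nat_lit 285846994) (nat_lit 152) (nat_lit 14527305832) (nat_lit 76) (nat_lit 160339710377) (nat_lit 5) (nat_lit 5) (nat_lit 7) (nat_lit 5) (nat_lit 6) (nat_lit 4) (nat_lit 448) (nat_lit 336) (nat_lit 236)) (XT.nd (nat_lit 78) (nat_lit 0) (nat_lit 0) (XT.lf (nat_lit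 0) (nat_lit 7380218489) (nat_lit 76) (nat_lit 3594915852) (nat_lit 152) (nat_lit 172364681760) (nat_lit 4) (nat_lit 5) (nat_lit 5) (nat_lit 5) (nat_lit 6) (nat_lit 4) (nat_lit 449) (nat_lit 336) (nat_lit 235)) (XT.lf (nat_lit 0) (nat_lit 22568478828) (nat_lit 152) (nat_lit 161184545580) (nat_lit 0) (nat_lit 8164613071) (nat_lit 4) (nat_lit 5) (nat_lit 6) (nat_lit 4) (nat_lit 4) (nat_lit 4) (nat_lit 450) (nat_lit 336) (nat_lit 234)))) (XT.nd (nat_lit 78) (nat_lit 0) (nat_lit 0) (XT.lf (nat_lit 0) (nat_lit 34792570039) (nat_lit 152) (nat_lit 145745285922) (nat_lit 0) (nat_lit 20383940442) (nat_lit 4) (nat_lit 5) (nat_lit 6) (nat_lit 4) (nat_lit 4) (nat_lit 4) (nat_lit 451) (nat_lit 336) (nat_lit 233)) (XT.nd (nat_lit 78) (nat_lit 0) (nat_lit 0) (XT.lf (nat_lit 0) (nat_lit 47620386243) (nat_lit 152) (nat_lit 129548931784) (nat_lit 0) (nat_lit 33207219655) (nat_lit 4) (nat_lit 5) (nat_lit 6)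 (nat_lit 4) (nat_lit 4) (nat_lit 4) (nat_lit 452) (nat_lit 336) (nat_lit 232)) (XT.lf (nat_lit 0) (nat_lit 61082469859) (nat_lit 152) (nat_lit 112556920419) (nat_lit 0) (nat_lit 46664982328) (nat_lit 4) (nat_lit 5) (nat_lit 6) (nat_lit 4) (nat_lit 4) (nat_lit 4) (nat_lit 453) (nat_lit 336) (nat_lit 231))))) (XT.nd (nat_lit 234) (nat_lit 76) (nat_lit 0) (XT.nd (nat_lit 78) (nat_lit 0) (nat_lit 0) (XT.lf (nat_lit 0) (nat_lit 75210873467) (nat_lit 152) (nat_lit 94728794655) (nat_lit 0) (nat_lit 60789270751) (nat_lit 4) (nat_lit 5) (nat_lit 6) (nat_lit 4) (nat_lit 4) (nat_lit 4) (nat_lit 454) (nat_lit 336) (nat_lit 230)) (XT.nd (nat_lit 78) (nat_lit 0) (nat_lit 0) (XT.lf (nat_lit 0) (nat_lit 90039236124) (nat_lit 152) (nat_lit 76022106576) (nat_lit 0) (nat_lit 75613714185) (nat_lit 4) (nat_lit 5) (nat_lit 6) (nat_lit 4) (nat_lit 4) (nat_lit 4) (nat_lit 455) (nat_lit 336) (nat_lit 229)) (XT.lf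 (nat_lit 0) (nat_lit 105602863454) (nat_lit 152) (nat_lit 56392316446) (nat_lit 0) (nat_lit 91173608921) (nat_lit 4) (nat_lit 5) (nat_lit 6) (nat_lit 4) (nat_lit 4) (nat_lit 4) (nat_lit 456) (nat_lit 336) (nat_lit 228)))) (XT.nd (nat_lit 156) (nat_lit 76) (nat_lit 0) (XT.nd (nat_lit 78) (nat_lit 0) (nat_lit 0) (XT.lf (nat_lit 0) (nat_lit 121938811713) (nat_lit 152) (nat_lit 35792686672) (nat_lit 0) (nat_lit 107506002330) (nat_lit 4) (nat_lit 5) (nat_lit 6) (nat_lit 4) (nat_lit 4) (nat_lit 4) (nat_lit 457) (nat_lit 336) (nat_lit 227)) (XT.lf (nat_lit 0) (nat_lit 139085976016) (nat_lit 152) (nat_lit 14174170514) (nat_lit 0) (nat_lit 124649781061) (nat_lit 4) (nat_lit 5) (nat_lit 6) (nat_lit 4) (nat_lit 4) (nat_lit 4) (nat_lit 458) (nat_lit 336) (nat_lit 226))) (XT.nd (nat_lit 78) (nat_lit 0) (nat_lit 0) (XT.lf (nat_lit 0) (nat_lit 8796239273) (nat_lit 76) (nat_lit 148426277618) (nat_lit 76)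 (nat_lit 133986858308) (nat_lit 3) (nat_lit 4) (nat_lit 4) (nat_lit 5) (nat_lit 4) (nat_lit 4) (nat_lit 459) (nat_lit 336) (nat_lit 225)) (XT.lf (nat_lit 0) (nat_lit 33396868409) (nat_lit 76) (nat_lit 143103838056) (nat_lit 76) (nat_lit 128661347932) (nat_lit 3) (nat_lit 4) (nat_lit 4) (nat_lit 5) (nat_lit 4) (nat_lit 4) (nat_lit 460) (nat_lit 336) (nat_lit 224))))))))
noncomputable def xc88 : XT := (XT.nd (nat_lit 44616) (nat_lit 0) (nat_lit 4180) (XT.nd (nat_lit 936) (nat_lit 152) (nat_lit 0) (XT.nd (nat_lit 468) (nat_lit 0) (nat_lit 0) (XT.nd (nat_lit 234) (nat_lit 0) (nat_lit 0) (XT.nd (nat_lit 78) (nat_lit 0) (nat_lit 0) (XT.lf (nat_lit 0) (nat_lit 59217627730) (nat_lit 76) (nat_lit 137520201805) (nat_lit 76) (nat_lit 123074787096) (nat_lit 3) (nat_lit 4) (nat_lit 4) (nat_lit 5) (nat_lit 4) (nat_lit 4) (nat_lit 461) (nat_lit 336) (nat_lit 223)) (XT.nd (nat_lit 78) (nat_lit 0) (nat_lit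 0) (XT.lf (nat_lit 0) (nat_lit 86319995233) (nat_lit 76) (nat_lit 131662074494) (nat_lit 76) (nat_lit 117213874466) (nat_lit 3) (nat_lit 4) (nat_lit 4) (nat_lit 5) (nat_lit 4) (nat_lit 4) (nat_lit 462) (nat_lit 336) (nat_lit 222)) (XT.lf (nat_lit 0) (nat_lit 114768500366) (nat_lit 76) (nat_lit 125515508199) (nat_lit 76) (nat_lit 111064655487) (nat_lit 3) (nat_lit 4) (nat_lit 4) (nat_lit 5) (nat_lit 4) (nat_lit 4) (nat_lit 463) (nat_lit 336) (nat_lit 221)))) (XT.nd (nat_lit 78) (nat_lit 0) (nat_lit 0) (XT.lf (nat_lit 0) (nat_lit 144630877665) (nat_lit 76) (nat_lit 119065868240) (nat_lit 76) (nat_lit 104612489161) (nat_lit 3) (nat_lit 4) (nat_lit 4) (nat_lit 5) (nat_lit 4) (nat_lit 4) (nat_lit 464) (nat_lit 336) (nat_lit 220)) (XT.nd (nat_lit 78) (nat_lit 0) (nat_lit 0) (XT.lf (nat_lit 0) (nat_lit 175978228027) (nat_lit 76) (nat_lit 112297798330) (nat_lit 76) (nat_lit 97842013189) (nat_lit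 3) (nat_lit 4) (nat_lit 4) (nat_lit 5) (nat_lit 4) (nat_lit 4) (nat_lit 465) (nat_lit 336) (nat_lit 219)) (XT.lf (nat_lit 0) (nat_lit 208885188002) (nat_lit 76) (nat_lit 105195184018) (nat_lit 76) (nat_lit 90737107388) (nat_lit 3) (nat_lit 4) (nat_lit 4) (nat_lit 5) (nat_lit 4) (nat_lit 4) (nat_lit 466) (nat_lit 336) (nat_lit 218))))) (XT.nd (nat_lit 234) (nat_lit 0) (nat_lit 0) (XT.nd (nat_lit 78) (nat_lit 0) (nat_lit 0) (XT.lf (nat_lit 0) (nat_lit 243430107493) (nat_lit 76) (nat_lit 97741114317) (nat_lit 76) (nat_lit 83280855317) (nat_lit 3) (nat_lit 4) (nat_lit 4) (nat_lit 5) (nat_lit 4) (nat_lit 4) (nat_lit 467) (nat_lit 336) (nat_lit 217)) (XT.nd (nat_lit 78) (nat_lit 0) (nat_lit 0) (XT.lf (nat_lit 0) (nat_lit 279695236310) (nat_lit 76) (nat_lit 89917841442) (nat_lit 76) (nat_lit 75455503995) (nat_lit 3) (nat_lit 4) (nat_lit 4) (nat_lit 5) (nat_lit 4) (nat_lit 4) (nat_lit 468) (nat_lit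 336) (nat_lit 216)) (XT.lf (nat_lit 0) (nat_lit 317766919997) (nat_lit 76) (nat_lit 81706738554) (nat_lit 76) (nat_lit 67242421632) (nat_lit 3) (nat_lit 4) (nat_lit 4) (nat_lit 5) (nat_lit 4) (nat_lit 4) (nat_lit 469) (nat_lit 336) (nat_lit 215)))) (XT.nd (nat_lit 78) (nat_lit 0) (nat_lit 0) (XT.lf (nat_lit 0) (nat_lit 357735805420) (nat_lit 76) (nat_lit 73088255406) (nat_lit 76) (nat_lit 58622053271) (nat_lit 3) (nat_lit 4) (nat_lit 4) (nat_lit 5) (nat_lit 4) (nat_lit 4) (nat_lit 470) (nat_lit 336) (nat_lit 214)) (XT.nd (nat_lit 78) (nat_lit 0) (nat_lit 0) (XT.lf (nat_lit 0) (nat_lit 399697056592) (nat_lit 76) (nat_lit 64041871801) (nat_lit 76) (nat_lit 49573874225) (nat_lit 3) (nat_lit 4) (nat_lit 4) (nat_lit 5) (nat_lit 4) (nat_lit 4) (nat_lit 471) (nat_lit 336) (nat_lit 213)) (XT.lf (nat_lit 0) (nat_lit 443750581254) (nat_lit 76) (nat_lit 54546048731) (nat_lit 76) (nat_lit 40076341210)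 (nat_lit 3) (nat_lit 4) (nat_lit 4) (nat_lit 5) (nat_lit 4) (nat_lit 4) (nat_lit 472) (nat_lit 336) (nat_lit 212)))))) (XT.nd (nat_lit 468) (nat_lit 0) (nat_lit 0) (XT.nd (nat_lit 234) (nat_lit 152) (nat_lit 0) (XT.nd (nat_lit 78) (nat_lit 0) (nat_lit 0) (XT.lf (nat_lit 0) (nat_lit 490001268750) (nat_lit 76) (nat_lit 44578177092) (nat_lit 76) (nat_lit 30106841053) (nat_lit 3) (nat_lit 4) (nat_lit 4) (nat_lit 5) (nat_lit 4) (nat_lit 4) (nat_lit 473) (nat_lit 336) (nat_lit 211)) (XT.nd (nat_lit 78) (nat_lit 0) (nat_lit 0) (XT.lf (nat_lit 0) (nat_lit 538559239765) (nat_lit 76) (nat_lit 34114523858) (nat_lit 76) (nat_lit 19641636849) (nat_lit 3) (nat_lit 4) (nat_lit 4) (nat_lit 5) (nat_lit 4) (nat_lit 4) (nat_lit 474) (nat_lit 336) (nat_lit 210)) (XT.lf (nat_lit 0) (nat_lit 589540108515) (nat_lit 76) (nat_lit 23130175568) (nat_lit 76) (nat_lit 8655811445) (nat_lit 3) (nat_lit 4) (nat_lit 4)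 (nat_lit 5) (nat_lit 4) (nat_lit 4) (nat_lit 475) (nat_lit 336) (nat_lit 209)))) (XT.nd (nat_lit 78) (nat_lit 76) (nat_lit 0) (XT.lf (nat_lit 0) (nat_lit 2784716579) (nat_lit 152) (nat_lit 8767101909) (nat_lit 76) (nat_lit 640233380919) (nat_lit 2) (nat_lit 5) (nat_lit 4) (nat_lit 5) (nat_lit 3) (nat_lit 4) (nat_lit 476) (nat_lit 336) (nat_lit 208)) (XT.nd (nat_lit 78) (nat_lit 0) (nat_lit 0) (XT.lf (nat_lit 0) (nat_lit 14765907077) (nat_lit 152) (nat_lit 668003097575) (nat_lit 0) (nat_lit 978182617) (nat_lit 1) (nat_lit 5) (nat_lit 3) (nat_lit 4) (nat_lit 1) (nat_lit 4) (nat_lit 477) (nat_lit 336) (nat_lit 207)) (XT.lf (nat_lit 0) (nat_lit 27684127444) (nat_lit 152) (nat_lit 675711060921) (nat_lit 0) (nat_lit 13895187758) (nat_lit 1) (nat_lit 5) (nat_lit 3) (nat_lit 4) (nat_lit 1) (nat_lit 4) (nat_lit 478) (nat_lit 336) (nat_lit 206))))) (XT.nd (nat_lit 42900) (nat_lit 0) (nat_lit 10944)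 (XT.nd (nat_lit 42744) (nat_lit 0) (nat_lit 12160) (XT.lf (nat_lit 0) (nat_lit 41246056103) (nat_lit 152) (nat_lit 683808819502) (nat_lit 0) (nat_lit 27455959060) (nat_lit 1) (nat_lit 5) (nat_lit 3) (nat_lit 4) (nat_lit 1) (nat_lit 4) (nat_lit 479) (nat_lit 336) (nat_lit 205)) (XT.nd (nat_lit 78) (nat_lit 76) (nat_lit 0) (XT.lf (nat_lit 0) (nat_lit 757846513) (nat_lit 228) (nat_lit 1257725230) (nat_lit 228) (nat_lit 1257725230) (nat_lit 162) (nat_lit 4) (nat_lit 165) (nat_lit 5) (nat_lit 165) (nat_lit 4) (nat_lit 346) (nat_lit 337) (nat_lit 337)) (XT.lf (nat_lit 0) (nat_lit 643902400) (nat_lit 304) (nat_lit 1135768834) (nat_lit 76) (nat_lit 4806789927) (nat_lit 161) (nat_lit 5) (nat_lit 165) (nat_lit 5) (nat_lit 162) (nat_lit 4) (nat_lit 347) (nat_lit 337) (nat_lit 336)))) (XT.nd (nat_lit 156) (nat_lit 456) (nat_lit 0) (XT.nd (nat_lit 78) (nat_lit 456) (nat_lit 0) (XT.lf (nat_lit 0) (nat_lit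 2876950717) (nat_lit 304) (nat_lit 865267262) (nat_lit 380) (nat_lit 2890976563) (nat_lit 157) (nat_lit 5) (nat_lit 161) (nat_lit 5) (nat_lit 162) (nat_lit 4) (nat_lit 348) (nat_lit 337) (nat_lit 335)) (XT.lf (nat_lit 0) (nat_lit 154542292) (nat_lit 456) (nat_lit 6370855723) (nat_lit 76) (nat_lit 164244572) (nat_lit 151) (nat_lit 5) (nat_lit 157) (nat_lit 5) (nat_lit 152) (nat_lit 4) (nat_lit 349) (nat_lit 337) (nat_lit 334))) (XT.nd (nat_lit 78) (nat_lit 456) (nat_lit 0) (XT.lf (nat_lit 0) (nat_lit 3165149926) (nat_lit 456) (nat_lit 2219477106) (nat_lit 76) (nat_lit 1366600348) (nat_lit 151) (nat_lit 5) (nat_lit 157) (nat_lit 5) (nat_lit 152) (nat_lit 4) (nat_lit 350) (nat_lit 337) (nat_lit 333)) (XT.lf (nat_lit 0) (nat_lit 2073353028) (nat_lit 456) (nat_lit 4124474563) (nat_lit 532) (nat_lit 624660583) (nat_lit 145) (nat_lit 5) (nat_lit 151) (nat_lit 5) (nat_lit 152) (nat_lit 4) (nat_lit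 351) (nat_lit 337) (nat_lit 332))))))) (XT.nd (nat_lit 1014) (nat_lit 2432) (nat_lit 0) (XT.nd (nat_lit 468) (nat_lit 1520) (nat_lit 0) (XT.nd (nat_lit 234) (nat_lit 1520) (nat_lit 0) (XT.nd (nat_lit 78) (nat_lit 1216) (nat_lit 0) (XT.lf (nat_lit 0) (nat_lit 2285589142) (nat_lit 532) (nat_lit 412683815) (nat_lit 76) (nat_lit 4203242283) (nat_lit 144) (nat_lit 5) (nat_lit 151) (nat_lit 5) (nat_lit 145) (nat_lit 5) (nat_lit 352) (nat_lit 337) (nat_lit 331)) (XT.nd (nat_lit 78) (nat_lit 684) (nat_lit 0) (XT.lf (nat_lit 0) (nat_lit 4133386991) (nat_lit 532) (nat_lit 1101112931) (nat_lit 608) (nat_lit 1753924743) (nat_lit 137) (nat_lit 5) (nat_lit 144) (nat_lit 5) (nat_lit 145) (nat_lit 5) (nat_lit 353) (nat_lit 337) (nat_lit 330)) (XT.lf (nat_lit 0) (nat_lit 1107873757) (nat_lit 684) (nat_lit 5348832488) (nat_lit 76) (nat_lit 627295601) (nat_lit 128) (nat_lit 5) (nat_lit 137) (nat_lit 5) (nat_lit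 129) (nat_lit 5) (nat_lit 354) (nat_lit 337) (nat_lit 329)))) (XT.nd (nat_lit 78) (nat_lit 1520) (nat_lit 0) (XT.lf (nat_lit 0) (nat_lit 3978480730) (nat_lit 684) (nat_lit 713054615) (nat_lit 76) (nat_lit 2495281452) (nat_lit 128) (nat_lit 5) (nat_lit 137) (nat_lit 5) (nat_lit 129) (nat_lit 5) (nat_lit 355) (nat_lit 337) (nat_lit 328)) (XT.nd (nat_lit 78) (nat_lit 836) (nat_lit 0) (XT.lf (nat_lit 0) (nat_lit 4156572270) (nat_lit 684) (nat_lit 2765195618) (nat_lit 760) (nat_lit 376670590) (nat_lit 119) (nat_lit 5) (nat_lit 128) (nat_lit 5) (nat_lit 129) (nat_lit 5) (nat_lit 356) (nat_lit 337) (nat_lit 327)) (XT.lf (nat_lit 0) (nat_lit 1761653043) (nat_lit 760) (nat_lit 658036704) (nat_lit 836) (nat_lit 4998725584) (nat_lit 108) (nat_lit 5) (nat_lit 118) (nat_lit 5) (nat_lit 119) (nat_lit 5) (nat_lit 357) (nat_lit 337) (nat_lit 326))))) (XT.nd (nat_lit 234) (nat_lit 760) (nat_lit 0) (XT.nd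 (nat_lit 78) (nat_lit 760) (nat_lit 0) (XT.lf (nat_lit 0) (nat_lit 5292280550) (nat_lit 836) (nat_lit 691399081) (nat_lit 76) (nat_lit 1563055759) (nat_lit 108) (nat_lit 5) (nat_lit 119) (nat_lit 5) (nat_lit 109) (nat_lit 5) (nat_lit 358) (nat_lit 337) (nat_lit 325)) (XT.nd (nat_lit 78) (nat_lit 304) (nat_lit 0) (XT.lf (nat_lit 0) (nat_lit 564491308) (nat_lit 456) (nat_lit 3167704610) (nat_lit 76) (nat_lit 3951006260) (nat_lit 102) (nat_lit 5) (nat_lit 108) (nat_lit 5) (nat_lit 103) (nat_lit 5) (nat_lit 359) (nat_lit 337) (nat_lit 324)) (XT.lf (nat_lit 0) (nat_lit 2076956680) (nat_lit 304) (nat_lit 1294666421) (nat_lit 380) (nat_lit 4456963290) (nat_lit 98) (nat_lit 5) (nat_lit 102) (nat_lit 5) (nat_lit 103) (nat_lit 5) (nat_lit 360) (nat_lit 337) (nat_lit 323)))) (XT.nd (nat_lit 156) (nat_lit 304) (nat_lit 0) (XT.nd (nat_lit 78) (nat_lit 456) (nat_lit 0) (XT.lf (nat_lit 0) (nat_lit 6275579300)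 (nat_lit 380) (nat_lit 442169989) (nat_lit 76) (nat_lit 1265754885) (nat_lit 98) (nat_lit 5) (nat_lit 103) (nat_lit 5) (nat_lit 99) (nat_lit 5) (nat_lit 361) (nat_lit 337) (nat_lit 322)) (XT.lf (nat_lit 0) (nat_lit 1129960855) (nat_lit 456) (nat_lit 3019065608) (nat_lit 76) (nat_lit 3996845100) (nat_lit 92) (nat_lit 5) (nat_lit 98) (nat_lit 5) (nat_lit 93) (nat_lit 5) (nat_lit 362) (nat_lit 337) (nat_lit 321))) (XT.nd (nat_lit 78) (nat_lit 0) (nat_lit 0) (XT.lf (nat_lit 0) (nat_lit 2596652985) (nat_lit 304) (nat_lit 1393127477) (nat_lit 380) (nat_lit 4328380870) (nat_lit 88) (nat_lit 5) (nat_lit 92) (nat_lit 5) (nat_lit 93) (nat_lit 5) (nat_lit 363) (nat_lit 337) (nat_lit 320)) (XT.lf (nat_lit 0) (nat_lit 6960168326) (nat_lit 380) (nat_lit 57705227) (nat_lit 76) (nat_lit 1482885366) (nat_lit 88) (nat_lit 5) (nat_lit 93) (nat_lit 5) (nat_lit 89) (nat_lit 5) (nat_lit 364) (nat_lit 337) (nat_lit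 319)))))) (XT.nd (nat_lit 468) (nat_lit 988) (nat_lit 0) (XT.nd (nat_lit 234) (nat_lit 532) (nat_lit 0) (XT.nd (nat_lit 78) (nat_lit 532) (nat_lit 0) (XT.lf (nat_lit 0) (nat_lit 1355053344) (nat_lit 380) (nat_lit 2786081195) (nat_lit 76) (nat_lit 4549692719) (nat_lit 83) (nat_lit 5) (nat_lit 88) (nat_lit 5) (nat_lit 84) (nat_lit 5) (nat_lit 365) (nat_lit 337) (nat_lit 318)) (XT.nd (nat_lit 78) (nat_lit 304) (nat_lit 0) (XT.lf (nat_lit 0) (nat_lit 3225101269) (nat_lit 228) (nat_lit 1068483563) (nat_lit 304) (nat_lit 4598119800) (nat_lit 80) (nat_lit 5) (nat_lit 83) (nat_lit 5) (nat_lit 84) (nat_lit 5) (nat_lit 366) (nat_lit 337) (nat_lit 317)) (XT.lf (nat_lit 0) (nat_lit 378694120) (nat_lit 304) (nat_lit 6988824033) (nat_lit 380) (nat_lit 1735743353) (nat_lit 76) (nat_lit 5) (nat_lit 80) (nat_lit 5) (nat_lit 81) (nat_lit 5) (nat_lit 367) (nat_lit 337) (nat_lit 316)))) (XT.nd (nat_lit 78)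 (nat_lit 456) (nat_lit 0) (XT.lf (nat_lit 0) (nat_lit 1246135776) (nat_lit 380) (nat_lit 2569951666) (nat_lit 76) (nat_lit 5507520241) (nat_lit 75) (nat_lit 5) (nat_lit 80) (nat_lit 5) (nat_lit 76) (nat_lit 5) (nat_lit 368) (nat_lit 337) (nat_lit 315)) (XT.nd (nat_lit 78) (nat_lit 228) (nat_lit 0) (XT.lf (nat_lit 0) (nat_lit 3860423213) (nat_lit 228) (nat_lit 425261349) (nat_lit 304) (nat_lit 5269569770) (nat_lit 72) (nat_lit 5) (nat_lit 75) (nat_lit 5) (nat_lit 76) (nat_lit 5) (nat_lit 369) (nat_lit 337) (nat_lit 314)) (XT.lf (nat_lit 0) (nat_lit 750508277) (nat_lit 228) (nat_lit 6740201409) (nat_lit 304) (nat_lit 2307147548) (nat_lit 69) (nat_lit 5) (nat_lit 72) (nat_lit 5) (nat_lit 73) (nat_lit 5) (nat_lit 370) (nat_lit 337) (nat_lit 313))))) (XT.nd (nat_lit 234) (nat_lit 456) (nat_lit 0) (XT.nd (nat_lit 78) (nat_lit 456) (nat_lit 0) (XT.lf (nat_lit 0) (nat_lit 792141143) (nat_lit 304)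 (nat_lit 2483077458) (nat_lit 76) (nat_lit 6776065883) (nat_lit 68) (nat_lit 5) (nat_lit 72) (nat_lit 5) (nat_lit 69) (nat_lit 5) (nat_lit 371) (nat_lit 337) (nat_lit 312)) (XT.nd (nat_lit 78) (nat_lit 228) (nat_lit 0) (XT.lf (nat_lit 0) (nat_lit 3957967463) (nat_lit 304) (nat_lit 5935056042) (nat_lit 76) (nat_lit 423055274) (nat_lit 65) (nat_lit 5) (nat_lit 69) (nat_lit 5) (nat_lit 66) (nat_lit 5) (nat_lit 372) (nat_lit 337) (nat_lit 311)) (XT.lf (nat_lit 0) (nat_lit 932487764) (nat_lit 228) (nat_lit 6375975835) (nat_lit 304) (nat_lit 3284370464) (nat_lit 62) (nat_lit 5) (nat_lit 65) (nat_lit 5) (nat_lit 66) (nat_lit 5) (nat_lit 373) (nat_lit 337) (nat_lit 310)))) (XT.nd (nat_lit 156) (nat_lit 228) (nat_lit 0) (XT.nd (nat_lit 78) (nat_lit 228) (nat_lit 0) (XT.lf (nat_lit 0) (nat_lit 8225983930) (nat_lit 228) (nat_lit 2618501222) (nat_lit 304) (nat_lit 38080216) (nat_lit 62) (nat_lit 5)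 (nat_lit 65) (nat_lit 5) (nat_lit 66) (nat_lit 5) (nat_lit 374) (nat_lit 337) (nat_lit 309)) (XT.lf (nat_lit 0) (nat_lit 3277859850) (nat_lit 228) (nat_lit 6532603574) (nat_lit 76) (nat_lit 1372962716) (nat_lit 59) (nat_lit 5) (nat_lit 62) (nat_lit 5) (nat_lit 60) (nat_lit 5) (nat_lit 375) (nat_lit 337) (nat_lit 308))) (XT.nd (nat_lit 78) (nat_lit 0) (nat_lit 0) (XT.lf (nat_lit 0) (nat_lit 777716917) (nat_lit 228) (nat_lit 6002817123) (nat_lit 304) (nat_lit 4717686927) (nat_lit 56) (nat_lit 5) (nat_lit 59) (nat_lit 5) (nat_lit 60) (nat_lit 5) (nat_lit 376) (nat_lit 337) (nat_lit 307)) (XT.lf (nat_lit 0) (nat_lit 8560678839) (nat_lit 228) (nat_lit 1931589617) (nat_lit 304) (nat_lit 1334822250) (nat_lit 56) (nat_lit 5) (nat_lit 59) (nat_lit 5) (nat_lit 60) (nat_lit 5) (nat_lit 377) (nat_lit 337) (nat_lit 306))))))))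
noncomputable def xc89 : XT := (XT.nd (nat_lit 1950) (nat_lit 1064) (nat_lit 0) (XT.nd (nat_lit 936) (nat_lit 912) (nat_lit 0) (XT.nd (nat_lit 468) (nat_lit 684) (nat_lit 0) (XT.nd (nat_lit 234) (nat_lit 380) (nat_lit 0) (XT.nd (nat_lit 78) (nat_lit 152) (nat_lit 0) (XT.lf (nat_lit 0) (nat_lit 2180718292) (nat_lit 228) (nat_lit 7653416169) (nat_lit 76) (nat_lit 2334842398) (nat_lit 53) (nat_lit 5) (nat_lit 56) (nat_lit 5) (nat_lit 54) (nat_lit 5) (nat_lit 378) (nat_lit 337) (nat_lit 305)) (XT.nd (nat_lit 78) (nat_lit 0) (nat_lit 0) (XT.lf (nat_lit 0) (nat_lit 106210970) (nat_lit 152) (nat_lit 5737326414) (nat_lit 228) (nat_lit 6682535010) (nat_lit 51) (nat_lit 5) (nat_lit 53) (nat_lit 5) (nat_lit 54) (nat_lit 5) (nat_lit 379) (nat_lit 337) (nat_lit 304)) (XT.lf (nat_lit 0) (nat_lit 8403848425) (nat_lit 152) (nat_lit 1343753910) (nat_lit 228) (nat_lit 3150541040) (nat_lit 51) (nat_lit 5)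 (nat_lit 53) (nat_lit 5) (nat_lit 54) (nat_lit 5) (nat_lit 380) (nat_lit 337) (nat_lit 303)))) (XT.nd (nat_lit 78) (nat_lit 152) (nat_lit 0) (XT.lf (nat_lit 0) (nat_lit 582220532) (nat_lit 228) (nat_lit 9511471743) (nat_lit 76) (nat_lit 3192612042) (nat_lit 48) (nat_lit 5) (nat_lit 51) (nat_lit 5) (nat_lit 49) (nat_lit 5) (nat_lit 381) (nat_lit 337) (nat_lit 302)) (XT.nd (nat_lit 78) (nat_lit 152) (nat_lit 0) (XT.lf (nat_lit 0) (nat_lit 4426784570) (nat_lit 228) (nat_lit 1264949533) (nat_lit 76) (nat_lit 7998027016) (nat_lit 48) (nat_lit 5) (nat_lit 51) (nat_lit 5) (nat_lit 49) (nat_lit 5) (nat_lit 382) (nat_lit 337) (nat_lit 301)) (XT.lf (nat_lit 0) (nat_lit 7526798184) (nat_lit 152) (nat_lit 989201285) (nat_lit 228) (nat_lit 5594791479) (nat_lit 46) (nat_lit 5) (nat_lit 48) (nat_lit 5) (nat_lit 49) (nat_lit 5) (nat_lit 383) (nat_lit 337) (nat_lit 300))))) (XT.nd (nat_lit 234) (nat_lit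 304) (nat_lit 0) (XT.nd (nat_lit 78) (nat_lit 228) (nat_lit 0) (XT.lf (nat_lit 0) (nat_lit 2148205952) (nat_lit 152) (nat_lit 10714112391) (nat_lit 228) (nat_lit 1687942067) (nat_lit 44) (nat_lit 5) (nat_lit 46) (nat_lit 5) (nat_lit 47) (nat_lit 4) (nat_lit 384) (nat_lit 337) (nat_lit 299)) (XT.nd (nat_lit 78) (nat_lit 152) (nat_lit 0) (XT.lf (nat_lit 0) (nat_lit 2402550805) (nat_lit 228) (nat_lit 3625449348) (nat_lit 76) (nat_lit 8978558345) (nat_lit 43) (nat_lit 5) (nat_lit 46) (nat_lit 5) (nat_lit 44) (nat_lit 5) (nat_lit 385) (nat_lit 337) (nat_lit 298)) (XT.lf (nat_lit 0) (nat_lit 5638811460) (nat_lit 152) (nat_lit 1029139658) (nat_lit 228) (nat_lit 8814998916) (nat_lit 41) (nat_lit 5) (nat_lit 43) (nat_lit 5) (nat_lit 44) (nat_lit 5) (nat_lit 386) (nat_lit 337) (nat_lit 297)))) (XT.nd (nat_lit 78) (nat_lit 304) (nat_lit 0) (XT.lf (nat_lit 0) (nat_lit 11214616373) (nat_lit 228) (nat_lit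 659460864) (nat_lit 76) (nat_lit 4105700867) (nat_lit 41) (nat_lit 5) (nat_lit 44) (nat_lit 5) (nat_lit 42) (nat_lit 4) (nat_lit 387) (nat_lit 337) (nat_lit 296)) (XT.nd (nat_lit 78) (nat_lit 228) (nat_lit 0) (XT.lf (nat_lit 0) (nat_lit 9161140870) (nat_lit 76) (nat_lit 6929956122) (nat_lit 152) (nat_lit 405242390) (nat_lit 40) (nat_lit 5) (nat_lit 41) (nat_lit 5) (nat_lit 42) (nat_lit 4) (nat_lit 388) (nat_lit 337) (nat_lit 295)) (XT.lf (nat_lit 0) (nat_lit 2368008939) (nat_lit 152) (nat_lit 1662282177) (nat_lit 228) (nat_lit 13005636192) (nat_lit 37) (nat_lit 5) (nat_lit 39) (nat_lit 5) (nat_lit 40) (nat_lit 5) (nat_lit 389) (nat_lit 337) (nat_lit 294)))))) (XT.nd (nat_lit 468) (nat_lit 532) (nat_lit 0) (XT.nd (nat_lit 234) (nat_lit 228) (nat_lit 0) (XT.nd (nat_lit 78) (nat_lit 152) (nat_lit 0) (XT.lf (nat_lit 0) (nat_lit 8804018419) (nat_lit 228) (nat_lit 4954815068) (nat_lit 76) (nat_lit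 3836840924) (nat_lit 37) (nat_lit 5) (nat_lit 40) (nat_lit 5) (nat_lit 38) (nat_lit 4) (nat_lit 390) (nat_lit 337) (nat_lit 293)) (XT.nd (nat_lit 78) (nat_lit 76) (nat_lit 0) (XT.lf (nat_lit 0) (nat_lit 5290313301) (nat_lit 76) (nat_lit 8582034385) (nat_lit 152) (nat_lit 4308278489) (nat_lit 36) (nat_lit 5) (nat_lit 37) (nat_lit 5) (nat_lit 38) (nat_lit 4) (nat_lit 391) (nat_lit 337) (nat_lit 292)) (XT.lf (nat_lit 0) (nat_lit 418064973) (nat_lit 152) (nat_lit 2674468005) (nat_lit 76) (nat_lit 15700413930) (nat_lit 35) (nat_lit 5) (nat_lit 37) (nat_lit 5) (nat_lit 36) (nat_lit 5) (nat_lit 392) (nat_lit 337) (nat_lit 291)))) (XT.nd (nat_lit 78) (nat_lit 76) (nat_lit 0) (XT.lf (nat_lit 0) (nat_lit 5356370733) (nat_lit 228) (nat_lit 11321834981) (nat_lit 76) (nat_lit 2748136317) (nat_lit 33) (nat_lit 5) (nat_lit 36) (nat_lit 5) (nat_lit 34) (nat_lit 4) (nat_lit 393) (nat_lit 337) (nat_lit 290))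 (XT.nd (nat_lit 78) (nat_lit 76) (nat_lit 0) (XT.lf (nat_lit 0) (nat_lit 10587582148) (nat_lit 228) (nat_lit 717099532) (nat_lit 76) (nat_lit 8784436480) (nat_lit 33) (nat_lit 5) (nat_lit 36) (nat_lit 5) (nat_lit 34) (nat_lit 4) (nat_lit 394) (nat_lit 337) (nat_lit 289)) (XT.lf (nat_lit 0) (nat_lit 10672015386) (nat_lit 76) (nat_lit 5526632320) (nat_lit 152) (nat_lit 4580480963) (nat_lit 32) (nat_lit 5) (nat_lit 33) (nat_lit 5) (nat_lit 34) (nat_lit 4) (nat_lit 395) (nat_lit 337) (nat_lit 288))))) (XT.nd (nat_lit 234) (nat_lit 228) (nat_lit 0) (XT.nd (nat_lit 78) (nat_lit 76) (nat_lit 0) (XT.lf (nat_lit 0) (nat_lit 557515478) (nat_lit 228) (nat_lit 20422211194) (nat_lit 76) (nat_lit 523981173) (nat_lit 29) (nat_lit 5) (nat_lit 32) (nat_lit 5) (nat_lit 30) (nat_lit 4) (nat_lit 396) (nat_lit 337) (nat_lit 287)) (XT.nd (nat_lit 78) (nat_lit 76) (nat_lit 0) (XT.lf (nat_lit 0) (nat_lit 6015237014)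 (nat_lit 228) (nat_lit 9331987630) (nat_lit 76) (nat_lit 6902707727) (nat_lit 29) (nat_lit 5) (nat_lit 32) (nat_lit 5) (nat_lit 30) (nat_lit 4) (nat_lit 397) (nat_lit 337) (nat_lit 286)) (XT.lf (nat_lit 0) (nat_lit 2302668895) (nat_lit 76) (nat_lit 9433587833) (nat_lit 152) (nat_lit 11297699226) (nat_lit 28) (nat_lit 5) (nat_lit 29) (nat_lit 5) (nat_lit 30) (nat_lit 4) (nat_lit 398) (nat_lit 337) (nat_lit 285)))) (XT.nd (nat_lit 156) (nat_lit 152) (nat_lit 0) (XT.nd (nat_lit 78) (nat_lit 76) (nat_lit 0) (XT.lf (nat_lit 0) (nat_lit 14760617043) (nat_lit 76) (nat_lit 3096094712) (nat_lit 152) (nat_lit 5994807781) (nat_lit 28) (nat_lit 5) (nat_lit 29) (nat_lit 5) (nat_lit 30) (nat_lit 4) (nat_lit 399) (nat_lit 337) (nat_lit 284)) (XT.lf (nat_lit 0) (nat_lit 3094929507) (nat_lit 76) (nat_lit 21249042702) (nat_lit 76) (nat_lit 362957607) (nat_lit 27) (nat_lit 4) (nat_lit 28) (nat_lit 5) (nat_lit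 28) (nat_lit 4) (nat_lit 400) (nat_lit 337) (nat_lit 283))) (XT.nd (nat_lit 78) (nat_lit 76) (nat_lit 0) (XT.lf (nat_lit 0) (nat_lit 5537102815) (nat_lit 152) (nat_lit 9611892615) (nat_lit 76) (nat_lit 10443575792) (nat_lit 26) (nat_lit 5) (nat_lit 28) (nat_lit 5) (nat_lit 27) (nat_lit 4) (nat_lit 401) (nat_lit 337) (nat_lit 282)) (XT.lf (nat_lit 0) (nat_lit 3001960913) (nat_lit 76) (nat_lit 8723952354) (nat_lit 152) (nat_lit 14795993298) (nat_lit 25) (nat_lit 5) (nat_lit 26) (nat_lit 5) (nat_lit 27) (nat_lit 4) (nat_lit 402) (nat_lit 337) (nat_lit 281))))))) (XT.nd (nat_lit 1014) (nat_lit 456) (nat_lit 0) (XT.nd (nat_lit 468) (nat_lit 380) (nat_lit 0) (XT.nd (nat_lit 234) (nat_lit 76) (nat_lit 0) (XT.nd (nat_lit 78) (nat_lit 152) (nat_lit 0) (XT.lf (nat_lit 0) (nat_lit 16505051516) (nat_lit 76) (nat_lit 1841745854) (nat_lit 152) (nat_lit 9144785945) (nat_lit 25) (nat_lit 5) (nat_lit 26)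 (nat_lit 5) (nat_lit 27) (nat_lit 4) (nat_lit 403) (nat_lit 337) (nat_lit 280)) (XT.nd (nat_lit 78) (nat_lit 76) (nat_lit 0) (XT.lf (nat_lit 0) (nat_lit 2083182249) (nat_lit 76) (nat_lit 23293378339) (nat_lit 76) (nat_lit 3129297563) (nat_lit 24) (nat_lit 4) (nat_lit 25) (nat_lit 5) (nat_lit 25) (nat_lit 4) (nat_lit 404) (nat_lit 337) (nat_lit 279)) (XT.lf (nat_lit 0) (nat_lit 3265605371) (nat_lit 152) (nat_lit 13529818083) (nat_lit 76) (nat_lit 12763908695) (nat_lit 23) (nat_lit 5) (nat_lit 25) (nat_lit 5) (nat_lit 24) (nat_lit 4) (nat_lit 405) (nat_lit 337) (nat_lit 278)))) (XT.nd (nat_lit 78) (nat_lit 76) (nat_lit 0) (XT.lf (nat_lit 0) (nat_lit 9838267522) (nat_lit 152) (nat_lit 113220976) (nat_lit 76) (nat_lit 20713272580) (nat_lit 23) (nat_lit 5) (nat_lit 25) (nat_lit 5) (nat_lit 24) (nat_lit 4) (nat_lit 406) (nat_lit 337) (nat_lit 277)) (XT.nd (nat_lit 78) (nat_lit 0) (nat_lit 0) (XT.lf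 (nat_lit 0) (nat_lit 14367775340) (nat_lit 76) (nat_lit 2561041049) (nat_lit 152) (nat_lit 14887187317) (nat_lit 22) (nat_lit 5) (nat_lit 23) (nat_lit 5) (nat_lit 24) (nat_lit 4) (nat_lit 407) (nat_lit 337) (nat_lit 276)) (XT.lf (nat_lit 0) (nat_lit 24422114486) (nat_lit 152) (nat_lit 3595626193) (nat_lit 0) (nat_lit 5004661395) (nat_lit 22) (nat_lit 5) (nat_lit 24) (nat_lit 4) (nat_lit 22) (nat_lit 4) (nat_lit 408) (nat_lit 337) (nat_lit 275))))) (XT.nd (nat_lit 234) (nat_lit 152) (nat_lit 0) (XT.nd (nat_lit 78) (nat_lit 152) (nat_lit 0) (XT.lf (nat_lit 0) (nat_lit 11202884490) (nat_lit 76) (nat_lit 21270850512) (nat_lit 76) (nat_lit 1806206958) (nat_lit 21) (nat_lit 4) (nat_lit 22) (nat_lit 5) (nat_lit 22) (nat_lit 4) (nat_lit 409) (nat_lit 337) (nat_lit 274)) (XT.nd (nat_lit 78) (nat_lit 76) (nat_lit 0) (XT.lf (nat_lit 0) (nat_lit 5185790010) (nat_lit 152) (nat_lit 8878717332) (nat_lit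 76) (nat_lit 21530260231) (nat_lit 20) (nat_lit 5) (nat_lit 22) (nat_lit 5) (nat_lit 21) (nat_lit 4) (nat_lit 410) (nat_lit 337) (nat_lit 273)) (XT.lf (nat_lit 0) (nat_lit 6135957654) (nat_lit 76) (nat_lit 6394943637) (nat_lit 152) (nat_lit 24439745799) (nat_lit 19) (nat_lit 5) (nat_lit 20) (nat_lit 5) (nat_lit 21) (nat_lit 4) (nat_lit 411) (nat_lit 337) (nat_lit 272)))) (XT.nd (nat_lit 156) (nat_lit 152) (nat_lit 0) (XT.nd (nat_lit 78) (nat_lit 0) (nat_lit 0) (XT.lf (nat_lit 0) (nat_lit 20390535183) (nat_lit 152) (nat_lit 16287038063) (nat_lit 0) (nat_lit 1730387667) (nat_lit 19) (nat_lit 5) (nat_lit 21) (nat_lit 4) (nat_lit 19) (nat_lit 4) (nat_lit 412) (nat_lit 337) (nat_lit 271)) (XT.lf (nat_lit 0) (nat_lit 28718032675) (nat_lit 152) (nat_lit 1174456966) (nat_lit 0) (nat_lit 10020910196) (nat_lit 19) (nat_lit 5) (nat_lit 21) (nat_lit 4) (nat_lit 19) (nat_lit 4) (nat_lit 413) (nat_lit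 337) (nat_lit 270))) (XT.nd (nat_lit 78) (nat_lit 76) (nat_lit 0) (XT.lf (nat_lit 0) (nat_lit 15122906640) (nat_lit 76) (nat_lit 22546582467) (nat_lit 76) (nat_lit 3814245737) (nat_lit 18) (nat_lit 4) (nat_lit 19) (nat_lit 5) (nat_lit 19) (nat_lit 4) (nat_lit 414) (nat_lit 337) (nat_lit 269)) (XT.lf (nat_lit 0) (nat_lit 3801699758) (nat_lit 152) (nat_lit 10972389605) (nat_lit 76) (nat_lit 28355840598) (nat_lit 17) (nat_lit 5) (nat_lit 19) (nat_lit 5) (nat_lit 18) (nat_lit 4) (nat_lit 415) (nat_lit 337) (nat_lit 268)))))) (XT.nd (nat_lit 468) (nat_lit 228) (nat_lit 0) (XT.nd (nat_lit 234) (nat_lit 152) (nat_lit 0) (XT.nd (nat_lit 78) (nat_lit 0) (nat_lit 0) (XT.lf (nat_lit 0) (nat_lit 5238282501) (nat_lit 76) (nat_lit 6486642852) (nat_lit 152) (nat_lit 33127652611) (nat_lit 16) (nat_lit 5) (nat_lit 17) (nat_lit 5) (nat_lit 18) (nat_lit 4) (nat_lit 416) (nat_lit 337) (nat_lit 267)) (XT.nd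 (nat_lit 78) (nat_lit 0) (nat_lit 0) (XT.lf (nat_lit 0) (nat_lit 20240748353) (nat_lit 152) (nat_lit 24101693904) (nat_lit 0) (nat_lit 2309097050) (nat_lit 16) (nat_lit 5) (nat_lit 18) (nat_lit 4) (nat_lit 16) (nat_lit 4) (nat_lit 417) (nat_lit 337) (nat_lit 266)) (XT.lf (nat_lit 0) (nat_lit 29262969498) (nat_lit 152) (nat_lit 7969724578) (nat_lit 0) (nat_lit 11303726909) (nat_lit 16) (nat_lit 5) (nat_lit 18) (nat_lit 4) (nat_lit 16) (nat_lit 4) (nat_lit 418) (nat_lit 337) (nat_lit 265)))) (XT.nd (nat_lit 78) (nat_lit 76) (nat_lit 0) (XT.lf (nat_lit 0) (nat_lit 9216274996) (nat_lit 76) (nat_lit 29639412478) (nat_lit 76) (nat_lit 11653892473) (nat_lit 15) (nat_lit 4) (nat_lit 16) (nat_lit 5) (nat_lit 16) (nat_lit 4) (nat_lit 419) (nat_lit 337) (nat_lit 264)) (XT.nd (nat_lit 78) (nat_lit 76) (nat_lit 0) (XT.lf (nat_lit 0) (nat_lit 27491485697) (nat_lit 76) (nat_lit 21547457285) (nat_lit 76)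 (nat_lit 3536911168) (nat_lit 15) (nat_lit 4) (nat_lit 16) (nat_lit 5) (nat_lit 16) (nat_lit 4) (nat_lit 420) (nat_lit 337) (nat_lit 263)) (XT.lf (nat_lit 0) (nat_lit 4803037324) (nat_lit 152) (nat_lit 8188153991) (nat_lit 76) (nat_lit 41751525757) (nat_lit 14) (nat_lit 5) (nat_lit 16) (nat_lit 5) (nat_lit 15) (nat_lit 4) (nat_lit 421) (nat_lit 337) (nat_lit 262))))) (XT.nd (nat_lit 234) (nat_lit 152) (nat_lit 0) (XT.nd (nat_lit 78) (nat_lit 0) (nat_lit 0) (XT.lf (nat_lit 0) (nat_lit 9764239309) (nat_lit 76) (nat_lit 3807135927) (nat_lit 152) (nat_lit 43437138076) (nat_lit 13) (nat_lit 5) (nat_lit 14) (nat_lit 5) (nat_lit 15) (nat_lit 4) (nat_lit 422) (nat_lit 337) (nat_lit 261)) (XT.nd (nat_lit 78) (nat_lit 0) (nat_lit 0) (XT.lf (nat_lit 0) (nat_lit 22988071089) (nat_lit 152) (nat_lit 30618770109) (nat_lit 0) (nat_lit 5770263068) (nat_lit 13) (nat_lit 5) (nat_lit 15) (nat_lit 4) (nat_lit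 13) (nat_lit 4) (nat_lit 423) (nat_lit 337) (nat_lit 260)) (XT.lf (nat_lit 0) (nat_lit 32916946355) (nat_lit 152) (nat_lit 13265583316) (nat_lit 0) (nat_lit 15679529722) (nat_lit 13) (nat_lit 5) (nat_lit 15) (nat_lit 4) (nat_lit 13) (nat_lit 4) (nat_lit 424) (nat_lit 337) (nat_lit 259)))) (XT.nd (nat_lit 156) (nat_lit 76) (nat_lit 0) (XT.nd (nat_lit 78) (nat_lit 0) (nat_lit 0) (XT.lf (nat_lit 0) (nat_lit 5078590146) (nat_lit 76) (nat_lit 38322902032) (nat_lit 76) (nat_lit 21066810530) (nat_lit 12) (nat_lit 4) (nat_lit 13) (nat_lit 5) (nat_lit 13) (nat_lit 4) (nat_lit 425) (nat_lit 337) (nat_lit 258)) (XT.lf (nat_lit 0) (nat_lit 24761936680) (nat_lit 76) (nat_lit 29853276448) (nat_lit 76) (nat_lit 12579399356) (nat_lit 12) (nat_lit 4) (nat_lit 13) (nat_lit 5) (nat_lit 13) (nat_lit 4) (nat_lit 426) (nat_lit 337) (nat_lit 257))) (XT.nd (nat_lit 78) (nat_lit 76) (nat_lit 0) (XT.lf (nat_lit 0)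 (nat_lit 45392701301) (nat_lit 76) (nat_lit 20978146216) (nat_lit 76) (nat_lit 3687330467) (nat_lit 12) (nat_lit 4) (nat_lit 13) (nat_lit 5) (nat_lit 13) (nat_lit 4) (nat_lit 427) (nat_lit 337) (nat_lit 256)) (XT.lf (nat_lit 0) (nat_lit 5450354397) (nat_lit 152) (nat_lit 6133721287) (nat_lit 76) (nat_lit 61477346091) (nat_lit 11) (nat_lit 5) (nat_lit 13) (nat_lit 5) (nat_lit 12) (nat_lit 4) (nat_lit 428) (nat_lit 337) (nat_lit 255))))))))
noncomputable def xc90 : XT := (XT.nd (nat_lit 1950) (nat_lit 228) (nat_lit 0) (XT.nd (nat_lit 936) (nat_lit 228) (nat_lit 0) (XT.nd (nat_lit 468) (nat_lit 152) (nat_lit 0) (XT.nd (nat_lit 234) (nat_lit 76) (nat_lit 0) (XT.nd (nat_lit 78) (nat_lit 0) (nat_lit 0) (XT.lf (nat_lit 0) (nat_lit 13667719926) (nat_lit 76) (nat_lit 1449368653) (nat_lit 152) (nat_lit 61084913984) (nat_lit 10) (nat_lit 5) (nat_lit 11) (nat_lit 5) (nat_lit 12) (nat_lit 4) (nat_lit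 429) (nat_lit 337) (nat_lit 254)) (XT.nd (nat_lit 78) (nat_lit 0) (nat_lit 0) (XT.lf (nat_lit 0) (nat_lit 25498994100) (nat_lit 152) (nat_lit 45001408935) (nat_lit 0) (nat_lit 8987618946) (nat_lit 10) (nat_lit 5) (nat_lit 12) (nat_lit 4) (nat_lit 10) (nat_lit 4) (nat_lit 430) (nat_lit 337) (nat_lit 253)) (XT.lf (nat_lit 0) (nat_lit 36407317085) (nat_lit 152) (nat_lit 26647990384) (nat_lit 0) (nat_lit 19882670050) (nat_lit 10) (nat_lit 5) (nat_lit 12) (nat_lit 4) (nat_lit 10) (nat_lit 4) (nat_lit 431) (nat_lit 337) (nat_lit 252)))) (XT.nd (nat_lit 78) (nat_lit 76) (nat_lit 0) (XT.lf (nat_lit 0) (nat_lit 47845401025) (nat_lit 152) (nat_lit 7407699664) (nat_lit 0) (nat_lit 31308114103) (nat_lit 10) (nat_lit 5) (nat_lit 12) (nat_lit 4) (nat_lit 10) (nat_lit 4) (nat_lit 432) (nat_lit 337) (nat_lit 251)) (XT.nd (nat_lit 78) (nat_lit 0) (nat_lit 0) (XT.lf (nat_lit 0) (nat_lit 13187351031) (nat_lit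 76) (nat_lit 46859019929) (nat_lit 76) (nat_lit 30309695020) (nat_lit 9) (nat_lit 4) (nat_lit 10) (nat_lit 5) (nat_lit 10) (nat_lit 4) (nat_lit 433) (nat_lit 337) (nat_lit 250)) (XT.lf (nat_lit 0) (nat_lit 35040473815) (nat_lit 76) (nat_lit 37927718261) (nat_lit 76) (nat_lit 21366928603) (nat_lit 9) (nat_lit 4) (nat_lit 10) (nat_lit 5) (nat_lit 10) (nat_lit 4) (nat_lit 434) (nat_lit 337) (nat_lit 249))))) (XT.nd (nat_lit 234) (nat_lit 76) (nat_lit 0) (XT.nd (nat_lit 78) (nat_lit 76) (nat_lit 0) (XT.lf (nat_lit 0) (nat_lit 57958767928) (nat_lit 76) (nat_lit 28563383660) (nat_lit 76) (nat_lit 11991675194) (nat_lit 9) (nat_lit 4) (nat_lit 10) (nat_lit 5) (nat_lit 10) (nat_lit 4) (nat_lit 435) (nat_lit 337) (nat_lit 248)) (XT.nd (nat_lit 78) (nat_lit 76) (nat_lit 0) (XT.lf (nat_lit 0) (nat_lit 81996800737) (nat_lit 76) (nat_lit 18743720092) (nat_lit 76) (nat_lit 2161612760) (nat_lit 9) (nat_lit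 4) (nat_lit 10) (nat_lit 5) (nat_lit 10) (nat_lit 4) (nat_lit 436) (nat_lit 337) (nat_lit 247)) (XT.lf (nat_lit 0) (nat_lit 7885919496) (nat_lit 152) (nat_lit 425876046) (nat_lit 76) (nat_lit 99192334293) (nat_lit 8) (nat_lit 5) (nat_lit 10) (nat_lit 5) (nat_lit 9) (nat_lit 4) (nat_lit 437) (nat_lit 337) (nat_lit 246)))) (XT.nd (nat_lit 78) (nat_lit 0) (nat_lit 0) (XT.lf (nat_lit 0) (nat_lit 18737129495) (nat_lit 152) (nat_lit 90652396850) (nat_lit 0) (nat_lit 2926231312) (nat_lit 7) (nat_lit 5) (nat_lit 9) (nat_lit 4) (nat_lit 7) (nat_lit 4) (nat_lit 438) (nat_lit 337) (nat_lit 245)) (XT.nd (nat_lit 78) (nat_lit 0) (nat_lit 0) (XT.lf (nat_lit 0) (nat_lit 30262267776) (nat_lit 152) (nat_lit 72656317098) (nat_lit 0) (nat_lit 14442814420) (nat_lit 7) (nat_lit 5) (nat_lit 9) (nat_lit 4) (nat_lit 7) (nat_lit 4) (nat_lit 439) (nat_lit 337) (nat_lit 244)) (XT.lf (nat_lit 0) (nat_lit 42352023145)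 (nat_lit 152) (nat_lit 53783460623) (nat_lit 0) (nat_lit 26524422006) (nat_lit 7) (nat_lit 5) (nat_lit 9) (nat_lit 4) (nat_lit 7) (nat_lit 4) (nat_lit 440) (nat_lit 337) (nat_lit 243)))))) (XT.nd (nat_lit 468) (nat_lit 152) (nat_lit 0) (XT.nd (nat_lit 234) (nat_lit 0) (nat_lit 0) (XT.nd (nat_lit 78) (nat_lit 76) (nat_lit 0) (XT.lf (nat_lit 0) (nat_lit 55035180736) (nat_lit 152) (nat_lit 33988892053) (nat_lit 0) (nat_lit 39199819803) (nat_lit 7) (nat_lit 5) (nat_lit 9) (nat_lit 4) (nat_lit 7) (nat_lit 4) (nat_lit 441) (nat_lit 337) (nat_lit 242)) (XT.nd (nat_lit 78) (nat_lit 76) (nat_lit 0) (XT.lf (nat_lit 0) (nat_lit 68341938543) (nat_lit 152) (nat_lit 13225481463) (nat_lit 0) (nat_lit 52499187330) (nat_lit 7) (nat_lit 5) (nat_lit 9) (nat_lit 4) (nat_lit 7) (nat_lit 4) (nat_lit 442) (nat_lit 337) (nat_lit 241)) (XT.lf (nat_lit 0) (nat_lit 8839114711) (nat_lit 76) (nat_lit 73602867963) (nat_lit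 76) (nat_lit 57753078388) (nat_lit 6) (nat_lit 4) (nat_lit 7) (nat_lit 5) (nat_lit 7) (nat_lit 4) (nat_lit 443) (nat_lit 337) (nat_lit 240)))) (XT.nd (nat_lit 78) (nat_lit 0) (nat_lit 0) (XT.lf (nat_lit 0) (nat_lit 32446528565) (nat_lit 76) (nat_lit 65014598704) (nat_lit 76) (nat_lit 49158105928) (nat_lit 6) (nat_lit 4) (nat_lit 7) (nat_lit 5) (nat_lit 7) (nat_lit 4) (nat_lit 444) (nat_lit 337) (nat_lit 239)) (XT.nd (nat_lit 78) (nat_lit 0) (nat_lit 0) (XT.lf (nat_lit 0) (nat_lit 57215674082) (nat_lit 76) (nat_lit 56006143897) (nat_lit 76) (nat_lit 40143267120) (nat_lit 6) (nat_lit 4) (nat_lit 7) (nat_lit 5) (nat_lit 7) (nat_lit 4) (nat_lit 445) (nat_lit 337) (nat_lit 238)) (XT.lf (nat_lit 0) (nat_lit 83205525418) (nat_lit 76) (nat_lit 46556054841) (nat_lit 76) (nat_lit 30687098062) (nat_lit 6) (nat_lit 4) (nat_lit 7) (nat_lit 5) (nat_lit 7) (nat_lit 4) (nat_lit 446) (nat_lit 337) (nat_lit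 237))))) (XT.nd (nat_lit 234) (nat_lit 76) (nat_lit 0) (XT.nd (nat_lit 78) (nat_lit 76) (nat_lit 0) (XT.lf (nat_lit 0) (nat_lit 110477963170) (nat_lit 76) (nat_lit 36641831324) (nat_lit 76) (nat_lit 20767084067) (nat_lit 6) (nat_lit 4) (nat_lit 7) (nat_lit 5) (nat_lit 7) (nat_lit 4) (nat_lit 447) (nat_lit 337) (nat_lit 236)) (XT.nd (nat_lit 78) (nat_lit 76) (nat_lit 0) (XT.lf (nat_lit 0) (nat_lit 139097921716) (nat_lit 76) (nat_lit 26239868051) (nat_lit 76) (nat_lit 10359606054) (nat_lit 6) (nat_lit 4) (nat_lit 7) (nat_lit 5) (nat_lit 7) (nat_lit 4) (nat_lit 448) (nat_lit 337) (nat_lit 235)) (XT.lf (nat_lit 0) (nat_lit 542188487) (nat_lit 152) (nat_lit 14774027732) (nat_lit 76) (nat_lit 168582173101) (nat_lit 5) (nat_lit 5) (nat_lit 7) (nat_lit 5) (nat_lit 6) (nat_lit 4) (nat_lit 449) (nat_lit 337) (nat_lit 234)))) (XT.nd (nat_lit 156) (nat_lit 0) (nat_lit 0) (XT.nd (nat_lit 78) (nat_lit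 0) (nat_lit 0) (XT.lf (nat_lit 0) (nat_lit 8221136622) (nat_lit 76) (nat_lit 3540645224) (nat_lit 152) (nat_lit 180733116629) (nat_lit 4) (nat_lit 5) (nat_lit 5) (nat_lit 5) (nat_lit 6) (nat_lit 4) (nat_lit 450) (nat_lit 337) (nat_lit 233)) (XT.lf (nat_lit 0) (nat_lit 23926945093) (nat_lit 152) (nat_lit 168786475729) (nat_lit 0) (nat_lit 8788583185) (nat_lit 4) (nat_lit 5) (nat_lit 6) (nat_lit 4) (nat_lit 4) (nat_lit 4) (nat_lit 451) (nat_lit 337) (nat_lit 232))) (XT.nd (nat_lit 78) (nat_lit 0) (nat_lit 0) (XT.lf (nat_lit 0) (nat_lit 36751286469) (nat_lit 152) (nat_lit 152597029142) (nat_lit 0) (nat_lit 21608603617) (nat_lit 4) (nat_lit 5) (nat_lit 6) (nat_lit 4) (nat_lit 4) (nat_lit 4) (nat_lit 452) (nat_lit 337) (nat_lit 231)) (XT.lf (nat_lit 0) (nat_lit 50210060724) (nat_lit 152) (nat_lit 135611596396) (nat_lit 0) (nat_lit 35063262688) (nat_lit 4) (nat_lit 5) (nat_lit 6) (nat_lit 4) (nat_lit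 4) (nat_lit 4) (nat_lit 453) (nat_lit 337) (nat_lit 230))))))) (XT.nd (nat_lit 1014) (nat_lit 152) (nat_lit 0) (XT.nd (nat_lit 468) (nat_lit 76) (nat_lit 0) (XT.nd (nat_lit 234) (nat_lit 0) (nat_lit 0) (XT.nd (nat_lit 78) (nat_lit 0) (nat_lit 0) (XT.lf (nat_lit 0) (nat_lit 64335312560) (nat_lit 152) (nat_lit 117789735985) (nat_lit 0) (nat_lit 49184595301) (nat_lit 4) (nat_lit 5) (nat_lit 6) (nat_lit 4) (nat_lit 4) (nat_lit 4) (nat_lit 454) (nat_lit 337) (nat_lit 229)) (XT.nd (nat_lit 78) (nat_lit 0) (nat_lit 0) (XT.lf (nat_lit 0) (nat_lit 79160673529) (nat_lit 152) (nat_lit 99089014908) (nat_lit 0) (nat_lit 64006223677) (nat_lit 4) (nat_lit 5) (nat_lit 6) (nat_lit 4) (nat_lit 4) (nat_lit 4) (nat_lit 455) (nat_lit 337) (nat_lit 228)) (XT.lf (nat_lit 0) (nat_lit 94721442110) (nat_lit 152) (nat_lit 79464907637) (nat_lit 0) (nat_lit 79563437406) (nat_lit 4) (nat_lit 5) (nat_lit 6) (nat_lit 4)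 (nat_lit 4) (nat_lit 4) (nat_lit 456) (nat_lit 337) (nat_lit 227)))) (XT.nd (nat_lit 78) (nat_lit 0) (nat_lit 0) (XT.lf (nat_lit 0) (nat_lit 111054667750) (nat_lit 152) (nat_lit 58870690109) (nat_lit 0) (nat_lit 95893277474) (nat_lit 4) (nat_lit 5) (nat_lit 6) (nat_lit 4) (nat_lit 4) (nat_lit 4) (nat_lit 457) (nat_lit 337) (nat_lit 226)) (XT.nd (nat_lit 78) (nat_lit 0) (nat_lit 0) (XT.lf (nat_lit 0) (nat_lit 128199239083) (nat_lit 152) (nat_lit 37257328473) (nat_lit 0) (nat_lit 113034624453) (nat_lit 4) (nat_lit 5) (nat_lit 6) (nat_lit 4) (nat_lit 4) (nat_lit 4) (nat_lit 458) (nat_lit 337) (nat_lit 225)) (XT.lf (nat_lit 0) (nat_lit 146195976517) (nat_lit 152) (nat_lit 14573362342) (nat_lit 0) (nat_lit 131028291072) (nat_lit 4) (nat_lit 5) (nat_lit 6) (nat_lit 4) (nat_lit 4) (nat_lit 4) (nat_lit 459) (nat_lit 337) (nat_lit 224))))) (XT.nd (nat_lit 234) (nat_lit 0) (nat_lit 0) (XT.nd (nat_lit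 78) (nat_lit 0) (nat_lit 0) (XT.lf (nat_lit 0) (nat_lit 9540575730) (nat_lit 76) (nat_lit 155696108820) (nat_lit 76) (nat_lit 140525498791) (nat_lit 3) (nat_lit 4) (nat_lit 4) (nat_lit 5) (nat_lit 4) (nat_lit 4) (nat_lit 460) (nat_lit 337) (nat_lit 223)) (XT.nd (nat_lit 78) (nat_lit 0) (nat_lit 0) (XT.lf (nat_lit 0) (nat_lit 35356735156) (nat_lit 76) (nat_lit 150114760741) (nat_lit 76) (nat_lit 134941365393) (nat_lit 3) (nat_lit 4) (nat_lit 4) (nat_lit 5) (nat_lit 4) (nat_lit 4) (nat_lit 461) (nat_lit 337) (nat_lit 222)) (XT.lf (nat_lit 0) (nat_lit 62454721808) (nat_lit 76) (nat_lit 144258812640) (nat_lit 76) (nat_lit 129082764608) (nat_lit 3) (nat_lit 4) (nat_lit 4) (nat_lit 5) (nat_lit 4) (nat_lit 4) (nat_lit 462) (nat_lit 337) (nat_lit 221)))) (XT.nd (nat_lit 156) (nat_lit 0) (nat_lit 0) (XT.nd (nat_lit 78) (nat_lit 0) (nat_lit 0) (XT.lf (nat_lit 0) (nat_lit 90899054702) (nat_lit 76)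 (nat_lit 138114321784) (nat_lit 76) (nat_lit 122935747386) (nat_lit 3) (nat_lit 4) (nat_lit 4) (nat_lit 5) (nat_lit 4) (nat_lit 4) (nat_lit 463) (nat_lit 337) (nat_lit 220)) (XT.lf (nat_lit 0) (nat_lit 120757458439) (nat_lit 76) (nat_lit 131666658434) (nat_lit 76) (nat_lit 116485677972) (nat_lit 3) (nat_lit 4) (nat_lit 4) (nat_lit 5) (nat_lit 4) (nat_lit 4) (nat_lit 464) (nat_lit 337) (nat_lit 219))) (XT.nd (nat_lit 78) (nat_lit 0) (nat_lit 0) (XT.lf (nat_lit 0) (nat_lit 152101024457) (nat_lit 76) (nat_lit 124900471009) (nat_lit 76) (nat_lit 109717199059) (nat_lit 3) (nat_lit 4) (nat_lit 4) (nat_lit 5) (nat_lit 4) (nat_lit 4) (nat_lit 465) (nat_lit 337) (nat_lit 218)) (XT.lf (nat_lit 0) (nat_lit 185004380294) (nat_lit 76) (nat_lit 117799649539) (nat_lit 76) (nat_lit 102614195219) (nat_lit 3) (nat_lit 4) (nat_lit 4) (nat_lit 5) (nat_lit 4) (nat_lit 4) (nat_lit 466) (nat_lit 337) (nat_lit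 217)))))) (XT.nd (nat_lit 468) (nat_lit 152) (nat_lit 0) (XT.nd (nat_lit 234) (nat_lit 0) (nat_lit 0) (XT.nd (nat_lit 78) (nat_lit 0) (nat_lit 0) (XT.lf (nat_lit 0) (nat_lit 219545867273) (nat_lit 76) (nat_lit 110347287307) (nat_lit 76) (nat_lit 95159754539) (nat_lit 3) (nat_lit 4) (nat_lit 4) (nat_lit 5) (nat_lit 4) (nat_lit 4) (nat_lit 467) (nat_lit 337) (nat_lit 216)) (XT.nd (nat_lit 78) (nat_lit 0) (nat_lit 0) (XT.lf (nat_lit 0) (nat_lit 255807727031) (nat_lit 76) (nat_lit 102525640593) (nat_lit 76) (nat_lit 87336128351) (nat_lit 3) (nat_lit 4) (nat_lit 4) (nat_lit 5) (nat_lit 4) (nat_lit 4) (nat_lit 468) (nat_lit 337) (nat_lit 215)) (XT.lf (nat_lit 0) (nat_lit 293876297329) (nat_lit 76) (nat_lit 94316086429) (nat_lit 76) (nat_lit 79124688974) (nat_lit 3) (nat_lit 4) (nat_lit 4) (nat_lit 5) (nat_lit 4) (nat_lit 4) (nat_lit 469) (nat_lit 337) (nat_lit 214)))) (XT.nd (nat_lit 78) (nat_lit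 0) (nat_lit 0) (XT.lf (nat_lit 0) (nat_lit 333842217619) (nat_lit 76) (nat_lit 85699078257) (nat_lit 76) (nat_lit 70505885360) (nat_lit 3) (nat_lit 4) (nat_lit 4) (nat_lit 5) (nat_lit 4) (nat_lit 4) (nat_lit 470) (nat_lit 337) (nat_lit 213)) (XT.nd (nat_lit 78) (nat_lit 0) (nat_lit 0) (XT.lf (nat_lit 0) (nat_lit 375800644855) (nat_lit 76) (nat_lit 76654099391) (nat_lit 76) (nat_lit 61459196550) (nat_lit 3) (nat_lit 4) (nat_lit 4) (nat_lit 5) (nat_lit 4) (nat_lit 4) (nat_lit 471) (nat_lit 337) (nat_lit 212)) (XT.lf (nat_lit 0) (nat_lit 419851480054) (nat_lit 76) (nat_lit 67159614167) (nat_lit 76) (nat_lit 51963082808) (nat_lit 3) (nat_lit 4) (nat_lit 4) (nat_lit 5) (nat_lit 4) (nat_lit 4) (nat_lit 472) (nat_lit 337) (nat_lit 211))))) (XT.nd (nat_lit 234) (nat_lit 152) (nat_lit 0) (XT.nd (nat_lit 78) (nat_lit 0) (nat_lit 0) (XT.lf (nat_lit 0) (nat_lit 466099606157) (nat_lit 76) (nat_lit 57193016668)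 (nat_lit 76) (nat_lit 41994934340) (nat_lit 3) (nat_lit 4) (nat_lit 4) (nat_lit 5) (nat_lit 4) (nat_lit 4) (nat_lit 473) (nat_lit 337) (nat_lit 210)) (XT.nd (nat_lit 78) (nat_lit 0) (nat_lit 0) (XT.lf (nat_lit 0) (nat_lit 514655137750) (nat_lit 76) (nat_lit 46730576900) (nat_lit 76) (nat_lit 31531017458) (nat_lit 3) (nat_lit 4) (nat_lit 4) (nat_lit 5) (nat_lit 4) (nat_lit 4) (nat_lit 474) (nat_lit 337) (nat_lit 209)) (XT.lf (nat_lit 0) (nat_lit 565633683241) (nat_lit 76) (nat_lit 35747384292) (nat_lit 76) (nat_lit 20546418074) (nat_lit 3) (nat_lit 4) (nat_lit 4) (nat_lit 5) (nat_lit 4) (nat_lit 4) (nat_lit 475) (nat_lit 337) (nat_lit 208)))) (XT.nd (nat_lit 156) (nat_lit 76) (nat_lit 0) (XT.nd (nat_lit 78) (nat_lit 76) (nat_lit 0) (XT.lf (nat_lit 0) (nat_lit 619156620120) (nat_lit 76) (nat_lit 24217288385) (nat_lit 76) (nat_lit 9014982382) (nat_lit 3) (nat_lit 4) (nat_lit 4) (nat_lit 5)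 (nat_lit 4) (nat_lit 4) (nat_lit 476) (nat_lit 337) (nat_lit 207)) (XT.lf (nat_lit 0) (nat_lit 2991822263) (nat_lit 152) (nat_lit 9070346349) (nat_lit 76) (nat_lit 672308893729) (nat_lit 2) (nat_lit 5) (nat_lit 4) (nat_lit 5) (nat_lit 3) (nat_lit 4) (nat_lit 477) (nat_lit 337) (nat_lit 206))) (XT.nd (nat_lit 78) (nat_lit 0) (nat_lit 0) (XT.lf (nat_lit 0) (nat_lit 15571949671) (nat_lit 152) (nat_lit 701268015808) (nat_lit 0) (nat_lit 1091190418) (nat_lit 1) (nat_lit 5) (nat_lit 3) (nat_lit 4) (nat_lit 1) (nat_lit 4) (nat_lit 478) (nat_lit 337) (nat_lit 205)) (XT.lf (nat_lit 0) (nat_lit 29132854996) (nat_lit 152) (nat_lit 709367817161) (nat_lit 0) (nat_lit 14650993498) (nat_lit 1) (nat_lit 5) (nat_lit 3) (nat_lit 4) (nat_lit 1) (nat_lit 4) (nat_lit 479) (nat_lit 337) (nat_lit 204))))))))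
noncomputable def xc91 : XT := (XT.nd (nat_lit 1950) (nat_lit 3192) (nat_lit 0) (XT.nd (nat_lit 936) (nat_lit 4028) (nat_lit 0) (XT.nd (nat_lit 468) (nat_lit 2128) (nat_lit 0) (XT.nd (nat_lit 234) (nat_lit 456) (nat_lit 0) (XT.nd (nat_lit 78) (nat_lit 228) (nat_lit 0) (XT.lf (nat_lit 0) (nat_lit 140800609) (nat_lit 228) (nat_lit 2962893557) (nat_lit 0) (nat_lit 140800609) (nat_lit 165) (nat_lit 5) (nat_lit 168) (nat_lit 4) (nat_lit 165) (nat_lit 4) (nat_lit 344) (nat_lit 338) (nat_lit 338)) (XT.nd (nat_lit 78) (nat_lit 228) (nat_lit 0) (XT.lf (nat_lit 0) (nat_lit 3402682822) (nat_lit 228) (nat_lit 2288512441) (nat_lit 0) (nat_lit 824125629) (nat_lit 165) (nat_lit 5) (nat_lit 168) (nat_lit 4) (nat_lit 165) (nat_lit 4) (nat_lit 345) (nat_lit 338) (nat_lit 337)) (XT.lf (nat_lit 0) (nat_lit 1453271745) (nat_lit 228) (nat_lit 5066138133) (nat_lit 228) (nat_lit 31812184) (nat_lit 162) (nat_lit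 4) (nat_lit 165) (nat_lit 5) (nat_lit 165) (nat_lit 4) (nat_lit 346) (nat_lit 338) (nat_lit 336)))) (XT.nd (nat_lit 78) (nat_lit 380) (nat_lit 0) (XT.lf (nat_lit 0) (nat_lit 2960543102) (nat_lit 304) (nat_lit 1304039974) (nat_lit 76) (nat_lit 2329045673) (nat_lit 161) (nat_lit 5) (nat_lit 165) (nat_lit 5) (nat_lit 162) (nat_lit 4) (nat_lit 347) (nat_lit 338) (nat_lit 335)) (XT.nd (nat_lit 78) (nat_lit 76) (nat_lit 0) (XT.lf (nat_lit 0) (nat_lit 2641677766) (nat_lit 304) (nat_lit 3330168943) (nat_lit 380) (nat_lit 672964131) (nat_lit 157) (nat_lit 5) (nat_lit 161) (nat_lit 5) (nat_lit 162) (nat_lit 4) (nat_lit 348) (nat_lit 338) (nat_lit 334)) (XT.lf (nat_lit 0) (nat_lit 2212204474) (nat_lit 380) (nat_lit 31544837) (nat_lit 76) (nat_lit 4460335094) (nat_lit 156) (nat_lit 5) (nat_lit 161) (nat_lit 5) (nat_lit 157) (nat_lit 5) (nat_lit 349) (nat_lit 338) (nat_lit 333))))) (XT.nd (nat_lit 234)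 (nat_lit 1216) (nat_lit 0) (XT.nd (nat_lit 78) (nat_lit 532) (nat_lit 0) (XT.lf (nat_lit 0) (nat_lit 4140424354) (nat_lit 380) (nat_lit 983744169) (nat_lit 456) (nat_lit 1646517607) (nat_lit 151) (nat_lit 5) (nat_lit 156) (nat_lit 5) (nat_lit 157) (nat_lit 5) (nat_lit 350) (nat_lit 338) (nat_lit 332)) (XT.nd (nat_lit 78) (nat_lit 0) (nat_lit 0) (XT.lf (nat_lit 0) (nat_lit 1173690796) (nat_lit 532) (nat_lit 5264558662) (nat_lit 76) (nat_lit 407704048) (nat_lit 144) (nat_lit 5) (nat_lit 151) (nat_lit 5) (nat_lit 145) (nat_lit 5) (nat_lit 351) (nat_lit 338) (nat_lit 331)) (XT.lf (nat_lit 0) (nat_lit 3990585290) (nat_lit 532) (nat_lit 1000912204) (nat_lit 76) (nat_lit 1936736766) (nat_lit 144) (nat_lit 5) (nat_lit 151) (nat_lit 5) (nat_lit 145) (nat_lit 5) (nat_lit 352) (nat_lit 338) (nat_lit 330)))) (XT.nd (nat_lit 78) (nat_lit 684) (nat_lit 0) (XT.lf (nat_lit 0) (nat_lit 3463673915) (nat_lit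 532) (nat_lit 3395497303) (nat_lit 608) (nat_lit 160058435) (nat_lit 137) (nat_lit 5) (nat_lit 144) (nat_lit 5) (nat_lit 145) (nat_lit 5) (nat_lit 353) (nat_lit 338) (nat_lit 329)) (XT.nd (nat_lit 78) (nat_lit 0) (nat_lit 0) (XT.lf (nat_lit 0) (nat_lit 932960673) (nat_lit 608) (nat_lit 1626323113) (nat_lit 684) (nat_lit 4558914186) (nat_lit 128) (nat_lit 5) (nat_lit 136) (nat_lit 5) (nat_lit 137) (nat_lit 5) (nat_lit 354) (nat_lit 338) (nat_lit 328)) (XT.lf (nat_lit 0) (nat_lit 5338281783) (nat_lit 684) (nat_lit 1587958771) (nat_lit 76) (nat_lit 299413049) (nat_lit 128) (nat_lit 5) (nat_lit 137) (nat_lit 5) (nat_lit 129) (nat_lit 5) (nat_lit 355) (nat_lit 338) (nat_lit 327)))))) (XT.nd (nat_lit 468) (nat_lit 1748) (nat_lit 0) (XT.nd (nat_lit 234) (nat_lit 760) (nat_lit 0) (XT.nd (nat_lit 78) (nat_lit 760) (nat_lit 0) (XT.lf (nat_lit 0) (nat_lit 834576486) (nat_lit 760) (nat_lit 4164821892)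 (nat_lit 76) (nat_lit 2341169078) (nat_lit 118) (nat_lit 5) (nat_lit 128) (nat_lit 5) (nat_lit 119) (nat_lit 5) (nat_lit 356) (nat_lit 338) (nat_lit 326)) (XT.nd (nat_lit 78) (nat_lit 0) (nat_lit 0) (XT.lf (nat_lit 0) (nat_lit 634778861) (nat_lit 760) (nat_lit 2904459742) (nat_lit 836) (nat_lit 3925045813) (nat_lit 108) (nat_lit 5) (nat_lit 118) (nat_lit 5) (nat_lit 119) (nat_lit 5) (nat_lit 357) (nat_lit 338) (nat_lit 325)) (XT.lf (nat_lit 0) (nat_lit 5693962156) (nat_lit 760) (nat_lit 632610700) (nat_lit 836) (nat_lit 1270344001) (nat_lit 108) (nat_lit 5) (nat_lit 118) (nat_lit 5) (nat_lit 119) (nat_lit 5) (nat_lit 358) (nat_lit 338) (nat_lit 324)))) (XT.nd (nat_lit 78) (nat_lit 304) (nat_lit 0) (XT.lf (nat_lit 0) (nat_lit 1428182918) (nat_lit 456) (nat_lit 4540623712) (nat_lit 76) (nat_lit 1768299801) (nat_lit 102) (nat_lit 5) (nat_lit 108) (nat_lit 5) (nat_lit 103) (nat_lit 5) (nat_lit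 359) (nat_lit 338) (nat_lit 323)) (XT.nd (nat_lit 78) (nat_lit 0) (nat_lit 0) (XT.lf (nat_lit 0) (nat_lit 594712805) (nat_lit 304) (nat_lit 3561095028) (nat_lit 380) (nat_lit 3730700960) (nat_lit 98) (nat_lit 5) (nat_lit 102) (nat_lit 5) (nat_lit 103) (nat_lit 5) (nat_lit 360) (nat_lit 338) (nat_lit 322)) (XT.lf (nat_lit 0) (nat_lit 6019640893) (nat_lit 304) (nat_lit 965076287) (nat_lit 380) (nat_lit 1060502507) (nat_lit 98) (nat_lit 5) (nat_lit 102) (nat_lit 5) (nat_lit 103) (nat_lit 5) (nat_lit 361) (nat_lit 338) (nat_lit 321))))) (XT.nd (nat_lit 234) (nat_lit 988) (nat_lit 0) (XT.nd (nat_lit 78) (nat_lit 304) (nat_lit 0) (XT.lf (nat_lit 0) (nat_lit 1661629238) (nat_lit 456) (nat_lit 4776801198) (nat_lit 76) (nat_lit 1773439834) (nat_lit 92) (nat_lit 5) (nat_lit 98) (nat_lit 5) (nat_lit 93) (nat_lit 5) (nat_lit 362) (nat_lit 338) (nat_lit 320)) (XT.nd (nat_lit 78) (nat_lit 0) (nat_lit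 0) (XT.lf (nat_lit 0) (nat_lit 717478926) (nat_lit 304) (nat_lit 3723195166) (nat_lit 380) (nat_lit 3947559900) (nat_lit 88) (nat_lit 5) (nat_lit 92) (nat_lit 5) (nat_lit 93) (nat_lit 5) (nat_lit 363) (nat_lit 338) (nat_lit 319)) (XT.lf (nat_lit 0) (nat_lit 6528688450) (nat_lit 304) (nat_lit 808528209) (nat_lit 380) (nat_lit 1237340725) (nat_lit 88) (nat_lit 5) (nat_lit 92) (nat_lit 5) (nat_lit 93) (nat_lit 5) (nat_lit 364) (nat_lit 338) (nat_lit 318)))) (XT.nd (nat_lit 156) (nat_lit 380) (nat_lit 0) (XT.nd (nat_lit 78) (nat_lit 228) (nat_lit 0) (XT.lf (nat_lit 0) (nat_lit 1553885056) (nat_lit 380) (nat_lit 4970298514) (nat_lit 76) (nat_lit 2244971457) (nat_lit 83) (nat_lit 5) (nat_lit 88) (nat_lit 5) (nat_lit 84) (nat_lit 5) (nat_lit 365) (nat_lit 338) (nat_lit 317)) (XT.lf (nat_lit 0) (nat_lit 906356671) (nat_lit 228) (nat_lit 3502718699) (nat_lit 304) (nat_lit 4565153063) (nat_lit 80)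 (nat_lit 5) (nat_lit 83) (nat_lit 5) (nat_lit 84) (nat_lit 5) (nat_lit 366) (nat_lit 338) (nat_lit 316))) (XT.nd (nat_lit 78) (nat_lit 380) (nat_lit 0) (XT.lf (nat_lit 0) (nat_lit 7127754785) (nat_lit 228) (nat_lit 269512139) (nat_lit 304) (nat_lit 1792833065) (nat_lit 80) (nat_lit 5) (nat_lit 83) (nat_lit 5) (nat_lit 84) (nat_lit 5) (nat_lit 367) (nat_lit 338) (nat_lit 315)) (XT.lf (nat_lit 0) (nat_lit 1107313116) (nat_lit 380) (nat_lit 5224026171) (nat_lit 76) (nat_lit 3083354481) (nat_lit 75) (nat_lit 5) (nat_lit 80) (nat_lit 5) (nat_lit 76) (nat_lit 5) (nat_lit 368) (nat_lit 338) (nat_lit 314))))))) (XT.nd (nat_lit 1014) (nat_lit 1368) (nat_lit 0) (XT.nd (nat_lit 468) (nat_lit 836) (nat_lit 0) (XT.nd (nat_lit 234) (nat_lit 456) (nat_lit 0) (XT.nd (nat_lit 78) (nat_lit 304) (nat_lit 0) (XT.lf (nat_lit 0) (nat_lit 1057605272) (nat_lit 228) (nat_lit 3002122122) (nat_lit 304) (nat_lit 5590993585)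 (nat_lit 72) (nat_lit 5) (nat_lit 75) (nat_lit 5) (nat_lit 76) (nat_lit 5) (nat_lit 369) (nat_lit 338) (nat_lit 313)) (XT.nd (nat_lit 78) (nat_lit 304) (nat_lit 0) (XT.lf (nat_lit 0) (nat_lit 7170339173) (nat_lit 304) (nat_lit 2191534580) (nat_lit 76) (nat_lit 536193495) (nat_lit 72) (nat_lit 5) (nat_lit 76) (nat_lit 5) (nat_lit 73) (nat_lit 5) (nat_lit 370) (nat_lit 338) (nat_lit 312)) (XT.lf (nat_lit 0) (nat_lit 307033123) (nat_lit 304) (nat_lit 5652827257) (nat_lit 76) (nat_lit 4195882466) (nat_lit 68) (nat_lit 5) (nat_lit 72) (nat_lit 5) (nat_lit 69) (nat_lit 5) (nat_lit 371) (nat_lit 338) (nat_lit 311)))) (XT.nd (nat_lit 78) (nat_lit 228) (nat_lit 0) (XT.lf (nat_lit 0) (nat_lit 1054192317) (nat_lit 228) (nat_lit 2319731695) (nat_lit 304) (nat_lit 7051579510) (nat_lit 65) (nat_lit 5) (nat_lit 68) (nat_lit 5) (nat_lit 69) (nat_lit 5) (nat_lit 372) (nat_lit 338) (nat_lit 310)) (XT.nd (nat_lit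 78) (nat_lit 228) (nat_lit 0) (XT.lf (nat_lit 0) (nat_lit 6634334318) (nat_lit 304) (nat_lit 2555699978) (nat_lit 76) (nat_lit 1516747478) (nat_lit 65) (nat_lit 5) (nat_lit 69) (nat_lit 5) (nat_lit 66) (nat_lit 5) (nat_lit 373) (nat_lit 338) (nat_lit 309)) (XT.lf (nat_lit 0) (nat_lit 4595928940) (nat_lit 228) (nat_lit 5494872659) (nat_lit 304) (nat_lit 909706980) (nat_lit 62) (nat_lit 5) (nat_lit 65) (nat_lit 5) (nat_lit 66) (nat_lit 5) (nat_lit 374) (nat_lit 338) (nat_lit 308))))) (XT.nd (nat_lit 234) (nat_lit 380) (nat_lit 0) (XT.nd (nat_lit 78) (nat_lit 228) (nat_lit 0) (XT.lf (nat_lit 0) (nat_lit 758485172) (nat_lit 152) (nat_lit 1555244737) (nat_lit 228) (nat_lit 8994356036) (nat_lit 59) (nat_lit 5) (nat_lit 61) (nat_lit 5) (nat_lit 62) (nat_lit 5) (nat_lit 375) (nat_lit 338) (nat_lit 307)) (XT.nd (nat_lit 78) (nat_lit 228) (nat_lit 0) (XT.lf (nat_lit 0) (nat_lit 5743473750) (nat_lit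 228) (nat_lit 3296398445) (nat_lit 76) (nat_lit 2586670458) (nat_lit 59) (nat_lit 5) (nat_lit 62) (nat_lit 5) (nat_lit 60) (nat_lit 5) (nat_lit 376) (nat_lit 338) (nat_lit 306)) (XT.lf (nat_lit 0) (nat_lit 4321972984) (nat_lit 228) (nat_lit 5044431561) (nat_lit 304) (nat_lit 2593462663) (nat_lit 56) (nat_lit 5) (nat_lit 59) (nat_lit 5) (nat_lit 60) (nat_lit 5) (nat_lit 377) (nat_lit 338) (nat_lit 305)))) (XT.nd (nat_lit 156) (nat_lit 152) (nat_lit 0) (XT.nd (nat_lit 78) (nat_lit 0) (nat_lit 0) (XT.lf (nat_lit 0) (nat_lit 3487314) (nat_lit 152) (nat_lit 815643879) (nat_lit 228) (nat_lit 11490779536) (nat_lit 53) (nat_lit 5) (nat_lit 55) (nat_lit 5) (nat_lit 56) (nat_lit 5) (nat_lit 378) (nat_lit 338) (nat_lit 304)) (XT.lf (nat_lit 0) (nat_lit 4433555935) (nat_lit 228) (nat_lit 4592084557) (nat_lit 76) (nat_lit 3643798131) (nat_lit 53) (nat_lit 5) (nat_lit 56) (nat_lit 5) (nat_lit 54) (nat_lit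 5) (nat_lit 379) (nat_lit 338) (nat_lit 303))) (XT.nd (nat_lit 78) (nat_lit 0) (nat_lit 0) (XT.lf (nat_lit 0) (nat_lit 3499975513) (nat_lit 152) (nat_lit 4730357936) (nat_lit 228) (nat_lit 4816552566) (nat_lit 51) (nat_lit 5) (nat_lit 53) (nat_lit 5) (nat_lit 54) (nat_lit 5) (nat_lit 380) (nat_lit 338) (nat_lit 302)) (XT.lf (nat_lit 0) (nat_lit 12051139889) (nat_lit 152) (nat_lit 178717987) (nat_lit 228) (nat_lit 1212726002) (nat_lit 51) (nat_lit 5) (nat_lit 53) (nat_lit 5) (nat_lit 54) (nat_lit 5) (nat_lit 381) (nat_lit 338) (nat_lit 301)))))) (XT.nd (nat_lit 468) (nat_lit 608) (nat_lit 0) (XT.nd (nat_lit 234) (nat_lit 380) (nat_lit 0) (XT.nd (nat_lit 78) (nat_lit 152) (nat_lit 0) (XT.lf (nat_lit 0) (nat_lit 2613299920) (nat_lit 228) (nat_lit 6665228400) (nat_lit 76) (nat_lit 4571337108) (nat_lit 48) (nat_lit 5) (nat_lit 51) (nat_lit 5) (nat_lit 49) (nat_lit 5) (nat_lit 382) (nat_lit 338)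 (nat_lit 300)) (XT.nd (nat_lit 78) (nat_lit 0) (nat_lit 0) (XT.lf (nat_lit 0) (nat_lit 1896126035) (nat_lit 152) (nat_lit 4688238139) (nat_lit 228) (nat_lit 7692448519) (nat_lit 46) (nat_lit 5) (nat_lit 48) (nat_lit 5) (nat_lit 49) (nat_lit 5) (nat_lit 383) (nat_lit 338) (nat_lit 299)) (XT.lf (nat_lit 0) (nat_lit 10809511292) (nat_lit 228) (nat_lit 3710037819) (nat_lit 76) (nat_lit 202801064) (nat_lit 46) (nat_lit 5) (nat_lit 49) (nat_lit 5) (nat_lit 47) (nat_lit 4) (nat_lit 384) (nat_lit 338) (nat_lit 298)))) (XT.nd (nat_lit 78) (nat_lit 152) (nat_lit 0) (XT.lf (nat_lit 0) (nat_lit 158322860) (nat_lit 228) (nat_lit 9796449833) (nat_lit 76) (nat_lit 5230148056) (nat_lit 43) (nat_lit 5) (nat_lit 46) (nat_lit 5) (nat_lit 44) (nat_lit 5) (nat_lit 385) (nat_lit 338) (nat_lit 297)) (XT.nd (nat_lit 78) (nat_lit 152) (nat_lit 0) (XT.lf (nat_lit 0) (nat_lit 4307379401) (nat_lit 228) (nat_lit 760973086)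 (nat_lit 76) (nat_lit 10598785135) (nat_lit 43) (nat_lit 5) (nat_lit 46) (nat_lit 5) (nat_lit 44) (nat_lit 5) (nat_lit 386) (nat_lit 338) (nat_lit 296)) (XT.lf (nat_lit 0) (nat_lit 8750496439) (nat_lit 228) (nat_lit 7254554198) (nat_lit 76) (nat_lit 164100227) (nat_lit 41) (nat_lit 5) (nat_lit 44) (nat_lit 5) (nat_lit 42) (nat_lit 4) (nat_lit 387) (nat_lit 338) (nat_lit 295))))) (XT.nd (nat_lit 234) (nat_lit 304) (nat_lit 0) (XT.nd (nat_lit 78) (nat_lit 228) (nat_lit 0) (XT.lf (nat_lit 0) (nat_lit 2300157067) (nat_lit 76) (nat_lit 11193024790) (nat_lit 152) (nat_lit 3199227435) (nat_lit 40) (nat_lit 5) (nat_lit 41) (nat_lit 5) (nat_lit 42) (nat_lit 4) (nat_lit 388) (nat_lit 338) (nat_lit 294)) (XT.nd (nat_lit 78) (nat_lit 152) (nat_lit 0) (XT.lf (nat_lit 0) (nat_lit 1262207944) (nat_lit 152) (nat_lit 4767647965) (nat_lit 76) (nat_lit 11207505264) (nat_lit 39) (nat_lit 5) (nat_lit 41) (nat_lit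 5) (nat_lit 40) (nat_lit 5) (nat_lit 389) (nat_lit 338) (nat_lit 293)) (XT.lf (nat_lit 0) (nat_lit 5366856104) (nat_lit 152) (nat_lit 504296321) (nat_lit 228) (nat_lit 11934201375) (nat_lit 37) (nat_lit 5) (nat_lit 39) (nat_lit 5) (nat_lit 40) (nat_lit 5) (nat_lit 390) (nat_lit 338) (nat_lit 292)))) (XT.nd (nat_lit 156) (nat_lit 228) (nat_lit 0) (XT.nd (nat_lit 78) (nat_lit 76) (nat_lit 0) (XT.lf (nat_lit 0) (nat_lit 10823956294) (nat_lit 228) (nat_lit 2399280067) (nat_lit 76) (nat_lit 5172851556) (nat_lit 37) (nat_lit 5) (nat_lit 40) (nat_lit 5) (nat_lit 38) (nat_lit 4) (nat_lit 391) (nat_lit 338) (nat_lit 291)) (XT.lf (nat_lit 0) (nat_lit 8312890595) (nat_lit 76) (nat_lit 7800646932) (nat_lit 152) (nat_lit 2898376223) (nat_lit 36) (nat_lit 5) (nat_lit 37) (nat_lit 5) (nat_lit 38) (nat_lit 4) (nat_lit 392) (nat_lit 338) (nat_lit 290))) (XT.nd (nat_lit 78) (nat_lit 152) (nat_lit 0) (XT.lf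 (nat_lit 0) (nat_lit 1937345290) (nat_lit 152) (nat_lit 131591765) (nat_lit 76) (nat_lit 17588407179) (nat_lit 35) (nat_lit 5) (nat_lit 37) (nat_lit 5) (nat_lit 36) (nat_lit 5) (nat_lit 393) (nat_lit 338) (nat_lit 289)) (XT.lf (nat_lit 0) (nat_lit 7110523658) (nat_lit 228) (nat_lit 9198969013) (nat_lit 76) (nat_lit 4013534347) (nat_lit 33) (nat_lit 5) (nat_lit 36) (nat_lit 5) (nat_lit 34) (nat_lit 4) (nat_lit 394) (nat_lit 338) (nat_lit 288))))))))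
noncomputable def xc92 : XT := (XT.nd (nat_lit 1950) (nat_lit 760) (nat_lit 0) (XT.nd (nat_lit 936) (nat_lit 532) (nat_lit 0) (XT.nd (nat_lit 468) (nat_lit 380) (nat_lit 0) (XT.nd (nat_lit 234) (nat_lit 76) (nat_lit 0) (XT.nd (nat_lit 78) (nat_lit 228) (nat_lit 0) (XT.lf (nat_lit 0) (nat_lit 1867736846) (nat_lit 76) (nat_lit 10693941576) (nat_lit 152) (nat_lit 8459359410) (nat_lit 32) (nat_lit 5) (nat_lit 33) (nat_lit 5) (nat_lit 34) (nat_lit 4) (nat_lit 395) (nat_lit 338) (nat_lit 287)) (XT.nd (nat_lit 78) (nat_lit 228) (nat_lit 0) (XT.lf (nat_lit 0) (nat_lit 13725223233) (nat_lit 76) (nat_lit 4670844091) (nat_lit 152) (nat_lit 3352357343) (nat_lit 32) (nat_lit 5) (nat_lit 33) (nat_lit 5) (nat_lit 34) (nat_lit 4) (nat_lit 396) (nat_lit 338) (nat_lit 286)) (XT.lf (nat_lit 0) (nat_lit 1985993551) (nat_lit 228) (nat_lit 18866637378) (nat_lit 76) (nat_lit 1655972715) (nat_lit 29) (nat_lit 5)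 (nat_lit 32) (nat_lit 5) (nat_lit 30) (nat_lit 4) (nat_lit 397) (nat_lit 338) (nat_lit 285)))) (XT.nd (nat_lit 78) (nat_lit 76) (nat_lit 0) (XT.lf (nat_lit 0) (nat_lit 7649905817) (nat_lit 228) (nat_lit 7344601892) (nat_lit 76) (nat_lit 8300978812) (nat_lit 29) (nat_lit 5) (nat_lit 32) (nat_lit 5) (nat_lit 30) (nat_lit 4) (nat_lit 398) (nat_lit 338) (nat_lit 284)) (XT.nd (nat_lit 78) (nat_lit 0) (nat_lit 0) (XT.lf (nat_lit 0) (nat_lit 4832207054) (nat_lit 76) (nat_lit 8798945708) (nat_lit 152) (nat_lit 10488861477) (nat_lit 28) (nat_lit 5) (nat_lit 29) (nat_lit 5) (nat_lit 30) (nat_lit 4) (nat_lit 399) (nat_lit 338) (nat_lit 283)) (XT.lf (nat_lit 0) (nat_lit 17798080956) (nat_lit 76) (nat_lit 2197259908) (nat_lit 152) (nat_lit 4986240826) (nat_lit 28) (nat_lit 5) (nat_lit 29) (nat_lit 5) (nat_lit 30) (nat_lit 4) (nat_lit 400) (nat_lit 338) (nat_lit 282))))) (XT.nd (nat_lit 234) (nat_lit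 152) (nat_lit 0) (XT.nd (nat_lit 78) (nat_lit 76) (nat_lit 0) (XT.lf (nat_lit 0) (nat_lit 889762786) (nat_lit 152) (nat_lit 20337163534) (nat_lit 76) (nat_lit 4652510659) (nat_lit 26) (nat_lit 5) (nat_lit 28) (nat_lit 5) (nat_lit 27) (nat_lit 4) (nat_lit 401) (nat_lit 338) (nat_lit 281)) (XT.nd (nat_lit 78) (nat_lit 76) (nat_lit 0) (XT.lf (nat_lit 0) (nat_lit 7012691784) (nat_lit 152) (nat_lit 7854880897) (nat_lit 76) (nat_lit 11944496785) (nat_lit 26) (nat_lit 5) (nat_lit 28) (nat_lit 5) (nat_lit 27) (nat_lit 4) (nat_lit 402) (nat_lit 338) (nat_lit 280)) (XT.lf (nat_lit 0) (nat_lit 5353574883) (nat_lit 76) (nat_lit 8134657146) (nat_lit 152) (nat_lit 14300784304) (nat_lit 25) (nat_lit 5) (nat_lit 26) (nat_lit 5) (nat_lit 27) (nat_lit 4) (nat_lit 403) (nat_lit 338) (nat_lit 279)))) (XT.nd (nat_lit 78) (nat_lit 152) (nat_lit 0) (XT.lf (nat_lit 0) (nat_lit 19426985924) (nat_lit 76) (nat_lit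 957173312) (nat_lit 152) (nat_lit 8425826519) (nat_lit 25) (nat_lit 5) (nat_lit 26) (nat_lit 5) (nat_lit 27) (nat_lit 4) (nat_lit 404) (nat_lit 338) (nat_lit 278)) (XT.nd (nat_lit 78) (nat_lit 76) (nat_lit 0) (XT.lf (nat_lit 0) (nat_lit 4290473938) (nat_lit 76) (nat_lit 23468960373) (nat_lit 76) (nat_lit 2115847201) (nat_lit 24) (nat_lit 4) (nat_lit 25) (nat_lit 5) (nat_lit 25) (nat_lit 4) (nat_lit 405) (nat_lit 338) (nat_lit 277)) (XT.lf (nat_lit 0) (nat_lit 4507429112) (nat_lit 152) (nat_lit 12167512351) (nat_lit 76) (nat_lit 14308278408) (nat_lit 23) (nat_lit 5) (nat_lit 25) (nat_lit 5) (nat_lit 24) (nat_lit 4) (nat_lit 406) (nat_lit 338) (nat_lit 276)))))) (XT.nd (nat_lit 468) (nat_lit 228) (nat_lit 0) (XT.nd (nat_lit 234) (nat_lit 228) (nat_lit 0) (XT.nd (nat_lit 78) (nat_lit 0) (nat_lit 0) (XT.lf (nat_lit 0) (nat_lit 1883100016) (nat_lit 76) (nat_lit 9503665610) (nat_lit 152) (nat_lit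 20758259783) (nat_lit 22) (nat_lit 5) (nat_lit 23) (nat_lit 5) (nat_lit 24) (nat_lit 4) (nat_lit 407) (nat_lit 338) (nat_lit 275)) (XT.nd (nat_lit 78) (nat_lit 0) (nat_lit 0) (XT.lf (nat_lit 0) (nat_lit 16996557267) (nat_lit 76) (nat_lit 1786797255) (nat_lit 152) (nat_lit 14572906897) (nat_lit 22) (nat_lit 5) (nat_lit 23) (nat_lit 5) (nat_lit 24) (nat_lit 4) (nat_lit 408) (nat_lit 338) (nat_lit 274)) (XT.lf (nat_lit 0) (nat_lit 26616729431) (nat_lit 152) (nat_lit 1921266297) (nat_lit 0) (nat_lit 6086719936) (nat_lit 22) (nat_lit 5) (nat_lit 24) (nat_lit 4) (nat_lit 22) (nat_lit 4) (nat_lit 409) (nat_lit 338) (nat_lit 273)))) (XT.nd (nat_lit 78) (nat_lit 152) (nat_lit 0) (XT.lf (nat_lit 0) (nat_lit 13587264417) (nat_lit 76) (nat_lit 21465790405) (nat_lit 76) (nat_lit 892977769) (nat_lit 21) (nat_lit 4) (nat_lit 22) (nat_lit 5) (nat_lit 22) (nat_lit 4) (nat_lit 410) (nat_lit 338) (nat_lit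 272)) (XT.nd (nat_lit 78) (nat_lit 76) (nat_lit 0) (XT.lf (nat_lit 0) (nat_lit 6370241419) (nat_lit 152) (nat_lit 7554582623) (nat_lit 76) (nat_lit 23403310605) (nat_lit 20) (nat_lit 5) (nat_lit 22) (nat_lit 5) (nat_lit 21) (nat_lit 4) (nat_lit 411) (nat_lit 338) (nat_lit 271)) (XT.lf (nat_lit 0) (nat_lit 8182308845) (nat_lit 76) (nat_lit 5883403393) (nat_lit 152) (nat_lit 24707946095) (nat_lit 19) (nat_lit 5) (nat_lit 20) (nat_lit 5) (nat_lit 21) (nat_lit 4) (nat_lit 412) (nat_lit 338) (nat_lit 270))))) (XT.nd (nat_lit 234) (nat_lit 152) (nat_lit 0) (XT.nd (nat_lit 78) (nat_lit 76) (nat_lit 0) (XT.lf (nat_lit 0) (nat_lit 22287437760) (nat_lit 152) (nat_lit 15413679782) (nat_lit 0) (nat_lit 2583269943) (nat_lit 19) (nat_lit 5) (nat_lit 21) (nat_lit 4) (nat_lit 19) (nat_lit 4) (nat_lit 413) (nat_lit 338) (nat_lit 269)) (XT.nd (nat_lit 78) (nat_lit 0) (nat_lit 0) (XT.lf (nat_lit 0) (nat_lit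 386534744) (nat_lit 76) (nat_lit 30609030472) (nat_lit 76) (nat_lit 10871325274) (nat_lit 18) (nat_lit 4) (nat_lit 19) (nat_lit 5) (nat_lit 19) (nat_lit 4) (nat_lit 414) (nat_lit 338) (nat_lit 268)) (XT.lf (nat_lit 0) (nat_lit 17460470117) (nat_lit 76) (nat_lit 22912989544) (nat_lit 76) (nat_lit 3143343982) (nat_lit 18) (nat_lit 4) (nat_lit 19) (nat_lit 5) (nat_lit 19) (nat_lit 4) (nat_lit 415) (nat_lit 338) (nat_lit 267)))) (XT.nd (nat_lit 156) (nat_lit 0) (nat_lit 0) (XT.nd (nat_lit 78) (nat_lit 76) (nat_lit 0) (XT.lf (nat_lit 0) (nat_lit 4786105710) (nat_lit 152) (nat_lit 9988548249) (nat_lit 76) (nat_lit 30471971975) (nat_lit 17) (nat_lit 5) (nat_lit 19) (nat_lit 5) (nat_lit 18) (nat_lit 4) (nat_lit 416) (nat_lit 338) (nat_lit 266)) (XT.lf (nat_lit 0) (nat_lit 7007940353) (nat_lit 76) (nat_lit 6083267529) (nat_lit 152) (nat_lit 33964916712) (nat_lit 16) (nat_lit 5) (nat_lit 17) (nat_lit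 5) (nat_lit 18) (nat_lit 4) (nat_lit 417) (nat_lit 338) (nat_lit 265))) (XT.nd (nat_lit 78) (nat_lit 0) (nat_lit 0) (XT.lf (nat_lit 0) (nat_lit 22006497974) (nat_lit 152) (nat_lit 23844431512) (nat_lit 0) (nat_lit 3095424552) (nat_lit 16) (nat_lit 5) (nat_lit 18) (nat_lit 4) (nat_lit 16) (nat_lit 4) (nat_lit 418) (nat_lit 338) (nat_lit 264)) (XT.lf (nat_lit 0) (nat_lit 31443939119) (nat_lit 152) (nat_lit 6975499294) (nat_lit 0) (nat_lit 12507839587) (nat_lit 16) (nat_lit 5) (nat_lit 18) (nat_lit 4) (nat_lit 16) (nat_lit 4) (nat_lit 419) (nat_lit 338) (nat_lit 263))))))) (XT.nd (nat_lit 1014) (nat_lit 304) (nat_lit 0) (XT.nd (nat_lit 468) (nat_lit 228) (nat_lit 0) (XT.nd (nat_lit 234) (nat_lit 76) (nat_lit 0) (XT.nd (nat_lit 78) (nat_lit 76) (nat_lit 0) (XT.lf (nat_lit 0) (nat_lit 11047337169) (nat_lit 76) (nat_lit 30456167284) (nat_lit 76) (nat_lit 11496233361) (nat_lit 15) (nat_lit 4) (nat_lit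 16) (nat_lit 5) (nat_lit 16) (nat_lit 4) (nat_lit 420) (nat_lit 338) (nat_lit 262)) (XT.nd (nat_lit 78) (nat_lit 76) (nat_lit 0) (XT.lf (nat_lit 0) (nat_lit 30171058480) (nat_lit 76) (nat_lit 21991291274) (nat_lit 76) (nat_lit 3008657931) (nat_lit 15) (nat_lit 4) (nat_lit 16) (nat_lit 5) (nat_lit 16) (nat_lit 4) (nat_lit 421) (nat_lit 338) (nat_lit 261)) (XT.lf (nat_lit 0) (nat_lit 5693218934) (nat_lit 152) (nat_lit 7333153022) (nat_lit 76) (nat_lit 44420919445) (nat_lit 14) (nat_lit 5) (nat_lit 16) (nat_lit 5) (nat_lit 15) (nat_lit 4) (nat_lit 422) (nat_lit 338) (nat_lit 260)))) (XT.nd (nat_lit 78) (nat_lit 0) (nat_lit 0) (XT.lf (nat_lit 0) (nat_lit 11496466255) (nat_lit 76) (nat_lit 3391976250) (nat_lit 152) (nat_lit 44938514370) (nat_lit 13) (nat_lit 5) (nat_lit 14) (nat_lit 5) (nat_lit 15) (nat_lit 4) (nat_lit 423) (nat_lit 338) (nat_lit 259)) (XT.nd (nat_lit 78) (nat_lit 0) (nat_lit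 0) (XT.lf (nat_lit 0) (nat_lit 24754572087) (nat_lit 152) (nat_lit 30943476923) (nat_lit 0) (nat_lit 6617001140) (nat_lit 13) (nat_lit 5) (nat_lit 15) (nat_lit 4) (nat_lit 13) (nat_lit 4) (nat_lit 424) (nat_lit 338) (nat_lit 258)) (XT.lf (nat_lit 0) (nat_lit 35150505524) (nat_lit 152) (nat_lit 12780070396) (nat_lit 0) (nat_lit 16995148988) (nat_lit 13) (nat_lit 5) (nat_lit 15) (nat_lit 4) (nat_lit 13) (nat_lit 4) (nat_lit 425) (nat_lit 338) (nat_lit 257))))) (XT.nd (nat_lit 234) (nat_lit 152) (nat_lit 0) (XT.nd (nat_lit 78) (nat_lit 0) (nat_lit 0) (XT.lf (nat_lit 0) (nat_lit 6462782835) (nat_lit 76) (nat_lit 39686156100) (nat_lit 76) (nat_lit 21513860908) (nat_lit 12) (nat_lit 4) (nat_lit 13) (nat_lit 5) (nat_lit 13) (nat_lit 4) (nat_lit 426) (nat_lit 338) (nat_lit 256)) (XT.nd (nat_lit 78) (nat_lit 0) (nat_lit 0) (XT.lf (nat_lit 0) (nat_lit 27076474639) (nat_lit 76) (nat_lit 30819377381)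 (nat_lit 76) (nat_lit 12630950134) (nat_lit 12) (nat_lit 4) (nat_lit 13) (nat_lit 5) (nat_lit 13) (nat_lit 4) (nat_lit 427) (nat_lit 338) (nat_lit 255)) (XT.lf (nat_lit 0) (nat_lit 48687518390) (nat_lit 76) (nat_lit 21525565061) (nat_lit 76) (nat_lit 3321773953) (nat_lit 12) (nat_lit 4) (nat_lit 13) (nat_lit 5) (nat_lit 13) (nat_lit 4) (nat_lit 428) (nat_lit 338) (nat_lit 254)))) (XT.nd (nat_lit 156) (nat_lit 0) (nat_lit 0) (XT.nd (nat_lit 78) (nat_lit 76) (nat_lit 0) (XT.lf (nat_lit 0) (nat_lit 6229845513) (nat_lit 152) (nat_lit 5447240053) (nat_lit 76) (nat_lit 65012017993) (nat_lit 11) (nat_lit 5) (nat_lit 13) (nat_lit 5) (nat_lit 12) (nat_lit 4) (nat_lit 429) (nat_lit 338) (nat_lit 253)) (XT.lf (nat_lit 0) (nat_lit 15328254393) (nat_lit 76) (nat_lit 1042776447) (nat_lit 152) (nat_lit 63616128760) (nat_lit 10) (nat_lit 5) (nat_lit 11) (nat_lit 5) (nat_lit 12) (nat_lit 4) (nat_lit 430)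 (nat_lit 338) (nat_lit 252))) (XT.nd (nat_lit 78) (nat_lit 0) (nat_lit 0) (XT.lf (nat_lit 0) (nat_lit 27255436482) (nat_lit 152) (nat_lit 46304229778) (nat_lit 0) (nat_lit 9878645329) (nat_lit 10) (nat_lit 5) (nat_lit 12) (nat_lit 4) (nat_lit 10) (nat_lit 4) (nat_lit 431) (nat_lit 338) (nat_lit 251)) (XT.lf (nat_lit 0) (nat_lit 38686247393) (nat_lit 152) (nat_lit 27078247424) (nat_lit 0) (nat_lit 21297418253) (nat_lit 10) (nat_lit 5) (nat_lit 12) (nat_lit 4) (nat_lit 10) (nat_lit 4) (nat_lit 432) (nat_lit 338) (nat_lit 250)))))) (XT.nd (nat_lit 468) (nat_lit 76) (nat_lit 0) (XT.nd (nat_lit 234) (nat_lit 152) (nat_lit 0) (XT.nd (nat_lit 78) (nat_lit 76) (nat_lit 0) (XT.lf (nat_lit 0) (nat_lit 50674399128) (nat_lit 152) (nat_lit 6918901333) (nat_lit 0) (nat_lit 33274105237) (nat_lit 10) (nat_lit 5) (nat_lit 12) (nat_lit 4) (nat_lit 10) (nat_lit 4) (nat_lit 433) (nat_lit 338) (nat_lit 249))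 (XT.nd (nat_lit 78) (nat_lit 0) (nat_lit 0) (XT.lf (nat_lit 0) (nat_lit 14692044101) (nat_lit 76) (nat_lit 48785774785) (nat_lit 76) (nat_lit 31374562085) (nat_lit 9) (nat_lit 4) (nat_lit 10) (nat_lit 5) (nat_lit 10) (nat_lit 4) (nat_lit 434) (nat_lit 338) (nat_lit 248)) (XT.lf (nat_lit 0) (nat_lit 37597569428) (nat_lit 76) (nat_lit 39427726897) (nat_lit 76) (nat_lit 22006115332) (nat_lit 9) (nat_lit 4) (nat_lit 10) (nat_lit 5) (nat_lit 10) (nat_lit 4) (nat_lit 435) (nat_lit 338) (nat_lit 247)))) (XT.nd (nat_lit 78) (nat_lit 152) (nat_lit 0) (XT.lf (nat_lit 0) (nat_lit 61623441489) (nat_lit 76) (nat_lit 29614050675) (nat_lit 76) (nat_lit 12182535428) (nat_lit 9) (nat_lit 4) (nat_lit 10) (nat_lit 5) (nat_lit 10) (nat_lit 4) (nat_lit 436) (nat_lit 338) (nat_lit 246)) (XT.nd (nat_lit 78) (nat_lit 152) (nat_lit 0) (XT.lf (nat_lit 0) (nat_lit 86826864740) (nat_lit 76) (nat_lit 19321380222) (nat_lit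 76) (nat_lit 1880432898) (nat_lit 9) (nat_lit 4) (nat_lit 10) (nat_lit 5) (nat_lit 10) (nat_lit 4) (nat_lit 437) (nat_lit 338) (nat_lit 245)) (XT.lf (nat_lit 0) (nat_lit 268774446) (nat_lit 76) (nat_lit 8374496139) (nat_lit 152) (nat_lit 104217888039) (nat_lit 7) (nat_lit 5) (nat_lit 8) (nat_lit 5) (nat_lit 9) (nat_lit 4) (nat_lit 438) (nat_lit 338) (nat_lit 244))))) (XT.nd (nat_lit 234) (nat_lit 76) (nat_lit 0) (XT.nd (nat_lit 78) (nat_lit 0) (nat_lit 0) (XT.lf (nat_lit 0) (nat_lit 20031981549) (nat_lit 152) (nat_lit 94476787885) (nat_lit 0) (nat_lit 3404852569) (nat_lit 7) (nat_lit 5) (nat_lit 9) (nat_lit 4) (nat_lit 7) (nat_lit 4) (nat_lit 439) (nat_lit 338) (nat_lit 243)) (XT.nd (nat_lit 78) (nat_lit 0) (nat_lit 0) (XT.lf (nat_lit 0) (nat_lit 32116329335) (nat_lit 152) (nat_lit 75614629326) (nat_lit 0) (nat_lit 15481440561) (nat_lit 7) (nat_lit 5) (nat_lit 9) (nat_lit 4) (nat_lit 7)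 (nat_lit 4) (nat_lit 440) (nat_lit 338) (nat_lit 242)) (XT.lf (nat_lit 0) (nat_lit 44794336846) (nat_lit 152) (nat_lit 55830249248) (nat_lit 0) (nat_lit 28152057793) (nat_lit 7) (nat_lit 5) (nat_lit 9) (nat_lit 4) (nat_lit 7) (nat_lit 4) (nat_lit 441) (nat_lit 338) (nat_lit 241)))) (XT.nd (nat_lit 156) (nat_lit 76) (nat_lit 0) (XT.nd (nat_lit 78) (nat_lit 0) (nat_lit 0) (XT.lf (nat_lit 0) (nat_lit 58096189814) (nat_lit 152) (nat_lit 35076541983) (nat_lit 0) (nat_lit 41446872400) (nat_lit 7) (nat_lit 5) (nat_lit 9) (nat_lit 4) (nat_lit 7) (nat_lit 4) (nat_lit 442) (nat_lit 338) (nat_lit 240)) (XT.lf (nat_lit 0) (nat_lit 72053559319) (nat_lit 152) (nat_lit 13304093943) (nat_lit 0) (nat_lit 55397538702) (nat_lit 7) (nat_lit 5) (nat_lit 9) (nat_lit 4) (nat_lit 7) (nat_lit 4) (nat_lit 443) (nat_lit 338) (nat_lit 239))) (XT.nd (nat_lit 78) (nat_lit 0) (nat_lit 0) (XT.lf (nat_lit 0) (nat_lit 9854334272)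 (nat_lit 76) (nat_lit 76999196694) (nat_lit 76) (nat_lit 60336792076) (nat_lit 6) (nat_lit 4) (nat_lit 7) (nat_lit 5) (nat_lit 7) (nat_lit 4) (nat_lit 444) (nat_lit 338) (nat_lit 238)) (XT.lf (nat_lit 0) (nat_lit 34614820541) (nat_lit 76) (nat_lit 67995028956) (nat_lit 76) (nat_lit 51326544337) (nat_lit 6) (nat_lit 4) (nat_lit 7) (nat_lit 5) (nat_lit 7) (nat_lit 4) (nat_lit 445) (nat_lit 338) (nat_lit 237))))))))
noncomputable def xc93 : XT := (XT.nd (nat_lit 1950) (nat_lit 152) (nat_lit 0) (XT.nd (nat_lit 936) (nat_lit 76) (nat_lit 0) (XT.nd (nat_lit 468) (nat_lit 0) (nat_lit 0) (XT.nd (nat_lit 234) (nat_lit 152) (nat_lit 0) (XT.nd (nat_lit 78) (nat_lit 0) (nat_lit 0) (XT.lf (nat_lit 0) (nat_lit 60596424975) (nat_lit 76) (nat_lit 58549022823) (nat_lit 76) (nat_lit 41874747726) (nat_lit 6) (nat_lit 4) (nat_lit 7) (nat_lit 5) (nat_lit 7) (nat_lit 4) (nat_lit 446) (nat_lit 338) (nat_lit 236))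 (XT.nd (nat_lit 78) (nat_lit 0) (nat_lit 0) (XT.lf (nat_lit 0) (nat_lit 87861008535) (nat_lit 76) (nat_lit 48638687803) (nat_lit 76) (nat_lit 31958897965) (nat_lit 6) (nat_lit 4) (nat_lit 7) (nat_lit 5) (nat_lit 7) (nat_lit 4) (nat_lit 447) (nat_lit 338) (nat_lit 235)) (XT.lf (nat_lit 0) (nat_lit 116473486897) (nat_lit 76) (nat_lit 38240427861) (nat_lit 76) (nat_lit 21555385890) (nat_lit 6) (nat_lit 4) (nat_lit 7) (nat_lit 5) (nat_lit 7) (nat_lit 4) (nat_lit 448) (nat_lit 338) (nat_lit 234)))) (XT.nd (nat_lit 78) (nat_lit 152) (nat_lit 0) (XT.lf (nat_lit 0) (nat_lit 146501985010) (nat_lit 76) (nat_lit 27329485236) (nat_lit 76) (nat_lit 10639441232) (nat_lit 6) (nat_lit 4) (nat_lit 7) (nat_lit 5) (nat_lit 7) (nat_lit 4) (nat_lit 449) (nat_lit 338) (nat_lit 233)) (XT.nd (nat_lit 78) (nat_lit 76) (nat_lit 0) (XT.lf (nat_lit 0) (nat_lit 788843619) (nat_lit 152) (nat_lit 15077678423) (nat_lit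 76) (nat_lit 177215796228) (nat_lit 5) (nat_lit 5) (nat_lit 7) (nat_lit 5) (nat_lit 6) (nat_lit 4) (nat_lit 450) (nat_lit 338) (nat_lit 232)) (XT.lf (nat_lit 0) (nat_lit 9060227202) (nat_lit 76) (nat_lit 3505417693) (nat_lit 152) (nat_lit 189543197206) (nat_lit 4) (nat_lit 5) (nat_lit 5) (nat_lit 5) (nat_lit 6) (nat_lit 4) (nat_lit 451) (nat_lit 338) (nat_lit 231))))) (XT.nd (nat_lit 234) (nat_lit 0) (nat_lit 0) (XT.nd (nat_lit 78) (nat_lit 0) (nat_lit 0) (XT.lf (nat_lit 0) (nat_lit 25331947516) (nat_lit 152) (nat_lit 176811017539) (nat_lit 0) (nat_lit 9423694394) (nat_lit 4) (nat_lit 5) (nat_lit 6) (nat_lit 4) (nat_lit 4) (nat_lit 4) (nat_lit 452) (nat_lit 338) (nat_lit 230)) (XT.nd (nat_lit 78) (nat_lit 0) (nat_lit 0) (XT.lf (nat_lit 0) (nat_lit 38787570000) (nat_lit 152) (nat_lit 159831850145) (nat_lit 0) (nat_lit 22875397655) (nat_lit 4) (nat_lit 5) (nat_lit 6) (nat_lit 4) (nat_lit 4)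 (nat_lit 4) (nat_lit 453) (nat_lit 338) (nat_lit 229)) (XT.lf (nat_lit 0) (nat_lit 52909820149) (nat_lit 152) (nat_lit 142015956736) (nat_lit 0) (nat_lit 36993915211) (nat_lit 4) (nat_lit 5) (nat_lit 6) (nat_lit 4) (nat_lit 4) (nat_lit 4) (nat_lit 454) (nat_lit 338) (nat_lit 228)))) (XT.nd (nat_lit 78) (nat_lit 0) (nat_lit 0) (XT.lf (nat_lit 0) (nat_lit 67732322368) (nat_lit 152) (nat_lit 123320918517) (nat_lit 0) (nat_lit 51812862579) (nat_lit 4) (nat_lit 5) (nat_lit 6) (nat_lit 4) (nat_lit 4) (nat_lit 4) (nat_lit 455) (nat_lit 338) (nat_lit 227)) (XT.nd (nat_lit 78) (nat_lit 0) (nat_lit 0) (XT.lf (nat_lit 0) (nat_lit 83290368330) (nat_lit 152) (nat_lit 103702223494) (nat_lit 0) (nat_lit 67367522968) (nat_lit 4) (nat_lit 5) (nat_lit 6) (nat_lit 4) (nat_lit 4) (nat_lit 4) (nat_lit 456) (nat_lit 338) (nat_lit 226)) (XT.lf (nat_lit 0) (nat_lit 99621001000) (nat_lit 152) (nat_lit 83113160487)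 (nat_lit 0) (nat_lit 83694931283) (nat_lit 4) (nat_lit 5) (nat_lit 6) (nat_lit 4) (nat_lit 4) (nat_lit 4) (nat_lit 457) (nat_lit 338) (nat_lit 225)))))) (XT.nd (nat_lit 468) (nat_lit 0) (nat_lit 0) (XT.nd (nat_lit 234) (nat_lit 76) (nat_lit 0) (XT.nd (nat_lit 78) (nat_lit 0) (nat_lit 0) (XT.lf (nat_lit 0) (nat_lit 116763102837) (nat_lit 152) (nat_lit 61504707917) (nat_lit 0) (nat_lit 100833962307) (nat_lit 4) (nat_lit 5) (nat_lit 6) (nat_lit 4) (nat_lit 4) (nat_lit 4) (nat_lit 458) (nat_lit 338) (nat_lit 224)) (XT.nd (nat_lit 78) (nat_lit 0) (nat_lit 0) (XT.lf (nat_lit 0) (nat_lit 134757488370) (nat_lit 152) (nat_lit 38825417089) (nat_lit 0) (nat_lit 118825423255) (nat_lit 4) (nat_lit 5) (nat_lit 6) (nat_lit 4) (nat_lit 4) (nat_lit 4) (nat_lit 459) (nat_lit 338) (nat_lit 223)) (XT.lf (nat_lit 0) (nat_lit 153647001374) (nat_lit 152) (nat_lit 15021289690) (nat_lit 0) (nat_lit 137712150940)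 (nat_lit 4) (nat_lit 5) (nat_lit 6) (nat_lit 4) (nat_lit 4) (nat_lit 4) (nat_lit 460) (nat_lit 338) (nat_lit 222)))) (XT.nd (nat_lit 78) (nat_lit 0) (nat_lit 0) (XT.lf (nat_lit 0) (nat_lit 10293817208) (nat_lit 76) (nat_lit 163343515006) (nat_lit 76) (nat_lit 147406011887) (nat_lit 3) (nat_lit 4) (nat_lit 4) (nat_lit 5) (nat_lit 4) (nat_lit 4) (nat_lit 461) (nat_lit 338) (nat_lit 221)) (XT.nd (nat_lit 78) (nat_lit 0) (nat_lit 0) (XT.lf (nat_lit 0) (nat_lit 37387631621) (nat_lit 76) (nat_lit 157489642344) (nat_lit 76) (nat_lit 141549612860) (nat_lit 3) (nat_lit 4) (nat_lit 4) (nat_lit 5) (nat_lit 4) (nat_lit 4) (nat_lit 462) (nat_lit 338) (nat_lit 220)) (XT.lf (nat_lit 0) (nat_lit 65827990953) (nat_lit 76) (nat_lit 151347128097) (nat_lit 76) (nat_lit 135404692550) (nat_lit 3) (nat_lit 4) (nat_lit 4) (nat_lit 5) (nat_lit 4) (nat_lit 4) (nat_lit 463) (nat_lit 338) (nat_lit 219))))) (XT.nd (nat_lit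 234) (nat_lit 0) (nat_lit 0) (XT.nd (nat_lit 78) (nat_lit 0) (nat_lit 0) (XT.lf (nat_lit 0) (nat_lit 95682610345) (nat_lit 76) (nat_lit 144901347231) (nat_lit 76) (nat_lit 128956620195) (nat_lit 3) (nat_lit 4) (nat_lit 4) (nat_lit 5) (nat_lit 4) (nat_lit 4) (nat_lit 464) (nat_lit 338) (nat_lit 218)) (XT.nd (nat_lit 78) (nat_lit 0) (nat_lit 0) (XT.lf (nat_lit 0) (nat_lit 127022572226) (nat_lit 76) (nat_lit 138136952648) (nat_lit 76) (nat_lit 122190043242) (nat_lit 3) (nat_lit 4) (nat_lit 4) (nat_lit 5) (nat_lit 4) (nat_lit 4) (nat_lit 465) (nat_lit 338) (nat_lit 217)) (XT.lf (nat_lit 0) (nat_lit 159922495551) (nat_lit 76) (nat_lit 131037838647) (nat_lit 76) (nat_lit 115088850793) (nat_lit 3) (nat_lit 4) (nat_lit 4) (nat_lit 5) (nat_lit 4) (nat_lit 4) (nat_lit 466) (nat_lit 338) (nat_lit 216)))) (XT.nd (nat_lit 156) (nat_lit 0) (nat_lit 0) (XT.nd (nat_lit 78) (nat_lit 0) (nat_lit 0) (XT.lf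 (nat_lit 0) (nat_lit 194460713472) (nat_lit 76) (nat_lit 123587102576) (nat_lit 76) (nat_lit 107636135248) (nat_lit 3) (nat_lit 4) (nat_lit 4) (nat_lit 5) (nat_lit 4) (nat_lit 4) (nat_lit 467) (nat_lit 338) (nat_lit 215)) (XT.lf (nat_lit 0) (nat_lit 230719459841) (nat_lit 76) (nat_lit 115767004587) (nat_lit 76) (nat_lit 99814152045) (nat_lit 3) (nat_lit 4) (nat_lit 4) (nat_lit 5) (nat_lit 4) (nat_lit 4) (nat_lit 468) (nat_lit 338) (nat_lit 214))) (XT.nd (nat_lit 78) (nat_lit 0) (nat_lit 0) (XT.lf (nat_lit 0) (nat_lit 268785065005) (nat_lit 76) (nat_lit 107558925398) (nat_lit 76) (nat_lit 91604277416) (nat_lit 3) (nat_lit 4) (nat_lit 4) (nat_lit 5) (nat_lit 4) (nat_lit 4) (nat_lit 469) (nat_lit 338) (nat_lit 213)) (XT.lf (nat_lit 0) (nat_lit 308748161359) (nat_lit 76) (nat_lit 98943321965) (nat_lit 76) (nat_lit 82986964038) (nat_lit 3) (nat_lit 4) (nat_lit 4) (nat_lit 5) (nat_lit 4) (nat_lit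 4) (nat_lit 470) (nat_lit 338) (nat_lit 212))))))) (XT.nd (nat_lit 43368) (nat_lit 0) (nat_lit 8132) (XT.nd (nat_lit 468) (nat_lit 152) (nat_lit 0) (XT.nd (nat_lit 234) (nat_lit 0) (nat_lit 0) (XT.nd (nat_lit 78) (nat_lit 0) (nat_lit 0) (XT.lf (nat_lit 0) (nat_lit 350703899133) (nat_lit 76) (nat_lit 89899680946) (nat_lit 76) (nat_lit 73941694501) (nat_lit 3) (nat_lit 4) (nat_lit 4) (nat_lit 5) (nat_lit 4) (nat_lit 4) (nat_lit 471) (nat_lit 338) (nat_lit 211)) (XT.nd (nat_lit 78) (nat_lit 0) (nat_lit 0) (XT.lf (nat_lit 0) (nat_lit 394752172938) (nat_lit 76) (nat_lit 80406469861) (nat_lit 76) (nat_lit 64446932447) (nat_lit 3) (nat_lit 4) (nat_lit 4) (nat_lit 5) (nat_lit 4) (nat_lit 4) (nat_lit 472) (nat_lit 338) (nat_lit 210)) (XT.lf (nat_lit 0) (nat_lit 440997859619) (nat_lit 76) (nat_lit 70441085829) (nat_lit 76) (nat_lit 54480071300) (nat_lit 3) (nat_lit 4) (nat_lit 4) (nat_lit 5) (nat_lit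 4) (nat_lit 4) (nat_lit 473) (nat_lit 338) (nat_lit 209)))) (XT.nd (nat_lit 78) (nat_lit 0) (nat_lit 0) (XT.lf (nat_lit 0) (nat_lit 489551067953) (nat_lit 76) (nat_lit 59979801743) (nat_lit 76) (nat_lit 44017380439) (nat_lit 3) (nat_lit 4) (nat_lit 4) (nat_lit 5) (nat_lit 4) (nat_lit 4) (nat_lit 474) (nat_lit 338) (nat_lit 208)) (XT.nd (nat_lit 78) (nat_lit 0) (nat_lit 0) (XT.lf (nat_lit 0) (nat_lit 540527400816) (nat_lit 76) (nat_lit 48997709784) (nat_lit 76) (nat_lit 33033948695) (nat_lit 3) (nat_lit 4) (nat_lit 4) (nat_lit 5) (nat_lit 4) (nat_lit 4) (nat_lit 475) (nat_lit 338) (nat_lit 207)) (XT.lf (nat_lit 0) (nat_lit 594048230430) (nat_lit 76) (nat_lit 37468662115) (nat_lit 76) (nat_lit 21503625039) (nat_lit 3) (nat_lit 4) (nat_lit 4) (nat_lit 5) (nat_lit 4) (nat_lit 4) (nat_lit 476) (nat_lit 338) (nat_lit 206))))) (XT.nd (nat_lit 42588) (nat_lit 0) (nat_lit 12464) (XT.nd (nat_lit 78)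 (nat_lit 152) (nat_lit 0) (XT.lf (nat_lit 0) (nat_lit 650240987342) (nat_lit 76) (nat_lit 25365208622) (nat_lit 76) (nat_lit 9398956321) (nat_lit 3) (nat_lit 4) (nat_lit 4) (nat_lit 5) (nat_lit 4) (nat_lit 4) (nat_lit 477) (nat_lit 338) (nat_lit 205)) (XT.nd (nat_lit 78) (nat_lit 76) (nat_lit 0) (XT.lf (nat_lit 0) (nat_lit 3202973336) (nat_lit 152) (nat_lit 9401314320) (nat_lit 76) (nat_lit 705982246591) (nat_lit 2) (nat_lit 5) (nat_lit 4) (nat_lit 5) (nat_lit 3) (nat_lit 4) (nat_lit 478) (nat_lit 338) (nat_lit 204)) (XT.lf (nat_lit 0) (nat_lit 16411995897) (nat_lit 152) (nat_lit 736208752974) (nat_lit 0) (nat_lit 1203889322) (nat_lit 1) (nat_lit 5) (nat_lit 3) (nat_lit 4) (nat_lit 1) (nat_lit 4) (nat_lit 479) (nat_lit 338) (nat_lit 203)))) (XT.nd (nat_lit 156) (nat_lit 228) (nat_lit 0) (XT.nd (nat_lit 78) (nat_lit 0) (nat_lit 0) (XT.lf (nat_lit 0) (nat_lit 13566236) (nat_lit 76) (nat_lit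 1606437478) (nat_lit 76) (nat_lit 1606437478) (nat_lit 168) (nat_lit 4) (nat_lit 169) (nat_lit 5) (nat_lit 169) (nat_lit 4) (nat_lit 342) (nat_lit 339) (nat_lit 339)) (XT.lf (nat_lit 0) (nat_lit 3477125417) (nat_lit 76) (nat_lit 2917123282) (nat_lit 76) (nat_lit 74263976) (nat_lit 168) (nat_lit 4) (nat_lit 169) (nat_lit 5) (nat_lit 169) (nat_lit 4) (nat_lit 343) (nat_lit 339) (nat_lit 338))) (XT.nd (nat_lit 78) (nat_lit 0) (nat_lit 0) (XT.lf (nat_lit 0) (nat_lit 464077908) (nat_lit 152) (nat_lit 2469786612) (nat_lit 228) (nat_lit 3558005375) (nat_lit 165) (nat_lit 5) (nat_lit 167) (nat_lit 5) (nat_lit 168) (nat_lit 4) (nat_lit 344) (nat_lit 339) (nat_lit 337)) (XT.lf (nat_lit 0) (nat_lit 4081594680) (nat_lit 152) (nat_lit 1874744944) (nat_lit 228) (nat_lit 566905511) (nat_lit 165) (nat_lit 5) (nat_lit 167) (nat_lit 5) (nat_lit 168) (nat_lit 4) (nat_lit 345) (nat_lit 339) (nat_lit 336))))))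 (XT.nd (nat_lit 468) (nat_lit 2736) (nat_lit 0) (XT.nd (nat_lit 234) (nat_lit 912) (nat_lit 0) (XT.nd (nat_lit 78) (nat_lit 380) (nat_lit 0) (XT.lf (nat_lit 0) (nat_lit 1208250206) (nat_lit 228) (nat_lit 1123463307) (nat_lit 304) (nat_lit 4230660627) (nat_lit 161) (nat_lit 5) (nat_lit 164) (nat_lit 5) (nat_lit 165) (nat_lit 5) (nat_lit 346) (nat_lit 339) (nat_lit 335)) (XT.nd (nat_lit 78) (nat_lit 380) (nat_lit 0) (XT.lf (nat_lit 0) (nat_lit 5003616907) (nat_lit 228) (nat_lit 222020961) (nat_lit 304) (nat_lit 1384086874) (nat_lit 161) (nat_lit 5) (nat_lit 164) (nat_lit 5) (nat_lit 165) (nat_lit 5) (nat_lit 347) (nat_lit 339) (nat_lit 334)) (XT.lf (nat_lit 0) (nat_lit 1435483078) (nat_lit 380) (nat_lit 4413890766) (nat_lit 76) (nat_lit 814897093) (nat_lit 156) (nat_lit 5) (nat_lit 161) (nat_lit 5) (nat_lit 157) (nat_lit 5) (nat_lit 348) (nat_lit 339) (nat_lit 333)))) (XT.nd (nat_lit 78) (nat_lit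 912) (nat_lit 0) (XT.lf (nat_lit 0) (nat_lit 4221312333) (nat_lit 380) (nat_lit 511192651) (nat_lit 76) (nat_lit 1994488943) (nat_lit 156) (nat_lit 5) (nat_lit 161) (nat_lit 5) (nat_lit 157) (nat_lit 5) (nat_lit 349) (nat_lit 339) (nat_lit 332)) (XT.nd (nat_lit 78) (nat_lit 456) (nat_lit 0) (XT.lf (nat_lit 0) (nat_lit 244645884) (nat_lit 456) (nat_lit 3214283083) (nat_lit 76) (nat_lit 3338686536) (nat_lit 150) (nat_lit 5) (nat_lit 156) (nat_lit 5) (nat_lit 151) (nat_lit 5) (nat_lit 350) (nat_lit 339) (nat_lit 331)) (XT.lf (nat_lit 0) (nat_lit 899338203) (nat_lit 456) (nat_lit 2022818217) (nat_lit 532) (nat_lit 3954014286) (nat_lit 144) (nat_lit 5) (nat_lit 150) (nat_lit 5) (nat_lit 151) (nat_lit 5) (nat_lit 351) (nat_lit 339) (nat_lit 330))))) (XT.nd (nat_lit 234) (nat_lit 2128) (nat_lit 0) (XT.nd (nat_lit 78) (nat_lit 608) (nat_lit 0) (XT.lf (nat_lit 0) (nat_lit 5214900435) (nat_lit 456)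 (nat_lit 429404064) (nat_lit 532) (nat_lit 1318954007) (nat_lit 144) (nat_lit 5) (nat_lit 150) (nat_lit 5) (nat_lit 151) (nat_lit 5) (nat_lit 352) (nat_lit 339) (nat_lit 329)) (XT.nd (nat_lit 78) (nat_lit 0) (nat_lit 0) (XT.lf (nat_lit 0) (nat_lit 1324359296) (nat_lit 608) (nat_lit 4440627885) (nat_lit 76) (nat_lit 1292570880) (nat_lit 136) (nat_lit 5) (nat_lit 144) (nat_lit 5) (nat_lit 137) (nat_lit 5) (nat_lit 353) (nat_lit 339) (nat_lit 328)) (XT.lf (nat_lit 0) (nat_lit 3958646478) (nat_lit 608) (nat_lit 42960285) (nat_lit 76) (nat_lit 3158851509) (nat_lit 136) (nat_lit 5) (nat_lit 144) (nat_lit 5) (nat_lit 137) (nat_lit 5) (nat_lit 354) (nat_lit 339) (nat_lit 327)))) (XT.nd (nat_lit 156) (nat_lit 760) (nat_lit 0) (XT.nd (nat_lit 78) (nat_lit 760) (nat_lit 0) (XT.lf (nat_lit 0) (nat_lit 4607878210) (nat_lit 608) (nat_lit 2061092289) (nat_lit 684) (nat_lit 602434466) (nat_lit 128) (nat_lit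 5) (nat_lit 136) (nat_lit 5) (nat_lit 137) (nat_lit 5) (nat_lit 355) (nat_lit 339) (nat_lit 326)) (XT.lf (nat_lit 0) (nat_lit 1966527386) (nat_lit 760) (nat_lit 5372140026) (nat_lit 76) (nat_lit 52293386) (nat_lit 118) (nat_lit 5) (nat_lit 128) (nat_lit 5) (nat_lit 119) (nat_lit 5) (nat_lit 356) (nat_lit 339) (nat_lit 325))) (XT.nd (nat_lit 78) (nat_lit 760) (nat_lit 0) (XT.lf (nat_lit 0) (nat_lit 4602184783) (nat_lit 760) (nat_lit 651875782) (nat_lit 76) (nat_lit 2264116982) (nat_lit 118) (nat_lit 5) (nat_lit 128) (nat_lit 5) (nat_lit 119) (nat_lit 5) (nat_lit 357) (nat_lit 339) (nat_lit 324)) (XT.lf (nat_lit 0) (nat_lit 4327685861) (nat_lit 760) (nat_lit 2994132406) (nat_lit 836) (nat_lit 332423950) (nat_lit 108) (nat_lit 5) (nat_lit 118) (nat_lit 5) (nat_lit 119) (nat_lit 5) (nat_lit 358) (nat_lit 339) (nat_lit 323))))))))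
noncomputable def xc94 : XT := (XT.nd (nat_lit 1950) (nat_lit 1976) (nat_lit 0) (XT.nd (nat_lit 936) (nat_lit 1824) (nat_lit 0) (XT.nd (nat_lit 468) (nat_lit 1216) (nat_lit 0) (XT.nd (nat_lit 234) (nat_lit 760) (nat_lit 0) (XT.nd (nat_lit 78) (nat_lit 304) (nat_lit 0) (XT.lf (nat_lit 0) (nat_lit 1681561961) (nat_lit 380) (nat_lit 546481209) (nat_lit 456) (nat_lit 5571101273) (nat_lit 102) (nat_lit 5) (nat_lit 107) (nat_lit 5) (nat_lit 108) (nat_lit 5) (nat_lit 359) (nat_lit 339) (nat_lit 322)) (XT.nd (nat_lit 78) (nat_lit 304) (nat_lit 0) (XT.lf (nat_lit 0) (nat_lit 4884169994) (nat_lit 456) (nat_lit 1051685256) (nat_lit 76) (nat_lit 2016307228) (nat_lit 102) (nat_lit 5) (nat_lit 108) (nat_lit 5) (nat_lit 103) (nat_lit 5) (nat_lit 360) (nat_lit 339) (nat_lit 321)) (XT.lf (nat_lit 0) (nat_lit 4280483092) (nat_lit 304) (nat_lit 3363603631) (nat_lit 380) (nat_lit 470275106) (nat_lit 98) (nat_lit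 5) (nat_lit 102) (nat_lit 5) (nat_lit 103) (nat_lit 5) (nat_lit 361) (nat_lit 339) (nat_lit 320)))) (XT.nd (nat_lit 78) (nat_lit 304) (nat_lit 0) (XT.lf (nat_lit 0) (nat_lit 1528683870) (nat_lit 380) (nat_lit 595044543) (nat_lit 456) (nat_lit 6162320323) (nat_lit 92) (nat_lit 5) (nat_lit 97) (nat_lit 5) (nat_lit 98) (nat_lit 5) (nat_lit 362) (nat_lit 339) (nat_lit 319)) (XT.nd (nat_lit 78) (nat_lit 304) (nat_lit 0) (XT.lf (nat_lit 0) (nat_lit 4833294832) (nat_lit 456) (nat_lit 1335132678) (nat_lit 76) (nat_lit 2297492411) (nat_lit 92) (nat_lit 5) (nat_lit 98) (nat_lit 5) (nat_lit 93) (nat_lit 5) (nat_lit 363) (nat_lit 339) (nat_lit 318)) (XT.lf (nat_lit 0) (nat_lit 4374498410) (nat_lit 304) (nat_lit 3286254313) (nat_lit 380) (nat_lit 994976764) (nat_lit 88) (nat_lit 5) (nat_lit 92) (nat_lit 5) (nat_lit 93) (nat_lit 5) (nat_lit 364) (nat_lit 339) (nat_lit 317))))) (XT.nd (nat_lit 234) (nat_lit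 608) (nat_lit 0) (XT.nd (nat_lit 78) (nat_lit 228) (nat_lit 0) (XT.lf (nat_lit 0) (nat_lit 1465584040) (nat_lit 304) (nat_lit 203618265) (nat_lit 380) (nat_lit 7186929077) (nat_lit 83) (nat_lit 5) (nat_lit 87) (nat_lit 5) (nat_lit 88) (nat_lit 5) (nat_lit 365) (nat_lit 339) (nat_lit 316)) (XT.nd (nat_lit 78) (nat_lit 228) (nat_lit 0) (XT.lf (nat_lit 0) (nat_lit 4462168444) (nat_lit 380) (nat_lit 1597163104) (nat_lit 76) (nat_lit 3005012041) (nat_lit 83) (nat_lit 5) (nat_lit 88) (nat_lit 5) (nat_lit 84) (nat_lit 5) (nat_lit 366) (nat_lit 339) (nat_lit 315)) (XT.lf (nat_lit 0) (nat_lit 4514911125) (nat_lit 228) (nat_lit 2866049299) (nat_lit 304) (nat_lit 1902750978) (nat_lit 80) (nat_lit 5) (nat_lit 83) (nat_lit 5) (nat_lit 84) (nat_lit 5) (nat_lit 367) (nat_lit 339) (nat_lit 314)))) (XT.nd (nat_lit 78) (nat_lit 228) (nat_lit 0) (XT.lf (nat_lit 0) (nat_lit 872631259) (nat_lit 380) (nat_lit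 8131827706) (nat_lit 76) (nat_lit 510369960) (nat_lit 75) (nat_lit 5) (nat_lit 80) (nat_lit 5) (nat_lit 76) (nat_lit 5) (nat_lit 368) (nat_lit 339) (nat_lit 313)) (XT.nd (nat_lit 78) (nat_lit 228) (nat_lit 0) (XT.lf (nat_lit 0) (nat_lit 3767224150) (nat_lit 380) (nat_lit 1940270767) (nat_lit 76) (nat_lit 4046274988) (nat_lit 75) (nat_lit 5) (nat_lit 80) (nat_lit 5) (nat_lit 76) (nat_lit 5) (nat_lit 369) (nat_lit 339) (nat_lit 312)) (XT.lf (nat_lit 0) (nat_lit 4598265526) (nat_lit 228) (nat_lit 2199421665) (nat_lit 304) (nat_lit 3207458039) (nat_lit 72) (nat_lit 5) (nat_lit 75) (nat_lit 5) (nat_lit 76) (nat_lit 5) (nat_lit 370) (nat_lit 339) (nat_lit 311)))))) (XT.nd (nat_lit 468) (nat_lit 836) (nat_lit 0) (XT.nd (nat_lit 234) (nat_lit 456) (nat_lit 0) (XT.nd (nat_lit 78) (nat_lit 304) (nat_lit 0) (XT.lf (nat_lit 0) (nat_lit 1165738466) (nat_lit 228) (nat_lit 8809746117) (nat_lit 304) (nat_lit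 293856388) (nat_lit 69) (nat_lit 5) (nat_lit 72) (nat_lit 5) (nat_lit 73) (nat_lit 5) (nat_lit 371) (nat_lit 339) (nat_lit 310)) (XT.nd (nat_lit 78) (nat_lit 228) (nat_lit 0) (XT.lf (nat_lit 0) (nat_lit 2727829461) (nat_lit 304) (nat_lit 2480532514) (nat_lit 76) (nat_lit 5333718260) (nat_lit 68) (nat_lit 5) (nat_lit 72) (nat_lit 5) (nat_lit 69) (nat_lit 5) (nat_lit 372) (nat_lit 339) (nat_lit 309)) (XT.lf (nat_lit 0) (nat_lit 4506113263) (nat_lit 228) (nat_lit 1380477863) (nat_lit 304) (nat_lit 4941867580) (nat_lit 65) (nat_lit 5) (nat_lit 68) (nat_lit 5) (nat_lit 69) (nat_lit 5) (nat_lit 373) (nat_lit 339) (nat_lit 308)))) (XT.nd (nat_lit 78) (nat_lit 228) (nat_lit 0) (XT.lf (nat_lit 0) (nat_lit 672374306) (nat_lit 228) (nat_lit 8552218349) (nat_lit 304) (nat_lit 1903533082) (nat_lit 62) (nat_lit 5) (nat_lit 65) (nat_lit 5) (nat_lit 66) (nat_lit 5) (nat_lit 374) (nat_lit 339) (nat_lit 307))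 (XT.nd (nat_lit 78) (nat_lit 152) (nat_lit 0) (XT.lf (nat_lit 0) (nat_lit 1304515325) (nat_lit 304) (nat_lit 3354661911) (nat_lit 76) (nat_lit 6779676908) (nat_lit 61) (nat_lit 5) (nat_lit 65) (nat_lit 5) (nat_lit 62) (nat_lit 5) (nat_lit 375) (nat_lit 339) (nat_lit 306)) (XT.lf (nat_lit 0) (nat_lit 4097526242) (nat_lit 152) (nat_lit 506416071) (nat_lit 228) (nat_lit 7159899016) (nat_lit 59) (nat_lit 5) (nat_lit 61) (nat_lit 5) (nat_lit 62) (nat_lit 5) (nat_lit 376) (nat_lit 339) (nat_lit 305))))) (XT.nd (nat_lit 234) (nat_lit 380) (nat_lit 0) (XT.nd (nat_lit 78) (nat_lit 456) (nat_lit 0) (XT.lf (nat_lit 0) (nat_lit 8118376152) (nat_lit 228) (nat_lit 229621717) (nat_lit 76) (nat_lit 3754606798) (nat_lit 59) (nat_lit 5) (nat_lit 62) (nat_lit 5) (nat_lit 60) (nat_lit 5) (nat_lit 377) (nat_lit 339) (nat_lit 304)) (XT.nd (nat_lit 78) (nat_lit 228) (nat_lit 0) (XT.lf (nat_lit 0) (nat_lit 7717545758)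 (nat_lit 228) (nat_lit 4155132577) (nat_lit 304) (nat_lit 582447714) (nat_lit 56) (nat_lit 5) (nat_lit 59) (nat_lit 5) (nat_lit 60) (nat_lit 5) (nat_lit 378) (nat_lit 339) (nat_lit 303)) (XT.lf (nat_lit 0) (nat_lit 2888432474) (nat_lit 228) (nat_lit 9628371069) (nat_lit 76) (nat_lit 306426446) (nat_lit 53) (nat_lit 5) (nat_lit 56) (nat_lit 5) (nat_lit 54) (nat_lit 5) (nat_lit 379) (nat_lit 339) (nat_lit 302)))) (XT.nd (nat_lit 156) (nat_lit 228) (nat_lit 0) (XT.nd (nat_lit 78) (nat_lit 152) (nat_lit 0) (XT.lf (nat_lit 0) (nat_lit 6599725096) (nat_lit 228) (nat_lit 1697877065) (nat_lit 76) (nat_lit 4907360930) (nat_lit 53) (nat_lit 5) (nat_lit 56) (nat_lit 5) (nat_lit 54) (nat_lit 5) (nat_lit 380) (nat_lit 339) (nat_lit 301)) (XT.lf (nat_lit 0) (nat_lit 6748401948) (nat_lit 152) (nat_lit 3793329529) (nat_lit 228) (nat_lit 3061816299) (nat_lit 51) (nat_lit 5) (nat_lit 53) (nat_lit 5) (nat_lit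 54) (nat_lit 5) (nat_lit 381) (nat_lit 339) (nat_lit 300))) (XT.nd (nat_lit 78) (nat_lit 0) (nat_lit 0) (XT.lf (nat_lit 0) (nat_lit 647148889) (nat_lit 228) (nat_lit 12438383258) (nat_lit 76) (nat_lit 935562716) (nat_lit 48) (nat_lit 5) (nat_lit 51) (nat_lit 5) (nat_lit 49) (nat_lit 5) (nat_lit 382) (nat_lit 339) (nat_lit 299)) (XT.lf (nat_lit 0) (nat_lit 4559809234) (nat_lit 228) (nat_lit 3985503943) (nat_lit 76) (nat_lit 5905658579) (nat_lit 48) (nat_lit 5) (nat_lit 51) (nat_lit 5) (nat_lit 49) (nat_lit 5) (nat_lit 383) (nat_lit 339) (nat_lit 298))))))) (XT.nd (nat_lit 1014) (nat_lit 760) (nat_lit 0) (XT.nd (nat_lit 468) (nat_lit 608) (nat_lit 0) (XT.nd (nat_lit 234) (nat_lit 228) (nat_lit 0) (XT.nd (nat_lit 78) (nat_lit 228) (nat_lit 0) (XT.lf (nat_lit 0) (nat_lit 4955321668) (nat_lit 152) (nat_lit 3733918681) (nat_lit 228) (nat_lit 6212063673) (nat_lit 46) (nat_lit 5) (nat_lit 48) (nat_lit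 5) (nat_lit 49) (nat_lit 5) (nat_lit 384) (nat_lit 339) (nat_lit 297)) (XT.nd (nat_lit 78) (nat_lit 228) (nat_lit 0) (XT.lf (nat_lit 0) (nat_lit 13058765328) (nat_lit 228) (nat_lit 1004892845) (nat_lit 76) (nat_lit 1308831152) (nat_lit 46) (nat_lit 5) (nat_lit 49) (nat_lit 5) (nat_lit 47) (nat_lit 4) (nat_lit 385) (nat_lit 339) (nat_lit 296)) (XT.lf (nat_lit 0) (nat_lit 1865954294) (nat_lit 228) (nat_lit 7385559249) (nat_lit 76) (nat_lit 6607178194) (nat_lit 43) (nat_lit 5) (nat_lit 46) (nat_lit 5) (nat_lit 44) (nat_lit 5) (nat_lit 386) (nat_lit 339) (nat_lit 295)))) (XT.nd (nat_lit 78) (nat_lit 76) (nat_lit 0) (XT.lf (nat_lit 0) (nat_lit 2028486373) (nat_lit 152) (nat_lit 4144708823) (nat_lit 228) (nat_lit 10194310981) (nat_lit 41) (nat_lit 5) (nat_lit 43) (nat_lit 5) (nat_lit 44) (nat_lit 5) (nat_lit 387) (nat_lit 339) (nat_lit 294)) (XT.nd (nat_lit 78) (nat_lit 76) (nat_lit 0) (XT.lf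 (nat_lit 0) (nat_lit 10789852468) (nat_lit 228) (nat_lit 4837308970) (nat_lit 76) (nat_lit 1269911613) (nat_lit 41) (nat_lit 5) (nat_lit 44) (nat_lit 5) (nat_lit 42) (nat_lit 4) (nat_lit 388) (nat_lit 339) (nat_lit 293)) (XT.lf (nat_lit 0) (nat_lit 5150299585) (nat_lit 76) (nat_lit 10585798014) (nat_lit 152) (nat_lit 1712096664) (nat_lit 40) (nat_lit 5) (nat_lit 41) (nat_lit 5) (nat_lit 42) (nat_lit 4) (nat_lit 389) (nat_lit 339) (nat_lit 292))))) (XT.nd (nat_lit 234) (nat_lit 304) (nat_lit 0) (XT.nd (nat_lit 78) (nat_lit 228) (nat_lit 0) (XT.lf (nat_lit 0) (nat_lit 2843770634) (nat_lit 152) (nat_lit 2350549950) (nat_lit 76) (nat_lit 12828602666) (nat_lit 39) (nat_lit 5) (nat_lit 41) (nat_lit 5) (nat_lit 40) (nat_lit 5) (nat_lit 390) (nat_lit 339) (nat_lit 291)) (XT.nd (nat_lit 78) (nat_lit 76) (nat_lit 0) (XT.lf (nat_lit 0) (nat_lit 7660954279) (nat_lit 228) (nat_lit 10382368997) (nat_lit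 76) (nat_lit 577120892) (nat_lit 37) (nat_lit 5) (nat_lit 40) (nat_lit 5) (nat_lit 38) (nat_lit 4) (nat_lit 391) (nat_lit 339) (nat_lit 290)) (XT.lf (nat_lit 0) (nat_lit 24183703) (nat_lit 76) (nat_lit 12774215966) (nat_lit 152) (nat_lit 6445482640) (nat_lit 36) (nat_lit 5) (nat_lit 37) (nat_lit 5) (nat_lit 38) (nat_lit 4) (nat_lit 392) (nat_lit 339) (nat_lit 289)))) (XT.nd (nat_lit 156) (nat_lit 76) (nat_lit 0) (XT.nd (nat_lit 78) (nat_lit 228) (nat_lit 0) (XT.lf (nat_lit 0) (nat_lit 11230178326) (nat_lit 76) (nat_lit 7092729916) (nat_lit 152) (nat_lit 1569085338) (nat_lit 36) (nat_lit 5) (nat_lit 37) (nat_lit 5) (nat_lit 38) (nat_lit 4) (nat_lit 393) (nat_lit 339) (nat_lit 288)) (XT.lf (nat_lit 0) (nat_lit 2365287390) (nat_lit 152) (nat_lit 1064926100) (nat_lit 228) (nat_lit 17139897531) (nat_lit 33) (nat_lit 5) (nat_lit 35) (nat_lit 5) (nat_lit 36) (nat_lit 5) (nat_lit 394) (nat_lit 339)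 (nat_lit 287))) (XT.nd (nat_lit 78) (nat_lit 76) (nat_lit 0) (XT.lf (nat_lit 0) (nat_lit 8814198945) (nat_lit 228) (nat_lit 7219953547) (nat_lit 76) (nat_lit 5237332346) (nat_lit 33) (nat_lit 5) (nat_lit 36) (nat_lit 5) (nat_lit 34) (nat_lit 4) (nat_lit 395) (nat_lit 339) (nat_lit 286)) (XT.lf (nat_lit 0) (nat_lit 4360749476) (nat_lit 76) (nat_lit 10150429278) (nat_lit 152) (nat_lit 7494567697) (nat_lit 32) (nat_lit 5) (nat_lit 33) (nat_lit 5) (nat_lit 34) (nat_lit 4) (nat_lit 396) (nat_lit 339) (nat_lit 285)))))) (XT.nd (nat_lit 468) (nat_lit 304) (nat_lit 0) (XT.nd (nat_lit 234) (nat_lit 228) (nat_lit 0) (XT.nd (nat_lit 78) (nat_lit 228) (nat_lit 0) (XT.lf (nat_lit 0) (nat_lit 16696842289) (nat_lit 76) (nat_lit 3877520223) (nat_lit 152) (nat_lit 2198299321) (nat_lit 32) (nat_lit 5) (nat_lit 33) (nat_lit 5) (nat_lit 34) (nat_lit 4) (nat_lit 397) (nat_lit 339) (nat_lit 284)) (XT.nd (nat_lit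 78) (nat_lit 0) (nat_lit 0) (XT.lf (nat_lit 0) (nat_lit 3355680803) (nat_lit 228) (nat_lit 17472840562) (nat_lit 76) (nat_lit 2741757730) (nat_lit 29) (nat_lit 5) (nat_lit 32) (nat_lit 5) (nat_lit 30) (nat_lit 4) (nat_lit 398) (nat_lit 339) (nat_lit 283)) (XT.lf (nat_lit 0) (nat_lit 9242294035) (nat_lit 228) (nat_lit 5485995144) (nat_lit 76) (nat_lit 9671252876) (nat_lit 29) (nat_lit 5) (nat_lit 32) (nat_lit 5) (nat_lit 30) (nat_lit 4) (nat_lit 399) (nat_lit 339) (nat_lit 282)))) (XT.nd (nat_lit 78) (nat_lit 152) (nat_lit 0) (XT.lf (nat_lit 0) (nat_lit 7263753656) (nat_lit 76) (nat_lit 8235426765) (nat_lit 152) (nat_lit 9767297556) (nat_lit 28) (nat_lit 5) (nat_lit 29) (nat_lit 5) (nat_lit 30) (nat_lit 4) (nat_lit 400) (nat_lit 339) (nat_lit 281)) (XT.nd (nat_lit 78) (nat_lit 152) (nat_lit 0) (XT.lf (nat_lit 0) (nat_lit 20773638574) (nat_lit 76) (nat_lit 1351440782) (nat_lit 152) (nat_lit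 4048879540) (nat_lit 28) (nat_lit 5) (nat_lit 29) (nat_lit 5) (nat_lit 30) (nat_lit 4) (nat_lit 401) (nat_lit 339) (nat_lit 280)) (XT.lf (nat_lit 0) (nat_lit 2075902190) (nat_lit 152) (nat_lit 19222968046) (nat_lit 76) (nat_lit 5817271624) (nat_lit 26) (nat_lit 5) (nat_lit 28) (nat_lit 5) (nat_lit 27) (nat_lit 4) (nat_lit 402) (nat_lit 339) (nat_lit 279))))) (XT.nd (nat_lit 234) (nat_lit 228) (nat_lit 0) (XT.nd (nat_lit 78) (nat_lit 76) (nat_lit 0) (XT.lf (nat_lit 0) (nat_lit 8450613292) (nat_lit 152) (nat_lit 6218050022) (nat_lit 76) (nat_lit 13429469655) (nat_lit 26) (nat_lit 5) (nat_lit 28) (nat_lit 5) (nat_lit 27) (nat_lit 4) (nat_lit 403) (nat_lit 339) (nat_lit 278)) (XT.nd (nat_lit 78) (nat_lit 0) (nat_lit 0) (XT.lf (nat_lit 0) (nat_lit 7618093467) (nat_lit 76) (nat_lit 7611237780) (nat_lit 152) (nat_lit 13895634260) (nat_lit 25) (nat_lit 5) (nat_lit 26) (nat_lit 5) (nat_lit 27) (nat_lit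 4) (nat_lit 404) (nat_lit 339) (nat_lit 277)) (XT.lf (nat_lit 0) (nat_lit 22300087449) (nat_lit 76) (nat_lit 119172718) (nat_lit 152) (nat_lit 7780270932) (nat_lit 25) (nat_lit 5) (nat_lit 26) (nat_lit 5) (nat_lit 27) (nat_lit 4) (nat_lit 405) (nat_lit 339) (nat_lit 276)))) (XT.nd (nat_lit 156) (nat_lit 76) (nat_lit 0) (XT.nd (nat_lit 78) (nat_lit 76) (nat_lit 0) (XT.lf (nat_lit 0) (nat_lit 6412600879) (nat_lit 76) (nat_lit 23745277432) (nat_lit 76) (nat_lit 1160491951) (nat_lit 24) (nat_lit 4) (nat_lit 25) (nat_lit 5) (nat_lit 25) (nat_lit 4) (nat_lit 406) (nat_lit 339) (nat_lit 275)) (XT.lf (nat_lit 0) (nat_lit 5711071291) (nat_lit 152) (nat_lit 10926639320) (nat_lit 76) (nat_lit 15845619111) (nat_lit 23) (nat_lit 5) (nat_lit 25) (nat_lit 5) (nat_lit 24) (nat_lit 4) (nat_lit 407) (nat_lit 339) (nat_lit 274))) (XT.nd (nat_lit 78) (nat_lit 0) (nat_lit 0) (XT.lf (nat_lit 0) (nat_lit 3796677075)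 (nat_lit 76) (nat_lit 9119519513) (nat_lit 152) (nat_lit 20787944404) (nat_lit 22) (nat_lit 5) (nat_lit 23) (nat_lit 5) (nat_lit 24) (nat_lit 4) (nat_lit 408) (nat_lit 339) (nat_lit 273)) (XT.lf (nat_lit 0) (nat_lit 19579168043) (nat_lit 76) (nat_lit 1057728187) (nat_lit 152) (nat_lit 14341334748) (nat_lit 22) (nat_lit 5) (nat_lit 23) (nat_lit 5) (nat_lit 24) (nat_lit 4) (nat_lit 409) (nat_lit 339) (nat_lit 272))))))))
noncomputable def xc95 : XT := (XT.nd (nat_lit 2028) (nat_lit 380) (nat_lit 0) (XT.nd (nat_lit 1014) (nat_lit 456) (nat_lit 0) (XT.nd (nat_lit 468) (nat_lit 228) (nat_lit 0) (XT.nd (nat_lit 234) (nat_lit 152) (nat_lit 0) (XT.nd (nat_lit 78) (nat_lit 152) (nat_lit 0) (XT.lf (nat_lit 0) (nat_lit 28830567462) (nat_lit 152) (nat_lit 335568881) (nat_lit 0) (nat_lit 7145546156) (nat_lit 22) (nat_lit 5) (nat_lit 24) (nat_lit 4) (nat_lit 22) (nat_lit 4) (nat_lit 410) (nat_lit 339)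 (nat_lit 271)) (XT.nd (nat_lit 78) (nat_lit 76) (nat_lit 0) (XT.lf (nat_lit 0) (nat_lit 15921263195) (nat_lit 76) (nat_lit 21751231733) (nat_lit 76) (nat_lit 27386715) (nat_lit 21) (nat_lit 4) (nat_lit 22) (nat_lit 5) (nat_lit 22) (nat_lit 4) (nat_lit 411) (nat_lit 339) (nat_lit 270)) (XT.lf (nat_lit 0) (nat_lit 7527902614) (nat_lit 152) (nat_lit 6328619622) (nat_lit 76) (nat_lit 25295959003) (nat_lit 20) (nat_lit 5) (nat_lit 22) (nat_lit 5) (nat_lit 21) (nat_lit 4) (nat_lit 412) (nat_lit 339) (nat_lit 269)))) (XT.nd (nat_lit 78) (nat_lit 76) (nat_lit 0) (XT.lf (nat_lit 0) (nat_lit 10169250418) (nat_lit 76) (nat_lit 5423571362) (nat_lit 152) (nat_lit 25078230479) (nat_lit 19) (nat_lit 5) (nat_lit 20) (nat_lit 5) (nat_lit 21) (nat_lit 4) (nat_lit 413) (nat_lit 339) (nat_lit 268)) (XT.nd (nat_lit 78) (nat_lit 76) (nat_lit 0) (XT.lf (nat_lit 0) (nat_lit 24197615378) (nat_lit 152) (nat_lit 14653560882)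 (nat_lit 0) (nat_lit 3407547175) (nat_lit 19) (nat_lit 5) (nat_lit 21) (nat_lit 4) (nat_lit 19) (nat_lit 4) (nat_lit 414) (nat_lit 339) (nat_lit 267)) (XT.lf (nat_lit 0) (nat_lit 1911974001) (nat_lit 76) (nat_lit 31414794332) (nat_lit 76) (nat_lit 10594306736) (nat_lit 18) (nat_lit 4) (nat_lit 19) (nat_lit 5) (nat_lit 19) (nat_lit 4) (nat_lit 415) (nat_lit 339) (nat_lit 266))))) (XT.nd (nat_lit 234) (nat_lit 76) (nat_lit 0) (XT.nd (nat_lit 78) (nat_lit 152) (nat_lit 0) (XT.lf (nat_lit 0) (nat_lit 19767886499) (nat_lit 76) (nat_lit 23368460294) (nat_lit 76) (nat_lit 2519001846) (nat_lit 18) (nat_lit 4) (nat_lit 19) (nat_lit 5) (nat_lit 19) (nat_lit 4) (nat_lit 416) (nat_lit 339) (nat_lit 265)) (XT.nd (nat_lit 78) (nat_lit 76) (nat_lit 0) (XT.lf (nat_lit 0) (nat_lit 5745883524) (nat_lit 152) (nat_lit 9097988508) (nat_lit 76) (nat_lit 32628984947) (nat_lit 17) (nat_lit 5) (nat_lit 19) (nat_lit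 5) (nat_lit 18) (nat_lit 4) (nat_lit 417) (nat_lit 339) (nat_lit 264)) (XT.lf (nat_lit 0) (nat_lit 8725905376) (nat_lit 76) (nat_lit 5727378782) (nat_lit 152) (nat_lit 34920197895) (nat_lit 16) (nat_lit 5) (nat_lit 17) (nat_lit 5) (nat_lit 18) (nat_lit 4) (nat_lit 418) (nat_lit 339) (nat_lit 263)))) (XT.nd (nat_lit 156) (nat_lit 76) (nat_lit 0) (XT.nd (nat_lit 78) (nat_lit 0) (nat_lit 0) (XT.lf (nat_lit 0) (nat_lit 23790462060) (nat_lit 152) (nat_lit 23710261171) (nat_lit 0) (nat_lit 3858697050) (nat_lit 16) (nat_lit 5) (nat_lit 18) (nat_lit 4) (nat_lit 16) (nat_lit 4) (nat_lit 419) (nat_lit 339) (nat_lit 262)) (XT.lf (nat_lit 0) (nat_lit 33667221015) (nat_lit 152) (nat_lit 6061043863) (nat_lit 0) (nat_lit 13712756585) (nat_lit 16) (nat_lit 5) (nat_lit 18) (nat_lit 4) (nat_lit 16) (nat_lit 4) (nat_lit 420) (nat_lit 339) (nat_lit 261))) (XT.nd (nat_lit 78) (nat_lit 0) (nat_lit 0) (XT.lf (nat_lit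 0) (nat_lit 12842559741) (nat_lit 76) (nat_lit 31375605291) (nat_lit 76) (nat_lit 11399522366) (nat_lit 15) (nat_lit 4) (nat_lit 16) (nat_lit 5) (nat_lit 16) (nat_lit 4) (nat_lit 421) (nat_lit 339) (nat_lit 260)) (XT.lf (nat_lit 0) (nat_lit 32863283511) (nat_lit 76) (nat_lit 22516217403) (nat_lit 76) (nat_lit 2519545434) (nat_lit 15) (nat_lit 4) (nat_lit 16) (nat_lit 5) (nat_lit 16) (nat_lit 4) (nat_lit 422) (nat_lit 339) (nat_lit 259)))))) (XT.nd (nat_lit 468) (nat_lit 228) (nat_lit 0) (XT.nd (nat_lit 234) (nat_lit 76) (nat_lit 0) (XT.nd (nat_lit 78) (nat_lit 76) (nat_lit 0) (XT.lf (nat_lit 0) (nat_lit 6567476020) (nat_lit 152) (nat_lit 6552954738) (nat_lit 76) (nat_lit 47169690951) (nat_lit 14) (nat_lit 5) (nat_lit 16) (nat_lit 5) (nat_lit 15) (nat_lit 4) (nat_lit 423) (nat_lit 339) (nat_lit 258)) (XT.nd (nat_lit 78) (nat_lit 0) (nat_lit 0) (XT.lf (nat_lit 0) (nat_lit 13199647827) (nat_lit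 76) (nat_lit 3012353771) (nat_lit 152) (nat_lit 46577294410) (nat_lit 13) (nat_lit 5) (nat_lit 14) (nat_lit 5) (nat_lit 15) (nat_lit 4) (nat_lit 424) (nat_lit 339) (nat_lit 257)) (XT.lf (nat_lit 0) (nat_lit 26552026264) (nat_lit 152) (nat_lit 31396563068) (nat_lit 0) (nat_lit 7454177655) (nat_lit 13) (nat_lit 5) (nat_lit 15) (nat_lit 4) (nat_lit 13) (nat_lit 4) (nat_lit 425) (nat_lit 339) (nat_lit 256)))) (XT.nd (nat_lit 78) (nat_lit 76) (nat_lit 0) (XT.lf (nat_lit 0) (nat_lit 37441102774) (nat_lit 152) (nat_lit 12377085628) (nat_lit 0) (nat_lit 18327122111) (nat_lit 13) (nat_lit 5) (nat_lit 15) (nat_lit 4) (nat_lit 13) (nat_lit 4) (nat_lit 426) (nat_lit 339) (nat_lit 255)) (XT.nd (nat_lit 78) (nat_lit 0) (nat_lit 0) (XT.lf (nat_lit 0) (nat_lit 7811104001) (nat_lit 76) (nat_lit 41168975439) (nat_lit 76) (nat_lit 22039630916) (nat_lit 12) (nat_lit 4) (nat_lit 13) (nat_lit 5) (nat_lit 13)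 (nat_lit 4) (nat_lit 427) (nat_lit 339) (nat_lit 254)) (XT.lf (nat_lit 0) (nat_lit 29406662204) (nat_lit 76) (nat_lit 31882738187) (nat_lit 76) (nat_lit 12738761415) (nat_lit 12) (nat_lit 4) (nat_lit 13) (nat_lit 5) (nat_lit 13) (nat_lit 4) (nat_lit 428) (nat_lit 339) (nat_lit 253))))) (XT.nd (nat_lit 234) (nat_lit 76) (nat_lit 0) (XT.nd (nat_lit 78) (nat_lit 152) (nat_lit 0) (XT.lf (nat_lit 0) (nat_lit 52051764627) (nat_lit 76) (nat_lit 22146978492) (nat_lit 76) (nat_lit 2989066245) (nat_lit 12) (nat_lit 4) (nat_lit 13) (nat_lit 5) (nat_lit 13) (nat_lit 4) (nat_lit 429) (nat_lit 339) (nat_lit 252)) (XT.nd (nat_lit 78) (nat_lit 76) (nat_lit 0) (XT.lf (nat_lit 0) (nat_lit 7001177603) (nat_lit 152) (nat_lit 4818770039) (nat_lit 76) (nat_lit 68680582246) (nat_lit 11) (nat_lit 5) (nat_lit 13) (nat_lit 5) (nat_lit 12) (nat_lit 4) (nat_lit 430) (nat_lit 339) (nat_lit 251)) (XT.lf (nat_lit 0) (nat_lit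 16980969581) (nat_lit 76) (nat_lit 660393148) (nat_lit 152) (nat_lit 66322530732) (nat_lit 10) (nat_lit 5) (nat_lit 11) (nat_lit 5) (nat_lit 12) (nat_lit 4) (nat_lit 431) (nat_lit 339) (nat_lit 250)))) (XT.nd (nat_lit 156) (nat_lit 76) (nat_lit 0) (XT.nd (nat_lit 78) (nat_lit 0) (nat_lit 0) (XT.lf (nat_lit 0) (nat_lit 29054936358) (nat_lit 152) (nat_lit 47760257953) (nat_lit 0) (nat_lit 10773163024) (nat_lit 10) (nat_lit 5) (nat_lit 12) (nat_lit 4) (nat_lit 10) (nat_lit 4) (nat_lit 432) (nat_lit 339) (nat_lit 249)) (XT.lf (nat_lit 0) (nat_lit 41036491241) (nat_lit 152) (nat_lit 27613889972) (nat_lit 0) (nat_lit 22743799098) (nat_lit 10) (nat_lit 5) (nat_lit 12) (nat_lit 4) (nat_lit 10) (nat_lit 4) (nat_lit 433) (nat_lit 339) (nat_lit 248))) (XT.nd (nat_lit 78) (nat_lit 76) (nat_lit 0) (XT.lf (nat_lit 0) (nat_lit 53604244301) (nat_lit 152) (nat_lit 6485541807) (nat_lit 0) (nat_lit 35301153292)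 (nat_lit 10) (nat_lit 5) (nat_lit 12) (nat_lit 4) (nat_lit 10) (nat_lit 4) (nat_lit 434) (nat_lit 339) (nat_lit 247)) (XT.lf (nat_lit 0) (nat_lit 16193381470) (nat_lit 76) (nat_lit 50847561356) (nat_lit 76) (nat_lit 32534566665) (nat_lit 9) (nat_lit 4) (nat_lit 10) (nat_lit 5) (nat_lit 10) (nat_lit 4) (nat_lit 435) (nat_lit 339) (nat_lit 246))))))) (XT.nd (nat_lit 1014) (nat_lit 152) (nat_lit 0) (XT.nd (nat_lit 468) (nat_lit 76) (nat_lit 0) (XT.nd (nat_lit 234) (nat_lit 152) (nat_lit 0) (XT.nd (nat_lit 78) (nat_lit 0) (nat_lit 0) (XT.lf (nat_lit 0) (nat_lit 40207671866) (nat_lit 76) (nat_lit 41039587368) (nat_lit 76) (nat_lit 22717160599) (nat_lit 9) (nat_lit 4) (nat_lit 10) (nat_lit 5) (nat_lit 10) (nat_lit 4) (nat_lit 436) (nat_lit 339) (nat_lit 245)) (XT.nd (nat_lit 78) (nat_lit 0) (nat_lit 0) (XT.lf (nat_lit 0) (nat_lit 65400064960) (nat_lit 76) (nat_lit 30752347614) (nat_lit 76) (nat_lit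 12420937914) (nat_lit 9) (nat_lit 4) (nat_lit 10) (nat_lit 5) (nat_lit 10) (nat_lit 4) (nat_lit 437) (nat_lit 339) (nat_lit 244)) (XT.lf (nat_lit 0) (nat_lit 91830542640) (nat_lit 76) (nat_lit 19961348667) (nat_lit 76) (nat_lit 1621383795) (nat_lit 9) (nat_lit 4) (nat_lit 10) (nat_lit 5) (nat_lit 10) (nat_lit 4) (nat_lit 438) (nat_lit 339) (nat_lit 243)))) (XT.nd (nat_lit 78) (nat_lit 0) (nat_lit 0) (XT.lf (nat_lit 0) (nat_lit 945006594) (nat_lit 76) (nat_lit 8466271088) (nat_lit 152) (nat_lit 109076124068) (nat_lit 7) (nat_lit 5) (nat_lit 8) (nat_lit 5) (nat_lit 9) (nat_lit 4) (nat_lit 439) (nat_lit 339) (nat_lit 242)) (XT.nd (nat_lit 78) (nat_lit 0) (nat_lit 0) (XT.lf (nat_lit 0) (nat_lit 21358293170) (nat_lit 152) (nat_lit 98558242872) (nat_lit 0) (nat_lit 3876509884) (nat_lit 7) (nat_lit 5) (nat_lit 9) (nat_lit 4) (nat_lit 7) (nat_lit 4) (nat_lit 440) (nat_lit 339) (nat_lit 241)) (XT.lf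 (nat_lit 0) (nat_lit 34031395843) (nat_lit 152) (nat_lit 78783566120) (nat_lit 0) (nat_lit 16542574196) (nat_lit 7) (nat_lit 5) (nat_lit 9) (nat_lit 4) (nat_lit 7) (nat_lit 4) (nat_lit 441) (nat_lit 339) (nat_lit 240))))) (XT.nd (nat_lit 234) (nat_lit 76) (nat_lit 0) (XT.nd (nat_lit 78) (nat_lit 0) (nat_lit 0) (XT.lf (nat_lit 0) (nat_lit 47328577537) (nat_lit 152) (nat_lit 58039100117) (nat_lit 0) (nat_lit 29833052688) (nat_lit 7) (nat_lit 5) (nat_lit 9) (nat_lit 4) (nat_lit 7) (nat_lit 4) (nat_lit 442) (nat_lit 339) (nat_lit 239)) (XT.nd (nat_lit 78) (nat_lit 0) (nat_lit 0) (XT.lf (nat_lit 0) (nat_lit 61281498209) (nat_lit 152) (nat_lit 36275453279) (nat_lit 0) (nat_lit 43779589358) (nat_lit 7) (nat_lit 5) (nat_lit 9) (nat_lit 4) (nat_lit 7) (nat_lit 4) (nat_lit 443) (nat_lit 339) (nat_lit 238)) (XT.lf (nat_lit 0) (nat_lit 75923379098) (nat_lit 152) (nat_lit 13440807399) (nat_lit 0) (nat_lit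 58415390246) (nat_lit 7) (nat_lit 5) (nat_lit 9) (nat_lit 4) (nat_lit 7) (nat_lit 4) (nat_lit 444) (nat_lit 339) (nat_lit 237)))) (XT.nd (nat_lit 156) (nat_lit 0) (nat_lit 0) (XT.nd (nat_lit 78) (nat_lit 0) (nat_lit 0) (XT.lf (nat_lit 0) (nat_lit 10867018174) (nat_lit 76) (nat_lit 80591728259) (nat_lit 76) (nat_lit 63077948930) (nat_lit 6) (nat_lit 4) (nat_lit 7) (nat_lit 5) (nat_lit 7) (nat_lit 4) (nat_lit 445) (nat_lit 339) (nat_lit 236)) (XT.lf (nat_lit 0) (nat_lit 36840768415) (nat_lit 76) (nat_lit 71149610623) (nat_lit 76) (nat_lit 53630316553) (nat_lit 6) (nat_lit 4) (nat_lit 7) (nat_lit 5) (nat_lit 7) (nat_lit 4) (nat_lit 446) (nat_lit 339) (nat_lit 235))) (XT.nd (nat_lit 78) (nat_lit 0) (nat_lit 0) (XT.lf (nat_lit 0) (nat_lit 64097871792) (nat_lit 76) (nat_lit 61242978935) (nat_lit 76) (nat_lit 43718432731) (nat_lit 6) (nat_lit 4) (nat_lit 7) (nat_lit 5) (nat_lit 7) (nat_lit 4) (nat_lit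 447) (nat_lit 339) (nat_lit 234)) (XT.lf (nat_lit 0) (nat_lit 92703226170) (nat_lit 76) (nat_lit 50848245975) (nat_lit 76) (nat_lit 33318697739) (nat_lit 6) (nat_lit 4) (nat_lit 7) (nat_lit 5) (nat_lit 7) (nat_lit 4) (nat_lit 448) (nat_lit 339) (nat_lit 233)))))) (XT.nd (nat_lit 468) (nat_lit 0) (nat_lit 0) (XT.nd (nat_lit 234) (nat_lit 76) (nat_lit 0) (XT.nd (nat_lit 78) (nat_lit 76) (nat_lit 0) (XT.lf (nat_lit 0) (nat_lit 122724939535) (nat_lit 76) (nat_lit 39940662380) (nat_lit 76) (nat_lit 22406350304) (nat_lit 6) (nat_lit 4) (nat_lit 7) (nat_lit 5) (nat_lit 7) (nat_lit 4) (nat_lit 449) (nat_lit 339) (nat_lit 232)) (XT.nd (nat_lit 78) (nat_lit 76) (nat_lit 0) (XT.lf (nat_lit 0) (nat_lit 154234492158) (nat_lit 76) (nat_lit 28494257712) (nat_lit 76) (nat_lit 10955408645) (nat_lit 6) (nat_lit 4) (nat_lit 7) (nat_lit 5) (nat_lit 7) (nat_lit 4) (nat_lit 450) (nat_lit 339) (nat_lit 231)) (XT.lf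 (nat_lit 0) (nat_lit 1027420229) (nat_lit 152) (nat_lit 15436958539) (nat_lit 76) (nat_lit 186262086695) (nat_lit 5) (nat_lit 5) (nat_lit 7) (nat_lit 5) (nat_lit 6) (nat_lit 4) (nat_lit 451) (nat_lit 339) (nat_lit 230)))) (XT.nd (nat_lit 78) (nat_lit 0) (nat_lit 0) (XT.lf (nat_lit 0) (nat_lit 9901477790) (nat_lit 76) (nat_lit 3488162690) (nat_lit 152) (nat_lit 198814846632) (nat_lit 4) (nat_lit 5) (nat_lit 5) (nat_lit 5) (nat_lit 6) (nat_lit 4) (nat_lit 452) (nat_lit 339) (nat_lit 229)) (XT.nd (nat_lit 78) (nat_lit 0) (nat_lit 0) (XT.lf (nat_lit 0) (nat_lit 26787801281) (nat_lit 152) (nat_lit 185275348935) (nat_lit 0) (nat_lit 10072368502) (nat_lit 4) (nat_lit 5) (nat_lit 6) (nat_lit 4) (nat_lit 4) (nat_lit 4) (nat_lit 453) (nat_lit 339) (nat_lit 228)) (XT.lf (nat_lit 0) (nat_lit 40907192680) (nat_lit 152) (nat_lit 167465138385) (nat_lit 0) (nat_lit 24188205050) (nat_lit 4) (nat_lit 5) (nat_lit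 6) (nat_lit 4) (nat_lit 4) (nat_lit 4) (nat_lit 454) (nat_lit 339) (nat_lit 227))))) (XT.nd (nat_lit 234) (nat_lit 0) (nat_lit 0) (XT.nd (nat_lit 78) (nat_lit 0) (nat_lit 0) (XT.lf (nat_lit 0) (nat_lit 55726972281) (nat_lit 152) (nat_lit 148775512413) (nat_lit 0) (nat_lit 39004599078) (nat_lit 4) (nat_lit 5) (nat_lit 6) (nat_lit 4) (nat_lit 4) (nat_lit 4) (nat_lit 455) (nat_lit 339) (nat_lit 226)) (XT.nd (nat_lit 78) (nat_lit 0) (nat_lit 0) (XT.lf (nat_lit 0) (nat_lit 71282425271) (nat_lit 152) (nat_lit 129161971911) (nat_lit 0) (nat_lit 54556827714) (nat_lit 4) (nat_lit 5) (nat_lit 6) (nat_lit 4) (nat_lit 4) (nat_lit 4) (nat_lit 456) (nat_lit 339) (nat_lit 225)) (XT.lf (nat_lit 0) (nat_lit 87610588446) (nat_lit 152) (nat_lit 108577817971) (nat_lit 0) (nat_lit 70881920075) (nat_lit 4) (nat_lit 5) (nat_lit 6) (nat_lit 4) (nat_lit 4) (nat_lit 4) (nat_lit 457) (nat_lit 339) (nat_lit 224))))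 (XT.nd (nat_lit 156) (nat_lit 0) (nat_lit 0) (XT.nd (nat_lit 78) (nat_lit 0) (nat_lit 0) (XT.lf (nat_lit 0) (nat_lit 104750338383) (nat_lit 152) (nat_lit 86974040704) (nat_lit 0) (nat_lit 88018745427) (nat_lit 4) (nat_lit 5) (nat_lit 6) (nat_lit 4) (nat_lit 4) (nat_lit 4) (nat_lit 458) (nat_lit 339) (nat_lit 223)) (XT.lf (nat_lit 0) (nat_lit 122742484010) (nat_lit 152) (nat_lit 64299202544) (nat_lit 0) (nat_lit 106008105736) (nat_lit 4) (nat_lit 5) (nat_lit 6) (nat_lit 4) (nat_lit 4) (nat_lit 4) (nat_lit 459) (nat_lit 339) (nat_lit 222))) (XT.nd (nat_lit 78) (nat_lit 0) (nat_lit 0) (XT.lf (nat_lit 0) (nat_lit 141629863771) (nat_lit 152) (nat_lit 40499315782) (nat_lit 0) (nat_lit 124892832812) (nat_lit 4) (nat_lit 5) (nat_lit 6) (nat_lit 4) (nat_lit 4) (nat_lit 4) (nat_lit 460) (nat_lit 339) (nat_lit 221)) (XT.lf (nat_lit 0) (nat_lit 161457447616) (nat_lit 152) (nat_lit 15517714022) (nat_lit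 0) (nat_lit 144717890291) (nat_lit 4) (nat_lit 5) (nat_lit 6) (nat_lit 4) (nat_lit 4) (nat_lit 4) (nat_lit 461) (nat_lit 339) (nat_lit 220))))))))
noncomputable def xc96 : XT := (XT.nd (nat_lit 44226) (nat_lit 0) (nat_lit 4712) (XT.nd (nat_lit 936) (nat_lit 0) (nat_lit 0) (XT.nd (nat_lit 468) (nat_lit 0) (nat_lit 0) (XT.nd (nat_lit 234) (nat_lit 0) (nat_lit 0) (XT.nd (nat_lit 78) (nat_lit 0) (nat_lit 0) (XT.lf (nat_lit 0) (nat_lit 11059041123) (nat_lit 76) (nat_lit 171386065581) (nat_lit 76) (nat_lit 154644102193) (nat_lit 3) (nat_lit 4) (nat_lit 4) (nat_lit 5) (nat_lit 4) (nat_lit 4) (nat_lit 462) (nat_lit 339) (nat_lit 219)) (XT.nd (nat_lit 78) (nat_lit 0) (nat_lit 0) (XT.lf (nat_lit 0) (nat_lit 39495616110) (nat_lit 76) (nat_lit 165245433818) (nat_lit 76) (nat_lit 148501178942) (nat_lit 3) (nat_lit 4) (nat_lit 4) (nat_lit 5) (nat_lit 4) (nat_lit 4) (nat_lit 463) (nat_lit 339) (nat_lit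 218)) (XT.lf (nat_lit 0) (nat_lit 69346631366) (nat_lit 76) (nat_lit 158801445794) (nat_lit 76) (nat_lit 142055008548) (nat_lit 3) (nat_lit 4) (nat_lit 4) (nat_lit 5) (nat_lit 4) (nat_lit 4) (nat_lit 464) (nat_lit 339) (nat_lit 217)))) (XT.nd (nat_lit 78) (nat_lit 0) (nat_lit 0) (XT.lf (nat_lit 0) (nat_lit 100683160734) (nat_lit 76) (nat_lit 152038758680) (nat_lit 76) (nat_lit 135290242986) (nat_lit 3) (nat_lit 4) (nat_lit 4) (nat_lit 5) (nat_lit 4) (nat_lit 4) (nat_lit 465) (nat_lit 339) (nat_lit 216)) (XT.nd (nat_lit 78) (nat_lit 0) (nat_lit 0) (XT.lf (nat_lit 0) (nat_lit 133579815001) (nat_lit 76) (nat_lit 144941270840) (nat_lit 76) (nat_lit 128190775672) (nat_lit 3) (nat_lit 4) (nat_lit 4) (nat_lit 5) (nat_lit 4) (nat_lit 4) (nat_lit 466) (nat_lit 339) (nat_lit 215)) (XT.lf (nat_lit 0) (nat_lit 168114919532) (nat_lit 76) (nat_lit 137492083494) (nat_lit 76) (nat_lit 120739703112) (nat_lit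 3) (nat_lit 4) (nat_lit 4) (nat_lit 5) (nat_lit 4) (nat_lit 4) (nat_lit 467) (nat_lit 339) (nat_lit 214))))) (XT.nd (nat_lit 234) (nat_lit 0) (nat_lit 0) (XT.nd (nat_lit 78) (nat_lit 0) (nat_lit 0) (XT.lf (nat_lit 0) (nat_lit 204370700768) (nat_lit 76) (nat_lit 129673460480) (nat_lit 76) (nat_lit 112919284657) (nat_lit 3) (nat_lit 4) (nat_lit 4) (nat_lit 5) (nat_lit 4) (nat_lit 4) (nat_lit 468) (nat_lit 339) (nat_lit 213)) (XT.nd (nat_lit 78) (nat_lit 0) (nat_lit 0) (XT.lf (nat_lit 0) (nat_lit 242433481997) (nat_lit 76) (nat_lit 121466786031) (nat_lit 76) (nat_lit 104710900264) (nat_lit 3) (nat_lit 4) (nat_lit 4) (nat_lit 5) (nat_lit 4) (nat_lit 4) (nat_lit 469) (nat_lit 339) (nat_lit 212)) (XT.lf (nat_lit 0) (nat_lit 282393888888) (nat_lit 76) (nat_lit 112852520444) (nat_lit 76) (nat_lit 96095006159) (nat_lit 3) (nat_lit 4) (nat_lit 4) (nat_lit 5) (nat_lit 4) (nat_lit 4) (nat_lit 470) (nat_lit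 339) (nat_lit 211)))) (XT.nd (nat_lit 78) (nat_lit 0) (nat_lit 0) (XT.lf (nat_lit 0) (nat_lit 324347065268) (nat_lit 76) (nat_lit 103810153564) (nat_lit 76) (nat_lit 87051088309) (nat_lit 3) (nat_lit 4) (nat_lit 4) (nat_lit 5) (nat_lit 4) (nat_lit 4) (nat_lit 471) (nat_lit 339) (nat_lit 210)) (XT.nd (nat_lit 78) (nat_lit 0) (nat_lit 0) (XT.lf (nat_lit 0) (nat_lit 368392899652) (nat_lit 76) (nat_lit 94318155946) (nat_lit 76) (nat_lit 77557613577) (nat_lit 3) (nat_lit 4) (nat_lit 4) (nat_lit 5) (nat_lit 4) (nat_lit 4) (nat_lit 472) (nat_lit 339) (nat_lit 209)) (XT.lf (nat_lit 0) (nat_lit 414636263073) (nat_lit 76) (nat_lit 84353927596) (nat_lit 76) (nat_lit 67591978452) (nat_lit 3) (nat_lit 4) (nat_lit 4) (nat_lit 5) (nat_lit 4) (nat_lit 4) (nat_lit 473) (nat_lit 339) (nat_lit 208)))))) (XT.nd (nat_lit 42744) (nat_lit 0) (nat_lit 11932) (XT.nd (nat_lit 234) (nat_lit 0) (nat_lit 0) (XT.nd (nat_lit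 78) (nat_lit 0) (nat_lit 0) (XT.lf (nat_lit 0) (nat_lit 463187258779) (nat_lit 76) (nat_lit 73893744159) (nat_lit 76) (nat_lit 57130455229) (nat_lit 3) (nat_lit 4) (nat_lit 4) (nat_lit 5) (nat_lit 4) (nat_lit 4) (nat_lit 474) (nat_lit 339) (nat_lit 207)) (XT.nd (nat_lit 78) (nat_lit 0) (nat_lit 0) (XT.lf (nat_lit 0) (nat_lit 514161484378) (nat_lit 76) (nat_lit 62912700439) (nat_lit 76) (nat_lit 46148135522) (nat_lit 3) (nat_lit 4) (nat_lit 4) (nat_lit 5) (nat_lit 4) (nat_lit 4) (nat_lit 475) (nat_lit 339) (nat_lit 206)) (XT.lf (nat_lit 0) (nat_lit 567680307074) (nat_lit 76) (nat_lit 51384651091) (nat_lit 76) (nat_lit 34618870949) (nat_lit 3) (nat_lit 4) (nat_lit 4) (nat_lit 5) (nat_lit 4) (nat_lit 4) (nat_lit 476) (nat_lit 339) (nat_lit 205)))) (XT.nd (nat_lit 78) (nat_lit 0) (nat_lit 0) (XT.lf (nat_lit 0) (nat_lit 623871152634) (nat_lit 76) (nat_lit 39282148381) (nat_lit 76) (nat_lit 22515210882)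 (nat_lit 3) (nat_lit 4) (nat_lit 4) (nat_lit 5) (nat_lit 4) (nat_lit 4) (nat_lit 477) (nat_lit 339) (nat_lit 204)) (XT.nd (nat_lit 42354) (nat_lit 0) (nat_lit 12692) (XT.lf (nat_lit 0) (nat_lit 682867808788) (nat_lit 76) (nat_lit 26576376825) (nat_lit 76) (nat_lit 9808337080) (nat_lit 3) (nat_lit 4) (nat_lit 4) (nat_lit 5) (nat_lit 4) (nat_lit 4) (nat_lit 478) (nat_lit 339) (nat_lit 203)) (XT.lf (nat_lit 0) (nat_lit 1073741823) (nat_lit 0) (nat_lit 0) (nat_lit 0) (nat_lit 0) (nat_lit 170) (nat_lit 0) (nat_lit 1) (nat_lit 0) (nat_lit 1) (nat_lit 0) (nat_lit 340) (nat_lit 340) (nat_lit 340))))) (XT.nd (nat_lit 234) (nat_lit 532) (nat_lit 0) (XT.nd (nat_lit 78) (nat_lit 152) (nat_lit 0) (XT.lf (nat_lit 0) (nat_lit 3085317920) (nat_lit 76) (nat_lit 3259402148) (nat_lit 0) (nat_lit 100315650) (nat_lit 169) (nat_lit 5) (nat_lit 170) (nat_lit 0) (nat_lit 169) (nat_lit 4) (nat_lit 341) (nat_lit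 340) (nat_lit 339)) (XT.nd (nat_lit 78) (nat_lit 152) (nat_lit 0) (XT.lf (nat_lit 0) (nat_lit 6129047373) (nat_lit 76) (nat_lit 27578813) (nat_lit 0) (nat_lit 301185797) (nat_lit 169) (nat_lit 5) (nat_lit 170) (nat_lit 0) (nat_lit 169) (nat_lit 4) (nat_lit 342) (nat_lit 340) (nat_lit 338)) (XT.lf (nat_lit 0) (nat_lit 2626018899) (nat_lit 152) (nat_lit 3152007883) (nat_lit 76) (nat_lit 698036005) (nat_lit 167) (nat_lit 5) (nat_lit 169) (nat_lit 5) (nat_lit 168) (nat_lit 4) (nat_lit 343) (nat_lit 340) (nat_lit 337)))) (XT.nd (nat_lit 156) (nat_lit 304) (nat_lit 0) (XT.nd (nat_lit 78) (nat_lit 76) (nat_lit 0) (XT.lf (nat_lit 0) (nat_lit 241671479) (nat_lit 152) (nat_lit 5297633545) (nat_lit 228) (nat_lit 964793859) (nat_lit 165) (nat_lit 5) (nat_lit 167) (nat_lit 5) (nat_lit 168) (nat_lit 4) (nat_lit 344) (nat_lit 340) (nat_lit 336)) (XT.lf (nat_lit 0) (nat_lit 1874366703) (nat_lit 228) (nat_lit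 2763549534) (nat_lit 76) (nat_lit 1900433331) (nat_lit 164) (nat_lit 5) (nat_lit 167) (nat_lit 5) (nat_lit 165) (nat_lit 5) (nat_lit 345) (nat_lit 340) (nat_lit 335))) (XT.nd (nat_lit 78) (nat_lit 76) (nat_lit 0) (XT.lf (nat_lit 0) (nat_lit 811833924) (nat_lit 228) (nat_lit 3853880163) (nat_lit 304) (nat_lit 1915876405) (nat_lit 161) (nat_lit 5) (nat_lit 164) (nat_lit 5) (nat_lit 165) (nat_lit 5) (nat_lit 346) (nat_lit 340) (nat_lit 334)) (XT.lf (nat_lit 0) (nat_lit 819708207) (nat_lit 304) (nat_lit 2091169057) (nat_lit 76) (nat_lit 3721486330) (nat_lit 160) (nat_lit 5) (nat_lit 164) (nat_lit 5) (nat_lit 161) (nat_lit 5) (nat_lit 347) (nat_lit 340) (nat_lit 333))))))) (XT.nd (nat_lit 1014) (nat_lit 2812) (nat_lit 0) (XT.nd (nat_lit 468) (nat_lit 2584) (nat_lit 0) (XT.nd (nat_lit 234) (nat_lit 1064) (nat_lit 0) (XT.nd (nat_lit 78) (nat_lit 456) (nat_lit 0) (XT.lf (nat_lit 0) (nat_lit 1686744983)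 (nat_lit 304) (nat_lit 1808740560) (nat_lit 380) (nat_lit 3195403185) (nat_lit 156) (nat_lit 5) (nat_lit 160) (nat_lit 5) (nat_lit 161) (nat_lit 5) (nat_lit 348) (nat_lit 340) (nat_lit 332)) (XT.nd (nat_lit 78) (nat_lit 456) (nat_lit 0) (XT.lf (nat_lit 0) (nat_lit 5620702716) (nat_lit 304) (nat_lit 567131565) (nat_lit 380) (nat_lit 570532179) (nat_lit 156) (nat_lit 5) (nat_lit 160) (nat_lit 5) (nat_lit 161) (nat_lit 5) (nat_lit 349) (nat_lit 340) (nat_lit 331)) (XT.lf (nat_lit 0) (nat_lit 2026067370) (nat_lit 456) (nat_lit 3971721019) (nat_lit 76) (nat_lit 834351757) (nat_lit 150) (nat_lit 5) (nat_lit 156) (nat_lit 5) (nat_lit 151) (nat_lit 5) (nat_lit 350) (nat_lit 340) (nat_lit 330)))) (XT.nd (nat_lit 78) (nat_lit 608) (nat_lit 0) (XT.lf (nat_lit 0) (nat_lit 60596060) (nat_lit 456) (nat_lit 4560680507) (nat_lit 532) (nat_lit 2293603574) (nat_lit 144) (nat_lit 5) (nat_lit 150) (nat_lit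 5) (nat_lit 151) (nat_lit 5) (nat_lit 351) (nat_lit 340) (nat_lit 329)) (XT.nd (nat_lit 78) (nat_lit 532) (nat_lit 0) (XT.lf (nat_lit 0) (nat_lit 262622225) (nat_lit 532) (nat_lit 2687030105) (nat_lit 76) (nat_lit 4055507586) (nat_lit 143) (nat_lit 5) (nat_lit 150) (nat_lit 5) (nat_lit 144) (nat_lit 5) (nat_lit 352) (nat_lit 340) (nat_lit 328)) (XT.lf (nat_lit 0) (nat_lit 1592850349) (nat_lit 532) (nat_lit 1169019846) (nat_lit 608) (nat_lit 4341712408) (nat_lit 136) (nat_lit 5) (nat_lit 143) (nat_lit 5) (nat_lit 144) (nat_lit 5) (nat_lit 353) (nat_lit 340) (nat_lit 327))))) (XT.nd (nat_lit 234) (nat_lit 1216) (nat_lit 0) (XT.nd (nat_lit 78) (nat_lit 1368) (nat_lit 0) (XT.lf (nat_lit 0) (nat_lit 5315652329) (nat_lit 608) (nat_lit 1150517058) (nat_lit 76) (nat_lit 744396043) (nat_lit 136) (nat_lit 5) (nat_lit 144) (nat_lit 5) (nat_lit 137) (nat_lit 5) (nat_lit 354) (nat_lit 340) (nat_lit 326))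 (XT.nd (nat_lit 78) (nat_lit 684) (nat_lit 0) (XT.lf (nat_lit 0) (nat_lit 602576848) (nat_lit 684) (nat_lit 3926291176) (nat_lit 76) (nat_lit 2796113202) (nat_lit 127) (nat_lit 5) (nat_lit 136) (nat_lit 5) (nat_lit 128) (nat_lit 5) (nat_lit 355) (nat_lit 340) (nat_lit 325)) (XT.lf (nat_lit 0) (nat_lit 649509356) (nat_lit 684) (nat_lit 2422241665) (nat_lit 760) (nat_lit 4376390608) (nat_lit 118) (nat_lit 5) (nat_lit 127) (nat_lit 5) (nat_lit 128) (nat_lit 5) (nat_lit 356) (nat_lit 340) (nat_lit 324)))) (XT.nd (nat_lit 156) (nat_lit 380) (nat_lit 0) (XT.nd (nat_lit 78) (nat_lit 836) (nat_lit 0) (XT.lf (nat_lit 0) (nat_lit 5481150339) (nat_lit 684) (nat_lit 134256171) (nat_lit 760) (nat_lit 1964599156) (nat_lit 118) (nat_lit 5) (nat_lit 127) (nat_lit 5) (nat_lit 128) (nat_lit 5) (nat_lit 357) (nat_lit 340) (nat_lit 323)) (XT.lf (nat_lit 0) (nat_lit 517941852) (nat_lit 836) (nat_lit 4948736898)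 (nat_lit 76) (nat_lit 2253012045) (nat_lit 107) (nat_lit 5) (nat_lit 118) (nat_lit 5) (nat_lit 108) (nat_lit 5) (nat_lit 358) (nat_lit 340) (nat_lit 322))) (XT.nd (nat_lit 78) (nat_lit 380) (nat_lit 0) (XT.lf (nat_lit 0) (nat_lit 2988753705) (nat_lit 836) (nat_lit 54083551) (nat_lit 76) (nat_lit 4825487812) (nat_lit 107) (nat_lit 5) (nat_lit 118) (nat_lit 5) (nat_lit 108) (nat_lit 5) (nat_lit 359) (nat_lit 340) (nat_lit 321)) (XT.lf (nat_lit 0) (nat_lit 5143614481) (nat_lit 380) (nat_lit 416786904) (nat_lit 456) (nat_lit 2465204500) (nat_lit 102) (nat_lit 5) (nat_lit 107) (nat_lit 5) (nat_lit 108) (nat_lit 5) (nat_lit 360) (nat_lit 340) (nat_lit 320)))))) (XT.nd (nat_lit 468) (nat_lit 1368) (nat_lit 0) (XT.nd (nat_lit 234) (nat_lit 684) (nat_lit 0) (XT.nd (nat_lit 78) (nat_lit 380) (nat_lit 0) (XT.lf (nat_lit 0) (nat_lit 41358945) (nat_lit 380) (nat_lit 5851626974) (nat_lit 76) (nat_lit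 2299096722) (nat_lit 97) (nat_lit 5) (nat_lit 102) (nat_lit 5) (nat_lit 98) (nat_lit 5) (nat_lit 361) (nat_lit 340) (nat_lit 319)) (XT.nd (nat_lit 78) (nat_lit 380) (nat_lit 0) (XT.lf (nat_lit 0) (nat_lit 2548443245) (nat_lit 380) (nat_lit 599550021) (nat_lit 76) (nat_lit 5219036080) (nat_lit 97) (nat_lit 5) (nat_lit 102) (nat_lit 5) (nat_lit 98) (nat_lit 5) (nat_lit 362) (nat_lit 340) (nat_lit 318)) (XT.lf (nat_lit 0) (nat_lit 4968297204) (nat_lit 380) (nat_lit 196438453) (nat_lit 456) (nat_lit 3386860516) (nat_lit 92) (nat_lit 5) (nat_lit 97) (nat_lit 5) (nat_lit 98) (nat_lit 5) (nat_lit 363) (nat_lit 340) (nat_lit 317)))) (XT.nd (nat_lit 78) (nat_lit 380) (nat_lit 0) (XT.lf (nat_lit 0) (nat_lit 2000467932) (nat_lit 304) (nat_lit 5907161406) (nat_lit 380) (nat_lit 838035035) (nat_lit 88) (nat_lit 5) (nat_lit 92) (nat_lit 5) (nat_lit 93) (nat_lit 5) (nat_lit 364) (nat_lit 340) (nat_lit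 316)) (XT.nd (nat_lit 78) (nat_lit 304) (nat_lit 0) (XT.lf (nat_lit 0) (nat_lit 1754374457) (nat_lit 380) (nat_lit 1101310769) (nat_lit 76) (nat_lit 6093623443) (nat_lit 87) (nat_lit 5) (nat_lit 92) (nat_lit 5) (nat_lit 88) (nat_lit 5) (nat_lit 365) (nat_lit 340) (nat_lit 315)) (XT.lf (nat_lit 0) (nat_lit 4445123593) (nat_lit 380) (nat_lit 4307545909) (nat_lit 76) (nat_lit 409988502) (nat_lit 83) (nat_lit 5) (nat_lit 88) (nat_lit 5) (nat_lit 84) (nat_lit 5) (nat_lit 366) (nat_lit 340) (nat_lit 314))))) (XT.nd (nat_lit 234) (nat_lit 760) (nat_lit 0) (XT.nd (nat_lit 78) (nat_lit 380) (nat_lit 0) (XT.lf (nat_lit 0) (nat_lit 1661087530) (nat_lit 228) (nat_lit 5617551355) (nat_lit 304) (nat_lit 2107675795) (nat_lit 80) (nat_lit 5) (nat_lit 83) (nat_lit 5) (nat_lit 84) (nat_lit 5) (nat_lit 367) (nat_lit 340) (nat_lit 313)) (XT.nd (nat_lit 78) (nat_lit 304) (nat_lit 0) (XT.lf (nat_lit 0) (nat_lit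 604052368) (nat_lit 304) (nat_lit 1658738107) (nat_lit 76) (nat_lit 7358335048) (nat_lit 79) (nat_lit 5) (nat_lit 83) (nat_lit 5) (nat_lit 80) (nat_lit 5) (nat_lit 368) (nat_lit 340) (nat_lit 312)) (XT.lf (nat_lit 0) (nat_lit 3396782230) (nat_lit 380) (nat_lit 5162269842) (nat_lit 76) (nat_lit 1306129203) (nat_lit 75) (nat_lit 5) (nat_lit 80) (nat_lit 5) (nat_lit 76) (nat_lit 5) (nat_lit 369) (nat_lit 340) (nat_lit 311)))) (XT.nd (nat_lit 156) (nat_lit 532) (nat_lit 0) (XT.nd (nat_lit 78) (nat_lit 0) (nat_lit 0) (XT.lf (nat_lit 0) (nat_lit 1217049103) (nat_lit 228) (nat_lit 5119937238) (nat_lit 304) (nat_lit 3784103796) (nat_lit 72) (nat_lit 5) (nat_lit 75) (nat_lit 5) (nat_lit 76) (nat_lit 5) (nat_lit 370) (nat_lit 340) (nat_lit 310)) (XT.lf (nat_lit 0) (nat_lit 7991698069) (nat_lit 228) (nat_lit 1445169109) (nat_lit 304) (nat_lit 952334137) (nat_lit 72) (nat_lit 5) (nat_lit 75) (nat_lit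 5) (nat_lit 76) (nat_lit 5) (nat_lit 371) (nat_lit 340) (nat_lit 309))) (XT.nd (nat_lit 78) (nat_lit 228) (nat_lit 0) (XT.lf (nat_lit 0) (nat_lit 1992225990) (nat_lit 304) (nat_lit 6263549975) (nat_lit 76) (nat_lit 2411606490) (nat_lit 68) (nat_lit 5) (nat_lit 72) (nat_lit 5) (nat_lit 69) (nat_lit 5) (nat_lit 372) (nat_lit 340) (nat_lit 308)) (XT.lf (nat_lit 0) (nat_lit 546666496) (nat_lit 228) (nat_lit 4507898670) (nat_lit 304) (nat_lit 5904033824) (nat_lit 65) (nat_lit 5) (nat_lit 68) (nat_lit 5) (nat_lit 69) (nat_lit 5) (nat_lit 373) (nat_lit 340) (nat_lit 307))))))))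
noncomputable def xc97 : XT := (XT.nd (nat_lit 1950) (nat_lit 1368) (nat_lit 0) (XT.nd (nat_lit 936) (nat_lit 1064) (nat_lit 0) (XT.nd (nat_lit 468) (nat_lit 684) (nat_lit 0) (XT.nd (nat_lit 234) (nat_lit 456) (nat_lit 0) (XT.nd (nat_lit 78) (nat_lit 304) (nat_lit 0) (XT.lf (nat_lit 0) (nat_lit 7814603806) (nat_lit 228) (nat_lit 492367590) (nat_lit 304) (nat_lit 2955590523) (nat_lit 65) (nat_lit 5) (nat_lit 68) (nat_lit 5) (nat_lit 69) (nat_lit 5) (nat_lit 374) (nat_lit 340) (nat_lit 306)) (XT.nd (nat_lit 78) (nat_lit 0) (nat_lit 0) (XT.lf (nat_lit 0) (nat_lit 188247681) (nat_lit 304) (nat_lit 7751873085) (nat_lit 76) (nat_lit 3638899603) (nat_lit 61) (nat_lit 5) (nat_lit 65) (nat_lit 5) (nat_lit 62) (nat_lit 5) (nat_lit 375) (nat_lit 340) (nat_lit 305)) (XT.lf (nat_lit 0) (nat_lit 3391632733) (nat_lit 304) (nat_lit 479099333) (nat_lit 76) (nat_lit 8038091520) (nat_lit 61) (nat_lit 5) (nat_lit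 65) (nat_lit 5) (nat_lit 62) (nat_lit 5) (nat_lit 376) (nat_lit 340) (nat_lit 304)))) (XT.nd (nat_lit 78) (nat_lit 304) (nat_lit 0) (XT.lf (nat_lit 0) (nat_lit 6814150587) (nat_lit 228) (nat_lit 4963617843) (nat_lit 76) (nat_lit 474427566) (nat_lit 59) (nat_lit 5) (nat_lit 62) (nat_lit 5) (nat_lit 60) (nat_lit 5) (nat_lit 377) (nat_lit 340) (nat_lit 303)) (XT.nd (nat_lit 78) (nat_lit 76) (nat_lit 0) (XT.lf (nat_lit 0) (nat_lit 2778995843) (nat_lit 228) (nat_lit 7682318516) (nat_lit 304) (nat_lit 2148772580) (nat_lit 56) (nat_lit 5) (nat_lit 59) (nat_lit 5) (nat_lit 60) (nat_lit 5) (nat_lit 378) (nat_lit 340) (nat_lit 302)) (XT.lf (nat_lit 0) (nat_lit 1287525681) (nat_lit 304) (nat_lit 2018165855) (nat_lit 76) (nat_lit 9677969251) (nat_lit 55) (nat_lit 5) (nat_lit 59) (nat_lit 5) (nat_lit 56) (nat_lit 5) (nat_lit 379) (nat_lit 340) (nat_lit 301))))) (XT.nd (nat_lit 234) (nat_lit 380) (nat_lit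 0) (XT.nd (nat_lit 78) (nat_lit 152) (nat_lit 0) (XT.lf (nat_lit 0) (nat_lit 4884750635) (nat_lit 228) (nat_lit 7134730843) (nat_lit 76) (nat_lit 1351626713) (nat_lit 53) (nat_lit 5) (nat_lit 56) (nat_lit 5) (nat_lit 54) (nat_lit 5) (nat_lit 380) (nat_lit 340) (nat_lit 300)) (XT.nd (nat_lit 78) (nat_lit 0) (nat_lit 0) (XT.lf (nat_lit 0) (nat_lit 1085356584) (nat_lit 152) (nat_lit 7625011212) (nat_lit 228) (nat_lit 5065154940) (nat_lit 51) (nat_lit 5) (nat_lit 53) (nat_lit 5) (nat_lit 54) (nat_lit 5) (nat_lit 381) (nat_lit 340) (nat_lit 299)) (XT.lf (nat_lit 0) (nat_lit 9873511532) (nat_lit 152) (nat_lit 2918554914) (nat_lit 228) (nat_lit 1404871835) (nat_lit 51) (nat_lit 5) (nat_lit 53) (nat_lit 5) (nat_lit 54) (nat_lit 5) (nat_lit 382) (nat_lit 340) (nat_lit 298)))) (XT.nd (nat_lit 78) (nat_lit 152) (nat_lit 0) (XT.lf (nat_lit 0) (nat_lit 2408881875) (nat_lit 228) (nat_lit 10190792061)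 (nat_lit 76) (nat_lit 2035440486) (nat_lit 48) (nat_lit 5) (nat_lit 51) (nat_lit 5) (nat_lit 49) (nat_lit 5) (nat_lit 383) (nat_lit 340) (nat_lit 297)) (XT.nd (nat_lit 78) (nat_lit 152) (nat_lit 0) (XT.lf (nat_lit 0) (nat_lit 6434824021) (nat_lit 228) (nat_lit 1451912131) (nat_lit 76) (nat_lit 7203893541) (nat_lit 48) (nat_lit 5) (nat_lit 51) (nat_lit 5) (nat_lit 49) (nat_lit 5) (nat_lit 384) (nat_lit 340) (nat_lit 296)) (XT.lf (nat_lit 0) (nat_lit 7891876260) (nat_lit 152) (nat_lit 2842400226) (nat_lit 228) (nat_lit 4831050283) (nat_lit 46) (nat_lit 5) (nat_lit 48) (nat_lit 5) (nat_lit 49) (nat_lit 5) (nat_lit 385) (nat_lit 340) (nat_lit 295)))))) (XT.nd (nat_lit 468) (nat_lit 532) (nat_lit 0) (XT.nd (nat_lit 234) (nat_lit 152) (nat_lit 0) (XT.nd (nat_lit 78) (nat_lit 228) (nat_lit 0) (XT.lf (nat_lit 0) (nat_lit 1618568738) (nat_lit 152) (nat_lit 13668317695) (nat_lit 228) (nat_lit 774978933)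 (nat_lit 44) (nat_lit 5) (nat_lit 46) (nat_lit 5) (nat_lit 47) (nat_lit 4) (nat_lit 386) (nat_lit 340) (nat_lit 294)) (XT.nd (nat_lit 78) (nat_lit 152) (nat_lit 0) (XT.lf (nat_lit 0) (nat_lit 3500943884) (nat_lit 228) (nat_lit 5123804943) (nat_lit 76) (nat_lit 7949349110) (nat_lit 43) (nat_lit 5) (nat_lit 46) (nat_lit 5) (nat_lit 44) (nat_lit 5) (nat_lit 387) (nat_lit 340) (nat_lit 293)) (XT.lf (nat_lit 0) (nat_lit 4718506956) (nat_lit 152) (nat_lit 3272041218) (nat_lit 228) (nat_lit 9119475989) (nat_lit 41) (nat_lit 5) (nat_lit 43) (nat_lit 5) (nat_lit 44) (nat_lit 5) (nat_lit 388) (nat_lit 340) (nat_lit 292)))) (XT.nd (nat_lit 78) (nat_lit 152) (nat_lit 0) (XT.lf (nat_lit 0) (nat_lit 12782253217) (nat_lit 228) (nat_lit 2557657015) (nat_lit 76) (nat_lit 2328968531) (nat_lit 41) (nat_lit 5) (nat_lit 44) (nat_lit 5) (nat_lit 42) (nat_lit 4) (nat_lit 389) (nat_lit 340) (nat_lit 291)) (XT.nd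 (nat_lit 78) (nat_lit 76) (nat_lit 0) (XT.lf (nat_lit 0) (nat_lit 7888662332) (nat_lit 76) (nat_lit 10056695156) (nat_lit 152) (nat_lit 303740370) (nat_lit 40) (nat_lit 5) (nat_lit 41) (nat_lit 5) (nat_lit 42) (nat_lit 4) (nat_lit 390) (nat_lit 340) (nat_lit 290)) (XT.lf (nat_lit 0) (nat_lit 4363240157) (nat_lit 152) (nat_lit 59478433) (nat_lit 76) (nat_lit 14432139049) (nat_lit 39) (nat_lit 5) (nat_lit 41) (nat_lit 5) (nat_lit 40) (nat_lit 5) (nat_lit 391) (nat_lit 340) (nat_lit 289))))) (XT.nd (nat_lit 234) (nat_lit 304) (nat_lit 0) (XT.nd (nat_lit 78) (nat_lit 76) (nat_lit 0) (XT.lf (nat_lit 0) (nat_lit 9408638170) (nat_lit 228) (nat_lit 8479912451) (nat_lit 76) (nat_lit 1594352780) (nat_lit 37) (nat_lit 5) (nat_lit 40) (nat_lit 5) (nat_lit 38) (nat_lit 4) (nat_lit 392) (nat_lit 340) (nat_lit 288)) (XT.nd (nat_lit 78) (nat_lit 0) (nat_lit 0) (XT.lf (nat_lit 0) (nat_lit 2407910223) (nat_lit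 76) (nat_lit 12367260704) (nat_lit 152) (nat_lit 5363747538) (nat_lit 36) (nat_lit 5) (nat_lit 37) (nat_lit 5) (nat_lit 38) (nat_lit 4) (nat_lit 393) (nat_lit 340) (nat_lit 287)) (XT.lf (nat_lit 0) (nat_lit 14060751370) (nat_lit 76) (nat_lit 6451493974) (nat_lit 152) (nat_lit 310387953) (nat_lit 36) (nat_lit 5) (nat_lit 37) (nat_lit 5) (nat_lit 38) (nat_lit 4) (nat_lit 394) (nat_lit 340) (nat_lit 286)))) (XT.nd (nat_lit 156) (nat_lit 76) (nat_lit 0) (XT.nd (nat_lit 78) (nat_lit 0) (nat_lit 0) (XT.lf (nat_lit 0) (nat_lit 4758406465) (nat_lit 152) (nat_lit 111553080) (nat_lit 228) (nat_lit 16664972807) (nat_lit 33) (nat_lit 5) (nat_lit 35) (nat_lit 5) (nat_lit 36) (nat_lit 5) (nat_lit 395) (nat_lit 340) (nat_lit 285)) (XT.lf (nat_lit 0) (nat_lit 10477719872) (nat_lit 228) (nat_lit 5368739056) (nat_lit 76) (nat_lit 6427200126) (nat_lit 33) (nat_lit 5) (nat_lit 36) (nat_lit 5) (nat_lit 34) (nat_lit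 4) (nat_lit 396) (nat_lit 340) (nat_lit 284))) (XT.nd (nat_lit 78) (nat_lit 0) (nat_lit 0) (XT.lf (nat_lit 0) (nat_lit 6755318277) (nat_lit 76) (nat_lit 9679983054) (nat_lit 152) (nat_lit 6610557139) (nat_lit 32) (nat_lit 5) (nat_lit 33) (nat_lit 5) (nat_lit 34) (nat_lit 4) (nat_lit 397) (nat_lit 340) (nat_lit 283)) (XT.lf (nat_lit 0) (nat_lit 19604571381) (nat_lit 76) (nat_lit 3139998436) (nat_lit 152) (nat_lit 1109415294) (nat_lit 32) (nat_lit 5) (nat_lit 33) (nat_lit 5) (nat_lit 34) (nat_lit 4) (nat_lit 398) (nat_lit 340) (nat_lit 282))))))) (XT.nd (nat_lit 1014) (nat_lit 532) (nat_lit 0) (XT.nd (nat_lit 468) (nat_lit 380) (nat_lit 0) (XT.nd (nat_lit 234) (nat_lit 152) (nat_lit 0) (XT.nd (nat_lit 78) (nat_lit 76) (nat_lit 0) (XT.lf (nat_lit 0) (nat_lit 4675743821) (nat_lit 228) (nat_lit 16226637978) (nat_lit 76) (nat_lit 3788583829) (nat_lit 29) (nat_lit 5) (nat_lit 32) (nat_lit 5) (nat_lit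 30) (nat_lit 4) (nat_lit 399) (nat_lit 340) (nat_lit 281)) (XT.nd (nat_lit 78) (nat_lit 76) (nat_lit 0) (XT.lf (nat_lit 0) (nat_lit 10801817287) (nat_lit 228) (nat_lit 3741395270) (nat_lit 76) (nat_lit 11021232864) (nat_lit 29) (nat_lit 5) (nat_lit 32) (nat_lit 5) (nat_lit 30) (nat_lit 4) (nat_lit 400) (nat_lit 340) (nat_lit 280)) (XT.lf (nat_lit 0) (nat_lit 9613278072) (nat_lit 76) (nat_lit 7737024654) (nat_lit 152) (nat_lit 9125497360) (nat_lit 28) (nat_lit 5) (nat_lit 29) (nat_lit 5) (nat_lit 30) (nat_lit 4) (nat_lit 401) (nat_lit 340) (nat_lit 279)))) (XT.nd (nat_lit 78) (nat_lit 152) (nat_lit 0) (XT.lf (nat_lit 0) (nat_lit 23704069773) (nat_lit 76) (nat_lit 552180964) (nat_lit 152) (nat_lit 3174975827) (nat_lit 28) (nat_lit 5) (nat_lit 29) (nat_lit 5) (nat_lit 30) (nat_lit 4) (nat_lit 402) (nat_lit 340) (nat_lit 278)) (XT.nd (nat_lit 78) (nat_lit 0) (nat_lit 0) (XT.lf (nat_lit 0) (nat_lit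 3215208651) (nat_lit 152) (nat_lit 18251187953) (nat_lit 76) (nat_lit 6953609520) (nat_lit 26) (nat_lit 5) (nat_lit 28) (nat_lit 5) (nat_lit 27) (nat_lit 4) (nat_lit 403) (nat_lit 340) (nat_lit 277)) (XT.lf (nat_lit 0) (nat_lit 9859345243) (nat_lit 152) (nat_lit 4688068243) (nat_lit 76) (nat_lit 14906156771) (nat_lit 26) (nat_lit 5) (nat_lit 28) (nat_lit 5) (nat_lit 27) (nat_lit 4) (nat_lit 404) (nat_lit 340) (nat_lit 276))))) (XT.nd (nat_lit 234) (nat_lit 228) (nat_lit 0) (XT.nd (nat_lit 78) (nat_lit 76) (nat_lit 0) (XT.lf (nat_lit 0) (nat_lit 9810190740) (nat_lit 76) (nat_lit 7148124183) (nat_lit 152) (nat_lit 13574371293) (nat_lit 25) (nat_lit 5) (nat_lit 26) (nat_lit 5) (nat_lit 27) (nat_lit 4) (nat_lit 405) (nat_lit 340) (nat_lit 275)) (XT.nd (nat_lit 78) (nat_lit 76) (nat_lit 0) (XT.lf (nat_lit 0) (nat_lit 24472259288) (nat_lit 152) (nat_lit 6533845013) (nat_lit 0) (nat_lit 656657060)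 (nat_lit 25) (nat_lit 5) (nat_lit 27) (nat_lit 4) (nat_lit 25) (nat_lit 4) (nat_lit 406) (nat_lit 340) (nat_lit 274)) (XT.lf (nat_lit 0) (nat_lit 8463483298) (nat_lit 76) (nat_lit 24118817078) (nat_lit 76) (nat_lit 256024386) (nat_lit 24) (nat_lit 4) (nat_lit 25) (nat_lit 5) (nat_lit 25) (nat_lit 4) (nat_lit 407) (nat_lit 340) (nat_lit 273)))) (XT.nd (nat_lit 156) (nat_lit 76) (nat_lit 0) (XT.nd (nat_lit 78) (nat_lit 76) (nat_lit 0) (XT.lf (nat_lit 0) (nat_lit 6883945239) (nat_lit 152) (nat_lit 9795648249) (nat_lit 76) (nat_lit 17383411888) (nat_lit 23) (nat_lit 5) (nat_lit 25) (nat_lit 5) (nat_lit 24) (nat_lit 4) (nat_lit 408) (nat_lit 340) (nat_lit 272)) (XT.lf (nat_lit 0) (nat_lit 5636780369) (nat_lit 76) (nat_lit 8796058411) (nat_lit 152) (nat_lit 20912848773) (nat_lit 22) (nat_lit 5) (nat_lit 23) (nat_lit 5) (nat_lit 24) (nat_lit 4) (nat_lit 409) (nat_lit 340) (nat_lit 271))) (XT.nd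 (nat_lit 78) (nat_lit 76) (nat_lit 0) (XT.lf (nat_lit 0) (nat_lit 22129811626) (nat_lit 76) (nat_lit 368293571) (nat_lit 152) (nat_lit 14187455913) (nat_lit 22) (nat_lit 5) (nat_lit 23) (nat_lit 5) (nat_lit 24) (nat_lit 4) (nat_lit 410) (nat_lit 340) (nat_lit 270)) (XT.lf (nat_lit 0) (nat_lit 1211845869) (nat_lit 76) (nat_lit 29880078721) (nat_lit 76) (nat_lit 6994242778) (nat_lit 21) (nat_lit 4) (nat_lit 22) (nat_lit 5) (nat_lit 22) (nat_lit 4) (nat_lit 411) (nat_lit 340) (nat_lit 269)))))) (XT.nd (nat_lit 468) (nat_lit 304) (nat_lit 0) (XT.nd (nat_lit 234) (nat_lit 76) (nat_lit 0) (XT.nd (nat_lit 78) (nat_lit 76) (nat_lit 0) (XT.lf (nat_lit 0) (nat_lit 771353963) (nat_lit 152) (nat_lit 21339774568) (nat_lit 76) (nat_lit 17433712366) (nat_lit 20) (nat_lit 5) (nat_lit 22) (nat_lit 5) (nat_lit 21) (nat_lit 4) (nat_lit 412) (nat_lit 340) (nat_lit 268)) (XT.nd (nat_lit 78) (nat_lit 76) (nat_lit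 0) (XT.lf (nat_lit 0) (nat_lit 8665430736) (nat_lit 152) (nat_lit 5190454565) (nat_lit 76) (nat_lit 27216070213) (nat_lit 20) (nat_lit 5) (nat_lit 22) (nat_lit 5) (nat_lit 21) (nat_lit 4) (nat_lit 413) (nat_lit 340) (nat_lit 267)) (XT.lf (nat_lit 0) (nat_lit 12108847751) (nat_lit 76) (nat_lit 5010847707) (nat_lit 152) (nat_lit 25547459083) (nat_lit 19) (nat_lit 5) (nat_lit 20) (nat_lit 5) (nat_lit 21) (nat_lit 4) (nat_lit 414) (nat_lit 340) (nat_lit 266)))) (XT.nd (nat_lit 78) (nat_lit 76) (nat_lit 0) (XT.lf (nat_lit 0) (nat_lit 26129315403) (nat_lit 152) (nat_lit 13997755580) (nat_lit 0) (nat_lit 4208413182) (nat_lit 19) (nat_lit 5) (nat_lit 21) (nat_lit 4) (nat_lit 19) (nat_lit 4) (nat_lit 415) (nat_lit 340) (nat_lit 265)) (XT.nd (nat_lit 78) (nat_lit 0) (nat_lit 0) (XT.lf (nat_lit 0) (nat_lit 3373661154) (nat_lit 76) (nat_lit 32328220976) (nat_lit 76) (nat_lit 10379727468) (nat_lit 18)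 (nat_lit 4) (nat_lit 19) (nat_lit 5) (nat_lit 19) (nat_lit 4) (nat_lit 416) (nat_lit 340) (nat_lit 264)) (XT.lf (nat_lit 0) (nat_lit 22057317447) (nat_lit 76) (nat_lit 23910870858) (nat_lit 76) (nat_lit 1936099934) (nat_lit 18) (nat_lit 4) (nat_lit 19) (nat_lit 5) (nat_lit 19) (nat_lit 4) (nat_lit 417) (nat_lit 340) (nat_lit 263))))) (XT.nd (nat_lit 234) (nat_lit 152) (nat_lit 0) (XT.nd (nat_lit 78) (nat_lit 76) (nat_lit 0) (XT.lf (nat_lit 0) (nat_lit 6686667523) (nat_lit 152) (nat_lit 8292128611) (nat_lit 76) (nat_lit 34834959703) (nat_lit 17) (nat_lit 5) (nat_lit 19) (nat_lit 5) (nat_lit 18) (nat_lit 4) (nat_lit 418) (nat_lit 340) (nat_lit 262)) (XT.nd (nat_lit 78) (nat_lit 0) (nat_lit 0) (XT.lf (nat_lit 0) (nat_lit 10402625140) (nat_lit 76) (nat_lit 5415060989) (nat_lit 152) (nat_lit 35992316949) (nat_lit 16) (nat_lit 5) (nat_lit 17) (nat_lit 5) (nat_lit 18) (nat_lit 4) (nat_lit 419)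 (nat_lit 340) (nat_lit 261)) (XT.lf (nat_lit 0) (nat_lit 25600066058) (nat_lit 152) (nat_lit 23692697661) (nat_lit 0) (nat_lit 4603560491) (nat_lit 16) (nat_lit 5) (nat_lit 18) (nat_lit 4) (nat_lit 16) (nat_lit 4) (nat_lit 420) (nat_lit 340) (nat_lit 260)))) (XT.nd (nat_lit 156) (nat_lit 76) (nat_lit 0) (XT.nd (nat_lit 78) (nat_lit 76) (nat_lit 0) (XT.lf (nat_lit 0) (nat_lit 35941135299) (nat_lit 152) (nat_lit 5218308848) (nat_lit 0) (nat_lit 14924040689) (nat_lit 16) (nat_lit 5) (nat_lit 18) (nat_lit 4) (nat_lit 16) (nat_lit 4) (nat_lit 421) (nat_lit 340) (nat_lit 259)) (XT.lf (nat_lit 0) (nat_lit 14611994496) (nat_lit 76) (nat_lit 32397110856) (nat_lit 76) (nat_lit 11360407634) (nat_lit 15) (nat_lit 4) (nat_lit 16) (nat_lit 5) (nat_lit 16) (nat_lit 4) (nat_lit 422) (nat_lit 340) (nat_lit 258))) (XT.nd (nat_lit 78) (nat_lit 76) (nat_lit 0) (XT.lf (nat_lit 0) (nat_lit 35580073181) (nat_lit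 76) (nat_lit 23120814273) (nat_lit 76) (nat_lit 2065436182) (nat_lit 15) (nat_lit 4) (nat_lit 16) (nat_lit 5) (nat_lit 16) (nat_lit 4) (nat_lit 423) (nat_lit 340) (nat_lit 257)) (XT.lf (nat_lit 0) (nat_lit 7430630900) (nat_lit 152) (nat_lit 5840370334) (nat_lit 76) (nat_lit 50006838114) (nat_lit 14) (nat_lit 5) (nat_lit 16) (nat_lit 5) (nat_lit 15) (nat_lit 4) (nat_lit 424) (nat_lit 340) (nat_lit 256))))))))
noncomputable def xc98 : XT := (XT.nd (nat_lit 1950) (nat_lit 228) (nat_lit 0) (XT.nd (nat_lit 936) (nat_lit 228) (nat_lit 0) (XT.nd (nat_lit 468) (nat_lit 228) (nat_lit 0) (XT.nd (nat_lit 234) (nat_lit 76) (nat_lit 0) (XT.nd (nat_lit 78) (nat_lit 0) (nat_lit 0) (XT.lf (nat_lit 0) (nat_lit 14883084422) (nat_lit 76) (nat_lit 2664811558) (nat_lit 152) (nat_lit 48354553073) (nat_lit 13) (nat_lit 5) (nat_lit 14) (nat_lit 5) (nat_lit 15) (nat_lit 4) (nat_lit 425) (nat_lit 340) (nat_lit 255))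 (XT.nd (nat_lit 78) (nat_lit 0) (nat_lit 0) (XT.lf (nat_lit 0) (nat_lit 28387315171) (nat_lit 152) (nat_lit 31974021425) (nat_lit 0) (nat_lit 8286139560) (nat_lit 13) (nat_lit 5) (nat_lit 15) (nat_lit 4) (nat_lit 13) (nat_lit 4) (nat_lit 426) (nat_lit 340) (nat_lit 254)) (XT.lf (nat_lit 0) (nat_lit 39796669907) (nat_lit 152) (nat_lit 12050825817) (nat_lit 0) (nat_lit 19680862048) (nat_lit 13) (nat_lit 5) (nat_lit 15) (nat_lit 4) (nat_lit 13) (nat_lit 4) (nat_lit 427) (nat_lit 340) (nat_lit 253)))) (XT.nd (nat_lit 78) (nat_lit 0) (nat_lit 0) (XT.lf (nat_lit 0) (nat_lit 9131529518) (nat_lit 76) (nat_lit 42772559390) (nat_lit 76) (nat_lit 22642816056) (nat_lit 12) (nat_lit 4) (nat_lit 13) (nat_lit 5) (nat_lit 13) (nat_lit 4) (nat_lit 428) (nat_lit 340) (nat_lit 252)) (XT.nd (nat_lit 78) (nat_lit 0) (nat_lit 0) (XT.lf (nat_lit 0) (nat_lit 31762586092) (nat_lit 76) (nat_lit 33043670505) (nat_lit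 76) (nat_lit 12900655290) (nat_lit 12) (nat_lit 4) (nat_lit 13) (nat_lit 5) (nat_lit 13) (nat_lit 4) (nat_lit 429) (nat_lit 340) (nat_lit 251)) (XT.lf (nat_lit 0) (nat_lit 55497772647) (nat_lit 76) (nat_lit 22841751615) (nat_lit 76) (nat_lit 2686096514) (nat_lit 12) (nat_lit 4) (nat_lit 13) (nat_lit 5) (nat_lit 13) (nat_lit 4) (nat_lit 430) (nat_lit 340) (nat_lit 250))))) (XT.nd (nat_lit 234) (nat_lit 76) (nat_lit 0) (XT.nd (nat_lit 78) (nat_lit 76) (nat_lit 0) (XT.lf (nat_lit 0) (nat_lit 7768324751) (nat_lit 152) (nat_lit 4242627347) (nat_lit 76) (nat_lit 72493716441) (nat_lit 11) (nat_lit 5) (nat_lit 13) (nat_lit 5) (nat_lit 12) (nat_lit 4) (nat_lit 431) (nat_lit 340) (nat_lit 249)) (XT.nd (nat_lit 78) (nat_lit 0) (nat_lit 0) (XT.lf (nat_lit 0) (nat_lit 18633920525) (nat_lit 76) (nat_lit 299288432) (nat_lit 152) (nat_lit 69208358433) (nat_lit 10) (nat_lit 5) (nat_lit 11) (nat_lit 5) (nat_lit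 12) (nat_lit 4) (nat_lit 432) (nat_lit 340) (nat_lit 248)) (XT.lf (nat_lit 0) (nat_lit 30903808393) (nat_lit 152) (nat_lit 49368966258) (nat_lit 0) (nat_lit 11675163968) (nat_lit 10) (nat_lit 5) (nat_lit 12) (nat_lit 4) (nat_lit 10) (nat_lit 4) (nat_lit 433) (nat_lit 340) (nat_lit 247)))) (XT.nd (nat_lit 78) (nat_lit 76) (nat_lit 0) (XT.lf (nat_lit 0) (nat_lit 43465577914) (nat_lit 152) (nat_lit 28252389620) (nat_lit 0) (nat_lit 24227029807) (nat_lit 10) (nat_lit 5) (nat_lit 12) (nat_lit 4) (nat_lit 10) (nat_lit 4) (nat_lit 434) (nat_lit 340) (nat_lit 246)) (XT.nd (nat_lit 78) (nat_lit 76) (nat_lit 0) (XT.lf (nat_lit 0) (nat_lit 56643753765) (nat_lit 152) (nat_lit 6102966658) (nat_lit 0) (nat_lit 37395773580) (nat_lit 10) (nat_lit 5) (nat_lit 12) (nat_lit 4) (nat_lit 10) (nat_lit 4) (nat_lit 435) (nat_lit 340) (nat_lit 245)) (XT.lf (nat_lit 0) (nat_lit 17698501940) (nat_lit 76) (nat_lit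 53047533829) (nat_lit 76) (nat_lit 33790570712) (nat_lit 9) (nat_lit 4) (nat_lit 10) (nat_lit 5) (nat_lit 10) (nat_lit 4) (nat_lit 436) (nat_lit 340) (nat_lit 244)))))) (XT.nd (nat_lit 468) (nat_lit 76) (nat_lit 0) (XT.nd (nat_lit 234) (nat_lit 152) (nat_lit 0) (XT.nd (nat_lit 78) (nat_lit 0) (nat_lit 0) (XT.lf (nat_lit 0) (nat_lit 42880390122) (nat_lit 76) (nat_lit 42765466170) (nat_lit 76) (nat_lit 23499947881) (nat_lit 9) (nat_lit 4) (nat_lit 10) (nat_lit 5) (nat_lit 10) (nat_lit 4) (nat_lit 437) (nat_lit 340) (nat_lit 243)) (XT.nd (nat_lit 78) (nat_lit 0) (nat_lit 0) (XT.lf (nat_lit 0) (nat_lit 69300863125) (nat_lit 76) (nat_lit 31979393027) (nat_lit 76) (nat_lit 12705726955) (nat_lit 9) (nat_lit 4) (nat_lit 10) (nat_lit 5) (nat_lit 10) (nat_lit 4) (nat_lit 438) (nat_lit 340) (nat_lit 242)) (XT.lf (nat_lit 0) (nat_lit 97022826835) (nat_lit 76) (nat_lit 20663633274) (nat_lit 76) (nat_lit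 1382207408) (nat_lit 9) (nat_lit 4) (nat_lit 10) (nat_lit 5) (nat_lit 10) (nat_lit 4) (nat_lit 439) (nat_lit 340) (nat_lit 241)))) (XT.nd (nat_lit 78) (nat_lit 0) (nat_lit 0) (XT.lf (nat_lit 0) (nat_lit 1593430098) (nat_lit 76) (nat_lit 8593031484) (nat_lit 152) (nat_lit 114210058732) (nat_lit 7) (nat_lit 5) (nat_lit 8) (nat_lit 5) (nat_lit 9) (nat_lit 4) (nat_lit 440) (nat_lit 340) (nat_lit 240)) (XT.nd (nat_lit 78) (nat_lit 0) (nat_lit 0) (XT.lf (nat_lit 0) (nat_lit 22720731677) (nat_lit 152) (nat_lit 102903493423) (nat_lit 0) (nat_lit 4343727384) (nat_lit 7) (nat_lit 5) (nat_lit 9) (nat_lit 4) (nat_lit 7) (nat_lit 4) (nat_lit 441) (nat_lit 340) (nat_lit 239)) (XT.lf (nat_lit 0) (nat_lit 36013464539) (nat_lit 152) (nat_lit 82167828622) (nat_lit 0) (nat_lit 17630076244) (nat_lit 7) (nat_lit 5) (nat_lit 9) (nat_lit 4) (nat_lit 7) (nat_lit 4) (nat_lit 442) (nat_lit 340) (nat_lit 238)))))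 (XT.nd (nat_lit 234) (nat_lit 76) (nat_lit 0) (XT.nd (nat_lit 78) (nat_lit 0) (nat_lit 0) (XT.lf (nat_lit 0) (nat_lit 49962148227) (nat_lit 152) (nat_lit 60412563882) (nat_lit 0) (nat_lit 31572679931) (nat_lit 7) (nat_lit 5) (nat_lit 9) (nat_lit 4) (nat_lit 7) (nat_lit 4) (nat_lit 443) (nat_lit 340) (nat_lit 237)) (XT.nd (nat_lit 78) (nat_lit 0) (nat_lit 0) (XT.lf (nat_lit 0) (nat_lit 64599993893) (nat_lit 152) (nat_lit 37585900952) (nat_lit 0) (nat_lit 46204735120) (nat_lit 7) (nat_lit 5) (nat_lit 9) (nat_lit 4) (nat_lit 7) (nat_lit 4) (nat_lit 444) (nat_lit 340) (nat_lit 236)) (XT.lf (nat_lit 0) (nat_lit 79961853552) (nat_lit 152) (nat_lit 13633490634) (nat_lit 0) (nat_lit 61561080038) (nat_lit 7) (nat_lit 5) (nat_lit 9) (nat_lit 4) (nat_lit 7) (nat_lit 4) (nat_lit 445) (nat_lit 340) (nat_lit 235)))) (XT.nd (nat_lit 156) (nat_lit 0) (nat_lit 0) (XT.nd (nat_lit 78) (nat_lit 0) (nat_lit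 0) (XT.lf (nat_lit 0) (nat_lit 11881994651) (nat_lit 76) (nat_lit 84387819643) (nat_lit 76) (nat_lit 65981793995) (nat_lit 6) (nat_lit 4) (nat_lit 7) (nat_lit 5) (nat_lit 7) (nat_lit 4) (nat_lit 446) (nat_lit 340) (nat_lit 234)) (XT.lf (nat_lit 0) (nat_lit 39131974044) (nat_lit 76) (nat_lit 74484714936) (nat_lit 76) (nat_lit 56073687256) (nat_lit 6) (nat_lit 4) (nat_lit 7) (nat_lit 5) (nat_lit 7) (nat_lit 4) (nat_lit 447) (nat_lit 340) (nat_lit 233))) (XT.nd (nat_lit 78) (nat_lit 0) (nat_lit 0) (XT.lf (nat_lit 0) (nat_lit 67730543674) (nat_lit 76) (nat_lit 64093341007) (nat_lit 76) (nat_lit 45677549487) (nat_lit 6) (nat_lit 4) (nat_lit 7) (nat_lit 5) (nat_lit 7) (nat_lit 4) (nat_lit 448) (nat_lit 340) (nat_lit 232)) (XT.lf (nat_lit 0) (nat_lit 97745795376) (nat_lit 76) (nat_lit 53188956489) (nat_lit 76) (nat_lit 34768627978) (nat_lit 6) (nat_lit 4) (nat_lit 7) (nat_lit 5) (nat_lit 7) (nat_lit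 4) (nat_lit 449) (nat_lit 340) (nat_lit 231))))))) (XT.nd (nat_lit 1014) (nat_lit 76) (nat_lit 0) (XT.nd (nat_lit 468) (nat_lit 0) (nat_lit 0) (XT.nd (nat_lit 234) (nat_lit 76) (nat_lit 0) (XT.nd (nat_lit 78) (nat_lit 76) (nat_lit 0) (XT.lf (nat_lit 0) (nat_lit 129249194034) (nat_lit 76) (nat_lit 41745598561) (nat_lit 76) (nat_lit 23320949106) (nat_lit 6) (nat_lit 4) (nat_lit 7) (nat_lit 5) (nat_lit 7) (nat_lit 4) (nat_lit 450) (nat_lit 340) (nat_lit 230)) (XT.nd (nat_lit 78) (nat_lit 76) (nat_lit 0) (XT.lf (nat_lit 0) (nat_lit 162315747739) (nat_lit 76) (nat_lit 29736021133) (nat_lit 76) (nat_lit 11307256494) (nat_lit 6) (nat_lit 4) (nat_lit 7) (nat_lit 5) (nat_lit 7) (nat_lit 4) (nat_lit 451) (nat_lit 340) (nat_lit 229)) (XT.lf (nat_lit 0) (nat_lit 1259412038) (nat_lit 152) (nat_lit 15850889182) (nat_lit 76) (nat_lit 195743445592) (nat_lit 5) (nat_lit 5) (nat_lit 7) (nat_lit 5) (nat_lit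 6) (nat_lit 4) (nat_lit 452) (nat_lit 340) (nat_lit 228)))) (XT.nd (nat_lit 78) (nat_lit 0) (nat_lit 0) (XT.lf (nat_lit 0) (nat_lit 10748696103) (nat_lit 76) (nat_lit 3487944169) (nat_lit 152) (nat_lit 208569184940) (nat_lit 4) (nat_lit 5) (nat_lit 5) (nat_lit 5) (nat_lit 6) (nat_lit 4) (nat_lit 453) (nat_lit 340) (nat_lit 227)) (XT.nd (nat_lit 78) (nat_lit 0) (nat_lit 0) (XT.lf (nat_lit 0) (nat_lit 28298852469) (nat_lit 152) (nat_lit 194197874223) (nat_lit 0) (nat_lit 10736975034) (nat_lit 4) (nat_lit 5) (nat_lit 6) (nat_lit 4) (nat_lit 4) (nat_lit 4) (nat_lit 454) (nat_lit 340) (nat_lit 226)) (XT.lf (nat_lit 0) (nat_lit 43116039099) (nat_lit 152) (nat_lit 175513402772) (nat_lit 0) (nat_lit 25550937310) (nat_lit 4) (nat_lit 5) (nat_lit 6) (nat_lit 4) (nat_lit 4) (nat_lit 4) (nat_lit 455) (nat_lit 340) (nat_lit 225))))) (XT.nd (nat_lit 234) (nat_lit 0) (nat_lit 0) (XT.nd (nat_lit 78) (nat_lit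 0) (nat_lit 0) (XT.lf (nat_lit 0) (nat_lit 58669022594) (nat_lit 152) (nat_lit 155904771336) (nat_lit 0) (nat_lit 41100849991) (nat_lit 4) (nat_lit 5) (nat_lit 6) (nat_lit 4) (nat_lit 4) (nat_lit 4) (nat_lit 456) (nat_lit 340) (nat_lit 224)) (XT.nd (nat_lit 78) (nat_lit 0) (nat_lit 0) (XT.lf (nat_lit 0) (nat_lit 74994833868) (nat_lit 152) (nat_lit 135325292699) (nat_lit 0) (nat_lit 57423736680) (nat_lit 4) (nat_lit 5) (nat_lit 6) (nat_lit 4) (nat_lit 4) (nat_lit 4) (nat_lit 457) (nat_lit 340) (nat_lit 223)) (XT.lf (nat_lit 0) (nat_lit 92132343899) (nat_lit 152) (nat_lit 113725968100) (nat_lit 0) (nat_lit 74558461393) (nat_lit 4) (nat_lit 5) (nat_lit 6) (nat_lit 4) (nat_lit 4) (nat_lit 4) (nat_lit 458) (nat_lit 340) (nat_lit 222)))) (XT.nd (nat_lit 156) (nat_lit 0) (nat_lit 0) (XT.nd (nat_lit 78) (nat_lit 0) (nat_lit 0) (XT.lf (nat_lit 0) (nat_lit 110122356284) (nat_lit 152) (nat_lit 91055370578)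 (nat_lit 0) (nat_lit 92545821093) (nat_lit 4) (nat_lit 5) (nat_lit 6) (nat_lit 4) (nat_lit 4) (nat_lit 4) (nat_lit 459) (nat_lit 340) (nat_lit 221)) (XT.lf (nat_lit 0) (nat_lit 129007704384) (nat_lit 152) (nat_lit 67259522518) (nat_lit 0) (nat_lit 111428642827) (nat_lit 4) (nat_lit 5) (nat_lit 6) (nat_lit 4) (nat_lit 4) (nat_lit 4) (nat_lit 460) (nat_lit 340) (nat_lit 220))) (XT.nd (nat_lit 78) (nat_lit 0) (nat_lit 0) (XT.lf (nat_lit 0) (nat_lit 148833353315) (nat_lit 152) (nat_lit 42281767140) (nat_lit 0) (nat_lit 131251885695) (nat_lit 4) (nat_lit 5) (nat_lit 6) (nat_lit 4) (nat_lit 4) (nat_lit 4) (nat_lit 461) (nat_lit 340) (nat_lit 219)) (XT.lf (nat_lit 0) (nat_lit 169646507003) (nat_lit 152) (nat_lit 16062633597) (nat_lit 0) (nat_lit 152062747894) (nat_lit 4) (nat_lit 5) (nat_lit 6) (nat_lit 4) (nat_lit 4) (nat_lit 4) (nat_lit 462) (nat_lit 340) (nat_lit 218)))))) (XT.nd (nat_lit 468)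 (nat_lit 0) (nat_lit 0) (XT.nd (nat_lit 234) (nat_lit 0) (nat_lit 0) (XT.nd (nat_lit 78) (nat_lit 0) (nat_lit 0) (XT.lf (nat_lit 0) (nat_lit 11839234044) (nat_lit 76) (nat_lit 179842330152) (nat_lit 76) (nat_lit 162256388673) (nat_lit 3) (nat_lit 4) (nat_lit 4) (nat_lit 5) (nat_lit 4) (nat_lit 4) (nat_lit 463) (nat_lit 340) (nat_lit 217)) (XT.nd (nat_lit 78) (nat_lit 0) (nat_lit 0) (XT.lf (nat_lit 0) (nat_lit 41686816788) (nat_lit 76) (nat_lit 173400049597) (nat_lit 76) (nat_lit 155812029670) (nat_lit 3) (nat_lit 4) (nat_lit 4) (nat_lit 5) (nat_lit 4) (nat_lit 4) (nat_lit 464) (nat_lit 340) (nat_lit 216)) (XT.lf (nat_lit 0) (nat_lit 73020077097) (nat_lit 76) (nat_lit 166638988644) (nat_lit 76) (nat_lit 149048989243) (nat_lit 3) (nat_lit 4) (nat_lit 4) (nat_lit 5) (nat_lit 4) (nat_lit 4) (nat_lit 465) (nat_lit 340) (nat_lit 215)))) (XT.nd (nat_lit 78) (nat_lit 0) (nat_lit 0) (XT.lf (nat_lit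 0) (nat_lit 105913617974) (nat_lit 76) (nat_lit 159543049529) (nat_lit 76) (nat_lit 141951164915) (nat_lit 3) (nat_lit 4) (nat_lit 4) (nat_lit 5) (nat_lit 4) (nat_lit 4) (nat_lit 466) (nat_lit 340) (nat_lit 214)) (XT.nd (nat_lit 78) (nat_lit 0) (nat_lit 0) (XT.lf (nat_lit 0) (nat_lit 140445757373) (nat_lit 76) (nat_lit 152095337158) (nat_lit 76) (nat_lit 134501657102) (nat_lit 3) (nat_lit 4) (nat_lit 4) (nat_lit 5) (nat_lit 4) (nat_lit 4) (nat_lit 467) (nat_lit 340) (nat_lit 213)) (XT.lf (nat_lit 0) (nat_lit 176698714673) (nat_lit 76) (nat_lit 144278118883) (nat_lit 76) (nat_lit 126682728884) (nat_lit 3) (nat_lit 4) (nat_lit 4) (nat_lit 5) (nat_lit 4) (nat_lit 4) (nat_lit 468) (nat_lit 340) (nat_lit 212))))) (XT.nd (nat_lit 234) (nat_lit 0) (nat_lit 0) (XT.nd (nat_lit 78) (nat_lit 0) (nat_lit 0) (XT.lf (nat_lit 0) (nat_lit 214758806439) (nat_lit 76) (nat_lit 136072782280) (nat_lit 76) (nat_lit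 118475763763) (nat_lit 3) (nat_lit 4) (nat_lit 4) (nat_lit 5) (nat_lit 4) (nat_lit 4) (nat_lit 469) (nat_lit 340) (nat_lit 211)) (XT.nd (nat_lit 78) (nat_lit 0) (nat_lit 0) (XT.lf (nat_lit 0) (nat_lit 254716651937) (nat_lit 76) (nat_lit 127459790833) (nat_lit 76) (nat_lit 109861221346) (nat_lit 3) (nat_lit 4) (nat_lit 4) (nat_lit 5) (nat_lit 4) (nat_lit 4) (nat_lit 470) (nat_lit 340) (nat_lit 210)) (XT.lf (nat_lit 0) (nat_lit 296667388895) (nat_lit 76) (nat_lit 118418637420) (nat_lit 76) (nat_lit 100818590818) (nat_lit 3) (nat_lit 4) (nat_lit 4) (nat_lit 5) (nat_lit 4) (nat_lit 4) (nat_lit 471) (nat_lit 340) (nat_lit 209)))) (XT.nd (nat_lit 156) (nat_lit 0) (nat_lit 0) (XT.nd (nat_lit 78) (nat_lit 0) (nat_lit 0) (XT.lf (nat_lit 0) (nat_lit 340710900019) (nat_lit 76) (nat_lit 108927795484) (nat_lit 76) (nat_lit 91326342107) (nat_lit 3) (nat_lit 4) (nat_lit 4) (nat_lit 5) (nat_lit 4) (nat_lit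 4) (nat_lit 472) (nat_lit 340) (nat_lit 208)) (XT.lf (nat_lit 0) (nat_lit 386952050813) (nat_lit 76) (nat_lit 98964667783) (nat_lit 76) (nat_lit 81361874620) (nat_lit 3) (nat_lit 4) (nat_lit 4) (nat_lit 5) (nat_lit 4) (nat_lit 4) (nat_lit 473) (nat_lit 340) (nat_lit 207))) (XT.nd (nat_lit 78) (nat_lit 0) (nat_lit 0) (XT.lf (nat_lit 0) (nat_lit 435500939254) (nat_lit 76) (nat_lit 88505532584) (nat_lit 76) (nat_lit 70901463435) (nat_lit 3) (nat_lit 4) (nat_lit 4) (nat_lit 5) (nat_lit 4) (nat_lit 4) (nat_lit 474) (nat_lit 340) (nat_lit 206)) (XT.lf (nat_lit 0) (nat_lit 486473157935) (nat_lit 76) (nat_lit 77525487185) (nat_lit 76) (nat_lit 59920202811) (nat_lit 3) (nat_lit 4) (nat_lit 4) (nat_lit 5) (nat_lit 4) (nat_lit 4) (nat_lit 475) (nat_lit 340) (nat_lit 205))))))))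
noncomputable def xc99 : XT := (XT.nd (nat_lit 44304) (nat_lit 0) (nat_lit 3040) (XT.nd (nat_lit 43290) (nat_lit 0) (nat_lit 7144) (XT.nd (nat_lit 42822) (nat_lit 0) (nat_lit 11552) (XT.nd (nat_lit 42588) (nat_lit 0) (nat_lit 12388) (XT.nd (nat_lit 78) (nat_lit 0) (nat_lit 0) (XT.lf (nat_lit 0) (nat_lit 539990069279) (nat_lit 76) (nat_lit 65998388621) (nat_lit 76) (nat_lit 48391946889) (nat_lit 3) (nat_lit 4) (nat_lit 4) (nat_lit 5) (nat_lit 4) (nat_lit 4) (nat_lit 476) (nat_lit 340) (nat_lit 204)) (XT.nd (nat_lit 78) (nat_lit 0) (nat_lit 0) (XT.lf (nat_lit 0) (nat_lit 596179094506) (nat_lit 76) (nat_lit 53896791417) (nat_lit 76) (nat_lit 36289247440) (nat_lit 3) (nat_lit 4) (nat_lit 4) (nat_lit 5) (nat_lit 4) (nat_lit 4) (nat_lit 477) (nat_lit 340) (nat_lit 203)) (XT.lf (nat_lit 0) (nat_lit 655174017008) (nat_lit 76) (nat_lit 41191882249) (nat_lit 76) (nat_lit 23583288515) (nat_lit 3) (nat_lit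 4) (nat_lit 4) (nat_lit 5) (nat_lit 4) (nat_lit 4) (nat_lit 478) (nat_lit 340) (nat_lit 202)))) (XT.nd (nat_lit 78) (nat_lit 228) (nat_lit 0) (XT.lf (nat_lit 0) (nat_lit 1517777364) (nat_lit 0) (nat_lit 1517777364) (nat_lit 76) (nat_lit 190809418) (nat_lit 169) (nat_lit 5) (nat_lit 169) (nat_lit 3) (nat_lit 170) (nat_lit 0) (nat_lit 341) (nat_lit 341) (nat_lit 338)) (XT.nd (nat_lit 78) (nat_lit 0) (nat_lit 0) (XT.lf (nat_lit 0) (nat_lit 2467916442) (nat_lit 228) (nat_lit 272478536) (nat_lit 228) (nat_lit 3727991789) (nat_lit 166) (nat_lit 3) (nat_lit 169) (nat_lit 3) (nat_lit 169) (nat_lit 5) (nat_lit 342) (nat_lit 341) (nat_lit 337)) (XT.lf (nat_lit 76) (nat_lit 3024209415) (nat_lit 0) (nat_lit 2287895407) (nat_lit 228) (nat_lit 1179393311) (nat_lit 167) (nat_lit 5) (nat_lit 166) (nat_lit 3) (nat_lit 169) (nat_lit 5) (nat_lit 343) (nat_lit 341) (nat_lit 336))))) (XT.nd (nat_lit 234) (nat_lit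 304) (nat_lit 0) (XT.nd (nat_lit 78) (nat_lit 304) (nat_lit 0) (XT.lf (nat_lit 0) (nat_lit 1552275862) (nat_lit 228) (nat_lit 148586206) (nat_lit 304) (nat_lit 4822392656) (nat_lit 163) (nat_lit 5) (nat_lit 166) (nat_lit 3) (nat_lit 167) (nat_lit 5) (nat_lit 344) (nat_lit 341) (nat_lit 335)) (XT.nd (nat_lit 78) (nat_lit 304) (nat_lit 0) (XT.lf (nat_lit 76) (nat_lit 3327666767) (nat_lit 0) (nat_lit 935568049) (nat_lit 304) (nat_lit 2298481657) (nat_lit 164) (nat_lit 5) (nat_lit 163) (nat_lit 5) (nat_lit 167) (nat_lit 5) (nat_lit 345) (nat_lit 341) (nat_lit 334)) (XT.lf (nat_lit 76) (nat_lit 282302183) (nat_lit 0) (nat_lit 50194524) (nat_lit 380) (nat_lit 6277335549) (nat_lit 160) (nat_lit 5) (nat_lit 159) (nat_lit 5) (nat_lit 164) (nat_lit 5) (nat_lit 346) (nat_lit 341) (nat_lit 333)))) (XT.nd (nat_lit 78) (nat_lit 380) (nat_lit 0) (XT.lf (nat_lit 0) (nat_lit 2928643334) (nat_lit 304) (nat_lit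 2730354699) (nat_lit 76) (nat_lit 1004102366) (nat_lit 160) (nat_lit 5) (nat_lit 164) (nat_lit 5) (nat_lit 161) (nat_lit 5) (nat_lit 347) (nat_lit 341) (nat_lit 332)) (XT.nd (nat_lit 78) (nat_lit 76) (nat_lit 0) (XT.lf (nat_lit 0) (nat_lit 974984647) (nat_lit 304) (nat_lit 4544671736) (nat_lit 380) (nat_lit 1206288081) (nat_lit 156) (nat_lit 5) (nat_lit 160) (nat_lit 5) (nat_lit 161) (nat_lit 5) (nat_lit 348) (nat_lit 341) (nat_lit 331)) (XT.lf (nat_lit 0) (nat_lit 1301033179) (nat_lit 380) (nat_lit 1958077354) (nat_lit 76) (nat_lit 3536884784) (nat_lit 155) (nat_lit 5) (nat_lit 160) (nat_lit 5) (nat_lit 156) (nat_lit 5) (nat_lit 349) (nat_lit 341) (nat_lit 330)))))) (XT.nd (nat_lit 468) (nat_lit 2280) (nat_lit 0) (XT.nd (nat_lit 234) (nat_lit 1216) (nat_lit 0) (XT.nd (nat_lit 78) (nat_lit 532) (nat_lit 0) (XT.lf (nat_lit 0) (nat_lit 1967187305) (nat_lit 380) (nat_lit 1815850382) (nat_lit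 456) (nat_lit 3091172385) (nat_lit 150) (nat_lit 5) (nat_lit 155) (nat_lit 5) (nat_lit 156) (nat_lit 5) (nat_lit 350) (nat_lit 341) (nat_lit 329)) (XT.nd (nat_lit 78) (nat_lit 532) (nat_lit 0) (XT.lf (nat_lit 0) (nat_lit 6057866375) (nat_lit 380) (nat_lit 228744578) (nat_lit 456) (nat_lit 674987315) (nat_lit 150) (nat_lit 5) (nat_lit 155) (nat_lit 5) (nat_lit 156) (nat_lit 5) (nat_lit 351) (nat_lit 341) (nat_lit 328)) (XT.lf (nat_lit 0) (nat_lit 1746373908) (nat_lit 532) (nat_lit 3803375258) (nat_lit 76) (nat_lit 1505078489) (nat_lit 143) (nat_lit 5) (nat_lit 150) (nat_lit 5) (nat_lit 144) (nat_lit 5) (nat_lit 352) (nat_lit 341) (nat_lit 327)))) (XT.nd (nat_lit 78) (nat_lit 684) (nat_lit 0) (XT.lf (nat_lit 0) (nat_lit 387224337) (nat_lit 532) (nat_lit 3777981838) (nat_lit 608) (nat_lit 2992122315) (nat_lit 136) (nat_lit 5) (nat_lit 143) (nat_lit 5) (nat_lit 144) (nat_lit 5) (nat_lit 353)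 (nat_lit 341) (nat_lit 326)) (XT.nd (nat_lit 78) (nat_lit 684) (nat_lit 0) (XT.lf (nat_lit 0) (nat_lit 4817153405) (nat_lit 532) (nat_lit 1830390294) (nat_lit 608) (nat_lit 620394482) (nat_lit 136) (nat_lit 5) (nat_lit 143) (nat_lit 5) (nat_lit 144) (nat_lit 5) (nat_lit 354) (nat_lit 341) (nat_lit 325)) (XT.lf (nat_lit 0) (nat_lit 1728139568) (nat_lit 684) (nat_lit 5373122508) (nat_lit 76) (nat_lit 285554681) (nat_lit 127) (nat_lit 5) (nat_lit 136) (nat_lit 5) (nat_lit 128) (nat_lit 5) (nat_lit 355) (nat_lit 341) (nat_lit 324))))) (XT.nd (nat_lit 234) (nat_lit 760) (nat_lit 0) (XT.nd (nat_lit 78) (nat_lit 1520) (nat_lit 0) (XT.lf (nat_lit 0) (nat_lit 4131677883) (nat_lit 684) (nat_lit 869702764) (nat_lit 76) (nat_lit 2511925498) (nat_lit 127) (nat_lit 5) (nat_lit 136) (nat_lit 5) (nat_lit 128) (nat_lit 5) (nat_lit 356) (nat_lit 341) (nat_lit 323)) (XT.nd (nat_lit 78) (nat_lit 836) (nat_lit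 0) (XT.lf (nat_lit 0) (nat_lit 3882421619) (nat_lit 684) (nat_lit 2725239210) (nat_lit 760) (nat_lit 1040937927) (nat_lit 118) (nat_lit 5) (nat_lit 127) (nat_lit 5) (nat_lit 128) (nat_lit 5) (nat_lit 357) (nat_lit 341) (nat_lit 322)) (XT.lf (nat_lit 0) (nat_lit 1020002124) (nat_lit 760) (nat_lit 275796604) (nat_lit 836) (nat_lit 6497616950) (nat_lit 107) (nat_lit 5) (nat_lit 117) (nat_lit 5) (nat_lit 118) (nat_lit 5) (nat_lit 358) (nat_lit 341) (nat_lit 321)))) (XT.nd (nat_lit 156) (nat_lit 380) (nat_lit 0) (XT.nd (nat_lit 78) (nat_lit 380) (nat_lit 0) (XT.lf (nat_lit 0) (nat_lit 3712055353) (nat_lit 836) (nat_lit 1926315599) (nat_lit 76) (nat_lit 2306445584) (nat_lit 107) (nat_lit 5) (nat_lit 118) (nat_lit 5) (nat_lit 108) (nat_lit 5) (nat_lit 359) (nat_lit 341) (nat_lit 320)) (XT.lf (nat_lit 0) (nat_lit 3158453108) (nat_lit 380) (nat_lit 3046399546) (nat_lit 456) (nat_lit 1901224195) (nat_lit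 102) (nat_lit 5) (nat_lit 107) (nat_lit 5) (nat_lit 108) (nat_lit 5) (nat_lit 360) (nat_lit 341) (nat_lit 319))) (XT.nd (nat_lit 78) (nat_lit 0) (nat_lit 0) (XT.lf (nat_lit 0) (nat_lit 184517657) (nat_lit 304) (nat_lit 284290381) (nat_lit 380) (nat_lit 7809262858) (nat_lit 97) (nat_lit 5) (nat_lit 101) (nat_lit 5) (nat_lit 102) (nat_lit 5) (nat_lit 361) (nat_lit 341) (nat_lit 318)) (XT.lf (nat_lit 0) (nat_lit 2925739064) (nat_lit 380) (nat_lit 2888671918) (nat_lit 76) (nat_lit 2641146225) (nat_lit 97) (nat_lit 5) (nat_lit 102) (nat_lit 5) (nat_lit 98) (nat_lit 5) (nat_lit 362) (nat_lit 341) (nat_lit 317))))))) (XT.nd (nat_lit 1014) (nat_lit 1672) (nat_lit 0) (XT.nd (nat_lit 468) (nat_lit 1064) (nat_lit 0) (XT.nd (nat_lit 234) (nat_lit 608) (nat_lit 0) (XT.nd (nat_lit 78) (nat_lit 380) (nat_lit 0) (XT.lf (nat_lit 0) (nat_lit 2552685207) (nat_lit 380) (nat_lit 2908093981) (nat_lit 456) (nat_lit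 3183437881) (nat_lit 92) (nat_lit 5) (nat_lit 97) (nat_lit 5) (nat_lit 98) (nat_lit 5) (nat_lit 363) (nat_lit 341) (nat_lit 316)) (XT.nd (nat_lit 78) (nat_lit 380) (nat_lit 0) (XT.lf (nat_lit 0) (nat_lit 8087787237) (nat_lit 456) (nat_lit 579881923) (nat_lit 76) (nat_lit 176439363) (nat_lit 92) (nat_lit 5) (nat_lit 98) (nat_lit 5) (nat_lit 93) (nat_lit 5) (nat_lit 364) (nat_lit 341) (nat_lit 315)) (XT.lf (nat_lit 0) (nat_lit 1782190795) (nat_lit 380) (nat_lit 3851888681) (nat_lit 76) (nat_lit 3416199935) (nat_lit 87) (nat_lit 5) (nat_lit 92) (nat_lit 5) (nat_lit 88) (nat_lit 5) (nat_lit 365) (nat_lit 341) (nat_lit 314)))) (XT.nd (nat_lit 78) (nat_lit 304) (nat_lit 0) (XT.lf (nat_lit 0) (nat_lit 1970333628) (nat_lit 304) (nat_lit 2411059229) (nat_lit 380) (nat_lit 4886838272) (nat_lit 83) (nat_lit 5) (nat_lit 87) (nat_lit 5) (nat_lit 88) (nat_lit 5) (nat_lit 366) (nat_lit 341) (nat_lit 313))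 (XT.nd (nat_lit 78) (nat_lit 304) (nat_lit 0) (XT.lf (nat_lit 0) (nat_lit 7112549094) (nat_lit 380) (nat_lit 1394405476) (nat_lit 76) (nat_lit 990075023) (nat_lit 83) (nat_lit 5) (nat_lit 88) (nat_lit 5) (nat_lit 84) (nat_lit 5) (nat_lit 367) (nat_lit 341) (nat_lit 312)) (XT.lf (nat_lit 0) (nat_lit 274911176) (nat_lit 304) (nat_lit 4917594021) (nat_lit 76) (nat_lit 4542632742) (nat_lit 79) (nat_lit 5) (nat_lit 83) (nat_lit 5) (nat_lit 80) (nat_lit 5) (nat_lit 368) (nat_lit 341) (nat_lit 311))))) (XT.nd (nat_lit 234) (nat_lit 532) (nat_lit 0) (XT.nd (nat_lit 78) (nat_lit 228) (nat_lit 0) (XT.lf (nat_lit 0) (nat_lit 1309122634) (nat_lit 304) (nat_lit 1647608600) (nat_lit 380) (nat_lit 7028028537) (nat_lit 75) (nat_lit 5) (nat_lit 79) (nat_lit 5) (nat_lit 80) (nat_lit 5) (nat_lit 369) (nat_lit 341) (nat_lit 310)) (XT.nd (nat_lit 78) (nat_lit 228) (nat_lit 0) (XT.lf (nat_lit 0) (nat_lit 5816525566)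 (nat_lit 380) (nat_lit 2358116440) (nat_lit 76) (nat_lit 2070066725) (nat_lit 75) (nat_lit 5) (nat_lit 80) (nat_lit 5) (nat_lit 76) (nat_lit 5) (nat_lit 370) (nat_lit 341) (nat_lit 309)) (XT.lf (nat_lit 0) (nat_lit 4290777050) (nat_lit 228) (nat_lit 4552863966) (nat_lit 304) (nat_lit 1672835840) (nat_lit 72) (nat_lit 5) (nat_lit 75) (nat_lit 5) (nat_lit 76) (nat_lit 5) (nat_lit 371) (nat_lit 341) (nat_lit 308)))) (XT.nd (nat_lit 156) (nat_lit 228) (nat_lit 0) (XT.nd (nat_lit 78) (nat_lit 0) (nat_lit 0) (XT.lf (nat_lit 0) (nat_lit 453339950) (nat_lit 228) (nat_lit 706595248) (nat_lit 304) (nat_lit 9642044671) (nat_lit 68) (nat_lit 5) (nat_lit 71) (nat_lit 5) (nat_lit 72) (nat_lit 5) (nat_lit 372) (nat_lit 341) (nat_lit 307)) (XT.lf (nat_lit 0) (nat_lit 4169750848) (nat_lit 304) (nat_lit 3592223764) (nat_lit 76) (nat_lit 3333864101) (nat_lit 68) (nat_lit 5) (nat_lit 72) (nat_lit 5) (nat_lit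 69) (nat_lit 5) (nat_lit 373) (nat_lit 341) (nat_lit 306))) (XT.nd (nat_lit 78) (nat_lit 0) (nat_lit 0) (XT.lf (nat_lit 0) (nat_lit 3510366373) (nat_lit 228) (nat_lit 3821737255) (nat_lit 304) (nat_lit 4072216052) (nat_lit 65) (nat_lit 5) (nat_lit 68) (nat_lit 5) (nat_lit 69) (nat_lit 5) (nat_lit 374) (nat_lit 341) (nat_lit 305)) (XT.lf (nat_lit 0) (nat_lit 10656193275) (nat_lit 304) (nat_lit 731956932) (nat_lit 76) (nat_lit 339923525) (nat_lit 65) (nat_lit 5) (nat_lit 69) (nat_lit 5) (nat_lit 66) (nat_lit 5) (nat_lit 375) (nat_lit 341) (nat_lit 304)))))) (XT.nd (nat_lit 468) (nat_lit 760) (nat_lit 0) (XT.nd (nat_lit 234) (nat_lit 456) (nat_lit 0) (XT.nd (nat_lit 78) (nat_lit 152) (nat_lit 0) (XT.lf (nat_lit 0) (nat_lit 2123271152) (nat_lit 304) (nat_lit 5241089906) (nat_lit 76) (nat_lit 4696492933) (nat_lit 61) (nat_lit 5) (nat_lit 65) (nat_lit 5) (nat_lit 62) (nat_lit 5) (nat_lit 376)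 (nat_lit 341) (nat_lit 303)) (XT.nd (nat_lit 78) (nat_lit 0) (nat_lit 0) (XT.lf (nat_lit 0) (nat_lit 2331941272) (nat_lit 152) (nat_lit 3099596558) (nat_lit 228) (nat_lit 6978413771) (nat_lit 59) (nat_lit 5) (nat_lit 61) (nat_lit 5) (nat_lit 62) (nat_lit 5) (nat_lit 377) (nat_lit 341) (nat_lit 302)) (XT.lf (nat_lit 0) (nat_lit 8958316675) (nat_lit 228) (nat_lit 2420224045) (nat_lit 76) (nat_lit 1395333108) (nat_lit 59) (nat_lit 5) (nat_lit 62) (nat_lit 5) (nat_lit 60) (nat_lit 5) (nat_lit 378) (nat_lit 341) (nat_lit 301)))) (XT.nd (nat_lit 78) (nat_lit 228) (nat_lit 0) (XT.lf (nat_lit 0) (nat_lit 5664494928) (nat_lit 228) (nat_lit 7080346061) (nat_lit 304) (nat_lit 407004356) (nat_lit 56) (nat_lit 5) (nat_lit 59) (nat_lit 5) (nat_lit 60) (nat_lit 5) (nat_lit 379) (nat_lit 341) (nat_lit 300)) (XT.nd (nat_lit 78) (nat_lit 0) (nat_lit 0) (XT.lf (nat_lit 0) (nat_lit 572018719) (nat_lit 152)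 (nat_lit 2493595665) (nat_lit 228) (nat_lit 10480888134) (nat_lit 53) (nat_lit 5) (nat_lit 55) (nat_lit 5) (nat_lit 56) (nat_lit 5) (nat_lit 380) (nat_lit 341) (nat_lit 299)) (XT.lf (nat_lit 0) (nat_lit 6808712917) (nat_lit 228) (nat_lit 4793001371) (nat_lit 76) (nat_lit 2353338611) (nat_lit 53) (nat_lit 5) (nat_lit 56) (nat_lit 5) (nat_lit 54) (nat_lit 5) (nat_lit 381) (nat_lit 341) (nat_lit 298))))) (XT.nd (nat_lit 234) (nat_lit 380) (nat_lit 0) (XT.nd (nat_lit 78) (nat_lit 228) (nat_lit 0) (XT.lf (nat_lit 0) (nat_lit 3794566782) (nat_lit 152) (nat_lit 6992508352) (nat_lit 228) (nat_lit 3594569564) (nat_lit 51) (nat_lit 5) (nat_lit 53) (nat_lit 5) (nat_lit 54) (nat_lit 5) (nat_lit 382) (nat_lit 341) (nat_lit 297)) (XT.nd (nat_lit 78) (nat_lit 152) (nat_lit 0) (XT.lf (nat_lit 0) (nat_lit 161306409) (nat_lit 228) (nat_lit 1934965000) (nat_lit 76) (nat_lit 12731665438) (nat_lit 50) (nat_lit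 5) (nat_lit 53) (nat_lit 5) (nat_lit 51) (nat_lit 5) (nat_lit 383) (nat_lit 341) (nat_lit 296)) (XT.lf (nat_lit 0) (nat_lit 4097920564) (nat_lit 228) (nat_lit 8097601180) (nat_lit 76) (nat_lit 3092404922) (nat_lit 48) (nat_lit 5) (nat_lit 51) (nat_lit 5) (nat_lit 49) (nat_lit 5) (nat_lit 384) (nat_lit 341) (nat_lit 295)))) (XT.nd (nat_lit 156) (nat_lit 228) (nat_lit 0) (XT.nd (nat_lit 78) (nat_lit 0) (nat_lit 0) (XT.lf (nat_lit 0) (nat_lit 985836112) (nat_lit 152) (nat_lit 7280020389) (nat_lit 228) (nat_lit 7503350829) (nat_lit 46) (nat_lit 5) (nat_lit 48) (nat_lit 5) (nat_lit 49) (nat_lit 5) (nat_lit 385) (nat_lit 341) (nat_lit 294)) (XT.lf (nat_lit 0) (nat_lit 10725280512) (nat_lit 152) (nat_lit 2006548001) (nat_lit 228) (nat_lit 3538256700) (nat_lit 46) (nat_lit 5) (nat_lit 48) (nat_lit 5) (nat_lit 49) (nat_lit 5) (nat_lit 386) (nat_lit 341) (nat_lit 293))) (XT.nd (nat_lit 78) (nat_lit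 0) (nat_lit 0) (XT.lf (nat_lit 0) (nat_lit 680594470) (nat_lit 228) (nat_lit 12647011869) (nat_lit 76) (nat_lit 3464150963) (nat_lit 43) (nat_lit 5) (nat_lit 46) (nat_lit 5) (nat_lit 44) (nat_lit 5) (nat_lit 387) (nat_lit 341) (nat_lit 292)) (XT.lf (nat_lit 0) (nat_lit 5074351055) (nat_lit 228) (nat_lit 2993571364) (nat_lit 76) (nat_lit 9264559881) (nat_lit 43) (nat_lit 5) (nat_lit 46) (nat_lit 5) (nat_lit 44) (nat_lit 5) (nat_lit 388) (nat_lit 341) (nat_lit 291))))))))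
noncomputable def xc100 : XT := (XT.nd (nat_lit 1950) (nat_lit 836) (nat_lit 0) (XT.nd (nat_lit 936) (nat_lit 684) (nat_lit 0) (XT.nd (nat_lit 468) (nat_lit 532) (nat_lit 0) (XT.nd (nat_lit 234) (nat_lit 228) (nat_lit 0) (XT.nd (nat_lit 78) (nat_lit 152) (nat_lit 0) (XT.lf (nat_lit 0) (nat_lit 7302365423) (nat_lit 152) (nat_lit 2456139382) (nat_lit 228) (nat_lit 8138215738) (nat_lit 41) (nat_lit 5) (nat_lit 43) (nat_lit 5) (nat_lit 44) (nat_lit 5) (nat_lit 389) (nat_lit 341) (nat_lit 290)) (XT.nd (nat_lit 78) (nat_lit 152) (nat_lit 0) (XT.lf (nat_lit 0) (nat_lit 14739196376) (nat_lit 228) (nat_lit 398449250) (nat_lit 76) (nat_lit 3348420439) (nat_lit 41) (nat_lit 5) (nat_lit 44) (nat_lit 5) (nat_lit 42) (nat_lit 4) (nat_lit 390) (nat_lit 341) (nat_lit 289)) (XT.lf (nat_lit 0) (nat_lit 1002976461) (nat_lit 152) (nat_lit 8579574130) (nat_lit 76) (nat_lit 9513335153) (nat_lit 39) (nat_lit 5)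 (nat_lit 41) (nat_lit 5) (nat_lit 40) (nat_lit 5) (nat_lit 391) (nat_lit 341) (nat_lit 288)))) (XT.nd (nat_lit 78) (nat_lit 76) (nat_lit 0) (XT.lf (nat_lit 0) (nat_lit 2192388062) (nat_lit 152) (nat_lit 3672477884) (nat_lit 228) (nat_lit 13868245989) (nat_lit 37) (nat_lit 5) (nat_lit 39) (nat_lit 5) (nat_lit 40) (nat_lit 5) (nat_lit 392) (nat_lit 341) (nat_lit 287)) (XT.nd (nat_lit 78) (nat_lit 76) (nat_lit 0) (XT.lf (nat_lit 0) (nat_lit 11116835318) (nat_lit 228) (nat_lit 6707468169) (nat_lit 76) (nat_lit 2570556445) (nat_lit 37) (nat_lit 5) (nat_lit 40) (nat_lit 5) (nat_lit 38) (nat_lit 4) (nat_lit 393) (nat_lit 341) (nat_lit 286)) (XT.lf (nat_lit 0) (nat_lit 4689319189) (nat_lit 76) (nat_lit 12037173798) (nat_lit 152) (nat_lit 4358457151) (nat_lit 36) (nat_lit 5) (nat_lit 37) (nat_lit 5) (nat_lit 38) (nat_lit 4) (nat_lit 394) (nat_lit 341) (nat_lit 285))))) (XT.nd (nat_lit 234) (nat_lit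 304) (nat_lit 0) (XT.nd (nat_lit 78) (nat_lit 152) (nat_lit 0) (XT.lf (nat_lit 0) (nat_lit 858541359) (nat_lit 152) (nat_lit 4997701841) (nat_lit 76) (nat_lit 15948815818) (nat_lit 35) (nat_lit 5) (nat_lit 37) (nat_lit 5) (nat_lit 36) (nat_lit 5) (nat_lit 395) (nat_lit 341) (nat_lit 284)) (XT.nd (nat_lit 78) (nat_lit 0) (nat_lit 0) (XT.lf (nat_lit 0) (nat_lit 6276210668) (nat_lit 228) (nat_lit 15506654711) (nat_lit 76) (nat_lit 770428811) (nat_lit 33) (nat_lit 5) (nat_lit 36) (nat_lit 5) (nat_lit 34) (nat_lit 4) (nat_lit 396) (nat_lit 341) (nat_lit 283)) (XT.lf (nat_lit 0) (nat_lit 12110731471) (nat_lit 228) (nat_lit 3630634359) (nat_lit 76) (nat_lit 7590284543) (nat_lit 33) (nat_lit 5) (nat_lit 36) (nat_lit 5) (nat_lit 34) (nat_lit 4) (nat_lit 397) (nat_lit 341) (nat_lit 282)))) (XT.nd (nat_lit 78) (nat_lit 228) (nat_lit 0) (XT.lf (nat_lit 0) (nat_lit 9067262266) (nat_lit 76) (nat_lit 9276936684)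 (nat_lit 152) (nat_lit 5799371670) (nat_lit 32) (nat_lit 5) (nat_lit 33) (nat_lit 5) (nat_lit 34) (nat_lit 4) (nat_lit 398) (nat_lit 341) (nat_lit 281)) (XT.nd (nat_lit 78) (nat_lit 228) (nat_lit 0) (XT.lf (nat_lit 0) (nat_lit 22464969545) (nat_lit 76) (nat_lit 2452193098) (nat_lit 152) (nat_lit 77540034) (nat_lit 32) (nat_lit 5) (nat_lit 33) (nat_lit 5) (nat_lit 34) (nat_lit 4) (nat_lit 399) (nat_lit 341) (nat_lit 280)) (XT.lf (nat_lit 0) (nat_lit 5954682013) (nat_lit 228) (nat_lit 15115208324) (nat_lit 76) (nat_lit 4803172397) (nat_lit 29) (nat_lit 5) (nat_lit 32) (nat_lit 5) (nat_lit 30) (nat_lit 4) (nat_lit 400) (nat_lit 341) (nat_lit 279)))))) (XT.nd (nat_lit 468) (nat_lit 380) (nat_lit 0) (XT.nd (nat_lit 234) (nat_lit 228) (nat_lit 0) (XT.nd (nat_lit 78) (nat_lit 76) (nat_lit 0) (XT.lf (nat_lit 0) (nat_lit 12337290057) (nat_lit 228) (nat_lit 2097263554) (nat_lit 76) (nat_lit 12358160580)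 (nat_lit 29) (nat_lit 5) (nat_lit 32) (nat_lit 5) (nat_lit 30) (nat_lit 4) (nat_lit 401) (nat_lit 341) (nat_lit 278)) (XT.nd (nat_lit 78) (nat_lit 0) (nat_lit 0) (XT.lf (nat_lit 0) (nat_lit 11895607947) (nat_lit 76) (nat_lit 7298321737) (nat_lit 152) (nat_lit 8556679190) (nat_lit 28) (nat_lit 5) (nat_lit 29) (nat_lit 5) (nat_lit 30) (nat_lit 4) (nat_lit 402) (nat_lit 341) (nat_lit 277)) (XT.lf (nat_lit 0) (nat_lit 26401916876) (nat_lit 152) (nat_lit 2154216795) (nat_lit 0) (nat_lit 199844280) (nat_lit 28) (nat_lit 5) (nat_lit 30) (nat_lit 4) (nat_lit 28) (nat_lit 4) (nat_lit 403) (nat_lit 341) (nat_lit 276)))) (XT.nd (nat_lit 78) (nat_lit 76) (nat_lit 0) (XT.lf (nat_lit 0) (nat_lit 4315208404) (nat_lit 152) (nat_lit 17410524226) (nat_lit 76) (nat_lit 8068160122) (nat_lit 26) (nat_lit 5) (nat_lit 28) (nat_lit 5) (nat_lit 27) (nat_lit 4) (nat_lit 404) (nat_lit 341) (nat_lit 275)) (XT.nd (nat_lit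 78) (nat_lit 76) (nat_lit 0) (XT.lf (nat_lit 0) (nat_lit 11246826144) (nat_lit 152) (nat_lit 3252735346) (nat_lit 76) (nat_lit 16381817111) (nat_lit 26) (nat_lit 5) (nat_lit 28) (nat_lit 5) (nat_lit 27) (nat_lit 4) (nat_lit 405) (nat_lit 341) (nat_lit 274)) (XT.lf (nat_lit 0) (nat_lit 11943505355) (nat_lit 76) (nat_lit 6740291856) (nat_lit 152) (nat_lit 13331507382) (nat_lit 25) (nat_lit 5) (nat_lit 26) (nat_lit 5) (nat_lit 27) (nat_lit 4) (nat_lit 406) (nat_lit 341) (nat_lit 273))))) (XT.nd (nat_lit 234) (nat_lit 228) (nat_lit 0) (XT.nd (nat_lit 78) (nat_lit 152) (nat_lit 0) (XT.lf (nat_lit 0) (nat_lit 26543028500) (nat_lit 152) (nat_lit 5265419650) (nat_lit 0) (nat_lit 1394962412) (nat_lit 25) (nat_lit 5) (nat_lit 27) (nat_lit 4) (nat_lit 25) (nat_lit 4) (nat_lit 407) (nat_lit 341) (nat_lit 272)) (XT.nd (nat_lit 78) (nat_lit 0) (nat_lit 0) (XT.lf (nat_lit 0) (nat_lit 584845524) (nat_lit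 152) (nat_lit 23991935904) (nat_lit 76) (nat_lit 9861297206) (nat_lit 23) (nat_lit 5) (nat_lit 25) (nat_lit 5) (nat_lit 24) (nat_lit 4) (nat_lit 408) (nat_lit 341) (nat_lit 271)) (XT.lf (nat_lit 0) (nat_lit 8032968246) (nat_lit 152) (nat_lit 8764049221) (nat_lit 76) (nat_lit 18928783681) (nat_lit 23) (nat_lit 5) (nat_lit 25) (nat_lit 5) (nat_lit 24) (nat_lit 4) (nat_lit 409) (nat_lit 341) (nat_lit 270)))) (XT.nd (nat_lit 156) (nat_lit 152) (nat_lit 0) (XT.nd (nat_lit 78) (nat_lit 0) (nat_lit 0) (XT.lf (nat_lit 0) (nat_lit 7415462417) (nat_lit 76) (nat_lit 8528888926) (nat_lit 152) (nat_lit 21129019238) (nat_lit 22) (nat_lit 5) (nat_lit 23) (nat_lit 5) (nat_lit 24) (nat_lit 4) (nat_lit 410) (nat_lit 341) (nat_lit 269)) (XT.lf (nat_lit 0) (nat_lit 24379742805) (nat_lit 152) (nat_lit 13824731208) (nat_lit 0) (nat_lit 277425851) (nat_lit 22) (nat_lit 5) (nat_lit 24) (nat_lit 4) (nat_lit 22)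 (nat_lit 4) (nat_lit 411) (nat_lit 341) (nat_lit 268))) (XT.nd (nat_lit 78) (nat_lit 76) (nat_lit 0) (XT.lf (nat_lit 0) (nat_lit 2701774569) (nat_lit 76) (nat_lit 30693509766) (nat_lit 76) (nat_lit 6557655431) (nat_lit 21) (nat_lit 4) (nat_lit 22) (nat_lit 5) (nat_lit 22) (nat_lit 4) (nat_lit 412) (nat_lit 341) (nat_lit 267)) (XT.lf (nat_lit 0) (nat_lit 1534810225) (nat_lit 152) (nat_lit 21021433736) (nat_lit 76) (nat_lit 18929505850) (nat_lit 20) (nat_lit 5) (nat_lit 22) (nat_lit 5) (nat_lit 21) (nat_lit 4) (nat_lit 413) (nat_lit 341) (nat_lit 266))))))) (XT.nd (nat_lit 1014) (nat_lit 304) (nat_lit 0) (XT.nd (nat_lit 468) (nat_lit 304) (nat_lit 0) (XT.nd (nat_lit 234) (nat_lit 152) (nat_lit 0) (XT.nd (nat_lit 78) (nat_lit 76) (nat_lit 0) (XT.lf (nat_lit 0) (nat_lit 9789072334) (nat_lit 152) (nat_lit 4130615807) (nat_lit 76) (nat_lit 29171262167) (nat_lit 20) (nat_lit 5) (nat_lit 22) (nat_lit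 5) (nat_lit 21) (nat_lit 4) (nat_lit 414) (nat_lit 341) (nat_lit 265)) (XT.nd (nat_lit 78) (nat_lit 0) (nat_lit 0) (XT.lf (nat_lit 0) (nat_lit 14012371600) (nat_lit 76) (nat_lit 4641070616) (nat_lit 152) (nat_lit 26113101496) (nat_lit 19) (nat_lit 5) (nat_lit 20) (nat_lit 5) (nat_lit 21) (nat_lit 4) (nat_lit 415) (nat_lit 341) (nat_lit 264)) (XT.lf (nat_lit 0) (nat_lit 28090492517) (nat_lit 152) (nat_lit 13438248034) (nat_lit 0) (nat_lit 4990705631) (nat_lit 19) (nat_lit 5) (nat_lit 21) (nat_lit 4) (nat_lit 19) (nat_lit 4) (nat_lit 416) (nat_lit 341) (nat_lit 263)))) (XT.nd (nat_lit 78) (nat_lit 76) (nat_lit 0) (XT.lf (nat_lit 0) (nat_lit 4781426710) (nat_lit 76) (nat_lit 33348429691) (nat_lit 76) (nat_lit 10223616694) (nat_lit 18) (nat_lit 4) (nat_lit 19) (nat_lit 5) (nat_lit 19) (nat_lit 4) (nat_lit 417) (nat_lit 341) (nat_lit 262)) (XT.nd (nat_lit 78) (nat_lit 76) (nat_lit 0) (XT.lf (nat_lit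 0) (nat_lit 24340261888) (nat_lit 76) (nat_lit 24538602654) (nat_lit 76) (nat_lit 1389955267) (nat_lit 18) (nat_lit 4) (nat_lit 19) (nat_lit 5) (nat_lit 19) (nat_lit 4) (nat_lit 418) (nat_lit 341) (nat_lit 261)) (XT.lf (nat_lit 0) (nat_lit 7613735432) (nat_lit 152) (nat_lit 7563189170) (nat_lit 76) (nat_lit 37097819260) (nat_lit 17) (nat_lit 5) (nat_lit 19) (nat_lit 5) (nat_lit 18) (nat_lit 4) (nat_lit 419) (nat_lit 341) (nat_lit 260))))) (XT.nd (nat_lit 234) (nat_lit 228) (nat_lit 0) (XT.nd (nat_lit 78) (nat_lit 0) (nat_lit 0) (XT.lf (nat_lit 0) (nat_lit 12047857980) (nat_lit 76) (nat_lit 5142787523) (nat_lit 152) (nat_lit 37180693938) (nat_lit 16) (nat_lit 5) (nat_lit 17) (nat_lit 5) (nat_lit 18) (nat_lit 4) (nat_lit 420) (nat_lit 341) (nat_lit 259)) (XT.nd (nat_lit 78) (nat_lit 0) (nat_lit 0) (XT.lf (nat_lit 0) (nat_lit 27442501012) (nat_lit 152) (nat_lit 23786106632) (nat_lit 0) (nat_lit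 5334354016) (nat_lit 16) (nat_lit 5) (nat_lit 18) (nat_lit 4) (nat_lit 16) (nat_lit 4) (nat_lit 421) (nat_lit 341) (nat_lit 258)) (XT.lf (nat_lit 0) (nat_lit 38273841256) (nat_lit 152) (nat_lit 4439961517) (nat_lit 0) (nat_lit 16147019391) (nat_lit 16) (nat_lit 5) (nat_lit 18) (nat_lit 4) (nat_lit 16) (nat_lit 4) (nat_lit 422) (nat_lit 341) (nat_lit 257)))) (XT.nd (nat_lit 156) (nat_lit 152) (nat_lit 0) (XT.nd (nat_lit 78) (nat_lit 0) (nat_lit 0) (XT.lf (nat_lit 0) (nat_lit 16365094692) (nat_lit 76) (nat_lit 33520572113) (nat_lit 76) (nat_lit 11375964659) (nat_lit 15) (nat_lit 4) (nat_lit 16) (nat_lit 5) (nat_lit 16) (nat_lit 4) (nat_lit 423) (nat_lit 341) (nat_lit 256)) (XT.lf (nat_lit 0) (nat_lit 38332886812) (nat_lit 76) (nat_lit 23804098524) (nat_lit 76) (nat_lit 1642552413) (nat_lit 15) (nat_lit 4) (nat_lit 16) (nat_lit 5) (nat_lit 16) (nat_lit 4) (nat_lit 424) (nat_lit 341) (nat_lit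 255))) (XT.nd (nat_lit 78) (nat_lit 76) (nat_lit 0) (XT.lf (nat_lit 0) (nat_lit 8287224648) (nat_lit 152) (nat_lit 5188867634) (nat_lit 76) (nat_lit 52941341122) (nat_lit 14) (nat_lit 5) (nat_lit 16) (nat_lit 5) (nat_lit 15) (nat_lit 4) (nat_lit 425) (nat_lit 341) (nat_lit 254)) (XT.lf (nat_lit 0) (nat_lit 16555541775) (nat_lit 76) (nat_lit 2346206420) (nat_lit 152) (nat_lit 50271957772) (nat_lit 13) (nat_lit 5) (nat_lit 14) (nat_lit 5) (nat_lit 15) (nat_lit 4) (nat_lit 426) (nat_lit 341) (nat_lit 253)))))) (XT.nd (nat_lit 468) (nat_lit 152) (nat_lit 0) (XT.nd (nat_lit 234) (nat_lit 76) (nat_lit 0) (XT.nd (nat_lit 78) (nat_lit 76) (nat_lit 0) (XT.lf (nat_lit 0) (nat_lit 30267168543) (nat_lit 152) (nat_lit 32672613836) (nat_lit 0) (nat_lit 9117002568) (nat_lit 13) (nat_lit 5) (nat_lit 15) (nat_lit 4) (nat_lit 13) (nat_lit 4) (nat_lit 427) (nat_lit 341) (nat_lit 252)) (XT.nd (nat_lit 78) (nat_lit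 76) (nat_lit 0) (XT.lf (nat_lit 0) (nat_lit 42225063034) (nat_lit 152) (nat_lit 11796120766) (nat_lit 0) (nat_lit 21061625178) (nat_lit 13) (nat_lit 5) (nat_lit 15) (nat_lit 4) (nat_lit 13) (nat_lit 4) (nat_lit 428) (nat_lit 341) (nat_lit 251)) (XT.lf (nat_lit 0) (nat_lit 10431525783) (nat_lit 76) (nat_lit 44498611558) (nat_lit 76) (nat_lit 23322533815) (nat_lit 12) (nat_lit 4) (nat_lit 13) (nat_lit 5) (nat_lit 13) (nat_lit 4) (nat_lit 429) (nat_lit 341) (nat_lit 250)))) (XT.nd (nat_lit 78) (nat_lit 76) (nat_lit 0) (XT.lf (nat_lit 0) (nat_lit 34153972338) (nat_lit 76) (nat_lit 34302924695) (nat_lit 76) (nat_lit 13114808966) (nat_lit 12) (nat_lit 4) (nat_lit 13) (nat_lit 5) (nat_lit 13) (nat_lit 4) (nat_lit 430) (nat_lit 341) (nat_lit 249)) (XT.nd (nat_lit 78) (nat_lit 76) (nat_lit 0) (XT.lf (nat_lit 0) (nat_lit 59037667890) (nat_lit 76) (nat_lit 23609620781) (nat_lit 76) (nat_lit 2410040302)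 (nat_lit 12) (nat_lit 4) (nat_lit 13) (nat_lit 5) (nat_lit 13) (nat_lit 4) (nat_lit 431) (nat_lit 341) (nat_lit 248)) (XT.lf (nat_lit 0) (nat_lit 8535052342) (nat_lit 152) (nat_lit 3713641985) (nat_lit 76) (nat_lit 76462261748) (nat_lit 11) (nat_lit 5) (nat_lit 13) (nat_lit 5) (nat_lit 12) (nat_lit 4) (nat_lit 432) (nat_lit 341) (nat_lit 247))))) (XT.nd (nat_lit 234) (nat_lit 76) (nat_lit 0) (XT.nd (nat_lit 78) (nat_lit 0) (nat_lit 0) (XT.lf (nat_lit 0) (nat_lit 20252225149) (nat_lit 152) (nat_lit 72235927990) (nat_lit 0) (nat_lit 41845954) (nat_lit 10) (nat_lit 5) (nat_lit 12) (nat_lit 4) (nat_lit 10) (nat_lit 4) (nat_lit 433) (nat_lit 341) (nat_lit 246)) (XT.nd (nat_lit 78) (nat_lit 0) (nat_lit 0) (XT.lf (nat_lit 0) (nat_lit 32808296062) (nat_lit 152) (nat_lit 51130562332) (nat_lit 0) (nat_lit 12588484790) (nat_lit 10) (nat_lit 5) (nat_lit 12) (nat_lit 4) (nat_lit 10) (nat_lit 4) (nat_lit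 434) (nat_lit 341) (nat_lit 245)) (XT.lf (nat_lit 0) (nat_lit 45981044666) (nat_lit 152) (nat_lit 28991816493) (nat_lit 0) (nat_lit 25752250463) (nat_lit 10) (nat_lit 5) (nat_lit 12) (nat_lit 4) (nat_lit 10) (nat_lit 4) (nat_lit 435) (nat_lit 341) (nat_lit 244)))) (XT.nd (nat_lit 156) (nat_lit 0) (nat_lit 0) (XT.nd (nat_lit 78) (nat_lit 76) (nat_lit 0) (XT.lf (nat_lit 0) (nat_lit 59801834650) (nat_lit 152) (nat_lit 5766979174) (nat_lit 0) (nat_lit 39564485274) (nat_lit 10) (nat_lit 5) (nat_lit 12) (nat_lit 4) (nat_lit 10) (nat_lit 4) (nat_lit 436) (nat_lit 341) (nat_lit 243)) (XT.lf (nat_lit 0) (nat_lit 19214221954) (nat_lit 76) (nat_lit 55389338552) (nat_lit 76) (nat_lit 35143841393) (nat_lit 9) (nat_lit 4) (nat_lit 10) (nat_lit 5) (nat_lit 10) (nat_lit 4) (nat_lit 437) (nat_lit 341) (nat_lit 242))) (XT.nd (nat_lit 78) (nat_lit 0) (nat_lit 0) (XT.lf (nat_lit 0) (nat_lit 45625166692) (nat_lit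 76) (nat_lit 44607956652) (nat_lit 76) (nat_lit 24354699698) (nat_lit 9) (nat_lit 4) (nat_lit 10) (nat_lit 5) (nat_lit 10) (nat_lit 4) (nat_lit 438) (nat_lit 341) (nat_lit 241)) (XT.lf (nat_lit 0) (nat_lit 73338055866) (nat_lit 76) (nat_lit 33296664748) (nat_lit 76) (nat_lit 13036017515) (nat_lit 9) (nat_lit 4) (nat_lit 10) (nat_lit 5) (nat_lit 10) (nat_lit 4) (nat_lit 439) (nat_lit 341) (nat_lit 240))))))))
noncomputable def xc101 : XT := (XT.nd (nat_lit 1950) (nat_lit 0) (nat_lit 0) (XT.nd (nat_lit 936) (nat_lit 228) (nat_lit 0) (XT.nd (nat_lit 468) (nat_lit 76) (nat_lit 0) (XT.nd (nat_lit 234) (nat_lit 0) (nat_lit 0) (XT.nd (nat_lit 78) (nat_lit 152) (nat_lit 0) (XT.lf (nat_lit 0) (nat_lit 102418872544) (nat_lit 76) (nat_lit 21428531195) (nat_lit 76) (nat_lit 1160845600) (nat_lit 9) (nat_lit 4) (nat_lit 10) (nat_lit 5) (nat_lit 10) (nat_lit 4) (nat_lit 440) (nat_lit 341) (nat_lit 239))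 (XT.nd (nat_lit 78) (nat_lit 0) (nat_lit 0) (XT.lf (nat_lit 0) (nat_lit 2218383393) (nat_lit 76) (nat_lit 8753700601) (nat_lit 152) (nat_lit 119630428753) (nat_lit 7) (nat_lit 5) (nat_lit 8) (nat_lit 5) (nat_lit 9) (nat_lit 4) (nat_lit 441) (nat_lit 341) (nat_lit 238)) (XT.lf (nat_lit 0) (nat_lit 24123910074) (nat_lit 152) (nat_lit 107520176853) (nat_lit 0) (nat_lit 4808888362) (nat_lit 7) (nat_lit 5) (nat_lit 9) (nat_lit 4) (nat_lit 7) (nat_lit 4) (nat_lit 442) (nat_lit 341) (nat_lit 237)))) (XT.nd (nat_lit 78) (nat_lit 0) (nat_lit 0) (XT.lf (nat_lit 0) (nat_lit 38068558540) (nat_lit 152) (nat_lit 85772895062) (nat_lit 0) (nat_lit 18747746350) (nat_lit 7) (nat_lit 5) (nat_lit 9) (nat_lit 4) (nat_lit 7) (nat_lit 4) (nat_lit 443) (nat_lit 341) (nat_lit 236)) (XT.nd (nat_lit 78) (nat_lit 0) (nat_lit 0) (XT.lf (nat_lit 0) (nat_lit 52702561137) (nat_lit 152) (nat_lit 62953834941) (nat_lit 0)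 (nat_lit 33376234207) (nat_lit 7) (nat_lit 5) (nat_lit 9) (nat_lit 4) (nat_lit 7) (nat_lit 4) (nat_lit 444) (nat_lit 341) (nat_lit 235)) (XT.lf (nat_lit 0) (nat_lit 68060760730) (nat_lit 152) (nat_lit 39008665395) (nat_lit 0) (nat_lit 48729181666) (nat_lit 7) (nat_lit 5) (nat_lit 9) (nat_lit 4) (nat_lit 7) (nat_lit 4) (nat_lit 445) (nat_lit 341) (nat_lit 234))))) (XT.nd (nat_lit 234) (nat_lit 0) (nat_lit 0) (XT.nd (nat_lit 78) (nat_lit 76) (nat_lit 0) (XT.lf (nat_lit 0) (nat_lit 84179724460) (nat_lit 152) (nat_lit 13880374114) (nat_lit 0) (nat_lit 64843143364) (nat_lit 7) (nat_lit 5) (nat_lit 9) (nat_lit 4) (nat_lit 7) (nat_lit 4) (nat_lit 446) (nat_lit 341) (nat_lit 233)) (XT.nd (nat_lit 78) (nat_lit 0) (nat_lit 0) (XT.lf (nat_lit 0) (nat_lit 12903872677) (nat_lit 76) (nat_lit 88395423751) (nat_lit 76) (nat_lit 69054078814) (nat_lit 6) (nat_lit 4) (nat_lit 7) (nat_lit 5) (nat_lit 7) (nat_lit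 4) (nat_lit 447) (nat_lit 341) (nat_lit 232)) (XT.lf (nat_lit 0) (nat_lit 41495980644) (nat_lit 76) (nat_lit 78007248898) (nat_lit 76) (nat_lit 58661366971) (nat_lit 6) (nat_lit 4) (nat_lit 7) (nat_lit 5) (nat_lit 7) (nat_lit 4) (nat_lit 448) (nat_lit 341) (nat_lit 231)))) (XT.nd (nat_lit 78) (nat_lit 0) (nat_lit 0) (XT.lf (nat_lit 0) (nat_lit 71505078380) (nat_lit 76) (nat_lit 67105911119) (nat_lit 76) (nat_lit 47755708248) (nat_lit 6) (nat_lit 4) (nat_lit 7) (nat_lit 5) (nat_lit 7) (nat_lit 4) (nat_lit 449) (nat_lit 341) (nat_lit 230)) (XT.nd (nat_lit 78) (nat_lit 0) (nat_lit 0) (XT.lf (nat_lit 0) (nat_lit 103002616118) (nat_lit 76) (nat_lit 55665454848) (nat_lit 76) (nat_lit 36311136793) (nat_lit 6) (nat_lit 4) (nat_lit 7) (nat_lit 5) (nat_lit 7) (nat_lit 4) (nat_lit 450) (nat_lit 341) (nat_lit 229)) (XT.lf (nat_lit 0) (nat_lit 136063587996) (nat_lit 76) (nat_lit 43658640903) (nat_lit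 76) (nat_lit 24300403625) (nat_lit 6) (nat_lit 4) (nat_lit 7) (nat_lit 5) (nat_lit 7) (nat_lit 4) (nat_lit 451) (nat_lit 341) (nat_lit 228)))))) (XT.nd (nat_lit 468) (nat_lit 76) (nat_lit 0) (XT.nd (nat_lit 234) (nat_lit 0) (nat_lit 0) (XT.nd (nat_lit 78) (nat_lit 152) (nat_lit 0) (XT.lf (nat_lit 0) (nat_lit 170766710612) (nat_lit 76) (nat_lit 31056881632) (nat_lit 76) (nat_lit 11694911760) (nat_lit 6) (nat_lit 4) (nat_lit 7) (nat_lit 5) (nat_lit 7) (nat_lit 4) (nat_lit 452) (nat_lit 341) (nat_lit 227)) (XT.nd (nat_lit 78) (nat_lit 76) (nat_lit 0) (XT.lf (nat_lit 0) (nat_lit 1486211028) (nat_lit 152) (nat_lit 16318792114) (nat_lit 76) (nat_lit 205683229719) (nat_lit 5) (nat_lit 5) (nat_lit 7) (nat_lit 5) (nat_lit 6) (nat_lit 4) (nat_lit 453) (nat_lit 341) (nat_lit 226)) (XT.lf (nat_lit 0) (nat_lit 11605536282) (nat_lit 76) (nat_lit 3503949852) (nat_lit 152) (nat_lit 218828570244) (nat_lit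 4) (nat_lit 5) (nat_lit 5) (nat_lit 5) (nat_lit 6) (nat_lit 4) (nat_lit 454) (nat_lit 341) (nat_lit 225)))) (XT.nd (nat_lit 78) (nat_lit 0) (nat_lit 0) (XT.lf (nat_lit 0) (nat_lit 29869496792) (nat_lit 152) (nat_lit 203598251236) (nat_lit 0) (nat_lit 11419844745) (nat_lit 4) (nat_lit 5) (nat_lit 6) (nat_lit 4) (nat_lit 4) (nat_lit 4) (nat_lit 455) (nat_lit 341) (nat_lit 224)) (XT.nd (nat_lit 78) (nat_lit 0) (nat_lit 0) (XT.lf (nat_lit 0) (nat_lit 45420128387) (nat_lit 152) (nat_lit 183994295103) (nat_lit 0) (nat_lit 26967551755) (nat_lit 4) (nat_lit 5) (nat_lit 6) (nat_lit 4) (nat_lit 4) (nat_lit 4) (nat_lit 456) (nat_lit 341) (nat_lit 223)) (XT.lf (nat_lit 0) (nat_lit 61743699755) (nat_lit 152) (nat_lit 163419269134) (nat_lit 0) (nat_lit 43288337804) (nat_lit 4) (nat_lit 5) (nat_lit 6) (nat_lit 4) (nat_lit 4) (nat_lit 4) (nat_lit 457) (nat_lit 341) (nat_lit 222))))) (XT.nd (nat_lit 234)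 (nat_lit 76) (nat_lit 0) (XT.nd (nat_lit 78) (nat_lit 0) (nat_lit 0) (XT.lf (nat_lit 0) (nat_lit 78879076544) (nat_lit 152) (nat_lit 141824185173) (nat_lit 0) (nat_lit 60421061908) (nat_lit 4) (nat_lit 5) (nat_lit 6) (nat_lit 4) (nat_lit 4) (nat_lit 4) (nat_lit 458) (nat_lit 341) (nat_lit 221)) (XT.nd (nat_lit 78) (nat_lit 0) (nat_lit 0) (XT.lf (nat_lit 0) (nat_lit 96867057268) (nat_lit 152) (nat_lit 119157626352) (nat_lit 0) (nat_lit 78406516267) (nat_lit 4) (nat_lit 5) (nat_lit 6) (nat_lit 4) (nat_lit 4) (nat_lit 4) (nat_lit 459) (nat_lit 341) (nat_lit 220)) (XT.lf (nat_lit 0) (nat_lit 115750470454) (nat_lit 152) (nat_lit 95365624675) (nat_lit 0) (nat_lit 97287523389) (nat_lit 4) (nat_lit 5) (nat_lit 6) (nat_lit 4) (nat_lit 4) (nat_lit 4) (nat_lit 460) (nat_lit 341) (nat_lit 219)))) (XT.nd (nat_lit 156) (nat_lit 76) (nat_lit 0) (XT.nd (nat_lit 78) (nat_lit 0) (nat_lit 0) (XT.lf (nat_lit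 0) (nat_lit 135574276609) (nat_lit 152) (nat_lit 70391532519) (nat_lit 0) (nat_lit 117109038056) (nat_lit 4) (nat_lit 5) (nat_lit 6) (nat_lit 4) (nat_lit 4) (nat_lit 4) (nat_lit 461) (nat_lit 341) (nat_lit 218)) (XT.lf (nat_lit 0) (nat_lit 156385675272) (nat_lit 152) (nat_lit 44175887759) (nat_lit 0) (nat_lit 137918254349) (nat_lit 4) (nat_lit 5) (nat_lit 6) (nat_lit 4) (nat_lit 4) (nat_lit 4) (nat_lit 462) (nat_lit 341) (nat_lit 217))) (XT.nd (nat_lit 78) (nat_lit 76) (nat_lit 0) (XT.lf (nat_lit 0) (nat_lit 178234217392) (nat_lit 152) (nat_lit 16656272193) (nat_lit 0) (nat_lit 159764718021) (nat_lit 4) (nat_lit 5) (nat_lit 6) (nat_lit 4) (nat_lit 4) (nat_lit 4) (nat_lit 463) (nat_lit 341) (nat_lit 216)) (XT.lf (nat_lit 0) (nat_lit 12637309910) (nat_lit 76) (nat_lit 188731917220) (nat_lit 76) (nat_lit 170260438375) (nat_lit 3) (nat_lit 4) (nat_lit 4) (nat_lit 5) (nat_lit 4) (nat_lit 4) (nat_lit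 464) (nat_lit 341) (nat_lit 215))))))) (XT.nd (nat_lit 1014) (nat_lit 0) (nat_lit 0) (XT.nd (nat_lit 468) (nat_lit 0) (nat_lit 0) (XT.nd (nat_lit 234) (nat_lit 0) (nat_lit 0) (XT.nd (nat_lit 78) (nat_lit 0) (nat_lit 0) (XT.lf (nat_lit 0) (nat_lit 43967456830) (nat_lit 76) (nat_lit 181972404991) (nat_lit 76) (nat_lit 163499040933) (nat_lit 3) (nat_lit 4) (nat_lit 4) (nat_lit 5) (nat_lit 4) (nat_lit 4) (nat_lit 465) (nat_lit 341) (nat_lit 214)) (XT.nd (nat_lit 78) (nat_lit 0) (nat_lit 0) (XT.lf (nat_lit 0) (nat_lit 76858032574) (nat_lit 76) (nat_lit 174877940852) (nat_lit 76) (nat_lit 156402781352) (nat_lit 3) (nat_lit 4) (nat_lit 4) (nat_lit 5) (nat_lit 4) (nat_lit 4) (nat_lit 466) (nat_lit 341) (nat_lit 213)) (XT.lf (nat_lit 0) (nat_lit 111387348037) (nat_lit 76) (nat_lit 167431633220) (nat_lit 76) (nat_lit 148954763776) (nat_lit 3) (nat_lit 4) (nat_lit 4) (nat_lit 5) (nat_lit 4) (nat_lit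 4) (nat_lit 467) (nat_lit 341) (nat_lit 212)))) (XT.nd (nat_lit 78) (nat_lit 0) (nat_lit 0) (XT.lf (nat_lit 0) (nat_lit 147637615874) (nat_lit 76) (nat_lit 159615752792) (nat_lit 76) (nat_lit 141137254830) (nat_lit 3) (nat_lit 4) (nat_lit 4) (nat_lit 5) (nat_lit 4) (nat_lit 4) (nat_lit 468) (nat_lit 341) (nat_lit 211)) (XT.nd (nat_lit 78) (nat_lit 0) (nat_lit 0) (XT.lf (nat_lit 0) (nat_lit 185695146247) (nat_lit 76) (nat_lit 151411690328) (nat_lit 76) (nat_lit 132931641397) (nat_lit 3) (nat_lit 4) (nat_lit 4) (nat_lit 5) (nat_lit 4) (nat_lit 4) (nat_lit 469) (nat_lit 341) (nat_lit 210)) (XT.lf (nat_lit 0) (nat_lit 225650552323) (nat_lit 76) (nat_lit 142799912348) (nat_lit 76) (nat_lit 124318386302) (nat_lit 3) (nat_lit 4) (nat_lit 4) (nat_lit 5) (nat_lit 4) (nat_lit 4) (nat_lit 470) (nat_lit 341) (nat_lit 209))))) (XT.nd (nat_lit 234) (nat_lit 0) (nat_lit 0) (XT.nd (nat_lit 78) (nat_lit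 0) (nat_lit 0) (XT.lf (nat_lit 0) (nat_lit 267598966022) (nat_lit 76) (nat_lit 133759914616) (nat_lit 76) (nat_lit 115276981795) (nat_lit 3) (nat_lit 4) (nat_lit 4) (nat_lit 5) (nat_lit 4) (nat_lit 4) (nat_lit 471) (nat_lit 341) (nat_lit 208)) (XT.nd (nat_lit 78) (nat_lit 0) (nat_lit 0) (XT.lf (nat_lit 0) (nat_lit 311640264518) (nat_lit 76) (nat_lit 124270173330) (nat_lit 76) (nat_lit 105785900723) (nat_lit 3) (nat_lit 4) (nat_lit 4) (nat_lit 5) (nat_lit 4) (nat_lit 4) (nat_lit 472) (nat_lit 341) (nat_lit 207)) (XT.lf (nat_lit 0) (nat_lit 357879308048) (nat_lit 76) (nat_lit 114308093867) (nat_lit 76) (nat_lit 95822545274) (nat_lit 3) (nat_lit 4) (nat_lit 4) (nat_lit 5) (nat_lit 4) (nat_lit 4) (nat_lit 473) (nat_lit 341) (nat_lit 206)))) (XT.nd (nat_lit 156) (nat_lit 0) (nat_lit 0) (XT.nd (nat_lit 78) (nat_lit 0) (nat_lit 0) (XT.lf (nat_lit 0) (nat_lit 406426189570) (nat_lit 76) (nat_lit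 103849956990) (nat_lit 76) (nat_lit 85363193171) (nat_lit 3) (nat_lit 4) (nat_lit 4) (nat_lit 5) (nat_lit 4) (nat_lit 4) (nat_lit 474) (nat_lit 341) (nat_lit 205)) (XT.lf (nat_lit 0) (nat_lit 457396496900) (nat_lit 76) (nat_lit 92870862374) (nat_lit 76) (nat_lit 74382941197) (nat_lit 3) (nat_lit 4) (nat_lit 4) (nat_lit 5) (nat_lit 4) (nat_lit 4) (nat_lit 475) (nat_lit 341) (nat_lit 204))) (XT.nd (nat_lit 78) (nat_lit 0) (nat_lit 0) (XT.lf (nat_lit 0) (nat_lit 510911587910) (nat_lit 76) (nat_lit 81344669316) (nat_lit 76) (nat_lit 62855645895) (nat_lit 3) (nat_lit 4) (nat_lit 4) (nat_lit 5) (nat_lit 4) (nat_lit 4) (nat_lit 476) (nat_lit 341) (nat_lit 203)) (XT.lf (nat_lit 0) (nat_lit 567098879485) (nat_lit 76) (nat_lit 69243934501) (nat_lit 76) (nat_lit 50753861322) (nat_lit 3) (nat_lit 4) (nat_lit 4) (nat_lit 5) (nat_lit 4) (nat_lit 4) (nat_lit 477) (nat_lit 341) (nat_lit 202)))))) (XT.nd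 (nat_lit 42900) (nat_lit 0) (nat_lit 10640) (XT.nd (nat_lit 42666) (nat_lit 0) (nat_lit 11856) (XT.nd (nat_lit 42510) (nat_lit 0) (nat_lit 12160) (XT.lf (nat_lit 0) (nat_lit 626092150890) (nat_lit 76) (nat_lit 56539846654) (nat_lit 76) (nat_lit 38048773707) (nat_lit 3) (nat_lit 4) (nat_lit 4) (nat_lit 5) (nat_lit 4) (nat_lit 4) (nat_lit 478) (nat_lit 341) (nat_lit 201)) (XT.nd (nat_lit 78) (nat_lit 228) (nat_lit 0) (XT.lf (nat_lit 0) (nat_lit 2608176047) (nat_lit 228) (nat_lit 317988272) (nat_lit 228) (nat_lit 317988272) (nat_lit 166) (nat_lit 3) (nat_lit 169) (nat_lit 3) (nat_lit 169) (nat_lit 5) (nat_lit 342) (nat_lit 342) (nat_lit 336)) (XT.lf (nat_lit 0) (nat_lit 1406708588) (nat_lit 228) (nat_lit 3936050783) (nat_lit 304) (nat_lit 1172192572) (nat_lit 163) (nat_lit 5) (nat_lit 166) (nat_lit 3) (nat_lit 167) (nat_lit 5) (nat_lit 343) (nat_lit 342) (nat_lit 335)))) (XT.nd (nat_lit 78)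 (nat_lit 304) (nat_lit 0) (XT.lf (nat_lit 0) (nat_lit 4017891990) (nat_lit 228) (nat_lit 682374815) (nat_lit 304) (nat_lit 1849756049) (nat_lit 163) (nat_lit 5) (nat_lit 166) (nat_lit 3) (nat_lit 167) (nat_lit 5) (nat_lit 344) (nat_lit 342) (nat_lit 334)) (XT.nd (nat_lit 78) (nat_lit 0) (nat_lit 0) (XT.lf (nat_lit 0) (nat_lit 46215206) (nat_lit 304) (nat_lit 3863362016) (nat_lit 380) (nat_lit 2683369722) (nat_lit 159) (nat_lit 5) (nat_lit 163) (nat_lit 5) (nat_lit 164) (nat_lit 5) (nat_lit 345) (nat_lit 342) (nat_lit 333)) (XT.lf (nat_lit 0) (nat_lit 2522165132) (nat_lit 304) (nat_lit 438241070) (nat_lit 380) (nat_lit 3683020124) (nat_lit 159) (nat_lit 5) (nat_lit 163) (nat_lit 5) (nat_lit 164) (nat_lit 5) (nat_lit 346) (nat_lit 342) (nat_lit 332))))) (XT.nd (nat_lit 234) (nat_lit 836) (nat_lit 0) (XT.nd (nat_lit 78) (nat_lit 380) (nat_lit 0) (XT.lf (nat_lit 76) (nat_lit 3169154337) (nat_lit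 0) (nat_lit 1851796602) (nat_lit 380) (nat_lit 1680692287) (nat_lit 160) (nat_lit 5) (nat_lit 159) (nat_lit 5) (nat_lit 164) (nat_lit 5) (nat_lit 347) (nat_lit 342) (nat_lit 331)) (XT.nd (nat_lit 78) (nat_lit 0) (nat_lit 76) (XT.lf (nat_lit 76) (nat_lit 105239129) (nat_lit 0) (nat_lit 610435927) (nat_lit 456) (nat_lit 6053457728) (nat_lit 155) (nat_lit 5) (nat_lit 154) (nat_lit 5) (nat_lit 160) (nat_lit 5) (nat_lit 348) (nat_lit 342) (nat_lit 330)) (XT.lf (nat_lit 0) (nat_lit 3106146250) (nat_lit 380) (nat_lit 2929313622) (nat_lit 76) (nat_lit 806763879) (nat_lit 155) (nat_lit 5) (nat_lit 160) (nat_lit 5) (nat_lit 156) (nat_lit 5) (nat_lit 349) (nat_lit 342) (nat_lit 329)))) (XT.nd (nat_lit 156) (nat_lit 456) (nat_lit 0) (XT.nd (nat_lit 78) (nat_lit 76) (nat_lit 0) (XT.lf (nat_lit 0) (nat_lit 915628386) (nat_lit 380) (nat_lit 4590665830) (nat_lit 456) (nat_lit 1418303523) (nat_lit 150) (nat_lit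 5) (nat_lit 155) (nat_lit 5) (nat_lit 156) (nat_lit 5) (nat_lit 350) (nat_lit 342) (nat_lit 328)) (XT.lf (nat_lit 0) (nat_lit 901808983) (nat_lit 456) (nat_lit 2069352520) (nat_lit 76) (nat_lit 4043312384) (nat_lit 149) (nat_lit 5) (nat_lit 155) (nat_lit 5) (nat_lit 150) (nat_lit 5) (nat_lit 351) (nat_lit 342) (nat_lit 327))) (XT.nd (nat_lit 78) (nat_lit 0) (nat_lit 0) (XT.lf (nat_lit 0) (nat_lit 2014574831) (nat_lit 456) (nat_lit 1181926908) (nat_lit 532) (nat_lit 3915985210) (nat_lit 143) (nat_lit 5) (nat_lit 149) (nat_lit 5) (nat_lit 150) (nat_lit 5) (nat_lit 352) (nat_lit 342) (nat_lit 326)) (XT.lf (nat_lit 0) (nat_lit 5532175635) (nat_lit 532) (nat_lit 949532258) (nat_lit 76) (nat_lit 737492442) (nat_lit 143) (nat_lit 5) (nat_lit 150) (nat_lit 5) (nat_lit 144) (nat_lit 5) (nat_lit 353) (nat_lit 342) (nat_lit 325))))))))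
noncomputable def xc102 : XT := (XT.nd (nat_lit 1950) (nat_lit 2356) (nat_lit 0) (XT.nd (nat_lit 936) (nat_lit 2128) (nat_lit 0) (XT.nd (nat_lit 468) (nat_lit 1520) (nat_lit 0) (XT.nd (nat_lit 234) (nat_lit 1520) (nat_lit 0) (XT.nd (nat_lit 78) (nat_lit 608) (nat_lit 0) (XT.lf (nat_lit 0) (nat_lit 589636058) (nat_lit 608) (nat_lit 3941468105) (nat_lit 76) (nat_lit 2801878523) (nat_lit 135) (nat_lit 5) (nat_lit 143) (nat_lit 5) (nat_lit 136) (nat_lit 5) (nat_lit 354) (nat_lit 342) (nat_lit 324)) (XT.nd (nat_lit 78) (nat_lit 0) (nat_lit 0) (XT.lf (nat_lit 0) (nat_lit 419895247) (nat_lit 608) (nat_lit 2414009476) (nat_lit 684) (nat_lit 4621739873) (nat_lit 127) (nat_lit 5) (nat_lit 135) (nat_lit 5) (nat_lit 136) (nat_lit 5) (nat_lit 355) (nat_lit 342) (nat_lit 323)) (XT.lf (nat_lit 0) (nat_lit 5041169432) (nat_lit 608) (nat_lit 107408532) (nat_lit 684) (nat_lit 2438044220) (nat_lit 127) (nat_lit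 5) (nat_lit 135) (nat_lit 5) (nat_lit 136) (nat_lit 5) (nat_lit 356) (nat_lit 342) (nat_lit 322)))) (XT.nd (nat_lit 78) (nat_lit 836) (nat_lit 0) (XT.lf (nat_lit 0) (nat_lit 2104653023) (nat_lit 684) (nat_lit 5440139209) (nat_lit 760) (nat_lit 181153802) (nat_lit 118) (nat_lit 5) (nat_lit 127) (nat_lit 5) (nat_lit 128) (nat_lit 5) (nat_lit 357) (nat_lit 342) (nat_lit 321)) (XT.nd (nat_lit 78) (nat_lit 760) (nat_lit 0) (XT.lf (nat_lit 0) (nat_lit 2062644502) (nat_lit 760) (nat_lit 928900261) (nat_lit 76) (nat_lit 4881856830) (nat_lit 117) (nat_lit 5) (nat_lit 127) (nat_lit 5) (nat_lit 118) (nat_lit 5) (nat_lit 358) (nat_lit 342) (nat_lit 320)) (XT.lf (nat_lit 0) (nat_lit 4030998872) (nat_lit 760) (nat_lit 347848384) (nat_lit 836) (nat_lit 3650994867) (nat_lit 107) (nat_lit 5) (nat_lit 117) (nat_lit 5) (nat_lit 118) (nat_lit 5) (nat_lit 359) (nat_lit 342) (nat_lit 319))))) (XT.nd (nat_lit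 234) (nat_lit 760) (nat_lit 0) (XT.nd (nat_lit 78) (nat_lit 380) (nat_lit 0) (XT.lf (nat_lit 0) (nat_lit 974413669) (nat_lit 380) (nat_lit 5812123456) (nat_lit 456) (nat_lit 1408855900) (nat_lit 102) (nat_lit 5) (nat_lit 107) (nat_lit 5) (nat_lit 108) (nat_lit 5) (nat_lit 360) (nat_lit 342) (nat_lit 318)) (XT.nd (nat_lit 78) (nat_lit 304) (nat_lit 0) (XT.lf (nat_lit 0) (nat_lit 897650947) (nat_lit 456) (nat_lit 2150228055) (nat_lit 76) (nat_lit 5321543975) (nat_lit 101) (nat_lit 5) (nat_lit 107) (nat_lit 5) (nat_lit 102) (nat_lit 5) (nat_lit 361) (nat_lit 342) (nat_lit 317)) (XT.lf (nat_lit 0) (nat_lit 3158746203) (nat_lit 304) (nat_lit 75073051) (nat_lit 380) (nat_lit 5319158591) (nat_lit 97) (nat_lit 5) (nat_lit 101) (nat_lit 5) (nat_lit 102) (nat_lit 5) (nat_lit 362) (nat_lit 342) (nat_lit 316)))) (XT.nd (nat_lit 78) (nat_lit 760) (nat_lit 0) (XT.lf (nat_lit 0) (nat_lit 5686368123) (nat_lit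 380) (nat_lit 80238026) (nat_lit 76) (nat_lit 2979185093) (nat_lit 97) (nat_lit 5) (nat_lit 102) (nat_lit 5) (nat_lit 98) (nat_lit 5) (nat_lit 363) (nat_lit 342) (nat_lit 315)) (XT.nd (nat_lit 78) (nat_lit 380) (nat_lit 0) (XT.lf (nat_lit 0) (nat_lit 5585560060) (nat_lit 380) (nat_lit 2683466659) (nat_lit 456) (nat_lit 678901042) (nat_lit 92) (nat_lit 5) (nat_lit 97) (nat_lit 5) (nat_lit 98) (nat_lit 5) (nat_lit 364) (nat_lit 342) (nat_lit 314)) (XT.lf (nat_lit 0) (nat_lit 1729835677) (nat_lit 380) (nat_lit 6839606531) (nat_lit 76) (nat_lit 590985903) (nat_lit 87) (nat_lit 5) (nat_lit 92) (nat_lit 5) (nat_lit 88) (nat_lit 5) (nat_lit 365) (nat_lit 342) (nat_lit 313)))))) (XT.nd (nat_lit 468) (nat_lit 988) (nat_lit 0) (XT.nd (nat_lit 234) (nat_lit 608) (nat_lit 0) (XT.nd (nat_lit 78) (nat_lit 532) (nat_lit 0) (XT.lf (nat_lit 0) (nat_lit 4260383428) (nat_lit 380) (nat_lit 1126724110) (nat_lit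 76) (nat_lit 3994728842) (nat_lit 87) (nat_lit 5) (nat_lit 92) (nat_lit 5) (nat_lit 88) (nat_lit 5) (nat_lit 366) (nat_lit 342) (nat_lit 312)) (XT.nd (nat_lit 78) (nat_lit 228) (nat_lit 0) (XT.lf (nat_lit 0) (nat_lit 4939548685) (nat_lit 304) (nat_lit 1981050694) (nat_lit 380) (nat_lit 2693605181) (nat_lit 83) (nat_lit 5) (nat_lit 87) (nat_lit 5) (nat_lit 88) (nat_lit 5) (nat_lit 367) (nat_lit 342) (nat_lit 311)) (XT.lf (nat_lit 0) (nat_lit 1418947226) (nat_lit 228) (nat_lit 8289223718) (nat_lit 304) (nat_lit 150347281) (nat_lit 80) (nat_lit 5) (nat_lit 83) (nat_lit 5) (nat_lit 84) (nat_lit 5) (nat_lit 368) (nat_lit 342) (nat_lit 310)))) (XT.nd (nat_lit 78) (nat_lit 532) (nat_lit 0) (XT.lf (nat_lit 0) (nat_lit 2481073093) (nat_lit 304) (nat_lit 2297857010) (nat_lit 76) (nat_lit 5332107519) (nat_lit 79) (nat_lit 5) (nat_lit 83) (nat_lit 5) (nat_lit 80) (nat_lit 5) (nat_lit 369) (nat_lit 342)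 (nat_lit 309)) (XT.nd (nat_lit 78) (nat_lit 228) (nat_lit 0) (XT.lf (nat_lit 0) (nat_lit 4193975853) (nat_lit 304) (nat_lit 1042626212) (nat_lit 380) (nat_lit 5139616462) (nat_lit 75) (nat_lit 5) (nat_lit 79) (nat_lit 5) (nat_lit 80) (nat_lit 5) (nat_lit 370) (nat_lit 342) (nat_lit 308)) (XT.lf (nat_lit 0) (nat_lit 311514489) (nat_lit 228) (nat_lit 7841430425) (nat_lit 304) (nat_lit 2500598153) (nat_lit 72) (nat_lit 5) (nat_lit 75) (nat_lit 5) (nat_lit 76) (nat_lit 5) (nat_lit 371) (nat_lit 342) (nat_lit 307))))) (XT.nd (nat_lit 234) (nat_lit 684) (nat_lit 0) (XT.nd (nat_lit 78) (nat_lit 228) (nat_lit 0) (XT.lf (nat_lit 0) (nat_lit 319553445) (nat_lit 304) (nat_lit 3708993053) (nat_lit 76) (nat_lit 6913117551) (nat_lit 71) (nat_lit 5) (nat_lit 75) (nat_lit 5) (nat_lit 72) (nat_lit 5) (nat_lit 372) (nat_lit 342) (nat_lit 306)) (XT.nd (nat_lit 78) (nat_lit 0) (nat_lit 0) (XT.lf (nat_lit 0)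 (nat_lit 3185313723) (nat_lit 304) (nat_lit 8012103902) (nat_lit 76) (nat_lit 45323401) (nat_lit 68) (nat_lit 5) (nat_lit 72) (nat_lit 5) (nat_lit 69) (nat_lit 5) (nat_lit 373) (nat_lit 342) (nat_lit 305)) (XT.lf (nat_lit 0) (nat_lit 6262967241) (nat_lit 304) (nat_lit 1064802110) (nat_lit 76) (nat_lit 4227702238) (nat_lit 68) (nat_lit 5) (nat_lit 72) (nat_lit 5) (nat_lit 69) (nat_lit 5) (nat_lit 374) (nat_lit 342) (nat_lit 304)))) (XT.nd (nat_lit 156) (nat_lit 152) (nat_lit 0) (XT.nd (nat_lit 78) (nat_lit 304) (nat_lit 0) (XT.lf (nat_lit 0) (nat_lit 6349255714) (nat_lit 228) (nat_lit 3186015639) (nat_lit 304) (nat_lit 2346557501) (nat_lit 65) (nat_lit 5) (nat_lit 68) (nat_lit 5) (nat_lit 69) (nat_lit 5) (nat_lit 375) (nat_lit 342) (nat_lit 303)) (XT.lf (nat_lit 0) (nat_lit 731863793) (nat_lit 304) (nat_lit 10330929981) (nat_lit 76) (nat_lit 1160699441) (nat_lit 61) (nat_lit 5) (nat_lit 65)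 (nat_lit 5) (nat_lit 62) (nat_lit 5) (nat_lit 376) (nat_lit 342) (nat_lit 302))) (XT.nd (nat_lit 78) (nat_lit 152) (nat_lit 0) (XT.lf (nat_lit 0) (nat_lit 3976020730) (nat_lit 304) (nat_lit 2874231175) (nat_lit 76) (nat_lit 5725556445) (nat_lit 61) (nat_lit 5) (nat_lit 65) (nat_lit 5) (nat_lit 62) (nat_lit 5) (nat_lit 377) (nat_lit 342) (nat_lit 301)) (XT.lf (nat_lit 0) (nat_lit 5035049736) (nat_lit 152) (nat_lit 2371862934) (nat_lit 228) (nat_lit 5537623718) (nat_lit 59) (nat_lit 5) (nat_lit 61) (nat_lit 5) (nat_lit 62) (nat_lit 5) (nat_lit 378) (nat_lit 342) (nat_lit 300))))))) (XT.nd (nat_lit 1014) (nat_lit 912) (nat_lit 0) (XT.nd (nat_lit 468) (nat_lit 608) (nat_lit 0) (XT.nd (nat_lit 234) (nat_lit 380) (nat_lit 0) (XT.nd (nat_lit 78) (nat_lit 456) (nat_lit 0) (XT.lf (nat_lit 0) (nat_lit 11042022585) (nat_lit 228) (nat_lit 9194712) (nat_lit 76) (nat_lit 2278872247) (nat_lit 59) (nat_lit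 5) (nat_lit 62) (nat_lit 5) (nat_lit 60) (nat_lit 5) (nat_lit 379) (nat_lit 342) (nat_lit 299)) (XT.nd (nat_lit 78) (nat_lit 152) (nat_lit 0) (XT.lf (nat_lit 0) (nat_lit 1209924968) (nat_lit 304) (nat_lit 5309536502) (nat_lit 76) (nat_lit 7208505213) (nat_lit 55) (nat_lit 5) (nat_lit 59) (nat_lit 5) (nat_lit 56) (nat_lit 5) (nat_lit 380) (nat_lit 342) (nat_lit 298)) (XT.lf (nat_lit 0) (nat_lit 3105072289) (nat_lit 152) (nat_lit 1699211508) (nat_lit 228) (nat_lit 9339679685) (nat_lit 53) (nat_lit 5) (nat_lit 55) (nat_lit 5) (nat_lit 56) (nat_lit 5) (nat_lit 381) (nat_lit 342) (nat_lit 297)))) (XT.nd (nat_lit 78) (nat_lit 380) (nat_lit 0) (XT.lf (nat_lit 0) (nat_lit 8672708427) (nat_lit 228) (nat_lit 2585063218) (nat_lit 76) (nat_lit 3318289499) (nat_lit 53) (nat_lit 5) (nat_lit 56) (nat_lit 5) (nat_lit 54) (nat_lit 5) (nat_lit 382) (nat_lit 342) (nat_lit 296)) (XT.nd (nat_lit 78) (nat_lit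 228) (nat_lit 0) (XT.lf (nat_lit 0) (nat_lit 6392406113) (nat_lit 152) (nat_lit 6422629533) (nat_lit 228) (nat_lit 2210721514) (nat_lit 51) (nat_lit 5) (nat_lit 53) (nat_lit 5) (nat_lit 54) (nat_lit 5) (nat_lit 383) (nat_lit 342) (nat_lit 295)) (XT.lf (nat_lit 0) (nat_lit 320122136) (nat_lit 152) (nat_lit 1295706945) (nat_lit 228) (nat_lit 13880692458) (nat_lit 48) (nat_lit 5) (nat_lit 50) (nat_lit 5) (nat_lit 51) (nat_lit 5) (nat_lit 384) (nat_lit 342) (nat_lit 294))))) (XT.nd (nat_lit 234) (nat_lit 456) (nat_lit 0) (XT.nd (nat_lit 78) (nat_lit 152) (nat_lit 0) (XT.lf (nat_lit 0) (nat_lit 5725578130) (nat_lit 228) (nat_lit 6141727965) (nat_lit 76) (nat_lit 4113412843) (nat_lit 48) (nat_lit 5) (nat_lit 51) (nat_lit 5) (nat_lit 49) (nat_lit 5) (nat_lit 385) (nat_lit 342) (nat_lit 293)) (XT.nd (nat_lit 78) (nat_lit 0) (nat_lit 0) (XT.lf (nat_lit 0) (nat_lit 3357804526) (nat_lit 152) (nat_lit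 6712619279) (nat_lit 228) (nat_lit 6417236372) (nat_lit 46) (nat_lit 5) (nat_lit 48) (nat_lit 5) (nat_lit 49) (nat_lit 5) (nat_lit 386) (nat_lit 342) (nat_lit 292)) (XT.lf (nat_lit 0) (nat_lit 13473617498) (nat_lit 152) (nat_lit 1219825755) (nat_lit 228) (nat_lit 2323472393) (nat_lit 46) (nat_lit 5) (nat_lit 48) (nat_lit 5) (nat_lit 49) (nat_lit 5) (nat_lit 387) (nat_lit 342) (nat_lit 291)))) (XT.nd (nat_lit 156) (nat_lit 228) (nat_lit 0) (XT.nd (nat_lit 78) (nat_lit 0) (nat_lit 0) (XT.lf (nat_lit 0) (nat_lit 2046395600) (nat_lit 228) (nat_lit 11006577866) (nat_lit 76) (nat_lit 4511399765) (nat_lit 43) (nat_lit 5) (nat_lit 46) (nat_lit 5) (nat_lit 44) (nat_lit 5) (nat_lit 388) (nat_lit 342) (nat_lit 290)) (XT.lf (nat_lit 0) (nat_lit 6596422328) (nat_lit 228) (nat_lit 978693173) (nat_lit 76) (nat_lit 10560208116) (nat_lit 43) (nat_lit 5) (nat_lit 46) (nat_lit 5) (nat_lit 44) (nat_lit 5) (nat_lit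 389) (nat_lit 342) (nat_lit 289))) (XT.nd (nat_lit 78) (nat_lit 76) (nat_lit 0) (XT.lf (nat_lit 0) (nat_lit 9797128247) (nat_lit 152) (nat_lit 1690507443) (nat_lit 228) (nat_lit 7241512874) (nat_lit 41) (nat_lit 5) (nat_lit 43) (nat_lit 5) (nat_lit 44) (nat_lit 5) (nat_lit 390) (nat_lit 342) (nat_lit 288)) (XT.lf (nat_lit 0) (nat_lit 1710844606) (nat_lit 76) (nat_lit 14987333777) (nat_lit 152) (nat_lit 2650758709) (nat_lit 40) (nat_lit 5) (nat_lit 41) (nat_lit 5) (nat_lit 42) (nat_lit 4) (nat_lit 391) (nat_lit 342) (nat_lit 287)))))) (XT.nd (nat_lit 468) (nat_lit 380) (nat_lit 0) (XT.nd (nat_lit 234) (nat_lit 304) (nat_lit 0) (XT.nd (nat_lit 78) (nat_lit 152) (nat_lit 0) (XT.lf (nat_lit 0) (nat_lit 2242872388) (nat_lit 152) (nat_lit 6927914448) (nat_lit 76) (nat_lit 10820105462) (nat_lit 39) (nat_lit 5) (nat_lit 41) (nat_lit 5) (nat_lit 40) (nat_lit 5) (nat_lit 392) (nat_lit 342) (nat_lit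 286)) (XT.nd (nat_lit 78) (nat_lit 0) (nat_lit 0) (XT.lf (nat_lit 0) (nat_lit 4349087170) (nat_lit 152) (nat_lit 2974075204) (nat_lit 228) (nat_lit 13338066427) (nat_lit 37) (nat_lit 5) (nat_lit 39) (nat_lit 5) (nat_lit 40) (nat_lit 5) (nat_lit 393) (nat_lit 342) (nat_lit 285)) (XT.lf (nat_lit 0) (nat_lit 12795366644) (nat_lit 228) (nat_lit 5050605835) (nat_lit 76) (nat_lit 3512223519) (nat_lit 37) (nat_lit 5) (nat_lit 40) (nat_lit 5) (nat_lit 38) (nat_lit 4) (nat_lit 394) (nat_lit 342) (nat_lit 284)))) (XT.nd (nat_lit 78) (nat_lit 228) (nat_lit 0) (XT.lf (nat_lit 0) (nat_lit 6883888056) (nat_lit 76) (nat_lit 11778760433) (nat_lit 152) (nat_lit 3421298136) (nat_lit 36) (nat_lit 5) (nat_lit 37) (nat_lit 5) (nat_lit 38) (nat_lit 4) (nat_lit 395) (nat_lit 342) (nat_lit 283)) (XT.nd (nat_lit 78) (nat_lit 152) (nat_lit 0) (XT.lf (nat_lit 0) (nat_lit 1966337035) (nat_lit 152) (nat_lit 3345377541)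 (nat_lit 76) (nat_lit 17530118609) (nat_lit 35) (nat_lit 5) (nat_lit 37) (nat_lit 5) (nat_lit 36) (nat_lit 5) (nat_lit 396) (nat_lit 342) (nat_lit 282)) (XT.lf (nat_lit 0) (nat_lit 7646331302) (nat_lit 228) (nat_lit 14370995399) (nat_lit 76) (nat_lit 1610592548) (nat_lit 33) (nat_lit 5) (nat_lit 36) (nat_lit 5) (nat_lit 34) (nat_lit 4) (nat_lit 397) (nat_lit 342) (nat_lit 281))))) (XT.nd (nat_lit 234) (nat_lit 228) (nat_lit 0) (XT.nd (nat_lit 78) (nat_lit 152) (nat_lit 0) (XT.lf (nat_lit 0) (nat_lit 13722277663) (nat_lit 228) (nat_lit 1992173651) (nat_lit 76) (nat_lit 8733267623) (nat_lit 33) (nat_lit 5) (nat_lit 36) (nat_lit 5) (nat_lit 34) (nat_lit 4) (nat_lit 398) (nat_lit 342) (nat_lit 280)) (XT.nd (nat_lit 78) (nat_lit 76) (nat_lit 0) (XT.lf (nat_lit 0) (nat_lit 11311263089) (nat_lit 76) (nat_lit 8936207081) (nat_lit 152) (nat_lit 5053772610) (nat_lit 32) (nat_lit 5) (nat_lit 33) (nat_lit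 5) (nat_lit 34) (nat_lit 4) (nat_lit 399) (nat_lit 342) (nat_lit 279)) (XT.lf (nat_lit 0) (nat_lit 875877399) (nat_lit 152) (nat_lit 917828672) (nat_lit 76) (nat_lit 24402876463) (nat_lit 31) (nat_lit 5) (nat_lit 33) (nat_lit 5) (nat_lit 32) (nat_lit 5) (nat_lit 400) (nat_lit 342) (nat_lit 278)))) (XT.nd (nat_lit 156) (nat_lit 76) (nat_lit 0) (XT.nd (nat_lit 78) (nat_lit 0) (nat_lit 0) (XT.lf (nat_lit 0) (nat_lit 7200398880) (nat_lit 228) (nat_lit 14126967331) (nat_lit 76) (nat_lit 5791774895) (nat_lit 29) (nat_lit 5) (nat_lit 32) (nat_lit 5) (nat_lit 30) (nat_lit 4) (nat_lit 401) (nat_lit 342) (nat_lit 277)) (XT.lf (nat_lit 0) (nat_lit 13856995290) (nat_lit 228) (nat_lit 541173010) (nat_lit 76) (nat_lit 13688872303) (nat_lit 29) (nat_lit 5) (nat_lit 32) (nat_lit 5) (nat_lit 30) (nat_lit 4) (nat_lit 402) (nat_lit 342) (nat_lit 276))) (XT.nd (nat_lit 78) (nat_lit 0) (nat_lit 0) (XT.lf (nat_lit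 0) (nat_lit 14124552491) (nat_lit 76) (nat_lit 6914435874) (nat_lit 152) (nat_lit 8054723546) (nat_lit 28) (nat_lit 5) (nat_lit 29) (nat_lit 5) (nat_lit 30) (nat_lit 4) (nat_lit 403) (nat_lit 342) (nat_lit 275)) (XT.lf (nat_lit 0) (nat_lit 28576348999) (nat_lit 152) (nat_lit 674403201) (nat_lit 0) (nat_lit 900156123) (nat_lit 28) (nat_lit 5) (nat_lit 30) (nat_lit 4) (nat_lit 28) (nat_lit 4) (nat_lit 404) (nat_lit 342) (nat_lit 274))))))))
noncomputable def xc103 : XT := (XT.nd (nat_lit 1950) (nat_lit 684) (nat_lit 0) (XT.nd (nat_lit 936) (nat_lit 456) (nat_lit 0) (XT.nd (nat_lit 468) (nat_lit 304) (nat_lit 0) (XT.nd (nat_lit 234) (nat_lit 152) (nat_lit 0) (XT.nd (nat_lit 78) (nat_lit 76) (nat_lit 0) (XT.lf (nat_lit 0) (nat_lit 5382886576) (nat_lit 152) (nat_lit 16690825381) (nat_lit 76) (nat_lit 9167141939) (nat_lit 26) (nat_lit 5) (nat_lit 28) (nat_lit 5) (nat_lit 27) (nat_lit 4) (nat_lit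 405) (nat_lit 342) (nat_lit 273)) (XT.nd (nat_lit 78) (nat_lit 76) (nat_lit 0) (XT.lf (nat_lit 0) (nat_lit 12620517691) (nat_lit 152) (nat_lit 1900872059) (nat_lit 76) (nat_lit 17863359215) (nat_lit 26) (nat_lit 5) (nat_lit 28) (nat_lit 5) (nat_lit 27) (nat_lit 4) (nat_lit 406) (nat_lit 342) (nat_lit 272)) (XT.lf (nat_lit 0) (nat_lit 14030753256) (nat_lit 76) (nat_lit 6383212539) (nat_lit 152) (nat_lit 13162180278) (nat_lit 25) (nat_lit 5) (nat_lit 26) (nat_lit 5) (nat_lit 27) (nat_lit 4) (nat_lit 407) (nat_lit 342) (nat_lit 271)))) (XT.nd (nat_lit 78) (nat_lit 152) (nat_lit 0) (XT.lf (nat_lit 0) (nat_lit 28638575615) (nat_lit 152) (nat_lit 4081871936) (nat_lit 0) (nat_lit 2104594885) (nat_lit 25) (nat_lit 5) (nat_lit 27) (nat_lit 4) (nat_lit 25) (nat_lit 4) (nat_lit 408) (nat_lit 342) (nat_lit 270)) (XT.nd (nat_lit 78) (nat_lit 0) (nat_lit 0) (XT.lf (nat_lit 0) (nat_lit 1380588510) (nat_lit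 152) (nat_lit 23742597995) (nat_lit 76) (nat_lit 10998363208) (nat_lit 23) (nat_lit 5) (nat_lit 25) (nat_lit 5) (nat_lit 24) (nat_lit 4) (nat_lit 409) (nat_lit 342) (nat_lit 269)) (XT.lf (nat_lit 0) (nat_lit 9164617334) (nat_lit 152) (nat_lit 7822313868) (nat_lit 76) (nat_lit 20488557285) (nat_lit 23) (nat_lit 5) (nat_lit 25) (nat_lit 5) (nat_lit 24) (nat_lit 4) (nat_lit 410) (nat_lit 342) (nat_lit 268))))) (XT.nd (nat_lit 234) (nat_lit 152) (nat_lit 0) (XT.nd (nat_lit 78) (nat_lit 76) (nat_lit 0) (XT.lf (nat_lit 0) (nat_lit 9143916290) (nat_lit 76) (nat_lit 8314088561) (nat_lit 152) (nat_lit 21433114668) (nat_lit 22) (nat_lit 5) (nat_lit 23) (nat_lit 5) (nat_lit 24) (nat_lit 4) (nat_lit 411) (nat_lit 342) (nat_lit 267)) (XT.nd (nat_lit 78) (nat_lit 76) (nat_lit 0) (XT.lf (nat_lit 0) (nat_lit 26290584773) (nat_lit 152) (nat_lit 13198264230) (nat_lit 0) (nat_lit 882459976) (nat_lit 22) (nat_lit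 5) (nat_lit 24) (nat_lit 4) (nat_lit 22) (nat_lit 4) (nat_lit 412) (nat_lit 342) (nat_lit 266)) (XT.lf (nat_lit 0) (nat_lit 4133313553) (nat_lit 76) (nat_lit 31610885581) (nat_lit 76) (nat_lit 6172341390) (nat_lit 21) (nat_lit 4) (nat_lit 22) (nat_lit 5) (nat_lit 22) (nat_lit 4) (nat_lit 413) (nat_lit 342) (nat_lit 265)))) (XT.nd (nat_lit 78) (nat_lit 76) (nat_lit 0) (XT.lf (nat_lit 0) (nat_lit 2269046032) (nat_lit 152) (nat_lit 20815970674) (nat_lit 76) (nat_lit 20442065375) (nat_lit 20) (nat_lit 5) (nat_lit 22) (nat_lit 5) (nat_lit 21) (nat_lit 4) (nat_lit 414) (nat_lit 342) (nat_lit 264)) (XT.nd (nat_lit 78) (nat_lit 76) (nat_lit 0) (XT.lf (nat_lit 0) (nat_lit 10904711947) (nat_lit 152) (nat_lit 3140446837) (nat_lit 76) (nat_lit 31168953116) (nat_lit 20) (nat_lit 5) (nat_lit 22) (nat_lit 5) (nat_lit 21) (nat_lit 4) (nat_lit 415) (nat_lit 342) (nat_lit 263)) (XT.lf (nat_lit 0) (nat_lit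 15890388332) (nat_lit 76) (nat_lit 4310476095) (nat_lit 152) (nat_lit 26773195991) (nat_lit 19) (nat_lit 5) (nat_lit 20) (nat_lit 5) (nat_lit 21) (nat_lit 4) (nat_lit 416) (nat_lit 342) (nat_lit 262)))))) (XT.nd (nat_lit 468) (nat_lit 228) (nat_lit 0) (XT.nd (nat_lit 234) (nat_lit 152) (nat_lit 0) (XT.nd (nat_lit 78) (nat_lit 76) (nat_lit 0) (XT.lf (nat_lit 0) (nat_lit 30088859632) (nat_lit 152) (nat_lit 12967851750) (nat_lit 0) (nat_lit 5758945484) (nat_lit 19) (nat_lit 5) (nat_lit 21) (nat_lit 4) (nat_lit 19) (nat_lit 4) (nat_lit 417) (nat_lit 342) (nat_lit 261)) (XT.nd (nat_lit 78) (nat_lit 0) (nat_lit 0) (XT.lf (nat_lit 0) (nat_lit 6144382396) (nat_lit 76) (nat_lit 34475078083) (nat_lit 76) (nat_lit 10122464515) (nat_lit 18) (nat_lit 4) (nat_lit 19) (nat_lit 5) (nat_lit 19) (nat_lit 4) (nat_lit 418) (nat_lit 342) (nat_lit 260)) (XT.lf (nat_lit 0) (nat_lit 26627641031) (nat_lit 76) (nat_lit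 25250510795) (nat_lit 76) (nat_lit 876278732) (nat_lit 18) (nat_lit 4) (nat_lit 19) (nat_lit 5) (nat_lit 19) (nat_lit 4) (nat_lit 419) (nat_lit 342) (nat_lit 259)))) (XT.nd (nat_lit 78) (nat_lit 76) (nat_lit 0) (XT.lf (nat_lit 0) (nat_lit 8532049898) (nat_lit 152) (nat_lit 6904118814) (nat_lit 76) (nat_lit 39425373781) (nat_lit 17) (nat_lit 5) (nat_lit 19) (nat_lit 5) (nat_lit 18) (nat_lit 4) (nat_lit 420) (nat_lit 342) (nat_lit 258)) (XT.nd (nat_lit 78) (nat_lit 0) (nat_lit 0) (XT.lf (nat_lit 0) (nat_lit 13670751181) (nat_lit 76) (nat_lit 4907385842) (nat_lit 152) (nat_lit 38485316972) (nat_lit 16) (nat_lit 5) (nat_lit 17) (nat_lit 5) (nat_lit 18) (nat_lit 4) (nat_lit 421) (nat_lit 342) (nat_lit 257)) (XT.lf (nat_lit 0) (nat_lit 29324768149) (nat_lit 152) (nat_lit 23985637894) (nat_lit 0) (nat_lit 6055144733) (nat_lit 16) (nat_lit 5) (nat_lit 18) (nat_lit 4) (nat_lit 16) (nat_lit 4) (nat_lit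 422) (nat_lit 342) (nat_lit 256))))) (XT.nd (nat_lit 234) (nat_lit 152) (nat_lit 0) (XT.nd (nat_lit 78) (nat_lit 76) (nat_lit 0) (XT.lf (nat_lit 0) (nat_lit 40673382925) (nat_lit 152) (nat_lit 3719317622) (nat_lit 0) (nat_lit 17386820852) (nat_lit 16) (nat_lit 5) (nat_lit 18) (nat_lit 4) (nat_lit 16) (nat_lit 4) (nat_lit 423) (nat_lit 342) (nat_lit 255)) (XT.nd (nat_lit 78) (nat_lit 0) (nat_lit 0) (XT.lf (nat_lit 0) (nat_lit 18110787495) (nat_lit 76) (nat_lit 34746356469) (nat_lit 76) (nat_lit 11443662342) (nat_lit 15) (nat_lit 4) (nat_lit 16) (nat_lit 5) (nat_lit 16) (nat_lit 4) (nat_lit 424) (nat_lit 342) (nat_lit 254)) (XT.lf (nat_lit 0) (nat_lit 41132805504) (nat_lit 76) (nat_lit 24565499403) (nat_lit 76) (nat_lit 1247441415) (nat_lit 15) (nat_lit 4) (nat_lit 16) (nat_lit 5) (nat_lit 16) (nat_lit 4) (nat_lit 425) (nat_lit 342) (nat_lit 253)))) (XT.nd (nat_lit 156) (nat_lit 0) (nat_lit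 0) (XT.nd (nat_lit 78) (nat_lit 76) (nat_lit 0) (XT.lf (nat_lit 0) (nat_lit 9141551598) (nat_lit 152) (nat_lit 4592509459) (nat_lit 76) (nat_lit 55982205096) (nat_lit 14) (nat_lit 5) (nat_lit 16) (nat_lit 5) (nat_lit 15) (nat_lit 4) (nat_lit 426) (nat_lit 342) (nat_lit 252)) (XT.lf (nat_lit 0) (nat_lit 18225317170) (nat_lit 76) (nat_lit 2053679357) (nat_lit 152) (nat_lit 52331747992) (nat_lit 13) (nat_lit 5) (nat_lit 14) (nat_lit 5) (nat_lit 15) (nat_lit 4) (nat_lit 427) (nat_lit 342) (nat_lit 251))) (XT.nd (nat_lit 78) (nat_lit 0) (nat_lit 0) (XT.lf (nat_lit 0) (nat_lit 32198202810) (nat_lit 152) (nat_lit 33489819440) (nat_lit 0) (nat_lit 9950681294) (nat_lit 13) (nat_lit 5) (nat_lit 15) (nat_lit 4) (nat_lit 13) (nat_lit 4) (nat_lit 428) (nat_lit 342) (nat_lit 250)) (XT.lf (nat_lit 0) (nat_lit 44734102700) (nat_lit 152) (nat_lit 11608379101) (nat_lit 0) (nat_lit 22474543197) (nat_lit 13)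 (nat_lit 5) (nat_lit 15) (nat_lit 4) (nat_lit 13) (nat_lit 4) (nat_lit 429) (nat_lit 342) (nat_lit 249))))))) (XT.nd (nat_lit 1014) (nat_lit 228) (nat_lit 0) (XT.nd (nat_lit 468) (nat_lit 228) (nat_lit 0) (XT.nd (nat_lit 234) (nat_lit 152) (nat_lit 0) (XT.nd (nat_lit 78) (nat_lit 0) (nat_lit 0) (XT.lf (nat_lit 0) (nat_lit 11718108683) (nat_lit 76) (nat_lit 46349323721) (nat_lit 76) (nat_lit 24078299469) (nat_lit 12) (nat_lit 4) (nat_lit 13) (nat_lit 5) (nat_lit 13) (nat_lit 4) (nat_lit 430) (nat_lit 342) (nat_lit 248)) (XT.nd (nat_lit 78) (nat_lit 0) (nat_lit 0) (XT.lf (nat_lit 0) (nat_lit 36590248680) (nat_lit 76) (nat_lit 35661672440) (nat_lit 76) (nat_lit 13379729378) (nat_lit 12) (nat_lit 4) (nat_lit 13) (nat_lit 5) (nat_lit 13) (nat_lit 4) (nat_lit 431) (nat_lit 342) (nat_lit 247)) (XT.lf (nat_lit 0) (nat_lit 62683434832) (nat_lit 76) (nat_lit 24450674687) (nat_lit 76) (nat_lit 2158332760)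 (nat_lit 12) (nat_lit 4) (nat_lit 13) (nat_lit 5) (nat_lit 13) (nat_lit 4) (nat_lit 432) (nat_lit 342) (nat_lit 246)))) (XT.nd (nat_lit 78) (nat_lit 76) (nat_lit 0) (XT.lf (nat_lit 0) (nat_lit 9304944509) (nat_lit 152) (nat_lit 3227109363) (nat_lit 76) (nat_lit 80597265525) (nat_lit 11) (nat_lit 5) (nat_lit 13) (nat_lit 5) (nat_lit 12) (nat_lit 4) (nat_lit 433) (nat_lit 342) (nat_lit 245)) (XT.nd (nat_lit 78) (nat_lit 0) (nat_lit 0) (XT.lf (nat_lit 0) (nat_lit 21607024262) (nat_lit 152) (nat_lit 75174531781) (nat_lit 0) (nat_lit 357807418) (nat_lit 10) (nat_lit 5) (nat_lit 12) (nat_lit 4) (nat_lit 10) (nat_lit 4) (nat_lit 434) (nat_lit 342) (nat_lit 244)) (XT.lf (nat_lit 0) (nat_lit 34774604061) (nat_lit 152) (nat_lit 53045954631) (nat_lit 0) (nat_lit 13516832044) (nat_lit 10) (nat_lit 5) (nat_lit 12) (nat_lit 4) (nat_lit 10) (nat_lit 4) (nat_lit 435) (nat_lit 342) (nat_lit 243))))) (XT.nd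 (nat_lit 234) (nat_lit 152) (nat_lit 0) (XT.nd (nat_lit 78) (nat_lit 76) (nat_lit 0) (XT.lf (nat_lit 0) (nat_lit 48590471372) (nat_lit 152) (nat_lit 29830801777) (nat_lit 0) (nat_lit 27324551571) (nat_lit 10) (nat_lit 5) (nat_lit 12) (nat_lit 4) (nat_lit 10) (nat_lit 4) (nat_lit 436) (nat_lit 342) (nat_lit 242)) (XT.nd (nat_lit 78) (nat_lit 76) (nat_lit 0) (XT.lf (nat_lit 0) (nat_lit 63087521118) (nat_lit 152) (nat_lit 5473799046) (nat_lit 0) (nat_lit 41813841523) (nat_lit 10) (nat_lit 5) (nat_lit 12) (nat_lit 4) (nat_lit 10) (nat_lit 4) (nat_lit 437) (nat_lit 342) (nat_lit 241)) (XT.lf (nat_lit 0) (nat_lit 20747082637) (nat_lit 76) (nat_lit 57877107550) (nat_lit 76) (nat_lit 36596037675) (nat_lit 9) (nat_lit 4) (nat_lit 10) (nat_lit 5) (nat_lit 10) (nat_lit 4) (nat_lit 438) (nat_lit 342) (nat_lit 240)))) (XT.nd (nat_lit 156) (nat_lit 152) (nat_lit 0) (XT.nd (nat_lit 78) (nat_lit 0) (nat_lit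 0) (XT.lf (nat_lit 0) (nat_lit 48451329393) (nat_lit 76) (nat_lit 46570070741) (nat_lit 76) (nat_lit 25281962505) (nat_lit 9) (nat_lit 4) (nat_lit 10) (nat_lit 5) (nat_lit 10) (nat_lit 4) (nat_lit 439) (nat_lit 342) (nat_lit 239)) (XT.lf (nat_lit 0) (nat_lit 77523915198) (nat_lit 76) (nat_lit 34705989659) (nat_lit 76) (nat_lit 13411178221) (nat_lit 9) (nat_lit 4) (nat_lit 10) (nat_lit 5) (nat_lit 10) (nat_lit 4) (nat_lit 440) (nat_lit 342) (nat_lit 238))) (XT.nd (nat_lit 78) (nat_lit 152) (nat_lit 0) (XT.lf (nat_lit 0) (nat_lit 108034060494) (nat_lit 76) (nat_lit 22256616491) (nat_lit 76) (nat_lit 955421052) (nat_lit 9) (nat_lit 4) (nat_lit 10) (nat_lit 5) (nat_lit 10) (nat_lit 4) (nat_lit 441) (nat_lit 342) (nat_lit 237)) (XT.lf (nat_lit 0) (nat_lit 2823889221) (nat_lit 76) (nat_lit 8947410613) (nat_lit 152) (nat_lit 125348791083) (nat_lit 7) (nat_lit 5) (nat_lit 8) (nat_lit 5) (nat_lit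 9) (nat_lit 4) (nat_lit 442) (nat_lit 342) (nat_lit 236)))))) (XT.nd (nat_lit 468) (nat_lit 152) (nat_lit 0) (XT.nd (nat_lit 234) (nat_lit 76) (nat_lit 0) (XT.nd (nat_lit 78) (nat_lit 0) (nat_lit 0) (XT.lf (nat_lit 0) (nat_lit 25572411077) (nat_lit 152) (nat_lit 112416828561) (nat_lit 0) (nat_lit 5274253059) (nat_lit 7) (nat_lit 5) (nat_lit 9) (nat_lit 4) (nat_lit 7) (nat_lit 4) (nat_lit 443) (nat_lit 342) (nat_lit 235)) (XT.nd (nat_lit 78) (nat_lit 0) (nat_lit 0) (XT.lf (nat_lit 0) (nat_lit 40202753609) (nat_lit 152) (nat_lit 89605009211) (nat_lit 0) (nat_lit 19899343458) (nat_lit 7) (nat_lit 5) (nat_lit 9) (nat_lit 4) (nat_lit 7) (nat_lit 4) (nat_lit 444) (nat_lit 342) (nat_lit 234)) (XT.lf (nat_lit 0) (nat_lit 55557467425) (nat_lit 152) (nat_lit 65666735636) (nat_lit 0) (nat_lit 35249055241) (nat_lit 7) (nat_lit 5) (nat_lit 9) (nat_lit 4) (nat_lit 7) (nat_lit 4) (nat_lit 445) (nat_lit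 342) (nat_lit 233)))) (XT.nd (nat_lit 78) (nat_lit 76) (nat_lit 0) (XT.lf (nat_lit 0) (nat_lit 71673111367) (nat_lit 152) (nat_lit 40545011948) (nat_lit 0) (nat_lit 51359935344) (nat_lit 7) (nat_lit 5) (nat_lit 9) (nat_lit 4) (nat_lit 7) (nat_lit 4) (nat_lit 446) (nat_lit 342) (nat_lit 232)) (XT.nd (nat_lit 78) (nat_lit 76) (nat_lit 0) (XT.lf (nat_lit 0) (nat_lit 88588056017) (nat_lit 152) (nat_lit 14180024519) (nat_lit 0) (nat_lit 68270343003) (nat_lit 7) (nat_lit 5) (nat_lit 9) (nat_lit 4) (nat_lit 7) (nat_lit 4) (nat_lit 447) (nat_lit 342) (nat_lit 231)) (XT.lf (nat_lit 0) (nat_lit 13937073833) (nat_lit 76) (nat_lit 92623098000) (nat_lit 76) (nat_lit 72301064042) (nat_lit 6) (nat_lit 4) (nat_lit 7) (nat_lit 5) (nat_lit 7) (nat_lit 4) (nat_lit 448) (nat_lit 342) (nat_lit 230))))) (XT.nd (nat_lit 234) (nat_lit 152) (nat_lit 0) (XT.nd (nat_lit 78) (nat_lit 0) (nat_lit 0) (XT.lf (nat_lit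 0) (nat_lit 43940310649) (nat_lit 76) (nat_lit 81724661878) (nat_lit 76) (nat_lit 61398512736) (nat_lit 6) (nat_lit 4) (nat_lit 7) (nat_lit 5) (nat_lit 7) (nat_lit 4) (nat_lit 449) (nat_lit 342) (nat_lit 229)) (XT.nd (nat_lit 78) (nat_lit 0) (nat_lit 0) (XT.lf (nat_lit 0) (nat_lit 75432266560) (nat_lit 76) (nat_lit 70286969090) (nat_lit 76) (nat_lit 49956900724) (nat_lit 6) (nat_lit 4) (nat_lit 7) (nat_lit 5) (nat_lit 7) (nat_lit 4) (nat_lit 450) (nat_lit 342) (nat_lit 228)) (XT.lf (nat_lit 0) (nat_lit 108487922410) (nat_lit 76) (nat_lit 58282787033) (nat_lit 76) (nat_lit 37948986074) (nat_lit 6) (nat_lit 4) (nat_lit 7) (nat_lit 5) (nat_lit 7) (nat_lit 4) (nat_lit 451) (nat_lit 342) (nat_lit 227)))) (XT.nd (nat_lit 156) (nat_lit 152) (nat_lit 0) (XT.nd (nat_lit 78) (nat_lit 0) (nat_lit 0) (XT.lf (nat_lit 0) (nat_lit 143185982144) (nat_lit 76) (nat_lit 45683534322) (nat_lit 76) (nat_lit 25346178512)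 (nat_lit 6) (nat_lit 4) (nat_lit 7) (nat_lit 5) (nat_lit 7) (nat_lit 4) (nat_lit 452) (nat_lit 342) (nat_lit 226)) (XT.lf (nat_lit 0) (nat_lit 179609060189) (nat_lit 76) (nat_lit 32459212736) (nat_lit 76) (nat_lit 12118471353) (nat_lit 6) (nat_lit 4) (nat_lit 7) (nat_lit 5) (nat_lit 7) (nat_lit 4) (nat_lit 453) (nat_lit 342) (nat_lit 225))) (XT.nd (nat_lit 78) (nat_lit 76) (nat_lit 0) (XT.lf (nat_lit 0) (nat_lit 1709118757) (nat_lit 152) (nat_lit 16840272284) (nat_lit 76) (nat_lit 216105814650) (nat_lit 5) (nat_lit 5) (nat_lit 7) (nat_lit 5) (nat_lit 6) (nat_lit 4) (nat_lit 454) (nat_lit 342) (nat_lit 224)) (XT.lf (nat_lit 0) (nat_lit 12475523186) (nat_lit 76) (nat_lit 3535481563) (nat_lit 152) (nat_lit 229616643705) (nat_lit 4) (nat_lit 5) (nat_lit 5) (nat_lit 5) (nat_lit 6) (nat_lit 4) (nat_lit 455) (nat_lit 342) (nat_lit 223))))))))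
noncomputable def xc104 : XT := (XT.nd (nat_lit 44460) (nat_lit 0) (nat_lit 5472) (XT.nd (nat_lit 936) (nat_lit 0) (nat_lit 0) (XT.nd (nat_lit 468) (nat_lit 76) (nat_lit 0) (XT.nd (nat_lit 234) (nat_lit 0) (nat_lit 0) (XT.nd (nat_lit 78) (nat_lit 0) (nat_lit 0) (XT.lf (nat_lit 0) (nat_lit 31504197663) (nat_lit 152) (nat_lit 213497423029) (nat_lit 0) (nat_lit 12123282296) (nat_lit 4) (nat_lit 5) (nat_lit 6) (nat_lit 4) (nat_lit 4) (nat_lit 4) (nat_lit 456) (nat_lit 342) (nat_lit 222)) (XT.nd (nat_lit 78) (nat_lit 0) (nat_lit 0) (XT.lf (nat_lit 0) (nat_lit 47825635788) (nat_lit 152) (nat_lit 192926637697) (nat_lit 0) (nat_lit 28442067737) (nat_lit 4) (nat_lit 5) (nat_lit 6) (nat_lit 4) (nat_lit 4) (nat_lit 4) (nat_lit 457) (nat_lit 342) (nat_lit 221)) (XT.lf (nat_lit 0) (nat_lit 64958980917) (nat_lit 152) (nat_lit 171335592438) (nat_lit 0) (nat_lit 45572886499) (nat_lit 4) (nat_lit 5) (nat_lit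 6) (nat_lit 4) (nat_lit 4) (nat_lit 4) (nat_lit 458) (nat_lit 342) (nat_lit 220)))) (XT.nd (nat_lit 78) (nat_lit 0) (nat_lit 0) (XT.lf (nat_lit 0) (nat_lit 82945026726) (nat_lit 152) (nat_lit 148672880000) (nat_lit 0) (nat_lit 63556526246) (nat_lit 4) (nat_lit 5) (nat_lit 6) (nat_lit 4) (nat_lit 4) (nat_lit 4) (nat_lit 459) (nat_lit 342) (nat_lit 219)) (XT.nd (nat_lit 78) (nat_lit 0) (nat_lit 0) (XT.lf (nat_lit 0) (nat_lit 101826597137) (nat_lit 152) (nat_lit 124884541545) (nat_lit 0) (nat_lit 82435805168) (nat_lit 4) (nat_lit 5) (nat_lit 6) (nat_lit 4) (nat_lit 4) (nat_lit 4) (nat_lit 460) (nat_lit 342) (nat_lit 218)) (XT.lf (nat_lit 0) (nat_lit 121648648268) (nat_lit 152) (nat_lit 99913938171) (nat_lit 0) (nat_lit 102255673928) (nat_lit 4) (nat_lit 5) (nat_lit 6) (nat_lit 4) (nat_lit 4) (nat_lit 4) (nat_lit 461) (nat_lit 342) (nat_lit 217))))) (XT.nd (nat_lit 234) (nat_lit 76) (nat_lit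 0) (XT.nd (nat_lit 78) (nat_lit 0) (nat_lit 0) (XT.lf (nat_lit 0) (nat_lit 142458375479) (nat_lit 152) (nat_lit 73701616060) (nat_lit 0) (nat_lit 123063322691) (nat_lit 4) (nat_lit 5) (nat_lit 6) (nat_lit 4) (nat_lit 4) (nat_lit 4) (nat_lit 462) (nat_lit 342) (nat_lit 216)) (XT.nd (nat_lit 78) (nat_lit 0) (nat_lit 0) (XT.lf (nat_lit 0) (nat_lit 164305325739) (nat_lit 152) (nat_lit 46185164923) (nat_lit 0) (nat_lit 144908293478) (nat_lit 4) (nat_lit 5) (nat_lit 6) (nat_lit 4) (nat_lit 4) (nat_lit 4) (nat_lit 463) (nat_lit 342) (nat_lit 215)) (XT.lf (nat_lit 0) (nat_lit 187241515598) (nat_lit 152) (nat_lit 17299069400) (nat_lit 0) (nat_lit 167842598124) (nat_lit 4) (nat_lit 5) (nat_lit 6) (nat_lit 4) (nat_lit 4) (nat_lit 4) (nat_lit 464) (nat_lit 342) (nat_lit 214)))) (XT.nd (nat_lit 78) (nat_lit 0) (nat_lit 0) (XT.lf (nat_lit 0) (nat_lit 13456127028) (nat_lit 76) (nat_lit 198075515857) (nat_lit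 76) (nat_lit 178674802941) (nat_lit 3) (nat_lit 4) (nat_lit 4) (nat_lit 5) (nat_lit 4) (nat_lit 4) (nat_lit 465) (nat_lit 342) (nat_lit 213)) (XT.nd (nat_lit 78) (nat_lit 0) (nat_lit 0) (XT.lf (nat_lit 0) (nat_lit 46343878836) (nat_lit 76) (nat_lit 190982456456) (nat_lit 76) (nat_lit 171580033596) (nat_lit 3) (nat_lit 4) (nat_lit 4) (nat_lit 5) (nat_lit 4) (nat_lit 4) (nat_lit 466) (nat_lit 342) (nat_lit 212)) (XT.lf (nat_lit 0) (nat_lit 80870504836) (nat_lit 76) (nat_lit 183537486671) (nat_lit 76) (nat_lit 164133435292) (nat_lit 3) (nat_lit 4) (nat_lit 4) (nat_lit 5) (nat_lit 4) (nat_lit 4) (nat_lit 467) (nat_lit 342) (nat_lit 211)))))) (XT.nd (nat_lit 468) (nat_lit 0) (nat_lit 0) (XT.nd (nat_lit 234) (nat_lit 0) (nat_lit 0) (XT.nd (nat_lit 78) (nat_lit 0) (nat_lit 0) (XT.lf (nat_lit 0) (nat_lit 117118211279) (nat_lit 76) (nat_lit 175722880382) (nat_lit 76) (nat_lit 156317278034) (nat_lit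 3) (nat_lit 4) (nat_lit 4) (nat_lit 5) (nat_lit 4) (nat_lit 4) (nat_lit 468) (nat_lit 342) (nat_lit 210)) (XT.nd (nat_lit 78) (nat_lit 0) (nat_lit 0) (XT.lf (nat_lit 0) (nat_lit 155173302230) (nat_lit 76) (nat_lit 167520031385) (nat_lit 76) (nat_lit 148112951923) (nat_lit 3) (nat_lit 4) (nat_lit 4) (nat_lit 5) (nat_lit 4) (nat_lit 4) (nat_lit 469) (nat_lit 342) (nat_lit 209)) (XT.lf (nat_lit 0) (nat_lit 195126385047) (nat_lit 76) (nat_lit 158909409086) (nat_lit 76) (nat_lit 139500922849) (nat_lit 3) (nat_lit 4) (nat_lit 4) (nat_lit 5) (nat_lit 4) (nat_lit 4) (nat_lit 470) (nat_lit 342) (nat_lit 208)))) (XT.nd (nat_lit 78) (nat_lit 0) (nat_lit 0) (XT.lf (nat_lit 0) (nat_lit 237072586118) (nat_lit 76) (nat_lit 149870512004) (nat_lit 76) (nat_lit 130460685981) (nat_lit 3) (nat_lit 4) (nat_lit 4) (nat_lit 5) (nat_lit 4) (nat_lit 4) (nat_lit 471) (nat_lit 342) (nat_lit 207)) (XT.nd (nat_lit 78)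 (nat_lit 0) (nat_lit 0) (XT.lf (nat_lit 0) (nat_lit 281111777350) (nat_lit 76) (nat_lit 140381818956) (nat_lit 76) (nat_lit 120970716946) (nat_lit 3) (nat_lit 4) (nat_lit 4) (nat_lit 5) (nat_lit 4) (nat_lit 4) (nat_lit 472) (nat_lit 342) (nat_lit 206)) (XT.lf (nat_lit 0) (nat_lit 327348813961) (nat_lit 76) (nat_lit 130420737814) (nat_lit 76) (nat_lit 111008420580) (nat_lit 3) (nat_lit 4) (nat_lit 4) (nat_lit 5) (nat_lit 4) (nat_lit 4) (nat_lit 473) (nat_lit 342) (nat_lit 205))))) (XT.nd (nat_lit 234) (nat_lit 0) (nat_lit 0) (XT.nd (nat_lit 78) (nat_lit 0) (nat_lit 0) (XT.lf (nat_lit 0) (nat_lit 375893784133) (nat_lit 76) (nat_lit 119963551720) (nat_lit 76) (nat_lit 100550077128) (nat_lit 3) (nat_lit 4) (nat_lit 4) (nat_lit 5) (nat_lit 4) (nat_lit 4) (nat_lit 474) (nat_lit 342) (nat_lit 204)) (XT.nd (nat_lit 78) (nat_lit 0) (nat_lit 0) (XT.lf (nat_lit 0) (nat_lit 426862271128) (nat_lit 76)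 (nat_lit 108985362611) (nat_lit 76) (nat_lit 89570785773) (nat_lit 3) (nat_lit 4) (nat_lit 4) (nat_lit 5) (nat_lit 4) (nat_lit 4) (nat_lit 475) (nat_lit 342) (nat_lit 203)) (XT.lf (nat_lit 0) (nat_lit 480375628486) (nat_lit 76) (nat_lit 97460031941) (nat_lit 76) (nat_lit 78044405346) (nat_lit 3) (nat_lit 4) (nat_lit 4) (nat_lit 5) (nat_lit 4) (nat_lit 4) (nat_lit 476) (nat_lit 342) (nat_lit 202)))) (XT.nd (nat_lit 42666) (nat_lit 0) (nat_lit 12160) (XT.nd (nat_lit 78) (nat_lit 0) (nat_lit 0) (XT.lf (nat_lit 0) (nat_lit 536561268964) (nat_lit 76) (nat_lit 85360118447) (nat_lit 76) (nat_lit 65943492084) (nat_lit 3) (nat_lit 4) (nat_lit 4) (nat_lit 5) (nat_lit 4) (nat_lit 4) (nat_lit 477) (nat_lit 342) (nat_lit 201)) (XT.lf (nat_lit 0) (nat_lit 595552967896) (nat_lit 76) (nat_lit 72656812812) (nat_lit 76) (nat_lit 53239234287) (nat_lit 3) (nat_lit 4) (nat_lit 4) (nat_lit 5) (nat_lit 4) (nat_lit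 4) (nat_lit 478) (nat_lit 342) (nat_lit 200))) (XT.nd (nat_lit 78) (nat_lit 0) (nat_lit 0) (XT.lf (nat_lit 0) (nat_lit 985913360) (nat_lit 0) (nat_lit 985913360) (nat_lit 228) (nat_lit 1301050376) (nat_lit 163) (nat_lit 5) (nat_lit 163) (nat_lit 3) (nat_lit 166) (nat_lit 3) (nat_lit 343) (nat_lit 343) (nat_lit 334)) (XT.lf (nat_lit 0) (nat_lit 5232339519) (nat_lit 0) (nat_lit 1232150989) (nat_lit 228) (nat_lit 120945355) (nat_lit 163) (nat_lit 5) (nat_lit 163) (nat_lit 3) (nat_lit 166) (nat_lit 3) (nat_lit 344) (nat_lit 343) (nat_lit 333))))))) (XT.nd (nat_lit 1014) (nat_lit 3192) (nat_lit 0) (XT.nd (nat_lit 468) (nat_lit 2356) (nat_lit 0) (XT.nd (nat_lit 234) (nat_lit 456) (nat_lit 0) (XT.nd (nat_lit 78) (nat_lit 304) (nat_lit 0) (XT.lf (nat_lit 76) (nat_lit 1970128988) (nat_lit 0) (nat_lit 307613534) (nat_lit 380) (nat_lit 4353944175) (nat_lit 159) (nat_lit 5) (nat_lit 158) (nat_lit 3)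 (nat_lit 163) (nat_lit 5) (nat_lit 345) (nat_lit 343) (nat_lit 332)) (XT.nd (nat_lit 78) (nat_lit 380) (nat_lit 0) (XT.lf (nat_lit 0) (nat_lit 4675503888) (nat_lit 304) (nat_lit 1275738598) (nat_lit 380) (nat_lit 734913738) (nat_lit 159) (nat_lit 5) (nat_lit 163) (nat_lit 5) (nat_lit 164) (nat_lit 5) (nat_lit 346) (nat_lit 343) (nat_lit 331)) (XT.lf (nat_lit 0) (nat_lit 330627034) (nat_lit 380) (nat_lit 4493414353) (nat_lit 456) (nat_lit 1924345815) (nat_lit 154) (nat_lit 5) (nat_lit 159) (nat_lit 5) (nat_lit 160) (nat_lit 5) (nat_lit 347) (nat_lit 343) (nat_lit 330)))) (XT.nd (nat_lit 78) (nat_lit 456) (nat_lit 0) (XT.lf (nat_lit 0) (nat_lit 2603177648) (nat_lit 380) (nat_lit 928952509) (nat_lit 456) (nat_lit 3286005516) (nat_lit 154) (nat_lit 5) (nat_lit 159) (nat_lit 5) (nat_lit 160) (nat_lit 5) (nat_lit 348) (nat_lit 343) (nat_lit 329)) (XT.nd (nat_lit 78) (nat_lit 456) (nat_lit 0) (XT.lf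 (nat_lit 76) (nat_lit 2818712667) (nat_lit 0) (nat_lit 2081145361) (nat_lit 456) (nat_lit 1996124560) (nat_lit 155) (nat_lit 5) (nat_lit 154) (nat_lit 5) (nat_lit 160) (nat_lit 5) (nat_lit 349) (nat_lit 343) (nat_lit 328)) (XT.lf (nat_lit 0) (nat_lit 208272817) (nat_lit 456) (nat_lit 284696161) (nat_lit 532) (nat_lit 6490350827) (nat_lit 148) (nat_lit 5) (nat_lit 154) (nat_lit 5) (nat_lit 155) (nat_lit 5) (nat_lit 350) (nat_lit 343) (nat_lit 327))))) (XT.nd (nat_lit 234) (nat_lit 1976) (nat_lit 0) (XT.nd (nat_lit 78) (nat_lit 456) (nat_lit 0) (XT.lf (nat_lit 0) (nat_lit 2409546862) (nat_lit 456) (nat_lit 3398217965) (nat_lit 76) (nat_lit 1268053501) (nat_lit 149) (nat_lit 5) (nat_lit 155) (nat_lit 5) (nat_lit 150) (nat_lit 5) (nat_lit 351) (nat_lit 343) (nat_lit 326)) (XT.nd (nat_lit 78) (nat_lit 0) (nat_lit 0) (XT.lf (nat_lit 0) (nat_lit 596705763) (nat_lit 456) (nat_lit 4027225407) (nat_lit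 532) (nat_lit 2553970274) (nat_lit 143) (nat_lit 5) (nat_lit 149) (nat_lit 5) (nat_lit 150) (nat_lit 5) (nat_lit 352) (nat_lit 343) (nat_lit 325)) (XT.lf (nat_lit 0) (nat_lit 4821369437) (nat_lit 456) (nat_lit 2070269032) (nat_lit 532) (nat_lit 396426721) (nat_lit 143) (nat_lit 5) (nat_lit 149) (nat_lit 5) (nat_lit 150) (nat_lit 5) (nat_lit 353) (nat_lit 343) (nat_lit 324)))) (XT.nd (nat_lit 156) (nat_lit 1368) (nat_lit 0) (XT.nd (nat_lit 78) (nat_lit 0) (nat_lit 0) (XT.lf (nat_lit 0) (nat_lit 1726888614) (nat_lit 608) (nat_lit 5613409526) (nat_lit 76) (nat_lit 66191012) (nat_lit 135) (nat_lit 5) (nat_lit 143) (nat_lit 5) (nat_lit 136) (nat_lit 5) (nat_lit 354) (nat_lit 343) (nat_lit 323)) (XT.lf (nat_lit 0) (nat_lit 3912369162) (nat_lit 608) (nat_lit 1310341900) (nat_lit 76) (nat_lit 2309424352) (nat_lit 135) (nat_lit 5) (nat_lit 143) (nat_lit 5) (nat_lit 136) (nat_lit 5) (nat_lit 355)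 (nat_lit 343) (nat_lit 322))) (XT.nd (nat_lit 78) (nat_lit 760) (nat_lit 0) (XT.lf (nat_lit 0) (nat_lit 3223473497) (nat_lit 608) (nat_lit 2932000199) (nat_lit 684) (nat_lit 1511260547) (nat_lit 127) (nat_lit 5) (nat_lit 135) (nat_lit 5) (nat_lit 136) (nat_lit 5) (nat_lit 356) (nat_lit 343) (nat_lit 321)) (XT.lf (nat_lit 0) (nat_lit 125649700) (nat_lit 684) (nat_lit 478885913) (nat_lit 760) (nat_lit 7206840709) (nat_lit 117) (nat_lit 5) (nat_lit 126) (nat_lit 5) (nat_lit 127) (nat_lit 5) (nat_lit 357) (nat_lit 343) (nat_lit 320)))))) (XT.nd (nat_lit 468) (nat_lit 1672) (nat_lit 0) (XT.nd (nat_lit 234) (nat_lit 760) (nat_lit 0) (XT.nd (nat_lit 78) (nat_lit 760) (nat_lit 0) (XT.lf (nat_lit 0) (nat_lit 2787921212) (nat_lit 760) (nat_lit 3034129663) (nat_lit 76) (nat_lit 2139407301) (nat_lit 117) (nat_lit 5) (nat_lit 127) (nat_lit 5) (nat_lit 118) (nat_lit 5) (nat_lit 358) (nat_lit 343) (nat_lit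 319)) (XT.nd (nat_lit 78) (nat_lit 0) (nat_lit 0) (XT.lf (nat_lit 0) (nat_lit 1811449827) (nat_lit 760) (nat_lit 3213127517) (nat_lit 836) (nat_lit 3097333909) (nat_lit 107) (nat_lit 5) (nat_lit 117) (nat_lit 5) (nat_lit 118) (nat_lit 5) (nat_lit 359) (nat_lit 343) (nat_lit 318)) (XT.lf (nat_lit 0) (nat_lit 6917353027) (nat_lit 760) (nat_lit 418086109) (nat_lit 836) (nat_lit 956897962) (nat_lit 107) (nat_lit 5) (nat_lit 117) (nat_lit 5) (nat_lit 118) (nat_lit 5) (nat_lit 360) (nat_lit 343) (nat_lit 317)))) (XT.nd (nat_lit 78) (nat_lit 304) (nat_lit 0) (XT.lf (nat_lit 0) (nat_lit 1263326914) (nat_lit 456) (nat_lit 4688828264) (nat_lit 76) (nat_lit 2517480302) (nat_lit 101) (nat_lit 5) (nat_lit 107) (nat_lit 5) (nat_lit 102) (nat_lit 5) (nat_lit 361) (nat_lit 343) (nat_lit 316)) (XT.nd (nat_lit 78) (nat_lit 0) (nat_lit 0) (XT.lf (nat_lit 0) (nat_lit 491421538) (nat_lit 304) (nat_lit 3025716625)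 (nat_lit 380) (nat_lit 5140199009) (nat_lit 97) (nat_lit 5) (nat_lit 101) (nat_lit 5) (nat_lit 102) (nat_lit 5) (nat_lit 362) (nat_lit 343) (nat_lit 315)) (XT.lf (nat_lit 0) (nat_lit 5884129136) (nat_lit 380) (nat_lit 2850457769) (nat_lit 76) (nat_lit 119869154) (nat_lit 97) (nat_lit 5) (nat_lit 102) (nat_lit 5) (nat_lit 98) (nat_lit 5) (nat_lit 363) (nat_lit 343) (nat_lit 314))))) (XT.nd (nat_lit 234) (nat_lit 912) (nat_lit 0) (XT.nd (nat_lit 78) (nat_lit 380) (nat_lit 0) (XT.lf (nat_lit 0) (nat_lit 2679860191) (nat_lit 380) (nat_lit 5703951822) (nat_lit 456) (nat_lit 676955629) (nat_lit 92) (nat_lit 5) (nat_lit 97) (nat_lit 5) (nat_lit 98) (nat_lit 5) (nat_lit 364) (nat_lit 343) (nat_lit 313)) (XT.nd (nat_lit 78) (nat_lit 304) (nat_lit 0) (XT.lf (nat_lit 0) (nat_lit 1648702691) (nat_lit 456) (nat_lit 805385772) (nat_lit 76) (nat_lit 6823352654) (nat_lit 91) (nat_lit 5) (nat_lit 97) (nat_lit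 5) (nat_lit 92) (nat_lit 5) (nat_lit 365) (nat_lit 343) (nat_lit 312)) (XT.lf (nat_lit 0) (nat_lit 4091644693) (nat_lit 380) (nat_lit 4402768758) (nat_lit 76) (nat_lit 1008838923) (nat_lit 87) (nat_lit 5) (nat_lit 92) (nat_lit 5) (nat_lit 88) (nat_lit 5) (nat_lit 366) (nat_lit 343) (nat_lit 311)))) (XT.nd (nat_lit 156) (nat_lit 608) (nat_lit 0) (XT.nd (nat_lit 78) (nat_lit 0) (nat_lit 0) (XT.lf (nat_lit 0) (nat_lit 1511820820) (nat_lit 304) (nat_lit 5152154332) (nat_lit 380) (nat_lit 3076061295) (nat_lit 83) (nat_lit 5) (nat_lit 87) (nat_lit 5) (nat_lit 88) (nat_lit 5) (nat_lit 367) (nat_lit 343) (nat_lit 310)) (XT.lf (nat_lit 0) (nat_lit 7790334170) (nat_lit 304) (nat_lit 1580727721) (nat_lit 380) (nat_lit 617333054) (nat_lit 83) (nat_lit 5) (nat_lit 87) (nat_lit 5) (nat_lit 88) (nat_lit 5) (nat_lit 368) (nat_lit 343) (nat_lit 309))) (XT.nd (nat_lit 78) (nat_lit 304) (nat_lit 0) (XT.lf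 (nat_lit 0) (nat_lit 1935203587) (nat_lit 304) (nat_lit 6129926068) (nat_lit 76) (nat_lit 2180859420) (nat_lit 79) (nat_lit 5) (nat_lit 83) (nat_lit 5) (nat_lit 80) (nat_lit 5) (nat_lit 369) (nat_lit 343) (nat_lit 308)) (XT.lf (nat_lit 0) (nat_lit 192613815) (nat_lit 304) (nat_lit 4404106439) (nat_lit 380) (nat_lit 5919168127) (nat_lit 75) (nat_lit 5) (nat_lit 79) (nat_lit 5) (nat_lit 80) (nat_lit 5) (nat_lit 370) (nat_lit 343) (nat_lit 307))))))))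
noncomputable def xc105 : XT := (XT.nd (nat_lit 1950) (nat_lit 1520) (nat_lit 0) (XT.nd (nat_lit 936) (nat_lit 1216) (nat_lit 0) (XT.nd (nat_lit 468) (nat_lit 912) (nat_lit 0) (XT.nd (nat_lit 234) (nat_lit 456) (nat_lit 0) (XT.nd (nat_lit 78) (nat_lit 304) (nat_lit 0) (XT.lf (nat_lit 0) (nat_lit 6960950915) (nat_lit 304) (nat_lit 471299183) (nat_lit 380) (nat_lit 3365020413) (nat_lit 75) (nat_lit 5) (nat_lit 79) (nat_lit 5) (nat_lit 80) (nat_lit 5) (nat_lit 371) (nat_lit 343) (nat_lit 306)) (XT.nd (nat_lit 78) (nat_lit 76) (nat_lit 0) (XT.lf (nat_lit 0) (nat_lit 2929725343) (nat_lit 228) (nat_lit 7522503019) (nat_lit 304) (nat_lit 638392863) (nat_lit 72) (nat_lit 5) (nat_lit 75) (nat_lit 5) (nat_lit 76) (nat_lit 5) (nat_lit 372) (nat_lit 343) (nat_lit 305)) (XT.lf (nat_lit 0) (nat_lit 2167560890) (nat_lit 304) (nat_lit 1354244786) (nat_lit 76) (nat_lit 7874417469) (nat_lit 71) (nat_lit 5)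 (nat_lit 75) (nat_lit 5) (nat_lit 72) (nat_lit 5) (nat_lit 373) (nat_lit 343) (nat_lit 304)))) (XT.nd (nat_lit 78) (nat_lit 228) (nat_lit 0) (XT.lf (nat_lit 0) (nat_lit 5139559267) (nat_lit 304) (nat_lit 5834582580) (nat_lit 76) (nat_lit 740108554) (nat_lit 68) (nat_lit 5) (nat_lit 72) (nat_lit 5) (nat_lit 69) (nat_lit 5) (nat_lit 374) (nat_lit 343) (nat_lit 303)) (XT.nd (nat_lit 78) (nat_lit 0) (nat_lit 0) (XT.lf (nat_lit 0) (nat_lit 1381534090) (nat_lit 228) (nat_lit 6925655758) (nat_lit 304) (nat_lit 3738664768) (nat_lit 65) (nat_lit 5) (nat_lit 68) (nat_lit 5) (nat_lit 69) (nat_lit 5) (nat_lit 375) (nat_lit 343) (nat_lit 302)) (XT.lf (nat_lit 0) (nat_lit 9082474530) (nat_lit 228) (nat_lit 2595376757) (nat_lit 304) (nat_lit 713981200) (nat_lit 65) (nat_lit 5) (nat_lit 68) (nat_lit 5) (nat_lit 69) (nat_lit 5) (nat_lit 376) (nat_lit 343) (nat_lit 301))))) (XT.nd (nat_lit 234) (nat_lit 456)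 (nat_lit 0) (XT.nd (nat_lit 78) (nat_lit 152) (nat_lit 0) (XT.lf (nat_lit 0) (nat_lit 2431872240) (nat_lit 304) (nat_lit 8343749597) (nat_lit 76) (nat_lit 1975152380) (nat_lit 61) (nat_lit 5) (nat_lit 65) (nat_lit 5) (nat_lit 62) (nat_lit 5) (nat_lit 377) (nat_lit 343) (nat_lit 300)) (XT.nd (nat_lit 78) (nat_lit 152) (nat_lit 0) (XT.lf (nat_lit 0) (nat_lit 5759026774) (nat_lit 304) (nat_lit 633440941) (nat_lit 76) (nat_lit 6732232331) (nat_lit 61) (nat_lit 5) (nat_lit 65) (nat_lit 5) (nat_lit 62) (nat_lit 5) (nat_lit 378) (nat_lit 343) (nat_lit 299)) (XT.lf (nat_lit 0) (nat_lit 7632844309) (nat_lit 152) (nat_lit 1689808960) (nat_lit 228) (nat_lit 4191184504) (nat_lit 59) (nat_lit 5) (nat_lit 61) (nat_lit 5) (nat_lit 62) (nat_lit 5) (nat_lit 379) (nat_lit 343) (nat_lit 298)))) (XT.nd (nat_lit 78) (nat_lit 228) (nat_lit 0) (XT.lf (nat_lit 0) (nat_lit 2362598876) (nat_lit 228) (nat_lit 10752121447)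 (nat_lit 304) (nat_lit 805219404) (nat_lit 56) (nat_lit 5) (nat_lit 59) (nat_lit 5) (nat_lit 60) (nat_lit 5) (nat_lit 380) (nat_lit 343) (nat_lit 297)) (XT.nd (nat_lit 78) (nat_lit 152) (nat_lit 0) (XT.lf (nat_lit 0) (nat_lit 2743075663) (nat_lit 304) (nat_lit 3266161414) (nat_lit 76) (nat_lit 8330928811) (nat_lit 55) (nat_lit 5) (nat_lit 59) (nat_lit 5) (nat_lit 56) (nat_lit 5) (nat_lit 381) (nat_lit 343) (nat_lit 296)) (XT.lf (nat_lit 0) (nat_lit 5531938270) (nat_lit 152) (nat_lit 950553997) (nat_lit 228) (nat_lit 8296230240) (nat_lit 53) (nat_lit 5) (nat_lit 55) (nat_lit 5) (nat_lit 56) (nat_lit 5) (nat_lit 382) (nat_lit 343) (nat_lit 295)))))) (XT.nd (nat_lit 468) (nat_lit 684) (nat_lit 0) (XT.nd (nat_lit 234) (nat_lit 152) (nat_lit 0) (XT.nd (nat_lit 78) (nat_lit 380) (nat_lit 0) (XT.lf (nat_lit 0) (nat_lit 10488257557) (nat_lit 228) (nat_lit 494281711) (nat_lit 76) (nat_lit 4252715499)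 (nat_lit 53) (nat_lit 5) (nat_lit 56) (nat_lit 5) (nat_lit 54) (nat_lit 5) (nat_lit 383) (nat_lit 343) (nat_lit 294)) (XT.nd (nat_lit 78) (nat_lit 228) (nat_lit 0) (XT.lf (nat_lit 0) (nat_lit 8896254076) (nat_lit 152) (nat_lit 5909743562) (nat_lit 228) (nat_lit 903047586) (nat_lit 51) (nat_lit 5) (nat_lit 53) (nat_lit 5) (nat_lit 54) (nat_lit 5) (nat_lit 384) (nat_lit 343) (nat_lit 293)) (XT.lf (nat_lit 0) (nat_lit 2530244345) (nat_lit 152) (nat_lit 508078612) (nat_lit 228) (nat_lit 13165495743) (nat_lit 48) (nat_lit 5) (nat_lit 50) (nat_lit 5) (nat_lit 51) (nat_lit 5) (nat_lit 385) (nat_lit 343) (nat_lit 292)))) (XT.nd (nat_lit 78) (nat_lit 152) (nat_lit 0) (XT.lf (nat_lit 0) (nat_lit 7302343692) (nat_lit 228) (nat_lit 4307541552) (nat_lit 76) (nat_lit 5104922646) (nat_lit 48) (nat_lit 5) (nat_lit 51) (nat_lit 5) (nat_lit 49) (nat_lit 5) (nat_lit 386) (nat_lit 343) (nat_lit 291)) (XT.nd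 (nat_lit 78) (nat_lit 0) (nat_lit 0) (XT.lf (nat_lit 0) (nat_lit 5632430905) (nat_lit 152) (nat_lit 6203441056) (nat_lit 228) (nat_lit 5412672342) (nat_lit 46) (nat_lit 5) (nat_lit 48) (nat_lit 5) (nat_lit 49) (nat_lit 5) (nat_lit 387) (nat_lit 343) (nat_lit 290)) (XT.lf (nat_lit 0) (nat_lit 16153713757) (nat_lit 152) (nat_lit 476236864) (nat_lit 228) (nat_lit 1177335681) (nat_lit 46) (nat_lit 5) (nat_lit 48) (nat_lit 5) (nat_lit 49) (nat_lit 5) (nat_lit 388) (nat_lit 343) (nat_lit 289))))) (XT.nd (nat_lit 234) (nat_lit 304) (nat_lit 0) (XT.nd (nat_lit 78) (nat_lit 152) (nat_lit 0) (XT.lf (nat_lit 0) (nat_lit 3356671304) (nat_lit 228) (nat_lit 9495424132) (nat_lit 76) (nat_lit 5529750935) (nat_lit 43) (nat_lit 5) (nat_lit 46) (nat_lit 5) (nat_lit 44) (nat_lit 5) (nat_lit 389) (nat_lit 343) (nat_lit 288)) (XT.nd (nat_lit 78) (nat_lit 0) (nat_lit 0) (XT.lf (nat_lit 0) (nat_lit 966627058) (nat_lit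 152) (nat_lit 7125142358) (nat_lit 228) (nat_lit 10891712918) (nat_lit 41) (nat_lit 5) (nat_lit 43) (nat_lit 5) (nat_lit 44) (nat_lit 5) (nat_lit 390) (nat_lit 343) (nat_lit 287)) (XT.lf (nat_lit 0) (nat_lit 12218635048) (nat_lit 152) (nat_lit 969192535) (nat_lit 228) (nat_lit 6421172508) (nat_lit 41) (nat_lit 5) (nat_lit 43) (nat_lit 5) (nat_lit 44) (nat_lit 5) (nat_lit 391) (nat_lit 343) (nat_lit 286)))) (XT.nd (nat_lit 156) (nat_lit 152) (nat_lit 0) (XT.nd (nat_lit 78) (nat_lit 76) (nat_lit 0) (XT.lf (nat_lit 0) (nat_lit 3740195978) (nat_lit 76) (nat_lit 14907422045) (nat_lit 152) (nat_lit 1612739010) (nat_lit 40) (nat_lit 5) (nat_lit 41) (nat_lit 5) (nat_lit 42) (nat_lit 4) (nat_lit 392) (nat_lit 343) (nat_lit 285)) (XT.lf (nat_lit 0) (nat_lit 3434151703) (nat_lit 152) (nat_lit 5387109818) (nat_lit 76) (nat_lit 12114946156) (nat_lit 39) (nat_lit 5) (nat_lit 41) (nat_lit 5) (nat_lit 40)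 (nat_lit 5) (nat_lit 393) (nat_lit 343) (nat_lit 284))) (XT.nd (nat_lit 78) (nat_lit 0) (nat_lit 0) (XT.lf (nat_lit 0) (nat_lit 6423303166) (nat_lit 152) (nat_lit 2322754861) (nat_lit 228) (nat_lit 12895135860) (nat_lit 37) (nat_lit 5) (nat_lit 39) (nat_lit 5) (nat_lit 40) (nat_lit 5) (nat_lit 394) (nat_lit 343) (nat_lit 283)) (XT.lf (nat_lit 0) (nat_lit 14453447502) (nat_lit 228) (nat_lit 3496119581) (nat_lit 76) (nat_lit 4425375967) (nat_lit 37) (nat_lit 5) (nat_lit 40) (nat_lit 5) (nat_lit 38) (nat_lit 4) (nat_lit 395) (nat_lit 343) (nat_lit 282))))))) (XT.nd (nat_lit 1014) (nat_lit 608) (nat_lit 0) (XT.nd (nat_lit 468) (nat_lit 304) (nat_lit 0) (XT.nd (nat_lit 234) (nat_lit 304) (nat_lit 0) (XT.nd (nat_lit 78) (nat_lit 228) (nat_lit 0) (XT.lf (nat_lit 0) (nat_lit 9005953576) (nat_lit 76) (nat_lit 11587406341) (nat_lit 152) (nat_lit 2544669735) (nat_lit 36) (nat_lit 5) (nat_lit 37) (nat_lit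 5) (nat_lit 38) (nat_lit 4) (nat_lit 396) (nat_lit 343) (nat_lit 281)) (XT.nd (nat_lit 78) (nat_lit 152) (nat_lit 0) (XT.lf (nat_lit 0) (nat_lit 3030521105) (nat_lit 152) (nat_lit 1787286425) (nat_lit 76) (nat_lit 19117610480) (nat_lit 35) (nat_lit 5) (nat_lit 37) (nat_lit 5) (nat_lit 36) (nat_lit 5) (nat_lit 397) (nat_lit 343) (nat_lit 280)) (XT.lf (nat_lit 0) (nat_lit 8986752266) (nat_lit 228) (nat_lit 13356219049) (nat_lit 76) (nat_lit 2418235369) (nat_lit 33) (nat_lit 5) (nat_lit 36) (nat_lit 5) (nat_lit 34) (nat_lit 4) (nat_lit 398) (nat_lit 343) (nat_lit 279)))) (XT.nd (nat_lit 78) (nat_lit 304) (nat_lit 0) (XT.lf (nat_lit 0) (nat_lit 15320871926) (nat_lit 228) (nat_lit 440995553) (nat_lit 76) (nat_lit 9862419760) (nat_lit 33) (nat_lit 5) (nat_lit 36) (nat_lit 5) (nat_lit 34) (nat_lit 4) (nat_lit 399) (nat_lit 343) (nat_lit 278)) (XT.nd (nat_lit 78) (nat_lit 228) (nat_lit 0) (XT.lf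 (nat_lit 0) (nat_lit 13500987431) (nat_lit 76) (nat_lit 8653242888) (nat_lit 152) (nat_lit 4367170861) (nat_lit 32) (nat_lit 5) (nat_lit 33) (nat_lit 5) (nat_lit 34) (nat_lit 4) (nat_lit 400) (nat_lit 343) (nat_lit 277)) (XT.lf (nat_lit 0) (nat_lit 632131054) (nat_lit 152) (nat_lit 1163340238) (nat_lit 228) (nat_lit 25666983105) (nat_lit 29) (nat_lit 5) (nat_lit 31) (nat_lit 5) (nat_lit 32) (nat_lit 5) (nat_lit 401) (nat_lit 343) (nat_lit 276))))) (XT.nd (nat_lit 234) (nat_lit 228) (nat_lit 0) (XT.nd (nat_lit 78) (nat_lit 76) (nat_lit 0) (XT.lf (nat_lit 0) (nat_lit 8420267139) (nat_lit 228) (nat_lit 13251455009) (nat_lit 76) (nat_lit 6760224301) (nat_lit 29) (nat_lit 5) (nat_lit 32) (nat_lit 5) (nat_lit 30) (nat_lit 4) (nat_lit 402) (nat_lit 343) (nat_lit 275)) (XT.nd (nat_lit 78) (nat_lit 0) (nat_lit 0) (XT.lf (nat_lit 0) (nat_lit 969326840) (nat_lit 76) (nat_lit 14414555279) (nat_lit 152)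 (nat_lit 14065656949) (nat_lit 28) (nat_lit 5) (nat_lit 29) (nat_lit 5) (nat_lit 30) (nat_lit 4) (nat_lit 403) (nat_lit 343) (nat_lit 274)) (XT.lf (nat_lit 0) (nat_lit 16313015169) (nat_lit 76) (nat_lit 6580972226) (nat_lit 152) (nat_lit 7614113145) (nat_lit 28) (nat_lit 5) (nat_lit 29) (nat_lit 5) (nat_lit 30) (nat_lit 4) (nat_lit 404) (nat_lit 343) (nat_lit 273)))) (XT.nd (nat_lit 156) (nat_lit 76) (nat_lit 0) (XT.nd (nat_lit 78) (nat_lit 76) (nat_lit 0) (XT.lf (nat_lit 0) (nat_lit 756004979) (nat_lit 76) (nat_lit 30035873017) (nat_lit 76) (nat_lit 827102560) (nat_lit 27) (nat_lit 4) (nat_lit 28) (nat_lit 5) (nat_lit 28) (nat_lit 4) (nat_lit 405) (nat_lit 343) (nat_lit 272)) (XT.lf (nat_lit 0) (nat_lit 6424745418) (nat_lit 152) (nat_lit 16082985647) (nat_lit 76) (nat_lit 10256404987) (nat_lit 26) (nat_lit 5) (nat_lit 28) (nat_lit 5) (nat_lit 27) (nat_lit 4) (nat_lit 406) (nat_lit 343)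 (nat_lit 271))) (XT.nd (nat_lit 78) (nat_lit 76) (nat_lit 0) (XT.lf (nat_lit 0) (nat_lit 13987462160) (nat_lit 152) (nat_lit 622219469) (nat_lit 76) (nat_lit 19357389986) (nat_lit 26) (nat_lit 5) (nat_lit 28) (nat_lit 5) (nat_lit 27) (nat_lit 4) (nat_lit 407) (nat_lit 343) (nat_lit 270)) (XT.lf (nat_lit 0) (nat_lit 16083830722) (nat_lit 76) (nat_lit 6072809529) (nat_lit 152) (nat_lit 13062101108) (nat_lit 25) (nat_lit 5) (nat_lit 26) (nat_lit 5) (nat_lit 27) (nat_lit 4) (nat_lit 408) (nat_lit 343) (nat_lit 269)))))) (XT.nd (nat_lit 468) (nat_lit 304) (nat_lit 0) (XT.nd (nat_lit 234) (nat_lit 152) (nat_lit 0) (XT.nd (nat_lit 78) (nat_lit 152) (nat_lit 0) (XT.lf (nat_lit 0) (nat_lit 30767461938) (nat_lit 152) (nat_lit 2973658325) (nat_lit 0) (nat_lit 2790218600) (nat_lit 25) (nat_lit 5) (nat_lit 27) (nat_lit 4) (nat_lit 25) (nat_lit 4) (nat_lit 409) (nat_lit 343) (nat_lit 268)) (XT.nd (nat_lit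 78) (nat_lit 0) (nat_lit 0) (XT.lf (nat_lit 0) (nat_lit 2144856674) (nat_lit 152) (nat_lit 23615501405) (nat_lit 76) (nat_lit 12132409388) (nat_lit 23) (nat_lit 5) (nat_lit 25) (nat_lit 5) (nat_lit 24) (nat_lit 4) (nat_lit 410) (nat_lit 343) (nat_lit 267)) (XT.lf (nat_lit 0) (nat_lit 10284980333) (nat_lit 152) (nat_lit 6961785286) (nat_lit 76) (nat_lit 22069297549) (nat_lit 23) (nat_lit 5) (nat_lit 25) (nat_lit 5) (nat_lit 24) (nat_lit 4) (nat_lit 411) (nat_lit 343) (nat_lit 266)))) (XT.nd (nat_lit 78) (nat_lit 76) (nat_lit 0) (XT.lf (nat_lit 0) (nat_lit 10832568570) (nat_lit 76) (nat_lit 8148165041) (nat_lit 152) (nat_lit 21822361756) (nat_lit 22) (nat_lit 5) (nat_lit 23) (nat_lit 5) (nat_lit 24) (nat_lit 4) (nat_lit 412) (nat_lit 343) (nat_lit 265)) (XT.nd (nat_lit 78) (nat_lit 76) (nat_lit 0) (XT.lf (nat_lit 0) (nat_lit 28232646735) (nat_lit 152) (nat_lit 12662981489) (nat_lit 0) (nat_lit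 1462785090) (nat_lit 22) (nat_lit 5) (nat_lit 24) (nat_lit 4) (nat_lit 22) (nat_lit 4) (nat_lit 413) (nat_lit 343) (nat_lit 264)) (XT.lf (nat_lit 0) (nat_lit 5515897829) (nat_lit 76) (nat_lit 32631520858) (nat_lit 76) (nat_lit 5834067926) (nat_lit 21) (nat_lit 4) (nat_lit 22) (nat_lit 5) (nat_lit 22) (nat_lit 4) (nat_lit 414) (nat_lit 343) (nat_lit 263))))) (XT.nd (nat_lit 234) (nat_lit 152) (nat_lit 0) (XT.nd (nat_lit 78) (nat_lit 76) (nat_lit 0) (XT.lf (nat_lit 0) (nat_lit 2978865949) (nat_lit 152) (nat_lit 20717055150) (nat_lit 76) (nat_lit 21977623729) (nat_lit 20) (nat_lit 5) (nat_lit 22) (nat_lit 5) (nat_lit 21) (nat_lit 4) (nat_lit 415) (nat_lit 343) (nat_lit 262)) (XT.nd (nat_lit 78) (nat_lit 76) (nat_lit 0) (XT.lf (nat_lit 0) (nat_lit 12017916701) (nat_lit 152) (nat_lit 2212027219) (nat_lit 76) (nat_lit 33216405615) (nat_lit 20) (nat_lit 5) (nat_lit 22) (nat_lit 5) (nat_lit 21)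 (nat_lit 4) (nat_lit 416) (nat_lit 343) (nat_lit 261)) (XT.lf (nat_lit 0) (nat_lit 17752842579) (nat_lit 76) (nat_lit 4015661531) (nat_lit 152) (nat_lit 27526313313) (nat_lit 19) (nat_lit 5) (nat_lit 20) (nat_lit 5) (nat_lit 21) (nat_lit 4) (nat_lit 417) (nat_lit 343) (nat_lit 260)))) (XT.nd (nat_lit 156) (nat_lit 76) (nat_lit 0) (XT.nd (nat_lit 78) (nat_lit 76) (nat_lit 0) (XT.lf (nat_lit 0) (nat_lit 32131935256) (nat_lit 152) (nat_lit 12580136687) (nat_lit 0) (nat_lit 6517373095) (nat_lit 19) (nat_lit 5) (nat_lit 21) (nat_lit 4) (nat_lit 19) (nat_lit 4) (nat_lit 418) (nat_lit 343) (nat_lit 259)) (XT.lf (nat_lit 0) (nat_lit 7470997753) (nat_lit 76) (nat_lit 35708334852) (nat_lit 76) (nat_lit 10073183647) (nat_lit 18) (nat_lit 4) (nat_lit 19) (nat_lit 5) (nat_lit 19) (nat_lit 4) (nat_lit 419) (nat_lit 343) (nat_lit 258))) (XT.nd (nat_lit 78) (nat_lit 76) (nat_lit 0) (XT.lf (nat_lit 0) (nat_lit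 28929876642) (nat_lit 76) (nat_lit 26045896205) (nat_lit 76) (nat_lit 391136389) (nat_lit 18) (nat_lit 4) (nat_lit 19) (nat_lit 5) (nat_lit 19) (nat_lit 4) (nat_lit 420) (nat_lit 343) (nat_lit 257)) (XT.lf (nat_lit 0) (nat_lit 9446296560) (nat_lit 152) (nat_lit 6308526736) (nat_lit 76) (nat_lit 41825362250) (nat_lit 17) (nat_lit 5) (nat_lit 19) (nat_lit 5) (nat_lit 18) (nat_lit 4) (nat_lit 421) (nat_lit 343) (nat_lit 256))))))))
noncomputable def xc106 : XT := (XT.nd (nat_lit 1950) (nat_lit 304) (nat_lit 0) (XT.nd (nat_lit 936) (nat_lit 380) (nat_lit 0) (XT.nd (nat_lit 468) (nat_lit 152) (nat_lit 0) (XT.nd (nat_lit 234) (nat_lit 152) (nat_lit 0) (XT.nd (nat_lit 78) (nat_lit 0) (nat_lit 0) (XT.lf (nat_lit 0) (nat_lit 15279912596) (nat_lit 76) (nat_lit 4706005877) (nat_lit 152) (nat_lit 39906715099) (nat_lit 16) (nat_lit 5) (nat_lit 17) (nat_lit 5) (nat_lit 18) (nat_lit 4) (nat_lit 422) (nat_lit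 343) (nat_lit 255)) (XT.nd (nat_lit 78) (nat_lit 0) (nat_lit 0) (XT.lf (nat_lit 0) (nat_lit 31253720468) (nat_lit 152) (nat_lit 24287165530) (nat_lit 0) (nat_lit 6769759581) (nat_lit 16) (nat_lit 5) (nat_lit 18) (nat_lit 4) (nat_lit 16) (nat_lit 4) (nat_lit 423) (nat_lit 343) (nat_lit 254)) (XT.lf (nat_lit 0) (nat_lit 43147731987) (nat_lit 152) (nat_lit 3050279447) (nat_lit 0) (nat_lit 18648407239) (nat_lit 16) (nat_lit 5) (nat_lit 18) (nat_lit 4) (nat_lit 16) (nat_lit 4) (nat_lit 424) (nat_lit 343) (nat_lit 253)))) (XT.nd (nat_lit 78) (nat_lit 76) (nat_lit 0) (XT.lf (nat_lit 0) (nat_lit 19857540538) (nat_lit 76) (nat_lit 36075289485) (nat_lit 76) (nat_lit 11561332488) (nat_lit 15) (nat_lit 4) (nat_lit 16) (nat_lit 5) (nat_lit 16) (nat_lit 4) (nat_lit 425) (nat_lit 343) (nat_lit 252)) (XT.nd (nat_lit 78) (nat_lit 76) (nat_lit 0) (XT.lf (nat_lit 0) (nat_lit 43990601653) (nat_lit 76) (nat_lit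 25404836461) (nat_lit 76) (nat_lit 876943990) (nat_lit 15) (nat_lit 4) (nat_lit 16) (nat_lit 5) (nat_lit 16) (nat_lit 4) (nat_lit 426) (nat_lit 343) (nat_lit 251)) (XT.lf (nat_lit 0) (nat_lit 9997691053) (nat_lit 152) (nat_lit 4045897692) (nat_lit 76) (nat_lit 59138500764) (nat_lit 14) (nat_lit 5) (nat_lit 16) (nat_lit 5) (nat_lit 15) (nat_lit 4) (nat_lit 427) (nat_lit 343) (nat_lit 250))))) (XT.nd (nat_lit 234) (nat_lit 76) (nat_lit 0) (XT.nd (nat_lit 78) (nat_lit 0) (nat_lit 0) (XT.lf (nat_lit 0) (nat_lit 19900300312) (nat_lit 76) (nat_lit 1784628736) (nat_lit 152) (nat_lit 54536718459) (nat_lit 13) (nat_lit 5) (nat_lit 14) (nat_lit 5) (nat_lit 15) (nat_lit 4) (nat_lit 428) (nat_lit 343) (nat_lit 249)) (XT.nd (nat_lit 78) (nat_lit 0) (nat_lit 0) (XT.lf (nat_lit 0) (nat_lit 34186957250) (nat_lit 152) (nat_lit 34423788790) (nat_lit 0) (nat_lit 10790917036) (nat_lit 13) (nat_lit 5) (nat_lit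 15) (nat_lit 4) (nat_lit 13) (nat_lit 4) (nat_lit 429) (nat_lit 343) (nat_lit 248)) (XT.lf (nat_lit 0) (nat_lit 47331611930) (nat_lit 152) (nat_lit 11483539369) (nat_lit 0) (nat_lit 23924652906) (nat_lit 13) (nat_lit 5) (nat_lit 15) (nat_lit 4) (nat_lit 13) (nat_lit 4) (nat_lit 430) (nat_lit 343) (nat_lit 247)))) (XT.nd (nat_lit 78) (nat_lit 0) (nat_lit 0) (XT.lf (nat_lit 0) (nat_lit 12997897664) (nat_lit 76) (nat_lit 48327362774) (nat_lit 76) (nat_lit 24910004884) (nat_lit 12) (nat_lit 4) (nat_lit 13) (nat_lit 5) (nat_lit 13) (nat_lit 4) (nat_lit 431) (nat_lit 343) (nat_lit 246)) (XT.nd (nat_lit 78) (nat_lit 0) (nat_lit 0) (XT.lf (nat_lit 0) (nat_lit 39080602587) (nat_lit 76) (nat_lit 37121492126) (nat_lit 76) (nat_lit 13694230554) (nat_lit 12) (nat_lit 4) (nat_lit 13) (nat_lit 5) (nat_lit 13) (nat_lit 4) (nat_lit 432) (nat_lit 343) (nat_lit 245)) (XT.lf (nat_lit 0) (nat_lit 66446979405)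 (nat_lit 76) (nat_lit 25365338006) (nat_lit 76) (nat_lit 1928644357) (nat_lit 12) (nat_lit 4) (nat_lit 13) (nat_lit 5) (nat_lit 13) (nat_lit 4) (nat_lit 433) (nat_lit 343) (nat_lit 244)))))) (XT.nd (nat_lit 468) (nat_lit 152) (nat_lit 0) (XT.nd (nat_lit 234) (nat_lit 76) (nat_lit 0) (XT.nd (nat_lit 78) (nat_lit 76) (nat_lit 0) (XT.lf (nat_lit 0) (nat_lit 10081429422) (nat_lit 152) (nat_lit 2778746264) (nat_lit 76) (nat_lit 84910022850) (nat_lit 11) (nat_lit 5) (nat_lit 13) (nat_lit 5) (nat_lit 12) (nat_lit 4) (nat_lit 434) (nat_lit 343) (nat_lit 243)) (XT.nd (nat_lit 78) (nat_lit 0) (nat_lit 0) (XT.lf (nat_lit 0) (nat_lit 22997749948) (nat_lit 152) (nat_lit 78322652830) (nat_lit 0) (nat_lit 660386374) (nat_lit 10) (nat_lit 5) (nat_lit 12) (nat_lit 4) (nat_lit 10) (nat_lit 4) (nat_lit 435) (nat_lit 343) (nat_lit 242)) (XT.lf (nat_lit 0) (nat_lit 36808929000) (nat_lit 152) (nat_lit 55116723276)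 (nat_lit 0) (nat_lit 14463805632) (nat_lit 10) (nat_lit 5) (nat_lit 12) (nat_lit 4) (nat_lit 10) (nat_lit 4) (nat_lit 436) (nat_lit 343) (nat_lit 241)))) (XT.nd (nat_lit 78) (nat_lit 76) (nat_lit 0) (XT.lf (nat_lit 0) (nat_lit 51301513737) (nat_lit 152) (nat_lit 30768504641) (nat_lit 0) (nat_lit 28949000089) (nat_lit 10) (nat_lit 5) (nat_lit 12) (nat_lit 4) (nat_lit 10) (nat_lit 4) (nat_lit 437) (nat_lit 343) (nat_lit 240)) (XT.nd (nat_lit 78) (nat_lit 76) (nat_lit 0) (XT.lf (nat_lit 0) (nat_lit 66510010313) (nat_lit 152) (nat_lit 5220024975) (nat_lit 0) (nat_lit 44150458303) (nat_lit 10) (nat_lit 5) (nat_lit 12) (nat_lit 4) (nat_lit 10) (nat_lit 4) (nat_lit 438) (nat_lit 343) (nat_lit 239)) (XT.lf (nat_lit 0) (nat_lit 22303393308) (nat_lit 76) (nat_lit 60515454600) (nat_lit 76) (nat_lit 38149199389) (nat_lit 9) (nat_lit 4) (nat_lit 10) (nat_lit 5) (nat_lit 10) (nat_lit 4) (nat_lit 439)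 (nat_lit 343) (nat_lit 238))))) (XT.nd (nat_lit 234) (nat_lit 152) (nat_lit 0) (XT.nd (nat_lit 78) (nat_lit 0) (nat_lit 0) (XT.lf (nat_lit 0) (nat_lit 51368140186) (nat_lit 76) (nat_lit 48655233015) (nat_lit 76) (nat_lit 26282593802) (nat_lit 9) (nat_lit 4) (nat_lit 10) (nat_lit 5) (nat_lit 10) (nat_lit 4) (nat_lit 440) (nat_lit 343) (nat_lit 237)) (XT.nd (nat_lit 78) (nat_lit 0) (nat_lit 0) (XT.lf (nat_lit 0) (nat_lit 81870819838) (nat_lit 76) (nat_lit 36209535558) (nat_lit 76) (nat_lit 13830816343) (nat_lit 9) (nat_lit 4) (nat_lit 10) (nat_lit 5) (nat_lit 10) (nat_lit 4) (nat_lit 441) (nat_lit 343) (nat_lit 236)) (XT.lf (nat_lit 0) (nat_lit 113884057690) (nat_lit 76) (nat_lit 23148729616) (nat_lit 76) (nat_lit 764219924) (nat_lit 9) (nat_lit 4) (nat_lit 10) (nat_lit 5) (nat_lit 10) (nat_lit 4) (nat_lit 442) (nat_lit 343) (nat_lit 235)))) (XT.nd (nat_lit 156) (nat_lit 0) (nat_lit 0) (XT.nd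 (nat_lit 78) (nat_lit 0) (nat_lit 0) (XT.lf (nat_lit 0) (nat_lit 3413688361) (nat_lit 76) (nat_lit 9173488611) (nat_lit 152) (nat_lit 131377537569) (nat_lit 7) (nat_lit 5) (nat_lit 8) (nat_lit 5) (nat_lit 9) (nat_lit 4) (nat_lit 443) (nat_lit 343) (nat_lit 234)) (XT.lf (nat_lit 0) (nat_lit 27070809861) (nat_lit 152) (nat_lit 117602878937) (nat_lit 0) (nat_lit 5741975036) (nat_lit 7) (nat_lit 5) (nat_lit 9) (nat_lit 4) (nat_lit 7) (nat_lit 4) (nat_lit 444) (nat_lit 343) (nat_lit 233))) (XT.nd (nat_lit 78) (nat_lit 0) (nat_lit 0) (XT.lf (nat_lit 0) (nat_lit 42422203890) (nat_lit 152) (nat_lit 93671172955) (nat_lit 0) (nat_lit 21088605225) (nat_lit 7) (nat_lit 5) (nat_lit 9) (nat_lit 4) (nat_lit 7) (nat_lit 4) (nat_lit 445) (nat_lit 343) (nat_lit 232)) (XT.lf (nat_lit 0) (nat_lit 58534686130) (nat_lit 152) (nat_lit 68555704117) (nat_lit 0) (nat_lit 37196550474) (nat_lit 7) (nat_lit 5) (nat_lit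 9) (nat_lit 4) (nat_lit 7) (nat_lit 4) (nat_lit 446) (nat_lit 343) (nat_lit 231))))))) (XT.nd (nat_lit 1014) (nat_lit 76) (nat_lit 0) (XT.nd (nat_lit 468) (nat_lit 152) (nat_lit 0) (XT.nd (nat_lit 234) (nat_lit 0) (nat_lit 0) (XT.nd (nat_lit 78) (nat_lit 76) (nat_lit 0) (XT.lf (nat_lit 0) (nat_lit 75446619635) (nat_lit 152) (nat_lit 42196673688) (nat_lit 0) (nat_lit 54104163035) (nat_lit 7) (nat_lit 5) (nat_lit 9) (nat_lit 4) (nat_lit 7) (nat_lit 4) (nat_lit 447) (nat_lit 343) (nat_lit 230)) (XT.nd (nat_lit 78) (nat_lit 76) (nat_lit 0) (XT.lf (nat_lit 0) (nat_lit 93198270912) (nat_lit 152) (nat_lit 14531322070) (nat_lit 0) (nat_lit 71851699128) (nat_lit 7) (nat_lit 5) (nat_lit 9) (nat_lit 4) (nat_lit 7) (nat_lit 4) (nat_lit 448) (nat_lit 343) (nat_lit 229)) (XT.lf (nat_lit 0) (nat_lit 14985861785) (nat_lit 76) (nat_lit 97080015314) (nat_lit 76) (nat_lit 75729524307) (nat_lit 6) (nat_lit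 4) (nat_lit 7) (nat_lit 5) (nat_lit 7) (nat_lit 4) (nat_lit 449) (nat_lit 343) (nat_lit 228)))) (XT.nd (nat_lit 78) (nat_lit 0) (nat_lit 0) (XT.lf (nat_lit 0) (nat_lit 46472501668) (nat_lit 76) (nat_lit 85644954414) (nat_lit 76) (nat_lit 64290730814) (nat_lit 6) (nat_lit 4) (nat_lit 7) (nat_lit 5) (nat_lit 7) (nat_lit 4) (nat_lit 450) (nat_lit 343) (nat_lit 227)) (XT.nd (nat_lit 78) (nat_lit 0) (nat_lit 0) (XT.lf (nat_lit 0) (nat_lit 79523094636) (nat_lit 76) (nat_lit 73643278918) (nat_lit 76) (nat_lit 52285500466) (nat_lit 6) (nat_lit 4) (nat_lit 7) (nat_lit 5) (nat_lit 7) (nat_lit 4) (nat_lit 451) (nat_lit 343) (nat_lit 226)) (XT.lf (nat_lit 0) (nat_lit 114216332577) (nat_lit 76) (nat_lit 61046413407) (nat_lit 76) (nat_lit 39685249383) (nat_lit 6) (nat_lit 4) (nat_lit 7) (nat_lit 5) (nat_lit 7) (nat_lit 4) (nat_lit 452) (nat_lit 343) (nat_lit 225))))) (XT.nd (nat_lit 234) (nat_lit 76)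 (nat_lit 0) (XT.nd (nat_lit 78) (nat_lit 76) (nat_lit 0) (XT.lf (nat_lit 0) (nat_lit 150634818439) (nat_lit 76) (nat_lit 47824365345) (nat_lit 76) (nat_lit 26459976967) (nat_lit 6) (nat_lit 4) (nat_lit 7) (nat_lit 5) (nat_lit 7) (nat_lit 4) (nat_lit 453) (nat_lit 343) (nat_lit 224)) (XT.nd (nat_lit 78) (nat_lit 76) (nat_lit 0) (XT.lf (nat_lit 0) (nat_lit 188865262901) (nat_lit 76) (nat_lit 33945653665) (nat_lit 76) (nat_lit 12578194473) (nat_lit 6) (nat_lit 4) (nat_lit 7) (nat_lit 5) (nat_lit 7) (nat_lit 4) (nat_lit 454) (nat_lit 343) (nat_lit 223)) (XT.lf (nat_lit 0) (nat_lit 1929356714) (nat_lit 152) (nat_lit 17415202511) (nat_lit 76) (nat_lit 227036659527) (nat_lit 5) (nat_lit 5) (nat_lit 7) (nat_lit 5) (nat_lit 6) (nat_lit 4) (nat_lit 455) (nat_lit 343) (nat_lit 222)))) (XT.nd (nat_lit 156) (nat_lit 0) (nat_lit 0) (XT.nd (nat_lit 78) (nat_lit 0) (nat_lit 0) (XT.lf (nat_lit 0) (nat_lit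 13362074936) (nat_lit 76) (nat_lit 3581946542) (nat_lit 152) (nat_lit 240958378339) (nat_lit 4) (nat_lit 5) (nat_lit 5) (nat_lit 5) (nat_lit 6) (nat_lit 4) (nat_lit 456) (nat_lit 343) (nat_lit 221)) (XT.lf (nat_lit 0) (nat_lit 33207503720) (nat_lit 152) (nat_lit 223917654027) (nat_lit 0) (nat_lit 12849578215) (nat_lit 4) (nat_lit 5) (nat_lit 6) (nat_lit 4) (nat_lit 4) (nat_lit 4) (nat_lit 457) (nat_lit 343) (nat_lit 220))) (XT.nd (nat_lit 78) (nat_lit 0) (nat_lit 0) (XT.lf (nat_lit 0) (nat_lit 50338913934) (nat_lit 152) (nat_lit 202330455151) (nat_lit 0) (nat_lit 29978582366) (nat_lit 4) (nat_lit 5) (nat_lit 6) (nat_lit 4) (nat_lit 4) (nat_lit 4) (nat_lit 458) (nat_lit 343) (nat_lit 219)) (XT.lf (nat_lit 0) (nat_lit 68323116968) (nat_lit 152) (nat_lit 179671405934) (nat_lit 0) (nat_lit 47960493911) (nat_lit 4) (nat_lit 5) (nat_lit 6) (nat_lit 4) (nat_lit 4) (nat_lit 4) (nat_lit 459) (nat_lit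 343) (nat_lit 218)))))) (XT.nd (nat_lit 468) (nat_lit 76) (nat_lit 0) (XT.nd (nat_lit 234) (nat_lit 0) (nat_lit 0) (XT.nd (nat_lit 78) (nat_lit 0) (nat_lit 0) (XT.lf (nat_lit 0) (nat_lit 87202932354) (nat_lit 152) (nat_lit 155886556261) (nat_lit 0) (nat_lit 66838126927) (nat_lit 4) (nat_lit 5) (nat_lit 6) (nat_lit 4) (nat_lit 4) (nat_lit 4) (nat_lit 460) (nat_lit 343) (nat_lit 217)) (XT.nd (nat_lit 78) (nat_lit 0) (nat_lit 0) (XT.lf (nat_lit 0) (nat_lit 107023312033) (nat_lit 152) (nat_lit 130919275538) (nat_lit 0) (nat_lit 86656428158) (nat_lit 4) (nat_lit 5) (nat_lit 6) (nat_lit 4) (nat_lit 4) (nat_lit 4) (nat_lit 461) (nat_lit 343) (nat_lit 216)) (XT.lf (nat_lit 0) (nat_lit 127831447385) (nat_lit 152) (nat_lit 104710117856) (nat_lit 0) (nat_lit 107462584037) (nat_lit 4) (nat_lit 5) (nat_lit 6) (nat_lit 4) (nat_lit 4) (nat_lit 4) (nat_lit 462) (nat_lit 343) (nat_lit 215)))) (XT.nd (nat_lit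 78) (nat_lit 0) (nat_lit 0) (XT.lf (nat_lit 0) (nat_lit 149676881590) (nat_lit 152) (nat_lit 77196680461) (nat_lit 0) (nat_lit 129306133028) (nat_lit 4) (nat_lit 5) (nat_lit 6) (nat_lit 4) (nat_lit 4) (nat_lit 4) (nat_lit 463) (nat_lit 343) (nat_lit 214)) (XT.nd (nat_lit 78) (nat_lit 0) (nat_lit 0) (XT.lf (nat_lit 0) (nat_lit 172611627585) (nat_lit 152) (nat_lit 48313455167) (nat_lit 0) (nat_lit 152239083583) (nat_lit 4) (nat_lit 5) (nat_lit 6) (nat_lit 4) (nat_lit 4) (nat_lit 4) (nat_lit 464) (nat_lit 343) (nat_lit 213)) (XT.lf (nat_lit 0) (nat_lit 196690291911) (nat_lit 152) (nat_lit 17991672391) (nat_lit 0) (nat_lit 176316037964) (nat_lit 4) (nat_lit 5) (nat_lit 6) (nat_lit 4) (nat_lit 4) (nat_lit 4) (nat_lit 465) (nat_lit 343) (nat_lit 212))))) (XT.nd (nat_lit 234) (nat_lit 0) (nat_lit 0) (XT.nd (nat_lit 78) (nat_lit 0) (nat_lit 0) (XT.lf (nat_lit 0) (nat_lit 14298504011) (nat_lit 76)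 (nat_lit 207894940425) (nat_lit 76) (nat_lit 187519057960) (nat_lit 3) (nat_lit 4) (nat_lit 4) (nat_lit 5) (nat_lit 4) (nat_lit 4) (nat_lit 466) (nat_lit 343) (nat_lit 211)) (XT.nd (nat_lit 78) (nat_lit 0) (nat_lit 0) (XT.lf (nat_lit 0) (nat_lit 48822568618) (nat_lit 76) (nat_lit 200451244780) (nat_lit 76) (nat_lit 180073811345) (nat_lit 3) (nat_lit 4) (nat_lit 4) (nat_lit 5) (nat_lit 4) (nat_lit 4) (nat_lit 467) (nat_lit 343) (nat_lit 210)) (XT.lf (nat_lit 0) (nat_lit 85067835640) (nat_lit 76) (nat_lit 192637851957) (nat_lit 76) (nat_lit 172258941409) (nat_lit 3) (nat_lit 4) (nat_lit 4) (nat_lit 5) (nat_lit 4) (nat_lit 4) (nat_lit 468) (nat_lit 343) (nat_lit 209)))) (XT.nd (nat_lit 156) (nat_lit 0) (nat_lit 0) (XT.nd (nat_lit 78) (nat_lit 0) (nat_lit 0) (XT.lf (nat_lit 0) (nat_lit 123120603331) (nat_lit 76) (nat_lit 184436158642) (nat_lit 76) (nat_lit 164055841318) (nat_lit 3) (nat_lit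 4) (nat_lit 4) (nat_lit 5) (nat_lit 4) (nat_lit 4) (nat_lit 469) (nat_lit 343) (nat_lit 208)) (XT.lf (nat_lit 0) (nat_lit 163071473520) (nat_lit 76) (nat_lit 175826636993) (nat_lit 76) (nat_lit 155444979883) (nat_lit 3) (nat_lit 4) (nat_lit 4) (nat_lit 5) (nat_lit 4) (nat_lit 4) (nat_lit 470) (nat_lit 343) (nat_lit 207))) (XT.nd (nat_lit 78) (nat_lit 0) (nat_lit 0) (XT.lf (nat_lit 0) (nat_lit 205015567327) (nat_lit 76) (nat_lit 166788788149) (nat_lit 76) (nat_lit 146405855053) (nat_lit 3) (nat_lit 4) (nat_lit 4) (nat_lit 5) (nat_lit 4) (nat_lit 4) (nat_lit 471) (nat_lit 343) (nat_lit 206)) (XT.lf (nat_lit 0) (nat_lit 249052751641) (nat_lit 76) (nat_lit 157301093422) (nat_lit 76) (nat_lit 136916945101) (nat_lit 3) (nat_lit 4) (nat_lit 4) (nat_lit 5) (nat_lit 4) (nat_lit 4) (nat_lit 472) (nat_lit 343) (nat_lit 205))))))))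
noncomputable def xc107 : XT := (XT.nd (nat_lit 44538) (nat_lit 0) (nat_lit 3268) (XT.nd (nat_lit 43524) (nat_lit 0) (nat_lit 7448) (XT.nd (nat_lit 43056) (nat_lit 0) (nat_lit 11400) (XT.nd (nat_lit 234) (nat_lit 0) (nat_lit 0) (XT.nd (nat_lit 78) (nat_lit 0) (nat_lit 0) (XT.lf (nat_lit 0) (nat_lit 295287876900) (nat_lit 76) (nat_lit 147340963064) (nat_lit 76) (nat_lit 126955657384) (nat_lit 3) (nat_lit 4) (nat_lit 4) (nat_lit 5) (nat_lit 4) (nat_lit 4) (nat_lit 473) (nat_lit 343) (nat_lit 204)) (XT.nd (nat_lit 78) (nat_lit 0) (nat_lit 0) (XT.lf (nat_lit 0) (nat_lit 343831026738) (nat_lit 76) (nat_lit 136884682476) (nat_lit 76) (nat_lit 116498274552) (nat_lit 3) (nat_lit 4) (nat_lit 4) (nat_lit 5) (nat_lit 4) (nat_lit 4) (nat_lit 474) (nat_lit 343) (nat_lit 203)) (XT.lf (nat_lit 0) (nat_lit 394797780081) (nat_lit 76) (nat_lit 125907355755) (nat_lit 76) (nat_lit 105519898073) (nat_lit 3)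 (nat_lit 4) (nat_lit 4) (nat_lit 5) (nat_lit 4) (nat_lit 4) (nat_lit 475) (nat_lit 343) (nat_lit 202)))) (XT.nd (nat_lit 78) (nat_lit 0) (nat_lit 0) (XT.lf (nat_lit 0) (nat_lit 448309486343) (nat_lit 76) (nat_lit 114382846407) (nat_lit 76) (nat_lit 93994388956) (nat_lit 3) (nat_lit 4) (nat_lit 4) (nat_lit 5) (nat_lit 4) (nat_lit 4) (nat_lit 476) (nat_lit 343) (nat_lit 201)) (XT.nd (nat_lit 78) (nat_lit 0) (nat_lit 0) (XT.lf (nat_lit 0) (nat_lit 504493554347) (nat_lit 76) (nat_lit 102283715125) (nat_lit 76) (nat_lit 81894305513) (nat_lit 3) (nat_lit 4) (nat_lit 4) (nat_lit 5) (nat_lit 4) (nat_lit 4) (nat_lit 477) (nat_lit 343) (nat_lit 200)) (XT.lf (nat_lit 0) (nat_lit 563483755686) (nat_lit 76) (nat_lit 89581154452) (nat_lit 76) (nat_lit 69190838021) (nat_lit 3) (nat_lit 4) (nat_lit 4) (nat_lit 5) (nat_lit 4) (nat_lit 4) (nat_lit 478) (nat_lit 343) (nat_lit 199))))) (XT.nd (nat_lit 234)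 (nat_lit 0) (nat_lit 0) (XT.nd (nat_lit 78) (nat_lit 380) (nat_lit 0) (XT.lf (nat_lit 0) (nat_lit 1103853207) (nat_lit 380) (nat_lit 1104875375) (nat_lit 380) (nat_lit 1104875375) (nat_lit 158) (nat_lit 3) (nat_lit 163) (nat_lit 3) (nat_lit 163) (nat_lit 5) (nat_lit 344) (nat_lit 344) (nat_lit 332)) (XT.nd (nat_lit 78) (nat_lit 380) (nat_lit 0) (XT.lf (nat_lit 76) (nat_lit 1043403853) (nat_lit 0) (nat_lit 3471353356) (nat_lit 380) (nat_lit 2163076146) (nat_lit 159) (nat_lit 5) (nat_lit 158) (nat_lit 3) (nat_lit 163) (nat_lit 5) (nat_lit 345) (nat_lit 344) (nat_lit 331)) (XT.lf (nat_lit 0) (nat_lit 90772728) (nat_lit 380) (nat_lit 2279717955) (nat_lit 456) (nat_lit 4365928474) (nat_lit 153) (nat_lit 5) (nat_lit 158) (nat_lit 3) (nat_lit 159) (nat_lit 5) (nat_lit 346) (nat_lit 344) (nat_lit 330)))) (XT.nd (nat_lit 78) (nat_lit 0) (nat_lit 76) (XT.lf (nat_lit 76) (nat_lit 1165820146) (nat_lit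 0) (nat_lit 1097158556) (nat_lit 456) (nat_lit 4539407562) (nat_lit 154) (nat_lit 5) (nat_lit 153) (nat_lit 5) (nat_lit 159) (nat_lit 5) (nat_lit 347) (nat_lit 344) (nat_lit 329)) (XT.nd (nat_lit 78) (nat_lit 0) (nat_lit 0) (XT.lf (nat_lit 0) (nat_lit 4453274832) (nat_lit 380) (nat_lit 2096553173) (nat_lit 456) (nat_lit 326485860) (nat_lit 154) (nat_lit 5) (nat_lit 159) (nat_lit 5) (nat_lit 160) (nat_lit 5) (nat_lit 348) (nat_lit 344) (nat_lit 328)) (XT.lf (nat_lit 76) (nat_lit 1571597856) (nat_lit 0) (nat_lit 5096862812) (nat_lit 456) (nat_lit 289838082) (nat_lit 155) (nat_lit 5) (nat_lit 154) (nat_lit 5) (nat_lit 160) (nat_lit 5) (nat_lit 349) (nat_lit 344) (nat_lit 327)))))) (XT.nd (nat_lit 468) (nat_lit 2584) (nat_lit 0) (XT.nd (nat_lit 234) (nat_lit 988) (nat_lit 0) (XT.nd (nat_lit 78) (nat_lit 0) (nat_lit 0) (XT.lf (nat_lit 0) (nat_lit 1799232478) (nat_lit 456) (nat_lit 1661791920)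 (nat_lit 532) (nat_lit 3586372688) (nat_lit 148) (nat_lit 5) (nat_lit 154) (nat_lit 5) (nat_lit 155) (nat_lit 5) (nat_lit 350) (nat_lit 344) (nat_lit 326)) (XT.nd (nat_lit 78) (nat_lit 0) (nat_lit 76) (XT.lf (nat_lit 76) (nat_lit 2236083519) (nat_lit 0) (nat_lit 1663305318) (nat_lit 532) (nat_lit 3245617287) (nat_lit 149) (nat_lit 5) (nat_lit 148) (nat_lit 5) (nat_lit 155) (nat_lit 5) (nat_lit 351) (nat_lit 344) (nat_lit 325)) (XT.lf (nat_lit 0) (nat_lit 6023086575) (nat_lit 456) (nat_lit 948674007) (nat_lit 76) (nat_lit 279915018) (nat_lit 149) (nat_lit 5) (nat_lit 155) (nat_lit 5) (nat_lit 150) (nat_lit 5) (nat_lit 352) (nat_lit 344) (nat_lit 324)))) (XT.nd (nat_lit 78) (nat_lit 532) (nat_lit 0) (XT.lf (nat_lit 0) (nat_lit 829345264) (nat_lit 532) (nat_lit 4174953934) (nat_lit 76) (nat_lit 2360356007) (nat_lit 142) (nat_lit 5) (nat_lit 149) (nat_lit 5) (nat_lit 143) (nat_lit 5) (nat_lit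 353) (nat_lit 344) (nat_lit 323)) (XT.nd (nat_lit 78) (nat_lit 532) (nat_lit 0) (XT.lf (nat_lit 0) (nat_lit 2859154388) (nat_lit 532) (nat_lit 18357298) (nat_lit 76) (nat_lit 4609343866) (nat_lit 142) (nat_lit 5) (nat_lit 149) (nat_lit 5) (nat_lit 143) (nat_lit 5) (nat_lit 354) (nat_lit 344) (nat_lit 322)) (XT.lf (nat_lit 0) (nat_lit 4407711296) (nat_lit 532) (nat_lit 550547142) (nat_lit 608) (nat_lit 2658605006) (nat_lit 135) (nat_lit 5) (nat_lit 142) (nat_lit 5) (nat_lit 143) (nat_lit 5) (nat_lit 355) (nat_lit 344) (nat_lit 321))))) (XT.nd (nat_lit 234) (nat_lit 1216) (nat_lit 0) (XT.nd (nat_lit 78) (nat_lit 760) (nat_lit 0) (XT.lf (nat_lit 0) (nat_lit 1228728404) (nat_lit 608) (nat_lit 5885519119) (nat_lit 684) (nat_lit 641611289) (nat_lit 127) (nat_lit 5) (nat_lit 135) (nat_lit 5) (nat_lit 136) (nat_lit 5) (nat_lit 356) (nat_lit 344) (nat_lit 320)) (XT.nd (nat_lit 78) (nat_lit 684) (nat_lit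 0) (XT.lf (nat_lit 0) (nat_lit 1397856145) (nat_lit 684) (nat_lit 2017424661) (nat_lit 76) (nat_lit 4487002906) (nat_lit 126) (nat_lit 5) (nat_lit 135) (nat_lit 5) (nat_lit 127) (nat_lit 5) (nat_lit 357) (nat_lit 344) (nat_lit 319)) (XT.lf (nat_lit 0) (nat_lit 2712846474) (nat_lit 684) (nat_lit 756393563) (nat_lit 760) (nat_lit 4588760830) (nat_lit 117) (nat_lit 5) (nat_lit 126) (nat_lit 5) (nat_lit 127) (nat_lit 5) (nat_lit 358) (nat_lit 344) (nat_lit 318)))) (XT.nd (nat_lit 156) (nat_lit 456) (nat_lit 0) (XT.nd (nat_lit 78) (nat_lit 760) (nat_lit 0) (XT.lf (nat_lit 0) (nat_lit 5623049472) (nat_lit 760) (nat_lit 586962437) (nat_lit 76) (nat_lit 2012617911) (nat_lit 117) (nat_lit 5) (nat_lit 127) (nat_lit 5) (nat_lit 118) (nat_lit 5) (nat_lit 359) (nat_lit 344) (nat_lit 317)) (XT.lf (nat_lit 0) (nat_lit 4458978710) (nat_lit 760) (nat_lit 3424112756) (nat_lit 836) (nat_lit 512537129) (nat_lit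 107) (nat_lit 5) (nat_lit 117) (nat_lit 5) (nat_lit 118) (nat_lit 5) (nat_lit 360) (nat_lit 344) (nat_lit 316))) (XT.nd (nat_lit 78) (nat_lit 0) (nat_lit 0) (XT.lf (nat_lit 0) (nat_lit 1128610236) (nat_lit 380) (nat_lit 442118227) (nat_lit 456) (nat_lit 7008017449) (nat_lit 101) (nat_lit 5) (nat_lit 106) (nat_lit 5) (nat_lit 107) (nat_lit 5) (nat_lit 361) (nat_lit 344) (nat_lit 315)) (XT.lf (nat_lit 0) (nat_lit 3771190595) (nat_lit 456) (nat_lit 2320000688) (nat_lit 76) (nat_lit 2677951371) (nat_lit 101) (nat_lit 5) (nat_lit 107) (nat_lit 5) (nat_lit 102) (nat_lit 5) (nat_lit 362) (nat_lit 344) (nat_lit 314))))))) (XT.nd (nat_lit 1014) (nat_lit 1672) (nat_lit 0) (XT.nd (nat_lit 468) (nat_lit 1140) (nat_lit 0) (XT.nd (nat_lit 234) (nat_lit 608) (nat_lit 0) (XT.nd (nat_lit 78) (nat_lit 456) (nat_lit 0) (XT.lf (nat_lit 0) (nat_lit 3077273395) (nat_lit 304) (nat_lit 2983993624) (nat_lit 380)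 (nat_lit 2908866526) (nat_lit 97) (nat_lit 5) (nat_lit 101) (nat_lit 5) (nat_lit 102) (nat_lit 5) (nat_lit 363) (nat_lit 344) (nat_lit 313)) (XT.nd (nat_lit 78) (nat_lit 456) (nat_lit 0) (XT.lf (nat_lit 0) (nat_lit 8436702599) (nat_lit 380) (nat_lit 442182698) (nat_lit 76) (nat_lit 303797226) (nat_lit 97) (nat_lit 5) (nat_lit 102) (nat_lit 5) (nat_lit 98) (nat_lit 5) (nat_lit 364) (nat_lit 344) (nat_lit 312)) (XT.lf (nat_lit 0) (nat_lit 1539311745) (nat_lit 456) (nat_lit 4104121106) (nat_lit 76) (nat_lit 3758128522) (nat_lit 91) (nat_lit 5) (nat_lit 97) (nat_lit 5) (nat_lit 92) (nat_lit 5) (nat_lit 365) (nat_lit 344) (nat_lit 311)))) (XT.nd (nat_lit 78) (nat_lit 304) (nat_lit 0) (XT.lf (nat_lit 0) (nat_lit 1669428589) (nat_lit 304) (nat_lit 2209073703) (nat_lit 380) (nat_lit 5754079530) (nat_lit 87) (nat_lit 5) (nat_lit 91) (nat_lit 5) (nat_lit 92) (nat_lit 5) (nat_lit 366) (nat_lit 344)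 (nat_lit 310)) (XT.nd (nat_lit 78) (nat_lit 304) (nat_lit 0) (XT.lf (nat_lit 0) (nat_lit 6360006730) (nat_lit 380) (nat_lit 2102437264) (nat_lit 76) (nat_lit 1411483793) (nat_lit 87) (nat_lit 5) (nat_lit 92) (nat_lit 5) (nat_lit 88) (nat_lit 5) (nat_lit 367) (nat_lit 344) (nat_lit 309)) (XT.lf (nat_lit 0) (nat_lit 4067229052) (nat_lit 304) (nat_lit 4934166327) (nat_lit 380) (nat_lit 1124195421) (nat_lit 83) (nat_lit 5) (nat_lit 87) (nat_lit 5) (nat_lit 88) (nat_lit 5) (nat_lit 368) (nat_lit 344) (nat_lit 308))))) (XT.nd (nat_lit 234) (nat_lit 532) (nat_lit 0) (XT.nd (nat_lit 78) (nat_lit 304) (nat_lit 0) (XT.lf (nat_lit 0) (nat_lit 133465526) (nat_lit 228) (nat_lit 1182378672) (nat_lit 304) (nat_lit 9074190183) (nat_lit 79) (nat_lit 5) (nat_lit 82) (nat_lit 5) (nat_lit 83) (nat_lit 5) (nat_lit 369) (nat_lit 344) (nat_lit 307)) (XT.nd (nat_lit 78) (nat_lit 304) (nat_lit 0) (XT.lf (nat_lit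 0) (nat_lit 3925855447) (nat_lit 304) (nat_lit 3960994913) (nat_lit 76) (nat_lit 2775675539) (nat_lit 79) (nat_lit 5) (nat_lit 83) (nat_lit 5) (nat_lit 80) (nat_lit 5) (nat_lit 370) (nat_lit 344) (nat_lit 306)) (XT.lf (nat_lit 0) (nat_lit 2637745715) (nat_lit 304) (nat_lit 4030541914) (nat_lit 380) (nat_lit 4280291417) (nat_lit 75) (nat_lit 5) (nat_lit 79) (nat_lit 5) (nat_lit 80) (nat_lit 5) (nat_lit 371) (nat_lit 344) (nat_lit 305)))) (XT.nd (nat_lit 156) (nat_lit 228) (nat_lit 0) (XT.nd (nat_lit 78) (nat_lit 304) (nat_lit 0) (XT.lf (nat_lit 0) (nat_lit 9558995220) (nat_lit 380) (nat_lit 1621043121) (nat_lit 76) (nat_lit 68370317) (nat_lit 75) (nat_lit 5) (nat_lit 80) (nat_lit 5) (nat_lit 76) (nat_lit 5) (nat_lit 372) (nat_lit 344) (nat_lit 304)) (XT.lf (nat_lit 0) (nat_lit 1095931939) (nat_lit 304) (nat_lit 6139239107) (nat_lit 76) (nat_lit 4322386317) (nat_lit 71) (nat_lit 5) (nat_lit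 75) (nat_lit 5) (nat_lit 72) (nat_lit 5) (nat_lit 373) (nat_lit 344) (nat_lit 303))) (XT.nd (nat_lit 78) (nat_lit 0) (nat_lit 0) (XT.lf (nat_lit 0) (nat_lit 911242828) (nat_lit 228) (nat_lit 3040628169) (nat_lit 304) (nat_lit 7929529861) (nat_lit 68) (nat_lit 5) (nat_lit 71) (nat_lit 5) (nat_lit 72) (nat_lit 5) (nat_lit 374) (nat_lit 344) (nat_lit 302)) (XT.lf (nat_lit 0) (nat_lit 7024636875) (nat_lit 304) (nat_lit 3787874959) (nat_lit 76) (nat_lit 1405249113) (nat_lit 68) (nat_lit 5) (nat_lit 72) (nat_lit 5) (nat_lit 69) (nat_lit 5) (nat_lit 375) (nat_lit 344) (nat_lit 301)))))) (XT.nd (nat_lit 468) (nat_lit 684) (nat_lit 0) (XT.nd (nat_lit 234) (nat_lit 456) (nat_lit 0) (XT.nd (nat_lit 78) (nat_lit 304) (nat_lit 0) (XT.lf (nat_lit 0) (nat_lit 3751330822) (nat_lit 228) (nat_lit 6557710295) (nat_lit 304) (nat_lit 2259022600) (nat_lit 65) (nat_lit 5) (nat_lit 68) (nat_lit 5) (nat_lit 69)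 (nat_lit 5) (nat_lit 376) (nat_lit 344) (nat_lit 300)) (XT.nd (nat_lit 78) (nat_lit 228) (nat_lit 0) (XT.lf (nat_lit 0) (nat_lit 810728079) (nat_lit 304) (nat_lit 1220470061) (nat_lit 76) (nat_lit 10903302035) (nat_lit 64) (nat_lit 5) (nat_lit 68) (nat_lit 5) (nat_lit 65) (nat_lit 5) (nat_lit 377) (nat_lit 344) (nat_lit 299)) (XT.lf (nat_lit 0) (nat_lit 4062232526) (nat_lit 304) (nat_lit 6489982988) (nat_lit 76) (nat_lit 2760003394) (nat_lit 61) (nat_lit 5) (nat_lit 65) (nat_lit 5) (nat_lit 62) (nat_lit 5) (nat_lit 378) (nat_lit 344) (nat_lit 298)))) (XT.nd (nat_lit 78) (nat_lit 304) (nat_lit 0) (XT.lf (nat_lit 0) (nat_lit 1547221169) (nat_lit 152) (nat_lit 5960834043) (nat_lit 228) (nat_lit 6199201517) (nat_lit 59) (nat_lit 5) (nat_lit 61) (nat_lit 5) (nat_lit 62) (nat_lit 5) (nat_lit 379) (nat_lit 344) (nat_lit 297)) (XT.nd (nat_lit 78) (nat_lit 304) (nat_lit 0) (XT.lf (nat_lit 0) (nat_lit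 10142415855) (nat_lit 152) (nat_lit 1048088867) (nat_lit 228) (nat_lit 2928344273) (nat_lit 59) (nat_lit 5) (nat_lit 61) (nat_lit 5) (nat_lit 62) (nat_lit 5) (nat_lit 380) (nat_lit 344) (nat_lit 296)) (XT.lf (nat_lit 0) (nat_lit 584108321) (nat_lit 304) (nat_lit 9923100992) (nat_lit 76) (nat_lit 4038721579) (nat_lit 55) (nat_lit 5) (nat_lit 59) (nat_lit 5) (nat_lit 56) (nat_lit 5) (nat_lit 381) (nat_lit 344) (nat_lit 295))))) (XT.nd (nat_lit 234) (nat_lit 380) (nat_lit 0) (XT.nd (nat_lit 78) (nat_lit 304) (nat_lit 0) (XT.lf (nat_lit 0) (nat_lit 4215970441) (nat_lit 304) (nat_lit 1335272738) (nat_lit 76) (nat_lit 9438630205) (nat_lit 55) (nat_lit 5) (nat_lit 59) (nat_lit 5) (nat_lit 56) (nat_lit 5) (nat_lit 382) (nat_lit 344) (nat_lit 294)) (XT.nd (nat_lit 78) (nat_lit 152) (nat_lit 0) (XT.lf (nat_lit 0) (nat_lit 7868954563) (nat_lit 152) (nat_lit 241965518) (nat_lit 228) (nat_lit 7341034107)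 (nat_lit 53) (nat_lit 5) (nat_lit 55) (nat_lit 5) (nat_lit 56) (nat_lit 5) (nat_lit 383) (nat_lit 344) (nat_lit 293)) (XT.lf (nat_lit 0) (nat_lit 1544060674) (nat_lit 152) (nat_lit 10746153346) (nat_lit 228) (nat_lit 3642460322) (nat_lit 51) (nat_lit 5) (nat_lit 53) (nat_lit 5) (nat_lit 54) (nat_lit 5) (nat_lit 384) (nat_lit 344) (nat_lit 292)))) (XT.nd (nat_lit 156) (nat_lit 152) (nat_lit 0) (XT.nd (nat_lit 78) (nat_lit 152) (nat_lit 0) (XT.lf (nat_lit 0) (nat_lit 327335136) (nat_lit 228) (nat_lit 5115873615) (nat_lit 76) (nat_lit 10989346937) (nat_lit 50) (nat_lit 5) (nat_lit 53) (nat_lit 5) (nat_lit 51) (nat_lit 5) (nat_lit 385) (nat_lit 344) (nat_lit 291)) (XT.lf (nat_lit 0) (nat_lit 4410944858) (nat_lit 228) (nat_lit 12309616477) (nat_lit 76) (nat_lit 232010478) (nat_lit 48) (nat_lit 5) (nat_lit 51) (nat_lit 5) (nat_lit 49) (nat_lit 5) (nat_lit 386) (nat_lit 344) (nat_lit 290))) (XT.nd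 (nat_lit 78) (nat_lit 152) (nat_lit 0) (XT.lf (nat_lit 0) (nat_lit 8837970315) (nat_lit 228) (nat_lit 2580721068) (nat_lit 76) (nat_lit 6072948063) (nat_lit 48) (nat_lit 5) (nat_lit 51) (nat_lit 5) (nat_lit 49) (nat_lit 5) (nat_lit 387) (nat_lit 344) (nat_lit 289)) (XT.lf (nat_lit 0) (nat_lit 7824924244) (nat_lit 152) (nat_lit 5747346272) (nat_lit 228) (nat_lit 4481105643) (nat_lit 46) (nat_lit 5) (nat_lit 48) (nat_lit 5) (nat_lit 49) (nat_lit 5) (nat_lit 388) (nat_lit 344) (nat_lit 288))))))))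
noncomputable def xc108 : XT := (XT.nd (nat_lit 1950) (nat_lit 912) (nat_lit 0) (XT.nd (nat_lit 936) (nat_lit 760) (nat_lit 0) (XT.nd (nat_lit 468) (nat_lit 532) (nat_lit 0) (XT.nd (nat_lit 234) (nat_lit 152) (nat_lit 0) (XT.nd (nat_lit 78) (nat_lit 228) (nat_lit 0) (XT.lf (nat_lit 0) (nat_lit 139352894) (nat_lit 152) (nat_lit 18417957624) (nat_lit 228) (nat_lit 85199256) (nat_lit 44) (nat_lit 5) (nat_lit 46) (nat_lit 5) (nat_lit 47) (nat_lit 4) (nat_lit 389) (nat_lit 344) (nat_lit 287)) (XT.nd (nat_lit 78) (nat_lit 152) (nat_lit 0) (XT.lf (nat_lit 0) (nat_lit 4620156501) (nat_lit 228) (nat_lit 8100369827) (nat_lit 76) (nat_lit 6525314383) (nat_lit 43) (nat_lit 5) (nat_lit 46) (nat_lit 5) (nat_lit 44) (nat_lit 5) (nat_lit 390) (nat_lit 344) (nat_lit 286)) (XT.lf (nat_lit 0) (nat_lit 2854625447) (nat_lit 152) (nat_lit 6713932542) (nat_lit 228) (nat_lit 10310188078) (nat_lit 41) (nat_lit 5)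 (nat_lit 43) (nat_lit 5) (nat_lit 44) (nat_lit 5) (nat_lit 391) (nat_lit 344) (nat_lit 285)))) (XT.nd (nat_lit 78) (nat_lit 152) (nat_lit 0) (XT.lf (nat_lit 0) (nat_lit 14581630644) (nat_lit 152) (nat_lit 286731273) (nat_lit 228) (nat_lit 5669744956) (nat_lit 41) (nat_lit 5) (nat_lit 43) (nat_lit 5) (nat_lit 44) (nat_lit 5) (nat_lit 392) (nat_lit 344) (nat_lit 284)) (XT.nd (nat_lit 78) (nat_lit 76) (nat_lit 0) (XT.lf (nat_lit 0) (nat_lit 5690297968) (nat_lit 76) (nat_lit 14900613175) (nat_lit 152) (nat_lit 631645680) (nat_lit 40) (nat_lit 5) (nat_lit 41) (nat_lit 5) (nat_lit 42) (nat_lit 4) (nat_lit 393) (nat_lit 344) (nat_lit 283)) (XT.lf (nat_lit 0) (nat_lit 4584667175) (nat_lit 152) (nat_lit 3944718957) (nat_lit 76) (nat_lit 13404444413) (nat_lit 39) (nat_lit 5) (nat_lit 41) (nat_lit 5) (nat_lit 40) (nat_lit 5) (nat_lit 394) (nat_lit 344) (nat_lit 282))))) (XT.nd (nat_lit 234) (nat_lit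 304) (nat_lit 0) (XT.nd (nat_lit 78) (nat_lit 76) (nat_lit 0) (XT.lf (nat_lit 0) (nat_lit 8428605863) (nat_lit 152) (nat_lit 1713247159) (nat_lit 228) (nat_lit 12533240600) (nat_lit 37) (nat_lit 5) (nat_lit 39) (nat_lit 5) (nat_lit 40) (nat_lit 5) (nat_lit 395) (nat_lit 344) (nat_lit 281)) (XT.nd (nat_lit 78) (nat_lit 76) (nat_lit 0) (XT.lf (nat_lit 0) (nat_lit 16099759357) (nat_lit 228) (nat_lit 2031908285) (nat_lit 76) (nat_lit 5315616441) (nat_lit 37) (nat_lit 5) (nat_lit 40) (nat_lit 5) (nat_lit 38) (nat_lit 4) (nat_lit 396) (nat_lit 344) (nat_lit 280)) (XT.lf (nat_lit 0) (nat_lit 11068832767) (nat_lit 76) (nat_lit 11459028709) (nat_lit 152) (nat_lit 1721614507) (nat_lit 36) (nat_lit 5) (nat_lit 37) (nat_lit 5) (nat_lit 38) (nat_lit 4) (nat_lit 397) (nat_lit 344) (nat_lit 279)))) (XT.nd (nat_lit 78) (nat_lit 228) (nat_lit 0) (XT.lf (nat_lit 0) (nat_lit 4058117200) (nat_lit 152) (nat_lit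 311698371) (nat_lit 76) (nat_lit 20718376212) (nat_lit 35) (nat_lit 5) (nat_lit 37) (nat_lit 5) (nat_lit 36) (nat_lit 5) (nat_lit 398) (nat_lit 344) (nat_lit 278)) (XT.nd (nat_lit 78) (nat_lit 76) (nat_lit 0) (XT.lf (nat_lit 0) (nat_lit 10305118812) (nat_lit 228) (nat_lit 12451852115) (nat_lit 76) (nat_lit 3198660238) (nat_lit 33) (nat_lit 5) (nat_lit 36) (nat_lit 5) (nat_lit 34) (nat_lit 4) (nat_lit 399) (nat_lit 344) (nat_lit 277)) (XT.lf (nat_lit 0) (nat_lit 1068464477) (nat_lit 76) (nat_lit 15862779373) (nat_lit 152) (nat_lit 9931865710) (nat_lit 32) (nat_lit 5) (nat_lit 33) (nat_lit 5) (nat_lit 34) (nat_lit 4) (nat_lit 400) (nat_lit 344) (nat_lit 276)))))) (XT.nd (nat_lit 468) (nat_lit 380) (nat_lit 0) (XT.nd (nat_lit 234) (nat_lit 152) (nat_lit 0) (XT.nd (nat_lit 78) (nat_lit 228) (nat_lit 0) (XT.lf (nat_lit 0) (nat_lit 15649198877) (nat_lit 76) (nat_lit 8423978006) (nat_lit 152) (nat_lit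 3733565342) (nat_lit 32) (nat_lit 5) (nat_lit 33) (nat_lit 5) (nat_lit 34) (nat_lit 4) (nat_lit 401) (nat_lit 344) (nat_lit 275)) (XT.nd (nat_lit 78) (nat_lit 0) (nat_lit 0) (XT.lf (nat_lit 0) (nat_lit 2140124092) (nat_lit 152) (nat_lit 553595955) (nat_lit 228) (nat_lit 26101281600) (nat_lit 29) (nat_lit 5) (nat_lit 31) (nat_lit 5) (nat_lit 32) (nat_lit 5) (nat_lit 402) (nat_lit 344) (nat_lit 274)) (XT.lf (nat_lit 0) (nat_lit 9621188264) (nat_lit 228) (nat_lit 12479233485) (nat_lit 76) (nat_lit 7713982147) (nat_lit 29) (nat_lit 5) (nat_lit 32) (nat_lit 5) (nat_lit 30) (nat_lit 4) (nat_lit 403) (nat_lit 344) (nat_lit 273)))) (XT.nd (nat_lit 78) (nat_lit 76) (nat_lit 0) (XT.lf (nat_lit 0) (nat_lit 2429445614) (nat_lit 76) (nat_lit 14488439765) (nat_lit 152) (nat_lit 13965752579) (nat_lit 28) (nat_lit 5) (nat_lit 29) (nat_lit 5) (nat_lit 30) (nat_lit 4) (nat_lit 404) (nat_lit 344) (nat_lit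 272)) (XT.nd (nat_lit 78) (nat_lit 76) (nat_lit 0) (XT.lf (nat_lit 0) (nat_lit 18473096815) (nat_lit 76) (nat_lit 6293979620) (nat_lit 152) (nat_lit 7229878594) (nat_lit 28) (nat_lit 5) (nat_lit 29) (nat_lit 5) (nat_lit 30) (nat_lit 4) (nat_lit 405) (nat_lit 344) (nat_lit 271)) (XT.lf (nat_lit 0) (nat_lit 2143049760) (nat_lit 76) (nat_lit 30912352196) (nat_lit 76) (nat_lit 108206312) (nat_lit 27) (nat_lit 4) (nat_lit 28) (nat_lit 5) (nat_lit 28) (nat_lit 4) (nat_lit 406) (nat_lit 344) (nat_lit 270))))) (XT.nd (nat_lit 234) (nat_lit 228) (nat_lit 0) (XT.nd (nat_lit 78) (nat_lit 76) (nat_lit 0) (XT.lf (nat_lit 0) (nat_lit 7446857531) (nat_lit 152) (nat_lit 15578852840) (nat_lit 76) (nat_lit 11341475532) (nat_lit 26) (nat_lit 5) (nat_lit 28) (nat_lit 5) (nat_lit 27) (nat_lit 4) (nat_lit 407) (nat_lit 344) (nat_lit 269)) (XT.nd (nat_lit 78) (nat_lit 0) (nat_lit 0) (XT.lf (nat_lit 0) (nat_lit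 612248267) (nat_lit 76) (nat_lit 14751645761) (nat_lit 152) (nat_lit 20267570411) (nat_lit 25) (nat_lit 5) (nat_lit 26) (nat_lit 5) (nat_lit 27) (nat_lit 4) (nat_lit 408) (nat_lit 344) (nat_lit 268)) (XT.lf (nat_lit 0) (nat_lit 18113908702) (nat_lit 76) (nat_lit 5805417228) (nat_lit 152) (nat_lit 13027507131) (nat_lit 25) (nat_lit 5) (nat_lit 26) (nat_lit 5) (nat_lit 27) (nat_lit 4) (nat_lit 409) (nat_lit 344) (nat_lit 267)))) (XT.nd (nat_lit 156) (nat_lit 76) (nat_lit 0) (XT.nd (nat_lit 78) (nat_lit 152) (nat_lit 0) (XT.lf (nat_lit 0) (nat_lit 32937996071) (nat_lit 152) (nat_lit 1932039919) (nat_lit 0) (nat_lit 3456163970) (nat_lit 25) (nat_lit 5) (nat_lit 27) (nat_lit 4) (nat_lit 25) (nat_lit 4) (nat_lit 410) (nat_lit 344) (nat_lit 266)) (XT.lf (nat_lit 0) (nat_lit 2882701539) (nat_lit 152) (nat_lit 23604234308) (nat_lit 76) (nat_lit 13268851190) (nat_lit 23) (nat_lit 5) (nat_lit 25) (nat_lit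 5) (nat_lit 24) (nat_lit 4) (nat_lit 411) (nat_lit 344) (nat_lit 265))) (XT.nd (nat_lit 78) (nat_lit 76) (nat_lit 0) (XT.lf (nat_lit 0) (nat_lit 11399802712) (nat_lit 152) (nat_lit 6174596296) (nat_lit 76) (nat_lit 23677354172) (nat_lit 23) (nat_lit 5) (nat_lit 25) (nat_lit 5) (nat_lit 24) (nat_lit 4) (nat_lit 412) (nat_lit 344) (nat_lit 264)) (XT.lf (nat_lit 0) (nat_lit 12491164313) (nat_lit 76) (nat_lit 8028019599) (nat_lit 152) (nat_lit 22294515086) (nat_lit 22) (nat_lit 5) (nat_lit 23) (nat_lit 5) (nat_lit 24) (nat_lit 4) (nat_lit 413) (nat_lit 344) (nat_lit 263))))))) (XT.nd (nat_lit 1014) (nat_lit 380) (nat_lit 0) (XT.nd (nat_lit 468) (nat_lit 304) (nat_lit 0) (XT.nd (nat_lit 234) (nat_lit 76) (nat_lit 0) (XT.nd (nat_lit 78) (nat_lit 152) (nat_lit 0) (XT.lf (nat_lit 0) (nat_lit 30213469750) (nat_lit 152) (nat_lit 12212052601) (nat_lit 0) (nat_lit 2022275469) (nat_lit 22) (nat_lit 5)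 (nat_lit 24) (nat_lit 4) (nat_lit 22) (nat_lit 4) (nat_lit 414) (nat_lit 344) (nat_lit 262)) (XT.nd (nat_lit 78) (nat_lit 76) (nat_lit 0) (XT.lf (nat_lit 0) (nat_lit 6858285555) (nat_lit 76) (nat_lit 33755242931) (nat_lit 76) (nat_lit 5539022540) (nat_lit 21) (nat_lit 4) (nat_lit 22) (nat_lit 5) (nat_lit 22) (nat_lit 4) (nat_lit 415) (nat_lit 344) (nat_lit 261)) (XT.lf (nat_lit 0) (nat_lit 3668732254) (nat_lit 152) (nat_lit 20719153661) (nat_lit 76) (nat_lit 23542223815) (nat_lit 20) (nat_lit 5) (nat_lit 22) (nat_lit 5) (nat_lit 21) (nat_lit 4) (nat_lit 416) (nat_lit 344) (nat_lit 260)))) (XT.nd (nat_lit 78) (nat_lit 76) (nat_lit 0) (XT.lf (nat_lit 0) (nat_lit 13133977305) (nat_lit 152) (nat_lit 1338100726) (nat_lit 76) (nat_lit 35320767704) (nat_lit 20) (nat_lit 5) (nat_lit 22) (nat_lit 5) (nat_lit 21) (nat_lit 4) (nat_lit 417) (nat_lit 344) (nat_lit 259)) (XT.nd (nat_lit 78) (nat_lit 0)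 (nat_lit 0) (XT.lf (nat_lit 0) (nat_lit 19609133081) (nat_lit 76) (nat_lit 3753552664) (nat_lit 152) (nat_lit 28371524691) (nat_lit 19) (nat_lit 5) (nat_lit 20) (nat_lit 5) (nat_lit 21) (nat_lit 4) (nat_lit 418) (nat_lit 344) (nat_lit 258)) (XT.lf (nat_lit 0) (nat_lit 34227087704) (nat_lit 152) (nat_lit 12269363339) (nat_lit 0) (nat_lit 7269981284) (nat_lit 19) (nat_lit 5) (nat_lit 21) (nat_lit 4) (nat_lit 19) (nat_lit 4) (nat_lit 419) (nat_lit 344) (nat_lit 257))))) (XT.nd (nat_lit 234) (nat_lit 152) (nat_lit 0) (XT.nd (nat_lit 78) (nat_lit 76) (nat_lit 0) (XT.lf (nat_lit 0) (nat_lit 8769170078) (nat_lit 76) (nat_lit 37048856233) (nat_lit 76) (nat_lit 10073074944) (nat_lit 18) (nat_lit 4) (nat_lit 19) (nat_lit 5) (nat_lit 19) (nat_lit 4) (nat_lit 420) (nat_lit 344) (nat_lit 256)) (XT.nd (nat_lit 78) (nat_lit 0) (nat_lit 0) (XT.lf (nat_lit 0) (nat_lit 66874555) (nat_lit 152) (nat_lit 26856474039)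 (nat_lit 76) (nat_lit 31188956163) (nat_lit 17) (nat_lit 5) (nat_lit 19) (nat_lit 5) (nat_lit 18) (nat_lit 4) (nat_lit 421) (nat_lit 344) (nat_lit 255)) (XT.lf (nat_lit 0) (nat_lit 10360919022) (nat_lit 152) (nat_lit 5770621537) (nat_lit 76) (nat_lit 44305491842) (nat_lit 17) (nat_lit 5) (nat_lit 19) (nat_lit 5) (nat_lit 18) (nat_lit 4) (nat_lit 422) (nat_lit 344) (nat_lit 254)))) (XT.nd (nat_lit 156) (nat_lit 76) (nat_lit 0) (XT.nd (nat_lit 78) (nat_lit 0) (nat_lit 0) (XT.lf (nat_lit 0) (nat_lit 16883476350) (nat_lit 76) (nat_lit 4536091424) (nat_lit 152) (nat_lit 41445935007) (nat_lit 16) (nat_lit 5) (nat_lit 17) (nat_lit 5) (nat_lit 18) (nat_lit 4) (nat_lit 423) (nat_lit 344) (nat_lit 253)) (XT.lf (nat_lit 0) (nat_lit 33236101649) (nat_lit 152) (nat_lit 24687234230) (nat_lit 0) (nat_lit 7481814554) (nat_lit 16) (nat_lit 5) (nat_lit 18) (nat_lit 4) (nat_lit 16) (nat_lit 4) (nat_lit 424)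 (nat_lit 344) (nat_lit 252))) (XT.nd (nat_lit 78) (nat_lit 76) (nat_lit 0) (XT.lf (nat_lit 0) (nat_lit 45704828260) (nat_lit 152) (nat_lit 2427279537) (nat_lit 0) (nat_lit 19936605690) (nat_lit 16) (nat_lit 5) (nat_lit 18) (nat_lit 4) (nat_lit 16) (nat_lit 4) (nat_lit 425) (nat_lit 344) (nat_lit 251)) (XT.lf (nat_lit 0) (nat_lit 21613423159) (nat_lit 76) (nat_lit 37508636900) (nat_lit 76) (nat_lit 11727142450) (nat_lit 15) (nat_lit 4) (nat_lit 16) (nat_lit 5) (nat_lit 16) (nat_lit 4) (nat_lit 426) (nat_lit 344) (nat_lit 250)))))) (XT.nd (nat_lit 468) (nat_lit 152) (nat_lit 0) (XT.nd (nat_lit 234) (nat_lit 76) (nat_lit 0) (XT.nd (nat_lit 78) (nat_lit 152) (nat_lit 0) (XT.lf (nat_lit 0) (nat_lit 46916803730) (nat_lit 76) (nat_lit 26322300133) (nat_lit 76) (nat_lit 528165796) (nat_lit 15) (nat_lit 4) (nat_lit 16) (nat_lit 5) (nat_lit 16) (nat_lit 4) (nat_lit 427) (nat_lit 344) (nat_lit 249))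 (XT.nd (nat_lit 78) (nat_lit 76) (nat_lit 0) (XT.lf (nat_lit 0) (nat_lit 10859536490) (nat_lit 152) (nat_lit 3544122518) (nat_lit 76) (nat_lit 62419403502) (nat_lit 14) (nat_lit 5) (nat_lit 16) (nat_lit 5) (nat_lit 15) (nat_lit 4) (nat_lit 428) (nat_lit 344) (nat_lit 248)) (XT.lf (nat_lit 0) (nat_lit 21588029418) (nat_lit 76) (nat_lit 1536685943) (nat_lit 152) (nat_lit 56890205689) (nat_lit 13) (nat_lit 5) (nat_lit 14) (nat_lit 5) (nat_lit 15) (nat_lit 4) (nat_lit 429) (nat_lit 344) (nat_lit 247)))) (XT.nd (nat_lit 78) (nat_lit 76) (nat_lit 0) (XT.lf (nat_lit 0) (nat_lit 36239928060) (nat_lit 152) (nat_lit 35473303290) (nat_lit 0) (nat_lit 11641303410) (nat_lit 13) (nat_lit 5) (nat_lit 15) (nat_lit 4) (nat_lit 13) (nat_lit 4) (nat_lit 430) (nat_lit 344) (nat_lit 246)) (XT.nd (nat_lit 78) (nat_lit 76) (nat_lit 0) (XT.lf (nat_lit 0) (nat_lit 50025452476) (nat_lit 152) (nat_lit 11418025918)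 (nat_lit 0) (nat_lit 25416924145) (nat_lit 13) (nat_lit 5) (nat_lit 15) (nat_lit 4) (nat_lit 13) (nat_lit 4) (nat_lit 431) (nat_lit 344) (nat_lit 245)) (XT.lf (nat_lit 0) (nat_lit 14277165379) (nat_lit 76) (nat_lit 50435860497) (nat_lit 76) (nat_lit 25817900088) (nat_lit 12) (nat_lit 4) (nat_lit 13) (nat_lit 5) (nat_lit 13) (nat_lit 4) (nat_lit 432) (nat_lit 344) (nat_lit 244))))) (XT.nd (nat_lit 234) (nat_lit 76) (nat_lit 0) (XT.nd (nat_lit 78) (nat_lit 76) (nat_lit 0) (XT.lf (nat_lit 0) (nat_lit 41634035414) (nat_lit 76) (nat_lit 38684356812) (nat_lit 76) (nat_lit 14057413472) (nat_lit 12) (nat_lit 4) (nat_lit 13) (nat_lit 5) (nat_lit 13) (nat_lit 4) (nat_lit 433) (nat_lit 344) (nat_lit 243)) (XT.nd (nat_lit 78) (nat_lit 76) (nat_lit 0) (XT.lf (nat_lit 0) (nat_lit 70340188087) (nat_lit 76) (nat_lit 26354357364) (nat_lit 76) (nat_lit 1718858851) (nat_lit 12) (nat_lit 4) (nat_lit 13) (nat_lit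 5) (nat_lit 13) (nat_lit 4) (nat_lit 434) (nat_lit 344) (nat_lit 242)) (XT.lf (nat_lit 0) (nat_lit 10867802650) (nat_lit 152) (nat_lit 2364650863) (nat_lit 76) (nat_lit 89412117235) (nat_lit 11) (nat_lit 5) (nat_lit 13) (nat_lit 5) (nat_lit 12) (nat_lit 4) (nat_lit 435) (nat_lit 344) (nat_lit 241)))) (XT.nd (nat_lit 156) (nat_lit 0) (nat_lit 0) (XT.nd (nat_lit 78) (nat_lit 0) (nat_lit 0) (XT.lf (nat_lit 0) (nat_lit 24429156242) (nat_lit 152) (nat_lit 81684948247) (nat_lit 0) (nat_lit 951626632) (nat_lit 10) (nat_lit 5) (nat_lit 12) (nat_lit 4) (nat_lit 10) (nat_lit 4) (nat_lit 436) (nat_lit 344) (nat_lit 240)) (XT.lf (nat_lit 0) (nat_lit 38917488589) (nat_lit 152) (nat_lit 57345095417) (nat_lit 0) (nat_lit 15432920618) (nat_lit 10) (nat_lit 5) (nat_lit 12) (nat_lit 4) (nat_lit 10) (nat_lit 4) (nat_lit 437) (nat_lit 344) (nat_lit 239))) (XT.nd (nat_lit 78) (nat_lit 0) (nat_lit 0) (XT.lf (nat_lit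 0) (nat_lit 54121935271) (nat_lit 152) (nat_lit 31804583184) (nat_lit 0) (nat_lit 30630664097) (nat_lit 10) (nat_lit 5) (nat_lit 12) (nat_lit 4) (nat_lit 10) (nat_lit 4) (nat_lit 438) (nat_lit 344) (nat_lit 238)) (XT.lf (nat_lit 0) (nat_lit 70078697349) (nat_lit 152) (nat_lit 5002600805) (nat_lit 0) (nat_lit 46581042174) (nat_lit 10) (nat_lit 5) (nat_lit 12) (nat_lit 4) (nat_lit 10) (nat_lit 4) (nat_lit 439) (nat_lit 344) (nat_lit 237))))))))
noncomputable def xc109 : XT := (XT.nd (nat_lit 1950) (nat_lit 76) (nat_lit 0) (XT.nd (nat_lit 936) (nat_lit 152) (nat_lit 0) (XT.nd (nat_lit 468) (nat_lit 76) (nat_lit 0) (XT.nd (nat_lit 234) (nat_lit 152) (nat_lit 0) (XT.nd (nat_lit 78) (nat_lit 0) (nat_lit 0) (XT.lf (nat_lit 0) (nat_lit 23889271853) (nat_lit 76) (nat_lit 63309473746) (nat_lit 76) (nat_lit 39805738570) (nat_lit 9) (nat_lit 4) (nat_lit 10) (nat_lit 5) (nat_lit 10) (nat_lit 4) (nat_lit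 440) (nat_lit 344) (nat_lit 236)) (XT.nd (nat_lit 78) (nat_lit 0) (nat_lit 0) (XT.lf (nat_lit 0) (nat_lit 54384841366) (nat_lit 76) (nat_lit 50867276966) (nat_lit 76) (nat_lit 27357751312) (nat_lit 9) (nat_lit 4) (nat_lit 10) (nat_lit 5) (nat_lit 10) (nat_lit 4) (nat_lit 441) (nat_lit 344) (nat_lit 235)) (XT.lf (nat_lit 0) (nat_lit 86391307659) (nat_lit 76) (nat_lit 37809805003) (nat_lit 76) (nat_lit 14294764608) (nat_lit 9) (nat_lit 4) (nat_lit 10) (nat_lit 5) (nat_lit 10) (nat_lit 4) (nat_lit 442) (nat_lit 344) (nat_lit 234)))) (XT.nd (nat_lit 78) (nat_lit 152) (nat_lit 0) (XT.lf (nat_lit 0) (nat_lit 119984876602) (nat_lit 76) (nat_lit 24105968637) (nat_lit 76) (nat_lit 585676109) (nat_lit 9) (nat_lit 4) (nat_lit 10) (nat_lit 5) (nat_lit 10) (nat_lit 4) (nat_lit 443) (nat_lit 344) (nat_lit 233)) (XT.nd (nat_lit 78) (nat_lit 0) (nat_lit 0) (XT.lf (nat_lit 0) (nat_lit 3991270447) (nat_lit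 76) (nat_lit 9431444190) (nat_lit 152) (nat_lit 137729912799) (nat_lit 7) (nat_lit 5) (nat_lit 8) (nat_lit 5) (nat_lit 9) (nat_lit 4) (nat_lit 444) (nat_lit 344) (nat_lit 232)) (XT.lf (nat_lit 0) (nat_lit 28623695688) (nat_lit 152) (nat_lit 123088654582) (nat_lit 0) (nat_lit 6214116259) (nat_lit 7) (nat_lit 5) (nat_lit 9) (nat_lit 4) (nat_lit 7) (nat_lit 4) (nat_lit 445) (nat_lit 344) (nat_lit 231))))) (XT.nd (nat_lit 234) (nat_lit 76) (nat_lit 0) (XT.nd (nat_lit 78) (nat_lit 0) (nat_lit 0) (XT.lf (nat_lit 0) (nat_lit 44733166783) (nat_lit 152) (nat_lit 97979142745) (nat_lit 0) (nat_lit 22319266410) (nat_lit 7) (nat_lit 5) (nat_lit 9) (nat_lit 4) (nat_lit 7) (nat_lit 4) (nat_lit 446) (nat_lit 344) (nat_lit 230)) (XT.nd (nat_lit 78) (nat_lit 0) (nat_lit 0) (XT.lf (nat_lit 0) (nat_lit 61642232531) (nat_lit 152) (nat_lit 71625785649) (nat_lit 0) (nat_lit 39224216974) (nat_lit 7) (nat_lit 5)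 (nat_lit 9) (nat_lit 4) (nat_lit 7) (nat_lit 4) (nat_lit 447) (nat_lit 344) (nat_lit 229)) (XT.lf (nat_lit 0) (nat_lit 79391152611) (nat_lit 152) (nat_lit 43965837206) (nat_lit 0) (nat_lit 56969217831) (nat_lit 7) (nat_lit 5) (nat_lit 9) (nat_lit 4) (nat_lit 7) (nat_lit 4) (nat_lit 448) (nat_lit 344) (nat_lit 228)))) (XT.nd (nat_lit 78) (nat_lit 76) (nat_lit 0) (XT.lf (nat_lit 0) (nat_lit 98022186357) (nat_lit 152) (nat_lit 14933440396) (nat_lit 0) (nat_lit 75596518984) (nat_lit 7) (nat_lit 5) (nat_lit 9) (nat_lit 4) (nat_lit 7) (nat_lit 4) (nat_lit 449) (nat_lit 344) (nat_lit 227)) (XT.nd (nat_lit 78) (nat_lit 0) (nat_lit 0) (XT.lf (nat_lit 0) (nat_lit 16054369622) (nat_lit 76) (nat_lit 101775977453) (nat_lit 76) (nat_lit 79346755229) (nat_lit 6) (nat_lit 4) (nat_lit 7) (nat_lit 5) (nat_lit 7) (nat_lit 4) (nat_lit 450) (nat_lit 344) (nat_lit 226)) (XT.lf (nat_lit 0) (nat_lit 49100140798)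 (nat_lit 76) (nat_lit 89776689157) (nat_lit 76) (nat_lit 67344081360) (nat_lit 6) (nat_lit 4) (nat_lit 7) (nat_lit 5) (nat_lit 7) (nat_lit 4) (nat_lit 451) (nat_lit 344) (nat_lit 225)))))) (XT.nd (nat_lit 468) (nat_lit 0) (nat_lit 0) (XT.nd (nat_lit 234) (nat_lit 152) (nat_lit 0) (XT.nd (nat_lit 78) (nat_lit 0) (nat_lit 0) (XT.lf (nat_lit 0) (nat_lit 83788786555) (nat_lit 76) (nat_lit 77182097170) (nat_lit 76) (nat_lit 54746265019) (nat_lit 6) (nat_lit 4) (nat_lit 7) (nat_lit 5) (nat_lit 7) (nat_lit 4) (nat_lit 452) (nat_lit 344) (nat_lit 224)) (XT.nd (nat_lit 78) (nat_lit 0) (nat_lit 0) (XT.lf (nat_lit 0) (nat_lit 120202898908) (nat_lit 76) (nat_lit 63962214370) (nat_lit 76) (nat_lit 41523311404) (nat_lit 6) (nat_lit 4) (nat_lit 7) (nat_lit 5) (nat_lit 7) (nat_lit 4) (nat_lit 453) (nat_lit 344) (nat_lit 223)) (XT.lf (nat_lit 0) (nat_lit 158429178124) (nat_lit 76) (nat_lit 50085564843) (nat_lit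 76) (nat_lit 27643737293) (nat_lit 6) (nat_lit 4) (nat_lit 7) (nat_lit 5) (nat_lit 7) (nat_lit 4) (nat_lit 454) (nat_lit 344) (nat_lit 222)))) (XT.nd (nat_lit 78) (nat_lit 152) (nat_lit 0) (XT.lf (nat_lit 0) (nat_lit 198558639154) (nat_lit 76) (nat_lit 35519108949) (nat_lit 76) (nat_lit 13074496080) (nat_lit 6) (nat_lit 4) (nat_lit 7) (nat_lit 5) (nat_lit 7) (nat_lit 4) (nat_lit 455) (nat_lit 344) (nat_lit 221)) (XT.nd (nat_lit 78) (nat_lit 76) (nat_lit 0) (XT.lf (nat_lit 0) (nat_lit 2148075815) (nat_lit 152) (nat_lit 18043710130) (nat_lit 76) (nat_lit 238502373814) (nat_lit 5) (nat_lit 5) (nat_lit 7) (nat_lit 5) (nat_lit 6) (nat_lit 4) (nat_lit 456) (nat_lit 344) (nat_lit 220)) (XT.lf (nat_lit 0) (nat_lit 14268523891) (nat_lit 76) (nat_lit 3642849675) (nat_lit 152) (nat_lit 252880131676) (nat_lit 4) (nat_lit 5) (nat_lit 5) (nat_lit 5) (nat_lit 6) (nat_lit 4) (nat_lit 457) (nat_lit 344)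 (nat_lit 219))))) (XT.nd (nat_lit 234) (nat_lit 0) (nat_lit 0) (XT.nd (nat_lit 78) (nat_lit 0) (nat_lit 0) (XT.lf (nat_lit 0) (nat_lit 34984065911) (nat_lit 152) (nat_lit 234882570603) (nat_lit 0) (nat_lit 13601020214) (nat_lit 4) (nat_lit 5) (nat_lit 6) (nat_lit 4) (nat_lit 4) (nat_lit 4) (nat_lit 458) (nat_lit 344) (nat_lit 218)) (XT.nd (nat_lit 78) (nat_lit 0) (nat_lit 0) (XT.lf (nat_lit 0) (nat_lit 52966513921) (nat_lit 152) (nat_lit 212227010170) (nat_lit 0) (nat_lit 31581285853) (nat_lit 4) (nat_lit 5) (nat_lit 6) (nat_lit 4) (nat_lit 4) (nat_lit 4) (nat_lit 459) (nat_lit 344) (nat_lit 217)) (XT.lf (nat_lit 0) (nat_lit 71844657855) (nat_lit 152) (nat_lit 188445483147) (nat_lit 0) (nat_lit 50457351340) (nat_lit 4) (nat_lit 5) (nat_lit 6) (nat_lit 4) (nat_lit 4) (nat_lit 4) (nat_lit 460) (nat_lit 344) (nat_lit 216)))) (XT.nd (nat_lit 156) (nat_lit 0) (nat_lit 0) (XT.nd (nat_lit 78) (nat_lit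 0) (nat_lit 0) (XT.lf (nat_lit 0) (nat_lit 91663445675) (nat_lit 152) (nat_lit 163481366852) (nat_lit 0) (nat_lit 70274159686) (nat_lit 4) (nat_lit 5) (nat_lit 6) (nat_lit 4) (nat_lit 4) (nat_lit 4) (nat_lit 461) (nat_lit 344) (nat_lit 215)) (XT.lf (nat_lit 0) (nat_lit 112470064971) (nat_lit 152) (nat_lit 137275222912) (nat_lit 0) (nat_lit 91078893768) (nat_lit 4) (nat_lit 5) (nat_lit 6) (nat_lit 4) (nat_lit 4) (nat_lit 4) (nat_lit 462) (nat_lit 344) (nat_lit 214))) (XT.nd (nat_lit 78) (nat_lit 0) (nat_lit 0) (XT.lf (nat_lit 0) (nat_lit 134314055313) (nat_lit 152) (nat_lit 109764655746) (nat_lit 0) (nat_lit 112921088669) (nat_lit 4) (nat_lit 5) (nat_lit 6) (nat_lit 4) (nat_lit 4) (nat_lit 4) (nat_lit 463) (nat_lit 344) (nat_lit 213)) (XT.lf (nat_lit 0) (nat_lit 157247426201) (nat_lit 152) (nat_lit 80884164005) (nat_lit 0) (nat_lit 135852749613) (nat_lit 4) (nat_lit 5) (nat_lit 6) (nat_lit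 4) (nat_lit 4) (nat_lit 4) (nat_lit 464) (nat_lit 344) (nat_lit 212))))))) (XT.nd (nat_lit 1014) (nat_lit 0) (nat_lit 0) (XT.nd (nat_lit 468) (nat_lit 0) (nat_lit 0) (XT.nd (nat_lit 234) (nat_lit 0) (nat_lit 0) (XT.nd (nat_lit 78) (nat_lit 76) (nat_lit 0) (XT.lf (nat_lit 0) (nat_lit 181324780900) (nat_lit 152) (nat_lit 50564984612) (nat_lit 0) (nat_lit 159928475794) (nat_lit 4) (nat_lit 5) (nat_lit 6) (nat_lit 4) (nat_lit 4) (nat_lit 4) (nat_lit 465) (nat_lit 344) (nat_lit 211)) (XT.nd (nat_lit 78) (nat_lit 76) (nat_lit 0) (XT.lf (nat_lit 0) (nat_lit 206603446445) (nat_lit 152) (nat_lit 18734929046) (nat_lit 0) (nat_lit 185205590369) (nat_lit 4) (nat_lit 5) (nat_lit 6) (nat_lit 4) (nat_lit 4) (nat_lit 4) (nat_lit 466) (nat_lit 344) (nat_lit 210)) (XT.lf (nat_lit 0) (nat_lit 15167234774) (nat_lit 76) (nat_lit 218213178400) (nat_lit 76) (nat_lit 196813845210) (nat_lit 3) (nat_lit 4) (nat_lit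 4) (nat_lit 5) (nat_lit 4) (nat_lit 4) (nat_lit 467) (nat_lit 344) (nat_lit 209)))) (XT.nd (nat_lit 78) (nat_lit 0) (nat_lit 0) (XT.lf (nat_lit 0) (nat_lit 51410178537) (nat_lit 76) (nat_lit 210400941260) (nat_lit 76) (nat_lit 189000201294) (nat_lit 3) (nat_lit 4) (nat_lit 4) (nat_lit 5) (nat_lit 4) (nat_lit 4) (nat_lit 468) (nat_lit 344) (nat_lit 208)) (XT.nd (nat_lit 78) (nat_lit 0) (nat_lit 0) (XT.lf (nat_lit 0) (nat_lit 89460733601) (nat_lit 76) (nat_lit 202200348594) (nat_lit 76) (nat_lit 180798268843) (nat_lit 3) (nat_lit 4) (nat_lit 4) (nat_lit 5) (nat_lit 4) (nat_lit 4) (nat_lit 469) (nat_lit 344) (nat_lit 207)) (XT.lf (nat_lit 0) (nat_lit 129409496525) (nat_lit 76) (nat_lit 193591875183) (nat_lit 76) (nat_lit 172188519445) (nat_lit 3) (nat_lit 4) (nat_lit 4) (nat_lit 5) (nat_lit 4) (nat_lit 4) (nat_lit 470) (nat_lit 344) (nat_lit 206))))) (XT.nd (nat_lit 234) (nat_lit 0) (nat_lit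 0) (XT.nd (nat_lit 78) (nat_lit 0) (nat_lit 0) (XT.lf (nat_lit 0) (nat_lit 171351583413) (nat_lit 76) (nat_lit 184555024661) (nat_lit 76) (nat_lit 163150453698) (nat_lit 3) (nat_lit 4) (nat_lit 4) (nat_lit 5) (nat_lit 4) (nat_lit 4) (nat_lit 471) (nat_lit 344) (nat_lit 205)) (XT.nd (nat_lit 78) (nat_lit 0) (nat_lit 0) (XT.lf (nat_lit 0) (nat_lit 215386856376) (nat_lit 76) (nat_lit 175068280717) (nat_lit 76) (nat_lit 153662552396) (nat_lit 3) (nat_lit 4) (nat_lit 4) (nat_lit 5) (nat_lit 4) (nat_lit 4) (nat_lit 472) (nat_lit 344) (nat_lit 204)) (XT.lf (nat_lit 0) (nat_lit 261620161301) (nat_lit 76) (nat_lit 165109055865) (nat_lit 76) (nat_lit 143702225299) (nat_lit 3) (nat_lit 4) (nat_lit 4) (nat_lit 5) (nat_lit 4) (nat_lit 4) (nat_lit 473) (nat_lit 344) (nat_lit 203)))) (XT.nd (nat_lit 156) (nat_lit 0) (nat_lit 0) (XT.nd (nat_lit 78) (nat_lit 0) (nat_lit 0) (XT.lf (nat_lit 0) (nat_lit 310161577487)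 (nat_lit 76) (nat_lit 154653637666) (nat_lit 76) (nat_lit 133245757342) (nat_lit 3) (nat_lit 4) (nat_lit 4) (nat_lit 5) (nat_lit 4) (nat_lit 4) (nat_lit 474) (nat_lit 344) (nat_lit 202)) (XT.lf (nat_lit 0) (nat_lit 361126679733) (nat_lit 76) (nat_lit 143677132266) (nat_lit 76) (nat_lit 122268252174) (nat_lit 3) (nat_lit 4) (nat_lit 4) (nat_lit 5) (nat_lit 4) (nat_lit 4) (nat_lit 475) (nat_lit 344) (nat_lit 201))) (XT.nd (nat_lit 78) (nat_lit 0) (nat_lit 0) (XT.lf (nat_lit 0) (nat_lit 414636813522) (nat_lit 76) (nat_lit 132153405129) (nat_lit 76) (nat_lit 110743572876) (nat_lit 3) (nat_lit 4) (nat_lit 4) (nat_lit 5) (nat_lit 4) (nat_lit 4) (nat_lit 476) (nat_lit 344) (nat_lit 200)) (XT.lf (nat_lit 0) (nat_lit 470819383933) (nat_lit 76) (nat_lit 120055018810) (nat_lit 76) (nat_lit 98644279737) (nat_lit 3) (nat_lit 4) (nat_lit 4) (nat_lit 5) (nat_lit 4) (nat_lit 4) (nat_lit 477) (nat_lit 344)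 (nat_lit 199)))))) (XT.nd (nat_lit 43134) (nat_lit 0) (nat_lit 9956) (XT.nd (nat_lit 42900) (nat_lit 0) (nat_lit 10944) (XT.nd (nat_lit 42744) (nat_lit 0) (nat_lit 11400) (XT.lf (nat_lit 0) (nat_lit 529808158992) (nat_lit 76) (nat_lit 107353167626) (nat_lit 76) (nat_lit 85941564915) (nat_lit 3) (nat_lit 4) (nat_lit 4) (nat_lit 5) (nat_lit 4) (nat_lit 4) (nat_lit 478) (nat_lit 344) (nat_lit 198)) (XT.nd (nat_lit 78) (nat_lit 380) (nat_lit 0) (XT.lf (nat_lit 0) (nat_lit 3359710067) (nat_lit 380) (nat_lit 3558732) (nat_lit 380) (nat_lit 3558732) (nat_lit 158) (nat_lit 3) (nat_lit 163) (nat_lit 3) (nat_lit 163) (nat_lit 5) (nat_lit 345) (nat_lit 345) (nat_lit 330)) (XT.lf (nat_lit 0) (nat_lit 2102504576) (nat_lit 380) (nat_lit 3458270232) (nat_lit 456) (nat_lit 1233274961) (nat_lit 153) (nat_lit 5) (nat_lit 158) (nat_lit 3) (nat_lit 159) (nat_lit 5) (nat_lit 346) (nat_lit 345) (nat_lit 329))))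 (XT.nd (nat_lit 78) (nat_lit 456) (nat_lit 0) (XT.lf (nat_lit 0) (nat_lit 4191540877) (nat_lit 380) (nat_lit 86636728) (nat_lit 456) (nat_lit 2586064160) (nat_lit 153) (nat_lit 5) (nat_lit 158) (nat_lit 3) (nat_lit 159) (nat_lit 5) (nat_lit 347) (nat_lit 345) (nat_lit 328)) (XT.nd (nat_lit 78) (nat_lit 456) (nat_lit 0) (XT.lf (nat_lit 76) (nat_lit 3493967518) (nat_lit 0) (nat_lit 2818769903) (nat_lit 456) (nat_lit 628950168) (nat_lit 154) (nat_lit 5) (nat_lit 153) (nat_lit 5) (nat_lit 159) (nat_lit 5) (nat_lit 348) (nat_lit 345) (nat_lit 327)) (XT.lf (nat_lit 76) (nat_lit 139942378) (nat_lit 0) (nat_lit 1208151446) (nat_lit 532) (nat_lit 5679862312) (nat_lit 148) (nat_lit 5) (nat_lit 147) (nat_lit 5) (nat_lit 154) (nat_lit 5) (nat_lit 349) (nat_lit 345) (nat_lit 326))))) (XT.nd (nat_lit 234) (nat_lit 532) (nat_lit 0) (XT.nd (nat_lit 78) (nat_lit 532) (nat_lit 0) (XT.lf (nat_lit 0) (nat_lit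 3351201322) (nat_lit 456) (nat_lit 3187838644) (nat_lit 532) (nat_lit 581677199) (nat_lit 148) (nat_lit 5) (nat_lit 154) (nat_lit 5) (nat_lit 155) (nat_lit 5) (nat_lit 350) (nat_lit 345) (nat_lit 325)) (XT.nd (nat_lit 78) (nat_lit 532) (nat_lit 0) (XT.lf (nat_lit 76) (nat_lit 621137674) (nat_lit 0) (nat_lit 4749935888) (nat_lit 532) (nat_lit 1851318879) (nat_lit 149) (nat_lit 5) (nat_lit 148) (nat_lit 5) (nat_lit 155) (nat_lit 5) (nat_lit 351) (nat_lit 345) (nat_lit 324)) (XT.lf (nat_lit 0) (nat_lit 101880248) (nat_lit 532) (nat_lit 2677445761) (nat_lit 608) (nat_lit 4552580011) (nat_lit 141) (nat_lit 5) (nat_lit 148) (nat_lit 5) (nat_lit 149) (nat_lit 5) (nat_lit 352) (nat_lit 345) (nat_lit 323)))) (XT.nd (nat_lit 156) (nat_lit 532) (nat_lit 0) (XT.nd (nat_lit 78) (nat_lit 0) (nat_lit 76) (XT.lf (nat_lit 76) (nat_lit 1381364682) (nat_lit 0) (nat_lit 625420326) (nat_lit 608) (nat_lit 5442871829)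 (nat_lit 142) (nat_lit 5) (nat_lit 141) (nat_lit 5) (nat_lit 149) (nat_lit 5) (nat_lit 353) (nat_lit 345) (nat_lit 322)) (XT.lf (nat_lit 0) (nat_lit 3977555297) (nat_lit 532) (nat_lit 1940678350) (nat_lit 76) (nat_lit 1656618283) (nat_lit 142) (nat_lit 5) (nat_lit 149) (nat_lit 5) (nat_lit 143) (nat_lit 5) (nat_lit 354) (nat_lit 345) (nat_lit 321))) (XT.nd (nat_lit 78) (nat_lit 76) (nat_lit 0) (XT.lf (nat_lit 0) (nat_lit 2383707191) (nat_lit 532) (nat_lit 3614423903) (nat_lit 608) (nat_lit 1710695908) (nat_lit 135) (nat_lit 5) (nat_lit 142) (nat_lit 5) (nat_lit 143) (nat_lit 5) (nat_lit 355) (nat_lit 345) (nat_lit 320)) (XT.lf (nat_lit 0) (nat_lit 200609542) (nat_lit 608) (nat_lit 938553440) (nat_lit 76) (nat_lit 6713251498) (nat_lit 134) (nat_lit 5) (nat_lit 142) (nat_lit 5) (nat_lit 135) (nat_lit 5) (nat_lit 356) (nat_lit 345) (nat_lit 319))))))))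
noncomputable def xc110 : XT := (XT.nd (nat_lit 1950) (nat_lit 2508) (nat_lit 0) (XT.nd (nat_lit 936) (nat_lit 1824) (nat_lit 0) (XT.nd (nat_lit 468) (nat_lit 1368) (nat_lit 0) (XT.nd (nat_lit 234) (nat_lit 1216) (nat_lit 0) (XT.nd (nat_lit 78) (nat_lit 684) (nat_lit 0) (XT.lf (nat_lit 0) (nat_lit 2142052831) (nat_lit 684) (nat_lit 4344659797) (nat_lit 76) (nat_lit 1515535529) (nat_lit 126) (nat_lit 5) (nat_lit 135) (nat_lit 5) (nat_lit 127) (nat_lit 5) (nat_lit 357) (nat_lit 345) (nat_lit 318)) (XT.nd (nat_lit 78) (nat_lit 0) (nat_lit 0) (XT.lf (nat_lit 0) (nat_lit 269677285) (nat_lit 684) (nat_lit 3863408121) (nat_lit 760) (nat_lit 4028931012) (nat_lit 117) (nat_lit 5) (nat_lit 126) (nat_lit 5) (nat_lit 127) (nat_lit 5) (nat_lit 358) (nat_lit 345) (nat_lit 317)) (XT.lf (nat_lit 0) (nat_lit 5189454139) (nat_lit 684) (nat_lit 1024202678) (nat_lit 760) (nat_lit 2116682396) (nat_lit 117) (nat_lit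 5) (nat_lit 126) (nat_lit 5) (nat_lit 127) (nat_lit 5) (nat_lit 359) (nat_lit 345) (nat_lit 316)))) (XT.nd (nat_lit 78) (nat_lit 456) (nat_lit 0) (XT.lf (nat_lit 0) (nat_lit 1798507993) (nat_lit 760) (nat_lit 6578882272) (nat_lit 836) (nat_lit 130793573) (nat_lit 107) (nat_lit 5) (nat_lit 117) (nat_lit 5) (nat_lit 118) (nat_lit 5) (nat_lit 360) (nat_lit 345) (nat_lit 315)) (XT.nd (nat_lit 78) (nat_lit 380) (nat_lit 0) (XT.lf (nat_lit 0) (nat_lit 1884482059) (nat_lit 836) (nat_lit 1724571481) (nat_lit 76) (nat_lit 5084765793) (nat_lit 106) (nat_lit 5) (nat_lit 117) (nat_lit 5) (nat_lit 107) (nat_lit 5) (nat_lit 361) (nat_lit 345) (nat_lit 314)) (XT.lf (nat_lit 0) (nat_lit 3546831517) (nat_lit 380) (nat_lit 430185101) (nat_lit 456) (nat_lit 4912622115) (nat_lit 101) (nat_lit 5) (nat_lit 106) (nat_lit 5) (nat_lit 107) (nat_lit 5) (nat_lit 362) (nat_lit 345) (nat_lit 313))))) (XT.nd (nat_lit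 234) (nat_lit 608) (nat_lit 0) (XT.nd (nat_lit 78) (nat_lit 760) (nat_lit 0) (XT.lf (nat_lit 0) (nat_lit 6177162674) (nat_lit 456) (nat_lit 74759008) (nat_lit 76) (nat_lit 2843229488) (nat_lit 101) (nat_lit 5) (nat_lit 107) (nat_lit 5) (nat_lit 102) (nat_lit 5) (nat_lit 363) (nat_lit 345) (nat_lit 312)) (XT.nd (nat_lit 78) (nat_lit 456) (nat_lit 0) (XT.lf (nat_lit 0) (nat_lit 5554294235) (nat_lit 304) (nat_lit 2958128605) (nat_lit 380) (nat_lit 797309913) (nat_lit 97) (nat_lit 5) (nat_lit 101) (nat_lit 5) (nat_lit 102) (nat_lit 5) (nat_lit 364) (nat_lit 345) (nat_lit 311)) (XT.lf (nat_lit 0) (nat_lit 1355479563) (nat_lit 456) (nat_lit 7647831044) (nat_lit 76) (nat_lit 532069941) (nat_lit 91) (nat_lit 5) (nat_lit 97) (nat_lit 5) (nat_lit 92) (nat_lit 5) (nat_lit 365) (nat_lit 345) (nat_lit 310)))) (XT.nd (nat_lit 78) (nat_lit 608) (nat_lit 0) (XT.lf (nat_lit 0) (nat_lit 3636563055) (nat_lit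 456) (nat_lit 1964897152) (nat_lit 76) (nat_lit 4167866733) (nat_lit 91) (nat_lit 5) (nat_lit 97) (nat_lit 5) (nat_lit 92) (nat_lit 5) (nat_lit 366) (nat_lit 345) (nat_lit 309)) (XT.nd (nat_lit 78) (nat_lit 304) (nat_lit 0) (XT.lf (nat_lit 0) (nat_lit 4059516641) (nat_lit 304) (nat_lit 1973005157) (nat_lit 380) (nat_lit 3982448001) (nat_lit 87) (nat_lit 5) (nat_lit 91) (nat_lit 5) (nat_lit 92) (nat_lit 5) (nat_lit 367) (nat_lit 345) (nat_lit 308)) (XT.lf (nat_lit 0) (nat_lit 81179655) (nat_lit 304) (nat_lit 8470003970) (nat_lit 380) (nat_lit 1721604203) (nat_lit 83) (nat_lit 5) (nat_lit 87) (nat_lit 5) (nat_lit 88) (nat_lit 5) (nat_lit 368) (nat_lit 345) (nat_lit 307)))))) (XT.nd (nat_lit 468) (nat_lit 912) (nat_lit 0) (XT.nd (nat_lit 234) (nat_lit 608) (nat_lit 0) (XT.nd (nat_lit 78) (nat_lit 228) (nat_lit 0) (XT.lf (nat_lit 0) (nat_lit 706150095) (nat_lit 380) (nat_lit 4031386215) (nat_lit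 76) (nat_lit 5801748709) (nat_lit 82) (nat_lit 5) (nat_lit 87) (nat_lit 5) (nat_lit 83) (nat_lit 5) (nat_lit 369) (nat_lit 345) (nat_lit 306)) (XT.nd (nat_lit 78) (nat_lit 0) (nat_lit 0) (XT.lf (nat_lit 0) (nat_lit 2414321310) (nat_lit 228) (nat_lit 763559509) (nat_lit 304) (nat_lit 7640825876) (nat_lit 79) (nat_lit 5) (nat_lit 82) (nat_lit 5) (nat_lit 83) (nat_lit 5) (nat_lit 370) (nat_lit 345) (nat_lit 305)) (XT.lf (nat_lit 0) (nat_lit 5839963804) (nat_lit 304) (nat_lit 1913758982) (nat_lit 76) (nat_lit 3355069881) (nat_lit 79) (nat_lit 5) (nat_lit 83) (nat_lit 5) (nat_lit 80) (nat_lit 5) (nat_lit 371) (nat_lit 345) (nat_lit 304)))) (XT.nd (nat_lit 78) (nat_lit 304) (nat_lit 0) (XT.lf (nat_lit 0) (nat_lit 4978704392) (nat_lit 304) (nat_lit 3693502256) (nat_lit 380) (nat_lit 2739353501) (nat_lit 75) (nat_lit 5) (nat_lit 79) (nat_lit 5) (nat_lit 80) (nat_lit 5) (nat_lit 372) (nat_lit 345)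 (nat_lit 303)) (XT.nd (nat_lit 78) (nat_lit 76) (nat_lit 0) (XT.lf (nat_lit 0) (nat_lit 489879846) (nat_lit 228) (nat_lit 11153678459) (nat_lit 304) (nat_lit 86061436) (nat_lit 72) (nat_lit 5) (nat_lit 75) (nat_lit 5) (nat_lit 76) (nat_lit 5) (nat_lit 373) (nat_lit 345) (nat_lit 302)) (XT.lf (nat_lit 0) (nat_lit 2733304735) (nat_lit 304) (nat_lit 4251882592) (nat_lit 76) (nat_lit 5070322103) (nat_lit 71) (nat_lit 5) (nat_lit 75) (nat_lit 5) (nat_lit 72) (nat_lit 5) (nat_lit 374) (nat_lit 345) (nat_lit 301))))) (XT.nd (nat_lit 234) (nat_lit 456) (nat_lit 0) (XT.nd (nat_lit 78) (nat_lit 228) (nat_lit 0) (XT.lf (nat_lit 0) (nat_lit 3115731206) (nat_lit 228) (nat_lit 2574655658) (nat_lit 304) (nat_lit 6707278881) (nat_lit 68) (nat_lit 5) (nat_lit 71) (nat_lit 5) (nat_lit 72) (nat_lit 5) (nat_lit 375) (nat_lit 345) (nat_lit 300)) (XT.nd (nat_lit 78) (nat_lit 228) (nat_lit 0) (XT.lf (nat_lit 0)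 (nat_lit 8852603090) (nat_lit 304) (nat_lit 1856237642) (nat_lit 76) (nat_lit 2045248650) (nat_lit 68) (nat_lit 5) (nat_lit 72) (nat_lit 5) (nat_lit 69) (nat_lit 5) (nat_lit 376) (nat_lit 345) (nat_lit 299)) (XT.lf (nat_lit 0) (nat_lit 6025718250) (nat_lit 228) (nat_lit 6237769732) (nat_lit 304) (nat_lit 860340709) (nat_lit 65) (nat_lit 5) (nat_lit 68) (nat_lit 5) (nat_lit 69) (nat_lit 5) (nat_lit 377) (nat_lit 345) (nat_lit 298)))) (XT.nd (nat_lit 156) (nat_lit 152) (nat_lit 0) (XT.nd (nat_lit 78) (nat_lit 0) (nat_lit 0) (XT.lf (nat_lit 0) (nat_lit 777543414) (nat_lit 228) (nat_lit 1479433390) (nat_lit 304) (nat_lit 11253338301) (nat_lit 61) (nat_lit 5) (nat_lit 64) (nat_lit 5) (nat_lit 65) (nat_lit 5) (nat_lit 378) (nat_lit 345) (nat_lit 297)) (XT.lf (nat_lit 0) (nat_lit 5633840001) (nat_lit 304) (nat_lit 4754659835) (nat_lit 76) (nat_lit 3520310497) (nat_lit 61) (nat_lit 5) (nat_lit 65)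 (nat_lit 5) (nat_lit 62) (nat_lit 5) (nat_lit 379) (nat_lit 345) (nat_lit 296))) (XT.nd (nat_lit 78) (nat_lit 0) (nat_lit 0) (XT.lf (nat_lit 0) (nat_lit 3651181589) (nat_lit 152) (nat_lit 5567246659) (nat_lit 228) (nat_lit 5106876397) (nat_lit 59) (nat_lit 5) (nat_lit 61) (nat_lit 5) (nat_lit 62) (nat_lit 5) (nat_lit 380) (nat_lit 345) (nat_lit 295)) (XT.lf (nat_lit 0) (nat_lit 12579631278) (nat_lit 152) (nat_lit 441798942) (nat_lit 228) (nat_lit 1739251776) (nat_lit 59) (nat_lit 5) (nat_lit 61) (nat_lit 5) (nat_lit 62) (nat_lit 5) (nat_lit 381) (nat_lit 345) (nat_lit 294))))))) (XT.nd (nat_lit 1014) (nat_lit 988) (nat_lit 0) (XT.nd (nat_lit 468) (nat_lit 684) (nat_lit 0) (XT.nd (nat_lit 234) (nat_lit 380) (nat_lit 0) (XT.nd (nat_lit 78) (nat_lit 152) (nat_lit 0) (XT.lf (nat_lit 0) (nat_lit 1885448018) (nat_lit 304) (nat_lit 8424782950) (nat_lit 76) (nat_lit 4898900472) (nat_lit 55) (nat_lit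 5) (nat_lit 59) (nat_lit 5) (nat_lit 56) (nat_lit 5) (nat_lit 382) (nat_lit 345) (nat_lit 293)) (XT.nd (nat_lit 78) (nat_lit 0) (nat_lit 0) (XT.lf (nat_lit 0) (nat_lit 513910142) (nat_lit 152) (nat_lit 5132438857) (nat_lit 228) (nat_lit 10031573069) (nat_lit 53) (nat_lit 5) (nat_lit 55) (nat_lit 5) (nat_lit 56) (nat_lit 5) (nat_lit 383) (nat_lit 345) (nat_lit 292)) (XT.lf (nat_lit 0) (nat_lit 9706248458) (nat_lit 228) (nat_lit 6040433543) (nat_lit 76) (nat_lit 417936983) (nat_lit 53) (nat_lit 5) (nat_lit 56) (nat_lit 5) (nat_lit 54) (nat_lit 5) (nat_lit 384) (nat_lit 345) (nat_lit 291)))) (XT.nd (nat_lit 78) (nat_lit 228) (nat_lit 0) (XT.lf (nat_lit 0) (nat_lit 3508081681) (nat_lit 152) (nat_lit 10563005384) (nat_lit 228) (nat_lit 2599480215) (nat_lit 51) (nat_lit 5) (nat_lit 53) (nat_lit 5) (nat_lit 54) (nat_lit 5) (nat_lit 385) (nat_lit 345) (nat_lit 290)) (XT.nd (nat_lit 78) (nat_lit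 152) (nat_lit 0) (XT.lf (nat_lit 0) (nat_lit 1473123009) (nat_lit 228) (nat_lit 3536970667) (nat_lit 76) (nat_lit 12187235373) (nat_lit 50) (nat_lit 5) (nat_lit 53) (nat_lit 5) (nat_lit 51) (nat_lit 5) (nat_lit 386) (nat_lit 345) (nat_lit 289)) (XT.lf (nat_lit 0) (nat_lit 5746262994) (nat_lit 228) (nat_lit 11075385338) (nat_lit 76) (nat_lit 922448416) (nat_lit 48) (nat_lit 5) (nat_lit 51) (nat_lit 5) (nat_lit 49) (nat_lit 5) (nat_lit 387) (nat_lit 345) (nat_lit 288))))) (XT.nd (nat_lit 234) (nat_lit 304) (nat_lit 0) (XT.nd (nat_lit 78) (nat_lit 380) (nat_lit 0) (XT.lf (nat_lit 0) (nat_lit 10341555396) (nat_lit 228) (nat_lit 948126681) (nat_lit 76) (nat_lit 7023107289) (nat_lit 48) (nat_lit 5) (nat_lit 51) (nat_lit 5) (nat_lit 49) (nat_lit 5) (nat_lit 388) (nat_lit 345) (nat_lit 287)) (XT.nd (nat_lit 78) (nat_lit 228) (nat_lit 0) (XT.lf (nat_lit 0) (nat_lit 9949387503) (nat_lit 152) (nat_lit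 5339686977) (nat_lit 228) (nat_lit 3614729799) (nat_lit 46) (nat_lit 5) (nat_lit 48) (nat_lit 5) (nat_lit 49) (nat_lit 5) (nat_lit 389) (nat_lit 345) (nat_lit 286)) (XT.lf (nat_lit 0) (nat_lit 956881778) (nat_lit 228) (nat_lit 17646131814) (nat_lit 76) (nat_lit 919217241) (nat_lit 43) (nat_lit 5) (nat_lit 46) (nat_lit 5) (nat_lit 44) (nat_lit 5) (nat_lit 390) (nat_lit 345) (nat_lit 285)))) (XT.nd (nat_lit 156) (nat_lit 152) (nat_lit 0) (XT.nd (nat_lit 78) (nat_lit 152) (nat_lit 0) (XT.lf (nat_lit 0) (nat_lit 5844952655) (nat_lit 228) (nat_lit 6809401459) (nat_lit 76) (nat_lit 7503803143) (nat_lit 43) (nat_lit 5) (nat_lit 46) (nat_lit 5) (nat_lit 44) (nat_lit 5) (nat_lit 391) (nat_lit 345) (nat_lit 284)) (XT.lf (nat_lit 0) (nat_lit 4665988951) (nat_lit 152) (nat_lit 6353514037) (nat_lit 228) (nat_lit 9804282075) (nat_lit 41) (nat_lit 5) (nat_lit 43) (nat_lit 5) (nat_lit 44) (nat_lit 5) (nat_lit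 392) (nat_lit 345) (nat_lit 283))) (XT.nd (nat_lit 78) (nat_lit 152) (nat_lit 0) (XT.lf (nat_lit 0) (nat_lit 16543637032) (nat_lit 228) (nat_lit 4624206927) (nat_lit 76) (nat_lit 350315928) (nat_lit 41) (nat_lit 5) (nat_lit 44) (nat_lit 5) (nat_lit 42) (nat_lit 4) (nat_lit 393) (nat_lit 345) (nat_lit 282)) (XT.lf (nat_lit 0) (nat_lit 290197459) (nat_lit 152) (nat_lit 14668282330) (nat_lit 76) (nat_lit 7278877364) (nat_lit 39) (nat_lit 5) (nat_lit 41) (nat_lit 5) (nat_lit 40) (nat_lit 5) (nat_lit 394) (nat_lit 345) (nat_lit 281)))))) (XT.nd (nat_lit 468) (nat_lit 532) (nat_lit 0) (XT.nd (nat_lit 234) (nat_lit 304) (nat_lit 0) (XT.nd (nat_lit 78) (nat_lit 152) (nat_lit 0) (XT.lf (nat_lit 0) (nat_lit 5701708140) (nat_lit 152) (nat_lit 2589350505) (nat_lit 76) (nat_lit 14694848900) (nat_lit 39) (nat_lit 5) (nat_lit 41) (nat_lit 5) (nat_lit 40) (nat_lit 5) (nat_lit 395) (nat_lit 345) (nat_lit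 280)) (XT.nd (nat_lit 78) (nat_lit 0) (nat_lit 0) (XT.lf (nat_lit 0) (nat_lit 10377598550) (nat_lit 152) (nat_lit 1140727708) (nat_lit 228) (nat_lit 12246839544) (nat_lit 37) (nat_lit 5) (nat_lit 39) (nat_lit 5) (nat_lit 40) (nat_lit 5) (nat_lit 396) (nat_lit 345) (nat_lit 279)) (XT.lf (nat_lit 0) (nat_lit 17742515560) (nat_lit 228) (nat_lit 646866716) (nat_lit 76) (nat_lit 6188174293) (nat_lit 37) (nat_lit 5) (nat_lit 40) (nat_lit 5) (nat_lit 38) (nat_lit 4) (nat_lit 397) (nat_lit 345) (nat_lit 278)))) (XT.nd (nat_lit 78) (nat_lit 228) (nat_lit 0) (XT.lf (nat_lit 0) (nat_lit 13084933374) (nat_lit 76) (nat_lit 11390031892) (nat_lit 152) (nat_lit 945755355) (nat_lit 36) (nat_lit 5) (nat_lit 37) (nat_lit 5) (nat_lit 38) (nat_lit 4) (nat_lit 398) (nat_lit 345) (nat_lit 277)) (XT.nd (nat_lit 78) (nat_lit 0) (nat_lit 0) (XT.lf (nat_lit 0) (nat_lit 1128286872) (nat_lit 152) (nat_lit 3944973258)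 (nat_lit 228) (nat_lit 21228553764) (nat_lit 33) (nat_lit 5) (nat_lit 35) (nat_lit 5) (nat_lit 36) (nat_lit 5) (nat_lit 399) (nat_lit 345) (nat_lit 276)) (XT.lf (nat_lit 0) (nat_lit 11608609613) (nat_lit 228) (nat_lit 11648433033) (nat_lit 76) (nat_lit 3956791073) (nat_lit 33) (nat_lit 5) (nat_lit 36) (nat_lit 5) (nat_lit 34) (nat_lit 4) (nat_lit 400) (nat_lit 345) (nat_lit 275))))) (XT.nd (nat_lit 234) (nat_lit 228) (nat_lit 0) (XT.nd (nat_lit 78) (nat_lit 228) (nat_lit 0) (XT.lf (nat_lit 0) (nat_lit 2524899201) (nat_lit 76) (nat_lit 16025511650) (nat_lit 152) (nat_lit 9617064650) (nat_lit 32) (nat_lit 5) (nat_lit 33) (nat_lit 5) (nat_lit 34) (nat_lit 4) (nat_lit 401) (nat_lit 345) (nat_lit 274)) (XT.nd (nat_lit 78) (nat_lit 228) (nat_lit 0) (XT.lf (nat_lit 0) (nat_lit 17767860250) (nat_lit 76) (nat_lit 8244789581) (nat_lit 152) (nat_lit 3147487089) (nat_lit 32) (nat_lit 5) (nat_lit 33)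 (nat_lit 5) (nat_lit 34) (nat_lit 4) (nat_lit 402) (nat_lit 345) (nat_lit 273)) (XT.lf (nat_lit 0) (nat_lit 3562100010) (nat_lit 228) (nat_lit 26612075352) (nat_lit 76) (nat_lit 23754064) (nat_lit 29) (nat_lit 5) (nat_lit 32) (nat_lit 5) (nat_lit 30) (nat_lit 4) (nat_lit 403) (nat_lit 345) (nat_lit 272)))) (XT.nd (nat_lit 156) (nat_lit 152) (nat_lit 0) (XT.nd (nat_lit 78) (nat_lit 76) (nat_lit 0) (XT.lf (nat_lit 0) (nat_lit 10809647014) (nat_lit 228) (nat_lit 11801794456) (nat_lit 76) (nat_lit 8658181600) (nat_lit 29) (nat_lit 5) (nat_lit 32) (nat_lit 5) (nat_lit 30) (nat_lit 4) (nat_lit 404) (nat_lit 345) (nat_lit 271)) (XT.lf (nat_lit 0) (nat_lit 3831328264) (nat_lit 76) (nat_lit 14626155833) (nat_lit 152) (nat_lit 13935525724) (nat_lit 28) (nat_lit 5) (nat_lit 29) (nat_lit 5) (nat_lit 30) (nat_lit 4) (nat_lit 405) (nat_lit 345) (nat_lit 270))) (XT.nd (nat_lit 78) (nat_lit 152) (nat_lit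 0) (XT.lf (nat_lit 0) (nat_lit 20616190102) (nat_lit 76) (nat_lit 6049911058) (nat_lit 152) (nat_lit 6897549206) (nat_lit 28) (nat_lit 5) (nat_lit 29) (nat_lit 5) (nat_lit 30) (nat_lit 4) (nat_lit 406) (nat_lit 345) (nat_lit 269)) (XT.lf (nat_lit 0) (nat_lit 557519663) (nat_lit 152) (nat_lit 31323829617) (nat_lit 76) (nat_lit 2907045283) (nat_lit 26) (nat_lit 5) (nat_lit 28) (nat_lit 5) (nat_lit 27) (nat_lit 4) (nat_lit 407) (nat_lit 345) (nat_lit 268))))))))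
noncomputable def xc111 : XT := (XT.nd (nat_lit 2028) (nat_lit 608) (nat_lit 0) (XT.nd (nat_lit 1014) (nat_lit 532) (nat_lit 0) (XT.nd (nat_lit 468) (nat_lit 304) (nat_lit 0) (XT.nd (nat_lit 234) (nat_lit 152) (nat_lit 0) (XT.nd (nat_lit 78) (nat_lit 76) (nat_lit 0) (XT.lf (nat_lit 0) (nat_lit 8454914550) (nat_lit 152) (nat_lit 15171145061) (nat_lit 76) (nat_lit 12427597196) (nat_lit 26) (nat_lit 5) (nat_lit 28) (nat_lit 5) (nat_lit 27) (nat_lit 4) (nat_lit 408) (nat_lit 345) (nat_lit 267)) (XT.nd (nat_lit 78) (nat_lit 0) (nat_lit 0) (XT.lf (nat_lit 0) (nat_lit 1810371579) (nat_lit 76) (nat_lit 14945387308) (nat_lit 152) (nat_lit 20625997471) (nat_lit 25) (nat_lit 5) (nat_lit 26) (nat_lit 5) (nat_lit 27) (nat_lit 4) (nat_lit 409) (nat_lit 345) (nat_lit 266)) (XT.lf (nat_lit 0) (nat_lit 20131519278) (nat_lit 76) (nat_lit 5577744527) (nat_lit 152) (nat_lit 13055119192) (nat_lit 25) (nat_lit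 5) (nat_lit 26) (nat_lit 5) (nat_lit 27) (nat_lit 4) (nat_lit 410) (nat_lit 345) (nat_lit 265)))) (XT.nd (nat_lit 78) (nat_lit 152) (nat_lit 0) (XT.lf (nat_lit 0) (nat_lit 35158284569) (nat_lit 152) (nat_lit 949003527) (nat_lit 0) (nat_lit 4106463725) (nat_lit 25) (nat_lit 5) (nat_lit 27) (nat_lit 4) (nat_lit 25) (nat_lit 4) (nat_lit 411) (nat_lit 345) (nat_lit 264)) (XT.nd (nat_lit 78) (nat_lit 0) (nat_lit 0) (XT.lf (nat_lit 0) (nat_lit 3598811247) (nat_lit 152) (nat_lit 23703228638) (nat_lit 76) (nat_lit 14412857317) (nat_lit 23) (nat_lit 5) (nat_lit 25) (nat_lit 5) (nat_lit 24) (nat_lit 4) (nat_lit 412) (nat_lit 345) (nat_lit 263)) (XT.lf (nat_lit 0) (nat_lit 12514530592) (nat_lit 152) (nat_lit 5453595267) (nat_lit 76) (nat_lit 25318901469) (nat_lit 23) (nat_lit 5) (nat_lit 25) (nat_lit 5) (nat_lit 24) (nat_lit 4) (nat_lit 413) (nat_lit 345) (nat_lit 262))))) (XT.nd (nat_lit 234) (nat_lit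 152) (nat_lit 0) (XT.nd (nat_lit 78) (nat_lit 76) (nat_lit 0) (XT.lf (nat_lit 0) (nat_lit 14128844810) (nat_lit 76) (nat_lit 7950913827) (nat_lit 152) (nat_lit 22847821559) (nat_lit 22) (nat_lit 5) (nat_lit 23) (nat_lit 5) (nat_lit 24) (nat_lit 4) (nat_lit 414) (nat_lit 345) (nat_lit 261)) (XT.nd (nat_lit 78) (nat_lit 76) (nat_lit 0) (XT.lf (nat_lit 0) (nat_lit 32240415962) (nat_lit 152) (nat_lit 11839364563) (nat_lit 0) (nat_lit 2564524050) (nat_lit 22) (nat_lit 5) (nat_lit 24) (nat_lit 4) (nat_lit 22) (nat_lit 4) (nat_lit 415) (nat_lit 345) (nat_lit 260)) (XT.lf (nat_lit 0) (nat_lit 8168630974) (nat_lit 76) (nat_lit 34982366557) (nat_lit 76) (nat_lit 5283775224) (nat_lit 21) (nat_lit 4) (nat_lit 22) (nat_lit 5) (nat_lit 22) (nat_lit 4) (nat_lit 416) (nat_lit 345) (nat_lit 259)))) (XT.nd (nat_lit 156) (nat_lit 76) (nat_lit 0) (XT.nd (nat_lit 78) (nat_lit 0) (nat_lit 0) (XT.lf (nat_lit 0)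 (nat_lit 4342801980) (nat_lit 152) (nat_lit 20817465768) (nat_lit 76) (nat_lit 25141755775) (nat_lit 20) (nat_lit 5) (nat_lit 22) (nat_lit 5) (nat_lit 21) (nat_lit 4) (nat_lit 417) (nat_lit 345) (nat_lit 258)) (XT.lf (nat_lit 0) (nat_lit 14257945802) (nat_lit 152) (nat_lit 512009975) (nat_lit 76) (nat_lit 37489111585) (nat_lit 20) (nat_lit 5) (nat_lit 22) (nat_lit 5) (nat_lit 21) (nat_lit 4) (nat_lit 418) (nat_lit 345) (nat_lit 257))) (XT.nd (nat_lit 78) (nat_lit 0) (nat_lit 0) (XT.lf (nat_lit 0) (nat_lit 21468182364) (nat_lit 76) (nat_lit 3521373658) (nat_lit 152) (nat_lit 29308373681) (nat_lit 19) (nat_lit 5) (nat_lit 20) (nat_lit 5) (nat_lit 21) (nat_lit 4) (nat_lit 419) (nat_lit 345) (nat_lit 256)) (XT.lf (nat_lit 0) (nat_lit 36381576497) (nat_lit 152) (nat_lit 12030423178) (nat_lit 0) (nat_lit 8020545686) (nat_lit 19) (nat_lit 5) (nat_lit 21) (nat_lit 4) (nat_lit 19) (nat_lit 4) (nat_lit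 420) (nat_lit 345) (nat_lit 255)))))) (XT.nd (nat_lit 468) (nat_lit 304) (nat_lit 0) (XT.nd (nat_lit 234) (nat_lit 76) (nat_lit 0) (XT.nd (nat_lit 78) (nat_lit 76) (nat_lit 0) (XT.lf (nat_lit 0) (nat_lit 10046288389) (nat_lit 76) (nat_lit 38497765837) (nat_lit 76) (nat_lit 10119796369) (nat_lit 18) (nat_lit 4) (nat_lit 19) (nat_lit 5) (nat_lit 19) (nat_lit 4) (nat_lit 421) (nat_lit 345) (nat_lit 254)) (XT.nd (nat_lit 78) (nat_lit 0) (nat_lit 0) (XT.lf (nat_lit 0) (nat_lit 491463649) (nat_lit 152) (nat_lit 27386601041) (nat_lit 76) (nat_lit 33118748237) (nat_lit 17) (nat_lit 5) (nat_lit 19) (nat_lit 5) (nat_lit 18) (nat_lit 4) (nat_lit 422) (nat_lit 345) (nat_lit 253)) (XT.lf (nat_lit 0) (nat_lit 11280151037) (nat_lit 152) (nat_lit 5285155757) (nat_lit 76) (nat_lit 46873475258) (nat_lit 17) (nat_lit 5) (nat_lit 19) (nat_lit 5) (nat_lit 18) (nat_lit 4) (nat_lit 423) (nat_lit 345) (nat_lit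 252)))) (XT.nd (nat_lit 78) (nat_lit 0) (nat_lit 0) (XT.lf (nat_lit 0) (nat_lit 18489163205) (nat_lit 76) (nat_lit 4395354275) (nat_lit 152) (nat_lit 43104521238) (nat_lit 16) (nat_lit 5) (nat_lit 17) (nat_lit 5) (nat_lit 18) (nat_lit 4) (nat_lit 424) (nat_lit 345) (nat_lit 251)) (XT.nd (nat_lit 78) (nat_lit 0) (nat_lit 0) (XT.lf (nat_lit 0) (nat_lit 35278582611) (nat_lit 152) (nat_lit 25183011292) (nat_lit 0) (nat_lit 8194741558) (nat_lit 16) (nat_lit 5) (nat_lit 18) (nat_lit 4) (nat_lit 16) (nat_lit 4) (nat_lit 425) (nat_lit 345) (nat_lit 250)) (XT.lf (nat_lit 0) (nat_lit 48352618130) (nat_lit 152) (nat_lit 1845229561) (nat_lit 0) (nat_lit 21256137190) (nat_lit 16) (nat_lit 5) (nat_lit 18) (nat_lit 4) (nat_lit 16) (nat_lit 4) (nat_lit 426) (nat_lit 345) (nat_lit 249))))) (XT.nd (nat_lit 234) (nat_lit 152) (nat_lit 0) (XT.nd (nat_lit 78) (nat_lit 76) (nat_lit 0) (XT.lf (nat_lit 0) (nat_lit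 23386162883) (nat_lit 76) (nat_lit 39048089553) (nat_lit 76) (nat_lit 11939570626) (nat_lit 15) (nat_lit 4) (nat_lit 16) (nat_lit 5) (nat_lit 16) (nat_lit 4) (nat_lit 427) (nat_lit 345) (nat_lit 248)) (XT.nd (nat_lit 78) (nat_lit 76) (nat_lit 0) (XT.lf (nat_lit 0) (nat_lit 49921756837) (nat_lit 76) (nat_lit 27318434957) (nat_lit 76) (nat_lit 198451280) (nat_lit 15) (nat_lit 4) (nat_lit 16) (nat_lit 5) (nat_lit 16) (nat_lit 4) (nat_lit 428) (nat_lit 345) (nat_lit 247)) (XT.lf (nat_lit 0) (nat_lit 11730822507) (nat_lit 152) (nat_lit 3082716346) (nat_lit 76) (nat_lit 65834231001) (nat_lit 14) (nat_lit 5) (nat_lit 16) (nat_lit 5) (nat_lit 15) (nat_lit 4) (nat_lit 429) (nat_lit 345) (nat_lit 246)))) (XT.nd (nat_lit 156) (nat_lit 76) (nat_lit 0) (XT.nd (nat_lit 78) (nat_lit 0) (nat_lit 0) (XT.lf (nat_lit 0) (nat_lit 23295742989) (nat_lit 76) (nat_lit 1307693274) (nat_lit 152) (nat_lit 59396077705)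 (nat_lit 13) (nat_lit 5) (nat_lit 14) (nat_lit 5) (nat_lit 15) (nat_lit 4) (nat_lit 430) (nat_lit 345) (nat_lit 245)) (XT.lf (nat_lit 0) (nat_lit 38363600606) (nat_lit 152) (nat_lit 36637739483) (nat_lit 0) (nat_lit 12505310098) (nat_lit 13) (nat_lit 5) (nat_lit 15) (nat_lit 4) (nat_lit 13) (nat_lit 4) (nat_lit 431) (nat_lit 345) (nat_lit 244))) (XT.nd (nat_lit 78) (nat_lit 76) (nat_lit 0) (XT.lf (nat_lit 0) (nat_lit 52823559522) (nat_lit 152) (nat_lit 11408709147) (nat_lit 0) (nat_lit 26956286083) (nat_lit 13) (nat_lit 5) (nat_lit 15) (nat_lit 4) (nat_lit 13) (nat_lit 4) (nat_lit 432) (nat_lit 345) (nat_lit 243)) (XT.lf (nat_lit 0) (nat_lit 15561883360) (nat_lit 76) (nat_lit 52678405979) (nat_lit 76) (nat_lit 26802577368) (nat_lit 12) (nat_lit 4) (nat_lit 13) (nat_lit 5) (nat_lit 13) (nat_lit 4) (nat_lit 433) (nat_lit 345) (nat_lit 242))))))) (XT.nd (nat_lit 1014) (nat_lit 228) (nat_lit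 0) (XT.nd (nat_lit 468) (nat_lit 228) (nat_lit 0) (XT.nd (nat_lit 234) (nat_lit 76) (nat_lit 0) (XT.nd (nat_lit 78) (nat_lit 76) (nat_lit 0) (XT.lf (nat_lit 0) (nat_lit 44259413100) (nat_lit 76) (nat_lit 40352624613) (nat_lit 76) (nat_lit 14468648217) (nat_lit 12) (nat_lit 4) (nat_lit 13) (nat_lit 5) (nat_lit 13) (nat_lit 4) (nat_lit 434) (nat_lit 345) (nat_lit 241)) (XT.nd (nat_lit 78) (nat_lit 76) (nat_lit 0) (XT.lf (nat_lit 0) (nat_lit 74374984078) (nat_lit 76) (nat_lit 27418789479) (nat_lit 76) (nat_lit 1527053290) (nat_lit 12) (nat_lit 4) (nat_lit 13) (nat_lit 5) (nat_lit 13) (nat_lit 4) (nat_lit 435) (nat_lit 345) (nat_lit 240)) (XT.lf (nat_lit 0) (nat_lit 11667248798) (nat_lit 152) (nat_lit 1981266432) (nat_lit 76) (nat_lit 94115460731) (nat_lit 11) (nat_lit 5) (nat_lit 13) (nat_lit 5) (nat_lit 12) (nat_lit 4) (nat_lit 436) (nat_lit 345) (nat_lit 239)))) (XT.nd (nat_lit 78) (nat_lit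 0) (nat_lit 0) (XT.lf (nat_lit 0) (nat_lit 25905959900) (nat_lit 152) (nat_lit 85266848970) (nat_lit 0) (nat_lit 1233421967) (nat_lit 10) (nat_lit 5) (nat_lit 12) (nat_lit 4) (nat_lit 10) (nat_lit 4) (nat_lit 437) (nat_lit 345) (nat_lit 238)) (XT.nd (nat_lit 78) (nat_lit 0) (nat_lit 0) (XT.lf (nat_lit 0) (nat_lit 41106549540) (nat_lit 152) (nat_lit 59733924769) (nat_lit 0) (nat_lit 16427627604) (nat_lit 10) (nat_lit 5) (nat_lit 12) (nat_lit 4) (nat_lit 10) (nat_lit 4) (nat_lit 438) (nat_lit 345) (nat_lit 237)) (XT.lf (nat_lit 0) (nat_lit 57059638244) (nat_lit 152) (nat_lit 32939169088) (nat_lit 0) (nat_lit 32374636308) (nat_lit 10) (nat_lit 5) (nat_lit 12) (nat_lit 4) (nat_lit 10) (nat_lit 4) (nat_lit 439) (nat_lit 345) (nat_lit 236))))) (XT.nd (nat_lit 234) (nat_lit 152) (nat_lit 0) (XT.nd (nat_lit 78) (nat_lit 76) (nat_lit 0) (XT.lf (nat_lit 0) (nat_lit 73803209560) (nat_lit 152) (nat_lit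 4818784888) (nat_lit 0) (nat_lit 49112417146) (nat_lit 10) (nat_lit 5) (nat_lit 12) (nat_lit 4) (nat_lit 10) (nat_lit 4) (nat_lit 440) (nat_lit 345) (nat_lit 235)) (XT.nd (nat_lit 78) (nat_lit 0) (nat_lit 0) (XT.lf (nat_lit 0) (nat_lit 25510682275) (nat_lit 76) (nat_lit 66264740101) (nat_lit 76) (nat_lit 41568432946) (nat_lit 9) (nat_lit 4) (nat_lit 10) (nat_lit 5) (nat_lit 10) (nat_lit 4) (nat_lit 441) (nat_lit 345) (nat_lit 234)) (XT.lf (nat_lit 0) (nat_lit 57510699463) (nat_lit 76) (nat_lit 53210443355) (nat_lit 76) (nat_lit 28508884066) (nat_lit 9) (nat_lit 4) (nat_lit 10) (nat_lit 5) (nat_lit 10) (nat_lit 4) (nat_lit 442) (nat_lit 345) (nat_lit 233)))) (XT.nd (nat_lit 156) (nat_lit 152) (nat_lit 0) (XT.nd (nat_lit 78) (nat_lit 0) (nat_lit 0) (XT.lf (nat_lit 0) (nat_lit 91098126402) (nat_lit 76) (nat_lit 39509631006) (nat_lit 76) (nat_lit 14803069685) (nat_lit 9) (nat_lit 4) (nat_lit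 10) (nat_lit 5) (nat_lit 10) (nat_lit 4) (nat_lit 443) (nat_lit 345) (nat_lit 232)) (XT.lf (nat_lit 0) (nat_lit 126352933156) (nat_lit 76) (nat_lit 25129682072) (nat_lit 76) (nat_lit 418356910) (nat_lit 9) (nat_lit 4) (nat_lit 10) (nat_lit 5) (nat_lit 10) (nat_lit 4) (nat_lit 444) (nat_lit 345) (nat_lit 231))) (XT.nd (nat_lit 78) (nat_lit 0) (nat_lit 0) (XT.lf (nat_lit 0) (nat_lit 4559902149) (nat_lit 76) (nat_lit 9720958485) (nat_lit 152) (nat_lit 144420035061) (nat_lit 7) (nat_lit 5) (nat_lit 8) (nat_lit 5) (nat_lit 9) (nat_lit 4) (nat_lit 445) (nat_lit 345) (nat_lit 230)) (XT.lf (nat_lit 0) (nat_lit 30235692567) (nat_lit 152) (nat_lit 128885383637) (nat_lit 0) (nat_lit 6692661048) (nat_lit 7) (nat_lit 5) (nat_lit 9) (nat_lit 4) (nat_lit 7) (nat_lit 4) (nat_lit 446) (nat_lit 345) (nat_lit 229)))))) (XT.nd (nat_lit 468) (nat_lit 152) (nat_lit 0) (XT.nd (nat_lit 234) (nat_lit 76) (nat_lit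 0) (XT.nd (nat_lit 78) (nat_lit 0) (nat_lit 0) (XT.lf (nat_lit 0) (nat_lit 47142027117) (nat_lit 152) (nat_lit 102537429716) (nat_lit 0) (nat_lit 23595076375) (nat_lit 7) (nat_lit 5) (nat_lit 9) (nat_lit 4) (nat_lit 7) (nat_lit 4) (nat_lit 447) (nat_lit 345) (nat_lit 228)) (XT.nd (nat_lit 78) (nat_lit 0) (nat_lit 0) (XT.lf (nat_lit 0) (nat_lit 64888346057) (nat_lit 152) (nat_lit 74882627154) (nat_lit 0) (nat_lit 41337662721) (nat_lit 7) (nat_lit 5) (nat_lit 9) (nat_lit 4) (nat_lit 7) (nat_lit 4) (nat_lit 448) (nat_lit 345) (nat_lit 227)) (XT.lf (nat_lit 0) (nat_lit 83516902527) (nat_lit 152) (nat_lit 45855131183) (nat_lit 0) (nat_lit 59962664340) (nat_lit 7) (nat_lit 5) (nat_lit 9) (nat_lit 4) (nat_lit 7) (nat_lit 4) (nat_lit 449) (nat_lit 345) (nat_lit 226)))) (XT.nd (nat_lit 78) (nat_lit 76) (nat_lit 0) (XT.lf (nat_lit 0) (nat_lit 103072050233) (nat_lit 152) (nat_lit 15385828718) (nat_lit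 0) (nat_lit 79514426473) (nat_lit 7) (nat_lit 5) (nat_lit 9) (nat_lit 4) (nat_lit 7) (nat_lit 4) (nat_lit 450) (nat_lit 345) (nat_lit 225)) (XT.nd (nat_lit 78) (nat_lit 0) (nat_lit 0) (XT.lf (nat_lit 0) (nat_lit 17146625291) (nat_lit 76) (nat_lit 106721430633) (nat_lit 76) (nat_lit 83160582519) (nat_lit 6) (nat_lit 4) (nat_lit 7) (nat_lit 5) (nat_lit 7) (nat_lit 4) (nat_lit 451) (nat_lit 345) (nat_lit 224)) (XT.lf (nat_lit 0) (nat_lit 51830897539) (nat_lit 76) (nat_lit 94129003907) (nat_lit 76) (nat_lit 70565084980) (nat_lit 6) (nat_lit 4) (nat_lit 7) (nat_lit 5) (nat_lit 7) (nat_lit 4) (nat_lit 452) (nat_lit 345) (nat_lit 223))))) (XT.nd (nat_lit 234) (nat_lit 152) (nat_lit 0) (XT.nd (nat_lit 78) (nat_lit 0) (nat_lit 0) (XT.lf (nat_lit 0) (nat_lit 88240844646) (nat_lit 76) (nat_lit 80911183260) (nat_lit 76) (nat_lit 57344339747) (nat_lit 6) (nat_lit 4) (nat_lit 7) (nat_lit 5) (nat_lit 7)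 (nat_lit 4) (nat_lit 453) (nat_lit 345) (nat_lit 222)) (XT.nd (nat_lit 78) (nat_lit 0) (nat_lit 0) (XT.lf (nat_lit 0) (nat_lit 126463156962) (nat_lit 76) (nat_lit 67036497689) (nat_lit 76) (nat_lit 43466868858) (nat_lit 6) (nat_lit 4) (nat_lit 7) (nat_lit 5) (nat_lit 7) (nat_lit 4) (nat_lit 454) (nat_lit 345) (nat_lit 221)) (XT.lf (nat_lit 0) (nat_lit 166588839991) (nat_lit 76) (nat_lit 52471912229) (nat_lit 76) (nat_lit 28899630713) (nat_lit 6) (nat_lit 4) (nat_lit 7) (nat_lit 5) (nat_lit 7) (nat_lit 4) (nat_lit 455) (nat_lit 345) (nat_lit 220)))) (XT.nd (nat_lit 156) (nat_lit 76) (nat_lit 0) (XT.nd (nat_lit 78) (nat_lit 76) (nat_lit 0) (XT.lf (nat_lit 0) (nat_lit 208713431074) (nat_lit 76) (nat_lit 37182749295) (nat_lit 76) (nat_lit 13607941413) (nat_lit 6) (nat_lit 4) (nat_lit 7) (nat_lit 5) (nat_lit 7) (nat_lit 4) (nat_lit 456) (nat_lit 345) (nat_lit 219)) (XT.lf (nat_lit 0) (nat_lit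 2366365108) (nat_lit 152) (nat_lit 18726165473) (nat_lit 76) (nat_lit 250530786211) (nat_lit 5) (nat_lit 5) (nat_lit 7) (nat_lit 5) (nat_lit 6) (nat_lit 4) (nat_lit 457) (nat_lit 345) (nat_lit 218))) (XT.nd (nat_lit 78) (nat_lit 0) (nat_lit 0) (XT.lf (nat_lit 0) (nat_lit 15198136215) (nat_lit 76) (nat_lit 3717786540) (nat_lit 152) (nat_lit 265409702360) (nat_lit 4) (nat_lit 5) (nat_lit 5) (nat_lit 5) (nat_lit 6) (nat_lit 4) (nat_lit 458) (nat_lit 345) (nat_lit 217)) (XT.lf (nat_lit 0) (nat_lit 36838654246) (nat_lit 152) (nat_lit 246417206049) (nat_lit 0) (nat_lit 14379903957) (nat_lit 4) (nat_lit 5) (nat_lit 6) (nat_lit 4) (nat_lit 4) (nat_lit 4) (nat_lit 459) (nat_lit 345) (nat_lit 216))))))))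
noncomputable def xc112 : XT := (XT.nd (nat_lit 44694) (nat_lit 0) (nat_lit 4940) (XT.nd (nat_lit 936) (nat_lit 0) (nat_lit 0) (XT.nd (nat_lit 468) (nat_lit 76) (nat_lit 0) (XT.nd (nat_lit 234) (nat_lit 0) (nat_lit 0) (XT.nd (nat_lit 78) (nat_lit 0) (nat_lit 0) (XT.lf (nat_lit 0) (nat_lit 55715206321) (nat_lit 152) (nat_lit 222638843455) (nat_lit 0) (nat_lit 33254476558) (nat_lit 4) (nat_lit 5) (nat_lit 6) (nat_lit 4) (nat_lit 4) (nat_lit 4) (nat_lit 460) (nat_lit 345) (nat_lit 215)) (XT.nd (nat_lit 78) (nat_lit 0) (nat_lit 0) (XT.lf (nat_lit 0) (nat_lit 75532478085) (nat_lit 152) (nat_lit 197677740901) (nat_lit 0) (nat_lit 53069863108) (nat_lit 4) (nat_lit 5) (nat_lit 6) (nat_lit 4) (nat_lit 4) (nat_lit 4) (nat_lit 461) (nat_lit 345) (nat_lit 214)) (XT.lf (nat_lit 0) (nat_lit 96337653518) (nat_lit 152) (nat_lit 171474467191) (nat_lit 0) (nat_lit 73873243100) (nat_lit 4) (nat_lit 5) (nat_lit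 6) (nat_lit 4) (nat_lit 4) (nat_lit 4) (nat_lit 462) (nat_lit 345) (nat_lit 213)))) (XT.nd (nat_lit 78) (nat_lit 0) (nat_lit 0) (XT.lf (nat_lit 0) (nat_lit 118180268752) (nat_lit 152) (nat_lit 143966633578) (nat_lit 0) (nat_lit 95714148390) (nat_lit 4) (nat_lit 5) (nat_lit 6) (nat_lit 4) (nat_lit 4) (nat_lit 4) (nat_lit 463) (nat_lit 345) (nat_lit 212)) (XT.nd (nat_lit 78) (nat_lit 0) (nat_lit 0) (XT.lf (nat_lit 0) (nat_lit 141112330014) (nat_lit 152) (nat_lit 115088745220) (nat_lit 0) (nat_lit 118644581134) (nat_lit 4) (nat_lit 5) (nat_lit 6) (nat_lit 4) (nat_lit 4) (nat_lit 4) (nat_lit 464) (nat_lit 345) (nat_lit 211)) (XT.lf (nat_lit 0) (nat_lit 165188437450) (nat_lit 152) (nat_lit 84772045240) (nat_lit 0) (nat_lit 142719137600) (nat_lit 4) (nat_lit 5) (nat_lit 6) (nat_lit 4) (nat_lit 4) (nat_lit 4) (nat_lit 465) (nat_lit 345) (nat_lit 210))))) (XT.nd (nat_lit 234) (nat_lit 0) (nat_lit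 0) (XT.nd (nat_lit 78) (nat_lit 76) (nat_lit 0) (XT.lf (nat_lit 0) (nat_lit 190465915125) (nat_lit 152) (nat_lit 52944351019) (nat_lit 0) (nat_lit 167995138161) (nat_lit 4) (nat_lit 5) (nat_lit 6) (nat_lit 4) (nat_lit 4) (nat_lit 4) (nat_lit 466) (nat_lit 345) (nat_lit 209)) (XT.nd (nat_lit 78) (nat_lit 76) (nat_lit 0) (XT.lf (nat_lit 0) (nat_lit 217004947510) (nat_lit 152) (nat_lit 19529882332) (nat_lit 0) (nat_lit 194532763771) (nat_lit 4) (nat_lit 5) (nat_lit 6) (nat_lit 4) (nat_lit 4) (nat_lit 4) (nat_lit 467) (nat_lit 345) (nat_lit 208)) (XT.lf (nat_lit 0) (nat_lit 16065102692) (nat_lit 76) (nat_lit 229054441359) (nat_lit 76) (nat_lit 206580917834) (nat_lit 3) (nat_lit 4) (nat_lit 4) (nat_lit 5) (nat_lit 4) (nat_lit 4) (nat_lit 468) (nat_lit 345) (nat_lit 207)))) (XT.nd (nat_lit 78) (nat_lit 0) (nat_lit 0) (XT.lf (nat_lit 0) (nat_lit 54113550491) (nat_lit 76) (nat_lit 220854896932)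 (nat_lit 76) (nat_lit 198380097420) (nat_lit 3) (nat_lit 4) (nat_lit 4) (nat_lit 5) (nat_lit 4) (nat_lit 4) (nat_lit 469) (nat_lit 345) (nat_lit 206)) (XT.nd (nat_lit 78) (nat_lit 0) (nat_lit 0) (XT.lf (nat_lit 0) (nat_lit 94060306497) (nat_lit 76) (nat_lit 212247421842) (nat_lit 76) (nat_lit 189771407105) (nat_lit 3) (nat_lit 4) (nat_lit 4) (nat_lit 5) (nat_lit 4) (nat_lit 4) (nat_lit 470) (nat_lit 345) (nat_lit 205)) (XT.lf (nat_lit 0) (nat_lit 136000482034) (nat_lit 76) (nat_lit 203211522102) (nat_lit 76) (nat_lit 180734350008) (nat_lit 3) (nat_lit 4) (nat_lit 4) (nat_lit 5) (nat_lit 4) (nat_lit 4) (nat_lit 471) (nat_lit 345) (nat_lit 204)))))) (XT.nd (nat_lit 468) (nat_lit 0) (nat_lit 0) (XT.nd (nat_lit 234) (nat_lit 0) (nat_lit 0) (XT.nd (nat_lit 78) (nat_lit 0) (nat_lit 0) (XT.lf (nat_lit 0) (nat_lit 180033934663) (nat_lit 76) (nat_lit 193725683665) (nat_lit 76) (nat_lit 171247409326)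 (nat_lit 3) (nat_lit 4) (nat_lit 4) (nat_lit 5) (nat_lit 4) (nat_lit 4) (nat_lit 472) (nat_lit 345) (nat_lit 203)) (XT.nd (nat_lit 78) (nat_lit 0) (nat_lit 0) (XT.lf (nat_lit 0) (nat_lit 226265505936) (nat_lit 76) (nat_lit 183767321201) (nat_lit 76) (nat_lit 161287997105) (nat_lit 3) (nat_lit 4) (nat_lit 4) (nat_lit 5) (nat_lit 4) (nat_lit 4) (nat_lit 473) (nat_lit 345) (nat_lit 202)) (XT.lf (nat_lit 0) (nat_lit 274805271025) (nat_lit 76) (nat_lit 173312724324) (nat_lit 76) (nat_lit 150832400458) (nat_lit 3) (nat_lit 4) (nat_lit 4) (nat_lit 5) (nat_lit 4) (nat_lit 4) (nat_lit 474) (nat_lit 345) (nat_lit 201)))) (XT.nd (nat_lit 78) (nat_lit 0) (nat_lit 0) (XT.lf (nat_lit 0) (nat_lit 325768800798) (nat_lit 76) (nat_lit 162337001135) (nat_lit 76) (nat_lit 139855725109) (nat_lit 3) (nat_lit 4) (nat_lit 4) (nat_lit 5) (nat_lit 4) (nat_lit 4) (nat_lit 475) (nat_lit 345) (nat_lit 200)) (XT.nd (nat_lit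 78) (nat_lit 0) (nat_lit 0) (XT.lf (nat_lit 0) (nat_lit 379277436993) (nat_lit 76) (nat_lit 150814018961) (nat_lit 76) (nat_lit 128331836115) (nat_lit 3) (nat_lit 4) (nat_lit 4) (nat_lit 5) (nat_lit 4) (nat_lit 4) (nat_lit 476) (nat_lit 345) (nat_lit 199)) (XT.lf (nat_lit 0) (nat_lit 435458581125) (nat_lit 76) (nat_lit 138716342131) (nat_lit 76) (nat_lit 116233295646) (nat_lit 3) (nat_lit 4) (nat_lit 4) (nat_lit 5) (nat_lit 4) (nat_lit 4) (nat_lit 477) (nat_lit 345) (nat_lit 198))))) (XT.nd (nat_lit 42978) (nat_lit 0) (nat_lit 10944) (XT.nd (nat_lit 42822) (nat_lit 0) (nat_lit 11400) (XT.lf (nat_lit 0) (nat_lit 494445997822) (nat_lit 76) (nat_lit 126015166650) (nat_lit 76) (nat_lit 103531297653) (nat_lit 3) (nat_lit 4) (nat_lit 4) (nat_lit 5) (nat_lit 4) (nat_lit 4) (nat_lit 478) (nat_lit 345) (nat_lit 197)) (XT.nd (nat_lit 78) (nat_lit 0) (nat_lit 0) (XT.lf (nat_lit 0) (nat_lit 1028438078)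 (nat_lit 0) (nat_lit 1028438078) (nat_lit 380) (nat_lit 1372999633) (nat_lit 153) (nat_lit 5) (nat_lit 153) (nat_lit 3) (nat_lit 158) (nat_lit 3) (nat_lit 346) (nat_lit 346) (nat_lit 328)) (XT.lf (nat_lit 0) (nat_lit 5490431267) (nat_lit 0) (nat_lit 628177107) (nat_lit 380) (nat_lit 815607455) (nat_lit 153) (nat_lit 5) (nat_lit 153) (nat_lit 3) (nat_lit 158) (nat_lit 3) (nat_lit 347) (nat_lit 346) (nat_lit 327)))) (XT.nd (nat_lit 156) (nat_lit 0) (nat_lit 0) (XT.nd (nat_lit 78) (nat_lit 0) (nat_lit 0) (XT.lf (nat_lit 0) (nat_lit 1096282811) (nat_lit 456) (nat_lit 4966162400) (nat_lit 532) (nat_lit 952942678) (nat_lit 147) (nat_lit 5) (nat_lit 153) (nat_lit 5) (nat_lit 154) (nat_lit 5) (nat_lit 348) (nat_lit 346) (nat_lit 326)) (XT.lf (nat_lit 0) (nat_lit 2993396084) (nat_lit 456) (nat_lit 1427412186) (nat_lit 532) (nat_lit 2683401833) (nat_lit 147) (nat_lit 5) (nat_lit 153) (nat_lit 5) (nat_lit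 154) (nat_lit 5) (nat_lit 349) (nat_lit 346) (nat_lit 325))) (XT.nd (nat_lit 78) (nat_lit 0) (nat_lit 0) (XT.lf (nat_lit 76) (nat_lit 2294122998) (nat_lit 0) (nat_lit 2614572319) (nat_lit 532) (nat_lit 2292718260) (nat_lit 148) (nat_lit 5) (nat_lit 147) (nat_lit 5) (nat_lit 154) (nat_lit 5) (nat_lit 350) (nat_lit 346) (nat_lit 324)) (XT.lf (nat_lit 76) (nat_lit 6184802649) (nat_lit 0) (nat_lit 650961850) (nat_lit 532) (nat_lit 472014059) (nat_lit 148) (nat_lit 5) (nat_lit 147) (nat_lit 5) (nat_lit 154) (nat_lit 5) (nat_lit 351) (nat_lit 346) (nat_lit 323))))))) (XT.nd (nat_lit 1014) (nat_lit 2204) (nat_lit 0) (XT.nd (nat_lit 468) (nat_lit 2204) (nat_lit 0) (XT.nd (nat_lit 234) (nat_lit 1140) (nat_lit 0) (XT.nd (nat_lit 78) (nat_lit 0) (nat_lit 0) (XT.lf (nat_lit 0) (nat_lit 1357097703) (nat_lit 532) (nat_lit 4592666936) (nat_lit 608) (nat_lit 1470492753) (nat_lit 141) (nat_lit 5) (nat_lit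 148) (nat_lit 5) (nat_lit 149) (nat_lit 5) (nat_lit 352) (nat_lit 346) (nat_lit 322)) (XT.nd (nat_lit 78) (nat_lit 0) (nat_lit 0) (XT.lf (nat_lit 0) (nat_lit 3191513378) (nat_lit 532) (nat_lit 612936068) (nat_lit 608) (nat_lit 3737126022) (nat_lit 141) (nat_lit 5) (nat_lit 148) (nat_lit 5) (nat_lit 149) (nat_lit 5) (nat_lit 353) (nat_lit 346) (nat_lit 321)) (XT.lf (nat_lit 76) (nat_lit 3613357123) (nat_lit 0) (nat_lit 1465192745) (nat_lit 608) (nat_lit 2592448151) (nat_lit 142) (nat_lit 5) (nat_lit 141) (nat_lit 5) (nat_lit 149) (nat_lit 5) (nat_lit 354) (nat_lit 346) (nat_lit 320)))) (XT.nd (nat_lit 78) (nat_lit 684) (nat_lit 0) (XT.lf (nat_lit 0) (nat_lit 184073360) (nat_lit 532) (nat_lit 6813140877) (nat_lit 608) (nat_lit 812893253) (nat_lit 135) (nat_lit 5) (nat_lit 142) (nat_lit 5) (nat_lit 143) (nat_lit 5) (nat_lit 355) (nat_lit 346) (nat_lit 319)) (XT.nd (nat_lit 78) (nat_lit 608)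 (nat_lit 0) (XT.lf (nat_lit 0) (nat_lit 1025829645) (nat_lit 608) (nat_lit 3289548153) (nat_lit 76) (nat_lit 3639843887) (nat_lit 134) (nat_lit 5) (nat_lit 142) (nat_lit 5) (nat_lit 135) (nat_lit 5) (nat_lit 356) (nat_lit 346) (nat_lit 318)) (XT.lf (nat_lit 0) (nat_lit 1219043957) (nat_lit 608) (nat_lit 1643552324) (nat_lit 684) (nat_lit 5247726454) (nat_lit 126) (nat_lit 5) (nat_lit 134) (nat_lit 5) (nat_lit 135) (nat_lit 5) (nat_lit 357) (nat_lit 346) (nat_lit 317))))) (XT.nd (nat_lit 234) (nat_lit 1444) (nat_lit 0) (XT.nd (nat_lit 78) (nat_lit 760) (nat_lit 0) (XT.lf (nat_lit 0) (nat_lit 4783561222) (nat_lit 684) (nat_lit 2295852956) (nat_lit 76) (nat_lit 1194212142) (nat_lit 126) (nat_lit 5) (nat_lit 135) (nat_lit 5) (nat_lit 127) (nat_lit 5) (nat_lit 358) (nat_lit 346) (nat_lit 316)) (XT.nd (nat_lit 78) (nat_lit 76) (nat_lit 0) (XT.lf (nat_lit 0) (nat_lit 2512651951) (nat_lit 684) (nat_lit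 4275616087) (nat_lit 760) (nat_lit 1657504728) (nat_lit 117) (nat_lit 5) (nat_lit 126) (nat_lit 5) (nat_lit 127) (nat_lit 5) (nat_lit 359) (nat_lit 346) (nat_lit 315)) (XT.lf (nat_lit 0) (nat_lit 220546307) (nat_lit 760) (nat_lit 1059738646) (nat_lit 76) (nat_lit 7347970053) (nat_lit 116) (nat_lit 5) (nat_lit 126) (nat_lit 5) (nat_lit 117) (nat_lit 5) (nat_lit 360) (nat_lit 346) (nat_lit 314)))) (XT.nd (nat_lit 156) (nat_lit 304) (nat_lit 0) (XT.nd (nat_lit 78) (nat_lit 380) (nat_lit 0) (XT.lf (nat_lit 0) (nat_lit 2157939828) (nat_lit 836) (nat_lit 4756816766) (nat_lit 76) (nat_lit 1902742878) (nat_lit 106) (nat_lit 5) (nat_lit 117) (nat_lit 5) (nat_lit 107) (nat_lit 5) (nat_lit 361) (nat_lit 346) (nat_lit 313)) (XT.lf (nat_lit 0) (nat_lit 378651259) (nat_lit 380) (nat_lit 3787754862) (nat_lit 456) (nat_lit 4851141192) (nat_lit 101) (nat_lit 5) (nat_lit 106) (nat_lit 5) (nat_lit 107) (nat_lit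 5) (nat_lit 362) (nat_lit 346) (nat_lit 312))) (XT.nd (nat_lit 78) (nat_lit 304) (nat_lit 0) (XT.lf (nat_lit 0) (nat_lit 5866386942) (nat_lit 380) (nat_lit 420819946) (nat_lit 456) (nat_lit 2939843962) (nat_lit 101) (nat_lit 5) (nat_lit 106) (nat_lit 5) (nat_lit 107) (nat_lit 5) (nat_lit 363) (nat_lit 346) (nat_lit 311)) (XT.lf (nat_lit 0) (nat_lit 2131438215) (nat_lit 304) (nat_lit 6399118865) (nat_lit 380) (nat_lit 915693554) (nat_lit 97) (nat_lit 5) (nat_lit 101) (nat_lit 5) (nat_lit 102) (nat_lit 5) (nat_lit 364) (nat_lit 346) (nat_lit 310)))))) (XT.nd (nat_lit 468) (nat_lit 1064) (nat_lit 0) (XT.nd (nat_lit 234) (nat_lit 380) (nat_lit 0) (XT.nd (nat_lit 78) (nat_lit 684) (nat_lit 0) (XT.lf (nat_lit 0) (nat_lit 1171262830) (nat_lit 380) (nat_lit 1756147458) (nat_lit 76) (nat_lit 6748082251) (nat_lit 96) (nat_lit 5) (nat_lit 101) (nat_lit 5) (nat_lit 97) (nat_lit 5) (nat_lit 365) (nat_lit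 346) (nat_lit 309)) (XT.nd (nat_lit 78) (nat_lit 304) (nat_lit 0) (XT.lf (nat_lit 0) (nat_lit 3347335182) (nat_lit 456) (nat_lit 5797432111) (nat_lit 76) (nat_lit 769941805) (nat_lit 91) (nat_lit 5) (nat_lit 97) (nat_lit 5) (nat_lit 92) (nat_lit 5) (nat_lit 366) (nat_lit 346) (nat_lit 308)) (XT.lf (nat_lit 0) (nat_lit 65418933) (nat_lit 304) (nat_lit 5586452353) (nat_lit 380) (nat_lit 4513070478) (nat_lit 87) (nat_lit 5) (nat_lit 91) (nat_lit 5) (nat_lit 92) (nat_lit 5) (nat_lit 367) (nat_lit 346) (nat_lit 307)))) (XT.nd (nat_lit 78) (nat_lit 380) (nat_lit 0) (XT.lf (nat_lit 0) (nat_lit 6354661745) (nat_lit 304) (nat_lit 1757349535) (nat_lit 380) (nat_lit 2313692392) (nat_lit 87) (nat_lit 5) (nat_lit 91) (nat_lit 5) (nat_lit 92) (nat_lit 5) (nat_lit 368) (nat_lit 346) (nat_lit 306)) (XT.nd (nat_lit 78) (nat_lit 0) (nat_lit 0) (XT.lf (nat_lit 0) (nat_lit 10910824) (nat_lit 380) (nat_lit 8471571098)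 (nat_lit 76) (nat_lit 2216302361) (nat_lit 82) (nat_lit 5) (nat_lit 87) (nat_lit 5) (nat_lit 83) (nat_lit 5) (nat_lit 369) (nat_lit 346) (nat_lit 305)) (XT.lf (nat_lit 0) (nat_lit 2418350979) (nat_lit 380) (nat_lit 2136389369) (nat_lit 76) (nat_lit 6426695505) (nat_lit 82) (nat_lit 5) (nat_lit 87) (nat_lit 5) (nat_lit 83) (nat_lit 5) (nat_lit 370) (nat_lit 346) (nat_lit 304))))) (XT.nd (nat_lit 234) (nat_lit 532) (nat_lit 0) (XT.nd (nat_lit 78) (nat_lit 304) (nat_lit 0) (XT.lf (nat_lit 0) (nat_lit 4597787949) (nat_lit 228) (nat_lit 368233541) (nat_lit 304) (nat_lit 6311235591) (nat_lit 79) (nat_lit 5) (nat_lit 82) (nat_lit 5) (nat_lit 83) (nat_lit 5) (nat_lit 371) (nat_lit 346) (nat_lit 303)) (XT.nd (nat_lit 78) (nat_lit 0) (nat_lit 0) (XT.lf (nat_lit 0) (nat_lit 27989193) (nat_lit 304) (nat_lit 7662519163) (nat_lit 380) (nat_lit 3894917942) (nat_lit 75) (nat_lit 5) (nat_lit 79) (nat_lit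 5) (nat_lit 80) (nat_lit 5) (nat_lit 372) (nat_lit 346) (nat_lit 302)) (XT.lf (nat_lit 0) (nat_lit 7231332483) (nat_lit 304) (nat_lit 3389681446) (nat_lit 380) (nat_lit 1284527538) (nat_lit 75) (nat_lit 5) (nat_lit 79) (nat_lit 5) (nat_lit 80) (nat_lit 5) (nat_lit 373) (nat_lit 346) (nat_lit 301)))) (XT.nd (nat_lit 156) (nat_lit 228) (nat_lit 0) (XT.nd (nat_lit 78) (nat_lit 0) (nat_lit 0) (XT.lf (nat_lit 0) (nat_lit 1419743147) (nat_lit 304) (nat_lit 9710488934) (nat_lit 76) (nat_lit 1109819379) (nat_lit 71) (nat_lit 5) (nat_lit 75) (nat_lit 5) (nat_lit 72) (nat_lit 5) (nat_lit 374) (nat_lit 346) (nat_lit 300)) (XT.lf (nat_lit 0) (nat_lit 4305413236) (nat_lit 304) (nat_lit 2474165184) (nat_lit 76) (nat_lit 5806211423) (nat_lit 71) (nat_lit 5) (nat_lit 75) (nat_lit 5) (nat_lit 72) (nat_lit 5) (nat_lit 375) (nat_lit 346) (nat_lit 299))) (XT.nd (nat_lit 78) (nat_lit 0) (nat_lit 0) (XT.lf (nat_lit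 0) (nat_lit 5229727505) (nat_lit 228) (nat_lit 2142840668) (nat_lit 304) (nat_lit 5574409291) (nat_lit 68) (nat_lit 5) (nat_lit 71) (nat_lit 5) (nat_lit 72) (nat_lit 5) (nat_lit 376) (nat_lit 346) (nat_lit 298)) (XT.lf (nat_lit 0) (nat_lit 10634674851) (nat_lit 304) (nat_lit 25211823) (nat_lit 76) (nat_lit 2664279410) (nat_lit 68) (nat_lit 5) (nat_lit 72) (nat_lit 5) (nat_lit 69) (nat_lit 5) (nat_lit 377) (nat_lit 346) (nat_lit 297))))))))
noncomputable def xc113 : XT := (XT.nd (nat_lit 1950) (nat_lit 1292) (nat_lit 0) (XT.nd (nat_lit 936) (nat_lit 1064) (nat_lit 0) (XT.nd (nat_lit 468) (nat_lit 684) (nat_lit 0) (XT.nd (nat_lit 234) (nat_lit 456) (nat_lit 0) (XT.nd (nat_lit 78) (nat_lit 228) (nat_lit 0) (XT.lf (nat_lit 0) (nat_lit 452767429) (nat_lit 304) (nat_lit 5501625604) (nat_lit 76) (nat_lit 7759376959) (nat_lit 64) (nat_lit 5) (nat_lit 68) (nat_lit 5) (nat_lit 65) (nat_lit 5) (nat_lit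 378) (nat_lit 346) (nat_lit 296)) (XT.nd (nat_lit 78) (nat_lit 0) (nat_lit 0) (XT.lf (nat_lit 0) (nat_lit 2722460444) (nat_lit 228) (nat_lit 941135334) (nat_lit 304) (nat_lit 10456980168) (nat_lit 61) (nat_lit 5) (nat_lit 64) (nat_lit 5) (nat_lit 65) (nat_lit 5) (nat_lit 379) (nat_lit 346) (nat_lit 295)) (XT.lf (nat_lit 0) (nat_lit 7156798077) (nat_lit 304) (nat_lit 3124073278) (nat_lit 76) (nat_lit 4260776755) (nat_lit 61) (nat_lit 5) (nat_lit 65) (nat_lit 5) (nat_lit 62) (nat_lit 5) (nat_lit 380) (nat_lit 346) (nat_lit 294)))) (XT.nd (nat_lit 78) (nat_lit 304) (nat_lit 0) (XT.lf (nat_lit 0) (nat_lit 5671926031) (nat_lit 152) (nat_lit 5218281022) (nat_lit 228) (nat_lit 4090306206) (nat_lit 59) (nat_lit 5) (nat_lit 61) (nat_lit 5) (nat_lit 62) (nat_lit 5) (nat_lit 381) (nat_lit 346) (nat_lit 293)) (XT.nd (nat_lit 78) (nat_lit 304) (nat_lit 0) (XT.lf (nat_lit 0) (nat_lit 14827784593) (nat_lit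 228) (nat_lit 483386713) (nat_lit 76) (nat_lit 129291363) (nat_lit 59) (nat_lit 5) (nat_lit 62) (nat_lit 5) (nat_lit 60) (nat_lit 5) (nat_lit 382) (nat_lit 346) (nat_lit 292)) (XT.lf (nat_lit 0) (nat_lit 3133583712) (nat_lit 304) (nat_lit 7036976209) (nat_lit 76) (nat_lit 5740891131) (nat_lit 55) (nat_lit 5) (nat_lit 59) (nat_lit 5) (nat_lit 56) (nat_lit 5) (nat_lit 383) (nat_lit 346) (nat_lit 291))))) (XT.nd (nat_lit 234) (nat_lit 380) (nat_lit 0) (XT.nd (nat_lit 78) (nat_lit 152) (nat_lit 0) (XT.lf (nat_lit 0) (nat_lit 2319473378) (nat_lit 152) (nat_lit 4735899216) (nat_lit 228) (nat_lit 9349687608) (nat_lit 53) (nat_lit 5) (nat_lit 55) (nat_lit 5) (nat_lit 56) (nat_lit 5) (nat_lit 384) (nat_lit 346) (nat_lit 290)) (XT.nd (nat_lit 78) (nat_lit 152) (nat_lit 0) (XT.lf (nat_lit 0) (nat_lit 11274326432) (nat_lit 228) (nat_lit 4602999967) (nat_lit 76) (nat_lit 1040982722) (nat_lit 53) (nat_lit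 5) (nat_lit 56) (nat_lit 5) (nat_lit 54) (nat_lit 5) (nat_lit 385) (nat_lit 346) (nat_lit 289)) (XT.lf (nat_lit 0) (nat_lit 5394885288) (nat_lit 152) (nat_lit 10437681160) (nat_lit 228) (nat_lit 1618249578) (nat_lit 51) (nat_lit 5) (nat_lit 53) (nat_lit 5) (nat_lit 54) (nat_lit 5) (nat_lit 386) (nat_lit 346) (nat_lit 288)))) (XT.nd (nat_lit 78) (nat_lit 304) (nat_lit 0) (XT.lf (nat_lit 0) (nat_lit 2571197406) (nat_lit 228) (nat_lit 2049695274) (nat_lit 76) (nat_lit 13384734184) (nat_lit 50) (nat_lit 5) (nat_lit 53) (nat_lit 5) (nat_lit 51) (nat_lit 5) (nat_lit 387) (nat_lit 346) (nat_lit 287)) (XT.nd (nat_lit 78) (nat_lit 152) (nat_lit 0) (XT.lf (nat_lit 0) (nat_lit 7044706206) (nat_lit 228) (nat_lit 9951411328) (nat_lit 76) (nat_lit 1584296382) (nat_lit 48) (nat_lit 5) (nat_lit 51) (nat_lit 5) (nat_lit 49) (nat_lit 5) (nat_lit 388) (nat_lit 346) (nat_lit 286)) (XT.lf (nat_lit 0) (nat_lit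 622233068) (nat_lit 152) (nat_lit 11209095910) (nat_lit 228) (nat_lit 7348149668) (nat_lit 46) (nat_lit 5) (nat_lit 48) (nat_lit 5) (nat_lit 49) (nat_lit 5) (nat_lit 389) (nat_lit 346) (nat_lit 285)))))) (XT.nd (nat_lit 468) (nat_lit 532) (nat_lit 0) (XT.nd (nat_lit 234) (nat_lit 304) (nat_lit 0) (XT.nd (nat_lit 78) (nat_lit 228) (nat_lit 0) (XT.lf (nat_lit 0) (nat_lit 12018935832) (nat_lit 152) (nat_lit 4976261703) (nat_lit 228) (nat_lit 2806413114) (nat_lit 46) (nat_lit 5) (nat_lit 48) (nat_lit 5) (nat_lit 49) (nat_lit 5) (nat_lit 390) (nat_lit 346) (nat_lit 284)) (XT.nd (nat_lit 78) (nat_lit 0) (nat_lit 0) (XT.lf (nat_lit 0) (nat_lit 1951190942) (nat_lit 228) (nat_lit 16913212824) (nat_lit 76) (nat_lit 1586342903) (nat_lit 43) (nat_lit 5) (nat_lit 46) (nat_lit 5) (nat_lit 44) (nat_lit 5) (nat_lit 391) (nat_lit 346) (nat_lit 283)) (XT.lf (nat_lit 0) (nat_lit 7038595597) (nat_lit 228) (nat_lit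 5611561456) (nat_lit 76) (nat_lit 8470578824) (nat_lit 43) (nat_lit 5) (nat_lit 46) (nat_lit 5) (nat_lit 44) (nat_lit 5) (nat_lit 392) (nat_lit 346) (nat_lit 282)))) (XT.nd (nat_lit 78) (nat_lit 152) (nat_lit 0) (XT.lf (nat_lit 0) (nat_lit 6412787022) (nat_lit 152) (nat_lit 6039792794) (nat_lit 228) (nat_lit 9368042295) (nat_lit 41) (nat_lit 5) (nat_lit 43) (nat_lit 5) (nat_lit 44) (nat_lit 5) (nat_lit 393) (nat_lit 346) (nat_lit 281)) (XT.nd (nat_lit 78) (nat_lit 152) (nat_lit 0) (XT.lf (nat_lit 0) (nat_lit 18220304173) (nat_lit 228) (nat_lit 3381138271) (nat_lit 76) (nat_lit 949915820) (nat_lit 41) (nat_lit 5) (nat_lit 44) (nat_lit 5) (nat_lit 42) (nat_lit 4) (nat_lit 394) (nat_lit 346) (nat_lit 280)) (XT.lf (nat_lit 0) (nat_lit 1150238387) (nat_lit 152) (nat_lit 13923025589) (nat_lit 76) (nat_lit 8233471009) (nat_lit 39) (nat_lit 5) (nat_lit 41) (nat_lit 5) (nat_lit 40) (nat_lit 5) (nat_lit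 395) (nat_lit 346) (nat_lit 279))))) (XT.nd (nat_lit 234) (nat_lit 304) (nat_lit 0) (XT.nd (nat_lit 78) (nat_lit 228) (nat_lit 0) (XT.lf (nat_lit 0) (nat_lit 6792061218) (nat_lit 152) (nat_lit 1310560070) (nat_lit 76) (nat_lit 15992114942) (nat_lit 39) (nat_lit 5) (nat_lit 41) (nat_lit 5) (nat_lit 40) (nat_lit 5) (nat_lit 396) (nat_lit 346) (nat_lit 278)) (XT.nd (nat_lit 78) (nat_lit 76) (nat_lit 0) (XT.lf (nat_lit 0) (nat_lit 12282022599) (nat_lit 152) (nat_lit 600773790) (nat_lit 228) (nat_lit 12031006386) (nat_lit 37) (nat_lit 5) (nat_lit 39) (nat_lit 5) (nat_lit 40) (nat_lit 5) (nat_lit 397) (nat_lit 346) (nat_lit 277)) (XT.lf (nat_lit 0) (nat_lit 691340737) (nat_lit 76) (nat_lit 18708974852) (nat_lit 152) (nat_lit 6367400689) (nat_lit 36) (nat_lit 5) (nat_lit 37) (nat_lit 5) (nat_lit 38) (nat_lit 4) (nat_lit 398) (nat_lit 346) (nat_lit 276)))) (XT.nd (nat_lit 156) (nat_lit 76) (nat_lit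 0) (XT.nd (nat_lit 78) (nat_lit 228) (nat_lit 0) (XT.lf (nat_lit 0) (nat_lit 15065854844) (nat_lit 76) (nat_lit 11377267497) (nat_lit 152) (nat_lit 211238246) (nat_lit 36) (nat_lit 5) (nat_lit 37) (nat_lit 5) (nat_lit 38) (nat_lit 4) (nat_lit 399) (nat_lit 346) (nat_lit 275)) (XT.lf (nat_lit 0) (nat_lit 2514761647) (nat_lit 152) (nat_lit 3553672450) (nat_lit 228) (nat_lit 21511235647) (nat_lit 33) (nat_lit 5) (nat_lit 35) (nat_lit 5) (nat_lit 36) (nat_lit 5) (nat_lit 400) (nat_lit 346) (nat_lit 274))) (XT.nd (nat_lit 78) (nat_lit 76) (nat_lit 0) (XT.lf (nat_lit 0) (nat_lit 12903992348) (nat_lit 228) (nat_lit 10937420046) (nat_lit 76) (nat_lit 4697213687) (nat_lit 33) (nat_lit 5) (nat_lit 36) (nat_lit 5) (nat_lit 34) (nat_lit 4) (nat_lit 401) (nat_lit 346) (nat_lit 273)) (XT.lf (nat_lit 0) (nat_lit 3923716950) (nat_lit 76) (nat_lit 16254989780) (nat_lit 152) (nat_lit 9361959292) (nat_lit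 32) (nat_lit 5) (nat_lit 33) (nat_lit 5) (nat_lit 34) (nat_lit 4) (nat_lit 402) (nat_lit 346) (nat_lit 272))))))) (XT.nd (nat_lit 1014) (nat_lit 532) (nat_lit 0) (XT.nd (nat_lit 468) (nat_lit 304) (nat_lit 0) (XT.nd (nat_lit 234) (nat_lit 228) (nat_lit 0) (XT.nd (nat_lit 78) (nat_lit 228) (nat_lit 0) (XT.lf (nat_lit 0) (nat_lit 19868227347) (nat_lit 76) (nat_lit 8112460058) (nat_lit 152) (nat_lit 2603948501) (nat_lit 32) (nat_lit 5) (nat_lit 33) (nat_lit 5) (nat_lit 34) (nat_lit 4) (nat_lit 403) (nat_lit 346) (nat_lit 271)) (XT.nd (nat_lit 78) (nat_lit 0) (nat_lit 0) (XT.lf (nat_lit 0) (nat_lit 4413918664) (nat_lit 228) (nat_lit 26703249879) (nat_lit 76) (nat_lit 556846858) (nat_lit 29) (nat_lit 5) (nat_lit 32) (nat_lit 5) (nat_lit 30) (nat_lit 4) (nat_lit 404) (nat_lit 346) (nat_lit 270)) (XT.lf (nat_lit 0) (nat_lit 11991761416) (nat_lit 228) (nat_lit 11211475378) (nat_lit 76) (nat_lit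 9597666958) (nat_lit 29) (nat_lit 5) (nat_lit 32) (nat_lit 5) (nat_lit 30) (nat_lit 4) (nat_lit 405) (nat_lit 346) (nat_lit 269)))) (XT.nd (nat_lit 78) (nat_lit 152) (nat_lit 0) (XT.lf (nat_lit 0) (nat_lit 5184264626) (nat_lit 76) (nat_lit 14825304059) (nat_lit 152) (nat_lit 13971517898) (nat_lit 28) (nat_lit 5) (nat_lit 29) (nat_lit 5) (nat_lit 30) (nat_lit 4) (nat_lit 406) (nat_lit 346) (nat_lit 268)) (XT.nd (nat_lit 78) (nat_lit 152) (nat_lit 0) (XT.lf (nat_lit 0) (nat_lit 22753066226) (nat_lit 76) (nat_lit 5845587977) (nat_lit 152) (nat_lit 6613108465) (nat_lit 28) (nat_lit 5) (nat_lit 29) (nat_lit 5) (nat_lit 30) (nat_lit 4) (nat_lit 407) (nat_lit 346) (nat_lit 267)) (XT.lf (nat_lit 0) (nat_lit 1190837687) (nat_lit 152) (nat_lit 31759877840) (nat_lit 76) (nat_lit 3546728869) (nat_lit 26) (nat_lit 5) (nat_lit 28) (nat_lit 5) (nat_lit 27) (nat_lit 4) (nat_lit 408) (nat_lit 346) (nat_lit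 266))))) (XT.nd (nat_lit 234) (nat_lit 228) (nat_lit 0) (XT.nd (nat_lit 78) (nat_lit 76) (nat_lit 0) (XT.lf (nat_lit 0) (nat_lit 9454271745) (nat_lit 152) (nat_lit 14853375402) (nat_lit 76) (nat_lit 13519768791) (nat_lit 26) (nat_lit 5) (nat_lit 28) (nat_lit 5) (nat_lit 27) (nat_lit 4) (nat_lit 409) (nat_lit 346) (nat_lit 265)) (XT.nd (nat_lit 78) (nat_lit 0) (nat_lit 0) (XT.lf (nat_lit 0) (nat_lit 2959856959) (nat_lit 76) (nat_lit 15199377091) (nat_lit 152) (nat_lit 21063237064) (nat_lit 25) (nat_lit 5) (nat_lit 26) (nat_lit 5) (nat_lit 27) (nat_lit 4) (nat_lit 410) (nat_lit 346) (nat_lit 264)) (XT.lf (nat_lit 0) (nat_lit 22146635052) (nat_lit 76) (nat_lit 5386841674) (nat_lit 152) (nat_lit 13142103456) (nat_lit 25) (nat_lit 5) (nat_lit 26) (nat_lit 5) (nat_lit 27) (nat_lit 4) (nat_lit 411) (nat_lit 346) (nat_lit 263)))) (XT.nd (nat_lit 156) (nat_lit 76) (nat_lit 0) (XT.nd (nat_lit 78)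 (nat_lit 152) (nat_lit 0) (XT.lf (nat_lit 0) (nat_lit 37436279246) (nat_lit 152) (nat_lit 17189860) (nat_lit 0) (nat_lit 4744885828) (nat_lit 25) (nat_lit 5) (nat_lit 27) (nat_lit 4) (nat_lit 25) (nat_lit 4) (nat_lit 412) (nat_lit 346) (nat_lit 262)) (XT.lf (nat_lit 0) (nat_lit 4297549660) (nat_lit 152) (nat_lit 23907694029) (nat_lit 76) (nat_lit 15569385504) (nat_lit 23) (nat_lit 5) (nat_lit 25) (nat_lit 5) (nat_lit 24) (nat_lit 4) (nat_lit 413) (nat_lit 346) (nat_lit 261))) (XT.nd (nat_lit 78) (nat_lit 76) (nat_lit 0) (XT.lf (nat_lit 0) (nat_lit 13634350313) (nat_lit 152) (nat_lit 4792278801) (nat_lit 76) (nat_lit 26999975420) (nat_lit 23) (nat_lit 5) (nat_lit 25) (nat_lit 5) (nat_lit 24) (nat_lit 4) (nat_lit 414) (nat_lit 346) (nat_lit 260)) (XT.lf (nat_lit 0) (nat_lit 15754218825) (nat_lit 76) (nat_lit 7914439789) (nat_lit 152) (nat_lit 23480988799) (nat_lit 22) (nat_lit 5) (nat_lit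 23) (nat_lit 5) (nat_lit 24) (nat_lit 4) (nat_lit 415) (nat_lit 346) (nat_lit 259)))))) (XT.nd (nat_lit 468) (nat_lit 304) (nat_lit 0) (XT.nd (nat_lit 234) (nat_lit 76) (nat_lit 0) (XT.nd (nat_lit 78) (nat_lit 152) (nat_lit 0) (XT.lf (nat_lit 0) (nat_lit 34320711341) (nat_lit 152) (nat_lit 11539459169) (nat_lit 0) (nat_lit 3092872526) (nat_lit 22) (nat_lit 5) (nat_lit 24) (nat_lit 4) (nat_lit 22) (nat_lit 4) (nat_lit 416) (nat_lit 346) (nat_lit 258)) (XT.nd (nat_lit 78) (nat_lit 76) (nat_lit 0) (XT.lf (nat_lit 0) (nat_lit 9454551087) (nat_lit 76) (nat_lit 36313672167) (nat_lit 76) (nat_lit 5065244310) (nat_lit 21) (nat_lit 4) (nat_lit 22) (nat_lit 5) (nat_lit 22) (nat_lit 4) (nat_lit 417) (nat_lit 346) (nat_lit 257)) (XT.lf (nat_lit 0) (nat_lit 5004960775) (nat_lit 152) (nat_lit 21007866879) (nat_lit 76) (nat_lit 26781991654) (nat_lit 20) (nat_lit 5) (nat_lit 22) (nat_lit 5) (nat_lit 21)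 (nat_lit 4) (nat_lit 418) (nat_lit 346) (nat_lit 256)))) (XT.nd (nat_lit 78) (nat_lit 0) (nat_lit 0) (XT.lf (nat_lit 0) (nat_lit 281368579) (nat_lit 76) (nat_lit 15117694795) (nat_lit 152) (nat_lit 39451494480) (nat_lit 19) (nat_lit 5) (nat_lit 20) (nat_lit 5) (nat_lit 21) (nat_lit 4) (nat_lit 419) (nat_lit 346) (nat_lit 255)) (XT.nd (nat_lit 78) (nat_lit 0) (nat_lit 0) (XT.lf (nat_lit 0) (nat_lit 23338500896) (nat_lit 76) (nat_lit 3316619993) (nat_lit 152) (nat_lit 30336851553) (nat_lit 19) (nat_lit 5) (nat_lit 20) (nat_lit 5) (nat_lit 21) (nat_lit 4) (nat_lit 420) (nat_lit 346) (nat_lit 254)) (XT.lf (nat_lit 0) (nat_lit 38602591293) (nat_lit 152) (nat_lit 11858784855) (nat_lit 0) (nat_lit 8772652641) (nat_lit 19) (nat_lit 5) (nat_lit 21) (nat_lit 4) (nat_lit 19) (nat_lit 4) (nat_lit 421) (nat_lit 346) (nat_lit 253))))) (XT.nd (nat_lit 234) (nat_lit 152) (nat_lit 0) (XT.nd (nat_lit 78)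 (nat_lit 76) (nat_lit 0) (XT.lf (nat_lit 0) (nat_lit 11309291976) (nat_lit 76) (nat_lit 40056637615) (nat_lit 76) (nat_lit 10211335102) (nat_lit 18) (nat_lit 4) (nat_lit 19) (nat_lit 5) (nat_lit 19) (nat_lit 4) (nat_lit 422) (nat_lit 346) (nat_lit 252)) (XT.nd (nat_lit 78) (nat_lit 0) (nat_lit 0) (XT.lf (nat_lit 0) (nat_lit 898118796) (nat_lit 152) (nat_lit 28018791228) (nat_lit 76) (nat_lit 35110598815) (nat_lit 17) (nat_lit 5) (nat_lit 19) (nat_lit 5) (nat_lit 18) (nat_lit 4) (nat_lit 423) (nat_lit 346) (nat_lit 251)) (XT.lf (nat_lit 0) (nat_lit 12208046174) (nat_lit 152) (nat_lit 4847375578) (nat_lit 76) (nat_lit 49537066322) (nat_lit 17) (nat_lit 5) (nat_lit 19) (nat_lit 5) (nat_lit 18) (nat_lit 4) (nat_lit 424) (nat_lit 346) (nat_lit 250)))) (XT.nd (nat_lit 156) (nat_lit 76) (nat_lit 0) (XT.nd (nat_lit 78) (nat_lit 0) (nat_lit 0) (XT.lf (nat_lit 0) (nat_lit 20104336139) (nat_lit 76)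 (nat_lit 4281750815) (nat_lit 152) (nat_lit 44884499664) (nat_lit 16) (nat_lit 5) (nat_lit 17) (nat_lit 5) (nat_lit 18) (nat_lit 4) (nat_lit 425) (nat_lit 346) (nat_lit 249)) (XT.lf (nat_lit 0) (nat_lit 37387795986) (nat_lit 152) (nat_lit 25772243806) (nat_lit 0) (nat_lit 8911813126) (nat_lit 16) (nat_lit 5) (nat_lit 18) (nat_lit 4) (nat_lit 16) (nat_lit 4) (nat_lit 426) (nat_lit 346) (nat_lit 248))) (XT.nd (nat_lit 78) (nat_lit 76) (nat_lit 0) (XT.lf (nat_lit 0) (nat_lit 51099091174) (nat_lit 152) (nat_lit 1299473849) (nat_lit 0) (nat_lit 22611643564) (nat_lit 16) (nat_lit 5) (nat_lit 18) (nat_lit 4) (nat_lit 16) (nat_lit 4) (nat_lit 427) (nat_lit 346) (nat_lit 247)) (XT.lf (nat_lit 0) (nat_lit 25183197618) (nat_lit 76) (nat_lit 40695751000) (nat_lit 76) (nat_lit 12197384581) (nat_lit 15) (nat_lit 4) (nat_lit 16) (nat_lit 5) (nat_lit 16) (nat_lit 4) (nat_lit 428) (nat_lit 346) (nat_lit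 246))))))))
noncomputable def xc114 : XT := (XT.nd (nat_lit 1950) (nat_lit 228) (nat_lit 0) (XT.nd (nat_lit 936) (nat_lit 304) (nat_lit 0) (XT.nd (nat_lit 468) (nat_lit 152) (nat_lit 0) (XT.nd (nat_lit 234) (nat_lit 76) (nat_lit 0) (XT.nd (nat_lit 78) (nat_lit 76) (nat_lit 0) (XT.lf (nat_lit 0) (nat_lit 110970840) (nat_lit 152) (nat_lit 28281275061) (nat_lit 76) (nat_lit 52902829342) (nat_lit 14) (nat_lit 5) (nat_lit 16) (nat_lit 5) (nat_lit 15) (nat_lit 4) (nat_lit 429) (nat_lit 346) (nat_lit 245)) (XT.nd (nat_lit 78) (nat_lit 76) (nat_lit 0) (XT.lf (nat_lit 0) (nat_lit 12615149747) (nat_lit 152) (nat_lit 2657611983) (nat_lit 76) (nat_lit 69392479806) (nat_lit 14) (nat_lit 5) (nat_lit 16) (nat_lit 5) (nat_lit 15) (nat_lit 4) (nat_lit 430) (nat_lit 346) (nat_lit 244)) (XT.lf (nat_lit 0) (nat_lit 25030427734) (nat_lit 76) (nat_lit 1095683864) (nat_lit 152) (nat_lit 62058726697) (nat_lit 13)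 (nat_lit 5) (nat_lit 14) (nat_lit 5) (nat_lit 15) (nat_lit 4) (nat_lit 431) (nat_lit 346) (nat_lit 243)))) (XT.nd (nat_lit 78) (nat_lit 76) (nat_lit 0) (XT.lf (nat_lit 0) (nat_lit 40564480085) (nat_lit 152) (nat_lit 37917037822) (nat_lit 0) (nat_lit 13386304870) (nat_lit 13) (nat_lit 5) (nat_lit 15) (nat_lit 4) (nat_lit 13) (nat_lit 4) (nat_lit 432) (nat_lit 346) (nat_lit 242)) (XT.nd (nat_lit 78) (nat_lit 76) (nat_lit 0) (XT.lf (nat_lit 0) (nat_lit 55733975069) (nat_lit 152) (nat_lit 11452869713) (nat_lit 0) (nat_lit 28547652070) (nat_lit 13) (nat_lit 5) (nat_lit 15) (nat_lit 4) (nat_lit 13) (nat_lit 4) (nat_lit 433) (nat_lit 346) (nat_lit 241)) (XT.lf (nat_lit 0) (nat_lit 16857764114) (nat_lit 76) (nat_lit 55059040526) (nat_lit 76) (nat_lit 27864957734) (nat_lit 12) (nat_lit 4) (nat_lit 13) (nat_lit 5) (nat_lit 13) (nat_lit 4) (nat_lit 434) (nat_lit 346) (nat_lit 240))))) (XT.nd (nat_lit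 234) (nat_lit 76) (nat_lit 0) (XT.nd (nat_lit 78) (nat_lit 76) (nat_lit 0) (XT.lf (nat_lit 0) (nat_lit 46965513838) (nat_lit 76) (nat_lit 42129031317) (nat_lit 76) (nat_lit 14927558245) (nat_lit 12) (nat_lit 4) (nat_lit 13) (nat_lit 5) (nat_lit 13) (nat_lit 4) (nat_lit 435) (nat_lit 346) (nat_lit 239)) (XT.nd (nat_lit 78) (nat_lit 76) (nat_lit 0) (XT.lf (nat_lit 0) (nat_lit 78563380979) (nat_lit 76) (nat_lit 28559991309) (nat_lit 76) (nat_lit 1351479875) (nat_lit 12) (nat_lit 4) (nat_lit 13) (nat_lit 5) (nat_lit 13) (nat_lit 4) (nat_lit 436) (nat_lit 346) (nat_lit 238)) (XT.lf (nat_lit 0) (nat_lit 12482861591) (nat_lit 152) (nat_lit 1625348371) (nat_lit 76) (nat_lit 99032333663) (nat_lit 11) (nat_lit 5) (nat_lit 13) (nat_lit 5) (nat_lit 12) (nat_lit 4) (nat_lit 437) (nat_lit 346) (nat_lit 237)))) (XT.nd (nat_lit 78) (nat_lit 0) (nat_lit 0) (XT.lf (nat_lit 0) (nat_lit 27432864106) (nat_lit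 152) (nat_lit 89074548163) (nat_lit 0) (nat_lit 1507532071) (nat_lit 10) (nat_lit 5) (nat_lit 12) (nat_lit 4) (nat_lit 10) (nat_lit 4) (nat_lit 438) (nat_lit 346) (nat_lit 236)) (XT.nd (nat_lit 78) (nat_lit 0) (nat_lit 0) (XT.lf (nat_lit 0) (nat_lit 43382454360) (nat_lit 152) (nat_lit 62286675050) (nat_lit 0) (nat_lit 17451331847) (nat_lit 10) (nat_lit 5) (nat_lit 12) (nat_lit 4) (nat_lit 10) (nat_lit 4) (nat_lit 439) (nat_lit 346) (nat_lit 235)) (XT.lf (nat_lit 0) (nat_lit 60122693817) (nat_lit 152) (nat_lit 34172845678) (nat_lit 0) (nat_lit 34186056564) (nat_lit 10) (nat_lit 5) (nat_lit 12) (nat_lit 4) (nat_lit 10) (nat_lit 4) (nat_lit 440) (nat_lit 346) (nat_lit 234)))))) (XT.nd (nat_lit 468) (nat_lit 76) (nat_lit 0) (XT.nd (nat_lit 234) (nat_lit 152) (nat_lit 0) (XT.nd (nat_lit 78) (nat_lit 76) (nat_lit 0) (XT.lf (nat_lit 0) (nat_lit 77693440190) (nat_lit 152) (nat_lit 4666122357) (nat_lit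 0) (nat_lit 51751550803) (nat_lit 10) (nat_lit 5) (nat_lit 12) (nat_lit 4) (nat_lit 10) (nat_lit 4) (nat_lit 441) (nat_lit 346) (nat_lit 233)) (XT.nd (nat_lit 78) (nat_lit 0) (nat_lit 0) (XT.lf (nat_lit 0) (nat_lit 27173469748) (nat_lit 76) (nat_lit 69387312858) (nat_lit 76) (nat_lit 43440421439) (nat_lit 9) (nat_lit 4) (nat_lit 10) (nat_lit 5) (nat_lit 10) (nat_lit 4) (nat_lit 442) (nat_lit 346) (nat_lit 232)) (XT.lf (nat_lit 0) (nat_lit 60755047160) (nat_lit 76) (nat_lit 55689380525) (nat_lit 76) (nat_lit 29737725266) (nat_lit 9) (nat_lit 4) (nat_lit 10) (nat_lit 5) (nat_lit 10) (nat_lit 4) (nat_lit 443) (nat_lit 346) (nat_lit 231)))) (XT.nd (nat_lit 78) (nat_lit 152) (nat_lit 0) (XT.lf (nat_lit 0) (nat_lit 96004282935) (nat_lit 76) (nat_lit 41312174463) (nat_lit 76) (nat_lit 15355982213) (nat_lit 9) (nat_lit 4) (nat_lit 10) (nat_lit 5) (nat_lit 10) (nat_lit 4) (nat_lit 444) (nat_lit 346)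 (nat_lit 230)) (XT.nd (nat_lit 78) (nat_lit 152) (nat_lit 0) (XT.lf (nat_lit 0) (nat_lit 133005103826) (nat_lit 76) (nat_lit 26221463230) (nat_lit 76) (nat_lit 260950036) (nat_lit 9) (nat_lit 4) (nat_lit 10) (nat_lit 5) (nat_lit 10) (nat_lit 4) (nat_lit 445) (nat_lit 346) (nat_lit 229)) (XT.lf (nat_lit 0) (nat_lit 5122652975) (nat_lit 76) (nat_lit 10041874514) (nat_lit 152) (nat_lit 151462920372) (nat_lit 7) (nat_lit 5) (nat_lit 8) (nat_lit 5) (nat_lit 9) (nat_lit 4) (nat_lit 446) (nat_lit 346) (nat_lit 228))))) (XT.nd (nat_lit 234) (nat_lit 76) (nat_lit 0) (XT.nd (nat_lit 78) (nat_lit 0) (nat_lit 0) (XT.lf (nat_lit 0) (nat_lit 31911479095) (nat_lit 152) (nat_lit 135005205042) (nat_lit 0) (nat_lit 7179528999) (nat_lit 7) (nat_lit 5) (nat_lit 9) (nat_lit 4) (nat_lit 7) (nat_lit 4) (nat_lit 447) (nat_lit 346) (nat_lit 227)) (XT.nd (nat_lit 78) (nat_lit 0) (nat_lit 0) (XT.lf (nat_lit 0) (nat_lit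 49655320758) (nat_lit 152) (nat_lit 107355303319) (nat_lit 0) (nat_lit 24919815811) (nat_lit 7) (nat_lit 5) (nat_lit 9) (nat_lit 4) (nat_lit 7) (nat_lit 4) (nat_lit 448) (nat_lit 346) (nat_lit 226)) (XT.lf (nat_lit 0) (nat_lit 68281517917) (nat_lit 152) (nat_lit 78332474813) (nat_lit 0) (nat_lit 43542627398) (nat_lit 7) (nat_lit 5) (nat_lit 9) (nat_lit 4) (nat_lit 7) (nat_lit 4) (nat_lit 449) (nat_lit 346) (nat_lit 225)))) (XT.nd (nat_lit 156) (nat_lit 76) (nat_lit 0) (XT.nd (nat_lit 78) (nat_lit 0) (nat_lit 0) (XT.lf (nat_lit 0) (nat_lit 87834418660) (nat_lit 152) (nat_lit 47867617553) (nat_lit 0) (nat_lit 63092303786) (nat_lit 7) (nat_lit 5) (nat_lit 9) (nat_lit 4) (nat_lit 7) (nat_lit 4) (nat_lit 450) (nat_lit 346) (nat_lit 224)) (XT.lf (nat_lit 0) (nat_lit 108360577513) (nat_lit 152) (nat_lit 15888196165) (nat_lit 0) (nat_lit 83615391825) (nat_lit 7) (nat_lit 5) (nat_lit 9) (nat_lit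 4) (nat_lit 7) (nat_lit 4) (nat_lit 451) (nat_lit 346) (nat_lit 223))) (XT.nd (nat_lit 78) (nat_lit 0) (nat_lit 0) (XT.lf (nat_lit 0) (nat_lit 18266575319) (nat_lit 76) (nat_lit 111927483396) (nat_lit 76) (nat_lit 87179373123) (nat_lit 6) (nat_lit 4) (nat_lit 7) (nat_lit 5) (nat_lit 7) (nat_lit 4) (nat_lit 452) (nat_lit 346) (nat_lit 222)) (XT.lf (nat_lit 0) (nat_lit 54672555525) (nat_lit 76) (nat_lit 98711626704) (nat_lit 76) (nat_lit 73960731112) (nat_lit 6) (nat_lit 4) (nat_lit 7) (nat_lit 5) (nat_lit 7) (nat_lit 4) (nat_lit 453) (nat_lit 346) (nat_lit 221))))))) (XT.nd (nat_lit 1014) (nat_lit 76) (nat_lit 0) (XT.nd (nat_lit 468) (nat_lit 0) (nat_lit 0) (XT.nd (nat_lit 234) (nat_lit 152) (nat_lit 0) (XT.nd (nat_lit 78) (nat_lit 0) (nat_lit 0) (XT.lf (nat_lit 0) (nat_lit 92891089839) (nat_lit 76) (nat_lit 84838811567) (nat_lit 76) (nat_lit 60085263291) (nat_lit 6) (nat_lit 4) (nat_lit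 7) (nat_lit 5) (nat_lit 7) (nat_lit 4) (nat_lit 454) (nat_lit 346) (nat_lit 220)) (XT.nd (nat_lit 78) (nat_lit 0) (nat_lit 0) (XT.lf (nat_lit 0) (nat_lit 133013174772) (nat_lit 76) (nat_lit 70276007472) (nat_lit 76) (nat_lit 45519932830) (nat_lit 6) (nat_lit 4) (nat_lit 7) (nat_lit 5) (nat_lit 7) (nat_lit 4) (nat_lit 455) (nat_lit 346) (nat_lit 219)) (XT.lf (nat_lit 0) (nat_lit 175134339097) (nat_lit 76) (nat_lit 54988541077) (nat_lit 76) (nat_lit 30230060372) (nat_lit 6) (nat_lit 4) (nat_lit 7) (nat_lit 5) (nat_lit 7) (nat_lit 4) (nat_lit 456) (nat_lit 346) (nat_lit 218)))) (XT.nd (nat_lit 78) (nat_lit 152) (nat_lit 0) (XT.lf (nat_lit 0) (nat_lit 219354871301) (nat_lit 76) (nat_lit 38940013652) (nat_lit 76) (nat_lit 14179241458) (nat_lit 6) (nat_lit 4) (nat_lit 7) (nat_lit 5) (nat_lit 7) (nat_lit 4) (nat_lit 457) (nat_lit 346) (nat_lit 217)) (XT.nd (nat_lit 78) (nat_lit 76) (nat_lit 0)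 (XT.lf (nat_lit 0) (nat_lit 2585259782) (nat_lit 152) (nat_lit 19463172010) (nat_lit 76) (nat_lit 263151015957) (nat_lit 5) (nat_lit 5) (nat_lit 7) (nat_lit 5) (nat_lit 6) (nat_lit 4) (nat_lit 458) (nat_lit 346) (nat_lit 216)) (XT.lf (nat_lit 0) (nat_lit 16154130217) (nat_lit 76) (nat_lit 3806437211) (nat_lit 152) (nat_lit 278576390743) (nat_lit 4) (nat_lit 5) (nat_lit 5) (nat_lit 5) (nat_lit 6) (nat_lit 4) (nat_lit 459) (nat_lit 346) (nat_lit 215))))) (XT.nd (nat_lit 234) (nat_lit 0) (nat_lit 0) (XT.nd (nat_lit 78) (nat_lit 0) (nat_lit 0) (XT.lf (nat_lit 0) (nat_lit 38776174295) (nat_lit 152) (nat_lit 258548049949) (nat_lit 0) (nat_lit 15188543357) (nat_lit 4) (nat_lit 5) (nat_lit 6) (nat_lit 4) (nat_lit 4) (nat_lit 4) (nat_lit 460) (nat_lit 346) (nat_lit 214)) (XT.nd (nat_lit 78) (nat_lit 0) (nat_lit 0) (XT.lf (nat_lit 0) (nat_lit 58592002196) (nat_lit 152) (nat_lit 233589817625) (nat_lit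 0) (nat_lit 35002575816) (nat_lit 4) (nat_lit 5) (nat_lit 6) (nat_lit 4) (nat_lit 4) (nat_lit 4) (nat_lit 461) (nat_lit 346) (nat_lit 213)) (XT.lf (nat_lit 0) (nat_lit 79395802522) (nat_lit 152) (nat_lit 207389277468) (nat_lit 0) (nat_lit 55804666198) (nat_lit 4) (nat_lit 5) (nat_lit 6) (nat_lit 4) (nat_lit 4) (nat_lit 4) (nat_lit 462) (nat_lit 346) (nat_lit 212)))) (XT.nd (nat_lit 156) (nat_lit 0) (nat_lit 0) (XT.nd (nat_lit 78) (nat_lit 0) (nat_lit 0) (XT.lf (nat_lit 0) (nat_lit 101237108130) (nat_lit 152) (nat_lit 179884047238) (nat_lit 0) (nat_lit 77644343287) (nat_lit 4) (nat_lit 5) (nat_lit 6) (nat_lit 4) (nat_lit 4) (nat_lit 4) (nat_lit 463) (nat_lit 346) (nat_lit 211)) (XT.lf (nat_lit 0) (nat_lit 124167922129) (nat_lit 152) (nat_lit 151008638292) (nat_lit 0) (nat_lit 100573606317) (nat_lit 4) (nat_lit 5) (nat_lit 6) (nat_lit 4) (nat_lit 4) (nat_lit 4) (nat_lit 464) (nat_lit 346)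 (nat_lit 210))) (XT.nd (nat_lit 78) (nat_lit 0) (nat_lit 0) (XT.lf (nat_lit 0) (nat_lit 148242841695) (nat_lit 152) (nat_lit 120694299658) (nat_lit 0) (nat_lit 124647048769) (nat_lit 4) (nat_lit 5) (nat_lit 6) (nat_lit 4) (nat_lit 4) (nat_lit 4) (nat_lit 465) (nat_lit 346) (nat_lit 209)) (XT.lf (nat_lit 0) (nat_lit 173519188065) (nat_lit 152) (nat_lit 88868854337) (nat_lit 0) (nat_lit 149921988364) (nat_lit 4) (nat_lit 5) (nat_lit 6) (nat_lit 4) (nat_lit 4) (nat_lit 4) (nat_lit 466) (nat_lit 346) (nat_lit 208)))))) (XT.nd (nat_lit 468) (nat_lit 0) (nat_lit 0) (XT.nd (nat_lit 234) (nat_lit 0) (nat_lit 0) (XT.nd (nat_lit 78) (nat_lit 76) (nat_lit 0) (XT.lf (nat_lit 0) (nat_lit 200057143017) (nat_lit 152) (nat_lit 55456527460) (nat_lit 0) (nat_lit 176458603530) (nat_lit 4) (nat_lit 5) (nat_lit 6) (nat_lit 4) (nat_lit 4) (nat_lit 4) (nat_lit 467) (nat_lit 346) (nat_lit 207)) (XT.nd (nat_lit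 78) (nat_lit 76) (nat_lit 0) (XT.lf (nat_lit 0) (nat_lit 227919892157) (nat_lit 152) (nat_lit 20377765868) (nat_lit 0) (nat_lit 204320076684) (nat_lit 4) (nat_lit 5) (nat_lit 6) (nat_lit 4) (nat_lit 4) (nat_lit 4) (nat_lit 468) (nat_lit 346) (nat_lit 206)) (XT.lf (nat_lit 0) (nat_lit 16994894043) (nat_lit 76) (nat_lit 240444219245) (nat_lit 76) (nat_lit 216843188546) (nat_lit 3) (nat_lit 4) (nat_lit 4) (nat_lit 5) (nat_lit 4) (nat_lit 4) (nat_lit 469) (nat_lit 346) (nat_lit 205)))) (XT.nd (nat_lit 78) (nat_lit 0) (nat_lit 0) (XT.lf (nat_lit 0) (nat_lit 56939738698) (nat_lit 76) (nat_lit 231837694938) (nat_lit 76) (nat_lit 208235506882) (nat_lit 3) (nat_lit 4) (nat_lit 4) (nat_lit 5) (nat_lit 4) (nat_lit 4) (nat_lit 470) (nat_lit 346) (nat_lit 204)) (XT.nd (nat_lit 78) (nat_lit 0) (nat_lit 0) (XT.lf (nat_lit 0) (nat_lit 98878093901) (nat_lit 76) (nat_lit 222802700706) (nat_lit 76) (nat_lit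 199199410404) (nat_lit 3) (nat_lit 4) (nat_lit 4) (nat_lit 5) (nat_lit 4) (nat_lit 4) (nat_lit 471) (nat_lit 346) (nat_lit 203)) (XT.lf (nat_lit 0) (nat_lit 142909812878) (nat_lit 76) (nat_lit 213317724656) (nat_lit 76) (nat_lit 189713384597) (nat_lit 3) (nat_lit 4) (nat_lit 4) (nat_lit 5) (nat_lit 4) (nat_lit 4) (nat_lit 472) (nat_lit 346) (nat_lit 202))))) (XT.nd (nat_lit 234) (nat_lit 0) (nat_lit 0) (XT.nd (nat_lit 78) (nat_lit 0) (nat_lit 0) (XT.lf (nat_lit 0) (nat_lit 189139733054) (nat_lit 76) (nat_lit 203360183514) (nat_lit 76) (nat_lit 179754843686) (nat_lit 3) (nat_lit 4) (nat_lit 4) (nat_lit 5) (nat_lit 4) (nat_lit 4) (nat_lit 473) (nat_lit 346) (nat_lit 201)) (XT.nd (nat_lit 78) (nat_lit 0) (nat_lit 0) (XT.lf (nat_lit 0) (nat_lit 237677925670) (nat_lit 76) (nat_lit 192906368848) (nat_lit 76) (nat_lit 169300076859) (nat_lit 3) (nat_lit 4) (nat_lit 4) (nat_lit 5) (nat_lit 4) (nat_lit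 4) (nat_lit 474) (nat_lit 346) (nat_lit 200)) (XT.lf (nat_lit 0) (nat_lit 288639957849) (nat_lit 76) (nat_lit 181931390622) (nat_lit 76) (nat_lit 158324191814) (nat_lit 3) (nat_lit 4) (nat_lit 4) (nat_lit 5) (nat_lit 4) (nat_lit 4) (nat_lit 475) (nat_lit 346) (nat_lit 199)))) (XT.nd (nat_lit 156) (nat_lit 0) (nat_lit 0) (XT.nd (nat_lit 78) (nat_lit 0) (nat_lit 0) (XT.lf (nat_lit 0) (nat_lit 342147167765) (nat_lit 76) (nat_lit 170409117937) (nat_lit 76) (nat_lit 146801055490) (nat_lit 3) (nat_lit 4) (nat_lit 4) (nat_lit 5) (nat_lit 4) (nat_lit 4) (nat_lit 476) (nat_lit 346) (nat_lit 198)) (XT.lf (nat_lit 0) (nat_lit 398326953535) (nat_lit 76) (nat_lit 158312116810) (nat_lit 76) (nat_lit 134703231851) (nat_lit 3) (nat_lit 4) (nat_lit 4) (nat_lit 5) (nat_lit 4) (nat_lit 4) (nat_lit 477) (nat_lit 346) (nat_lit 197))) (XT.nd (nat_lit 42900) (nat_lit 0) (nat_lit 10868) (XT.lf (nat_lit 0) (nat_lit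 457313076555) (nat_lit 76) (nat_lit 145611584856) (nat_lit 76) (nat_lit 122001916552) (nat_lit 3) (nat_lit 4) (nat_lit 4) (nat_lit 5) (nat_lit 4) (nat_lit 4) (nat_lit 478) (nat_lit 346) (nat_lit 196)) (XT.lf (nat_lit 0) (nat_lit 509340437) (nat_lit 532) (nat_lit 1498051874) (nat_lit 532) (nat_lit 1498051874) (nat_lit 146) (nat_lit 3) (nat_lit 153) (nat_lit 3) (nat_lit 153) (nat_lit 5) (nat_lit 347) (nat_lit 347) (nat_lit 326))))))))
noncomputable def xc115 : XT := (XT.nd (nat_lit 1950) (nat_lit 3192) (nat_lit 0) (XT.nd (nat_lit 936) (nat_lit 3572) (nat_lit 0) (XT.nd (nat_lit 468) (nat_lit 1064) (nat_lit 0) (XT.nd (nat_lit 234) (nat_lit 456) (nat_lit 0) (XT.nd (nat_lit 78) (nat_lit 0) (nat_lit 0) (XT.lf (nat_lit 76) (nat_lit 417324345) (nat_lit 0) (nat_lit 2388495591) (nat_lit 532) (nat_lit 4290590764) (nat_lit 147) (nat_lit 5) (nat_lit 146) (nat_lit 3) (nat_lit 153) (nat_lit 5) (nat_lit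 348) (nat_lit 347) (nat_lit 325)) (XT.nd (nat_lit 78) (nat_lit 0) (nat_lit 76) (XT.lf (nat_lit 76) (nat_lit 4044451637) (nat_lit 0) (nat_lit 575300618) (nat_lit 532) (nat_lit 2569691738) (nat_lit 147) (nat_lit 5) (nat_lit 146) (nat_lit 3) (nat_lit 153) (nat_lit 5) (nat_lit 349) (nat_lit 347) (nat_lit 324)) (XT.lf (nat_lit 76) (nat_lit 496597342) (nat_lit 0) (nat_lit 5949148726) (nat_lit 532) (nat_lit 845416222) (nat_lit 148) (nat_lit 5) (nat_lit 147) (nat_lit 5) (nat_lit 154) (nat_lit 5) (nat_lit 350) (nat_lit 347) (nat_lit 323)))) (XT.nd (nat_lit 78) (nat_lit 0) (nat_lit 0) (XT.lf (nat_lit 0) (nat_lit 892950480) (nat_lit 532) (nat_lit 3058101648) (nat_lit 608) (nat_lit 3448314850) (nat_lit 140) (nat_lit 5) (nat_lit 147) (nat_lit 5) (nat_lit 148) (nat_lit 5) (nat_lit 351) (nat_lit 347) (nat_lit 322)) (XT.nd (nat_lit 78) (nat_lit 0) (nat_lit 76) (XT.lf (nat_lit 76) (nat_lit 813672906) (nat_lit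 0) (nat_lit 1789044800) (nat_lit 608) (nat_lit 4914014295) (nat_lit 141) (nat_lit 5) (nat_lit 140) (nat_lit 5) (nat_lit 148) (nat_lit 5) (nat_lit 352) (nat_lit 347) (nat_lit 321)) (XT.lf (nat_lit 0) (nat_lit 4362608891) (nat_lit 532) (nat_lit 2728603158) (nat_lit 608) (nat_lit 550605021) (nat_lit 141) (nat_lit 5) (nat_lit 148) (nat_lit 5) (nat_lit 149) (nat_lit 5) (nat_lit 353) (nat_lit 347) (nat_lit 320))))) (XT.nd (nat_lit 234) (nat_lit 532) (nat_lit 0) (XT.nd (nat_lit 78) (nat_lit 608) (nat_lit 0) (XT.lf (nat_lit 76) (nat_lit 1395065188) (nat_lit 0) (nat_lit 4775572643) (nat_lit 608) (nat_lit 1604590994) (nat_lit 142) (nat_lit 5) (nat_lit 141) (nat_lit 5) (nat_lit 149) (nat_lit 5) (nat_lit 354) (nat_lit 347) (nat_lit 319)) (XT.nd (nat_lit 78) (nat_lit 0) (nat_lit 76) (XT.lf (nat_lit 0) (nat_lit 106663233) (nat_lit 608) (nat_lit 2163317362) (nat_lit 684) (nat_lit 5647391368) (nat_lit 133)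 (nat_lit 5) (nat_lit 141) (nat_lit 5) (nat_lit 142) (nat_lit 5) (nat_lit 355) (nat_lit 347) (nat_lit 318)) (XT.lf (nat_lit 0) (nat_lit 1806704198) (nat_lit 608) (nat_lit 5828501666) (nat_lit 76) (nat_lit 432312470) (nat_lit 134) (nat_lit 5) (nat_lit 142) (nat_lit 5) (nat_lit 135) (nat_lit 5) (nat_lit 356) (nat_lit 347) (nat_lit 317)))) (XT.nd (nat_lit 78) (nat_lit 608) (nat_lit 0) (XT.lf (nat_lit 0) (nat_lit 3584667385) (nat_lit 608) (nat_lit 1391636941) (nat_lit 76) (nat_lit 3249287173) (nat_lit 134) (nat_lit 5) (nat_lit 142) (nat_lit 5) (nat_lit 135) (nat_lit 5) (nat_lit 357) (nat_lit 347) (nat_lit 316)) (XT.nd (nat_lit 78) (nat_lit 0) (nat_lit 0) (XT.lf (nat_lit 0) (nat_lit 3309120443) (nat_lit 608) (nat_lit 2116425263) (nat_lit 684) (nat_lit 2967384130) (nat_lit 126) (nat_lit 5) (nat_lit 134) (nat_lit 5) (nat_lit 135) (nat_lit 5) (nat_lit 358) (nat_lit 347) (nat_lit 315)) (XT.lf (nat_lit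 0) (nat_lit 7321520008) (nat_lit 684) (nat_lit 355280678) (nat_lit 76) (nat_lit 893741195) (nat_lit 126) (nat_lit 5) (nat_lit 135) (nat_lit 5) (nat_lit 127) (nat_lit 5) (nat_lit 359) (nat_lit 347) (nat_lit 314)))))) (XT.nd (nat_lit 468) (nat_lit 1292) (nat_lit 0) (XT.nd (nat_lit 234) (nat_lit 760) (nat_lit 0) (XT.nd (nat_lit 78) (nat_lit 760) (nat_lit 0) (XT.lf (nat_lit 0) (nat_lit 574302505) (nat_lit 760) (nat_lit 4104041818) (nat_lit 76) (nat_lit 4076469831) (nat_lit 116) (nat_lit 5) (nat_lit 126) (nat_lit 5) (nat_lit 117) (nat_lit 5) (nat_lit 360) (nat_lit 347) (nat_lit 313)) (XT.nd (nat_lit 78) (nat_lit 0) (nat_lit 0) (XT.lf (nat_lit 0) (nat_lit 915197730) (nat_lit 760) (nat_lit 1482073686) (nat_lit 836) (nat_lit 6552533462) (nat_lit 106) (nat_lit 5) (nat_lit 116) (nat_lit 5) (nat_lit 117) (nat_lit 5) (nat_lit 361) (nat_lit 347) (nat_lit 312)) (XT.lf (nat_lit 0) (nat_lit 4343730297)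 (nat_lit 836) (nat_lit 2921007976) (nat_lit 76) (nat_lit 1888238652) (nat_lit 106) (nat_lit 5) (nat_lit 117) (nat_lit 5) (nat_lit 107) (nat_lit 5) (nat_lit 362) (nat_lit 347) (nat_lit 311)))) (XT.nd (nat_lit 78) (nat_lit 380) (nat_lit 0) (XT.lf (nat_lit 0) (nat_lit 2437787488) (nat_lit 380) (nat_lit 3947738404) (nat_lit 456) (nat_lit 2980927530) (nat_lit 101) (nat_lit 5) (nat_lit 106) (nat_lit 5) (nat_lit 107) (nat_lit 5) (nat_lit 363) (nat_lit 347) (nat_lit 310)) (XT.nd (nat_lit 78) (nat_lit 380) (nat_lit 0) (XT.lf (nat_lit 0) (nat_lit 8102757401) (nat_lit 380) (nat_lit 413856943) (nat_lit 456) (nat_lit 1074673568) (nat_lit 101) (nat_lit 5) (nat_lit 106) (nat_lit 5) (nat_lit 107) (nat_lit 5) (nat_lit 364) (nat_lit 347) (nat_lit 309)) (XT.lf (nat_lit 0) (nat_lit 956574502) (nat_lit 380) (nat_lit 5595072782) (nat_lit 76) (nat_lit 3272066081) (nat_lit 96) (nat_lit 5) (nat_lit 101) (nat_lit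 5) (nat_lit 97) (nat_lit 5) (nat_lit 365) (nat_lit 347) (nat_lit 308))))) (XT.nd (nat_lit 234) (nat_lit 608) (nat_lit 0) (XT.nd (nat_lit 78) (nat_lit 304) (nat_lit 0) (XT.lf (nat_lit 0) (nat_lit 132149922) (nat_lit 380) (nat_lit 2897148257) (nat_lit 456) (nat_lit 7038817856) (nat_lit 91) (nat_lit 5) (nat_lit 96) (nat_lit 5) (nat_lit 97) (nat_lit 5) (nat_lit 366) (nat_lit 347) (nat_lit 307)) (XT.nd (nat_lit 78) (nat_lit 304) (nat_lit 0) (XT.lf (nat_lit 0) (nat_lit 5259900708) (nat_lit 456) (nat_lit 4062096927) (nat_lit 76) (nat_lit 1000065532) (nat_lit 91) (nat_lit 5) (nat_lit 97) (nat_lit 5) (nat_lit 92) (nat_lit 5) (nat_lit 367) (nat_lit 347) (nat_lit 306)) (XT.lf (nat_lit 0) (nat_lit 2061232043) (nat_lit 304) (nat_lit 5566436038) (nat_lit 380) (nat_lit 2959792564) (nat_lit 87) (nat_lit 5) (nat_lit 91) (nat_lit 5) (nat_lit 92) (nat_lit 5) (nat_lit 368) (nat_lit 347) (nat_lit 305)))) (XT.nd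 (nat_lit 156) (nat_lit 228) (nat_lit 0) (XT.nd (nat_lit 78) (nat_lit 380) (nat_lit 0) (XT.lf (nat_lit 0) (nat_lit 8570054036) (nat_lit 304) (nat_lit 1560132314) (nat_lit 380) (nat_lit 735156595) (nat_lit 87) (nat_lit 5) (nat_lit 91) (nat_lit 5) (nat_lit 92) (nat_lit 5) (nat_lit 369) (nat_lit 347) (nat_lit 304)) (XT.lf (nat_lit 0) (nat_lit 1608497678) (nat_lit 380) (nat_lit 6898419980) (nat_lit 76) (nat_lit 2646031156) (nat_lit 82) (nat_lit 5) (nat_lit 87) (nat_lit 5) (nat_lit 83) (nat_lit 5) (nat_lit 370) (nat_lit 347) (nat_lit 303))) (XT.nd (nat_lit 78) (nat_lit 228) (nat_lit 0) (XT.lf (nat_lit 0) (nat_lit 4060260254) (nat_lit 380) (nat_lit 341561530) (nat_lit 76) (nat_lit 7051757591) (nat_lit 82) (nat_lit 5) (nat_lit 87) (nat_lit 5) (nat_lit 83) (nat_lit 5) (nat_lit 371) (nat_lit 347) (nat_lit 302)) (XT.lf (nat_lit 0) (nat_lit 6692199638) (nat_lit 304) (nat_lit 5067843787) (nat_lit 76)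 (nat_lit 6345815) (nat_lit 79) (nat_lit 5) (nat_lit 83) (nat_lit 5) (nat_lit 80) (nat_lit 5) (nat_lit 372) (nat_lit 347) (nat_lit 301))))))) (XT.nd (nat_lit 1014) (nat_lit 1216) (nat_lit 0) (XT.nd (nat_lit 468) (nat_lit 912) (nat_lit 0) (XT.nd (nat_lit 234) (nat_lit 456) (nat_lit 0) (XT.nd (nat_lit 78) (nat_lit 304) (nat_lit 0) (XT.lf (nat_lit 0) (nat_lit 1937667579) (nat_lit 304) (nat_lit 7580410909) (nat_lit 380) (nat_lit 2573669898) (nat_lit 75) (nat_lit 5) (nat_lit 79) (nat_lit 5) (nat_lit 80) (nat_lit 5) (nat_lit 373) (nat_lit 347) (nat_lit 300)) (XT.nd (nat_lit 78) (nat_lit 228) (nat_lit 0) (XT.lf (nat_lit 0) (nat_lit 92007649) (nat_lit 380) (nat_lit 3022519473) (nat_lit 76) (nat_lit 9316741764) (nat_lit 74) (nat_lit 5) (nat_lit 79) (nat_lit 5) (nat_lit 75) (nat_lit 5) (nat_lit 374) (nat_lit 347) (nat_lit 299)) (XT.lf (nat_lit 0) (nat_lit 2857819128) (nat_lit 304) (nat_lit 8300478583)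 (nat_lit 76) (nat_lit 1624713410) (nat_lit 71) (nat_lit 5) (nat_lit 75) (nat_lit 5) (nat_lit 72) (nat_lit 5) (nat_lit 375) (nat_lit 347) (nat_lit 298)))) (XT.nd (nat_lit 78) (nat_lit 456) (nat_lit 0) (XT.lf (nat_lit 0) (nat_lit 5822673253) (nat_lit 304) (nat_lit 792602208) (nat_lit 76) (nat_lit 6534048719) (nat_lit 71) (nat_lit 5) (nat_lit 75) (nat_lit 5) (nat_lit 72) (nat_lit 5) (nat_lit 376) (nat_lit 347) (nat_lit 297)) (XT.nd (nat_lit 78) (nat_lit 228) (nat_lit 0) (XT.lf (nat_lit 0) (nat_lit 7267367838) (nat_lit 228) (nat_lit 1741549347) (nat_lit 304) (nat_lit 4521398658) (nat_lit 68) (nat_lit 5) (nat_lit 71) (nat_lit 5) (nat_lit 72) (nat_lit 5) (nat_lit 377) (nat_lit 347) (nat_lit 296)) (XT.lf (nat_lit 0) (nat_lit 1775326631) (nat_lit 228) (nat_lit 10633712808) (nat_lit 304) (nat_lit 1518608679) (nat_lit 65) (nat_lit 5) (nat_lit 68) (nat_lit 5) (nat_lit 69) (nat_lit 5) (nat_lit 378)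 (nat_lit 347) (nat_lit 295))))) (XT.nd (nat_lit 234) (nat_lit 608) (nat_lit 0) (XT.nd (nat_lit 78) (nat_lit 228) (nat_lit 0) (XT.lf (nat_lit 0) (nat_lit 1679226286) (nat_lit 304) (nat_lit 4019530999) (nat_lit 76) (nat_lit 8639970747) (nat_lit 64) (nat_lit 5) (nat_lit 68) (nat_lit 5) (nat_lit 65) (nat_lit 5) (nat_lit 379) (nat_lit 347) (nat_lit 294)) (XT.nd (nat_lit 78) (nat_lit 0) (nat_lit 0) (XT.lf (nat_lit 0) (nat_lit 4587417805) (nat_lit 228) (nat_lit 432845412) (nat_lit 304) (nat_lit 9747153397) (nat_lit 61) (nat_lit 5) (nat_lit 64) (nat_lit 5) (nat_lit 65) (nat_lit 5) (nat_lit 380) (nat_lit 347) (nat_lit 293)) (XT.lf (nat_lit 0) (nat_lit 8640502903) (nat_lit 304) (nat_lit 1585656036) (nat_lit 76) (nat_lit 4985789047) (nat_lit 61) (nat_lit 5) (nat_lit 65) (nat_lit 5) (nat_lit 62) (nat_lit 5) (nat_lit 381) (nat_lit 347) (nat_lit 292)))) (XT.nd (nat_lit 156) (nat_lit 152) (nat_lit 0) (XT.nd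 (nat_lit 78) (nat_lit 304) (nat_lit 0) (XT.lf (nat_lit 0) (nat_lit 7622810644) (nat_lit 152) (nat_lit 4910190112) (nat_lit 228) (nat_lit 3141158015) (nat_lit 59) (nat_lit 5) (nat_lit 61) (nat_lit 5) (nat_lit 62) (nat_lit 5) (nat_lit 382) (nat_lit 347) (nat_lit 291)) (XT.lf (nat_lit 0) (nat_lit 467874851) (nat_lit 304) (nat_lit 15004154314) (nat_lit 76) (nat_lit 686006329) (nat_lit 55) (nat_lit 5) (nat_lit 59) (nat_lit 5) (nat_lit 56) (nat_lit 5) (nat_lit 383) (nat_lit 347) (nat_lit 290))) (XT.nd (nat_lit 78) (nat_lit 152) (nat_lit 0) (XT.lf (nat_lit 0) (nat_lit 4336850919) (nat_lit 304) (nat_lit 5747967070) (nat_lit 76) (nat_lit 6569473680) (nat_lit 55) (nat_lit 5) (nat_lit 59) (nat_lit 5) (nat_lit 56) (nat_lit 5) (nat_lit 384) (nat_lit 347) (nat_lit 289)) (XT.lf (nat_lit 0) (nat_lit 4049839545) (nat_lit 152) (nat_lit 4380257366) (nat_lit 228) (nat_lit 8743735150) (nat_lit 53) (nat_lit 5)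 (nat_lit 55) (nat_lit 5) (nat_lit 56) (nat_lit 5) (nat_lit 385) (nat_lit 347) (nat_lit 288)))))) (XT.nd (nat_lit 468) (nat_lit 684) (nat_lit 0) (XT.nd (nat_lit 234) (nat_lit 304) (nat_lit 0) (XT.nd (nat_lit 78) (nat_lit 228) (nat_lit 0) (XT.lf (nat_lit 0) (nat_lit 12820143026) (nat_lit 228) (nat_lit 3255412775) (nat_lit 76) (nat_lit 1639198651) (nat_lit 53) (nat_lit 5) (nat_lit 56) (nat_lit 5) (nat_lit 54) (nat_lit 5) (nat_lit 386) (nat_lit 347) (nat_lit 287)) (XT.nd (nat_lit 78) (nat_lit 76) (nat_lit 0) (XT.lf (nat_lit 0) (nat_lit 7216919369) (nat_lit 152) (nat_lit 10366844589) (nat_lit 228) (nat_lit 691266686) (nat_lit 51) (nat_lit 5) (nat_lit 53) (nat_lit 5) (nat_lit 54) (nat_lit 5) (nat_lit 387) (nat_lit 347) (nat_lit 286)) (XT.lf (nat_lit 0) (nat_lit 3628934825) (nat_lit 228) (nat_lit 642770582) (nat_lit 76) (nat_lit 14587428528) (nat_lit 50) (nat_lit 5) (nat_lit 53) (nat_lit 5) (nat_lit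 51) (nat_lit 5) (nat_lit 388) (nat_lit 347) (nat_lit 285)))) (XT.nd (nat_lit 78) (nat_lit 152) (nat_lit 0) (XT.lf (nat_lit 0) (nat_lit 8314066289) (nat_lit 228) (nat_lit 8927219285) (nat_lit 76) (nat_lit 2221992421) (nat_lit 48) (nat_lit 5) (nat_lit 51) (nat_lit 5) (nat_lit 49) (nat_lit 5) (nat_lit 389) (nat_lit 347) (nat_lit 284)) (XT.nd (nat_lit 78) (nat_lit 0) (nat_lit 0) (XT.lf (nat_lit 0) (nat_lit 2150562773) (nat_lit 152) (nat_lit 11169160589) (nat_lit 228) (nat_lit 6773601746) (nat_lit 46) (nat_lit 5) (nat_lit 48) (nat_lit 5) (nat_lit 49) (nat_lit 5) (nat_lit 390) (nat_lit 347) (nat_lit 283)) (XT.lf (nat_lit 0) (nat_lit 14045804577) (nat_lit 152) (nat_lit 4653274676) (nat_lit 228) (nat_lit 2049633384) (nat_lit 46) (nat_lit 5) (nat_lit 48) (nat_lit 5) (nat_lit 49) (nat_lit 5) (nat_lit 391) (nat_lit 347) (nat_lit 282))))) (XT.nd (nat_lit 234) (nat_lit 304) (nat_lit 0) (XT.nd (nat_lit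 78) (nat_lit 152) (nat_lit 0) (XT.lf (nat_lit 0) (nat_lit 2907222212) (nat_lit 228) (nat_lit 16293816250) (nat_lit 76) (nat_lit 2229074833) (nat_lit 43) (nat_lit 5) (nat_lit 46) (nat_lit 5) (nat_lit 44) (nat_lit 5) (nat_lit 392) (nat_lit 347) (nat_lit 281)) (XT.nd (nat_lit 78) (nat_lit 152) (nat_lit 0) (XT.lf (nat_lit 0) (nat_lit 8208117494) (nat_lit 228) (nat_lit 4496846942) (nat_lit 76) (nat_lit 9430693274) (nat_lit 43) (nat_lit 5) (nat_lit 46) (nat_lit 5) (nat_lit 44) (nat_lit 5) (nat_lit 393) (nat_lit 347) (nat_lit 280)) (XT.lf (nat_lit 0) (nat_lit 8106214241) (nat_lit 152) (nat_lit 5769086792) (nat_lit 228) (nat_lit 8996123427) (nat_lit 41) (nat_lit 5) (nat_lit 43) (nat_lit 5) (nat_lit 44) (nat_lit 5) (nat_lit 394) (nat_lit 347) (nat_lit 279)))) (XT.nd (nat_lit 156) (nat_lit 152) (nat_lit 0) (XT.nd (nat_lit 78) (nat_lit 152) (nat_lit 0) (XT.lf (nat_lit 0) (nat_lit 19901827581) (nat_lit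 228) (nat_lit 2212980669) (nat_lit 76) (nat_lit 1525379044) (nat_lit 41) (nat_lit 5) (nat_lit 44) (nat_lit 5) (nat_lit 42) (nat_lit 4) (nat_lit 395) (nat_lit 347) (nat_lit 278)) (XT.lf (nat_lit 0) (nat_lit 1974671898) (nat_lit 152) (nat_lit 13277978812) (nat_lit 76) (nat_lit 9180881319) (nat_lit 39) (nat_lit 5) (nat_lit 41) (nat_lit 5) (nat_lit 40) (nat_lit 5) (nat_lit 396) (nat_lit 347) (nat_lit 277))) (XT.nd (nat_lit 78) (nat_lit 152) (nat_lit 0) (XT.lf (nat_lit 0) (nat_lit 7862065795) (nat_lit 152) (nat_lit 98756592) (nat_lit 76) (nat_lit 17301946175) (nat_lit 39) (nat_lit 5) (nat_lit 41) (nat_lit 5) (nat_lit 40) (nat_lit 5) (nat_lit 397) (nat_lit 347) (nat_lit 276)) (XT.lf (nat_lit 0) (nat_lit 14152853091) (nat_lit 152) (nat_lit 89324676) (nat_lit 228) (nat_lit 11881377444) (nat_lit 37) (nat_lit 5) (nat_lit 39) (nat_lit 5) (nat_lit 40) (nat_lit 5) (nat_lit 398) (nat_lit 347) (nat_lit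 275))))))))
noncomputable def xc116 : XT := (XT.nd (nat_lit 1950) (nat_lit 836) (nat_lit 0) (XT.nd (nat_lit 936) (nat_lit 608) (nat_lit 0) (XT.nd (nat_lit 468) (nat_lit 456) (nat_lit 0) (XT.nd (nat_lit 234) (nat_lit 76) (nat_lit 0) (XT.nd (nat_lit 78) (nat_lit 228) (nat_lit 0) (XT.lf (nat_lit 0) (nat_lit 1989407585) (nat_lit 76) (nat_lit 19089884558) (nat_lit 152) (nat_lit 5941194650) (nat_lit 36) (nat_lit 5) (nat_lit 37) (nat_lit 5) (nat_lit 38) (nat_lit 4) (nat_lit 399) (nat_lit 347) (nat_lit 274)) (XT.nd (nat_lit 78) (nat_lit 152) (nat_lit 0) (XT.lf (nat_lit 0) (nat_lit 471722631) (nat_lit 152) (nat_lit 10938286974) (nat_lit 76) (nat_lit 16542769257) (nat_lit 35) (nat_lit 5) (nat_lit 37) (nat_lit 5) (nat_lit 36) (nat_lit 5) (nat_lit 400) (nat_lit 347) (nat_lit 273)) (XT.lf (nat_lit 0) (nat_lit 3846903750) (nat_lit 152) (nat_lit 3197524352) (nat_lit 228) (nat_lit 21880452028) (nat_lit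 33) (nat_lit 5) (nat_lit 35) (nat_lit 5) (nat_lit 36) (nat_lit 5) (nat_lit 401) (nat_lit 347) (nat_lit 272)))) (XT.nd (nat_lit 78) (nat_lit 76) (nat_lit 0) (XT.lf (nat_lit 0) (nat_lit 14197674736) (nat_lit 228) (nat_lit 10311107703) (nat_lit 76) (nat_lit 5424213201) (nat_lit 33) (nat_lit 5) (nat_lit 36) (nat_lit 5) (nat_lit 34) (nat_lit 4) (nat_lit 402) (nat_lit 347) (nat_lit 271)) (XT.nd (nat_lit 78) (nat_lit 0) (nat_lit 0) (XT.lf (nat_lit 0) (nat_lit 5274163831) (nat_lit 76) (nat_lit 16549102123) (nat_lit 152) (nat_lit 9162521121) (nat_lit 32) (nat_lit 5) (nat_lit 33) (nat_lit 5) (nat_lit 34) (nat_lit 4) (nat_lit 403) (nat_lit 347) (nat_lit 270)) (XT.lf (nat_lit 0) (nat_lit 21960934936) (nat_lit 76) (nat_lit 8024142922) (nat_lit 152) (nat_lit 2098397225) (nat_lit 32) (nat_lit 5) (nat_lit 33) (nat_lit 5) (nat_lit 34) (nat_lit 4) (nat_lit 404) (nat_lit 347) (nat_lit 269))))) (XT.nd (nat_lit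 234) (nat_lit 152) (nat_lit 0) (XT.nd (nat_lit 78) (nat_lit 76) (nat_lit 0) (XT.lf (nat_lit 0) (nat_lit 5245692741) (nat_lit 228) (nat_lit 26914213515) (nat_lit 76) (nat_lit 1067142798) (nat_lit 29) (nat_lit 5) (nat_lit 32) (nat_lit 5) (nat_lit 30) (nat_lit 4) (nat_lit 405) (nat_lit 347) (nat_lit 268)) (XT.nd (nat_lit 78) (nat_lit 76) (nat_lit 0) (XT.lf (nat_lit 0) (nat_lit 13173328672) (nat_lit 228) (nat_lit 10701383568) (nat_lit 76) (nat_lit 10537029922) (nat_lit 29) (nat_lit 5) (nat_lit 32) (nat_lit 5) (nat_lit 30) (nat_lit 4) (nat_lit 406) (nat_lit 347) (nat_lit 267)) (XT.lf (nat_lit 0) (nat_lit 6496874637) (nat_lit 76) (nat_lit 15083884849) (nat_lit 152) (nat_lit 14070743125) (nat_lit 28) (nat_lit 5) (nat_lit 29) (nat_lit 5) (nat_lit 30) (nat_lit 4) (nat_lit 407) (nat_lit 347) (nat_lit 266)))) (XT.nd (nat_lit 78) (nat_lit 152) (nat_lit 0) (XT.lf (nat_lit 0) (nat_lit 24893954565) (nat_lit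 76) (nat_lit 5678167934) (nat_lit 152) (nat_lit 6372953727) (nat_lit 28) (nat_lit 5) (nat_lit 29) (nat_lit 5) (nat_lit 30) (nat_lit 4) (nat_lit 408) (nat_lit 347) (nat_lit 265)) (XT.nd (nat_lit 78) (nat_lit 0) (nat_lit 0) (XT.lf (nat_lit 0) (nat_lit 1799533349) (nat_lit 152) (nat_lit 32322798482) (nat_lit 76) (nat_lit 4172438393) (nat_lit 26) (nat_lit 5) (nat_lit 28) (nat_lit 5) (nat_lit 27) (nat_lit 4) (nat_lit 409) (nat_lit 347) (nat_lit 264)) (XT.lf (nat_lit 0) (nat_lit 10449988931) (nat_lit 152) (nat_lit 14619783933) (nat_lit 76) (nat_lit 14622779212) (nat_lit 26) (nat_lit 5) (nat_lit 28) (nat_lit 5) (nat_lit 27) (nat_lit 4) (nat_lit 410) (nat_lit 347) (nat_lit 263)))))) (XT.nd (nat_lit 468) (nat_lit 304) (nat_lit 0) (XT.nd (nat_lit 234) (nat_lit 152) (nat_lit 0) (XT.nd (nat_lit 78) (nat_lit 76) (nat_lit 0) (XT.lf (nat_lit 0) (nat_lit 4068363912) (nat_lit 76) (nat_lit 15511926822) (nat_lit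 152) (nat_lit 21577568730) (nat_lit 25) (nat_lit 5) (nat_lit 26) (nat_lit 5) (nat_lit 27) (nat_lit 4) (nat_lit 411) (nat_lit 347) (nat_lit 262)) (XT.nd (nat_lit 78) (nat_lit 76) (nat_lit 0) (XT.lf (nat_lit 0) (nat_lit 24168742143) (nat_lit 76) (nat_lit 5230070307) (nat_lit 152) (nat_lit 13286037022) (nat_lit 25) (nat_lit 5) (nat_lit 26) (nat_lit 5) (nat_lit 27) (nat_lit 4) (nat_lit 412) (nat_lit 347) (nat_lit 261)) (XT.lf (nat_lit 0) (nat_lit 898943629) (nat_lit 76) (nat_lit 38894912906) (nat_lit 76) (nat_lit 4490055004) (nat_lit 24) (nat_lit 4) (nat_lit 25) (nat_lit 5) (nat_lit 25) (nat_lit 4) (nat_lit 413) (nat_lit 347) (nat_lit 260)))) (XT.nd (nat_lit 78) (nat_lit 76) (nat_lit 0) (XT.lf (nat_lit 0) (nat_lit 4982992088) (nat_lit 152) (nat_lit 24213558512) (nat_lit 76) (nat_lit 16743215615) (nat_lit 23) (nat_lit 5) (nat_lit 25) (nat_lit 5) (nat_lit 24) (nat_lit 4) (nat_lit 414) (nat_lit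 347) (nat_lit 259)) (XT.nd (nat_lit 78) (nat_lit 76) (nat_lit 0) (XT.lf (nat_lit 0) (nat_lit 14764224919) (nat_lit 152) (nat_lit 4184730628) (nat_lit 76) (nat_lit 28726508320) (nat_lit 23) (nat_lit 5) (nat_lit 25) (nat_lit 5) (nat_lit 24) (nat_lit 4) (nat_lit 415) (nat_lit 347) (nat_lit 258)) (XT.lf (nat_lit 0) (nat_lit 17375427974) (nat_lit 76) (nat_lit 7916493089) (nat_lit 152) (nat_lit 24193157207) (nat_lit 22) (nat_lit 5) (nat_lit 23) (nat_lit 5) (nat_lit 24) (nat_lit 4) (nat_lit 416) (nat_lit 347) (nat_lit 257))))) (XT.nd (nat_lit 234) (nat_lit 152) (nat_lit 0) (XT.nd (nat_lit 78) (nat_lit 152) (nat_lit 0) (XT.lf (nat_lit 0) (nat_lit 36461485756) (nat_lit 152) (nat_lit 11307476461) (nat_lit 0) (nat_lit 3610438850) (nat_lit 22) (nat_lit 5) (nat_lit 24) (nat_lit 4) (nat_lit 22) (nat_lit 4) (nat_lit 417) (nat_lit 347) (nat_lit 256)) (XT.nd (nat_lit 78) (nat_lit 76) (nat_lit 0) (XT.lf (nat_lit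 0) (nat_lit 10723186635) (nat_lit 76) (nat_lit 37750387324) (nat_lit 76) (nat_lit 4880665549) (nat_lit 21) (nat_lit 4) (nat_lit 22) (nat_lit 5) (nat_lit 22) (nat_lit 4) (nat_lit 418) (nat_lit 347) (nat_lit 255)) (XT.lf (nat_lit 0) (nat_lit 5658853890) (nat_lit 152) (nat_lit 21286856887) (nat_lit 76) (nat_lit 28468617850) (nat_lit 20) (nat_lit 5) (nat_lit 22) (nat_lit 5) (nat_lit 21) (nat_lit 4) (nat_lit 419) (nat_lit 347) (nat_lit 254)))) (XT.nd (nat_lit 156) (nat_lit 76) (nat_lit 0) (XT.nd (nat_lit 78) (nat_lit 0) (nat_lit 0) (XT.lf (nat_lit 0) (nat_lit 1054398354) (nat_lit 76) (nat_lit 15510891584) (nat_lit 152) (nat_lit 41007935097) (nat_lit 19) (nat_lit 5) (nat_lit 20) (nat_lit 5) (nat_lit 21) (nat_lit 4) (nat_lit 420) (nat_lit 347) (nat_lit 253)) (XT.lf (nat_lit 0) (nat_lit 25228246271) (nat_lit 76) (nat_lit 3137033897) (nat_lit 152) (nat_lit 31457375935) (nat_lit 19) (nat_lit 5) (nat_lit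 20) (nat_lit 5) (nat_lit 21) (nat_lit 4) (nat_lit 421) (nat_lit 347) (nat_lit 252))) (XT.nd (nat_lit 78) (nat_lit 76) (nat_lit 0) (XT.lf (nat_lit 0) (nat_lit 40897288632) (nat_lit 152) (nat_lit 11750445657) (nat_lit 0) (nat_lit 9529724884) (nat_lit 19) (nat_lit 5) (nat_lit 21) (nat_lit 4) (nat_lit 19) (nat_lit 4) (nat_lit 422) (nat_lit 347) (nat_lit 251)) (XT.lf (nat_lit 0) (nat_lit 12564724074) (nat_lit 76) (nat_lit 41727481727) (nat_lit 76) (nat_lit 10345982504) (nat_lit 18) (nat_lit 4) (nat_lit 19) (nat_lit 5) (nat_lit 19) (nat_lit 4) (nat_lit 423) (nat_lit 347) (nat_lit 250))))))) (XT.nd (nat_lit 1014) (nat_lit 380) (nat_lit 0) (XT.nd (nat_lit 468) (nat_lit 228) (nat_lit 0) (XT.nd (nat_lit 234) (nat_lit 76) (nat_lit 0) (XT.nd (nat_lit 78) (nat_lit 76) (nat_lit 0) (XT.lf (nat_lit 0) (nat_lit 1289584341) (nat_lit 152) (nat_lit 28751123203) (nat_lit 76) (nat_lit 37170811899) (nat_lit 17)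 (nat_lit 5) (nat_lit 19) (nat_lit 5) (nat_lit 18) (nat_lit 4) (nat_lit 424) (nat_lit 347) (nat_lit 249)) (XT.nd (nat_lit 78) (nat_lit 76) (nat_lit 0) (XT.lf (nat_lit 0) (nat_lit 13148505250) (nat_lit 152) (nat_lit 4452975227) (nat_lit 76) (nat_lit 52304094060) (nat_lit 17) (nat_lit 5) (nat_lit 19) (nat_lit 5) (nat_lit 18) (nat_lit 4) (nat_lit 425) (nat_lit 347) (nat_lit 248)) (XT.lf (nat_lit 0) (nat_lit 21736051606) (nat_lit 76) (nat_lit 4193460873) (nat_lit 152) (nat_lit 46788363980) (nat_lit 16) (nat_lit 5) (nat_lit 17) (nat_lit 5) (nat_lit 18) (nat_lit 4) (nat_lit 426) (nat_lit 347) (nat_lit 247)))) (XT.nd (nat_lit 78) (nat_lit 76) (nat_lit 0) (XT.lf (nat_lit 0) (nat_lit 39570368774) (nat_lit 152) (nat_lit 26453220577) (nat_lit 0) (nat_lit 9636165225) (nat_lit 16) (nat_lit 5) (nat_lit 18) (nat_lit 4) (nat_lit 16) (nat_lit 4) (nat_lit 427) (nat_lit 347) (nat_lit 246)) (XT.nd (nat_lit 78)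 (nat_lit 76) (nat_lit 0) (XT.lf (nat_lit 0) (nat_lit 53952315245) (nat_lit 152) (nat_lit 785747142) (nat_lit 0) (nat_lit 24007712831) (nat_lit 16) (nat_lit 5) (nat_lit 18) (nat_lit 4) (nat_lit 16) (nat_lit 4) (nat_lit 428) (nat_lit 347) (nat_lit 245)) (XT.lf (nat_lit 0) (nat_lit 27011724021) (nat_lit 76) (nat_lit 42454127638) (nat_lit 76) (nat_lit 12499621541) (nat_lit 15) (nat_lit 4) (nat_lit 16) (nat_lit 5) (nat_lit 16) (nat_lit 4) (nat_lit 429) (nat_lit 347) (nat_lit 244))))) (XT.nd (nat_lit 234) (nat_lit 76) (nat_lit 0) (XT.nd (nat_lit 78) (nat_lit 76) (nat_lit 0) (XT.lf (nat_lit 0) (nat_lit 400125206) (nat_lit 152) (nat_lit 29143681500) (nat_lit 76) (nat_lit 55801815813) (nat_lit 14) (nat_lit 5) (nat_lit 16) (nat_lit 5) (nat_lit 15) (nat_lit 4) (nat_lit 430) (nat_lit 347) (nat_lit 243)) (XT.nd (nat_lit 78) (nat_lit 76) (nat_lit 0) (XT.lf (nat_lit 0) (nat_lit 13516008019) (nat_lit 152)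 (nat_lit 2265104664) (nat_lit 76) (nat_lit 73103860943) (nat_lit 14) (nat_lit 5) (nat_lit 16) (nat_lit 5) (nat_lit 15) (nat_lit 4) (nat_lit 431) (nat_lit 347) (nat_lit 242)) (XT.lf (nat_lit 0) (nat_lit 26798863041) (nat_lit 76) (nat_lit 898863456) (nat_lit 152) (nat_lit 64883064489) (nat_lit 13) (nat_lit 5) (nat_lit 14) (nat_lit 5) (nat_lit 15) (nat_lit 4) (nat_lit 432) (nat_lit 347) (nat_lit 241)))) (XT.nd (nat_lit 156) (nat_lit 76) (nat_lit 0) (XT.nd (nat_lit 78) (nat_lit 0) (nat_lit 0) (XT.lf (nat_lit 0) (nat_lit 42849120823) (nat_lit 152) (nat_lit 39311675531) (nat_lit 0) (nat_lit 14287574098) (nat_lit 13) (nat_lit 5) (nat_lit 15) (nat_lit 4) (nat_lit 13) (nat_lit 4) (nat_lit 433) (nat_lit 347) (nat_lit 240)) (XT.lf (nat_lit 0) (nat_lit 58764880235) (nat_lit 152) (nat_lit 11548166358) (nat_lit 0) (nat_lit 30195943230) (nat_lit 13) (nat_lit 5) (nat_lit 15) (nat_lit 4) (nat_lit 13) (nat_lit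 4) (nat_lit 434) (nat_lit 347) (nat_lit 239))) (XT.nd (nat_lit 78) (nat_lit 0) (nat_lit 0) (XT.lf (nat_lit 0) (nat_lit 18170300018) (nat_lit 76) (nat_lit 57582254908) (nat_lit 76) (nat_lit 29006279541) (nat_lit 12) (nat_lit 4) (nat_lit 13) (nat_lit 5) (nat_lit 13) (nat_lit 4) (nat_lit 435) (nat_lit 347) (nat_lit 238)) (XT.lf (nat_lit 0) (nat_lit 49761073051) (nat_lit 76) (nat_lit 44016685126) (nat_lit 76) (nat_lit 15434006557) (nat_lit 12) (nat_lit 4) (nat_lit 13) (nat_lit 5) (nat_lit 13) (nat_lit 4) (nat_lit 436) (nat_lit 347) (nat_lit 237)))))) (XT.nd (nat_lit 468) (nat_lit 228) (nat_lit 0) (XT.nd (nat_lit 234) (nat_lit 0) (nat_lit 0) (XT.nd (nat_lit 78) (nat_lit 152) (nat_lit 0) (XT.lf (nat_lit 0) (nat_lit 82917534334) (nat_lit 76) (nat_lit 29779612059) (nat_lit 76) (nat_lit 1190549489) (nat_lit 12) (nat_lit 4) (nat_lit 13) (nat_lit 5) (nat_lit 13) (nat_lit 4) (nat_lit 437) (nat_lit 347)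 (nat_lit 236)) (XT.nd (nat_lit 78) (nat_lit 76) (nat_lit 0) (XT.lf (nat_lit 0) (nat_lit 13317662588) (nat_lit 152) (nat_lit 1293934264) (nat_lit 76) (nat_lit 104175424174) (nat_lit 11) (nat_lit 5) (nat_lit 13) (nat_lit 5) (nat_lit 12) (nat_lit 4) (nat_lit 438) (nat_lit 347) (nat_lit 235)) (XT.lf (nat_lit 0) (nat_lit 29014580971) (nat_lit 152) (nat_lit 93114993706) (nat_lit 0) (nat_lit 1775597115) (nat_lit 10) (nat_lit 5) (nat_lit 12) (nat_lit 4) (nat_lit 10) (nat_lit 4) (nat_lit 439) (nat_lit 347) (nat_lit 234)))) (XT.nd (nat_lit 78) (nat_lit 0) (nat_lit 0) (XT.lf (nat_lit 0) (nat_lit 45751647230) (nat_lit 152) (nat_lit 65007407027) (nat_lit 0) (nat_lit 18507411240) (nat_lit 10) (nat_lit 5) (nat_lit 12) (nat_lit 4) (nat_lit 10) (nat_lit 4) (nat_lit 440) (nat_lit 347) (nat_lit 233)) (XT.nd (nat_lit 78) (nat_lit 0) (nat_lit 0) (XT.lf (nat_lit 0) (nat_lit 63319371510) (nat_lit 152) (nat_lit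 35506629128) (nat_lit 0) (nat_lit 36070133488) (nat_lit 10) (nat_lit 5) (nat_lit 12) (nat_lit 4) (nat_lit 10) (nat_lit 4) (nat_lit 441) (nat_lit 347) (nat_lit 232)) (XT.lf (nat_lit 0) (nat_lit 81759581726) (nat_lit 152) (nat_lit 4542420061) (nat_lit 0) (nat_lit 54505579863) (nat_lit 10) (nat_lit 5) (nat_lit 12) (nat_lit 4) (nat_lit 10) (nat_lit 4) (nat_lit 442) (nat_lit 347) (nat_lit 231))))) (XT.nd (nat_lit 234) (nat_lit 152) (nat_lit 0) (XT.nd (nat_lit 78) (nat_lit 0) (nat_lit 0) (XT.lf (nat_lit 0) (nat_lit 28883393449) (nat_lit 76) (nat_lit 72683740409) (nat_lit 76) (nat_lit 45425201555) (nat_lit 9) (nat_lit 4) (nat_lit 10) (nat_lit 5) (nat_lit 10) (nat_lit 4) (nat_lit 443) (nat_lit 347) (nat_lit 230)) (XT.nd (nat_lit 78) (nat_lit 0) (nat_lit 0) (XT.lf (nat_lit 0) (nat_lit 64127323530) (nat_lit 76) (nat_lit 58309146606) (nat_lit 76) (nat_lit 31046286809) (nat_lit 9) (nat_lit 4) (nat_lit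 10) (nat_lit 5) (nat_lit 10) (nat_lit 4) (nat_lit 444) (nat_lit 347) (nat_lit 229)) (XT.lf (nat_lit 0) (nat_lit 101123091379) (nat_lit 76) (nat_lit 43220923238) (nat_lit 76) (nat_lit 15953948257) (nat_lit 9) (nat_lit 4) (nat_lit 10) (nat_lit 5) (nat_lit 10) (nat_lit 4) (nat_lit 445) (nat_lit 347) (nat_lit 228)))) (XT.nd (nat_lit 156) (nat_lit 0) (nat_lit 0) (XT.nd (nat_lit 78) (nat_lit 152) (nat_lit 0) (XT.lf (nat_lit 0) (nat_lit 139958782158) (nat_lit 76) (nat_lit 27383145964) (nat_lit 76) (nat_lit 112251760) (nat_lit 9) (nat_lit 4) (nat_lit 10) (nat_lit 5) (nat_lit 10) (nat_lit 4) (nat_lit 446) (nat_lit 347) (nat_lit 227)) (XT.lf (nat_lit 0) (nat_lit 5682418928) (nat_lit 76) (nat_lit 10394188742) (nat_lit 152) (nat_lit 158874509527) (nat_lit 7) (nat_lit 5) (nat_lit 8) (nat_lit 5) (nat_lit 9) (nat_lit 4) (nat_lit 447) (nat_lit 347) (nat_lit 226))) (XT.nd (nat_lit 78) (nat_lit 0) (nat_lit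 0) (XT.lf (nat_lit 0) (nat_lit 33655807607) (nat_lit 152) (nat_lit 141461181596) (nat_lit 0) (nat_lit 7676586989) (nat_lit 7) (nat_lit 5) (nat_lit 9) (nat_lit 4) (nat_lit 7) (nat_lit 4) (nat_lit 448) (nat_lit 347) (nat_lit 225)) (XT.lf (nat_lit 0) (nat_lit 52279757803) (nat_lit 152) (nat_lit 112442798296) (nat_lit 0) (nat_lit 26297312831) (nat_lit 7) (nat_lit 5) (nat_lit 9) (nat_lit 4) (nat_lit 7) (nat_lit 4) (nat_lit 449) (nat_lit 347) (nat_lit 224))))))))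
noncomputable def xc117 : XT := (XT.nd (nat_lit 1950) (nat_lit 0) (nat_lit 0) (XT.nd (nat_lit 936) (nat_lit 76) (nat_lit 0) (XT.nd (nat_lit 468) (nat_lit 152) (nat_lit 0) (XT.nd (nat_lit 234) (nat_lit 76) (nat_lit 0) (XT.nd (nat_lit 78) (nat_lit 0) (nat_lit 0) (XT.lf (nat_lit 0) (nat_lit 71830518582) (nat_lit 152) (nat_lit 81982174565) (nat_lit 0) (nat_lit 45845002795) (nat_lit 7) (nat_lit 5) (nat_lit 9) (nat_lit 4) (nat_lit 7) (nat_lit 4) (nat_lit 450) (nat_lit 347) (nat_lit 223)) (XT.nd (nat_lit 78) (nat_lit 0) (nat_lit 0) (XT.lf (nat_lit 0) (nat_lit 92354639373) (nat_lit 152) (nat_lit 50006785108) (nat_lit 0) (nat_lit 66366199002) (nat_lit 7) (nat_lit 5) (nat_lit 9) (nat_lit 4) (nat_lit 7) (nat_lit 4) (nat_lit 451) (nat_lit 347) (nat_lit 222)) (XT.lf (nat_lit 0) (nat_lit 113900987131) (nat_lit 152) (nat_lit 16440498046) (nat_lit 0) (nat_lit 87909761441) (nat_lit 7) (nat_lit 5) (nat_lit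 9) (nat_lit 4) (nat_lit 7) (nat_lit 4) (nat_lit 452) (nat_lit 347) (nat_lit 221)))) (XT.nd (nat_lit 78) (nat_lit 0) (nat_lit 0) (XT.lf (nat_lit 0) (nat_lit 19418107045) (nat_lit 76) (nat_lit 117405926709) (nat_lit 76) (nat_lit 91412048335) (nat_lit 6) (nat_lit 4) (nat_lit 7) (nat_lit 5) (nat_lit 7) (nat_lit 4) (nat_lit 453) (nat_lit 347) (nat_lit 220)) (XT.nd (nat_lit 78) (nat_lit 0) (nat_lit 0) (XT.lf (nat_lit 0) (nat_lit 57633043263) (nat_lit 76) (nat_lit 103534892938) (nat_lit 76) (nat_lit 77538488197) (nat_lit 6) (nat_lit 4) (nat_lit 7) (nat_lit 5) (nat_lit 7) (nat_lit 4) (nat_lit 454) (nat_lit 347) (nat_lit 219)) (XT.lf (nat_lit 0) (nat_lit 97751701438) (nat_lit 76) (nat_lit 88973785382) (nat_lit 76) (nat_lit 62974974578) (nat_lit 6) (nat_lit 4) (nat_lit 7) (nat_lit 5) (nat_lit 7) (nat_lit 4) (nat_lit 455) (nat_lit 347) (nat_lit 218))))) (XT.nd (nat_lit 234) (nat_lit 152) (nat_lit 0)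 (XT.nd (nat_lit 78) (nat_lit 0) (nat_lit 0) (XT.lf (nat_lit 0) (nat_lit 139869602184) (nat_lit 76) (nat_lit 73687934738) (nat_lit 76) (nat_lit 47686832446) (nat_lit 6) (nat_lit 4) (nat_lit 7) (nat_lit 5) (nat_lit 7) (nat_lit 4) (nat_lit 456) (nat_lit 347) (nat_lit 217)) (XT.nd (nat_lit 78) (nat_lit 0) (nat_lit 0) (XT.lf (nat_lit 0) (nat_lit 184087026217) (nat_lit 76) (nat_lit 57640946123) (nat_lit 76) (nat_lit 31637661461) (nat_lit 6) (nat_lit 4) (nat_lit 7) (nat_lit 5) (nat_lit 7) (nat_lit 4) (nat_lit 457) (nat_lit 347) (nat_lit 216)) (XT.lf (nat_lit 0) (nat_lit 230509253118) (nat_lit 76) (nat_lit 40794612423) (nat_lit 76) (nat_lit 14789249313) (nat_lit 6) (nat_lit 4) (nat_lit 7) (nat_lit 5) (nat_lit 7) (nat_lit 4) (nat_lit 458) (nat_lit 347) (nat_lit 215)))) (XT.nd (nat_lit 78) (nat_lit 76) (nat_lit 0) (XT.lf (nat_lit 0) (nat_lit 2805748547) (nat_lit 152) (nat_lit 20255558061) (nat_lit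 76) (nat_lit 276393546743) (nat_lit 5) (nat_lit 5) (nat_lit 7) (nat_lit 5) (nat_lit 6) (nat_lit 4) (nat_lit 459) (nat_lit 347) (nat_lit 214)) (XT.nd (nat_lit 78) (nat_lit 0) (nat_lit 0) (XT.lf (nat_lit 0) (nat_lit 17139693592) (nat_lit 76) (nat_lit 3908560744) (nat_lit 152) (nat_lit 292411063582) (nat_lit 4) (nat_lit 5) (nat_lit 5) (nat_lit 5) (nat_lit 6) (nat_lit 4) (nat_lit 460) (nat_lit 347) (nat_lit 213)) (XT.lf (nat_lit 0) (nat_lit 40801683542) (nat_lit 152) (nat_lit 271303101968) (nat_lit 0) (nat_lit 16029280458) (nat_lit 4) (nat_lit 5) (nat_lit 6) (nat_lit 4) (nat_lit 4) (nat_lit 4) (nat_lit 461) (nat_lit 347) (nat_lit 212)))))) (XT.nd (nat_lit 468) (nat_lit 76) (nat_lit 0) (XT.nd (nat_lit 234) (nat_lit 0) (nat_lit 0) (XT.nd (nat_lit 78) (nat_lit 0) (nat_lit 0) (XT.lf (nat_lit 0) (nat_lit 61604174242) (nat_lit 152) (nat_lit 245105165193) (nat_lit 0) (nat_lit 36830142639) (nat_lit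 4) (nat_lit 5) (nat_lit 6) (nat_lit 4) (nat_lit 4) (nat_lit 4) (nat_lit 462) (nat_lit 347) (nat_lit 211)) (XT.nd (nat_lit 78) (nat_lit 0) (nat_lit 0) (XT.lf (nat_lit 0) (nat_lit 83444232586) (nat_lit 152) (nat_lit 217602414376) (nat_lit 0) (nat_lit 58668650014) (nat_lit 4) (nat_lit 5) (nat_lit 6) (nat_lit 4) (nat_lit 4) (nat_lit 4) (nat_lit 463) (nat_lit 347) (nat_lit 210)) (XT.lf (nat_lit 0) (nat_lit 106373858716) (nat_lit 152) (nat_lit 188729366776) (nat_lit 0) (nat_lit 81596799030) (nat_lit 4) (nat_lit 5) (nat_lit 6) (nat_lit 4) (nat_lit 4) (nat_lit 4) (nat_lit 464) (nat_lit 347) (nat_lit 209)))) (XT.nd (nat_lit 78) (nat_lit 0) (nat_lit 0) (XT.lf (nat_lit 0) (nat_lit 130447646978) (nat_lit 152) (nat_lit 158417277041) (nat_lit 0) (nat_lit 105669180516) (nat_lit 4) (nat_lit 5) (nat_lit 6) (nat_lit 4) (nat_lit 4) (nat_lit 4) (nat_lit 465) (nat_lit 347) (nat_lit 208)) (XT.nd (nat_lit 78)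 (nat_lit 0) (nat_lit 0) (XT.lf (nat_lit 0) (nat_lit 155722915915) (nat_lit 152) (nat_lit 126593973530) (nat_lit 0) (nat_lit 130943109668) (nat_lit 4) (nat_lit 5) (nat_lit 6) (nat_lit 4) (nat_lit 4) (nat_lit 4) (nat_lit 466) (nat_lit 347) (nat_lit 207)) (XT.lf (nat_lit 0) (nat_lit 182259844741) (nat_lit 152) (nat_lit 93183686473) (nat_lit 0) (nat_lit 157478762507) (nat_lit 4) (nat_lit 5) (nat_lit 6) (nat_lit 4) (nat_lit 4) (nat_lit 4) (nat_lit 467) (nat_lit 347) (nat_lit 206))))) (XT.nd (nat_lit 234) (nat_lit 0) (nat_lit 0) (XT.nd (nat_lit 78) (nat_lit 76) (nat_lit 0) (XT.lf (nat_lit 0) (nat_lit 210121616618) (nat_lit 152) (nat_lit 58106867565) (nat_lit 0) (nat_lit 185339319158) (nat_lit 4) (nat_lit 5) (nat_lit 6) (nat_lit 4) (nat_lit 4) (nat_lit 4) (nat_lit 468) (nat_lit 347) (nat_lit 205)) (XT.nd (nat_lit 78) (nat_lit 76) (nat_lit 0) (XT.lf (nat_lit 0) (nat_lit 239374569098) (nat_lit 152)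 (nat_lit 21280000573) (nat_lit 0) (nat_lit 214591114282) (nat_lit 4) (nat_lit 5) (nat_lit 6) (nat_lit 4) (nat_lit 4) (nat_lit 4) (nat_lit 469) (nat_lit 347) (nat_lit 204)) (XT.lf (nat_lit 0) (nat_lit 17959410824) (nat_lit 76) (nat_lit 252409337979) (nat_lit 76) (nat_lit 227624780917) (nat_lit 3) (nat_lit 4) (nat_lit 4) (nat_lit 5) (nat_lit 4) (nat_lit 4) (nat_lit 470) (nat_lit 347) (nat_lit 203)))) (XT.nd (nat_lit 156) (nat_lit 0) (nat_lit 0) (XT.nd (nat_lit 78) (nat_lit 0) (nat_lit 0) (XT.lf (nat_lit 0) (nat_lit 59896032375) (nat_lit 76) (nat_lit 243375206134) (nat_lit 76) (nat_lit 218589599315) (nat_lit 3) (nat_lit 4) (nat_lit 4) (nat_lit 5) (nat_lit 4) (nat_lit 4) (nat_lit 471) (nat_lit 347) (nat_lit 202)) (XT.lf (nat_lit 0) (nat_lit 103926100255) (nat_lit 76) (nat_lit 233891051407) (nat_lit 76) (nat_lit 209104444818) (nat_lit 3) (nat_lit 4) (nat_lit 4) (nat_lit 5) (nat_lit 4) (nat_lit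 4) (nat_lit 472) (nat_lit 347) (nat_lit 201))) (XT.nd (nat_lit 78) (nat_lit 0) (nat_lit 0) (XT.lf (nat_lit 0) (nat_lit 150154447958) (nat_lit 76) (nat_lit 223934292476) (nat_lit 76) (nat_lit 199146733727) (nat_lit 3) (nat_lit 4) (nat_lit 4) (nat_lit 5) (nat_lit 4) (nat_lit 4) (nat_lit 473) (nat_lit 347) (nat_lit 200)) (XT.lf (nat_lit 0) (nat_lit 198691142980) (nat_lit 76) (nat_lit 213481222772) (nat_lit 76) (nat_lit 188692757203) (nat_lit 3) (nat_lit 4) (nat_lit 4) (nat_lit 5) (nat_lit 4) (nat_lit 4) (nat_lit 474) (nat_lit 347) (nat_lit 199))))))) (XT.nd (nat_lit 43914) (nat_lit 0) (nat_lit 6384) (XT.nd (nat_lit 43368) (nat_lit 0) (nat_lit 9880) (XT.nd (nat_lit 234) (nat_lit 0) (nat_lit 0) (XT.nd (nat_lit 78) (nat_lit 0) (nat_lit 0) (XT.lf (nat_lit 0) (nat_lit 249651748880) (nat_lit 76) (nat_lit 202506954035) (nat_lit 76) (nat_lit 177717624828) (nat_lit 3) (nat_lit 4) (nat_lit 4) (nat_lit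 5) (nat_lit 4) (nat_lit 4) (nat_lit 475) (nat_lit 347) (nat_lit 198)) (XT.nd (nat_lit 78) (nat_lit 0) (nat_lit 0) (XT.lf (nat_lit 0) (nat_lit 303157600434) (nat_lit 76) (nat_lit 190985357053) (nat_lit 76) (nat_lit 166195205334) (nat_lit 3) (nat_lit 4) (nat_lit 4) (nat_lit 5) (nat_lit 4) (nat_lit 4) (nat_lit 476) (nat_lit 347) (nat_lit 197)) (XT.lf (nat_lit 0) (nat_lit 359336092527) (nat_lit 76) (nat_lit 178888999453) (nat_lit 76) (nat_lit 154098064389) (nat_lit 3) (nat_lit 4) (nat_lit 4) (nat_lit 5) (nat_lit 4) (nat_lit 4) (nat_lit 477) (nat_lit 347) (nat_lit 196)))) (XT.nd (nat_lit 42978) (nat_lit 0) (nat_lit 10868) (XT.lf (nat_lit 0) (nat_lit 418320983472) (nat_lit 76) (nat_lit 166189080382) (nat_lit 76) (nat_lit 141397399275) (nat_lit 3) (nat_lit 4) (nat_lit 4) (nat_lit 5) (nat_lit 4) (nat_lit 4) (nat_lit 478) (nat_lit 347) (nat_lit 195)) (XT.nd (nat_lit 78) (nat_lit 0) (nat_lit 0) (XT.lf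 (nat_lit 0) (nat_lit 2262560985) (nat_lit 532) (nat_lit 665063735) (nat_lit 532) (nat_lit 665063735) (nat_lit 146) (nat_lit 3) (nat_lit 153) (nat_lit 3) (nat_lit 153) (nat_lit 5) (nat_lit 348) (nat_lit 348) (nat_lit 324)) (XT.lf (nat_lit 76) (nat_lit 2224685229) (nat_lit 0) (nat_lit 4040276988) (nat_lit 532) (nat_lit 1017202142) (nat_lit 147) (nat_lit 5) (nat_lit 146) (nat_lit 3) (nat_lit 153) (nat_lit 5) (nat_lit 349) (nat_lit 348) (nat_lit 323))))) (XT.nd (nat_lit 234) (nat_lit 456) (nat_lit 0) (XT.nd (nat_lit 78) (nat_lit 0) (nat_lit 76) (XT.lf (nat_lit 0) (nat_lit 603689782) (nat_lit 532) (nat_lit 1449539342) (nat_lit 608) (nat_lit 5334184150) (nat_lit 139) (nat_lit 5) (nat_lit 146) (nat_lit 3) (nat_lit 147) (nat_lit 5) (nat_lit 350) (nat_lit 348) (nat_lit 322)) (XT.nd (nat_lit 78) (nat_lit 0) (nat_lit 0) (XT.lf (nat_lit 0) (nat_lit 2210490482) (nat_lit 532) (nat_lit 5161416851) (nat_lit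 608) (nat_lit 128318840) (nat_lit 140) (nat_lit 5) (nat_lit 147) (nat_lit 5) (nat_lit 148) (nat_lit 5) (nat_lit 351) (nat_lit 348) (nat_lit 321)) (XT.lf (nat_lit 0) (nat_lit 3861184658) (nat_lit 532) (nat_lit 1345276195) (nat_lit 608) (nat_lit 2414124763) (nat_lit 140) (nat_lit 5) (nat_lit 147) (nat_lit 5) (nat_lit 148) (nat_lit 5) (nat_lit 352) (nat_lit 348) (nat_lit 320)))) (XT.nd (nat_lit 156) (nat_lit 532) (nat_lit 0) (XT.nd (nat_lit 78) (nat_lit 0) (nat_lit 0) (XT.lf (nat_lit 76) (nat_lit 2689994659) (nat_lit 0) (nat_lit 2855886630) (nat_lit 608) (nat_lit 2203587949) (nat_lit 141) (nat_lit 5) (nat_lit 140) (nat_lit 5) (nat_lit 148) (nat_lit 5) (nat_lit 353) (nat_lit 348) (nat_lit 319)) (XT.lf (nat_lit 76) (nat_lit 6916892377) (nat_lit 0) (nat_lit 333596193) (nat_lit 608) (nat_lit 637600483) (nat_lit 141) (nat_lit 5) (nat_lit 140) (nat_lit 5) (nat_lit 148) (nat_lit 5) (nat_lit 354) (nat_lit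 348) (nat_lit 318))) (XT.nd (nat_lit 78) (nat_lit 0) (nat_lit 0) (XT.lf (nat_lit 0) (nat_lit 980161888) (nat_lit 608) (nat_lit 4716003781) (nat_lit 684) (nat_lit 2336472296) (nat_lit 133) (nat_lit 5) (nat_lit 141) (nat_lit 5) (nat_lit 142) (nat_lit 5) (nat_lit 355) (nat_lit 348) (nat_lit 317)) (XT.lf (nat_lit 0) (nat_lit 2598717969) (nat_lit 608) (nat_lit 407803928) (nat_lit 684) (nat_lit 5180368627) (nat_lit 133) (nat_lit 5) (nat_lit 141) (nat_lit 5) (nat_lit 142) (nat_lit 5) (nat_lit 356) (nat_lit 348) (nat_lit 316)))))) (XT.nd (nat_lit 468) (nat_lit 1444) (nat_lit 0) (XT.nd (nat_lit 234) (nat_lit 1520) (nat_lit 0) (XT.nd (nat_lit 78) (nat_lit 532) (nat_lit 0) (XT.lf (nat_lit 76) (nat_lit 4192274953) (nat_lit 0) (nat_lit 94377241) (nat_lit 684) (nat_lit 4062843363) (nat_lit 134) (nat_lit 5) (nat_lit 133) (nat_lit 5) (nat_lit 142) (nat_lit 5) (nat_lit 357) (nat_lit 348) (nat_lit 315)) (XT.nd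 (nat_lit 78) (nat_lit 0) (nat_lit 0) (XT.lf (nat_lit 0) (nat_lit 422966040) (nat_lit 608) (nat_lit 5621956774) (nat_lit 684) (nat_lit 2476070438) (nat_lit 126) (nat_lit 5) (nat_lit 134) (nat_lit 5) (nat_lit 135) (nat_lit 5) (nat_lit 358) (nat_lit 348) (nat_lit 314)) (XT.lf (nat_lit 0) (nat_lit 5315052009) (nat_lit 608) (nat_lit 2576618700) (nat_lit 684) (nat_lit 809423499) (nat_lit 126) (nat_lit 5) (nat_lit 134) (nat_lit 5) (nat_lit 135) (nat_lit 5) (nat_lit 359) (nat_lit 348) (nat_lit 313)))) (XT.nd (nat_lit 78) (nat_lit 760) (nat_lit 0) (XT.lf (nat_lit 0) (nat_lit 875795863) (nat_lit 760) (nat_lit 7365543401) (nat_lit 76) (nat_lit 649910834) (nat_lit 116) (nat_lit 5) (nat_lit 126) (nat_lit 5) (nat_lit 117) (nat_lit 5) (nat_lit 360) (nat_lit 348) (nat_lit 312)) (XT.nd (nat_lit 78) (nat_lit 760) (nat_lit 0) (XT.lf (nat_lit 0) (nat_lit 2651978576) (nat_lit 760) (nat_lit 2405785560) (nat_lit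 76) (nat_lit 4030839832) (nat_lit 116) (nat_lit 5) (nat_lit 126) (nat_lit 5) (nat_lit 117) (nat_lit 5) (nat_lit 361) (nat_lit 348) (nat_lit 311)) (XT.lf (nat_lit 0) (nat_lit 2833715024) (nat_lit 760) (nat_lit 1664050331) (nat_lit 836) (nat_lit 4799066965) (nat_lit 106) (nat_lit 5) (nat_lit 116) (nat_lit 5) (nat_lit 117) (nat_lit 5) (nat_lit 362) (nat_lit 348) (nat_lit 310))))) (XT.nd (nat_lit 234) (nat_lit 684) (nat_lit 0) (XT.nd (nat_lit 78) (nat_lit 760) (nat_lit 0) (XT.lf (nat_lit 0) (nat_lit 6445627450) (nat_lit 836) (nat_lit 1186197034) (nat_lit 76) (nat_lit 1883202630) (nat_lit 106) (nat_lit 5) (nat_lit 117) (nat_lit 5) (nat_lit 107) (nat_lit 5) (nat_lit 363) (nat_lit 348) (nat_lit 309)) (XT.nd (nat_lit 78) (nat_lit 380) (nat_lit 0) (XT.lf (nat_lit 0) (nat_lit 4410201730) (nat_lit 380) (nat_lit 4118454848) (nat_lit 456) (nat_lit 1213628580) (nat_lit 101) (nat_lit 5) (nat_lit 106) (nat_lit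 5) (nat_lit 107) (nat_lit 5) (nat_lit 364) (nat_lit 348) (nat_lit 308)) (XT.lf (nat_lit 0) (nat_lit 285804551) (nat_lit 304) (nat_lit 393042974) (nat_lit 380) (nat_lit 9303151208) (nat_lit 96) (nat_lit 5) (nat_lit 100) (nat_lit 5) (nat_lit 101) (nat_lit 5) (nat_lit 365) (nat_lit 348) (nat_lit 307)))) (XT.nd (nat_lit 156) (nat_lit 304) (nat_lit 0) (XT.nd (nat_lit 78) (nat_lit 380) (nat_lit 0) (XT.lf (nat_lit 0) (nat_lit 2716221302) (nat_lit 380) (nat_lit 3996850106) (nat_lit 76) (nat_lit 3515115276) (nat_lit 96) (nat_lit 5) (nat_lit 101) (nat_lit 5) (nat_lit 97) (nat_lit 5) (nat_lit 366) (nat_lit 348) (nat_lit 306)) (XT.lf (nat_lit 0) (nat_lit 1986443793) (nat_lit 380) (nat_lit 2853469786) (nat_lit 456) (nat_lit 5647582689) (nat_lit 91) (nat_lit 5) (nat_lit 96) (nat_lit 5) (nat_lit 97) (nat_lit 5) (nat_lit 367) (nat_lit 348) (nat_lit 305))) (XT.nd (nat_lit 78) (nat_lit 304) (nat_lit 0) (XT.lf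 (nat_lit 0) (nat_lit 7105842471) (nat_lit 456) (nat_lit 2428279515) (nat_lit 76) (nat_lit 1223879817) (nat_lit 91) (nat_lit 5) (nat_lit 97) (nat_lit 5) (nat_lit 92) (nat_lit 5) (nat_lit 368) (nat_lit 348) (nat_lit 304)) (XT.lf (nat_lit 0) (nat_lit 3971588125) (nat_lit 304) (nat_lit 5573248604) (nat_lit 380) (nat_lit 1494238939) (nat_lit 87) (nat_lit 5) (nat_lit 91) (nat_lit 5) (nat_lit 92) (nat_lit 5) (nat_lit 369) (nat_lit 348) (nat_lit 303))))))))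
noncomputable def xc118 : XT := (XT.nd (nat_lit 1950) (nat_lit 1748) (nat_lit 0) (XT.nd (nat_lit 936) (nat_lit 1368) (nat_lit 0) (XT.nd (nat_lit 468) (nat_lit 988) (nat_lit 0) (XT.nd (nat_lit 234) (nat_lit 380) (nat_lit 0) (XT.nd (nat_lit 78) (nat_lit 532) (nat_lit 0) (XT.lf (nat_lit 0) (nat_lit 740315269) (nat_lit 380) (nat_lit 626705838) (nat_lit 76) (nat_lit 9966936708) (nat_lit 86) (nat_lit 5) (nat_lit 91) (nat_lit 5) (nat_lit 87) (nat_lit 5) (nat_lit 370) (nat_lit 348) (nat_lit 302)) (XT.nd (nat_lit 78) (nat_lit 228) (nat_lit 0) (XT.lf (nat_lit 0) (nat_lit 3137486111) (nat_lit 380) (nat_lit 5432248305) (nat_lit 76) (nat_lit 3067596820) (nat_lit 82) (nat_lit 5) (nat_lit 87) (nat_lit 5) (nat_lit 83) (nat_lit 5) (nat_lit 371) (nat_lit 348) (nat_lit 301)) (XT.lf (nat_lit 0) (nat_lit 1411383649) (nat_lit 228) (nat_lit 4253509604) (nat_lit 304) (nat_lit 6290487100) (nat_lit 79) (nat_lit 5)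 (nat_lit 82) (nat_lit 5) (nat_lit 83) (nat_lit 5) (nat_lit 372) (nat_lit 348) (nat_lit 300)))) (XT.nd (nat_lit 78) (nat_lit 380) (nat_lit 0) (XT.lf (nat_lit 0) (nat_lit 8372763079) (nat_lit 304) (nat_lit 3561995897) (nat_lit 76) (nat_lit 351893013) (nat_lit 79) (nat_lit 5) (nat_lit 83) (nat_lit 5) (nat_lit 80) (nat_lit 5) (nat_lit 373) (nat_lit 348) (nat_lit 299)) (XT.nd (nat_lit 78) (nat_lit 76) (nat_lit 0) (XT.lf (nat_lit 0) (nat_lit 3765416197) (nat_lit 304) (nat_lit 7537450310) (nat_lit 380) (nat_lit 1327302199) (nat_lit 75) (nat_lit 5) (nat_lit 79) (nat_lit 5) (nat_lit 80) (nat_lit 5) (nat_lit 374) (nat_lit 348) (nat_lit 298)) (XT.lf (nat_lit 0) (nat_lit 1364266097) (nat_lit 380) (nat_lit 1482632174) (nat_lit 76) (nat_lit 10141895469) (nat_lit 74) (nat_lit 5) (nat_lit 79) (nat_lit 5) (nat_lit 75) (nat_lit 5) (nat_lit 375) (nat_lit 348) (nat_lit 297))))) (XT.nd (nat_lit 234) (nat_lit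 532) (nat_lit 0) (XT.nd (nat_lit 78) (nat_lit 228) (nat_lit 0) (XT.lf (nat_lit 0) (nat_lit 4240699947) (nat_lit 304) (nat_lit 6996196573) (nat_lit 76) (nat_lit 2122641199) (nat_lit 71) (nat_lit 5) (nat_lit 75) (nat_lit 5) (nat_lit 72) (nat_lit 5) (nat_lit 376) (nat_lit 348) (nat_lit 296)) (XT.nd (nat_lit 78) (nat_lit 0) (nat_lit 0) (XT.lf (nat_lit 0) (nat_lit 831825520) (nat_lit 228) (nat_lit 6475911249) (nat_lit 304) (nat_lit 6438762400) (nat_lit 68) (nat_lit 5) (nat_lit 71) (nat_lit 5) (nat_lit 72) (nat_lit 5) (nat_lit 377) (nat_lit 348) (nat_lit 295)) (XT.lf (nat_lit 0) (nat_lit 9241760228) (nat_lit 228) (nat_lit 1367462774) (nat_lit 304) (nat_lit 3539549228) (nat_lit 68) (nat_lit 5) (nat_lit 71) (nat_lit 5) (nat_lit 72) (nat_lit 5) (nat_lit 378) (nat_lit 348) (nat_lit 294)))) (XT.nd (nat_lit 78) (nat_lit 304) (nat_lit 0) (XT.lf (nat_lit 0) (nat_lit 3499171733) (nat_lit 228) (nat_lit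 10657809765) (nat_lit 304) (nat_lit 410135087) (nat_lit 65) (nat_lit 5) (nat_lit 68) (nat_lit 5) (nat_lit 69) (nat_lit 5) (nat_lit 379) (nat_lit 348) (nat_lit 293)) (XT.nd (nat_lit 78) (nat_lit 228) (nat_lit 0) (XT.lf (nat_lit 0) (nat_lit 2855088267) (nat_lit 304) (nat_lit 2626697222) (nat_lit 76) (nat_lit 9518794628) (nat_lit 64) (nat_lit 5) (nat_lit 68) (nat_lit 5) (nat_lit 65) (nat_lit 5) (nat_lit 380) (nat_lit 348) (nat_lit 292)) (XT.lf (nat_lit 0) (nat_lit 6336432858) (nat_lit 304) (nat_lit 9067978251) (nat_lit 76) (nat_lit 47652527) (nat_lit 61) (nat_lit 5) (nat_lit 65) (nat_lit 5) (nat_lit 62) (nat_lit 5) (nat_lit 381) (nat_lit 348) (nat_lit 291)))))) (XT.nd (nat_lit 468) (nat_lit 760) (nat_lit 0) (XT.nd (nat_lit 234) (nat_lit 152) (nat_lit 0) (XT.nd (nat_lit 78) (nat_lit 456) (nat_lit 0) (XT.lf (nat_lit 0) (nat_lit 10093720721) (nat_lit 304) (nat_lit 127867722) (nat_lit 76) (nat_lit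 5699453515) (nat_lit 61) (nat_lit 5) (nat_lit 65) (nat_lit 5) (nat_lit 62) (nat_lit 5) (nat_lit 382) (nat_lit 348) (nat_lit 290)) (XT.nd (nat_lit 78) (nat_lit 304) (nat_lit 0) (XT.lf (nat_lit 0) (nat_lit 9516230823) (nat_lit 152) (nat_lit 4639595345) (nat_lit 228) (nat_lit 2251809112) (nat_lit 59) (nat_lit 5) (nat_lit 61) (nat_lit 5) (nat_lit 62) (nat_lit 5) (nat_lit 383) (nat_lit 348) (nat_lit 289)) (XT.lf (nat_lit 0) (nat_lit 1488019090) (nat_lit 304) (nat_lit 14191640174) (nat_lit 76) (nat_lit 1236057113) (nat_lit 55) (nat_lit 5) (nat_lit 59) (nat_lit 5) (nat_lit 56) (nat_lit 5) (nat_lit 384) (nat_lit 348) (nat_lit 288)))) (XT.nd (nat_lit 78) (nat_lit 152) (nat_lit 0) (XT.lf (nat_lit 0) (nat_lit 5502979652) (nat_lit 304) (nat_lit 4547058894) (nat_lit 76) (nat_lit 7389138286) (nat_lit 55) (nat_lit 5) (nat_lit 59) (nat_lit 5) (nat_lit 56) (nat_lit 5) (nat_lit 385) (nat_lit 348) (nat_lit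 287)) (XT.nd (nat_lit 78) (nat_lit 0) (nat_lit 0) (XT.lf (nat_lit 0) (nat_lit 5716633108) (nat_lit 152) (nat_lit 4061912583) (nat_lit 228) (nat_lit 8207283051) (nat_lit 53) (nat_lit 5) (nat_lit 55) (nat_lit 5) (nat_lit 56) (nat_lit 5) (nat_lit 386) (nat_lit 348) (nat_lit 286)) (XT.lf (nat_lit 0) (nat_lit 14351944076) (nat_lit 228) (nat_lit 1987129273) (nat_lit 76) (nat_lit 2216547965) (nat_lit 53) (nat_lit 5) (nat_lit 56) (nat_lit 5) (nat_lit 54) (nat_lit 5) (nat_lit 387) (nat_lit 348) (nat_lit 285))))) (XT.nd (nat_lit 234) (nat_lit 380) (nat_lit 0) (XT.nd (nat_lit 78) (nat_lit 152) (nat_lit 0) (XT.lf (nat_lit 0) (nat_lit 182332071) (nat_lit 228) (nat_lit 10162151782) (nat_lit 76) (nat_lit 8800318008) (nat_lit 50) (nat_lit 5) (nat_lit 53) (nat_lit 5) (nat_lit 51) (nat_lit 5) (nat_lit 388) (nat_lit 348) (nat_lit 284)) (XT.nd (nat_lit 78) (nat_lit 0) (nat_lit 0) (XT.lf (nat_lit 0) (nat_lit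 717122148) (nat_lit 152) (nat_lit 3947247131) (nat_lit 228) (nat_lit 15094735892) (nat_lit 48) (nat_lit 5) (nat_lit 50) (nat_lit 5) (nat_lit 51) (nat_lit 5) (nat_lit 389) (nat_lit 348) (nat_lit 283)) (XT.lf (nat_lit 0) (nat_lit 9561628808) (nat_lit 228) (nat_lit 7993296703) (nat_lit 76) (nat_lit 2839650972) (nat_lit 48) (nat_lit 5) (nat_lit 51) (nat_lit 5) (nat_lit 49) (nat_lit 5) (nat_lit 390) (nat_lit 348) (nat_lit 282)))) (XT.nd (nat_lit 156) (nat_lit 228) (nat_lit 0) (XT.nd (nat_lit 78) (nat_lit 0) (nat_lit 0) (XT.lf (nat_lit 0) (nat_lit 3616111820) (nat_lit 152) (nat_lit 11183047084) (nat_lit 228) (nat_lit 6257900514) (nat_lit 46) (nat_lit 5) (nat_lit 48) (nat_lit 5) (nat_lit 49) (nat_lit 5) (nat_lit 391) (nat_lit 348) (nat_lit 281)) (XT.lf (nat_lit 0) (nat_lit 16041448052) (nat_lit 152) (nat_lit 4367298853) (nat_lit 228) (nat_lit 1338418558) (nat_lit 46) (nat_lit 5) (nat_lit 48) (nat_lit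 5) (nat_lit 49) (nat_lit 5) (nat_lit 392) (nat_lit 348) (nat_lit 280))) (XT.nd (nat_lit 78) (nat_lit 0) (nat_lit 0) (XT.lf (nat_lit 0) (nat_lit 3831242482) (nat_lit 228) (nat_lit 15779656981) (nat_lit 76) (nat_lit 2851562393) (nat_lit 43) (nat_lit 5) (nat_lit 46) (nat_lit 5) (nat_lit 44) (nat_lit 5) (nat_lit 393) (nat_lit 348) (nat_lit 279)) (XT.lf (nat_lit 0) (nat_lit 9360103520) (nat_lit 228) (nat_lit 3456117783) (nat_lit 76) (nat_lit 10388926813) (nat_lit 43) (nat_lit 5) (nat_lit 46) (nat_lit 5) (nat_lit 44) (nat_lit 5) (nat_lit 394) (nat_lit 348) (nat_lit 278))))))) (XT.nd (nat_lit 1014) (nat_lit 684) (nat_lit 0) (XT.nd (nat_lit 468) (nat_lit 532) (nat_lit 0) (XT.nd (nat_lit 234) (nat_lit 228) (nat_lit 0) (XT.nd (nat_lit 78) (nat_lit 152) (nat_lit 0) (XT.lf (nat_lit 0) (nat_lit 9756684016) (nat_lit 152) (nat_lit 5538089302) (nat_lit 228) (nat_lit 8683733695) (nat_lit 41) (nat_lit 5)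 (nat_lit 43) (nat_lit 5) (nat_lit 44) (nat_lit 5) (nat_lit 395) (nat_lit 348) (nat_lit 277)) (XT.nd (nat_lit 78) (nat_lit 152) (nat_lit 0) (XT.lf (nat_lit 0) (nat_lit 21595792610) (nat_lit 228) (nat_lit 1110736718) (nat_lit 76) (nat_lit 2080530022) (nat_lit 41) (nat_lit 5) (nat_lit 44) (nat_lit 5) (nat_lit 42) (nat_lit 4) (nat_lit 396) (nat_lit 348) (nat_lit 276)) (XT.lf (nat_lit 0) (nat_lit 2769025983) (nat_lit 152) (nat_lit 12725371579) (nat_lit 76) (nat_lit 10125854419) (nat_lit 39) (nat_lit 5) (nat_lit 41) (nat_lit 5) (nat_lit 40) (nat_lit 5) (nat_lit 397) (nat_lit 348) (nat_lit 275)))) (XT.nd (nat_lit 78) (nat_lit 76) (nat_lit 0) (XT.lf (nat_lit 0) (nat_lit 1089762078) (nat_lit 152) (nat_lit 7844916951) (nat_lit 228) (nat_lit 17557085200) (nat_lit 37) (nat_lit 5) (nat_lit 39) (nat_lit 5) (nat_lit 40) (nat_lit 5) (nat_lit 398) (nat_lit 348) (nat_lit 274)) (XT.nd (nat_lit 78) (nat_lit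 76) (nat_lit 0) (XT.lf (nat_lit 0) (nat_lit 15609235651) (nat_lit 228) (nat_lit 11402953910) (nat_lit 76) (nat_lit 384636664) (nat_lit 37) (nat_lit 5) (nat_lit 40) (nat_lit 5) (nat_lit 38) (nat_lit 4) (nat_lit 399) (nat_lit 348) (nat_lit 273)) (XT.lf (nat_lit 0) (nat_lit 3234909538) (nat_lit 76) (nat_lit 19541395532) (nat_lit 152) (nat_lit 5562901934) (nat_lit 36) (nat_lit 5) (nat_lit 37) (nat_lit 5) (nat_lit 38) (nat_lit 4) (nat_lit 400) (nat_lit 348) (nat_lit 272))))) (XT.nd (nat_lit 234) (nat_lit 304) (nat_lit 0) (XT.nd (nat_lit 78) (nat_lit 152) (nat_lit 0) (XT.lf (nat_lit 0) (nat_lit 1117915383) (nat_lit 152) (nat_lit 10373018887) (nat_lit 76) (nat_lit 17828215597) (nat_lit 35) (nat_lit 5) (nat_lit 37) (nat_lit 5) (nat_lit 36) (nat_lit 5) (nat_lit 401) (nat_lit 348) (nat_lit 271)) (XT.nd (nat_lit 78) (nat_lit 0) (nat_lit 0) (XT.lf (nat_lit 0) (nat_lit 5133492946) (nat_lit 152) (nat_lit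 2873199462) (nat_lit 228) (nat_lit 22333798528) (nat_lit 33) (nat_lit 5) (nat_lit 35) (nat_lit 5) (nat_lit 36) (nat_lit 5) (nat_lit 402) (nat_lit 348) (nat_lit 270)) (XT.lf (nat_lit 0) (nat_lit 15495751461) (nat_lit 228) (nat_lit 9762551211) (nat_lit 76) (nat_lit 6141808288) (nat_lit 33) (nat_lit 5) (nat_lit 36) (nat_lit 5) (nat_lit 34) (nat_lit 4) (nat_lit 403) (nat_lit 348) (nat_lit 269)))) (XT.nd (nat_lit 156) (nat_lit 228) (nat_lit 0) (XT.nd (nat_lit 78) (nat_lit 0) (nat_lit 0) (XT.lf (nat_lit 0) (nat_lit 6584820806) (nat_lit 76) (nat_lit 16906138050) (nat_lit 152) (nat_lit 9015172224) (nat_lit 32) (nat_lit 5) (nat_lit 33) (nat_lit 5) (nat_lit 34) (nat_lit 4) (nat_lit 404) (nat_lit 348) (nat_lit 268)) (XT.lf (nat_lit 0) (nat_lit 24056075762) (nat_lit 76) (nat_lit 7977331802) (nat_lit 152) (nat_lit 1626674274) (nat_lit 32) (nat_lit 5) (nat_lit 33) (nat_lit 5) (nat_lit 34) (nat_lit 4)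 (nat_lit 405) (nat_lit 348) (nat_lit 267))) (XT.nd (nat_lit 78) (nat_lit 0) (nat_lit 0) (XT.lf (nat_lit 0) (nat_lit 6062243268) (nat_lit 228) (nat_lit 27240242687) (nat_lit 76) (nat_lit 1558099573) (nat_lit 29) (nat_lit 5) (nat_lit 32) (nat_lit 5) (nat_lit 30) (nat_lit 4) (nat_lit 406) (nat_lit 348) (nat_lit 266)) (XT.lf (nat_lit 0) (nat_lit 14359867382) (nat_lit 228) (nat_lit 10265327505) (nat_lit 76) (nat_lit 11480642976) (nat_lit 29) (nat_lit 5) (nat_lit 32) (nat_lit 5) (nat_lit 30) (nat_lit 4) (nat_lit 407) (nat_lit 348) (nat_lit 265)))))) (XT.nd (nat_lit 468) (nat_lit 380) (nat_lit 0) (XT.nd (nat_lit 234) (nat_lit 76) (nat_lit 0) (XT.nd (nat_lit 78) (nat_lit 152) (nat_lit 0) (XT.lf (nat_lit 0) (nat_lit 7777180300) (nat_lit 76) (nat_lit 15400270100) (nat_lit 152) (nat_lit 14230651557) (nat_lit 28) (nat_lit 5) (nat_lit 29) (nat_lit 5) (nat_lit 30) (nat_lit 4) (nat_lit 408) (nat_lit 348)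 (nat_lit 264)) (XT.nd (nat_lit 78) (nat_lit 152) (nat_lit 0) (XT.lf (nat_lit 0) (nat_lit 27048616037) (nat_lit 76) (nat_lit 5545115387) (nat_lit 152) (nat_lit 6173859772) (nat_lit 28) (nat_lit 5) (nat_lit 29) (nat_lit 5) (nat_lit 30) (nat_lit 4) (nat_lit 409) (nat_lit 348) (nat_lit 263)) (XT.lf (nat_lit 0) (nat_lit 2387608682) (nat_lit 152) (nat_lit 33009166751) (nat_lit 76) (nat_lit 4787747914) (nat_lit 26) (nat_lit 5) (nat_lit 28) (nat_lit 5) (nat_lit 27) (nat_lit 4) (nat_lit 410) (nat_lit 348) (nat_lit 262)))) (XT.nd (nat_lit 78) (nat_lit 76) (nat_lit 0) (XT.lf (nat_lit 0) (nat_lit 11446868058) (nat_lit 152) (nat_lit 14465276316) (nat_lit 76) (nat_lit 15741239697) (nat_lit 26) (nat_lit 5) (nat_lit 28) (nat_lit 5) (nat_lit 27) (nat_lit 4) (nat_lit 411) (nat_lit 348) (nat_lit 261)) (XT.nd (nat_lit 78) (nat_lit 0) (nat_lit 0) (XT.lf (nat_lit 0) (nat_lit 5142996716) (nat_lit 76) (nat_lit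 15881700829) (nat_lit 152) (nat_lit 22167712303) (nat_lit 25) (nat_lit 5) (nat_lit 26) (nat_lit 5) (nat_lit 27) (nat_lit 4) (nat_lit 412) (nat_lit 348) (nat_lit 260)) (XT.lf (nat_lit 0) (nat_lit 26206907448) (nat_lit 76) (nat_lit 5105076361) (nat_lit 152) (nat_lit 13484877098) (nat_lit 25) (nat_lit 5) (nat_lit 26) (nat_lit 5) (nat_lit 27) (nat_lit 4) (nat_lit 413) (nat_lit 348) (nat_lit 259))))) (XT.nd (nat_lit 234) (nat_lit 228) (nat_lit 0) (XT.nd (nat_lit 78) (nat_lit 76) (nat_lit 0) (XT.lf (nat_lit 0) (nat_lit 1776171788) (nat_lit 76) (nat_lit 40448243285) (nat_lit 76) (nat_lit 4251582567) (nat_lit 24) (nat_lit 4) (nat_lit 25) (nat_lit 5) (nat_lit 25) (nat_lit 4) (nat_lit 414) (nat_lit 348) (nat_lit 258)) (XT.nd (nat_lit 78) (nat_lit 0) (nat_lit 0) (XT.lf (nat_lit 0) (nat_lit 5658957968) (nat_lit 152) (nat_lit 24617415377) (nat_lit 76) (nat_lit 17938980329) (nat_lit 23) (nat_lit 5) (nat_lit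 25) (nat_lit 5) (nat_lit 24) (nat_lit 4) (nat_lit 415) (nat_lit 348) (nat_lit 257)) (XT.lf (nat_lit 0) (nat_lit 15908927856) (nat_lit 152) (nat_lit 3625566150) (nat_lit 76) (nat_lit 30504361292) (nat_lit 23) (nat_lit 5) (nat_lit 25) (nat_lit 5) (nat_lit 24) (nat_lit 4) (nat_lit 416) (nat_lit 348) (nat_lit 256)))) (XT.nd (nat_lit 156) (nat_lit 152) (nat_lit 0) (XT.nd (nat_lit 78) (nat_lit 0) (nat_lit 0) (XT.lf (nat_lit 0) (nat_lit 19000206818) (nat_lit 76) (nat_lit 7955248638) (nat_lit 152) (nat_lit 24983875355) (nat_lit 22) (nat_lit 5) (nat_lit 23) (nat_lit 5) (nat_lit 24) (nat_lit 4) (nat_lit 417) (nat_lit 348) (nat_lit 255)) (XT.lf (nat_lit 0) (nat_lit 38669810699) (nat_lit 152) (nat_lit 11139103647) (nat_lit 0) (nat_lit 4120142378) (nat_lit 22) (nat_lit 5) (nat_lit 24) (nat_lit 4) (nat_lit 22) (nat_lit 4) (nat_lit 418) (nat_lit 348) (nat_lit 254))) (XT.nd (nat_lit 78) (nat_lit 76) (nat_lit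 0) (XT.lf (nat_lit 0) (nat_lit 11981257980) (nat_lit 76) (nat_lit 39294171133) (nat_lit 76) (nat_lit 4727564155) (nat_lit 21) (nat_lit 4) (nat_lit 22) (nat_lit 5) (nat_lit 22) (nat_lit 4) (nat_lit 419) (nat_lit 348) (nat_lit 253)) (XT.lf (nat_lit 0) (nat_lit 6307914568) (nat_lit 152) (nat_lit 21651514166) (nat_lit 76) (nat_lit 30207265625) (nat_lit 20) (nat_lit 5) (nat_lit 22) (nat_lit 5) (nat_lit 21) (nat_lit 4) (nat_lit 420) (nat_lit 348) (nat_lit 252))))))))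
noncomputable def xc119 : XT := (XT.nd (nat_lit 1950) (nat_lit 456) (nat_lit 0) (XT.nd (nat_lit 936) (nat_lit 380) (nat_lit 0) (XT.nd (nat_lit 468) (nat_lit 228) (nat_lit 0) (XT.nd (nat_lit 234) (nat_lit 152) (nat_lit 0) (XT.nd (nat_lit 78) (nat_lit 0) (nat_lit 0) (XT.lf (nat_lit 0) (nat_lit 1795518586) (nat_lit 76) (nat_lit 15957467501) (nat_lit 152) (nat_lit 42680885951) (nat_lit 19) (nat_lit 5) (nat_lit 20) (nat_lit 5) (nat_lit 21) (nat_lit 4) (nat_lit 421) (nat_lit 348) (nat_lit 251)) (XT.nd (nat_lit 78) (nat_lit 0) (nat_lit 0) (XT.lf (nat_lit 0) (nat_lit 27145277931) (nat_lit 76) (nat_lit 2980582104) (nat_lit 152) (nat_lit 32670772444) (nat_lit 19) (nat_lit 5) (nat_lit 20) (nat_lit 5) (nat_lit 21) (nat_lit 4) (nat_lit 422) (nat_lit 348) (nat_lit 250)) (XT.lf (nat_lit 0) (nat_lit 43272826782) (nat_lit 152) (nat_lit 11701887721) (nat_lit 0) (nat_lit 10295045243) (nat_lit 19) (nat_lit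 5) (nat_lit 21) (nat_lit 4) (nat_lit 19) (nat_lit 4) (nat_lit 423) (nat_lit 348) (nat_lit 249)))) (XT.nd (nat_lit 78) (nat_lit 76) (nat_lit 0) (XT.lf (nat_lit 0) (nat_lit 13818781138) (nat_lit 76) (nat_lit 43512733121) (nat_lit 76) (nat_lit 10522311695) (nat_lit 18) (nat_lit 4) (nat_lit 19) (nat_lit 5) (nat_lit 19) (nat_lit 4) (nat_lit 424) (nat_lit 348) (nat_lit 248)) (XT.nd (nat_lit 78) (nat_lit 0) (nat_lit 0) (XT.lf (nat_lit 0) (nat_lit 1668403336) (nat_lit 152) (nat_lit 29582232572) (nat_lit 76) (nat_lit 39305709087) (nat_lit 17) (nat_lit 5) (nat_lit 19) (nat_lit 5) (nat_lit 18) (nat_lit 4) (nat_lit 425) (nat_lit 348) (nat_lit 247)) (XT.lf (nat_lit 0) (nat_lit 14105301729) (nat_lit 152) (nat_lit 4098055616) (nat_lit 76) (nat_lit 55182495519) (nat_lit 17) (nat_lit 5) (nat_lit 19) (nat_lit 5) (nat_lit 18) (nat_lit 4) (nat_lit 426) (nat_lit 348) (nat_lit 246))))) (XT.nd (nat_lit 234) (nat_lit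 152) (nat_lit 0) (XT.nd (nat_lit 78) (nat_lit 0) (nat_lit 0) (XT.lf (nat_lit 0) (nat_lit 23391106940) (nat_lit 76) (nat_lit 4128868626) (nat_lit 152) (nat_lit 48819065020) (nat_lit 16) (nat_lit 5) (nat_lit 17) (nat_lit 5) (nat_lit 18) (nat_lit 4) (nat_lit 427) (nat_lit 348) (nat_lit 245)) (XT.nd (nat_lit 78) (nat_lit 0) (nat_lit 0) (XT.lf (nat_lit 0) (nat_lit 41832953415) (nat_lit 152) (nat_lit 27224738368) (nat_lit 0) (nat_lit 10370818332) (nat_lit 16) (nat_lit 5) (nat_lit 18) (nat_lit 4) (nat_lit 16) (nat_lit 4) (nat_lit 428) (nat_lit 348) (nat_lit 244)) (XT.lf (nat_lit 0) (nat_lit 56920470248) (nat_lit 152) (nat_lit 300136177) (nat_lit 0) (nat_lit 25448903087) (nat_lit 16) (nat_lit 5) (nat_lit 18) (nat_lit 4) (nat_lit 16) (nat_lit 4) (nat_lit 429) (nat_lit 348) (nat_lit 243)))) (XT.nd (nat_lit 78) (nat_lit 76) (nat_lit 0) (XT.lf (nat_lit 0) (nat_lit 28878742441) (nat_lit 76) (nat_lit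 44326121174) (nat_lit 76) (nat_lit 12845571082) (nat_lit 15) (nat_lit 4) (nat_lit 16) (nat_lit 5) (nat_lit 16) (nat_lit 4) (nat_lit 430) (nat_lit 348) (nat_lit 242)) (XT.nd (nat_lit 78) (nat_lit 0) (nat_lit 0) (XT.lf (nat_lit 0) (nat_lit 677370309) (nat_lit 152) (nat_lit 30100496129) (nat_lit 76) (nat_lit 58822151506) (nat_lit 14) (nat_lit 5) (nat_lit 16) (nat_lit 5) (nat_lit 15) (nat_lit 4) (nat_lit 431) (nat_lit 348) (nat_lit 241)) (XT.lf (nat_lit 0) (nat_lit 14436797794) (nat_lit 152) (nat_lit 1901817568) (nat_lit 76) (nat_lit 76978334850) (nat_lit 14) (nat_lit 5) (nat_lit 16) (nat_lit 5) (nat_lit 15) (nat_lit 4) (nat_lit 432) (nat_lit 348) (nat_lit 240)))))) (XT.nd (nat_lit 468) (nat_lit 228) (nat_lit 0) (XT.nd (nat_lit 234) (nat_lit 76) (nat_lit 0) (XT.nd (nat_lit 78) (nat_lit 0) (nat_lit 0) (XT.lf (nat_lit 0) (nat_lit 28607662355) (nat_lit 76) (nat_lit 715593838) (nat_lit 152) (nat_lit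 67874520623) (nat_lit 13) (nat_lit 5) (nat_lit 14) (nat_lit 5) (nat_lit 15) (nat_lit 4) (nat_lit 433) (nat_lit 348) (nat_lit 239)) (XT.nd (nat_lit 78) (nat_lit 0) (nat_lit 0) (XT.lf (nat_lit 0) (nat_lit 45224154401) (nat_lit 152) (nat_lit 40822643269) (nat_lit 0) (nat_lit 15212341904) (nat_lit 13) (nat_lit 5) (nat_lit 15) (nat_lit 4) (nat_lit 13) (nat_lit 4) (nat_lit 434) (nat_lit 348) (nat_lit 238)) (XT.lf (nat_lit 0) (nat_lit 61924626663) (nat_lit 152) (nat_lit 11692607021) (nat_lit 0) (nat_lit 31906110964) (nat_lit 13) (nat_lit 5) (nat_lit 15) (nat_lit 4) (nat_lit 13) (nat_lit 4) (nat_lit 435) (nat_lit 348) (nat_lit 237)))) (XT.nd (nat_lit 78) (nat_lit 0) (nat_lit 0) (XT.lf (nat_lit 0) (nat_lit 19504799325) (nat_lit 76) (nat_lit 60252988837) (nat_lit 76) (nat_lit 30228089137) (nat_lit 12) (nat_lit 4) (nat_lit 13) (nat_lit 5) (nat_lit 13) (nat_lit 4) (nat_lit 436) (nat_lit 348) (nat_lit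 236)) (XT.nd (nat_lit 78) (nat_lit 0) (nat_lit 0) (XT.lf (nat_lit 0) (nat_lit 52654826043) (nat_lit 76) (nat_lit 46019063367) (nat_lit 76) (nat_lit 15988083666) (nat_lit 12) (nat_lit 4) (nat_lit 13) (nat_lit 5) (nat_lit 13) (nat_lit 4) (nat_lit 437) (nat_lit 348) (nat_lit 235)) (XT.lf (nat_lit 0) (nat_lit 87449791374) (nat_lit 76) (nat_lit 31079586933) (nat_lit 76) (nat_lit 1042816754) (nat_lit 12) (nat_lit 4) (nat_lit 13) (nat_lit 5) (nat_lit 13) (nat_lit 4) (nat_lit 438) (nat_lit 348) (nat_lit 234))))) (XT.nd (nat_lit 234) (nat_lit 76) (nat_lit 0) (XT.nd (nat_lit 78) (nat_lit 76) (nat_lit 0) (XT.lf (nat_lit 0) (nat_lit 14174618659) (nat_lit 152) (nat_lit 984316667) (nat_lit 76) (nat_lit 109557867789) (nat_lit 11) (nat_lit 5) (nat_lit 13) (nat_lit 5) (nat_lit 12) (nat_lit 4) (nat_lit 439) (nat_lit 348) (nat_lit 233)) (XT.nd (nat_lit 78) (nat_lit 0) (nat_lit 0) (XT.lf (nat_lit 0) (nat_lit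 30655853022) (nat_lit 152) (nat_lit 97395884558) (nat_lit 0) (nat_lit 2039151066) (nat_lit 10) (nat_lit 5) (nat_lit 12) (nat_lit 4) (nat_lit 10) (nat_lit 4) (nat_lit 440) (nat_lit 348) (nat_lit 232)) (XT.lf (nat_lit 0) (nat_lit 48220699118) (nat_lit 152) (nat_lit 67900768965) (nat_lit 0) (nat_lit 19599233322) (nat_lit 10) (nat_lit 5) (nat_lit 12) (nat_lit 4) (nat_lit 10) (nat_lit 4) (nat_lit 441) (nat_lit 348) (nat_lit 231)))) (XT.nd (nat_lit 156) (nat_lit 76) (nat_lit 0) (XT.nd (nat_lit 78) (nat_lit 0) (nat_lit 0) (XT.lf (nat_lit 0) (nat_lit 66658168206) (nat_lit 152) (nat_lit 36941952571) (nat_lit 0) (nat_lit 38032165419) (nat_lit 10) (nat_lit 5) (nat_lit 12) (nat_lit 4) (nat_lit 10) (nat_lit 4) (nat_lit 442) (nat_lit 348) (nat_lit 230)) (XT.lf (nat_lit 0) (nat_lit 86012159022) (nat_lit 152) (nat_lit 4445723910) (nat_lit 0) (nat_lit 57381835292) (nat_lit 10) (nat_lit 5) (nat_lit 12) (nat_lit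 4) (nat_lit 10) (nat_lit 4) (nat_lit 443) (nat_lit 348) (nat_lit 229))) (XT.nd (nat_lit 78) (nat_lit 0) (nat_lit 0) (XT.lf (nat_lit 0) (nat_lit 30646157419) (nat_lit 76) (nat_lit 76161067481) (nat_lit 76) (nat_lit 47526628566) (nat_lit 9) (nat_lit 4) (nat_lit 10) (nat_lit 5) (nat_lit 10) (nat_lit 4) (nat_lit 444) (nat_lit 348) (nat_lit 228)) (XT.lf (nat_lit 0) (nat_lit 67637112847) (nat_lit 76) (nat_lit 61075213509) (nat_lit 76) (nat_lit 32436855372) (nat_lit 9) (nat_lit 4) (nat_lit 10) (nat_lit 5) (nat_lit 10) (nat_lit 4) (nat_lit 445) (nat_lit 348) (nat_lit 227))))))) (XT.nd (nat_lit 1014) (nat_lit 228) (nat_lit 0) (XT.nd (nat_lit 468) (nat_lit 76) (nat_lit 0) (XT.nd (nat_lit 234) (nat_lit 0) (nat_lit 0) (XT.nd (nat_lit 78) (nat_lit 152) (nat_lit 0) (XT.lf (nat_lit 0) (nat_lit 106468220368) (nat_lit 76) (nat_lit 45239692803) (nat_lit 76) (nat_lit 16597602072) (nat_lit 9) (nat_lit 4) (nat_lit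 10) (nat_lit 5) (nat_lit 10) (nat_lit 4) (nat_lit 446) (nat_lit 348) (nat_lit 226)) (XT.nd (nat_lit 78) (nat_lit 76) (nat_lit 0) (XT.lf (nat_lit 0) (nat_lit 27920657) (nat_lit 152) (nat_lit 28588408235) (nat_lit 76) (nat_lit 147203541492) (nat_lit 8) (nat_lit 5) (nat_lit 10) (nat_lit 5) (nat_lit 9) (nat_lit 4) (nat_lit 447) (nat_lit 348) (nat_lit 225)) (XT.lf (nat_lit 0) (nat_lit 6241944232) (nat_lit 76) (nat_lit 10778043761) (nat_lit 152) (nat_lit 166671698165) (nat_lit 7) (nat_lit 5) (nat_lit 8) (nat_lit 5) (nat_lit 9) (nat_lit 4) (nat_lit 448) (nat_lit 348) (nat_lit 224)))) (XT.nd (nat_lit 78) (nat_lit 0) (nat_lit 0) (XT.lf (nat_lit 0) (nat_lit 35473522756) (nat_lit 152) (nat_lit 148267316686) (nat_lit 0) (nat_lit 8185660367) (nat_lit 7) (nat_lit 5) (nat_lit 9) (nat_lit 4) (nat_lit 7) (nat_lit 4) (nat_lit 449) (nat_lit 348) (nat_lit 223)) (XT.nd (nat_lit 78) (nat_lit 0) (nat_lit 0) (XT.lf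 (nat_lit 0) (nat_lit 55022245473) (nat_lit 152) (nat_lit 117810724887) (nat_lit 0) (nat_lit 27731458499) (nat_lit 7) (nat_lit 5) (nat_lit 9) (nat_lit 4) (nat_lit 7) (nat_lit 4) (nat_lit 450) (nat_lit 348) (nat_lit 222)) (XT.lf (nat_lit 0) (nat_lit 75544425253) (nat_lit 152) (nat_lit 85839175366) (nat_lit 0) (nat_lit 48250852960) (nat_lit 7) (nat_lit 5) (nat_lit 9) (nat_lit 4) (nat_lit 7) (nat_lit 4) (nat_lit 451) (nat_lit 348) (nat_lit 221))))) (XT.nd (nat_lit 234) (nat_lit 0) (nat_lit 0) (XT.nd (nat_lit 78) (nat_lit 76) (nat_lit 0) (XT.lf (nat_lit 0) (nat_lit 97088924430) (nat_lit 152) (nat_lit 52276545386) (nat_lit 0) (nat_lit 69792699452) (nat_lit 7) (nat_lit 5) (nat_lit 9) (nat_lit 4) (nat_lit 7) (nat_lit 4) (nat_lit 452) (nat_lit 348) (nat_lit 220)) (XT.nd (nat_lit 78) (nat_lit 76) (nat_lit 0) (XT.lf (nat_lit 0) (nat_lit 119707039429) (nat_lit 152) (nat_lit 17042923922) (nat_lit 0)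 (nat_lit 92408288085) (nat_lit 7) (nat_lit 5) (nat_lit 9) (nat_lit 4) (nat_lit 7) (nat_lit 4) (nat_lit 453) (nat_lit 348) (nat_lit 219)) (XT.lf (nat_lit 0) (nat_lit 20605069504) (nat_lit 76) (nat_lit 123169256282) (nat_lit 76) (nat_lit 95868098875) (nat_lit 6) (nat_lit 4) (nat_lit 7) (nat_lit 5) (nat_lit 7) (nat_lit 4) (nat_lit 454) (nat_lit 348) (nat_lit 218)))) (XT.nd (nat_lit 156) (nat_lit 0) (nat_lit 0) (XT.nd (nat_lit 78) (nat_lit 0) (nat_lit 0) (XT.lf (nat_lit 0) (nat_lit 60720464099) (nat_lit 76) (nat_lit 108609764477) (nat_lit 76) (nat_lit 81306315581) (nat_lit 6) (nat_lit 4) (nat_lit 7) (nat_lit 5) (nat_lit 7) (nat_lit 4) (nat_lit 455) (nat_lit 348) (nat_lit 217)) (XT.lf (nat_lit 0) (nat_lit 102835256675) (nat_lit 76) (nat_lit 93325452643) (nat_lit 76) (nat_lit 66019821378) (nat_lit 6) (nat_lit 4) (nat_lit 7) (nat_lit 5) (nat_lit 7) (nat_lit 4) (nat_lit 456) (nat_lit 348) (nat_lit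 216))) (XT.nd (nat_lit 78) (nat_lit 0) (nat_lit 0) (XT.lf (nat_lit 0) (nat_lit 147049720545) (nat_lit 76) (nat_lit 77279929563) (nat_lit 76) (nat_lit 49972219850) (nat_lit 6) (nat_lit 4) (nat_lit 7) (nat_lit 5) (nat_lit 7) (nat_lit 4) (nat_lit 457) (nat_lit 348) (nat_lit 215)) (XT.lf (nat_lit 0) (nat_lit 193469128244) (nat_lit 76) (nat_lit 60434991609) (nat_lit 76) (nat_lit 33125302422) (nat_lit 6) (nat_lit 4) (nat_lit 7) (nat_lit 5) (nat_lit 7) (nat_lit 4) (nat_lit 458) (nat_lit 348) (nat_lit 214)))))) (XT.nd (nat_lit 468) (nat_lit 76) (nat_lit 0) (XT.nd (nat_lit 234) (nat_lit 0) (nat_lit 0) (XT.nd (nat_lit 78) (nat_lit 152) (nat_lit 0) (XT.lf (nat_lit 0) (nat_lit 242204002171) (nat_lit 76) (nat_lit 42750531786) (nat_lit 76) (nat_lit 15438957386) (nat_lit 6) (nat_lit 4) (nat_lit 7) (nat_lit 5) (nat_lit 7) (nat_lit 4) (nat_lit 459) (nat_lit 348) (nat_lit 213)) (XT.nd (nat_lit 78) (nat_lit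 76) (nat_lit 0) (XT.lf (nat_lit 0) (nat_lit 3028780443) (nat_lit 152) (nat_lit 21104369932) (nat_lit 76) (nat_lit 290290303433) (nat_lit 5) (nat_lit 5) (nat_lit 7) (nat_lit 5) (nat_lit 6) (nat_lit 4) (nat_lit 460) (nat_lit 348) (nat_lit 212)) (XT.lf (nat_lit 0) (nat_lit 18157999690) (nat_lit 76) (nat_lit 4023990298) (nat_lit 152) (nat_lit 306946222930) (nat_lit 4) (nat_lit 5) (nat_lit 5) (nat_lit 5) (nat_lit 6) (nat_lit 4) (nat_lit 461) (nat_lit 348) (nat_lit 211)))) (XT.nd (nat_lit 78) (nat_lit 0) (nat_lit 0) (XT.lf (nat_lit 0) (nat_lit 42920407658) (nat_lit 152) (nat_lit 284711930101) (nat_lit 0) (nat_lit 16904494988) (nat_lit 4) (nat_lit 5) (nat_lit 6) (nat_lit 4) (nat_lit 4) (nat_lit 4) (nat_lit 462) (nat_lit 348) (nat_lit 210)) (XT.nd (nat_lit 78) (nat_lit 0) (nat_lit 0) (XT.lf (nat_lit 0) (nat_lit 64759278133) (nat_lit 152) (nat_lit 257211540629) (nat_lit 0) (nat_lit 38741888349) (nat_lit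 4) (nat_lit 5) (nat_lit 6) (nat_lit 4) (nat_lit 4) (nat_lit 4) (nat_lit 463) (nat_lit 348) (nat_lit 209)) (XT.lf (nat_lit 0) (nat_lit 87687772958) (nat_lit 152) (nat_lit 228340741929) (nat_lit 0) (nat_lit 61668976399) (nat_lit 4) (nat_lit 5) (nat_lit 6) (nat_lit 4) (nat_lit 4) (nat_lit 4) (nat_lit 464) (nat_lit 348) (nat_lit 208))))) (XT.nd (nat_lit 234) (nat_lit 76) (nat_lit 0) (XT.nd (nat_lit 78) (nat_lit 0) (nat_lit 0) (XT.lf (nat_lit 0) (nat_lit 111760483787) (nat_lit 152) (nat_lit 198030794005) (nat_lit 0) (nat_lit 85740347442) (nat_lit 4) (nat_lit 5) (nat_lit 6) (nat_lit 4) (nat_lit 4) (nat_lit 4) (nat_lit 465) (nat_lit 348) (nat_lit 207)) (XT.nd (nat_lit 78) (nat_lit 0) (nat_lit 0) (XT.lf (nat_lit 0) (nat_lit 137034726599) (nat_lit 152) (nat_lit 166209530313) (nat_lit 0) (nat_lit 111013314266) (nat_lit 4) (nat_lit 5) (nat_lit 6) (nat_lit 4) (nat_lit 4) (nat_lit 4) (nat_lit 466) (nat_lit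 348) (nat_lit 206)) (XT.lf (nat_lit 0) (nat_lit 163570678161) (nat_lit 152) (nat_lit 132801185939) (nat_lit 0) (nat_lit 137548050603) (nat_lit 4) (nat_lit 5) (nat_lit 6) (nat_lit 4) (nat_lit 4) (nat_lit 4) (nat_lit 467) (nat_lit 348) (nat_lit 205)))) (XT.nd (nat_lit 156) (nat_lit 76) (nat_lit 0) (XT.nd (nat_lit 78) (nat_lit 0) (nat_lit 0) (XT.lf (nat_lit 0) (nat_lit 191431519311) (nat_lit 152) (nat_lit 97726217208) (nat_lit 0) (nat_lit 165407734396) (nat_lit 4) (nat_lit 5) (nat_lit 6) (nat_lit 4) (nat_lit 4) (nat_lit 4) (nat_lit 468) (nat_lit 348) (nat_lit 204)) (XT.lf (nat_lit 0) (nat_lit 220683585385) (nat_lit 152) (nat_lit 60901112288) (nat_lit 0) (nat_lit 194658698225) (nat_lit 4) (nat_lit 5) (nat_lit 6) (nat_lit 4) (nat_lit 4) (nat_lit 4) (nat_lit 469) (nat_lit 348) (nat_lit 203))) (XT.nd (nat_lit 78) (nat_lit 76) (nat_lit 0) (XT.lf (nat_lit 0) (nat_lit 251396524159) (nat_lit 152) (nat_lit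 22238192359) (nat_lit 0) (nat_lit 225370587242) (nat_lit 4) (nat_lit 5) (nat_lit 6) (nat_lit 4) (nat_lit 4) (nat_lit 4) (nat_lit 470) (nat_lit 348) (nat_lit 202)) (XT.lf (nat_lit 0) (nat_lit 18961483024) (nat_lit 76) (nat_lit 264978020544) (nat_lit 76) (nat_lit 238951083857) (nat_lit 3) (nat_lit 4) (nat_lit 4) (nat_lit 5) (nat_lit 4) (nat_lit 4) (nat_lit 471) (nat_lit 348) (nat_lit 201))))))))
noncomputable def xc120 : XT := (XT.nd (nat_lit 44928) (nat_lit 0) (nat_lit 3268) (XT.nd (nat_lit 43914) (nat_lit 0) (nat_lit 7068) (XT.nd (nat_lit 468) (nat_lit 0) (nat_lit 0) (XT.nd (nat_lit 234) (nat_lit 0) (nat_lit 0) (XT.nd (nat_lit 78) (nat_lit 0) (nat_lit 0) (XT.lf (nat_lit 0) (nat_lit 62989978431) (nat_lit 76) (nat_lit 255494648027) (nat_lit 76) (nat_lit 229466759180) (nat_lit 3) (nat_lit 4) (nat_lit 4) (nat_lit 5) (nat_lit 4) (nat_lit 4) (nat_lit 472) (nat_lit 348) (nat_lit 200)) (XT.nd (nat_lit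 78) (nat_lit 0) (nat_lit 0) (XT.lf (nat_lit 0) (nat_lit 109216828541) (nat_lit 76) (nat_lit 245538634059) (nat_lit 76) (nat_lit 219509838392) (nat_lit 3) (nat_lit 4) (nat_lit 4) (nat_lit 5) (nat_lit 4) (nat_lit 4) (nat_lit 473) (nat_lit 348) (nat_lit 199)) (XT.lf (nat_lit 0) (nat_lit 157752097283) (nat_lit 76) (nat_lit 235086273844) (nat_lit 76) (nat_lit 209056614539) (nat_lit 3) (nat_lit 4) (nat_lit 4) (nat_lit 5) (nat_lit 4) (nat_lit 4) (nat_lit 474) (nat_lit 348) (nat_lit 198)))) (XT.nd (nat_lit 78) (nat_lit 0) (nat_lit 0) (XT.lf (nat_lit 0) (nat_lit 208711344821) (nat_lit 76) (nat_lit 224112680811) (nat_lit 76) (nat_lit 198082198993) (nat_lit 3) (nat_lit 4) (nat_lit 4) (nat_lit 5) (nat_lit 4) (nat_lit 4) (nat_lit 475) (nat_lit 348) (nat_lit 197)) (XT.nd (nat_lit 78) (nat_lit 0) (nat_lit 0) (XT.lf (nat_lit 0) (nat_lit 262215902698) (nat_lit 76) (nat_lit 212591727356) (nat_lit 76) (nat_lit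 186560462193) (nat_lit 3) (nat_lit 4) (nat_lit 4) (nat_lit 5) (nat_lit 4) (nat_lit 4) (nat_lit 476) (nat_lit 348) (nat_lit 196)) (XT.lf (nat_lit 0) (nat_lit 318393162716) (nat_lit 76) (nat_lit 200495982638) (nat_lit 76) (nat_lit 174463971433) (nat_lit 3) (nat_lit 4) (nat_lit 4) (nat_lit 5) (nat_lit 4) (nat_lit 4) (nat_lit 477) (nat_lit 348) (nat_lit 195))))) (XT.nd (nat_lit 43212) (nat_lit 0) (nat_lit 10336) (XT.nd (nat_lit 43056) (nat_lit 0) (nat_lit 10336) (XT.lf (nat_lit 0) (nat_lit 377376880258) (nat_lit 76) (nat_lit 187796647266) (nat_lit 76) (nat_lit 161763925543) (nat_lit 3) (nat_lit 4) (nat_lit 4) (nat_lit 5) (nat_lit 4) (nat_lit 4) (nat_lit 478) (nat_lit 348) (nat_lit 194)) (XT.nd (nat_lit 78) (nat_lit 0) (nat_lit 0) (XT.lf (nat_lit 0) (nat_lit 123147917) (nat_lit 0) (nat_lit 123147917) (nat_lit 532) (nat_lit 3445788958) (nat_lit 139) (nat_lit 5) (nat_lit 139) (nat_lit 3) (nat_lit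 146) (nat_lit 3) (nat_lit 349) (nat_lit 349) (nat_lit 322)) (XT.lf (nat_lit 0) (nat_lit 2028510617) (nat_lit 532) (nat_lit 3569319036) (nat_lit 608) (nat_lit 1893458391) (nat_lit 139) (nat_lit 5) (nat_lit 146) (nat_lit 3) (nat_lit 147) (nat_lit 5) (nat_lit 350) (nat_lit 349) (nat_lit 321)))) (XT.nd (nat_lit 78) (nat_lit 0) (nat_lit 0) (XT.lf (nat_lit 76) (nat_lit 124205328) (nat_lit 0) (nat_lit 3428168331) (nat_lit 608) (nat_lit 4055914932) (nat_lit 140) (nat_lit 5) (nat_lit 139) (nat_lit 5) (nat_lit 147) (nat_lit 5) (nat_lit 351) (nat_lit 349) (nat_lit 320)) (XT.nd (nat_lit 78) (nat_lit 0) (nat_lit 76) (XT.lf (nat_lit 76) (nat_lit 4073790036) (nat_lit 0) (nat_lit 1047954722) (nat_lit 608) (nat_lit 2611008257) (nat_lit 140) (nat_lit 5) (nat_lit 139) (nat_lit 5) (nat_lit 147) (nat_lit 5) (nat_lit 352) (nat_lit 349) (nat_lit 319)) (XT.lf (nat_lit 76) (nat_lit 288981811) (nat_lit 0) (nat_lit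 6421553173) (nat_lit 608) (nat_lit 1155933949) (nat_lit 141) (nat_lit 5) (nat_lit 140) (nat_lit 5) (nat_lit 148) (nat_lit 5) (nat_lit 353) (nat_lit 349) (nat_lit 318)))))) (XT.nd (nat_lit 468) (nat_lit 2280) (nat_lit 0) (XT.nd (nat_lit 234) (nat_lit 456) (nat_lit 0) (XT.nd (nat_lit 78) (nat_lit 0) (nat_lit 0) (XT.lf (nat_lit 0) (nat_lit 355763879) (nat_lit 608) (nat_lit 3523413219) (nat_lit 684) (nat_lit 4127683355) (nat_lit 132) (nat_lit 5) (nat_lit 140) (nat_lit 5) (nat_lit 141) (nat_lit 5) (nat_lit 354) (nat_lit 349) (nat_lit 317)) (XT.nd (nat_lit 78) (nat_lit 0) (nat_lit 76) (XT.lf (nat_lit 76) (nat_lit 681961750) (nat_lit 0) (nat_lit 1152514748) (nat_lit 684) (nat_lit 6322399199) (nat_lit 133) (nat_lit 5) (nat_lit 132) (nat_lit 5) (nat_lit 141) (nat_lit 5) (nat_lit 355) (nat_lit 349) (nat_lit 316)) (XT.lf (nat_lit 0) (nat_lit 3397476243) (nat_lit 608) (nat_lit 3176871302) (nat_lit 684)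 (nat_lit 1739588949) (nat_lit 133) (nat_lit 5) (nat_lit 141) (nat_lit 5) (nat_lit 142) (nat_lit 5) (nat_lit 356) (nat_lit 349) (nat_lit 315)))) (XT.nd (nat_lit 78) (nat_lit 532) (nat_lit 0) (XT.lf (nat_lit 76) (nat_lit 1303952565) (nat_lit 0) (nat_lit 3700589428) (nat_lit 684) (nat_lit 3476071931) (nat_lit 134) (nat_lit 5) (nat_lit 133) (nat_lit 5) (nat_lit 142) (nat_lit 5) (nat_lit 357) (nat_lit 349) (nat_lit 314)) (XT.nd (nat_lit 78) (nat_lit 532) (nat_lit 0) (XT.lf (nat_lit 76) (nat_lit 6065036055) (nat_lit 0) (nat_lit 610038733) (nat_lit 684) (nat_lit 1981451315) (nat_lit 134) (nat_lit 5) (nat_lit 133) (nat_lit 5) (nat_lit 142) (nat_lit 5) (nat_lit 358) (nat_lit 349) (nat_lit 313)) (XT.lf (nat_lit 0) (nat_lit 2196948194) (nat_lit 608) (nat_lit 6240551921) (nat_lit 684) (nat_lit 403369352) (nat_lit 126) (nat_lit 5) (nat_lit 134) (nat_lit 5) (nat_lit 135) (nat_lit 5) (nat_lit 359) (nat_lit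 349) (nat_lit 312))))) (XT.nd (nat_lit 234) (nat_lit 1520) (nat_lit 0) (XT.nd (nat_lit 78) (nat_lit 684) (nat_lit 0) (XT.lf (nat_lit 0) (nat_lit 1202262255) (nat_lit 684) (nat_lit 1804252496) (nat_lit 76) (nat_lit 6027547034) (nat_lit 125) (nat_lit 5) (nat_lit 134) (nat_lit 5) (nat_lit 126) (nat_lit 5) (nat_lit 360) (nat_lit 349) (nat_lit 311)) (XT.nd (nat_lit 78) (nat_lit 0) (nat_lit 0) (XT.lf (nat_lit 0) (nat_lit 2870977034) (nat_lit 760) (nat_lit 5921003097) (nat_lit 76) (nat_lit 444831622) (nat_lit 116) (nat_lit 5) (nat_lit 126) (nat_lit 5) (nat_lit 117) (nat_lit 5) (nat_lit 361) (nat_lit 349) (nat_lit 310)) (XT.lf (nat_lit 0) (nat_lit 4643045483) (nat_lit 760) (nat_lit 799582005) (nat_lit 76) (nat_lit 4006120154) (nat_lit 116) (nat_lit 5) (nat_lit 126) (nat_lit 5) (nat_lit 117) (nat_lit 5) (nat_lit 362) (nat_lit 349) (nat_lit 309)))) (XT.nd (nat_lit 156) (nat_lit 380) (nat_lit 0) (XT.nd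 (nat_lit 78) (nat_lit 380) (nat_lit 0) (XT.lf (nat_lit 0) (nat_lit 4674046950) (nat_lit 760) (nat_lit 1845096803) (nat_lit 836) (nat_lit 3151407462) (nat_lit 106) (nat_lit 5) (nat_lit 116) (nat_lit 5) (nat_lit 117) (nat_lit 5) (nat_lit 363) (nat_lit 349) (nat_lit 308)) (XT.lf (nat_lit 0) (nat_lit 475715667) (nat_lit 380) (nat_lit 8009108516) (nat_lit 456) (nat_lit 1418872122) (nat_lit 101) (nat_lit 5) (nat_lit 106) (nat_lit 5) (nat_lit 107) (nat_lit 5) (nat_lit 364) (nat_lit 349) (nat_lit 307))) (XT.nd (nat_lit 78) (nat_lit 304) (nat_lit 0) (XT.lf (nat_lit 0) (nat_lit 449024900) (nat_lit 456) (nat_lit 3843557327) (nat_lit 76) (nat_lit 5852563068) (nat_lit 100) (nat_lit 5) (nat_lit 106) (nat_lit 5) (nat_lit 101) (nat_lit 5) (nat_lit 365) (nat_lit 349) (nat_lit 306)) (XT.lf (nat_lit 0) (nat_lit 2007341844) (nat_lit 304) (nat_lit 334530618) (nat_lit 380) (nat_lit 8056704035) (nat_lit 96) (nat_lit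 5) (nat_lit 100) (nat_lit 5) (nat_lit 101) (nat_lit 5) (nat_lit 366) (nat_lit 349) (nat_lit 305))))))) (XT.nd (nat_lit 1014) (nat_lit 1672) (nat_lit 0) (XT.nd (nat_lit 468) (nat_lit 1064) (nat_lit 0) (XT.nd (nat_lit 234) (nat_lit 684) (nat_lit 0) (XT.nd (nat_lit 78) (nat_lit 380) (nat_lit 0) (XT.lf (nat_lit 0) (nat_lit 4404701822) (nat_lit 380) (nat_lit 2493312734) (nat_lit 76) (nat_lit 3762930804) (nat_lit 96) (nat_lit 5) (nat_lit 101) (nat_lit 5) (nat_lit 97) (nat_lit 5) (nat_lit 367) (nat_lit 349) (nat_lit 304)) (XT.nd (nat_lit 78) (nat_lit 0) (nat_lit 0) (XT.lf (nat_lit 0) (nat_lit 3761671991) (nat_lit 380) (nat_lit 2825135670) (nat_lit 456) (nat_lit 4348849751) (nat_lit 91) (nat_lit 5) (nat_lit 96) (nat_lit 5) (nat_lit 97) (nat_lit 5) (nat_lit 368) (nat_lit 349) (nat_lit 303)) (XT.lf (nat_lit 0) (nat_lit 8896913939) (nat_lit 456) (nat_lit 883550854) (nat_lit 76) (nat_lit 1442725516)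 (nat_lit 91) (nat_lit 5) (nat_lit 97) (nat_lit 5) (nat_lit 92) (nat_lit 5) (nat_lit 369) (nat_lit 349) (nat_lit 302)))) (XT.nd (nat_lit 78) (nat_lit 380) (nat_lit 0) (XT.lf (nat_lit 0) (nat_lit 5809436900) (nat_lit 304) (nat_lit 5605644154) (nat_lit 380) (nat_lit 105419589) (nat_lit 87) (nat_lit 5) (nat_lit 91) (nat_lit 5) (nat_lit 92) (nat_lit 5) (nat_lit 370) (nat_lit 349) (nat_lit 301)) (XT.nd (nat_lit 78) (nat_lit 0) (nat_lit 0) (XT.lf (nat_lit 0) (nat_lit 979940565) (nat_lit 304) (nat_lit 1161917852) (nat_lit 380) (nat_lit 9689773928) (nat_lit 82) (nat_lit 5) (nat_lit 86) (nat_lit 5) (nat_lit 87) (nat_lit 5) (nat_lit 371) (nat_lit 349) (nat_lit 300)) (XT.lf (nat_lit 0) (nat_lit 4608250257) (nat_lit 380) (nat_lit 4061146277) (nat_lit 76) (nat_lit 3483347732) (nat_lit 82) (nat_lit 5) (nat_lit 87) (nat_lit 5) (nat_lit 83) (nat_lit 5) (nat_lit 372) (nat_lit 349) (nat_lit 299))))) (XT.nd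 (nat_lit 234) (nat_lit 532) (nat_lit 0) (XT.nd (nat_lit 78) (nat_lit 304) (nat_lit 0) (XT.lf (nat_lit 0) (nat_lit 3098171881) (nat_lit 228) (nat_lit 4126523402) (nat_lit 304) (nat_lit 5263903325) (nat_lit 79) (nat_lit 5) (nat_lit 82) (nat_lit 5) (nat_lit 83) (nat_lit 5) (nat_lit 373) (nat_lit 349) (nat_lit 298)) (XT.nd (nat_lit 78) (nat_lit 304) (nat_lit 0) (XT.lf (nat_lit 0) (nat_lit 10012220697) (nat_lit 304) (nat_lit 2144413081) (nat_lit 76) (nat_lit 682621366) (nat_lit 79) (nat_lit 5) (nat_lit 83) (nat_lit 5) (nat_lit 80) (nat_lit 5) (nat_lit 374) (nat_lit 349) (nat_lit 297)) (XT.lf (nat_lit 0) (nat_lit 5523632801) (nat_lit 304) (nat_lit 7531573489) (nat_lit 380) (nat_lit 146455341) (nat_lit 75) (nat_lit 5) (nat_lit 79) (nat_lit 5) (nat_lit 80) (nat_lit 5) (nat_lit 375) (nat_lit 349) (nat_lit 296)))) (XT.nd (nat_lit 156) (nat_lit 228) (nat_lit 0) (XT.nd (nat_lit 78) (nat_lit 228) (nat_lit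 0) (XT.lf (nat_lit 0) (nat_lit 2582282636) (nat_lit 380) (nat_lit 22964897) (nat_lit 76) (nat_lit 10974901006) (nat_lit 74) (nat_lit 5) (nat_lit 79) (nat_lit 5) (nat_lit 75) (nat_lit 5) (nat_lit 376) (nat_lit 349) (nat_lit 295)) (XT.lf (nat_lit 0) (nat_lit 5577442302) (nat_lit 304) (nat_lit 5786545233) (nat_lit 76) (nat_lit 2606725295) (nat_lit 71) (nat_lit 5) (nat_lit 75) (nat_lit 5) (nat_lit 72) (nat_lit 5) (nat_lit 377) (nat_lit 349) (nat_lit 294))) (XT.nd (nat_lit 78) (nat_lit 0) (nat_lit 0) (XT.lf (nat_lit 0) (nat_lit 2407725365) (nat_lit 228) (nat_lit 6360502964) (nat_lit 304) (nat_lit 5610301127) (nat_lit 68) (nat_lit 5) (nat_lit 71) (nat_lit 5) (nat_lit 72) (nat_lit 5) (nat_lit 378) (nat_lit 349) (nat_lit 293)) (XT.lf (nat_lit 0) (nat_lit 11165094496) (nat_lit 228) (nat_lit 1017546533) (nat_lit 304) (nat_lit 2620908220) (nat_lit 68) (nat_lit 5) (nat_lit 71) (nat_lit 5) (nat_lit 72)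 (nat_lit 5) (nat_lit 379) (nat_lit 349) (nat_lit 292)))))) (XT.nd (nat_lit 468) (nat_lit 684) (nat_lit 0) (XT.nd (nat_lit 234) (nat_lit 456) (nat_lit 0) (XT.nd (nat_lit 78) (nat_lit 228) (nat_lit 0) (XT.lf (nat_lit 0) (nat_lit 623046784) (nat_lit 304) (nat_lit 10096703971) (nat_lit 76) (nat_lit 4523596581) (nat_lit 64) (nat_lit 5) (nat_lit 68) (nat_lit 5) (nat_lit 65) (nat_lit 5) (nat_lit 380) (nat_lit 349) (nat_lit 291)) (XT.nd (nat_lit 78) (nat_lit 228) (nat_lit 0) (XT.lf (nat_lit 0) (nat_lit 3988228773) (nat_lit 304) (nat_lit 1312399133) (nat_lit 76) (nat_lit 10400018117) (nat_lit 64) (nat_lit 5) (nat_lit 68) (nat_lit 5) (nat_lit 65) (nat_lit 5) (nat_lit 381) (nat_lit 349) (nat_lit 290)) (XT.lf (nat_lit 0) (nat_lit 7625818951) (nat_lit 304) (nat_lit 8057499910) (nat_lit 76) (nat_lit 492297073) (nat_lit 61) (nat_lit 5) (nat_lit 65) (nat_lit 5) (nat_lit 62) (nat_lit 5) (nat_lit 382) (nat_lit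 349) (nat_lit 289)))) (XT.nd (nat_lit 78) (nat_lit 304) (nat_lit 0) (XT.lf (nat_lit 0) (nat_lit 1301565943) (nat_lit 152) (nat_lit 10243413763) (nat_lit 228) (nat_lit 5124383168) (nat_lit 59) (nat_lit 5) (nat_lit 61) (nat_lit 5) (nat_lit 62) (nat_lit 5) (nat_lit 383) (nat_lit 349) (nat_lit 288)) (XT.nd (nat_lit 78) (nat_lit 304) (nat_lit 0) (XT.lf (nat_lit 0) (nat_lit 11363724583) (nat_lit 152) (nat_lit 4403453322) (nat_lit 228) (nat_lit 1415277750) (nat_lit 59) (nat_lit 5) (nat_lit 61) (nat_lit 5) (nat_lit 62) (nat_lit 5) (nat_lit 384) (nat_lit 349) (nat_lit 287)) (XT.lf (nat_lit 0) (nat_lit 2466502128) (nat_lit 304) (nat_lit 13483787393) (nat_lit 76) (nat_lit 1765660847) (nat_lit 55) (nat_lit 5) (nat_lit 59) (nat_lit 5) (nat_lit 56) (nat_lit 5) (nat_lit 385) (nat_lit 349) (nat_lit 286))))) (XT.nd (nat_lit 234) (nat_lit 532) (nat_lit 0) (XT.nd (nat_lit 78) (nat_lit 152) (nat_lit 0) (XT.lf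 (nat_lit 0) (nat_lit 6639159190) (nat_lit 304) (nat_lit 3424473943) (nat_lit 76) (nat_lit 8204119846) (nat_lit 55) (nat_lit 5) (nat_lit 59) (nat_lit 5) (nat_lit 56) (nat_lit 5) (nat_lit 386) (nat_lit 349) (nat_lit 285)) (XT.nd (nat_lit 78) (nat_lit 0) (nat_lit 0) (XT.lf (nat_lit 0) (nat_lit 7330629467) (nat_lit 152) (nat_lit 3777608982) (nat_lit 228) (nat_lit 7734528060) (nat_lit 53) (nat_lit 5) (nat_lit 55) (nat_lit 5) (nat_lit 56) (nat_lit 5) (nat_lit 387) (nat_lit 349) (nat_lit 284)) (XT.lf (nat_lit 0) (nat_lit 15877517604) (nat_lit 228) (nat_lit 788477445) (nat_lit 76) (nat_lit 2776708136) (nat_lit 53) (nat_lit 5) (nat_lit 56) (nat_lit 5) (nat_lit 54) (nat_lit 5) (nat_lit 388) (nat_lit 349) (nat_lit 283)))) (XT.nd (nat_lit 156) (nat_lit 152) (nat_lit 0) (XT.nd (nat_lit 78) (nat_lit 152) (nat_lit 0) (XT.lf (nat_lit 0) (nat_lit 994107176) (nat_lit 228) (nat_lit 9366374731) (nat_lit 76)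 (nat_lit 9701154670) (nat_lit 50) (nat_lit 5) (nat_lit 53) (nat_lit 5) (nat_lit 51) (nat_lit 5) (nat_lit 389) (nat_lit 349) (nat_lit 282)) (XT.lf (nat_lit 0) (nat_lit 2035832498) (nat_lit 152) (nat_lit 3646220863) (nat_lit 228) (nat_lit 15025524310) (nat_lit 48) (nat_lit 5) (nat_lit 50) (nat_lit 5) (nat_lit 51) (nat_lit 5) (nat_lit 390) (nat_lit 349) (nat_lit 281))) (XT.nd (nat_lit 78) (nat_lit 152) (nat_lit 0) (XT.lf (nat_lit 0) (nat_lit 10794231068) (nat_lit 228) (nat_lit 7141003673) (nat_lit 76) (nat_lit 3441097403) (nat_lit 48) (nat_lit 5) (nat_lit 51) (nat_lit 5) (nat_lit 49) (nat_lit 5) (nat_lit 391) (nat_lit 349) (nat_lit 280)) (XT.lf (nat_lit 0) (nat_lit 5028682407) (nat_lit 152) (nat_lit 11248257003) (nat_lit 228) (nat_lit 5795846497) (nat_lit 46) (nat_lit 5) (nat_lit 48) (nat_lit 5) (nat_lit 49) (nat_lit 5) (nat_lit 392) (nat_lit 349) (nat_lit 279))))))))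
noncomputable def xc121 : XT := (XT.nd (nat_lit 1950) (nat_lit 988) (nat_lit 0) (XT.nd (nat_lit 936) (nat_lit 760) (nat_lit 0) (XT.nd (nat_lit 468) (nat_lit 456) (nat_lit 0) (XT.nd (nat_lit 234) (nat_lit 304) (nat_lit 0) (XT.nd (nat_lit 78) (nat_lit 228) (nat_lit 0) (XT.lf (nat_lit 0) (nat_lit 18016629975) (nat_lit 152) (nat_lit 4115242429) (nat_lit 228) (nat_lit 667292778) (nat_lit 46) (nat_lit 5) (nat_lit 48) (nat_lit 5) (nat_lit 49) (nat_lit 5) (nat_lit 393) (nat_lit 349) (nat_lit 278)) (XT.nd (nat_lit 78) (nat_lit 0) (nat_lit 0) (XT.lf (nat_lit 0) (nat_lit 4729071417) (nat_lit 228) (nat_lit 15363333633) (nat_lit 76) (nat_lit 3457663251) (nat_lit 43) (nat_lit 5) (nat_lit 46) (nat_lit 5) (nat_lit 44) (nat_lit 5) (nat_lit 394) (nat_lit 349) (nat_lit 277)) (XT.lf (nat_lit 0) (nat_lit 10500743755) (nat_lit 228) (nat_lit 2481013008) (nat_lit 76) (nat_lit 11349823380) (nat_lit 43) (nat_lit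 5) (nat_lit 46) (nat_lit 5) (nat_lit 44) (nat_lit 5) (nat_lit 395) (nat_lit 349) (nat_lit 276)))) (XT.nd (nat_lit 78) (nat_lit 152) (nat_lit 0) (XT.lf (nat_lit 0) (nat_lit 11373914192) (nat_lit 152) (nat_lit 5343835645) (nat_lit 228) (nat_lit 8426586228) (nat_lit 41) (nat_lit 5) (nat_lit 43) (nat_lit 5) (nat_lit 44) (nat_lit 5) (nat_lit 396) (nat_lit 349) (nat_lit 275)) (XT.nd (nat_lit 78) (nat_lit 152) (nat_lit 0) (XT.lf (nat_lit 0) (nat_lit 23309481243) (nat_lit 228) (nat_lit 66143863) (nat_lit 76) (nat_lit 2618916637) (nat_lit 41) (nat_lit 5) (nat_lit 44) (nat_lit 5) (nat_lit 42) (nat_lit 4) (nat_lit 397) (nat_lit 349) (nat_lit 274)) (XT.lf (nat_lit 0) (nat_lit 3538425574) (nat_lit 152) (nat_lit 12258233197) (nat_lit 76) (nat_lit 11072899098) (nat_lit 39) (nat_lit 5) (nat_lit 41) (nat_lit 5) (nat_lit 40) (nat_lit 5) (nat_lit 398) (nat_lit 349) (nat_lit 273))))) (XT.nd (nat_lit 234) (nat_lit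 228) (nat_lit 0) (XT.nd (nat_lit 78) (nat_lit 76) (nat_lit 0) (XT.lf (nat_lit 0) (nat_lit 2229860256) (nat_lit 152) (nat_lit 7769405275) (nat_lit 228) (nat_lit 17786042572) (nat_lit 37) (nat_lit 5) (nat_lit 39) (nat_lit 5) (nat_lit 40) (nat_lit 5) (nat_lit 399) (nat_lit 349) (nat_lit 272)) (XT.nd (nat_lit 78) (nat_lit 76) (nat_lit 0) (XT.lf (nat_lit 0) (nat_lit 16985083677) (nat_lit 228) (nat_lit 10916576457) (nat_lit 76) (nat_lit 835093604) (nat_lit 37) (nat_lit 5) (nat_lit 40) (nat_lit 5) (nat_lit 38) (nat_lit 4) (nat_lit 400) (nat_lit 349) (nat_lit 271)) (XT.lf (nat_lit 0) (nat_lit 4436139436) (nat_lit 76) (nat_lit 20062244670) (nat_lit 152) (nat_lit 5228482453) (nat_lit 36) (nat_lit 5) (nat_lit 37) (nat_lit 5) (nat_lit 38) (nat_lit 4) (nat_lit 401) (nat_lit 349) (nat_lit 270)))) (XT.nd (nat_lit 78) (nat_lit 152) (nat_lit 0) (XT.lf (nat_lit 0) (nat_lit 1738533711) (nat_lit 152) (nat_lit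 9882887577) (nat_lit 76) (nat_lit 19135325132) (nat_lit 35) (nat_lit 5) (nat_lit 37) (nat_lit 5) (nat_lit 36) (nat_lit 5) (nat_lit 402) (nat_lit 349) (nat_lit 269)) (XT.nd (nat_lit 78) (nat_lit 0) (nat_lit 0) (XT.lf (nat_lit 0) (nat_lit 6382679166) (nat_lit 152) (nat_lit 2577674758) (nat_lit 228) (nat_lit 22869376345) (nat_lit 33) (nat_lit 5) (nat_lit 35) (nat_lit 5) (nat_lit 36) (nat_lit 5) (nat_lit 403) (nat_lit 349) (nat_lit 268)) (XT.lf (nat_lit 0) (nat_lit 16804047414) (nat_lit 228) (nat_lit 9285497930) (nat_lit 76) (nat_lit 6853782536) (nat_lit 33) (nat_lit 5) (nat_lit 36) (nat_lit 5) (nat_lit 34) (nat_lit 4) (nat_lit 404) (nat_lit 349) (nat_lit 267)))))) (XT.nd (nat_lit 468) (nat_lit 380) (nat_lit 0) (XT.nd (nat_lit 234) (nat_lit 76) (nat_lit 0) (XT.nd (nat_lit 78) (nat_lit 228) (nat_lit 0) (XT.lf (nat_lit 0) (nat_lit 7863675255) (nat_lit 76) (nat_lit 17324760889) (nat_lit 152) (nat_lit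 8916747204) (nat_lit 32) (nat_lit 5) (nat_lit 33) (nat_lit 5) (nat_lit 34) (nat_lit 4) (nat_lit 405) (nat_lit 349) (nat_lit 266)) (XT.nd (nat_lit 78) (nat_lit 228) (nat_lit 0) (XT.lf (nat_lit 0) (nat_lit 26163273273) (nat_lit 76) (nat_lit 7969832618) (nat_lit 152) (nat_lit 1184975958) (nat_lit 32) (nat_lit 5) (nat_lit 33) (nat_lit 5) (nat_lit 34) (nat_lit 4) (nat_lit 406) (nat_lit 349) (nat_lit 265)) (XT.lf (nat_lit 0) (nat_lit 6868090933) (nat_lit 228) (nat_lit 27677373638) (nat_lit 76) (nat_lit 2032920321) (nat_lit 29) (nat_lit 5) (nat_lit 32) (nat_lit 5) (nat_lit 30) (nat_lit 4) (nat_lit 407) (nat_lit 349) (nat_lit 264)))) (XT.nd (nat_lit 78) (nat_lit 76) (nat_lit 0) (XT.lf (nat_lit 0) (nat_lit 15556656466) (nat_lit 228) (nat_lit 9897754659) (nat_lit 76) (nat_lit 12432690142) (nat_lit 29) (nat_lit 5) (nat_lit 32) (nat_lit 5) (nat_lit 30) (nat_lit 4) (nat_lit 408) (nat_lit 349) (nat_lit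 263)) (XT.nd (nat_lit 78) (nat_lit 0) (nat_lit 0) (XT.lf (nat_lit 0) (nat_lit 9032671452) (nat_lit 76) (nat_lit 15773177943) (nat_lit 152) (nat_lit 14449096856) (nat_lit 28) (nat_lit 5) (nat_lit 29) (nat_lit 5) (nat_lit 30) (nat_lit 4) (nat_lit 409) (nat_lit 349) (nat_lit 262)) (XT.lf (nat_lit 0) (nat_lit 29226410780) (nat_lit 76) (nat_lit 5444175288) (nat_lit 152) (nat_lit 6012945829) (nat_lit 28) (nat_lit 5) (nat_lit 29) (nat_lit 5) (nat_lit 30) (nat_lit 4) (nat_lit 410) (nat_lit 349) (nat_lit 261))))) (XT.nd (nat_lit 234) (nat_lit 152) (nat_lit 0) (XT.nd (nat_lit 78) (nat_lit 76) (nat_lit 0) (XT.lf (nat_lit 0) (nat_lit 2958779288) (nat_lit 152) (nat_lit 33816294789) (nat_lit 76) (nat_lit 5396012952) (nat_lit 26) (nat_lit 5) (nat_lit 28) (nat_lit 5) (nat_lit 27) (nat_lit 4) (nat_lit 411) (nat_lit 349) (nat_lit 260)) (XT.nd (nat_lit 78) (nat_lit 76) (nat_lit 0) (XT.lf (nat_lit 0) (nat_lit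 12449487816) (nat_lit 152) (nat_lit 14385368417) (nat_lit 76) (nat_lit 16879613723) (nat_lit 26) (nat_lit 5) (nat_lit 28) (nat_lit 5) (nat_lit 27) (nat_lit 4) (nat_lit 412) (nat_lit 349) (nat_lit 259)) (XT.lf (nat_lit 0) (nat_lit 6190363883) (nat_lit 76) (nat_lit 16307693051) (nat_lit 152) (nat_lit 22832800990) (nat_lit 25) (nat_lit 5) (nat_lit 26) (nat_lit 5) (nat_lit 27) (nat_lit 4) (nat_lit 413) (nat_lit 349) (nat_lit 258)))) (XT.nd (nat_lit 156) (nat_lit 76) (nat_lit 0) (XT.nd (nat_lit 78) (nat_lit 76) (nat_lit 0) (XT.lf (nat_lit 0) (nat_lit 28269840756) (nat_lit 76) (nat_lit 5009765589) (nat_lit 152) (nat_lit 13736933402) (nat_lit 25) (nat_lit 5) (nat_lit 26) (nat_lit 5) (nat_lit 27) (nat_lit 4) (nat_lit 414) (nat_lit 349) (nat_lit 257)) (XT.lf (nat_lit 0) (nat_lit 2619883757) (nat_lit 76) (nat_lit 42115630265) (nat_lit 76) (nat_lit 4044229552) (nat_lit 24) (nat_lit 4) (nat_lit 25)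 (nat_lit 5) (nat_lit 25) (nat_lit 4) (nat_lit 415) (nat_lit 349) (nat_lit 256))) (XT.nd (nat_lit 78) (nat_lit 0) (nat_lit 0) (XT.lf (nat_lit 0) (nat_lit 6329040811) (nat_lit 152) (nat_lit 25116475661) (nat_lit 76) (nat_lit 19161193684) (nat_lit 23) (nat_lit 5) (nat_lit 25) (nat_lit 5) (nat_lit 24) (nat_lit 4) (nat_lit 416) (nat_lit 349) (nat_lit 255)) (XT.lf (nat_lit 0) (nat_lit 17073074196) (nat_lit 152) (nat_lit 3109882090) (nat_lit 76) (nat_lit 32339354916) (nat_lit 23) (nat_lit 5) (nat_lit 25) (nat_lit 5) (nat_lit 24) (nat_lit 4) (nat_lit 417) (nat_lit 349) (nat_lit 254))))))) (XT.nd (nat_lit 1014) (nat_lit 380) (nat_lit 0) (XT.nd (nat_lit 468) (nat_lit 304) (nat_lit 0) (XT.nd (nat_lit 234) (nat_lit 152) (nat_lit 0) (XT.nd (nat_lit 78) (nat_lit 76) (nat_lit 0) (XT.lf (nat_lit 0) (nat_lit 20635938197) (nat_lit 76) (nat_lit 8029138866) (nat_lit 152) (nat_lit 25853078455) (nat_lit 22) (nat_lit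 5) (nat_lit 23) (nat_lit 5) (nat_lit 24) (nat_lit 4) (nat_lit 418) (nat_lit 349) (nat_lit 253)) (XT.nd (nat_lit 78) (nat_lit 76) (nat_lit 0) (XT.lf (nat_lit 0) (nat_lit 40952734936) (nat_lit 152) (nat_lit 11030529001) (nat_lit 0) (nat_lit 4624726898) (nat_lit 22) (nat_lit 5) (nat_lit 24) (nat_lit 4) (nat_lit 22) (nat_lit 4) (nat_lit 419) (nat_lit 349) (nat_lit 252)) (XT.lf (nat_lit 0) (nat_lit 13235116356) (nat_lit 76) (nat_lit 40947101407) (nat_lit 76) (nat_lit 4603729509) (nat_lit 21) (nat_lit 4) (nat_lit 22) (nat_lit 5) (nat_lit 22) (nat_lit 4) (nat_lit 420) (nat_lit 349) (nat_lit 251)))) (XT.nd (nat_lit 78) (nat_lit 76) (nat_lit 0) (XT.lf (nat_lit 0) (nat_lit 6955390100) (nat_lit 152) (nat_lit 22099454441) (nat_lit 76) (nat_lit 32003539910) (nat_lit 20) (nat_lit 5) (nat_lit 22) (nat_lit 5) (nat_lit 21) (nat_lit 4) (nat_lit 421) (nat_lit 349) (nat_lit 250)) (XT.nd (nat_lit 78) (nat_lit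 0) (nat_lit 0) (XT.lf (nat_lit 0) (nat_lit 2509693893) (nat_lit 76) (nat_lit 16456956601) (nat_lit 152) (nat_lit 44472575689) (nat_lit 19) (nat_lit 5) (nat_lit 20) (nat_lit 5) (nat_lit 21) (nat_lit 4) (nat_lit 422) (nat_lit 349) (nat_lit 249)) (XT.lf (nat_lit 0) (nat_lit 29097207902) (nat_lit 76) (nat_lit 2845435709) (nat_lit 152) (nat_lit 33978259105) (nat_lit 19) (nat_lit 5) (nat_lit 20) (nat_lit 5) (nat_lit 21) (nat_lit 4) (nat_lit 423) (nat_lit 349) (nat_lit 248))))) (XT.nd (nat_lit 234) (nat_lit 152) (nat_lit 0) (XT.nd (nat_lit 78) (nat_lit 152) (nat_lit 0) (XT.lf (nat_lit 0) (nat_lit 45736398931) (nat_lit 152) (nat_lit 11710038597) (nat_lit 0) (nat_lit 11071778561) (nat_lit 19) (nat_lit 5) (nat_lit 21) (nat_lit 4) (nat_lit 19) (nat_lit 4) (nat_lit 424) (nat_lit 349) (nat_lit 247)) (XT.nd (nat_lit 78) (nat_lit 76) (nat_lit 0) (XT.lf (nat_lit 0) (nat_lit 15077358164) (nat_lit 76) (nat_lit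 45415242618) (nat_lit 76) (nat_lit 10739157498) (nat_lit 18) (nat_lit 4) (nat_lit 19) (nat_lit 5) (nat_lit 19) (nat_lit 4) (nat_lit 425) (nat_lit 349) (nat_lit 246)) (XT.lf (nat_lit 0) (nat_lit 2036938948) (nat_lit 152) (nat_lit 30511279084) (nat_lit 76) (nat_lit 41521658118) (nat_lit 17) (nat_lit 5) (nat_lit 19) (nat_lit 5) (nat_lit 18) (nat_lit 4) (nat_lit 426) (nat_lit 349) (nat_lit 245)))) (XT.nd (nat_lit 156) (nat_lit 76) (nat_lit 0) (XT.nd (nat_lit 78) (nat_lit 76) (nat_lit 0) (XT.lf (nat_lit 0) (nat_lit 15082105335) (nat_lit 152) (nat_lit 3779086857) (nat_lit 76) (nat_lit 58180347510) (nat_lit 17) (nat_lit 5) (nat_lit 19) (nat_lit 5) (nat_lit 18) (nat_lit 4) (nat_lit 427) (nat_lit 349) (nat_lit 244)) (XT.lf (nat_lit 0) (nat_lit 25076084285) (nat_lit 76) (nat_lit 4086545354) (nat_lit 152) (nat_lit 50980002707) (nat_lit 16) (nat_lit 5) (nat_lit 17) (nat_lit 5) (nat_lit 18) (nat_lit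 4) (nat_lit 428) (nat_lit 349) (nat_lit 243))) (XT.nd (nat_lit 78) (nat_lit 76) (nat_lit 0) (XT.lf (nat_lit 0) (nat_lit 44182257506) (nat_lit 152) (nat_lit 28086072123) (nat_lit 0) (nat_lit 11118696978) (nat_lit 16) (nat_lit 5) (nat_lit 18) (nat_lit 4) (nat_lit 16) (nat_lit 4) (nat_lit 429) (nat_lit 349) (nat_lit 242)) (XT.lf (nat_lit 0) (nat_lit 166277172) (nat_lit 76) (nat_lit 59848199707) (nat_lit 76) (nat_lit 26776084007) (nat_lit 15) (nat_lit 4) (nat_lit 16) (nat_lit 5) (nat_lit 16) (nat_lit 4) (nat_lit 430) (nat_lit 349) (nat_lit 241)))))) (XT.nd (nat_lit 468) (nat_lit 228) (nat_lit 0) (XT.nd (nat_lit 234) (nat_lit 76) (nat_lit 0) (XT.nd (nat_lit 78) (nat_lit 76) (nat_lit 0) (XT.lf (nat_lit 0) (nat_lit 30791098810) (nat_lit 76) (nat_lit 46315023291) (nat_lit 76) (nat_lit 13234759807) (nat_lit 15) (nat_lit 4) (nat_lit 16) (nat_lit 5) (nat_lit 16) (nat_lit 4) (nat_lit 431) (nat_lit 349)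 (nat_lit 240)) (XT.nd (nat_lit 78) (nat_lit 0) (nat_lit 0) (XT.lf (nat_lit 0) (nat_lit 944562038) (nat_lit 152) (nat_lit 31151671098) (nat_lit 76) (nat_lit 61972097995) (nat_lit 14) (nat_lit 5) (nat_lit 16) (nat_lit 5) (nat_lit 15) (nat_lit 4) (nat_lit 432) (nat_lit 349) (nat_lit 239)) (XT.lf (nat_lit 0) (nat_lit 15380850268) (nat_lit 152) (nat_lit 1564670506) (nat_lit 76) (nat_lit 81026145795) (nat_lit 14) (nat_lit 5) (nat_lit 16) (nat_lit 5) (nat_lit 15) (nat_lit 4) (nat_lit 433) (nat_lit 349) (nat_lit 238)))) (XT.nd (nat_lit 78) (nat_lit 0) (nat_lit 0) (XT.lf (nat_lit 0) (nat_lit 30463311834) (nat_lit 76) (nat_lit 544377801) (nat_lit 152) (nat_lit 71039042944) (nat_lit 13) (nat_lit 5) (nat_lit 14) (nat_lit 5) (nat_lit 15) (nat_lit 4) (nat_lit 434) (nat_lit 349) (nat_lit 237)) (XT.nd (nat_lit 78) (nat_lit 0) (nat_lit 0) (XT.lf (nat_lit 0) (nat_lit 47696316803) (nat_lit 152) (nat_lit 42451425285)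 (nat_lit 0) (nat_lit 16163788116) (nat_lit 13) (nat_lit 5) (nat_lit 15) (nat_lit 4) (nat_lit 13) (nat_lit 4) (nat_lit 435) (nat_lit 349) (nat_lit 236)) (XT.lf (nat_lit 0) (nat_lit 65221767216) (nat_lit 152) (nat_lit 11884522945) (nat_lit 0) (nat_lit 33683158528) (nat_lit 13) (nat_lit 5) (nat_lit 15) (nat_lit 4) (nat_lit 13) (nat_lit 4) (nat_lit 436) (nat_lit 349) (nat_lit 235))))) (XT.nd (nat_lit 234) (nat_lit 152) (nat_lit 0) (XT.nd (nat_lit 78) (nat_lit 0) (nat_lit 0) (XT.lf (nat_lit 0) (nat_lit 20866419614) (nat_lit 76) (nat_lit 63076632551) (nat_lit 76) (nat_lit 31532233385) (nat_lit 12) (nat_lit 4) (nat_lit 13) (nat_lit 5) (nat_lit 13) (nat_lit 4) (nat_lit 437) (nat_lit 349) (nat_lit 234)) (XT.nd (nat_lit 78) (nat_lit 0) (nat_lit 0) (XT.lf (nat_lit 0) (nat_lit 55655548605) (nat_lit 76) (nat_lit 48140011080) (nat_lit 76) (nat_lit 16590097174) (nat_lit 12) (nat_lit 4) (nat_lit 13) (nat_lit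 5) (nat_lit 13) (nat_lit 4) (nat_lit 438) (nat_lit 349) (nat_lit 233)) (XT.lf (nat_lit 0) (nat_lit 92172739286) (nat_lit 76) (nat_lit 32462132512) (nat_lit 76) (nat_lit 906966472) (nat_lit 12) (nat_lit 4) (nat_lit 13) (nat_lit 5) (nat_lit 13) (nat_lit 4) (nat_lit 439) (nat_lit 349) (nat_lit 232)))) (XT.nd (nat_lit 156) (nat_lit 0) (nat_lit 0) (XT.nd (nat_lit 78) (nat_lit 76) (nat_lit 0) (XT.lf (nat_lit 0) (nat_lit 15056658382) (nat_lit 152) (nat_lit 694018388) (nat_lit 76) (nat_lit 115193287171) (nat_lit 11) (nat_lit 5) (nat_lit 13) (nat_lit 5) (nat_lit 12) (nat_lit 4) (nat_lit 440) (nat_lit 349) (nat_lit 231)) (XT.lf (nat_lit 0) (nat_lit 32361473793) (nat_lit 152) (nat_lit 101925670773) (nat_lit 0) (nat_lit 2299633876) (nat_lit 10) (nat_lit 5) (nat_lit 12) (nat_lit 4) (nat_lit 10) (nat_lit 4) (nat_lit 441) (nat_lit 349) (nat_lit 230))) (XT.nd (nat_lit 78) (nat_lit 0) (nat_lit 0) (XT.lf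 (nat_lit 0) (nat_lit 50796332283) (nat_lit 152) (nat_lit 70971990258) (nat_lit 0) (nat_lit 20730171423) (nat_lit 10) (nat_lit 5) (nat_lit 12) (nat_lit 4) (nat_lit 10) (nat_lit 4) (nat_lit 442) (nat_lit 349) (nat_lit 229)) (XT.lf (nat_lit 0) (nat_lit 70147836815) (nat_lit 152) (nat_lit 38480652910) (nat_lit 0) (nat_lit 40077560771) (nat_lit 10) (nat_lit 5) (nat_lit 12) (nat_lit 4) (nat_lit 10) (nat_lit 4) (nat_lit 443) (nat_lit 349) (nat_lit 228))))))))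
noncomputable def xc122 : XT := (XT.nd (nat_lit 1950) (nat_lit 76) (nat_lit 0) (XT.nd (nat_lit 936) (nat_lit 152) (nat_lit 0) (XT.nd (nat_lit 468) (nat_lit 76) (nat_lit 0) (XT.nd (nat_lit 234) (nat_lit 152) (nat_lit 0) (XT.nd (nat_lit 78) (nat_lit 76) (nat_lit 0) (XT.lf (nat_lit 0) (nat_lit 90462062401) (nat_lit 152) (nat_lit 4374298400) (nat_lit 0) (nat_lit 60387867133) (nat_lit 10) (nat_lit 5) (nat_lit 12) (nat_lit 4) (nat_lit 10) (nat_lit 4) (nat_lit 444) (nat_lit 349) (nat_lit 227)) (XT.nd (nat_lit 78) (nat_lit 0) (nat_lit 0) (XT.lf (nat_lit 0) (nat_lit 32467439709) (nat_lit 76) (nat_lit 79826844258) (nat_lit 76) (nat_lit 49748916397) (nat_lit 9) (nat_lit 4) (nat_lit 10) (nat_lit 5) (nat_lit 10) (nat_lit 4) (nat_lit 445) (nat_lit 349) (nat_lit 226)) (XT.lf (nat_lit 0) (nat_lit 71294182222) (nat_lit 76) (nat_lit 63993472664) (nat_lit 76) (nat_lit 33911989952) (nat_lit 9) (nat_lit 4) (nat_lit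 10) (nat_lit 5) (nat_lit 10) (nat_lit 4) (nat_lit 446) (nat_lit 349) (nat_lit 225)))) (XT.nd (nat_lit 78) (nat_lit 152) (nat_lit 0) (XT.lf (nat_lit 0) (nat_lit 112053739703) (nat_lit 76) (nat_lit 47372628376) (nat_lit 76) (nat_lit 17287760091) (nat_lit 9) (nat_lit 4) (nat_lit 10) (nat_lit 5) (nat_lit 10) (nat_lit 4) (nat_lit 447) (nat_lit 349) (nat_lit 224)) (XT.nd (nat_lit 78) (nat_lit 76) (nat_lit 0) (XT.lf (nat_lit 0) (nat_lit 158126313) (nat_lit 152) (nat_lit 29763933696) (nat_lit 76) (nat_lit 154682354458) (nat_lit 8) (nat_lit 5) (nat_lit 10) (nat_lit 5) (nat_lit 9) (nat_lit 4) (nat_lit 448) (nat_lit 349) (nat_lit 223)) (XT.lf (nat_lit 0) (nat_lit 6803841315) (nat_lit 76) (nat_lit 11193721986) (nat_lit 152) (nat_lit 174872369842) (nat_lit 7) (nat_lit 5) (nat_lit 8) (nat_lit 5) (nat_lit 9) (nat_lit 4) (nat_lit 449) (nat_lit 349) (nat_lit 222))))) (XT.nd (nat_lit 234) (nat_lit 76) (nat_lit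 0) (XT.nd (nat_lit 78) (nat_lit 0) (nat_lit 0) (XT.lf (nat_lit 0) (nat_lit 37369579637) (nat_lit 152) (nat_lit 155438574594) (nat_lit 0) (nat_lit 8708543410) (nat_lit 7) (nat_lit 5) (nat_lit 9) (nat_lit 4) (nat_lit 7) (nat_lit 4) (nat_lit 450) (nat_lit 349) (nat_lit 221)) (XT.nd (nat_lit 78) (nat_lit 0) (nat_lit 0) (XT.lf (nat_lit 0) (nat_lit 57889910835) (nat_lit 152) (nat_lit 123470682154) (nat_lit 0) (nat_lit 29226221924) (nat_lit 7) (nat_lit 5) (nat_lit 9) (nat_lit 4) (nat_lit 7) (nat_lit 4) (nat_lit 451) (nat_lit 349) (nat_lit 220)) (XT.lf (nat_lit 0) (nat_lit 79432649457) (nat_lit 152) (nat_lit 89911535108) (nat_lit 0) (nat_lit 50766434180) (nat_lit 7) (nat_lit 5) (nat_lit 9) (nat_lit 4) (nat_lit 7) (nat_lit 4) (nat_lit 452) (nat_lit 349) (nat_lit 219)))) (XT.nd (nat_lit 78) (nat_lit 76) (nat_lit 0) (XT.lf (nat_lit 0) (nat_lit 102049087738) (nat_lit 152) (nat_lit 54681230725) (nat_lit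 0) (nat_lit 73380466398) (nat_lit 7) (nat_lit 5) (nat_lit 9) (nat_lit 4) (nat_lit 7) (nat_lit 4) (nat_lit 453) (nat_lit 349) (nat_lit 218)) (XT.nd (nat_lit 78) (nat_lit 76) (nat_lit 0) (XT.lf (nat_lit 0) (nat_lit 125793074340) (nat_lit 152) (nat_lit 17695887327) (nat_lit 0) (nat_lit 97122161511) (nat_lit 7) (nat_lit 5) (nat_lit 9) (nat_lit 4) (nat_lit 7) (nat_lit 4) (nat_lit 454) (nat_lit 349) (nat_lit 217)) (XT.lf (nat_lit 0) (nat_lit 21831293144) (nat_lit 76) (nat_lit 129230697088) (nat_lit 76) (nat_lit 100557601889) (nat_lit 6) (nat_lit 4) (nat_lit 7) (nat_lit 5) (nat_lit 7) (nat_lit 4) (nat_lit 455) (nat_lit 349) (nat_lit 216)))))) (XT.nd (nat_lit 468) (nat_lit 76) (nat_lit 0) (XT.nd (nat_lit 234) (nat_lit 76) (nat_lit 0) (XT.nd (nat_lit 78) (nat_lit 0) (nat_lit 0) (XT.lf (nat_lit 0) (nat_lit 63943125557) (nat_lit 76) (nat_lit 113947850789) (nat_lit 76) (nat_lit 85272677142) (nat_lit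 6) (nat_lit 4) (nat_lit 7) (nat_lit 5) (nat_lit 7) (nat_lit 4) (nat_lit 456) (nat_lit 349) (nat_lit 215)) (XT.nd (nat_lit 78) (nat_lit 0) (nat_lit 0) (XT.lf (nat_lit 0) (nat_lit 108154770225) (nat_lit 76) (nat_lit 97903723455) (nat_lit 76) (nat_lit 69226570334) (nat_lit 6) (nat_lit 4) (nat_lit 7) (nat_lit 5) (nat_lit 7) (nat_lit 4) (nat_lit 457) (nat_lit 349) (nat_lit 214)) (XT.lf (nat_lit 0) (nat_lit 154571492969) (nat_lit 76) (nat_lit 81060114783) (nat_lit 76) (nat_lit 52381076449) (nat_lit 6) (nat_lit 4) (nat_lit 7) (nat_lit 5) (nat_lit 7) (nat_lit 4) (nat_lit 458) (nat_lit 349) (nat_lit 213)))) (XT.nd (nat_lit 78) (nat_lit 76) (nat_lit 0) (XT.lf (nat_lit 0) (nat_lit 203303809796) (nat_lit 76) (nat_lit 63376920944) (nat_lit 76) (nat_lit 34696087169) (nat_lit 6) (nat_lit 4) (nat_lit 7) (nat_lit 5) (nat_lit 7) (nat_lit 4) (nat_lit 459) (nat_lit 349) (nat_lit 212)) (XT.nd (nat_lit 78) (nat_lit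 76) (nat_lit 0) (XT.lf (nat_lit 0) (nat_lit 254467750031) (nat_lit 76) (nat_lit 44812039094) (nat_lit 76) (nat_lit 16129495375) (nat_lit 6) (nat_lit 4) (nat_lit 7) (nat_lit 5) (nat_lit 7) (nat_lit 4) (nat_lit 460) (nat_lit 349) (nat_lit 211)) (XT.lf (nat_lit 0) (nat_lit 3255271137) (nat_lit 152) (nat_lit 22010866405) (nat_lit 76) (nat_lit 304874731851) (nat_lit 5) (nat_lit 5) (nat_lit 7) (nat_lit 5) (nat_lit 6) (nat_lit 4) (nat_lit 461) (nat_lit 349) (nat_lit 210))))) (XT.nd (nat_lit 234) (nat_lit 0) (nat_lit 0) (XT.nd (nat_lit 78) (nat_lit 0) (nat_lit 0) (XT.lf (nat_lit 0) (nat_lit 19212222956) (nat_lit 76) (nat_lit 4152628830) (nat_lit 152) (nat_lit 322216079355) (nat_lit 4) (nat_lit 5) (nat_lit 5) (nat_lit 5) (nat_lit 6) (nat_lit 4) (nat_lit 462) (nat_lit 349) (nat_lit 209)) (XT.nd (nat_lit 78) (nat_lit 0) (nat_lit 0) (XT.lf (nat_lit 0) (nat_lit 45137756784) (nat_lit 152) (nat_lit 298805733441)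 (nat_lit 0) (nat_lit 17816613621) (nat_lit 4) (nat_lit 5) (nat_lit 6) (nat_lit 4) (nat_lit 4) (nat_lit 4) (nat_lit 463) (nat_lit 349) (nat_lit 208)) (XT.lf (nat_lit 0) (nat_lit 68065174176) (nat_lit 152) (nat_lit 269937076551) (nat_lit 0) (nat_lit 40742691227) (nat_lit 4) (nat_lit 5) (nat_lit 6) (nat_lit 4) (nat_lit 4) (nat_lit 4) (nat_lit 464) (nat_lit 349) (nat_lit 207)))) (XT.nd (nat_lit 156) (nat_lit 0) (nat_lit 0) (XT.nd (nat_lit 78) (nat_lit 0) (nat_lit 0) (XT.lf (nat_lit 0) (nat_lit 92136858878) (nat_lit 152) (nat_lit 239629168445) (nat_lit 0) (nat_lit 64813099943) (nat_lit 4) (nat_lit 5) (nat_lit 6) (nat_lit 4) (nat_lit 4) (nat_lit 4) (nat_lit 465) (nat_lit 349) (nat_lit 206)) (XT.lf (nat_lit 0) (nat_lit 117410124426) (nat_lit 152) (nat_lit 207809847437) (nat_lit 0) (nat_lit 90085150266) (nat_lit 4) (nat_lit 5) (nat_lit 6) (nat_lit 4) (nat_lit 4) (nat_lit 4) (nat_lit 466) (nat_lit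 349) (nat_lit 205))) (XT.nd (nat_lit 78) (nat_lit 0) (nat_lit 0) (XT.lf (nat_lit 0) (nat_lit 143945145262) (nat_lit 152) (nat_lit 174403353240) (nat_lit 0) (nat_lit 116619013743) (nat_lit 4) (nat_lit 5) (nat_lit 6) (nat_lit 4) (nat_lit 4) (nat_lit 4) (nat_lit 467) (nat_lit 349) (nat_lit 204)) (XT.lf (nat_lit 0) (nat_lit 171805100005) (nat_lit 152) (nat_lit 139330146581) (nat_lit 0) (nat_lit 144477866242) (nat_lit 4) (nat_lit 5) (nat_lit 6) (nat_lit 4) (nat_lit 4) (nat_lit 4) (nat_lit 468) (nat_lit 349) (nat_lit 203))))))) (XT.nd (nat_lit 44148) (nat_lit 0) (nat_lit 7372) (XT.nd (nat_lit 468) (nat_lit 0) (nat_lit 0) (XT.nd (nat_lit 234) (nat_lit 76) (nat_lit 0) (XT.nd (nat_lit 78) (nat_lit 0) (nat_lit 0) (XT.lf (nat_lit 0) (nat_lit 201056321882) (nat_lit 152) (nat_lit 102506719825) (nat_lit 0) (nat_lit 173728038362) (nat_lit 4) (nat_lit 5) (nat_lit 6) (nat_lit 4) (nat_lit 4) (nat_lit 4) (nat_lit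 469) (nat_lit 349) (nat_lit 202)) (XT.nd (nat_lit 78) (nat_lit 0) (nat_lit 0) (XT.lf (nat_lit 0) (nat_lit 231768456660) (nat_lit 152) (nat_lit 63845398147) (nat_lit 0) (nat_lit 204439173370) (nat_lit 4) (nat_lit 5) (nat_lit 6) (nat_lit 4) (nat_lit 4) (nat_lit 4) (nat_lit 470) (nat_lit 349) (nat_lit 201)) (XT.lf (nat_lit 0) (nat_lit 264014628468) (nat_lit 152) (nat_lit 23254130781) (nat_lit 0) (nat_lit 236684393017) (nat_lit 4) (nat_lit 5) (nat_lit 6) (nat_lit 4) (nat_lit 4) (nat_lit 4) (nat_lit 471) (nat_lit 349) (nat_lit 200)))) (XT.nd (nat_lit 78) (nat_lit 0) (nat_lit 0) (XT.lf (nat_lit 0) (nat_lit 20003980448) (nat_lit 76) (nat_lit 278179951653) (nat_lit 76) (nat_lit 250848809383) (nat_lit 3) (nat_lit 4) (nat_lit 4) (nat_lit 5) (nat_lit 4) (nat_lit 4) (nat_lit 472) (nat_lit 349) (nat_lit 199)) (XT.nd (nat_lit 78) (nat_lit 0) (nat_lit 0) (XT.lf (nat_lit 0) (nat_lit 66229404279) (nat_lit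 76) (nat_lit 268224647173) (nat_lit 76) (nat_lit 240892641265) (nat_lit 3) (nat_lit 4) (nat_lit 4) (nat_lit 5) (nat_lit 4) (nat_lit 4) (nat_lit 473) (nat_lit 349) (nat_lit 198)) (XT.lf (nat_lit 0) (nat_lit 114763314660) (nat_lit 76) (nat_lit 257772962662) (nat_lit 76) (nat_lit 230440134241) (nat_lit 3) (nat_lit 4) (nat_lit 4) (nat_lit 5) (nat_lit 4) (nat_lit 4) (nat_lit 474) (nat_lit 349) (nat_lit 197))))) (XT.nd (nat_lit 43368) (nat_lit 0) (nat_lit 10336) (XT.nd (nat_lit 78) (nat_lit 0) (nat_lit 0) (XT.lf (nat_lit 0) (nat_lit 165721268521) (nat_lit 76) (nat_lit 246800013156) (nat_lit 76) (nat_lit 219466401390) (nat_lit 3) (nat_lit 4) (nat_lit 4) (nat_lit 5) (nat_lit 4) (nat_lit 4) (nat_lit 475) (nat_lit 349) (nat_lit 196)) (XT.nd (nat_lit 78) (nat_lit 0) (nat_lit 0) (XT.lf (nat_lit 0) (nat_lit 219224594323) (nat_lit 76) (nat_lit 235279672584) (nat_lit 76) (nat_lit 207945314775) (nat_lit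 3) (nat_lit 4) (nat_lit 4) (nat_lit 5) (nat_lit 4) (nat_lit 4) (nat_lit 476) (nat_lit 349) (nat_lit 195)) (XT.lf (nat_lit 0) (nat_lit 275400680938) (nat_lit 76) (nat_lit 223184511564) (nat_lit 76) (nat_lit 195849443238) (nat_lit 3) (nat_lit 4) (nat_lit 4) (nat_lit 5) (nat_lit 4) (nat_lit 4) (nat_lit 477) (nat_lit 349) (nat_lit 194)))) (XT.nd (nat_lit 156) (nat_lit 0) (nat_lit 0) (XT.nd (nat_lit 78) (nat_lit 0) (nat_lit 0) (XT.lf (nat_lit 0) (nat_lit 864182104) (nat_lit 0) (nat_lit 864182104) (nat_lit 532) (nat_lit 2073551954) (nat_lit 139) (nat_lit 5) (nat_lit 139) (nat_lit 3) (nat_lit 146) (nat_lit 3) (nat_lit 350) (nat_lit 350) (nat_lit 320)) (XT.lf (nat_lit 0) (nat_lit 4907612524) (nat_lit 532) (nat_lit 2183740900) (nat_lit 608) (nat_lit 633167225) (nat_lit 139) (nat_lit 5) (nat_lit 146) (nat_lit 3) (nat_lit 147) (nat_lit 5) (nat_lit 351) (nat_lit 350) (nat_lit 319))) (XT.nd (nat_lit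 78) (nat_lit 0) (nat_lit 0) (XT.lf (nat_lit 76) (nat_lit 1669233165) (nat_lit 0) (nat_lit 4730190505) (nat_lit 608) (nat_lit 1453476376) (nat_lit 140) (nat_lit 5) (nat_lit 139) (nat_lit 5) (nat_lit 147) (nat_lit 5) (nat_lit 352) (nat_lit 350) (nat_lit 318)) (XT.lf (nat_lit 76) (nat_lit 5743020081) (nat_lit 0) (nat_lit 2177127465) (nat_lit 608) (nat_lit 69906953) (nat_lit 140) (nat_lit 5) (nat_lit 139) (nat_lit 5) (nat_lit 147) (nat_lit 5) (nat_lit 353) (nat_lit 350) (nat_lit 317)))))) (XT.nd (nat_lit 468) (nat_lit 2432) (nat_lit 0) (XT.nd (nat_lit 234) (nat_lit 0) (nat_lit 76) (XT.nd (nat_lit 78) (nat_lit 0) (nat_lit 0) (XT.lf (nat_lit 0) (nat_lit 1296998428) (nat_lit 608) (nat_lit 6267972984) (nat_lit 684) (nat_lit 570160391) (nat_lit 132) (nat_lit 5) (nat_lit 140) (nat_lit 5) (nat_lit 141) (nat_lit 5) (nat_lit 354) (nat_lit 350) (nat_lit 316)) (XT.nd (nat_lit 78) (nat_lit 0) (nat_lit 0)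 (XT.lf (nat_lit 0) (nat_lit 2727725516) (nat_lit 608) (nat_lit 2109642205) (nat_lit 684) (nat_lit 3450209027) (nat_lit 132) (nat_lit 5) (nat_lit 140) (nat_lit 5) (nat_lit 141) (nat_lit 5) (nat_lit 355) (nat_lit 350) (nat_lit 315)) (XT.lf (nat_lit 76) (nat_lit 2280357292) (nat_lit 0) (nat_lit 1912336044) (nat_lit 684) (nat_lit 4256874776) (nat_lit 133) (nat_lit 5) (nat_lit 132) (nat_lit 5) (nat_lit 141) (nat_lit 5) (nat_lit 356) (nat_lit 350) (nat_lit 314)))) (XT.nd (nat_lit 78) (nat_lit 0) (nat_lit 0) (XT.lf (nat_lit 0) (nat_lit 5715473649) (nat_lit 608) (nat_lit 1725798615) (nat_lit 684) (nat_lit 1179215144) (nat_lit 133) (nat_lit 5) (nat_lit 141) (nat_lit 5) (nat_lit 142) (nat_lit 5) (nat_lit 357) (nat_lit 350) (nat_lit 313)) (XT.nd (nat_lit 78) (nat_lit 0) (nat_lit 0) (XT.lf (nat_lit 76) (nat_lit 2953100055) (nat_lit 0) (nat_lit 4372230928) (nat_lit 684) (nat_lit 1474128655) (nat_lit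 134) (nat_lit 5) (nat_lit 133) (nat_lit 5) (nat_lit 142) (nat_lit 5) (nat_lit 358) (nat_lit 350) (nat_lit 312)) (XT.lf (nat_lit 76) (nat_lit 7876811535) (nat_lit 0) (nat_lit 1103980696) (nat_lit 684) (nat_lit 8384002) (nat_lit 134) (nat_lit 5) (nat_lit 133) (nat_lit 5) (nat_lit 142) (nat_lit 5) (nat_lit 359) (nat_lit 350) (nat_lit 311))))) (XT.nd (nat_lit 234) (nat_lit 1216) (nat_lit 0) (XT.nd (nat_lit 78) (nat_lit 684) (nat_lit 0) (XT.lf (nat_lit 0) (nat_lit 1518546599) (nat_lit 684) (nat_lit 5314435605) (nat_lit 76) (nat_lit 2352403657) (nat_lit 125) (nat_lit 5) (nat_lit 134) (nat_lit 5) (nat_lit 126) (nat_lit 5) (nat_lit 360) (nat_lit 350) (nat_lit 310)) (XT.nd (nat_lit 78) (nat_lit 684) (nat_lit 0) (XT.lf (nat_lit 0) (nat_lit 3099069239) (nat_lit 684) (nat_lit 318208815) (nat_lit 76) (nat_lit 5975289001) (nat_lit 125) (nat_lit 5) (nat_lit 134) (nat_lit 5) (nat_lit 126) (nat_lit 5) (nat_lit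 361) (nat_lit 350) (nat_lit 309)) (XT.lf (nat_lit 0) (nat_lit 4784495388) (nat_lit 760) (nat_lit 4572774362) (nat_lit 76) (nat_lit 251585899) (nat_lit 116) (nat_lit 5) (nat_lit 126) (nat_lit 5) (nat_lit 117) (nat_lit 5) (nat_lit 362) (nat_lit 350) (nat_lit 308)))) (XT.nd (nat_lit 156) (nat_lit 456) (nat_lit 0) (XT.nd (nat_lit 78) (nat_lit 0) (nat_lit 0) (XT.lf (nat_lit 0) (nat_lit 750437474) (nat_lit 760) (nat_lit 5822161955) (nat_lit 836) (nat_lit 3262479115) (nat_lit 106) (nat_lit 5) (nat_lit 116) (nat_lit 5) (nat_lit 117) (nat_lit 5) (nat_lit 363) (nat_lit 350) (nat_lit 307)) (XT.lf (nat_lit 0) (nat_lit 6448471452) (nat_lit 760) (nat_lit 2026098995) (nat_lit 836) (nat_lit 1596857334) (nat_lit 106) (nat_lit 5) (nat_lit 116) (nat_lit 5) (nat_lit 117) (nat_lit 5) (nat_lit 364) (nat_lit 350) (nat_lit 306))) (XT.nd (nat_lit 78) (nat_lit 0) (nat_lit 0) (XT.lf (nat_lit 0) (nat_lit 160295328)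 (nat_lit 456) (nat_lit 8223514974) (nat_lit 76) (nat_lit 1935044401) (nat_lit 100) (nat_lit 5) (nat_lit 106) (nat_lit 5) (nat_lit 101) (nat_lit 5) (nat_lit 365) (nat_lit 350) (nat_lit 305)) (XT.lf (nat_lit 0) (nat_lit 1997597716) (nat_lit 456) (nat_lit 2461826149) (nat_lit 76) (nat_lit 6115655431) (nat_lit 100) (nat_lit 5) (nat_lit 106) (nat_lit 5) (nat_lit 101) (nat_lit 5) (nat_lit 366) (nat_lit 350) (nat_lit 304))))))))
noncomputable def xc123 : XT := (XT.nd (nat_lit 1950) (nat_lit 1900) (nat_lit 0) (XT.nd (nat_lit 936) (nat_lit 1748) (nat_lit 0) (XT.nd (nat_lit 468) (nat_lit 836) (nat_lit 0) (XT.nd (nat_lit 234) (nat_lit 684) (nat_lit 0) (XT.nd (nat_lit 78) (nat_lit 380) (nat_lit 0) (XT.lf (nat_lit 0) (nat_lit 3656232352) (nat_lit 304) (nat_lit 280359638) (nat_lit 380) (nat_lit 6907063288) (nat_lit 96) (nat_lit 5) (nat_lit 100) (nat_lit 5) (nat_lit 101) (nat_lit 5) (nat_lit 367) (nat_lit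 350) (nat_lit 303)) (XT.nd (nat_lit 78) (nat_lit 380) (nat_lit 0) (XT.lf (nat_lit 0) (nat_lit 6033253879) (nat_lit 380) (nat_lit 1072962608) (nat_lit 76) (nat_lit 4016437674) (nat_lit 96) (nat_lit 5) (nat_lit 101) (nat_lit 5) (nat_lit 97) (nat_lit 5) (nat_lit 368) (nat_lit 350) (nat_lit 302)) (XT.lf (nat_lit 0) (nat_lit 5469851744) (nat_lit 380) (nat_lit 2811283515) (nat_lit 456) (nat_lit 3132176980) (nat_lit 91) (nat_lit 5) (nat_lit 96) (nat_lit 5) (nat_lit 97) (nat_lit 5) (nat_lit 369) (nat_lit 350) (nat_lit 301)))) (XT.nd (nat_lit 78) (nat_lit 380) (nat_lit 0) (XT.lf (nat_lit 0) (nat_lit 602805635) (nat_lit 304) (nat_lit 10050659676) (nat_lit 380) (nat_lit 1064462389) (nat_lit 87) (nat_lit 5) (nat_lit 91) (nat_lit 5) (nat_lit 92) (nat_lit 5) (nat_lit 370) (nat_lit 350) (nat_lit 300)) (XT.nd (nat_lit 78) (nat_lit 304) (nat_lit 0) (XT.lf (nat_lit 0) (nat_lit 1177831045) (nat_lit 380) (nat_lit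 4464776857) (nat_lit 76) (nat_lit 6388996202) (nat_lit 86) (nat_lit 5) (nat_lit 91) (nat_lit 5) (nat_lit 87) (nat_lit 5) (nat_lit 371) (nat_lit 350) (nat_lit 299)) (XT.lf (nat_lit 0) (nat_lit 2534370253) (nat_lit 304) (nat_lit 961874465) (nat_lit 380) (nat_lit 8863881680) (nat_lit 82) (nat_lit 5) (nat_lit 86) (nat_lit 5) (nat_lit 87) (nat_lit 5) (nat_lit 372) (nat_lit 350) (nat_lit 298))))) (XT.nd (nat_lit 234) (nat_lit 608) (nat_lit 0) (XT.nd (nat_lit 78) (nat_lit 228) (nat_lit 0) (XT.lf (nat_lit 0) (nat_lit 6030399587) (nat_lit 380) (nat_lit 2774213166) (nat_lit 76) (nat_lit 3895493415) (nat_lit 82) (nat_lit 5) (nat_lit 87) (nat_lit 5) (nat_lit 83) (nat_lit 5) (nat_lit 373) (nat_lit 350) (nat_lit 297)) (XT.nd (nat_lit 78) (nat_lit 0) (nat_lit 0) (XT.lf (nat_lit 0) (nat_lit 4719038796) (nat_lit 228) (nat_lit 4024766413) (nat_lit 304) (nat_lit 4310673884) (nat_lit 79) (nat_lit 5) (nat_lit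 82) (nat_lit 5) (nat_lit 83) (nat_lit 5) (nat_lit 374) (nat_lit 350) (nat_lit 296)) (XT.lf (nat_lit 0) (nat_lit 11620150974) (nat_lit 304) (nat_lit 804302568) (nat_lit 76) (nat_lit 1000773933) (nat_lit 79) (nat_lit 5) (nat_lit 83) (nat_lit 5) (nat_lit 80) (nat_lit 5) (nat_lit 375) (nat_lit 350) (nat_lit 295)))) (XT.nd (nat_lit 78) (nat_lit 228) (nat_lit 0) (XT.lf (nat_lit 0) (nat_lit 946194449) (nat_lit 380) (nat_lit 6598768520) (nat_lit 76) (nat_lit 6261582846) (nat_lit 74) (nat_lit 5) (nat_lit 79) (nat_lit 5) (nat_lit 75) (nat_lit 5) (nat_lit 376) (nat_lit 350) (nat_lit 294)) (XT.nd (nat_lit 78) (nat_lit 0) (nat_lit 0) (XT.lf (nat_lit 0) (nat_lit 1412289753) (nat_lit 228) (nat_lit 2364062242) (nat_lit 304) (nat_lit 10429016773) (nat_lit 71) (nat_lit 5) (nat_lit 74) (nat_lit 5) (nat_lit 75) (nat_lit 5) (nat_lit 377) (nat_lit 350) (nat_lit 293)) (XT.lf (nat_lit 0) (nat_lit 6876457146) (nat_lit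 304) (nat_lit 4661395244) (nat_lit 76) (nat_lit 3079875198) (nat_lit 71) (nat_lit 5) (nat_lit 75) (nat_lit 5) (nat_lit 72) (nat_lit 5) (nat_lit 378) (nat_lit 350) (nat_lit 292)))))) (XT.nd (nat_lit 468) (nat_lit 836) (nat_lit 0) (XT.nd (nat_lit 234) (nat_lit 380) (nat_lit 0) (XT.nd (nat_lit 78) (nat_lit 304) (nat_lit 0) (XT.lf (nat_lit 0) (nat_lit 3919774735) (nat_lit 228) (nat_lit 6280157275) (nat_lit 304) (nat_lit 4847370022) (nat_lit 68) (nat_lit 5) (nat_lit 71) (nat_lit 5) (nat_lit 72) (nat_lit 5) (nat_lit 379) (nat_lit 350) (nat_lit 291)) (XT.nd (nat_lit 78) (nat_lit 304) (nat_lit 0) (XT.lf (nat_lit 0) (nat_lit 13048742651) (nat_lit 228) (nat_lit 689023063) (nat_lit 304) (nat_lit 1758195382) (nat_lit 68) (nat_lit 5) (nat_lit 71) (nat_lit 5) (nat_lit 72) (nat_lit 5) (nat_lit 380) (nat_lit 350) (nat_lit 290)) (XT.lf (nat_lit 0) (nat_lit 1597423973) (nat_lit 304) (nat_lit 9224745885) (nat_lit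 76) (nat_lit 5135760941) (nat_lit 64) (nat_lit 5) (nat_lit 68) (nat_lit 5) (nat_lit 65) (nat_lit 5) (nat_lit 381) (nat_lit 350) (nat_lit 289)))) (XT.nd (nat_lit 78) (nat_lit 380) (nat_lit 0) (XT.lf (nat_lit 0) (nat_lit 5085949593) (nat_lit 304) (nat_lit 66787390) (nat_lit 76) (nat_lit 11287623338) (nat_lit 64) (nat_lit 5) (nat_lit 68) (nat_lit 5) (nat_lit 65) (nat_lit 5) (nat_lit 382) (nat_lit 350) (nat_lit 288)) (XT.nd (nat_lit 78) (nat_lit 152) (nat_lit 0) (XT.lf (nat_lit 0) (nat_lit 8889254525) (nat_lit 304) (nat_lit 7132595083) (nat_lit 76) (nat_lit 918056524) (nat_lit 61) (nat_lit 5) (nat_lit 65) (nat_lit 5) (nat_lit 62) (nat_lit 5) (nat_lit 383) (nat_lit 350) (nat_lit 287)) (XT.lf (nat_lit 0) (nat_lit 2673008258) (nat_lit 152) (nat_lit 10309754175) (nat_lit 228) (nat_lit 4476676785) (nat_lit 59) (nat_lit 5) (nat_lit 61) (nat_lit 5) (nat_lit 62) (nat_lit 5) (nat_lit 384) (nat_lit 350)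 (nat_lit 286))))) (XT.nd (nat_lit 234) (nat_lit 532) (nat_lit 0) (XT.nd (nat_lit 78) (nat_lit 304) (nat_lit 0) (XT.lf (nat_lit 0) (nat_lit 13176067020) (nat_lit 152) (nat_lit 4199025725) (nat_lit 228) (nat_lit 625160170) (nat_lit 59) (nat_lit 5) (nat_lit 61) (nat_lit 5) (nat_lit 62) (nat_lit 5) (nat_lit 385) (nat_lit 350) (nat_lit 285)) (XT.nd (nat_lit 78) (nat_lit 0) (nat_lit 0) (XT.lf (nat_lit 0) (nat_lit 3409856334) (nat_lit 304) (nat_lit 12872321624) (nat_lit 76) (nat_lit 2278253077) (nat_lit 55) (nat_lit 5) (nat_lit 59) (nat_lit 5) (nat_lit 56) (nat_lit 5) (nat_lit 386) (nat_lit 350) (nat_lit 284)) (XT.lf (nat_lit 0) (nat_lit 7752097245) (nat_lit 304) (nat_lit 2371264175) (nat_lit 76) (nat_lit 9018429826) (nat_lit 55) (nat_lit 5) (nat_lit 59) (nat_lit 5) (nat_lit 56) (nat_lit 5) (nat_lit 387) (nat_lit 350) (nat_lit 283)))) (XT.nd (nat_lit 156) (nat_lit 228) (nat_lit 0) (XT.nd (nat_lit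 78) (nat_lit 152) (nat_lit 0) (XT.lf (nat_lit 0) (nat_lit 8901845478) (nat_lit 152) (nat_lit 3524403962) (nat_lit 228) (nat_lit 7320239367) (nat_lit 53) (nat_lit 5) (nat_lit 55) (nat_lit 5) (nat_lit 56) (nat_lit 5) (nat_lit 388) (nat_lit 350) (nat_lit 282)) (XT.lf (nat_lit 0) (nat_lit 360984215) (nat_lit 152) (nat_lit 17048903590) (nat_lit 228) (nat_lit 2967753373) (nat_lit 51) (nat_lit 5) (nat_lit 53) (nat_lit 5) (nat_lit 54) (nat_lit 5) (nat_lit 389) (nat_lit 350) (nat_lit 281))) (XT.nd (nat_lit 78) (nat_lit 152) (nat_lit 0) (XT.lf (nat_lit 0) (nat_lit 1771847457) (nat_lit 228) (nat_lit 8652031663) (nat_lit 76) (nat_lit 10604190419) (nat_lit 50) (nat_lit 5) (nat_lit 53) (nat_lit 5) (nat_lit 51) (nat_lit 5) (nat_lit 390) (nat_lit 350) (nat_lit 280)) (XT.lf (nat_lit 0) (nat_lit 3301210738) (nat_lit 152) (nat_lit 3376478732) (nat_lit 228) (nat_lit 15029455060) (nat_lit 48) (nat_lit 5) (nat_lit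 50) (nat_lit 5) (nat_lit 51) (nat_lit 5) (nat_lit 391) (nat_lit 350) (nat_lit 279))))))) (XT.nd (nat_lit 1014) (nat_lit 760) (nat_lit 0) (XT.nd (nat_lit 468) (nat_lit 608) (nat_lit 0) (XT.nd (nat_lit 234) (nat_lit 380) (nat_lit 0) (XT.nd (nat_lit 78) (nat_lit 152) (nat_lit 0) (XT.lf (nat_lit 0) (nat_lit 12018315248) (nat_lit 228) (nat_lit 6362491168) (nat_lit 76) (nat_lit 4029899558) (nat_lit 48) (nat_lit 5) (nat_lit 51) (nat_lit 5) (nat_lit 49) (nat_lit 5) (nat_lit 392) (nat_lit 350) (nat_lit 278)) (XT.nd (nat_lit 78) (nat_lit 0) (nat_lit 0) (XT.lf (nat_lit 0) (nat_lit 6397363689) (nat_lit 152) (nat_lit 11362649504) (nat_lit 228) (nat_lit 5382737195) (nat_lit 46) (nat_lit 5) (nat_lit 48) (nat_lit 5) (nat_lit 49) (nat_lit 5) (nat_lit 393) (nat_lit 350) (nat_lit 277)) (XT.lf (nat_lit 0) (nat_lit 19981506390) (nat_lit 152) (nat_lit 3894318504) (nat_lit 228) (nat_lit 31227297) (nat_lit 46)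 (nat_lit 5) (nat_lit 48) (nat_lit 5) (nat_lit 49) (nat_lit 5) (nat_lit 394) (nat_lit 350) (nat_lit 276)))) (XT.nd (nat_lit 78) (nat_lit 152) (nat_lit 0) (XT.lf (nat_lit 0) (nat_lit 5606129806) (nat_lit 228) (nat_lit 15038252063) (nat_lit 76) (nat_lit 4050975201) (nat_lit 43) (nat_lit 5) (nat_lit 46) (nat_lit 5) (nat_lit 44) (nat_lit 5) (nat_lit 395) (nat_lit 350) (nat_lit 275)) (XT.nd (nat_lit 78) (nat_lit 152) (nat_lit 0) (XT.lf (nat_lit 0) (nat_lit 11635880768) (nat_lit 228) (nat_lit 1563874848) (nat_lit 76) (nat_lit 12317722917) (nat_lit 43) (nat_lit 5) (nat_lit 46) (nat_lit 5) (nat_lit 44) (nat_lit 5) (nat_lit 396) (nat_lit 350) (nat_lit 274)) (XT.lf (nat_lit 0) (nat_lit 12967005345) (nat_lit 152) (nat_lit 5183673122) (nat_lit 228) (nat_lit 8220855084) (nat_lit 41) (nat_lit 5) (nat_lit 43) (nat_lit 5) (nat_lit 44) (nat_lit 5) (nat_lit 397) (nat_lit 350) (nat_lit 273))))) (XT.nd (nat_lit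 234) (nat_lit 304) (nat_lit 0) (XT.nd (nat_lit 78) (nat_lit 228) (nat_lit 0) (XT.lf (nat_lit 0) (nat_lit 959096066) (nat_lit 76) (nat_lit 24105798497) (nat_lit 152) (nat_lit 2199718008) (nat_lit 40) (nat_lit 5) (nat_lit 41) (nat_lit 5) (nat_lit 42) (nat_lit 4) (nat_lit 398) (nat_lit 350) (nat_lit 272)) (XT.nd (nat_lit 78) (nat_lit 152) (nat_lit 0) (XT.lf (nat_lit 0) (nat_lit 4287635552) (nat_lit 152) (nat_lit 11870322218) (nat_lit 76) (nat_lit 12026319071) (nat_lit 39) (nat_lit 5) (nat_lit 41) (nat_lit 5) (nat_lit 40) (nat_lit 5) (nat_lit 399) (nat_lit 350) (nat_lit 271)) (XT.lf (nat_lit 0) (nat_lit 3326033608) (nat_lit 152) (nat_lit 7733605676) (nat_lit 228) (nat_lit 18086776094) (nat_lit 37) (nat_lit 5) (nat_lit 39) (nat_lit 5) (nat_lit 40) (nat_lit 5) (nat_lit 400) (nat_lit 350) (nat_lit 270)))) (XT.nd (nat_lit 156) (nat_lit 228) (nat_lit 0) (XT.nd (nat_lit 78) (nat_lit 76) (nat_lit 0)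 (XT.lf (nat_lit 0) (nat_lit 18374370735) (nat_lit 228) (nat_lit 10504105824) (nat_lit 76) (nat_lit 1267982167) (nat_lit 37) (nat_lit 5) (nat_lit 40) (nat_lit 5) (nat_lit 38) (nat_lit 4) (nat_lit 401) (nat_lit 350) (nat_lit 269)) (XT.lf (nat_lit 0) (nat_lit 5600789420) (nat_lit 76) (nat_lit 20651551336) (nat_lit 152) (nat_lit 4934292445) (nat_lit 36) (nat_lit 5) (nat_lit 37) (nat_lit 5) (nat_lit 38) (nat_lit 4) (nat_lit 402) (nat_lit 350) (nat_lit 268))) (XT.nd (nat_lit 78) (nat_lit 152) (nat_lit 0) (XT.lf (nat_lit 0) (nat_lit 2337680404) (nat_lit 152) (nat_lit 9462036714) (nat_lit 76) (nat_lit 20469142413) (nat_lit 35) (nat_lit 5) (nat_lit 37) (nat_lit 5) (nat_lit 36) (nat_lit 5) (nat_lit 403) (nat_lit 350) (nat_lit 267)) (XT.lf (nat_lit 0) (nat_lit 7602050379) (nat_lit 152) (nat_lit 2308205047) (nat_lit 228) (nat_lit 23485759349) (nat_lit 33) (nat_lit 5) (nat_lit 35) (nat_lit 5) (nat_lit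 36) (nat_lit 5) (nat_lit 404) (nat_lit 350) (nat_lit 266)))))) (XT.nd (nat_lit 468) (nat_lit 380) (nat_lit 0) (XT.nd (nat_lit 234) (nat_lit 304) (nat_lit 0) (XT.nd (nat_lit 78) (nat_lit 76) (nat_lit 0) (XT.lf (nat_lit 0) (nat_lit 18128157613) (nat_lit 228) (nat_lit 8874325351) (nat_lit 76) (nat_lit 7563713235) (nat_lit 33) (nat_lit 5) (nat_lit 36) (nat_lit 5) (nat_lit 34) (nat_lit 4) (nat_lit 405) (nat_lit 350) (nat_lit 265)) (XT.nd (nat_lit 78) (nat_lit 0) (nat_lit 0) (XT.lf (nat_lit 0) (nat_lit 9118186372) (nat_lit 76) (nat_lit 17803983911) (nat_lit 152) (nat_lit 8864458821) (nat_lit 32) (nat_lit 5) (nat_lit 33) (nat_lit 5) (nat_lit 34) (nat_lit 4) (nat_lit 406) (nat_lit 350) (nat_lit 264)) (XT.lf (nat_lit 0) (nat_lit 28291748703) (nat_lit 76) (nat_lit 7999738513) (nat_lit 152) (nat_lit 769819287) (nat_lit 32) (nat_lit 5) (nat_lit 33) (nat_lit 5) (nat_lit 34) (nat_lit 4) (nat_lit 407)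 (nat_lit 350) (nat_lit 263)))) (XT.nd (nat_lit 78) (nat_lit 76) (nat_lit 0) (XT.lf (nat_lit 0) (nat_lit 7667491400) (nat_lit 228) (nat_lit 28222347824) (nat_lit 76) (nat_lit 2494580639) (nat_lit 29) (nat_lit 5) (nat_lit 32) (nat_lit 5) (nat_lit 30) (nat_lit 4) (nat_lit 408) (nat_lit 350) (nat_lit 262)) (XT.nd (nat_lit 78) (nat_lit 76) (nat_lit 0) (XT.lf (nat_lit 0) (nat_lit 16768771118) (nat_lit 228) (nat_lit 9593695252) (nat_lit 76) (nat_lit 13397195414) (nat_lit 29) (nat_lit 5) (nat_lit 32) (nat_lit 5) (nat_lit 30) (nat_lit 4) (nat_lit 409) (nat_lit 350) (nat_lit 261)) (XT.lf (nat_lit 0) (nat_lit 10270365921) (nat_lit 76) (nat_lit 16201650300) (nat_lit 152) (nat_lit 14724307002) (nat_lit 28) (nat_lit 5) (nat_lit 29) (nat_lit 5) (nat_lit 30) (nat_lit 4) (nat_lit 410) (nat_lit 350) (nat_lit 260))))) (XT.nd (nat_lit 234) (nat_lit 228) (nat_lit 0) (XT.nd (nat_lit 78) (nat_lit 152) (nat_lit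 0) (XT.lf (nat_lit 0) (nat_lit 31436360743) (nat_lit 76) (nat_lit 5373349252) (nat_lit 152) (nat_lit 5887645790) (nat_lit 28) (nat_lit 5) (nat_lit 29) (nat_lit 5) (nat_lit 30) (nat_lit 4) (nat_lit 411) (nat_lit 350) (nat_lit 259)) (XT.nd (nat_lit 78) (nat_lit 0) (nat_lit 0) (XT.lf (nat_lit 0) (nat_lit 3516505257) (nat_lit 152) (nat_lit 34742184086) (nat_lit 76) (nat_lit 6000396496) (nat_lit 26) (nat_lit 5) (nat_lit 28) (nat_lit 5) (nat_lit 27) (nat_lit 4) (nat_lit 412) (nat_lit 350) (nat_lit 258)) (XT.lf (nat_lit 0) (nat_lit 13462235545) (nat_lit 152) (nat_lit 14376136417) (nat_lit 76) (nat_lit 18042244786) (nat_lit 26) (nat_lit 5) (nat_lit 28) (nat_lit 5) (nat_lit 27) (nat_lit 4) (nat_lit 413) (nat_lit 350) (nat_lit 257)))) (XT.nd (nat_lit 156) (nat_lit 152) (nat_lit 0) (XT.nd (nat_lit 78) (nat_lit 0) (nat_lit 0) (XT.lf (nat_lit 0) (nat_lit 7216632491) (nat_lit 76) (nat_lit 16789206665)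 (nat_lit 152) (nat_lit 23572357658) (nat_lit 25) (nat_lit 5) (nat_lit 26) (nat_lit 5) (nat_lit 27) (nat_lit 4) (nat_lit 414) (nat_lit 350) (nat_lit 256)) (XT.lf (nat_lit 0) (nat_lit 30365952235) (nat_lit 76) (nat_lit 4942281451) (nat_lit 152) (nat_lit 14040843519) (nat_lit 25) (nat_lit 5) (nat_lit 26) (nat_lit 5) (nat_lit 27) (nat_lit 4) (nat_lit 415) (nat_lit 350) (nat_lit 255))) (XT.nd (nat_lit 78) (nat_lit 76) (nat_lit 0) (XT.lf (nat_lit 0) (nat_lit 3435597564) (nat_lit 76) (nat_lit 43899393470) (nat_lit 76) (nat_lit 3865550198) (nat_lit 24) (nat_lit 4) (nat_lit 25) (nat_lit 5) (nat_lit 25) (nat_lit 4) (nat_lit 416) (nat_lit 350) (nat_lit 254)) (XT.lf (nat_lit 0) (nat_lit 6996635658) (nat_lit 152) (nat_lit 25708525761) (nat_lit 76) (nat_lit 20414277711) (nat_lit 23) (nat_lit 5) (nat_lit 25) (nat_lit 5) (nat_lit 24) (nat_lit 4) (nat_lit 417) (nat_lit 350) (nat_lit 253))))))))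
noncomputable def xc124 : XT := (XT.nd (nat_lit 1950) (nat_lit 456) (nat_lit 0) (XT.nd (nat_lit 936) (nat_lit 456) (nat_lit 0) (XT.nd (nat_lit 468) (nat_lit 228) (nat_lit 0) (XT.nd (nat_lit 234) (nat_lit 228) (nat_lit 0) (XT.nd (nat_lit 78) (nat_lit 76) (nat_lit 0) (XT.lf (nat_lit 0) (nat_lit 18261149626) (nat_lit 152) (nat_lit 2633210783) (nat_lit 76) (nat_lit 34237298227) (nat_lit 23) (nat_lit 5) (nat_lit 25) (nat_lit 5) (nat_lit 24) (nat_lit 4) (nat_lit 418) (nat_lit 350) (nat_lit 252)) (XT.nd (nat_lit 78) (nat_lit 0) (nat_lit 0) (XT.lf (nat_lit 0) (nat_lit 22289704303) (nat_lit 76) (nat_lit 8136834172) (nat_lit 152) (nat_lit 26801069640) (nat_lit 22) (nat_lit 5) (nat_lit 23) (nat_lit 5) (nat_lit 24) (nat_lit 4) (nat_lit 419) (nat_lit 350) (nat_lit 251)) (XT.lf (nat_lit 0) (nat_lit 43317318351) (nat_lit 152) (nat_lit 10978400278) (nat_lit 0) (nat_lit 5126781748) (nat_lit 22) (nat_lit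 5) (nat_lit 24) (nat_lit 4) (nat_lit 22) (nat_lit 4) (nat_lit 420) (nat_lit 350) (nat_lit 250)))) (XT.nd (nat_lit 78) (nat_lit 152) (nat_lit 0) (XT.lf (nat_lit 0) (nat_lit 14490790973) (nat_lit 76) (nat_lit 42711664384) (nat_lit 76) (nat_lit 4507192307) (nat_lit 21) (nat_lit 4) (nat_lit 22) (nat_lit 5) (nat_lit 22) (nat_lit 4) (nat_lit 421) (nat_lit 350) (nat_lit 249)) (XT.nd (nat_lit 78) (nat_lit 76) (nat_lit 0) (XT.lf (nat_lit 0) (nat_lit 7604365775) (nat_lit 152) (nat_lit 22628794117) (nat_lit 76) (nat_lit 33863046615) (nat_lit 20) (nat_lit 5) (nat_lit 22) (nat_lit 5) (nat_lit 21) (nat_lit 4) (nat_lit 422) (nat_lit 350) (nat_lit 248)) (XT.lf (nat_lit 0) (nat_lit 3201527230) (nat_lit 76) (nat_lit 17009161098) (nat_lit 152) (nat_lit 46385678797) (nat_lit 19) (nat_lit 5) (nat_lit 20) (nat_lit 5) (nat_lit 21) (nat_lit 4) (nat_lit 423) (nat_lit 350) (nat_lit 247))))) (XT.nd (nat_lit 234) (nat_lit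 152) (nat_lit 0) (XT.nd (nat_lit 78) (nat_lit 76) (nat_lit 0) (XT.lf (nat_lit 0) (nat_lit 31091447956) (nat_lit 76) (nat_lit 2729951940) (nat_lit 152) (nat_lit 35381433320) (nat_lit 19) (nat_lit 5) (nat_lit 20) (nat_lit 5) (nat_lit 21) (nat_lit 4) (nat_lit 424) (nat_lit 350) (nat_lit 246)) (XT.nd (nat_lit 78) (nat_lit 76) (nat_lit 0) (XT.lf (nat_lit 0) (nat_lit 48295264964) (nat_lit 152) (nat_lit 11772235757) (nat_lit 0) (nat_lit 11862992030) (nat_lit 19) (nat_lit 5) (nat_lit 21) (nat_lit 4) (nat_lit 19) (nat_lit 4) (nat_lit 425) (nat_lit 350) (nat_lit 245)) (XT.lf (nat_lit 0) (nat_lit 16346090443) (nat_lit 76) (nat_lit 47438270365) (nat_lit 76) (nat_lit 10995598565) (nat_lit 18) (nat_lit 4) (nat_lit 19) (nat_lit 5) (nat_lit 19) (nat_lit 4) (nat_lit 426) (nat_lit 350) (nat_lit 244)))) (XT.nd (nat_lit 78) (nat_lit 76) (nat_lit 0) (XT.lf (nat_lit 0) (nat_lit 2397394009) (nat_lit 152) (nat_lit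 31537917763) (nat_lit 76) (nat_lit 43825100276) (nat_lit 17) (nat_lit 5) (nat_lit 19) (nat_lit 5) (nat_lit 18) (nat_lit 4) (nat_lit 427) (nat_lit 350) (nat_lit 243)) (XT.nd (nat_lit 78) (nat_lit 76) (nat_lit 0) (XT.lf (nat_lit 0) (nat_lit 16082504043) (nat_lit 152) (nat_lit 3492874271) (nat_lit 76) (nat_lit 61305897507) (nat_lit 17) (nat_lit 5) (nat_lit 19) (nat_lit 5) (nat_lit 18) (nat_lit 4) (nat_lit 428) (nat_lit 350) (nat_lit 242)) (XT.lf (nat_lit 0) (nat_lit 26797391446) (nat_lit 76) (nat_lit 4065233889) (nat_lit 152) (nat_lit 53275020472) (nat_lit 16) (nat_lit 5) (nat_lit 17) (nat_lit 5) (nat_lit 18) (nat_lit 4) (nat_lit 429) (nat_lit 350) (nat_lit 241)))))) (XT.nd (nat_lit 468) (nat_lit 228) (nat_lit 0) (XT.nd (nat_lit 234) (nat_lit 152) (nat_lit 0) (XT.nd (nat_lit 78) (nat_lit 76) (nat_lit 0) (XT.lf (nat_lit 0) (nat_lit 46625072349) (nat_lit 152) (nat_lit 29036948824) (nat_lit 0)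 (nat_lit 11882647907) (nat_lit 16) (nat_lit 5) (nat_lit 18) (nat_lit 4) (nat_lit 16) (nat_lit 4) (nat_lit 430) (nat_lit 350) (nat_lit 240)) (XT.nd (nat_lit 78) (nat_lit 0) (nat_lit 0) (XT.lf (nat_lit 0) (nat_lit 620704599) (nat_lit 76) (nat_lit 62624034510) (nat_lit 76) (nat_lit 27873850275) (nat_lit 15) (nat_lit 4) (nat_lit 16) (nat_lit 5) (nat_lit 16) (nat_lit 4) (nat_lit 431) (nat_lit 350) (nat_lit 239)) (XT.lf (nat_lit 0) (nat_lit 32755523816) (nat_lit 76) (nat_lit 48424512377) (nat_lit 76) (nat_lit 13666937861) (nat_lit 15) (nat_lit 4) (nat_lit 16) (nat_lit 5) (nat_lit 16) (nat_lit 4) (nat_lit 432) (nat_lit 350) (nat_lit 238)))) (XT.nd (nat_lit 78) (nat_lit 76) (nat_lit 0) (XT.lf (nat_lit 0) (nat_lit 1203421172) (nat_lit 152) (nat_lit 32297599472) (nat_lit 76) (nat_lit 65260125946) (nat_lit 14) (nat_lit 5) (nat_lit 16) (nat_lit 5) (nat_lit 15) (nat_lit 4) (nat_lit 433) (nat_lit 350)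 (nat_lit 237)) (XT.nd (nat_lit 78) (nat_lit 76) (nat_lit 0) (XT.lf (nat_lit 0) (nat_lit 16351446146) (nat_lit 152) (nat_lit 1250851478) (nat_lit 76) (nat_lit 85257855991) (nat_lit 14) (nat_lit 5) (nat_lit 16) (nat_lit 5) (nat_lit 15) (nat_lit 4) (nat_lit 434) (nat_lit 350) (nat_lit 236)) (XT.lf (nat_lit 0) (nat_lit 32372206551) (nat_lit 76) (nat_lit 383845463) (nat_lit 152) (nat_lit 74383100570) (nat_lit 13) (nat_lit 5) (nat_lit 14) (nat_lit 5) (nat_lit 15) (nat_lit 4) (nat_lit 435) (nat_lit 350) (nat_lit 235))))) (XT.nd (nat_lit 234) (nat_lit 152) (nat_lit 0) (XT.nd (nat_lit 78) (nat_lit 76) (nat_lit 0) (XT.lf (nat_lit 0) (nat_lit 50272474758) (nat_lit 152) (nat_lit 44199982809) (nat_lit 0) (nat_lit 17145065156) (nat_lit 13) (nat_lit 5) (nat_lit 15) (nat_lit 4) (nat_lit 13) (nat_lit 4) (nat_lit 436) (nat_lit 350) (nat_lit 234)) (XT.nd (nat_lit 78) (nat_lit 76) (nat_lit 0) (XT.lf (nat_lit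 0) (nat_lit 68665086163) (nat_lit 152) (nat_lit 12122545531) (nat_lit 0) (nat_lit 35532161821) (nat_lit 13) (nat_lit 5) (nat_lit 15) (nat_lit 4) (nat_lit 13) (nat_lit 4) (nat_lit 437) (nat_lit 350) (nat_lit 233)) (XT.lf (nat_lit 0) (nat_lit 22260198937) (nat_lit 76) (nat_lit 66059030411) (nat_lit 76) (nat_lit 32920853935) (nat_lit 12) (nat_lit 4) (nat_lit 13) (nat_lit 5) (nat_lit 13) (nat_lit 4) (nat_lit 438) (nat_lit 350) (nat_lit 232)))) (XT.nd (nat_lit 156) (nat_lit 152) (nat_lit 0) (XT.nd (nat_lit 78) (nat_lit 0) (nat_lit 0) (XT.lf (nat_lit 0) (nat_lit 58772095885) (nat_lit 76) (nat_lit 50383741379) (nat_lit 76) (nat_lit 17240562871) (nat_lit 12) (nat_lit 4) (nat_lit 13) (nat_lit 5) (nat_lit 13) (nat_lit 4) (nat_lit 439) (nat_lit 350) (nat_lit 231)) (XT.lf (nat_lit 0) (nat_lit 97099252298) (nat_lit 76) (nat_lit 33929743657) (nat_lit 76) (nat_lit 781801309) (nat_lit 12) (nat_lit 4) (nat_lit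 13) (nat_lit 5) (nat_lit 13) (nat_lit 4) (nat_lit 440) (nat_lit 350) (nat_lit 230))) (XT.nd (nat_lit 78) (nat_lit 76) (nat_lit 0) (XT.lf (nat_lit 0) (nat_lit 15966687482) (nat_lit 152) (nat_lit 420769999) (nat_lit 76) (nat_lit 121095832248) (nat_lit 11) (nat_lit 5) (nat_lit 13) (nat_lit 5) (nat_lit 12) (nat_lit 4) (nat_lit 441) (nat_lit 350) (nat_lit 229)) (XT.lf (nat_lit 0) (nat_lit 34136307682) (nat_lit 152) (nat_lit 106713557021) (nat_lit 0) (nat_lit 2558402651) (nat_lit 10) (nat_lit 5) (nat_lit 12) (nat_lit 4) (nat_lit 10) (nat_lit 4) (nat_lit 442) (nat_lit 350) (nat_lit 228))))))) (XT.nd (nat_lit 1014) (nat_lit 228) (nat_lit 0) (XT.nd (nat_lit 468) (nat_lit 152) (nat_lit 0) (XT.nd (nat_lit 234) (nat_lit 76) (nat_lit 0) (XT.nd (nat_lit 78) (nat_lit 0) (nat_lit 0) (XT.lf (nat_lit 0) (nat_lit 53485444325) (nat_lit 152) (nat_lit 74226878066) (nat_lit 0) (nat_lit 21903620071) (nat_lit 10)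 (nat_lit 5) (nat_lit 12) (nat_lit 4) (nat_lit 10) (nat_lit 4) (nat_lit 443) (nat_lit 350) (nat_lit 227)) (XT.nd (nat_lit 78) (nat_lit 0) (nat_lit 0) (XT.lf (nat_lit 0) (nat_lit 73797414778) (nat_lit 152) (nat_lit 40124960122) (nat_lit 0) (nat_lit 42211857931) (nat_lit 10) (nat_lit 5) (nat_lit 12) (nat_lit 4) (nat_lit 10) (nat_lit 4) (nat_lit 444) (nat_lit 350) (nat_lit 226)) (XT.lf (nat_lit 0) (nat_lit 95120580876) (nat_lit 152) (nat_lit 4326608145) (nat_lit 0) (nat_lit 63531469177) (nat_lit 10) (nat_lit 5) (nat_lit 12) (nat_lit 4) (nat_lit 10) (nat_lit 4) (nat_lit 445) (nat_lit 350) (nat_lit 225)))) (XT.nd (nat_lit 78) (nat_lit 0) (nat_lit 0) (XT.lf (nat_lit 0) (nat_lit 34352920012) (nat_lit 76) (nat_lit 83689137403) (nat_lit 76) (nat_lit 52096640132) (nat_lit 9) (nat_lit 4) (nat_lit 10) (nat_lit 5) (nat_lit 10) (nat_lit 4) (nat_lit 446) (nat_lit 350) (nat_lit 224)) (XT.nd (nat_lit 78)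 (nat_lit 0) (nat_lit 0) (XT.lf (nat_lit 0) (nat_lit 75108518302) (nat_lit 76) (nat_lit 67070242423) (nat_lit 76) (nat_lit 35474520798) (nat_lit 9) (nat_lit 4) (nat_lit 10) (nat_lit 5) (nat_lit 10) (nat_lit 4) (nat_lit 447) (nat_lit 350) (nat_lit 223)) (XT.lf (nat_lit 0) (nat_lit 117894166659) (nat_lit 76) (nat_lit 49624208486) (nat_lit 76) (nat_lit 18025416047) (nat_lit 9) (nat_lit 4) (nat_lit 10) (nat_lit 5) (nat_lit 10) (nat_lit 4) (nat_lit 448) (nat_lit 350) (nat_lit 222))))) (XT.nd (nat_lit 234) (nat_lit 0) (nat_lit 0) (XT.nd (nat_lit 78) (nat_lit 76) (nat_lit 0) (XT.lf (nat_lit 0) (nat_lit 282866755) (nat_lit 152) (nat_lit 31021840175) (nat_lit 76) (nat_lit 162524078432) (nat_lit 8) (nat_lit 5) (nat_lit 10) (nat_lit 5) (nat_lit 9) (nat_lit 4) (nat_lit 449) (nat_lit 350) (nat_lit 221)) (XT.nd (nat_lit 78) (nat_lit 0) (nat_lit 0) (XT.lf (nat_lit 0) (nat_lit 7370609227) (nat_lit 76) (nat_lit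 11641640318) (nat_lit 152) (nat_lit 183495432114) (nat_lit 7) (nat_lit 5) (nat_lit 8) (nat_lit 5) (nat_lit 9) (nat_lit 4) (nat_lit 450) (nat_lit 350) (nat_lit 220)) (XT.lf (nat_lit 0) (nat_lit 39349061559) (nat_lit 152) (nat_lit 162990904297) (nat_lit 0) (nat_lit 9247009152) (nat_lit 7) (nat_lit 5) (nat_lit 9) (nat_lit 4) (nat_lit 7) (nat_lit 4) (nat_lit 451) (nat_lit 350) (nat_lit 219)))) (XT.nd (nat_lit 156) (nat_lit 0) (nat_lit 0) (XT.nd (nat_lit 78) (nat_lit 0) (nat_lit 0) (XT.lf (nat_lit 0) (nat_lit 60890123463) (nat_lit 152) (nat_lit 129435074331) (nat_lit 0) (nat_lit 30785664993) (nat_lit 7) (nat_lit 5) (nat_lit 9) (nat_lit 4) (nat_lit 7) (nat_lit 4) (nat_lit 452) (nat_lit 350) (nat_lit 218)) (XT.lf (nat_lit 0) (nat_lit 83504964870) (nat_lit 152) (nat_lit 94207929073) (nat_lit 0) (nat_lit 53398214911) (nat_lit 7) (nat_lit 5) (nat_lit 9) (nat_lit 4) (nat_lit 7) (nat_lit 4) (nat_lit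 453) (nat_lit 350) (nat_lit 217))) (XT.nd (nat_lit 78) (nat_lit 0) (nat_lit 0) (XT.lf (nat_lit 0) (nat_lit 107247430639) (nat_lit 152) (nat_lit 57225594365) (nat_lit 0) (nat_lit 77138498310) (nat_lit 7) (nat_lit 5) (nat_lit 9) (nat_lit 4) (nat_lit 7) (nat_lit 4) (nat_lit 454) (nat_lit 350) (nat_lit 216)) (XT.lf (nat_lit 0) (nat_lit 132174050451) (nat_lit 152) (nat_lit 18400017031) (nat_lit 0) (nat_lit 102063039675) (nat_lit 7) (nat_lit 5) (nat_lit 9) (nat_lit 4) (nat_lit 7) (nat_lit 4) (nat_lit 455) (nat_lit 350) (nat_lit 215)))))) (XT.nd (nat_lit 468) (nat_lit 152) (nat_lit 0) (XT.nd (nat_lit 234) (nat_lit 0) (nat_lit 0) (XT.nd (nat_lit 78) (nat_lit 0) (nat_lit 0) (XT.lf (nat_lit 0) (nat_lit 23100608518) (nat_lit 76) (nat_lit 135604230122) (nat_lit 76) (nat_lit 105491239871) (nat_lit 6) (nat_lit 4) (nat_lit 7) (nat_lit 5) (nat_lit 7) (nat_lit 4) (nat_lit 456) (nat_lit 350) (nat_lit 214))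 (XT.nd (nat_lit 78) (nat_lit 0) (nat_lit 0) (XT.lf (nat_lit 0) (nat_lit 67309568231) (nat_lit 76) (nat_lit 119561432070) (nat_lit 76) (nat_lit 89446556607) (nat_lit 6) (nat_lit 4) (nat_lit 7) (nat_lit 5) (nat_lit 7) (nat_lit 4) (nat_lit 457) (nat_lit 350) (nat_lit 213)) (XT.lf (nat_lit 0) (nat_lit 113723733876) (nat_lit 76) (nat_lit 102719089382) (nat_lit 76) (nat_lit 72602418477) (nat_lit 6) (nat_lit 4) (nat_lit 7) (nat_lit 5) (nat_lit 7) (nat_lit 4) (nat_lit 458) (nat_lit 350) (nat_lit 212)))) (XT.nd (nat_lit 78) (nat_lit 0) (nat_lit 0) (XT.lf (nat_lit 0) (nat_lit 162453615370) (nat_lit 76) (nat_lit 85037101241) (nat_lit 76) (nat_lit 54918720392) (nat_lit 6) (nat_lit 4) (nat_lit 7) (nat_lit 5) (nat_lit 7) (nat_lit 4) (nat_lit 459) (nat_lit 350) (nat_lit 211)) (XT.nd (nat_lit 78) (nat_lit 0) (nat_lit 0) (XT.lf (nat_lit 0) (nat_lit 213615236240) (nat_lit 76) (nat_lit 66473367675) (nat_lit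 76) (nat_lit 36353358308) (nat_lit 6) (nat_lit 4) (nat_lit 7) (nat_lit 5) (nat_lit 7) (nat_lit 4) (nat_lit 460) (nat_lit 350) (nat_lit 210)) (XT.lf (nat_lit 0) (nat_lit 267330409870) (nat_lit 76) (nat_lit 46983689319) (nat_lit 76) (nat_lit 16862128982) (nat_lit 6) (nat_lit 4) (nat_lit 7) (nat_lit 5) (nat_lit 7) (nat_lit 4) (nat_lit 461) (nat_lit 350) (nat_lit 209))))) (XT.nd (nat_lit 234) (nat_lit 0) (nat_lit 0) (XT.nd (nat_lit 78) (nat_lit 76) (nat_lit 0) (XT.lf (nat_lit 0) (nat_lit 3486108773) (nat_lit 152) (nat_lit 22976514465) (nat_lit 76) (nat_lit 320181881819) (nat_lit 5) (nat_lit 5) (nat_lit 7) (nat_lit 5) (nat_lit 6) (nat_lit 4) (nat_lit 462) (nat_lit 350) (nat_lit 208)) (XT.nd (nat_lit 78) (nat_lit 0) (nat_lit 0) (XT.lf (nat_lit 0) (nat_lit 20305553634) (nat_lit 76) (nat_lit 4294445322) (nat_lit 152) (nat_lit 338256629607) (nat_lit 4) (nat_lit 5) (nat_lit 5) (nat_lit 5) (nat_lit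 6) (nat_lit 4) (nat_lit 463) (nat_lit 350) (nat_lit 207)) (XT.lf (nat_lit 0) (nat_lit 47459341895) (nat_lit 152) (nat_lit 313617409532) (nat_lit 0) (nat_lit 18768119026) (nat_lit 4) (nat_lit 5) (nat_lit 6) (nat_lit 4) (nat_lit 4) (nat_lit 4) (nat_lit 464) (nat_lit 350) (nat_lit 206)))) (XT.nd (nat_lit 156) (nat_lit 0) (nat_lit 0) (XT.nd (nat_lit 78) (nat_lit 0) (nat_lit 0) (XT.lf (nat_lit 0) (nat_lit 71530049334) (nat_lit 152) (nat_lit 283311444111) (nat_lit 0) (nat_lit 42837611240) (nat_lit 4) (nat_lit 5) (nat_lit 6) (nat_lit 4) (nat_lit 4) (nat_lit 4) (nat_lit 465) (nat_lit 350) (nat_lit 205)) (XT.lf (nat_lit 0) (nat_lit 96802384155) (nat_lit 152) (nat_lit 251493973279) (nat_lit 0) (nat_lit 68108788704) (nat_lit 4) (nat_lit 5) (nat_lit 6) (nat_lit 4) (nat_lit 4) (nat_lit 4) (nat_lit 466) (nat_lit 350) (nat_lit 204))) (XT.nd (nat_lit 78) (nat_lit 0) (nat_lit 0) (XT.lf (nat_lit 0) (nat_lit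 123336518584) (nat_lit 152) (nat_lit 218089241154) (nat_lit 0) (nat_lit 94641820887) (nat_lit 4) (nat_lit 5) (nat_lit 6) (nat_lit 4) (nat_lit 4) (nat_lit 4) (nat_lit 467) (nat_lit 350) (nat_lit 203)) (XT.lf (nat_lit 0) (nat_lit 151195629131) (nat_lit 152) (nat_lit 183017712659) (nat_lit 0) (nat_lit 122499881677) (nat_lit 4) (nat_lit 5) (nat_lit 6) (nat_lit 4) (nat_lit 4) (nat_lit 4) (nat_lit 468) (nat_lit 350) (nat_lit 202))))))))
noncomputable def xc125 : XT := (XT.nd (nat_lit 45162) (nat_lit 0) (nat_lit 3420) (XT.nd (nat_lit 44148) (nat_lit 0) (nat_lit 7372) (XT.nd (nat_lit 468) (nat_lit 0) (nat_lit 0) (XT.nd (nat_lit 234) (nat_lit 76) (nat_lit 0) (XT.nd (nat_lit 78) (nat_lit 0) (nat_lit 0) (XT.lf (nat_lit 0) (nat_lit 180446047011) (nat_lit 152) (nat_lit 146195884155) (nat_lit 0) (nat_lit 151749299788) (nat_lit 4) (nat_lit 5) (nat_lit 6) (nat_lit 4) (nat_lit 4) (nat_lit 4) (nat_lit 469)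 (nat_lit 350) (nat_lit 201)) (XT.nd (nat_lit 78) (nat_lit 0) (nat_lit 0) (XT.lf (nat_lit 0) (nat_lit 211157416077) (nat_lit 152) (nat_lit 107536084621) (nat_lit 0) (nat_lit 182459716693) (nat_lit 4) (nat_lit 5) (nat_lit 6) (nat_lit 4) (nat_lit 4) (nat_lit 4) (nat_lit 470) (nat_lit 350) (nat_lit 200)) (XT.lf (nat_lit 0) (nat_lit 243402858636) (nat_lit 152) (nat_lit 66946266916) (nat_lit 0) (nat_lit 214704252432) (nat_lit 4) (nat_lit 5) (nat_lit 6) (nat_lit 4) (nat_lit 4) (nat_lit 4) (nat_lit 471) (nat_lit 350) (nat_lit 199)))) (XT.nd (nat_lit 78) (nat_lit 76) (nat_lit 0) (XT.lf (nat_lit 0) (nat_lit 277259149552) (nat_lit 152) (nat_lit 24329788617) (nat_lit 0) (nat_lit 248559679710) (nat_lit 4) (nat_lit 5) (nat_lit 6) (nat_lit 4) (nat_lit 4) (nat_lit 4) (nat_lit 472) (nat_lit 350) (nat_lit 198)) (XT.nd (nat_lit 78) (nat_lit 0) (nat_lit 0) (XT.lf (nat_lit 0) (nat_lit 21089824163) (nat_lit 76)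 (nat_lit 292046346136) (nat_lit 76) (nat_lit 263346053781) (nat_lit 3) (nat_lit 4) (nat_lit 4) (nat_lit 5) (nat_lit 4) (nat_lit 4) (nat_lit 473) (nat_lit 350) (nat_lit 197)) (XT.lf (nat_lit 0) (nat_lit 69622440866) (nat_lit 76) (nat_lit 281595305151) (nat_lit 76) (nat_lit 252894229452) (nat_lit 3) (nat_lit 4) (nat_lit 4) (nat_lit 5) (nat_lit 4) (nat_lit 4) (nat_lit 474) (nat_lit 350) (nat_lit 196))))) (XT.nd (nat_lit 43446) (nat_lit 0) (nat_lit 9728) (XT.nd (nat_lit 78) (nat_lit 0) (nat_lit 0) (XT.lf (nat_lit 0) (nat_lit 120579162653) (nat_lit 76) (nat_lit 270622968528) (nat_lit 76) (nat_lit 241921146786) (nat_lit 3) (nat_lit 4) (nat_lit 4) (nat_lit 5) (nat_lit 4) (nat_lit 4) (nat_lit 475) (nat_lit 350) (nat_lit 195)) (XT.nd (nat_lit 78) (nat_lit 0) (nat_lit 0) (XT.lf (nat_lit 0) (nat_lit 174081315052) (nat_lit 76) (nat_lit 259103211654) (nat_lit 76) (nat_lit 230400679395) (nat_lit 3) (nat_lit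 4) (nat_lit 4) (nat_lit 5) (nat_lit 4) (nat_lit 4) (nat_lit 476) (nat_lit 350) (nat_lit 194)) (XT.lf (nat_lit 0) (nat_lit 230256284139) (nat_lit 76) (nat_lit 247008606537) (nat_lit 76) (nat_lit 218305397595) (nat_lit 3) (nat_lit 4) (nat_lit 4) (nat_lit 5) (nat_lit 4) (nat_lit 4) (nat_lit 477) (nat_lit 350) (nat_lit 193)))) (XT.nd (nat_lit 78) (nat_lit 608) (nat_lit 0) (XT.lf (nat_lit 0) (nat_lit 1573946123) (nat_lit 0) (nat_lit 1573946123) (nat_lit 532) (nat_lit 776298530) (nat_lit 139) (nat_lit 5) (nat_lit 139) (nat_lit 3) (nat_lit 146) (nat_lit 3) (nat_lit 351) (nat_lit 351) (nat_lit 318)) (XT.nd (nat_lit 78) (nat_lit 608) (nat_lit 0) (XT.lf (nat_lit 0) (nat_lit 7098706286) (nat_lit 0) (nat_lit 582820683) (nat_lit 532) (nat_lit 300572632) (nat_lit 139) (nat_lit 5) (nat_lit 139) (nat_lit 3) (nat_lit 146) (nat_lit 3) (nat_lit 352) (nat_lit 351) (nat_lit 317)) (XT.lf (nat_lit 0) (nat_lit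 985688691) (nat_lit 608) (nat_lit 4989818231) (nat_lit 684) (nat_lit 2146065916) (nat_lit 131) (nat_lit 5) (nat_lit 139) (nat_lit 5) (nat_lit 140) (nat_lit 5) (nat_lit 353) (nat_lit 351) (nat_lit 316)))))) (XT.nd (nat_lit 468) (nat_lit 1824) (nat_lit 0) (XT.nd (nat_lit 234) (nat_lit 532) (nat_lit 0) (XT.nd (nat_lit 78) (nat_lit 0) (nat_lit 0) (XT.lf (nat_lit 0) (nat_lit 2274654220) (nat_lit 608) (nat_lit 949473921) (nat_lit 684) (nat_lit 5046282969) (nat_lit 131) (nat_lit 5) (nat_lit 139) (nat_lit 5) (nat_lit 140) (nat_lit 5) (nat_lit 354) (nat_lit 351) (nat_lit 315)) (XT.nd (nat_lit 78) (nat_lit 0) (nat_lit 76) (XT.lf (nat_lit 76) (nat_lit 3356699668) (nat_lit 0) (nat_lit 251139620) (nat_lit 684) (nat_lit 4819922839) (nat_lit 132) (nat_lit 5) (nat_lit 131) (nat_lit 5) (nat_lit 140) (nat_lit 5) (nat_lit 355) (nat_lit 351) (nat_lit 314)) (XT.lf (nat_lit 0) (nat_lit 4999416502) (nat_lit 608)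 (nat_lit 773000347) (nat_lit 684) (nat_lit 2821033768) (nat_lit 132) (nat_lit 5) (nat_lit 140) (nat_lit 5) (nat_lit 141) (nat_lit 5) (nat_lit 356) (nat_lit 351) (nat_lit 313)))) (XT.nd (nat_lit 78) (nat_lit 608) (nat_lit 0) (XT.lf (nat_lit 76) (nat_lit 3813239061) (nat_lit 0) (nat_lit 2644864918) (nat_lit 684) (nat_lit 2309496852) (nat_lit 133) (nat_lit 5) (nat_lit 132) (nat_lit 5) (nat_lit 141) (nat_lit 5) (nat_lit 357) (nat_lit 351) (nat_lit 312)) (XT.nd (nat_lit 78) (nat_lit 684) (nat_lit 0) (XT.lf (nat_lit 0) (nat_lit 7949658753) (nat_lit 608) (nat_lit 351847046) (nat_lit 684) (nat_lit 651007418) (nat_lit 133) (nat_lit 5) (nat_lit 141) (nat_lit 5) (nat_lit 142) (nat_lit 5) (nat_lit 358) (nat_lit 351) (nat_lit 311)) (XT.lf (nat_lit 0) (nat_lit 412008597) (nat_lit 684) (nat_lit 4613227766) (nat_lit 760) (nat_lit 4118458112) (nat_lit 124) (nat_lit 5) (nat_lit 133) (nat_lit 5) (nat_lit 134)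 (nat_lit 5) (nat_lit 359) (nat_lit 351) (nat_lit 310))))) (XT.nd (nat_lit 234) (nat_lit 1216) (nat_lit 0) (XT.nd (nat_lit 78) (nat_lit 608) (nat_lit 0) (XT.lf (nat_lit 76) (nat_lit 270609761) (nat_lit 0) (nat_lit 1544430243) (nat_lit 760) (nat_lit 7531060716) (nat_lit 125) (nat_lit 5) (nat_lit 124) (nat_lit 5) (nat_lit 134) (nat_lit 5) (nat_lit 360) (nat_lit 351) (nat_lit 309)) (XT.nd (nat_lit 78) (nat_lit 684) (nat_lit 0) (XT.lf (nat_lit 0) (nat_lit 3343706187) (nat_lit 684) (nat_lit 4078960904) (nat_lit 76) (nat_lit 2133228235) (nat_lit 125) (nat_lit 5) (nat_lit 134) (nat_lit 5) (nat_lit 126) (nat_lit 5) (nat_lit 361) (nat_lit 351) (nat_lit 308)) (XT.lf (nat_lit 0) (nat_lit 1131816886) (nat_lit 684) (nat_lit 3805812131) (nat_lit 760) (nat_lit 4839149679) (nat_lit 116) (nat_lit 5) (nat_lit 125) (nat_lit 5) (nat_lit 126) (nat_lit 5) (nat_lit 362) (nat_lit 351) (nat_lit 307)))) (XT.nd (nat_lit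 156) (nat_lit 456) (nat_lit 0) (XT.nd (nat_lit 78) (nat_lit 760) (nat_lit 0) (XT.lf (nat_lit 0) (nat_lit 6629134673) (nat_lit 760) (nat_lit 3310003658) (nat_lit 76) (nat_lit 68711856) (nat_lit 116) (nat_lit 5) (nat_lit 126) (nat_lit 5) (nat_lit 117) (nat_lit 5) (nat_lit 363) (nat_lit 351) (nat_lit 306)) (XT.lf (nat_lit 0) (nat_lit 2255313780) (nat_lit 760) (nat_lit 6197791340) (nat_lit 836) (nat_lit 1795012118) (nat_lit 106) (nat_lit 5) (nat_lit 116) (nat_lit 5) (nat_lit 117) (nat_lit 5) (nat_lit 364) (nat_lit 351) (nat_lit 305))) (XT.nd (nat_lit 78) (nat_lit 456) (nat_lit 0) (XT.lf (nat_lit 0) (nat_lit 8168375436) (nat_lit 760) (nat_lit 2207900409) (nat_lit 836) (nat_lit 123756436) (nat_lit 106) (nat_lit 5) (nat_lit 116) (nat_lit 5) (nat_lit 117) (nat_lit 5) (nat_lit 365) (nat_lit 351) (nat_lit 304)) (XT.lf (nat_lit 0) (nat_lit 1621759209) (nat_lit 456) (nat_lit 7135729727) (nat_lit 76)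 (nat_lit 2003667297) (nat_lit 100) (nat_lit 5) (nat_lit 106) (nat_lit 5) (nat_lit 101) (nat_lit 5) (nat_lit 366) (nat_lit 351) (nat_lit 303))))))) (XT.nd (nat_lit 1014) (nat_lit 1748) (nat_lit 0) (XT.nd (nat_lit 468) (nat_lit 1140) (nat_lit 0) (XT.nd (nat_lit 234) (nat_lit 380) (nat_lit 0) (XT.nd (nat_lit 78) (nat_lit 684) (nat_lit 0) (XT.lf (nat_lit 0) (nat_lit 3481714854) (nat_lit 456) (nat_lit 1157335556) (nat_lit 76) (nat_lit 6394648370) (nat_lit 100) (nat_lit 5) (nat_lit 106) (nat_lit 5) (nat_lit 101) (nat_lit 5) (nat_lit 367) (nat_lit 351) (nat_lit 302)) (XT.nd (nat_lit 78) (nat_lit 380) (nat_lit 0) (XT.lf (nat_lit 0) (nat_lit 5243600355) (nat_lit 304) (nat_lit 230071489) (nat_lit 380) (nat_lit 5844275002) (nat_lit 96) (nat_lit 5) (nat_lit 100) (nat_lit 5) (nat_lit 101) (nat_lit 5) (nat_lit 368) (nat_lit 351) (nat_lit 301)) (XT.lf (nat_lit 0) (nat_lit 283849043) (nat_lit 380) (nat_lit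 7332884211) (nat_lit 456) (nat_lit 3997125940) (nat_lit 91) (nat_lit 5) (nat_lit 96) (nat_lit 5) (nat_lit 97) (nat_lit 5) (nat_lit 369) (nat_lit 351) (nat_lit 300)))) (XT.nd (nat_lit 78) (nat_lit 380) (nat_lit 0) (XT.lf (nat_lit 0) (nat_lit 7122116352) (nat_lit 380) (nat_lit 2811159310) (nat_lit 456) (nat_lit 1988001014) (nat_lit 91) (nat_lit 5) (nat_lit 96) (nat_lit 5) (nat_lit 97) (nat_lit 5) (nat_lit 370) (nat_lit 351) (nat_lit 299)) (XT.nd (nat_lit 78) (nat_lit 0) (nat_lit 0) (XT.lf (nat_lit 0) (nat_lit 141876765) (nat_lit 380) (nat_lit 10196178552) (nat_lit 76) (nat_lit 1904728915) (nat_lit 86) (nat_lit 5) (nat_lit 91) (nat_lit 5) (nat_lit 87) (nat_lit 5) (nat_lit 371) (nat_lit 351) (nat_lit 298)) (XT.lf (nat_lit 0) (nat_lit 2402236271) (nat_lit 380) (nat_lit 3300159116) (nat_lit 76) (nat_lit 6871824767) (nat_lit 86) (nat_lit 5) (nat_lit 91) (nat_lit 5) (nat_lit 87) (nat_lit 5) (nat_lit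 372) (nat_lit 351) (nat_lit 297))))) (XT.nd (nat_lit 234) (nat_lit 608) (nat_lit 0) (XT.nd (nat_lit 78) (nat_lit 228) (nat_lit 0) (XT.lf (nat_lit 0) (nat_lit 4026560566) (nat_lit 304) (nat_lit 775828252) (nat_lit 380) (nat_lit 8118521620) (nat_lit 82) (nat_lit 5) (nat_lit 86) (nat_lit 5) (nat_lit 87) (nat_lit 5) (nat_lit 373) (nat_lit 351) (nat_lit 296)) (XT.nd (nat_lit 78) (nat_lit 228) (nat_lit 0) (XT.lf (nat_lit 0) (nat_lit 7412859990) (nat_lit 380) (nat_lit 1561458586) (nat_lit 76) (nat_lit 4306121415) (nat_lit 82) (nat_lit 5) (nat_lit 87) (nat_lit 5) (nat_lit 83) (nat_lit 5) (nat_lit 374) (nat_lit 351) (nat_lit 295)) (XT.lf (nat_lit 0) (nat_lit 6284658148) (nat_lit 228) (nat_lit 3946564227) (nat_lit 304) (nat_lit 3422874601) (nat_lit 79) (nat_lit 5) (nat_lit 82) (nat_lit 5) (nat_lit 83) (nat_lit 5) (nat_lit 375) (nat_lit 351) (nat_lit 294)))) (XT.nd (nat_lit 156) (nat_lit 228) (nat_lit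 0) (XT.nd (nat_lit 78) (nat_lit 76) (nat_lit 0) (XT.lf (nat_lit 0) (nat_lit 483736938) (nat_lit 304) (nat_lit 12729345268) (nat_lit 380) (nat_lit 832244052) (nat_lit 75) (nat_lit 5) (nat_lit 79) (nat_lit 5) (nat_lit 80) (nat_lit 5) (nat_lit 376) (nat_lit 351) (nat_lit 293)) (XT.lf (nat_lit 0) (nat_lit 1986747436) (nat_lit 380) (nat_lit 5603753800) (nat_lit 76) (nat_lit 6856195960) (nat_lit 74) (nat_lit 5) (nat_lit 79) (nat_lit 5) (nat_lit 75) (nat_lit 5) (nat_lit 377) (nat_lit 351) (nat_lit 292))) (XT.nd (nat_lit 78) (nat_lit 0) (nat_lit 0) (XT.lf (nat_lit 0) (nat_lit 2786487175) (nat_lit 228) (nat_lit 2144980969) (nat_lit 304) (nat_lit 9935364852) (nat_lit 71) (nat_lit 5) (nat_lit 74) (nat_lit 5) (nat_lit 75) (nat_lit 5) (nat_lit 378) (nat_lit 351) (nat_lit 291)) (XT.lf (nat_lit 0) (nat_lit 8145579530) (nat_lit 304) (nat_lit 3611492443) (nat_lit 76) (nat_lit 3544811033) (nat_lit 71) (nat_lit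 5) (nat_lit 75) (nat_lit 5) (nat_lit 72) (nat_lit 5) (nat_lit 379) (nat_lit 351) (nat_lit 290)))))) (XT.nd (nat_lit 468) (nat_lit 836) (nat_lit 0) (XT.nd (nat_lit 234) (nat_lit 380) (nat_lit 0) (XT.nd (nat_lit 78) (nat_lit 304) (nat_lit 0) (XT.lf (nat_lit 0) (nat_lit 5378042929) (nat_lit 228) (nat_lit 6232831047) (nat_lit 304) (nat_lit 4143302096) (nat_lit 68) (nat_lit 5) (nat_lit 71) (nat_lit 5) (nat_lit 72) (nat_lit 5) (nat_lit 380) (nat_lit 351) (nat_lit 289)) (XT.nd (nat_lit 78) (nat_lit 304) (nat_lit 0) (XT.lf (nat_lit 0) (nat_lit 14903350695) (nat_lit 228) (nat_lit 379346509) (nat_lit 304) (nat_lit 944737125) (nat_lit 68) (nat_lit 5) (nat_lit 71) (nat_lit 5) (nat_lit 72) (nat_lit 5) (nat_lit 381) (nat_lit 351) (nat_lit 288)) (XT.lf (nat_lit 0) (nat_lit 2532827915) (nat_lit 304) (nat_lit 8437191083) (nat_lit 76) (nat_lit 5742648336) (nat_lit 64) (nat_lit 5) (nat_lit 68) (nat_lit 5)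 (nat_lit 65) (nat_lit 5) (nat_lit 382) (nat_lit 351) (nat_lit 287)))) (XT.nd (nat_lit 78) (nat_lit 152) (nat_lit 0) (XT.lf (nat_lit 0) (nat_lit 1156204820) (nat_lit 228) (nat_lit 5016886939) (nat_lit 304) (nat_lit 11047279232) (nat_lit 61) (nat_lit 5) (nat_lit 64) (nat_lit 5) (nat_lit 65) (nat_lit 5) (nat_lit 383) (nat_lit 351) (nat_lit 286)) (XT.nd (nat_lit 78) (nat_lit 152) (nat_lit 0) (XT.lf (nat_lit 0) (nat_lit 10133848431) (nat_lit 304) (nat_lit 6284889398) (nat_lit 76) (nat_lit 1327809326) (nat_lit 61) (nat_lit 5) (nat_lit 65) (nat_lit 5) (nat_lit 62) (nat_lit 5) (nat_lit 384) (nat_lit 351) (nat_lit 285)) (XT.lf (nat_lit 0) (nat_lit 3991569346) (nat_lit 152) (nat_lit 10420860682) (nat_lit 228) (nat_lit 3880623513) (nat_lit 59) (nat_lit 5) (nat_lit 61) (nat_lit 5) (nat_lit 62) (nat_lit 5) (nat_lit 385) (nat_lit 351) (nat_lit 284))))) (XT.nd (nat_lit 234) (nat_lit 532) (nat_lit 0) (XT.nd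 (nat_lit 78) (nat_lit 228) (nat_lit 0) (XT.lf (nat_lit 0) (nat_lit 120444257) (nat_lit 228) (nat_lit 3901368017) (nat_lit 76) (nat_lit 14840872688) (nat_lit 58) (nat_lit 5) (nat_lit 61) (nat_lit 5) (nat_lit 59) (nat_lit 5) (nat_lit 386) (nat_lit 351) (nat_lit 283)) (XT.nd (nat_lit 78) (nat_lit 0) (nat_lit 0) (XT.lf (nat_lit 0) (nat_lit 4324139718) (nat_lit 304) (nat_lit 12349810595) (nat_lit 76) (nat_lit 2777026671) (nat_lit 55) (nat_lit 5) (nat_lit 59) (nat_lit 5) (nat_lit 56) (nat_lit 5) (nat_lit 387) (nat_lit 351) (nat_lit 282)) (XT.lf (nat_lit 0) (nat_lit 8848074076) (nat_lit 304) (nat_lit 1379230137) (nat_lit 76) (nat_lit 9835885546) (nat_lit 55) (nat_lit 5) (nat_lit 59) (nat_lit 5) (nat_lit 56) (nat_lit 5) (nat_lit 388) (nat_lit 351) (nat_lit 281)))) (XT.nd (nat_lit 156) (nat_lit 228) (nat_lit 0) (XT.nd (nat_lit 78) (nat_lit 152) (nat_lit 0) (XT.lf (nat_lit 0) (nat_lit 10439622141)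 (nat_lit 152) (nat_lit 3299639607) (nat_lit 228) (nat_lit 6959707031) (nat_lit 53) (nat_lit 5) (nat_lit 55) (nat_lit 5) (nat_lit 56) (nat_lit 5) (nat_lit 389) (nat_lit 351) (nat_lit 280)) (XT.lf (nat_lit 0) (nat_lit 1482216817) (nat_lit 152) (nat_lit 17480113284) (nat_lit 228) (nat_lit 2399848618) (nat_lit 51) (nat_lit 5) (nat_lit 53) (nat_lit 5) (nat_lit 54) (nat_lit 5) (nat_lit 390) (nat_lit 351) (nat_lit 279))) (XT.nd (nat_lit 78) (nat_lit 152) (nat_lit 0) (XT.lf (nat_lit 0) (nat_lit 2520788966) (nat_lit 228) (nat_lit 8011924125) (nat_lit 76) (nat_lit 11513518321) (nat_lit 50) (nat_lit 5) (nat_lit 53) (nat_lit 5) (nat_lit 51) (nat_lit 5) (nat_lit 391) (nat_lit 351) (nat_lit 278)) (XT.lf (nat_lit 0) (nat_lit 4521678635) (nat_lit 152) (nat_lit 3135277114) (nat_lit 228) (nat_lit 15103063444) (nat_lit 48) (nat_lit 5) (nat_lit 50) (nat_lit 5) (nat_lit 51) (nat_lit 5) (nat_lit 392) (nat_lit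 351) (nat_lit 277))))))))
noncomputable def xc126 : XT := (XT.nd (nat_lit 1950) (nat_lit 1064) (nat_lit 0) (XT.nd (nat_lit 936) (nat_lit 836) (nat_lit 0) (XT.nd (nat_lit 468) (nat_lit 456) (nat_lit 0) (XT.nd (nat_lit 234) (nat_lit 304) (nat_lit 0) (XT.nd (nat_lit 78) (nat_lit 228) (nat_lit 0) (XT.lf (nat_lit 0) (nat_lit 13239977157) (nat_lit 228) (nat_lit 5650626892) (nat_lit 76) (nat_lit 4609396609) (nat_lit 48) (nat_lit 5) (nat_lit 51) (nat_lit 5) (nat_lit 49) (nat_lit 5) (nat_lit 393) (nat_lit 351) (nat_lit 276)) (XT.nd (nat_lit 78) (nat_lit 76) (nat_lit 0) (XT.lf (nat_lit 0) (nat_lit 7730607984) (nat_lit 152) (nat_lit 11524414315) (nat_lit 228) (nat_lit 5014321560) (nat_lit 46) (nat_lit 5) (nat_lit 48) (nat_lit 5) (nat_lit 49) (nat_lit 5) (nat_lit 394) (nat_lit 351) (nat_lit 275)) (XT.lf (nat_lit 0) (nat_lit 556019669) (nat_lit 228) (nat_lit 3136581475) (nat_lit 76) (nat_lit 21380265683)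 (nat_lit 45) (nat_lit 5) (nat_lit 48) (nat_lit 5) (nat_lit 46) (nat_lit 5) (nat_lit 395) (nat_lit 351) (nat_lit 274)))) (XT.nd (nat_lit 78) (nat_lit 152) (nat_lit 0) (XT.lf (nat_lit 0) (nat_lit 6467483749) (nat_lit 228) (nat_lit 14798556275) (nat_lit 76) (nat_lit 4634865264) (nat_lit 43) (nat_lit 5) (nat_lit 46) (nat_lit 5) (nat_lit 44) (nat_lit 5) (nat_lit 396) (nat_lit 351) (nat_lit 273)) (XT.nd (nat_lit 78) (nat_lit 152) (nat_lit 0) (XT.lf (nat_lit 0) (nat_lit 12771053334) (nat_lit 228) (nat_lit 697679646) (nat_lit 76) (nat_lit 13296791257) (nat_lit 43) (nat_lit 5) (nat_lit 46) (nat_lit 5) (nat_lit 44) (nat_lit 5) (nat_lit 397) (nat_lit 351) (nat_lit 272)) (XT.lf (nat_lit 0) (nat_lit 14544512476) (nat_lit 152) (nat_lit 5055233825) (nat_lit 228) (nat_lit 8063135520) (nat_lit 41) (nat_lit 5) (nat_lit 43) (nat_lit 5) (nat_lit 44) (nat_lit 5) (nat_lit 398) (nat_lit 351) (nat_lit 271)))))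 (XT.nd (nat_lit 234) (nat_lit 152) (nat_lit 0) (XT.nd (nat_lit 78) (nat_lit 228) (nat_lit 0) (XT.lf (nat_lit 0) (nat_lit 1942056302) (nat_lit 76) (nat_lit 24912191323) (nat_lit 152) (nat_lit 1746645671) (nat_lit 40) (nat_lit 5) (nat_lit 41) (nat_lit 5) (nat_lit 42) (nat_lit 4) (nat_lit 399) (nat_lit 351) (nat_lit 270)) (XT.nd (nat_lit 78) (nat_lit 152) (nat_lit 0) (XT.lf (nat_lit 0) (nat_lit 5021100050) (nat_lit 152) (nat_lit 11556062691) (nat_lit 76) (nat_lit 12990242751) (nat_lit 39) (nat_lit 5) (nat_lit 41) (nat_lit 5) (nat_lit 40) (nat_lit 5) (nat_lit 400) (nat_lit 351) (nat_lit 269)) (XT.lf (nat_lit 0) (nat_lit 4385469383) (nat_lit 152) (nat_lit 7735460688) (nat_lit 228) (nat_lit 18457265822) (nat_lit 37) (nat_lit 5) (nat_lit 39) (nat_lit 5) (nat_lit 40) (nat_lit 5) (nat_lit 401) (nat_lit 351) (nat_lit 268)))) (XT.nd (nat_lit 78) (nat_lit 152) (nat_lit 0) (XT.lf (nat_lit 0) (nat_lit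 19782915008) (nat_lit 228) (nat_lit 10160105261) (nat_lit 76) (nat_lit 1686151238) (nat_lit 37) (nat_lit 5) (nat_lit 40) (nat_lit 5) (nat_lit 38) (nat_lit 4) (nat_lit 402) (nat_lit 351) (nat_lit 267)) (XT.nd (nat_lit 78) (nat_lit 76) (nat_lit 0) (XT.lf (nat_lit 0) (nat_lit 6736015297) (nat_lit 76) (nat_lit 21308795055) (nat_lit 152) (nat_lit 4677048673) (nat_lit 36) (nat_lit 5) (nat_lit 37) (nat_lit 5) (nat_lit 38) (nat_lit 4) (nat_lit 403) (nat_lit 351) (nat_lit 266)) (XT.lf (nat_lit 0) (nat_lit 2919163070) (nat_lit 152) (nat_lit 9105210893) (nat_lit 76) (nat_lit 21834595928) (nat_lit 35) (nat_lit 5) (nat_lit 37) (nat_lit 5) (nat_lit 36) (nat_lit 5) (nat_lit 404) (nat_lit 351) (nat_lit 265)))))) (XT.nd (nat_lit 468) (nat_lit 380) (nat_lit 0) (XT.nd (nat_lit 234) (nat_lit 228) (nat_lit 0) (XT.nd (nat_lit 78) (nat_lit 76) (nat_lit 0) (XT.lf (nat_lit 0) (nat_lit 8798694625) (nat_lit 152) (nat_lit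 2062296978) (nat_lit 228) (nat_lit 24181964945) (nat_lit 33) (nat_lit 5) (nat_lit 35) (nat_lit 5) (nat_lit 36) (nat_lit 5) (nat_lit 405) (nat_lit 351) (nat_lit 264)) (XT.nd (nat_lit 78) (nat_lit 76) (nat_lit 0) (XT.lf (nat_lit 0) (nat_lit 19473484158) (nat_lit 228) (nat_lit 8523984952) (nat_lit 76) (nat_lit 8274997828) (nat_lit 33) (nat_lit 5) (nat_lit 36) (nat_lit 5) (nat_lit 34) (nat_lit 4) (nat_lit 406) (nat_lit 351) (nat_lit 263)) (XT.lf (nat_lit 0) (nat_lit 10355344992) (nat_lit 76) (nat_lit 18343149072) (nat_lit 152) (nat_lit 8855867030) (nat_lit 32) (nat_lit 5) (nat_lit 33) (nat_lit 5) (nat_lit 34) (nat_lit 4) (nat_lit 407) (nat_lit 351) (nat_lit 262)))) (XT.nd (nat_lit 78) (nat_lit 228) (nat_lit 0) (XT.lf (nat_lit 0) (nat_lit 30450383092) (nat_lit 76) (nat_lit 8065407310) (nat_lit 152) (nat_lit 378010506) (nat_lit 32) (nat_lit 5) (nat_lit 33) (nat_lit 5) (nat_lit 34) (nat_lit 4)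 (nat_lit 408) (nat_lit 351) (nat_lit 261)) (XT.nd (nat_lit 78) (nat_lit 0) (nat_lit 0) (XT.lf (nat_lit 0) (nat_lit 8464467711) (nat_lit 228) (nat_lit 28872563177) (nat_lit 76) (nat_lit 2945853256) (nat_lit 29) (nat_lit 5) (nat_lit 32) (nat_lit 5) (nat_lit 30) (nat_lit 4) (nat_lit 409) (nat_lit 351) (nat_lit 260)) (XT.lf (nat_lit 0) (nat_lit 18001116094) (nat_lit 228) (nat_lit 9348711407) (nat_lit 76) (nat_lit 14378049075) (nat_lit 29) (nat_lit 5) (nat_lit 32) (nat_lit 5) (nat_lit 30) (nat_lit 4) (nat_lit 410) (nat_lit 351) (nat_lit 259))))) (XT.nd (nat_lit 234) (nat_lit 152) (nat_lit 0) (XT.nd (nat_lit 78) (nat_lit 152) (nat_lit 0) (XT.lf (nat_lit 0) (nat_lit 11496864621) (nat_lit 76) (nat_lit 16685033004) (nat_lit 152) (nat_lit 15054858228) (nat_lit 28) (nat_lit 5) (nat_lit 29) (nat_lit 5) (nat_lit 30) (nat_lit 4) (nat_lit 411) (nat_lit 351) (nat_lit 258)) (XT.nd (nat_lit 78) (nat_lit 152)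 (nat_lit 0) (XT.lf (nat_lit 0) (nat_lit 33687207736) (nat_lit 76) (nat_lit 5330874038) (nat_lit 152) (nat_lit 5795681294) (nat_lit 28) (nat_lit 5) (nat_lit 29) (nat_lit 5) (nat_lit 30) (nat_lit 4) (nat_lit 412) (nat_lit 351) (nat_lit 257)) (XT.lf (nat_lit 0) (nat_lit 4064019413) (nat_lit 152) (nat_lit 35785483366) (nat_lit 76) (nat_lit 6603892871) (nat_lit 26) (nat_lit 5) (nat_lit 28) (nat_lit 5) (nat_lit 27) (nat_lit 4) (nat_lit 413) (nat_lit 351) (nat_lit 256)))) (XT.nd (nat_lit 156) (nat_lit 76) (nat_lit 0) (XT.nd (nat_lit 78) (nat_lit 76) (nat_lit 0) (XT.lf (nat_lit 0) (nat_lit 14489336744) (nat_lit 152) (nat_lit 14434171882) (nat_lit 76) (nat_lit 19233382311) (nat_lit 26) (nat_lit 5) (nat_lit 28) (nat_lit 5) (nat_lit 27) (nat_lit 4) (nat_lit 414) (nat_lit 351) (nat_lit 255)) (XT.lf (nat_lit 0) (nat_lit 8227577870) (nat_lit 76) (nat_lit 17325836124) (nat_lit 152) (nat_lit 24386274061)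 (nat_lit 25) (nat_lit 5) (nat_lit 26) (nat_lit 5) (nat_lit 27) (nat_lit 4) (nat_lit 415) (nat_lit 351) (nat_lit 254))) (XT.nd (nat_lit 78) (nat_lit 76) (nat_lit 0) (XT.lf (nat_lit 0) (nat_lit 32503405804) (nat_lit 76) (nat_lit 4900985168) (nat_lit 152) (nat_lit 14395550952) (nat_lit 25) (nat_lit 5) (nat_lit 26) (nat_lit 5) (nat_lit 27) (nat_lit 4) (nat_lit 416) (nat_lit 351) (nat_lit 253)) (XT.lf (nat_lit 0) (nat_lit 4228438322) (nat_lit 76) (nat_lit 45802283045) (nat_lit 76) (nat_lit 3713348495) (nat_lit 24) (nat_lit 4) (nat_lit 25) (nat_lit 5) (nat_lit 25) (nat_lit 4) (nat_lit 417) (nat_lit 351) (nat_lit 252))))))) (XT.nd (nat_lit 1014) (nat_lit 456) (nat_lit 0) (XT.nd (nat_lit 468) (nat_lit 304) (nat_lit 0) (XT.nd (nat_lit 234) (nat_lit 152) (nat_lit 0) (XT.nd (nat_lit 78) (nat_lit 76) (nat_lit 0) (XT.lf (nat_lit 0) (nat_lit 7664964318) (nat_lit 152) (nat_lit 26391889752) (nat_lit 76)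 (nat_lit 21702587372) (nat_lit 23) (nat_lit 5) (nat_lit 25) (nat_lit 5) (nat_lit 24) (nat_lit 4) (nat_lit 418) (nat_lit 351) (nat_lit 251)) (XT.nd (nat_lit 78) (nat_lit 76) (nat_lit 0) (XT.lf (nat_lit 0) (nat_lit 19477537467) (nat_lit 152) (nat_lit 2191478658) (nat_lit 76) (nat_lit 36204016258) (nat_lit 23) (nat_lit 5) (nat_lit 25) (nat_lit 5) (nat_lit 24) (nat_lit 4) (nat_lit 419) (nat_lit 351) (nat_lit 250)) (XT.lf (nat_lit 0) (nat_lit 23968333914) (nat_lit 76) (nat_lit 8277225416) (nat_lit 152) (nat_lit 27828503859) (nat_lit 22) (nat_lit 5) (nat_lit 23) (nat_lit 5) (nat_lit 24) (nat_lit 4) (nat_lit 420) (nat_lit 351) (nat_lit 249)))) (XT.nd (nat_lit 78) (nat_lit 152) (nat_lit 0) (XT.lf (nat_lit 0) (nat_lit 45770664239) (nat_lit 152) (nat_lit 10979787254) (nat_lit 0) (nat_lit 5628761202) (nat_lit 22) (nat_lit 5) (nat_lit 24) (nat_lit 4) (nat_lit 22) (nat_lit 4) (nat_lit 421) (nat_lit 351)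 (nat_lit 248)) (XT.nd (nat_lit 78) (nat_lit 76) (nat_lit 0) (XT.lf (nat_lit 0) (nat_lit 15754032381) (nat_lit 76) (nat_lit 44590746839) (nat_lit 76) (nat_lit 4436203915) (nat_lit 21) (nat_lit 4) (nat_lit 22) (nat_lit 5) (nat_lit 22) (nat_lit 4) (nat_lit 422) (nat_lit 351) (nat_lit 247)) (XT.lf (nat_lit 0) (nat_lit 8257786940) (nat_lit 152) (nat_lit 23238117681) (nat_lit 76) (nat_lit 35791418636) (nat_lit 20) (nat_lit 5) (nat_lit 22) (nat_lit 5) (nat_lit 21) (nat_lit 4) (nat_lit 423) (nat_lit 351) (nat_lit 246))))) (XT.nd (nat_lit 234) (nat_lit 228) (nat_lit 0) (XT.nd (nat_lit 78) (nat_lit 0) (nat_lit 0) (XT.lf (nat_lit 0) (nat_lit 3875298505) (nat_lit 76) (nat_lit 17614137672) (nat_lit 152) (nat_lit 48423306793) (nat_lit 19) (nat_lit 5) (nat_lit 20) (nat_lit 5) (nat_lit 21) (nat_lit 4) (nat_lit 424) (nat_lit 351) (nat_lit 245)) (XT.nd (nat_lit 78) (nat_lit 0) (nat_lit 0) (XT.lf (nat_lit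 0) (nat_lit 33135253605) (nat_lit 76) (nat_lit 2632657650) (nat_lit 152) (nat_lit 36882261231) (nat_lit 19) (nat_lit 5) (nat_lit 20) (nat_lit 5) (nat_lit 21) (nat_lit 4) (nat_lit 425) (nat_lit 351) (nat_lit 244)) (XT.lf (nat_lit 0) (nat_lit 50956782032) (nat_lit 152) (nat_lit 11886194692) (nat_lit 0) (nat_lit 12671674094) (nat_lit 19) (nat_lit 5) (nat_lit 21) (nat_lit 4) (nat_lit 19) (nat_lit 4) (nat_lit 426) (nat_lit 351) (nat_lit 243)))) (XT.nd (nat_lit 156) (nat_lit 76) (nat_lit 0) (XT.nd (nat_lit 78) (nat_lit 76) (nat_lit 0) (XT.lf (nat_lit 0) (nat_lit 17630392126) (nat_lit 76) (nat_lit 49585481494) (nat_lit 76) (nat_lit 11290941478) (nat_lit 18) (nat_lit 4) (nat_lit 19) (nat_lit 5) (nat_lit 19) (nat_lit 4) (nat_lit 427) (nat_lit 351) (nat_lit 242)) (XT.lf (nat_lit 0) (nat_lit 2751828891) (nat_lit 152) (nat_lit 32662273719) (nat_lit 76) (nat_lit 46222576835) (nat_lit 17) (nat_lit 5)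 (nat_lit 19) (nat_lit 5) (nat_lit 18) (nat_lit 4) (nat_lit 428) (nat_lit 351) (nat_lit 241))) (XT.nd (nat_lit 78) (nat_lit 76) (nat_lit 0) (XT.lf (nat_lit 0) (nat_lit 17110024656) (nat_lit 152) (nat_lit 3236527573) (nat_lit 76) (nat_lit 64567593854) (nat_lit 17) (nat_lit 5) (nat_lit 19) (nat_lit 5) (nat_lit 18) (nat_lit 4) (nat_lit 429) (nat_lit 351) (nat_lit 240)) (XT.lf (nat_lit 0) (nat_lit 28561299972) (nat_lit 76) (nat_lit 4063834601) (nat_lit 152) (nat_lit 55708401998) (nat_lit 16) (nat_lit 5) (nat_lit 17) (nat_lit 5) (nat_lit 18) (nat_lit 4) (nat_lit 430) (nat_lit 351) (nat_lit 239)))))) (XT.nd (nat_lit 468) (nat_lit 228) (nat_lit 0) (XT.nd (nat_lit 234) (nat_lit 152) (nat_lit 0) (XT.nd (nat_lit 78) (nat_lit 76) (nat_lit 0) (XT.lf (nat_lit 0) (nat_lit 49168300541) (nat_lit 152) (nat_lit 30077524695) (nat_lit 0) (nat_lit 12665457020) (nat_lit 16) (nat_lit 5) (nat_lit 18) (nat_lit 4)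 (nat_lit 16) (nat_lit 4) (nat_lit 431) (nat_lit 351) (nat_lit 238)) (XT.nd (nat_lit 78) (nat_lit 0) (nat_lit 0) (XT.lf (nat_lit 0) (nat_lit 1056377986) (nat_lit 76) (nat_lit 65558796161) (nat_lit 76) (nat_lit 29048914278) (nat_lit 15) (nat_lit 4) (nat_lit 16) (nat_lit 5) (nat_lit 16) (nat_lit 4) (nat_lit 432) (nat_lit 351) (nat_lit 237)) (XT.lf (nat_lit 0) (nat_lit 34778669681) (nat_lit 76) (nat_lit 50658652210) (nat_lit 76) (nat_lit 14142067126) (nat_lit 15) (nat_lit 4) (nat_lit 16) (nat_lit 5) (nat_lit 16) (nat_lit 4) (nat_lit 433) (nat_lit 351) (nat_lit 236)))) (XT.nd (nat_lit 78) (nat_lit 76) (nat_lit 0) (XT.lf (nat_lit 0) (nat_lit 1455547816) (nat_lit 152) (nat_lit 33539096061) (nat_lit 76) (nat_lit 68694944534) (nat_lit 14) (nat_lit 5) (nat_lit 16) (nat_lit 5) (nat_lit 15) (nat_lit 4) (nat_lit 434) (nat_lit 351) (nat_lit 235)) (XT.nd (nat_lit 78) (nat_lit 76) (nat_lit 0) (XT.lf (nat_lit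 0) (nat_lit 17351833296) (nat_lit 152) (nat_lit 957790829) (nat_lit 76) (nat_lit 89684379544) (nat_lit 14) (nat_lit 5) (nat_lit 16) (nat_lit 5) (nat_lit 15) (nat_lit 4) (nat_lit 435) (nat_lit 351) (nat_lit 234)) (XT.lf (nat_lit 0) (nat_lit 34340684566) (nat_lit 76) (nat_lit 232741838) (nat_lit 152) (nat_lit 77913689139) (nat_lit 13) (nat_lit 5) (nat_lit 14) (nat_lit 5) (nat_lit 15) (nat_lit 4) (nat_lit 436) (nat_lit 351) (nat_lit 233))))) (XT.nd (nat_lit 234) (nat_lit 152) (nat_lit 0) (XT.nd (nat_lit 78) (nat_lit 76) (nat_lit 0) (XT.lf (nat_lit 0) (nat_lit 52959651434) (nat_lit 152) (nat_lit 46070740463) (nat_lit 0) (nat_lit 18159314000) (nat_lit 13) (nat_lit 5) (nat_lit 15) (nat_lit 4) (nat_lit 13) (nat_lit 4) (nat_lit 437) (nat_lit 351) (nat_lit 232)) (XT.nd (nat_lit 78) (nat_lit 76) (nat_lit 0) (XT.lf (nat_lit 0) (nat_lit 72263628984) (nat_lit 152) (nat_lit 12405585677) (nat_lit 0) (nat_lit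 37458289518) (nat_lit 13) (nat_lit 5) (nat_lit 15) (nat_lit 4) (nat_lit 13) (nat_lit 4) (nat_lit 438) (nat_lit 351) (nat_lit 231)) (XT.lf (nat_lit 0) (nat_lit 23691084932) (nat_lit 76) (nat_lit 69206486451) (nat_lit 76) (nat_lit 34396383145) (nat_lit 12) (nat_lit 4) (nat_lit 13) (nat_lit 5) (nat_lit 13) (nat_lit 4) (nat_lit 439) (nat_lit 351) (nat_lit 230)))) (XT.nd (nat_lit 156) (nat_lit 152) (nat_lit 0) (XT.nd (nat_lit 78) (nat_lit 0) (nat_lit 0) (XT.lf (nat_lit 0) (nat_lit 62013439773) (nat_lit 76) (nat_lit 52754837515) (nat_lit 76) (nat_lit 17940197218) (nat_lit 12) (nat_lit 4) (nat_lit 13) (nat_lit 5) (nat_lit 13) (nat_lit 4) (nat_lit 440) (nat_lit 351) (nat_lit 229)) (XT.lf (nat_lit 0) (nat_lit 102242537859) (nat_lit 76) (nat_lit 35485191856) (nat_lit 76) (nat_lit 666230615) (nat_lit 12) (nat_lit 4) (nat_lit 13) (nat_lit 5) (nat_lit 13) (nat_lit 4) (nat_lit 441) (nat_lit 351) (nat_lit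 228))) (XT.nd (nat_lit 78) (nat_lit 76) (nat_lit 0) (XT.lf (nat_lit 0) (nat_lit 16907603427) (nat_lit 152) (nat_lit 162489398) (nat_lit 76) (nat_lit 127280220884) (nat_lit 11) (nat_lit 5) (nat_lit 13) (nat_lit 5) (nat_lit 12) (nat_lit 4) (nat_lit 442) (nat_lit 351) (nat_lit 227)) (XT.lf (nat_lit 0) (nat_lit 35985309189) (nat_lit 152) (nat_lit 111769509439) (nat_lit 0) (nat_lit 2816741905) (nat_lit 10) (nat_lit 5) (nat_lit 12) (nat_lit 4) (nat_lit 10) (nat_lit 4) (nat_lit 443) (nat_lit 351) (nat_lit 226))))))))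
noncomputable def xc127 : XT := (XT.nd (nat_lit 2028) (nat_lit 76) (nat_lit 0) (XT.nd (nat_lit 1014) (nat_lit 228) (nat_lit 0) (XT.nd (nat_lit 468) (nat_lit 152) (nat_lit 0) (XT.nd (nat_lit 234) (nat_lit 76) (nat_lit 0) (XT.nd (nat_lit 78) (nat_lit 0) (nat_lit 0) (XT.lf (nat_lit 0) (nat_lit 56295131896) (nat_lit 152) (nat_lit 77671816795) (nat_lit 0) (nat_lit 23123009761) (nat_lit 10) (nat_lit 5) (nat_lit 12) (nat_lit 4) (nat_lit 10) (nat_lit 4) (nat_lit 444) (nat_lit 351) (nat_lit 225)) (XT.nd (nat_lit 78) (nat_lit 0) (nat_lit 0) (XT.lf (nat_lit 0) (nat_lit 77616252521) (nat_lit 152) (nat_lit 41877488914) (nat_lit 0) (nat_lit 44440744814) (nat_lit 10) (nat_lit 5) (nat_lit 12) (nat_lit 4) (nat_lit 10) (nat_lit 4) (nat_lit 445) (nat_lit 351) (nat_lit 224)) (XT.lf (nat_lit 0) (nat_lit 99999435638) (nat_lit 152) (nat_lit 4301301206) (nat_lit 0) (nat_lit 66820703576) (nat_lit 10) (nat_lit 5)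 (nat_lit 12) (nat_lit 4) (nat_lit 10) (nat_lit 4) (nat_lit 446) (nat_lit 351) (nat_lit 223)))) (XT.nd (nat_lit 78) (nat_lit 0) (nat_lit 0) (XT.lf (nat_lit 0) (nat_lit 36308305983) (nat_lit 76) (nat_lit 87756542965) (nat_lit 76) (nat_lit 54574740090) (nat_lit 9) (nat_lit 4) (nat_lit 10) (nat_lit 5) (nat_lit 10) (nat_lit 4) (nat_lit 447) (nat_lit 351) (nat_lit 222)) (XT.nd (nat_lit 78) (nat_lit 0) (nat_lit 0) (XT.lf (nat_lit 0) (nat_lit 79090363236) (nat_lit 76) (nat_lit 70312277108) (nat_lit 76) (nat_lit 37127549648) (nat_lit 9) (nat_lit 4) (nat_lit 10) (nat_lit 5) (nat_lit 10) (nat_lit 4) (nat_lit 448) (nat_lit 351) (nat_lit 221)) (XT.lf (nat_lit 0) (nat_lit 124004512153) (nat_lit 76) (nat_lit 51999249923) (nat_lit 76) (nat_lit 18811737145) (nat_lit 9) (nat_lit 4) (nat_lit 10) (nat_lit 5) (nat_lit 10) (nat_lit 4) (nat_lit 449) (nat_lit 351) (nat_lit 220))))) (XT.nd (nat_lit 234) (nat_lit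 0) (nat_lit 0) (XT.nd (nat_lit 78) (nat_lit 76) (nat_lit 0) (XT.lf (nat_lit 0) (nat_lit 402982089) (nat_lit 152) (nat_lit 32364052180) (nat_lit 76) (nat_lit 170747884395) (nat_lit 8) (nat_lit 5) (nat_lit 10) (nat_lit 5) (nat_lit 9) (nat_lit 4) (nat_lit 450) (nat_lit 351) (nat_lit 219)) (XT.nd (nat_lit 78) (nat_lit 0) (nat_lit 0) (XT.lf (nat_lit 0) (nat_lit 7944650661) (nat_lit 76) (nat_lit 12122345675) (nat_lit 152) (nat_lit 192560855675) (nat_lit 7) (nat_lit 5) (nat_lit 8) (nat_lit 5) (nat_lit 9) (nat_lit 4) (nat_lit 451) (nat_lit 351) (nat_lit 218)) (XT.lf (nat_lit 0) (nat_lit 41417197577) (nat_lit 152) (nat_lit 170941266721) (nat_lit 0) (nat_lit 9802818632) (nat_lit 7) (nat_lit 5) (nat_lit 9) (nat_lit 4) (nat_lit 7) (nat_lit 4) (nat_lit 452) (nat_lit 351) (nat_lit 217)))) (XT.nd (nat_lit 156) (nat_lit 0) (nat_lit 0) (XT.nd (nat_lit 78) (nat_lit 0) (nat_lit 0) (XT.lf (nat_lit 0) (nat_lit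 64030518151) (nat_lit 152) (nat_lit 135717130152) (nat_lit 0) (nat_lit 32413956835) (nat_lit 7) (nat_lit 5) (nat_lit 9) (nat_lit 4) (nat_lit 7) (nat_lit 4) (nat_lit 453) (nat_lit 351) (nat_lit 216)) (XT.lf (nat_lit 0) (nat_lit 87771535507) (nat_lit 152) (nat_lit 98737660864) (nat_lit 0) (nat_lit 56152895744) (nat_lit 7) (nat_lit 5) (nat_lit 9) (nat_lit 4) (nat_lit 7) (nat_lit 4) (nat_lit 454) (nat_lit 351) (nat_lit 215))) (XT.nd (nat_lit 78) (nat_lit 0) (nat_lit 0) (XT.lf (nat_lit 0) (nat_lit 112696775880) (nat_lit 152) (nat_lit 59914812500) (nat_lit 0) (nat_lit 81076156643) (nat_lit 7) (nat_lit 5) (nat_lit 9) (nat_lit 4) (nat_lit 7) (nat_lit 4) (nat_lit 455) (nat_lit 351) (nat_lit 214)) (XT.lf (nat_lit 0) (nat_lit 138865585078) (nat_lit 152) (nat_lit 19156149708) (nat_lit 0) (nat_lit 107243080627) (nat_lit 7) (nat_lit 5) (nat_lit 9) (nat_lit 4) (nat_lit 7) (nat_lit 4) (nat_lit 456) (nat_lit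 351) (nat_lit 213)))))) (XT.nd (nat_lit 468) (nat_lit 152) (nat_lit 0) (XT.nd (nat_lit 234) (nat_lit 0) (nat_lit 0) (XT.nd (nat_lit 78) (nat_lit 0) (nat_lit 0) (XT.lf (nat_lit 0) (nat_lit 24416864083) (nat_lit 76) (nat_lit 142304621382) (nat_lit 76) (nat_lit 110680321491) (nat_lit 6) (nat_lit 4) (nat_lit 7) (nat_lit 5) (nat_lit 7) (nat_lit 4) (nat_lit 457) (nat_lit 351) (nat_lit 212)) (XT.nd (nat_lit 78) (nat_lit 0) (nat_lit 0) (XT.lf (nat_lit 0) (nat_lit 70828594395) (nat_lit 76) (nat_lit 125463484392) (nat_lit 76) (nat_lit 93837474557) (nat_lit 6) (nat_lit 4) (nat_lit 7) (nat_lit 5) (nat_lit 7) (nat_lit 4) (nat_lit 458) (nat_lit 351) (nat_lit 211)) (XT.lf (nat_lit 0) (nat_lit 119556156524) (nat_lit 76) (nat_lit 107782644535) (nat_lit 76) (nat_lit 76155006181) (nat_lit 6) (nat_lit 4) (nat_lit 7) (nat_lit 5) (nat_lit 7) (nat_lit 4) (nat_lit 459) (nat_lit 351) (nat_lit 210)))) (XT.nd (nat_lit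 78) (nat_lit 0) (nat_lit 0) (XT.lf (nat_lit 0) (nat_lit 170715568475) (nat_lit 76) (nat_lit 89220004574) (nat_lit 76) (nat_lit 57590815250) (nat_lit 6) (nat_lit 4) (nat_lit 7) (nat_lit 5) (nat_lit 7) (nat_lit 4) (nat_lit 460) (nat_lit 351) (nat_lit 209)) (XT.nd (nat_lit 78) (nat_lit 0) (nat_lit 0) (XT.lf (nat_lit 0) (nat_lit 224428638374) (nat_lit 76) (nat_lit 69731367746) (nat_lit 76) (nat_lit 38100701308) (nat_lit 6) (nat_lit 4) (nat_lit 7) (nat_lit 5) (nat_lit 7) (nat_lit 4) (nat_lit 461) (nat_lit 351) (nat_lit 208)) (XT.lf (nat_lit 0) (nat_lit 280823254480) (nat_lit 76) (nat_lit 49270332534) (nat_lit 76) (nat_lit 17638259322) (nat_lit 6) (nat_lit 4) (nat_lit 7) (nat_lit 5) (nat_lit 7) (nat_lit 4) (nat_lit 462) (nat_lit 351) (nat_lit 207))))) (XT.nd (nat_lit 234) (nat_lit 0) (nat_lit 0) (XT.nd (nat_lit 78) (nat_lit 76) (nat_lit 0) (XT.lf (nat_lit 0) (nat_lit 3722159408) (nat_lit 152)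 (nat_lit 24002986211) (nat_lit 76) (nat_lit 336248493710) (nat_lit 5) (nat_lit 5) (nat_lit 7) (nat_lit 5) (nat_lit 6) (nat_lit 4) (nat_lit 463) (nat_lit 351) (nat_lit 206)) (XT.nd (nat_lit 78) (nat_lit 0) (nat_lit 0) (XT.lf (nat_lit 0) (nat_lit 21441211842) (nat_lit 76) (nat_lit 4449471488) (nat_lit 152) (nat_lit 355105738897) (nat_lit 4) (nat_lit 5) (nat_lit 5) (nat_lit 5) (nat_lit 6) (nat_lit 4) (nat_lit 464) (nat_lit 351) (nat_lit 205)) (XT.lf (nat_lit 0) (nat_lit 49890991323) (nat_lit 152) (nat_lit 329181626420) (nat_lit 0) (nat_lit 19761558741) (nat_lit 4) (nat_lit 5) (nat_lit 6) (nat_lit 4) (nat_lit 4) (nat_lit 4) (nat_lit 465) (nat_lit 351) (nat_lit 204)))) (XT.nd (nat_lit 156) (nat_lit 0) (nat_lit 0) (XT.nd (nat_lit 78) (nat_lit 0) (nat_lit 0) (XT.lf (nat_lit 0) (nat_lit 75162439737) (nat_lit 152) (nat_lit 297365917661) (nat_lit 0) (nat_lit 45031904910) (nat_lit 4) (nat_lit 5) (nat_lit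 6) (nat_lit 4) (nat_lit 4) (nat_lit 4) (nat_lit 466) (nat_lit 351) (nat_lit 203)) (XT.lf (nat_lit 0) (nat_lit 101695729969) (nat_lit 152) (nat_lit 263962863700) (nat_lit 0) (nat_lit 71564145385) (nat_lit 4) (nat_lit 5) (nat_lit 6) (nat_lit 4) (nat_lit 4) (nat_lit 4) (nat_lit 467) (nat_lit 351) (nat_lit 202))) (XT.nd (nat_lit 78) (nat_lit 0) (nat_lit 0) (XT.lf (nat_lit 0) (nat_lit 129554036519) (nat_lit 152) (nat_lit 228892933456) (nat_lit 0) (nat_lit 99421452166) (nat_lit 4) (nat_lit 5) (nat_lit 6) (nat_lit 4) (nat_lit 4) (nat_lit 4) (nat_lit 468) (nat_lit 351) (nat_lit 201)) (XT.lf (nat_lit 0) (nat_lit 158803688688) (nat_lit 152) (nat_lit 192072627096) (nat_lit 0) (nat_lit 128670152174) (nat_lit 4) (nat_lit 5) (nat_lit 6) (nat_lit 4) (nat_lit 4) (nat_lit 4) (nat_lit 469) (nat_lit 351) (nat_lit 200))))))) (XT.nd (nat_lit 44304) (nat_lit 0) (nat_lit 7068) (XT.nd (nat_lit 468) (nat_lit 0)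 (nat_lit 0) (XT.nd (nat_lit 234) (nat_lit 76) (nat_lit 0) (XT.nd (nat_lit 78) (nat_lit 0) (nat_lit 0) (XT.lf (nat_lit 0) (nat_lit 189514328505) (nat_lit 152) (nat_lit 153414277224) (nat_lit 0) (nat_lit 159379885171) (nat_lit 4) (nat_lit 5) (nat_lit 6) (nat_lit 4) (nat_lit 4) (nat_lit 4) (nat_lit 470) (nat_lit 351) (nat_lit 199)) (XT.nd (nat_lit 78) (nat_lit 0) (nat_lit 0) (XT.lf (nat_lit 0) (nat_lit 221759076541) (nat_lit 152) (nat_lit 112825840149) (nat_lit 0) (nat_lit 191623769570) (nat_lit 4) (nat_lit 5) (nat_lit 6) (nat_lit 4) (nat_lit 4) (nat_lit 4) (nat_lit 471) (nat_lit 351) (nat_lit 198)) (XT.lf (nat_lit 0) (nat_lit 255614706006) (nat_lit 152) (nat_lit 70210676735) (nat_lit 0) (nat_lit 225478576522) (nat_lit 4) (nat_lit 5) (nat_lit 6) (nat_lit 4) (nat_lit 4) (nat_lit 4) (nat_lit 472) (nat_lit 351) (nat_lit 197)))) (XT.nd (nat_lit 78) (nat_lit 76) (nat_lit 0) (XT.lf (nat_lit 0) (nat_lit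 291161825542) (nat_lit 152) (nat_lit 25467322307) (nat_lit 0) (nat_lit 261024912713) (nat_lit 4) (nat_lit 5) (nat_lit 6) (nat_lit 4) (nat_lit 4) (nat_lit 4) (nat_lit 473) (nat_lit 351) (nat_lit 196)) (XT.nd (nat_lit 78) (nat_lit 0) (nat_lit 0) (XT.lf (nat_lit 0) (nat_lit 22221997632) (nat_lit 76) (nat_lit 306610021175) (nat_lit 76) (nat_lit 276472362303) (nat_lit 3) (nat_lit 4) (nat_lit 4) (nat_lit 5) (nat_lit 4) (nat_lit 4) (nat_lit 474) (nat_lit 351) (nat_lit 195)) (XT.lf (nat_lit 0) (nat_lit 73177546015) (nat_lit 76) (nat_lit 295638268249) (nat_lit 76) (nat_lit 265499898860) (nat_lit 3) (nat_lit 4) (nat_lit 4) (nat_lit 5) (nat_lit 4) (nat_lit 4) (nat_lit 475) (nat_lit 351) (nat_lit 194))))) (XT.nd (nat_lit 43524) (nat_lit 0) (nat_lit 9652) (XT.nd (nat_lit 78) (nat_lit 0) (nat_lit 0) (XT.lf (nat_lit 0) (nat_lit 126678580886) (nat_lit 76) (nat_lit 284119067278) (nat_lit 76) (nat_lit 253980021206)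 (nat_lit 3) (nat_lit 4) (nat_lit 4) (nat_lit 5) (nat_lit 4) (nat_lit 4) (nat_lit 476) (nat_lit 351) (nat_lit 193)) (XT.nd (nat_lit 43368) (nat_lit 0) (nat_lit 9652) (XT.lf (nat_lit 0) (nat_lit 182852485662) (nat_lit 76) (nat_lit 272024991593) (nat_lit 76) (nat_lit 241885301061) (nat_lit 3) (nat_lit 4) (nat_lit 4) (nat_lit 5) (nat_lit 4) (nat_lit 4) (nat_lit 477) (nat_lit 351) (nat_lit 192)) (XT.lf (nat_lit 0) (nat_lit 440991119) (nat_lit 684) (nat_lit 1808768867) (nat_lit 684) (nat_lit 1808768867) (nat_lit 130) (nat_lit 3) (nat_lit 139) (nat_lit 3) (nat_lit 139) (nat_lit 5) (nat_lit 352) (nat_lit 352) (nat_lit 316)))) (XT.nd (nat_lit 156) (nat_lit 0) (nat_lit 76) (XT.nd (nat_lit 78) (nat_lit 0) (nat_lit 76) (XT.lf (nat_lit 76) (nat_lit 318534411) (nat_lit 0) (nat_lit 1723826093) (nat_lit 684) (nat_lit 6219779364) (nat_lit 131) (nat_lit 5) (nat_lit 130) (nat_lit 3) (nat_lit 139) (nat_lit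 5) (nat_lit 353) (nat_lit 352) (nat_lit 315)) (XT.lf (nat_lit 0) (nat_lit 3268979973) (nat_lit 608) (nat_lit 3897627044) (nat_lit 684) (nat_lit 1247517401) (nat_lit 131) (nat_lit 5) (nat_lit 139) (nat_lit 5) (nat_lit 140) (nat_lit 5) (nat_lit 354) (nat_lit 352) (nat_lit 314))) (XT.nd (nat_lit 78) (nat_lit 0) (nat_lit 0) (XT.lf (nat_lit 76) (nat_lit 290130856) (nat_lit 0) (nat_lit 4230411399) (nat_lit 684) (nat_lit 4055041911) (nat_lit 132) (nat_lit 5) (nat_lit 131) (nat_lit 5) (nat_lit 140) (nat_lit 5) (nat_lit 355) (nat_lit 352) (nat_lit 313)) (XT.lf (nat_lit 76) (nat_lit 4781717570) (nat_lit 0) (nat_lit 1052451897) (nat_lit 684) (nat_lit 2911026967) (nat_lit 132) (nat_lit 5) (nat_lit 131) (nat_lit 5) (nat_lit 140) (nat_lit 5) (nat_lit 356) (nat_lit 352) (nat_lit 312)))))) (XT.nd (nat_lit 468) (nat_lit 2128) (nat_lit 0) (XT.nd (nat_lit 234) (nat_lit 0) (nat_lit 0) (XT.nd (nat_lit 78) (nat_lit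 608) (nat_lit 0) (XT.lf (nat_lit 76) (nat_lit 512811765) (nat_lit 0) (nat_lit 6681366308) (nat_lit 684) (nat_lit 1730127548) (nat_lit 133) (nat_lit 5) (nat_lit 132) (nat_lit 5) (nat_lit 141) (nat_lit 5) (nat_lit 357) (nat_lit 352) (nat_lit 311)) (XT.nd (nat_lit 78) (nat_lit 608) (nat_lit 0) (XT.lf (nat_lit 76) (nat_lit 5290852401) (nat_lit 0) (nat_lit 3354806188) (nat_lit 684) (nat_lit 465586967) (nat_lit 133) (nat_lit 5) (nat_lit 132) (nat_lit 5) (nat_lit 141) (nat_lit 5) (nat_lit 358) (nat_lit 352) (nat_lit 310)) (XT.lf (nat_lit 0) (nat_lit 793985387) (nat_lit 684) (nat_lit 8335759577) (nat_lit 760) (nat_lit 179188796) (nat_lit 124) (nat_lit 5) (nat_lit 133) (nat_lit 5) (nat_lit 134) (nat_lit 5) (nat_lit 359) (nat_lit 352) (nat_lit 309)))) (XT.nd (nat_lit 78) (nat_lit 0) (nat_lit 0) (XT.lf (nat_lit 0) (nat_lit 2165310430) (nat_lit 684) (nat_lit 3482180534) (nat_lit 760) (nat_lit 3865454948)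 (nat_lit 124) (nat_lit 5) (nat_lit 133) (nat_lit 5) (nat_lit 134) (nat_lit 5) (nat_lit 360) (nat_lit 352) (nat_lit 308)) (XT.nd (nat_lit 78) (nat_lit 0) (nat_lit 76) (XT.lf (nat_lit 76) (nat_lit 1623885826) (nat_lit 0) (nat_lit 1953015173) (nat_lit 760) (nat_lit 6151712911) (nat_lit 125) (nat_lit 5) (nat_lit 124) (nat_lit 5) (nat_lit 134) (nat_lit 5) (nat_lit 361) (nat_lit 352) (nat_lit 307)) (XT.lf (nat_lit 0) (nat_lit 5097496719) (nat_lit 684) (nat_lit 2921279488) (nat_lit 76) (nat_lit 1934406105) (nat_lit 125) (nat_lit 5) (nat_lit 134) (nat_lit 5) (nat_lit 126) (nat_lit 5) (nat_lit 362) (nat_lit 352) (nat_lit 306))))) (XT.nd (nat_lit 234) (nat_lit 760) (nat_lit 0) (XT.nd (nat_lit 78) (nat_lit 760) (nat_lit 0) (XT.lf (nat_lit 0) (nat_lit 2528075427) (nat_lit 684) (nat_lit 4188403602) (nat_lit 760) (nat_lit 3471418727) (nat_lit 116) (nat_lit 5) (nat_lit 125) (nat_lit 5) (nat_lit 126) (nat_lit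 5) (nat_lit 363) (nat_lit 352) (nat_lit 305)) (XT.nd (nat_lit 78) (nat_lit 760) (nat_lit 0) (XT.lf (nat_lit 0) (nat_lit 8309834704) (nat_lit 684) (nat_lit 108610710) (nat_lit 760) (nat_lit 2015836537) (nat_lit 116) (nat_lit 5) (nat_lit 125) (nat_lit 5) (nat_lit 126) (nat_lit 5) (nat_lit 364) (nat_lit 352) (nat_lit 304)) (XT.lf (nat_lit 0) (nat_lit 3699013195) (nat_lit 760) (nat_lit 6584344207) (nat_lit 836) (nat_lit 405768662) (nat_lit 106) (nat_lit 5) (nat_lit 116) (nat_lit 5) (nat_lit 117) (nat_lit 5) (nat_lit 365) (nat_lit 352) (nat_lit 303)))) (XT.nd (nat_lit 156) (nat_lit 304) (nat_lit 0) (XT.nd (nat_lit 78) (nat_lit 380) (nat_lit 0) (XT.lf (nat_lit 0) (nat_lit 1237697641) (nat_lit 836) (nat_lit 1132649446) (nat_lit 76) (nat_lit 8585691487) (nat_lit 105) (nat_lit 5) (nat_lit 116) (nat_lit 5) (nat_lit 106) (nat_lit 5) (nat_lit 366) (nat_lit 352) (nat_lit 302)) (XT.lf (nat_lit 0) (nat_lit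 3021168363) (nat_lit 456) (nat_lit 6132914404) (nat_lit 76) (nat_lit 2078336536) (nat_lit 100) (nat_lit 5) (nat_lit 106) (nat_lit 5) (nat_lit 101) (nat_lit 5) (nat_lit 367) (nat_lit 352) (nat_lit 301))) (XT.nd (nat_lit 78) (nat_lit 0) (nat_lit 0) (XT.lf (nat_lit 0) (nat_lit 82290337) (nat_lit 304) (nat_lit 4830339036) (nat_lit 380) (nat_lit 6609076067) (nat_lit 96) (nat_lit 5) (nat_lit 100) (nat_lit 5) (nat_lit 101) (nat_lit 5) (nat_lit 368) (nat_lit 352) (nat_lit 300)) (XT.lf (nat_lit 0) (nat_lit 6779754419) (nat_lit 304) (nat_lit 183247506) (nat_lit 380) (nat_lit 4859262946) (nat_lit 96) (nat_lit 5) (nat_lit 100) (nat_lit 5) (nat_lit 101) (nat_lit 5) (nat_lit 369) (nat_lit 352) (nat_lit 299))))))))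
noncomputable def xc128 : XT := (XT.nd (nat_lit 1950) (nat_lit 1900) (nat_lit 0) (XT.nd (nat_lit 936) (nat_lit 1520) (nat_lit 0) (XT.nd (nat_lit 468) (nat_lit 1064) (nat_lit 0) (XT.nd (nat_lit 234) (nat_lit 304) (nat_lit 0) (XT.nd (nat_lit 78) (nat_lit 380) (nat_lit 0) (XT.lf (nat_lit 0) (nat_lit 1611157706) (nat_lit 380) (nat_lit 7565539488) (nat_lit 456) (nat_lit 2958139556) (nat_lit 91) (nat_lit 5) (nat_lit 96) (nat_lit 5) (nat_lit 97) (nat_lit 5) (nat_lit 370) (nat_lit 352) (nat_lit 298)) (XT.nd (nat_lit 78) (nat_lit 380) (nat_lit 0) (XT.lf (nat_lit 0) (nat_lit 8728809037) (nat_lit 380) (nat_lit 2824108768) (nat_lit 456) (nat_lit 907550893) (nat_lit 91) (nat_lit 5) (nat_lit 96) (nat_lit 5) (nat_lit 97) (nat_lit 5) (nat_lit 371) (nat_lit 352) (nat_lit 297)) (XT.lf (nat_lit 0) (nat_lit 1258983625) (nat_lit 380) (nat_lit 9384219304) (nat_lit 76) (nat_lit 2155564175) (nat_lit 86) (nat_lit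 5) (nat_lit 91) (nat_lit 5) (nat_lit 87) (nat_lit 5) (nat_lit 372) (nat_lit 352) (nat_lit 296)))) (XT.nd (nat_lit 78) (nat_lit 304) (nat_lit 0) (XT.lf (nat_lit 0) (nat_lit 3579503344) (nat_lit 380) (nat_lit 2206340238) (nat_lit 76) (nat_lit 7363605353) (nat_lit 86) (nat_lit 5) (nat_lit 91) (nat_lit 5) (nat_lit 87) (nat_lit 5) (nat_lit 373) (nat_lit 352) (nat_lit 295)) (XT.nd (nat_lit 78) (nat_lit 0) (nat_lit 0) (XT.lf (nat_lit 0) (nat_lit 5466411769) (nat_lit 304) (nat_lit 602247841) (nat_lit 380) (nat_lit 7446394055) (nat_lit 82) (nat_lit 5) (nat_lit 86) (nat_lit 5) (nat_lit 87) (nat_lit 5) (nat_lit 374) (nat_lit 352) (nat_lit 294)) (XT.lf (nat_lit 0) (nat_lit 8763947818) (nat_lit 380) (nat_lit 413712706) (nat_lit 76) (nat_lit 4717212819) (nat_lit 82) (nat_lit 5) (nat_lit 87) (nat_lit 5) (nat_lit 83) (nat_lit 5) (nat_lit 375) (nat_lit 352) (nat_lit 293))))) (XT.nd (nat_lit 234) (nat_lit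 456) (nat_lit 0) (XT.nd (nat_lit 78) (nat_lit 380) (nat_lit 0) (XT.lf (nat_lit 0) (nat_lit 7804938594) (nat_lit 228) (nat_lit 3890431661) (nat_lit 304) (nat_lit 2593262796) (nat_lit 79) (nat_lit 5) (nat_lit 82) (nat_lit 5) (nat_lit 83) (nat_lit 5) (nat_lit 376) (nat_lit 352) (nat_lit 292)) (XT.nd (nat_lit 78) (nat_lit 0) (nat_lit 0) (XT.lf (nat_lit 0) (nat_lit 100058568) (nat_lit 380) (nat_lit 12964165301) (nat_lit 76) (nat_lit 1636264287) (nat_lit 74) (nat_lit 5) (nat_lit 79) (nat_lit 5) (nat_lit 75) (nat_lit 5) (nat_lit 377) (nat_lit 352) (nat_lit 291)) (XT.lf (nat_lit 0) (nat_lit 2986985728) (nat_lit 380) (nat_lit 4682169928) (nat_lit 76) (nat_lit 7454365369) (nat_lit 74) (nat_lit 5) (nat_lit 79) (nat_lit 5) (nat_lit 75) (nat_lit 5) (nat_lit 378) (nat_lit 352) (nat_lit 290)))) (XT.nd (nat_lit 78) (nat_lit 228) (nat_lit 0) (XT.lf (nat_lit 0) (nat_lit 4108199683) (nat_lit 228) (nat_lit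 1946303137) (nat_lit 304) (nat_lit 9511404968) (nat_lit 71) (nat_lit 5) (nat_lit 74) (nat_lit 5) (nat_lit 75) (nat_lit 5) (nat_lit 379) (nat_lit 352) (nat_lit 289)) (XT.nd (nat_lit 78) (nat_lit 228) (nat_lit 0) (XT.lf (nat_lit 0) (nat_lit 9392132454) (nat_lit 304) (nat_lit 2628373130) (nat_lit 76) (nat_lit 4004085213) (nat_lit 71) (nat_lit 5) (nat_lit 75) (nat_lit 5) (nat_lit 72) (nat_lit 5) (nat_lit 380) (nat_lit 352) (nat_lit 288)) (XT.lf (nat_lit 0) (nat_lit 6791869753) (nat_lit 228) (nat_lit 6216731925) (nat_lit 304) (nat_lit 3492021461) (nat_lit 68) (nat_lit 5) (nat_lit 71) (nat_lit 5) (nat_lit 72) (nat_lit 5) (nat_lit 381) (nat_lit 352) (nat_lit 287)))))) (XT.nd (nat_lit 468) (nat_lit 760) (nat_lit 0) (XT.nd (nat_lit 234) (nat_lit 228) (nat_lit 0) (XT.nd (nat_lit 78) (nat_lit 532) (nat_lit 0) (XT.lf (nat_lit 0) (nat_lit 16738922684) (nat_lit 228) (nat_lit 86179860) (nat_lit 304) (nat_lit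 174406610) (nat_lit 68) (nat_lit 5) (nat_lit 71) (nat_lit 5) (nat_lit 72) (nat_lit 5) (nat_lit 382) (nat_lit 352) (nat_lit 286)) (XT.nd (nat_lit 78) (nat_lit 228) (nat_lit 0) (XT.lf (nat_lit 0) (nat_lit 3435462730) (nat_lit 304) (nat_lit 7726359394) (nat_lit 76) (nat_lit 6347331181) (nat_lit 64) (nat_lit 5) (nat_lit 68) (nat_lit 5) (nat_lit 65) (nat_lit 5) (nat_lit 383) (nat_lit 352) (nat_lit 285)) (XT.lf (nat_lit 0) (nat_lit 2328437091) (nat_lit 228) (nat_lit 4909749859) (nat_lit 304) (nat_lit 10805049395) (nat_lit 61) (nat_lit 5) (nat_lit 64) (nat_lit 5) (nat_lit 65) (nat_lit 5) (nat_lit 384) (nat_lit 352) (nat_lit 284)))) (XT.nd (nat_lit 78) (nat_lit 228) (nat_lit 0) (XT.lf (nat_lit 0) (nat_lit 11366283420) (nat_lit 304) (nat_lit 5506766122) (nat_lit 76) (nat_lit 1724222446) (nat_lit 61) (nat_lit 5) (nat_lit 65) (nat_lit 5) (nat_lit 62) (nat_lit 5) (nat_lit 385) (nat_lit 352) (nat_lit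 283)) (XT.nd (nat_lit 78) (nat_lit 76) (nat_lit 0) (XT.lf (nat_lit 0) (nat_lit 5265896724) (nat_lit 152) (nat_lit 10575118044) (nat_lit 228) (nat_lit 3330992909) (nat_lit 59) (nat_lit 5) (nat_lit 61) (nat_lit 5) (nat_lit 62) (nat_lit 5) (nat_lit 386) (nat_lit 352) (nat_lit 282)) (XT.lf (nat_lit 0) (nat_lit 812047383) (nat_lit 228) (nat_lit 3049925174) (nat_lit 76) (nat_lit 15909295157) (nat_lit 58) (nat_lit 5) (nat_lit 61) (nat_lit 5) (nat_lit 59) (nat_lit 5) (nat_lit 387) (nat_lit 352) (nat_lit 281))))) (XT.nd (nat_lit 234) (nat_lit 380) (nat_lit 0) (XT.nd (nat_lit 78) (nat_lit 152) (nat_lit 0) (XT.lf (nat_lit 0) (nat_lit 5214986674) (nat_lit 304) (nat_lit 11909589461) (nat_lit 76) (nat_lit 3264958222) (nat_lit 55) (nat_lit 5) (nat_lit 59) (nat_lit 5) (nat_lit 56) (nat_lit 5) (nat_lit 388) (nat_lit 352) (nat_lit 280)) (XT.nd (nat_lit 78) (nat_lit 152) (nat_lit 0) (XT.lf (nat_lit 0) (nat_lit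 9932992037) (nat_lit 304) (nat_lit 440847202) (nat_lit 76) (nat_lit 10660137174) (nat_lit 55) (nat_lit 5) (nat_lit 59) (nat_lit 5) (nat_lit 56) (nat_lit 5) (nat_lit 389) (nat_lit 352) (nat_lit 279)) (XT.lf (nat_lit 0) (nat_lit 11952700199) (nat_lit 152) (nat_lit 3100916777) (nat_lit 228) (nat_lit 6648695280) (nat_lit 53) (nat_lit 5) (nat_lit 55) (nat_lit 5) (nat_lit 56) (nat_lit 5) (nat_lit 390) (nat_lit 352) (nat_lit 278)))) (XT.nd (nat_lit 156) (nat_lit 152) (nat_lit 0) (XT.nd (nat_lit 78) (nat_lit 76) (nat_lit 0) (XT.lf (nat_lit 0) (nat_lit 2556947514) (nat_lit 152) (nat_lit 17972045946) (nat_lit 228) (nat_lit 1870142706) (nat_lit 51) (nat_lit 5) (nat_lit 53) (nat_lit 5) (nat_lit 54) (nat_lit 5) (nat_lit 391) (nat_lit 352) (nat_lit 277)) (XT.lf (nat_lit 0) (nat_lit 3245784546) (nat_lit 228) (nat_lit 7439541538) (nat_lit 76) (nat_lit 12433065785) (nat_lit 50) (nat_lit 5) (nat_lit 53) (nat_lit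 5) (nat_lit 51) (nat_lit 5) (nat_lit 392) (nat_lit 352) (nat_lit 276))) (XT.nd (nat_lit 78) (nat_lit 0) (nat_lit 0) (XT.lf (nat_lit 0) (nat_lit 5705048154) (nat_lit 152) (nat_lit 2920135704) (nat_lit 228) (nat_lit 15243373651) (nat_lit 48) (nat_lit 5) (nat_lit 50) (nat_lit 5) (nat_lit 51) (nat_lit 5) (nat_lit 393) (nat_lit 352) (nat_lit 275)) (XT.lf (nat_lit 0) (nat_lit 14465011068) (nat_lit 228) (nat_lit 4998928002) (nat_lit 76) (nat_lit 5182725463) (nat_lit 48) (nat_lit 5) (nat_lit 51) (nat_lit 5) (nat_lit 49) (nat_lit 5) (nat_lit 394) (nat_lit 352) (nat_lit 274))))))) (XT.nd (nat_lit 1014) (nat_lit 760) (nat_lit 0) (XT.nd (nat_lit 468) (nat_lit 532) (nat_lit 0) (XT.nd (nat_lit 234) (nat_lit 228) (nat_lit 0) (XT.nd (nat_lit 78) (nat_lit 228) (nat_lit 0) (XT.lf (nat_lit 0) (nat_lit 9036300389) (nat_lit 152) (nat_lit 11732047581) (nat_lit 228) (nat_lit 4686758730) (nat_lit 46) (nat_lit 5)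 (nat_lit 48) (nat_lit 5) (nat_lit 49) (nat_lit 5) (nat_lit 395) (nat_lit 352) (nat_lit 273)) (XT.nd (nat_lit 78) (nat_lit 152) (nat_lit 0) (XT.lf (nat_lit 0) (nat_lit 1116935291) (nat_lit 228) (nat_lit 2400231689) (nat_lit 76) (nat_lit 22782528160) (nat_lit 45) (nat_lit 5) (nat_lit 48) (nat_lit 5) (nat_lit 46) (nat_lit 5) (nat_lit 396) (nat_lit 352) (nat_lit 272)) (XT.lf (nat_lit 0) (nat_lit 7317885105) (nat_lit 228) (nat_lit 14639066047) (nat_lit 76) (nat_lit 5212496331) (nat_lit 43) (nat_lit 5) (nat_lit 46) (nat_lit 5) (nat_lit 44) (nat_lit 5) (nat_lit 397) (nat_lit 352) (nat_lit 271)))) (XT.nd (nat_lit 78) (nat_lit 76) (nat_lit 0) (XT.lf (nat_lit 0) (nat_lit 128125808) (nat_lit 152) (nat_lit 13785411232) (nat_lit 228) (nat_lit 14164922371) (nat_lit 41) (nat_lit 5) (nat_lit 43) (nat_lit 5) (nat_lit 44) (nat_lit 5) (nat_lit 398) (nat_lit 352) (nat_lit 270)) (XT.nd (nat_lit 78) (nat_lit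 76) (nat_lit 0) (XT.lf (nat_lit 0) (nat_lit 16114510766) (nat_lit 152) (nat_lit 4956410071) (nat_lit 228) (nat_lit 7950408108) (nat_lit 41) (nat_lit 5) (nat_lit 43) (nat_lit 5) (nat_lit 44) (nat_lit 5) (nat_lit 399) (nat_lit 352) (nat_lit 269)) (XT.lf (nat_lit 0) (nat_lit 2887236607) (nat_lit 76) (nat_lit 25795989461) (nat_lit 152) (nat_lit 1323267536) (nat_lit 40) (nat_lit 5) (nat_lit 41) (nat_lit 5) (nat_lit 42) (nat_lit 4) (nat_lit 400) (nat_lit 352) (nat_lit 268))))) (XT.nd (nat_lit 234) (nat_lit 304) (nat_lit 0) (XT.nd (nat_lit 78) (nat_lit 152) (nat_lit 0) (XT.lf (nat_lit 0) (nat_lit 5742978382) (nat_lit 152) (nat_lit 11310486563) (nat_lit 76) (nat_lit 13968650786) (nat_lit 39) (nat_lit 5) (nat_lit 41) (nat_lit 5) (nat_lit 40) (nat_lit 5) (nat_lit 401) (nat_lit 352) (nat_lit 267)) (XT.nd (nat_lit 78) (nat_lit 0) (nat_lit 0) (XT.lf (nat_lit 0) (nat_lit 5414841804) (nat_lit 152) (nat_lit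 7773185856) (nat_lit 228) (nat_lit 18895912264) (nat_lit 37) (nat_lit 5) (nat_lit 39) (nat_lit 5) (nat_lit 40) (nat_lit 5) (nat_lit 402) (nat_lit 352) (nat_lit 266)) (XT.lf (nat_lit 0) (nat_lit 21216347141) (nat_lit 228) (nat_lit 9879715190) (nat_lit 76) (nat_lit 2092245614) (nat_lit 37) (nat_lit 5) (nat_lit 40) (nat_lit 5) (nat_lit 38) (nat_lit 4) (nat_lit 403) (nat_lit 352) (nat_lit 265)))) (XT.nd (nat_lit 156) (nat_lit 152) (nat_lit 0) (XT.nd (nat_lit 78) (nat_lit 76) (nat_lit 0) (XT.lf (nat_lit 0) (nat_lit 7848495341) (nat_lit 76) (nat_lit 22033795943) (nat_lit 152) (nat_lit 4453795986) (nat_lit 36) (nat_lit 5) (nat_lit 37) (nat_lit 5) (nat_lit 38) (nat_lit 4) (nat_lit 404) (nat_lit 352) (nat_lit 264)) (XT.lf (nat_lit 0) (nat_lit 3486525892) (nat_lit 152) (nat_lit 8807702587) (nat_lit 76) (nat_lit 23236526535) (nat_lit 35) (nat_lit 5) (nat_lit 37) (nat_lit 5) (nat_lit 36) (nat_lit 5)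 (nat_lit 405) (nat_lit 352) (nat_lit 263))) (XT.nd (nat_lit 78) (nat_lit 0) (nat_lit 0) (XT.lf (nat_lit 0) (nat_lit 9979256773) (nat_lit 152) (nat_lit 1837685459) (nat_lit 228) (nat_lit 24957428389) (nat_lit 33) (nat_lit 5) (nat_lit 35) (nat_lit 5) (nat_lit 36) (nat_lit 5) (nat_lit 406) (nat_lit 352) (nat_lit 262)) (XT.lf (nat_lit 0) (nat_lit 20845270533) (nat_lit 228) (nat_lit 8229951395) (nat_lit 76) (nat_lit 8990878270) (nat_lit 33) (nat_lit 5) (nat_lit 36) (nat_lit 5) (nat_lit 34) (nat_lit 4) (nat_lit 407) (nat_lit 352) (nat_lit 261)))))) (XT.nd (nat_lit 468) (nat_lit 380) (nat_lit 0) (XT.nd (nat_lit 234) (nat_lit 76) (nat_lit 0) (XT.nd (nat_lit 78) (nat_lit 228) (nat_lit 0) (XT.lf (nat_lit 0) (nat_lit 11581728388) (nat_lit 76) (nat_lit 18941908308) (nat_lit 152) (nat_lit 8888851101) (nat_lit 32) (nat_lit 5) (nat_lit 33) (nat_lit 5) (nat_lit 34) (nat_lit 4) (nat_lit 408) (nat_lit 352)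 (nat_lit 260)) (XT.nd (nat_lit 78) (nat_lit 228) (nat_lit 0) (XT.lf (nat_lit 0) (nat_lit 32647774767) (nat_lit 76) (nat_lit 8165441278) (nat_lit 152) (nat_lit 6616478) (nat_lit 32) (nat_lit 5) (nat_lit 33) (nat_lit 5) (nat_lit 34) (nat_lit 4) (nat_lit 409) (nat_lit 352) (nat_lit 259)) (XT.lf (nat_lit 0) (nat_lit 9262840068) (nat_lit 228) (nat_lit 29626030757) (nat_lit 76) (nat_lit 3389330577) (nat_lit 29) (nat_lit 5) (nat_lit 32) (nat_lit 5) (nat_lit 30) (nat_lit 4) (nat_lit 410) (nat_lit 352) (nat_lit 258)))) (XT.nd (nat_lit 78) (nat_lit 76) (nat_lit 0) (XT.lf (nat_lit 0) (nat_lit 19258456634) (nat_lit 228) (nat_lit 9158851188) (nat_lit 76) (nat_lit 15379032155) (nat_lit 29) (nat_lit 5) (nat_lit 32) (nat_lit 5) (nat_lit 30) (nat_lit 4) (nat_lit 411) (nat_lit 352) (nat_lit 257)) (XT.nd (nat_lit 78) (nat_lit 0) (nat_lit 0) (XT.lf (nat_lit 0) (nat_lit 12718402096) (nat_lit 76) (nat_lit 17222958296)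 (nat_lit 152) (nat_lit 15439651821) (nat_lit 28) (nat_lit 5) (nat_lit 29) (nat_lit 5) (nat_lit 30) (nat_lit 4) (nat_lit 412) (nat_lit 352) (nat_lit 256)) (XT.lf (nat_lit 0) (nat_lit 35987467403) (nat_lit 76) (nat_lit 5315202160) (nat_lit 152) (nat_lit 5735037436) (nat_lit 28) (nat_lit 5) (nat_lit 29) (nat_lit 5) (nat_lit 30) (nat_lit 4) (nat_lit 413) (nat_lit 352) (nat_lit 255))))) (XT.nd (nat_lit 234) (nat_lit 152) (nat_lit 0) (XT.nd (nat_lit 78) (nat_lit 76) (nat_lit 0) (XT.lf (nat_lit 0) (nat_lit 4604353167) (nat_lit 152) (nat_lit 36945451480) (nat_lit 76) (nat_lit 7209349691) (nat_lit 26) (nat_lit 5) (nat_lit 28) (nat_lit 5) (nat_lit 27) (nat_lit 4) (nat_lit 414) (nat_lit 352) (nat_lit 254)) (XT.nd (nat_lit 78) (nat_lit 76) (nat_lit 0) (XT.lf (nat_lit 0) (nat_lit 15534882422) (nat_lit 152) (nat_lit 14556541377) (nat_lit 76) (nat_lit 20457205881) (nat_lit 26) (nat_lit 5) (nat_lit 28)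 (nat_lit 5) (nat_lit 27) (nat_lit 4) (nat_lit 415) (nat_lit 352) (nat_lit 253)) (XT.lf (nat_lit 0) (nat_lit 9228629103) (nat_lit 76) (nat_lit 17917451401) (nat_lit 152) (nat_lit 25274792771) (nat_lit 25) (nat_lit 5) (nat_lit 26) (nat_lit 5) (nat_lit 27) (nat_lit 4) (nat_lit 416) (nat_lit 352) (nat_lit 252)))) (XT.nd (nat_lit 156) (nat_lit 76) (nat_lit 0) (XT.nd (nat_lit 78) (nat_lit 76) (nat_lit 0) (XT.lf (nat_lit 0) (nat_lit 34690168798) (nat_lit 76) (nat_lit 4884437731) (nat_lit 152) (nat_lit 14800285649) (nat_lit 25) (nat_lit 5) (nat_lit 26) (nat_lit 5) (nat_lit 27) (nat_lit 4) (nat_lit 417) (nat_lit 352) (nat_lit 251)) (XT.lf (nat_lit 0) (nat_lit 5003180763) (nat_lit 76) (nat_lit 47827471939) (nat_lit 76) (nat_lit 3585656089) (nat_lit 24) (nat_lit 4) (nat_lit 25) (nat_lit 5) (nat_lit 25) (nat_lit 4) (nat_lit 418) (nat_lit 352) (nat_lit 250))) (XT.nd (nat_lit 78) (nat_lit 0) (nat_lit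 0) (XT.lf (nat_lit 0) (nat_lit 8337098590) (nat_lit 152) (nat_lit 27165395988) (nat_lit 76) (nat_lit 23030433998) (nat_lit 23) (nat_lit 5) (nat_lit 25) (nat_lit 5) (nat_lit 24) (nat_lit 4) (nat_lit 419) (nat_lit 352) (nat_lit 249)) (XT.lf (nat_lit 0) (nat_lit 20726543917) (nat_lit 152) (nat_lit 1780968541) (nat_lit 76) (nat_lit 38245376364) (nat_lit 23) (nat_lit 5) (nat_lit 25) (nat_lit 5) (nat_lit 24) (nat_lit 4) (nat_lit 420) (nat_lit 352) (nat_lit 248))))))))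
noncomputable def xc129 : XT := (XT.nd (nat_lit 1950) (nat_lit 456) (nat_lit 0) (XT.nd (nat_lit 936) (nat_lit 456) (nat_lit 0) (XT.nd (nat_lit 468) (nat_lit 228) (nat_lit 0) (XT.nd (nat_lit 234) (nat_lit 152) (nat_lit 0) (XT.nd (nat_lit 78) (nat_lit 76) (nat_lit 0) (XT.lf (nat_lit 0) (nat_lit 25678446206) (nat_lit 76) (nat_lit 8449408261) (nat_lit 152) (nat_lit 28936374165) (nat_lit 22) (nat_lit 5) (nat_lit 23) (nat_lit 5) (nat_lit 24) (nat_lit 4) (nat_lit 421) (nat_lit 352) (nat_lit 247)) (XT.nd (nat_lit 78) (nat_lit 76) (nat_lit 0) (XT.lf (nat_lit 0) (nat_lit 48319950259) (nat_lit 152) (nat_lit 11032148012) (nat_lit 0) (nat_lit 6133002316) (nat_lit 22) (nat_lit 5) (nat_lit 24) (nat_lit 4) (nat_lit 22) (nat_lit 4) (nat_lit 422) (nat_lit 352) (nat_lit 246)) (XT.lf (nat_lit 0) (nat_lit 17030352467) (nat_lit 76) (nat_lit 46587630426) (nat_lit 76) (nat_lit 4389217733) (nat_lit 21) (nat_lit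 4) (nat_lit 22) (nat_lit 5) (nat_lit 22) (nat_lit 4) (nat_lit 423) (nat_lit 352) (nat_lit 245)))) (XT.nd (nat_lit 78) (nat_lit 76) (nat_lit 0) (XT.lf (nat_lit 0) (nat_lit 8918479349) (nat_lit 152) (nat_lit 23926448834) (nat_lit 76) (nat_lit 37794340762) (nat_lit 20) (nat_lit 5) (nat_lit 22) (nat_lit 5) (nat_lit 21) (nat_lit 4) (nat_lit 424) (nat_lit 352) (nat_lit 244)) (XT.nd (nat_lit 78) (nat_lit 0) (nat_lit 0) (XT.lf (nat_lit 0) (nat_lit 4534999860) (nat_lit 76) (nat_lit 18272185616) (nat_lit 152) (nat_lit 50589001890) (nat_lit 19) (nat_lit 5) (nat_lit 20) (nat_lit 5) (nat_lit 21) (nat_lit 4) (nat_lit 425) (nat_lit 352) (nat_lit 243)) (XT.lf (nat_lit 0) (nat_lit 35235765266) (nat_lit 76) (nat_lit 2552234399) (nat_lit 152) (nat_lit 38483069299) (nat_lit 19) (nat_lit 5) (nat_lit 20) (nat_lit 5) (nat_lit 21) (nat_lit 4) (nat_lit 426) (nat_lit 352) (nat_lit 242))))) (XT.nd (nat_lit 234) (nat_lit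 76) (nat_lit 0) (XT.nd (nat_lit 78) (nat_lit 152) (nat_lit 0) (XT.lf (nat_lit 0) (nat_lit 53728434122) (nat_lit 152) (nat_lit 12049980297) (nat_lit 0) (nat_lit 13500752097) (nat_lit 19) (nat_lit 5) (nat_lit 21) (nat_lit 4) (nat_lit 19) (nat_lit 4) (nat_lit 427) (nat_lit 352) (nat_lit 241)) (XT.nd (nat_lit 78) (nat_lit 76) (nat_lit 0) (XT.lf (nat_lit 0) (nat_lit 18935491925) (nat_lit 76) (nat_lit 51860943878) (nat_lit 76) (nat_lit 11624706679) (nat_lit 18) (nat_lit 4) (nat_lit 19) (nat_lit 5) (nat_lit 19) (nat_lit 4) (nat_lit 428) (nat_lit 352) (nat_lit 240)) (XT.lf (nat_lit 0) (nat_lit 3102177871) (nat_lit 152) (nat_lit 33884920345) (nat_lit 76) (nat_lit 48720754697) (nat_lit 17) (nat_lit 5) (nat_lit 19) (nat_lit 5) (nat_lit 18) (nat_lit 4) (nat_lit 429) (nat_lit 352) (nat_lit 239)))) (XT.nd (nat_lit 78) (nat_lit 76) (nat_lit 0) (XT.lf (nat_lit 0) (nat_lit 18168152113) (nat_lit 152) (nat_lit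 3007432943) (nat_lit 76) (nat_lit 67974115470) (nat_lit 17) (nat_lit 5) (nat_lit 19) (nat_lit 5) (nat_lit 18) (nat_lit 4) (nat_lit 430) (nat_lit 352) (nat_lit 238)) (XT.nd (nat_lit 78) (nat_lit 0) (nat_lit 0) (XT.lf (nat_lit 0) (nat_lit 30373980802) (nat_lit 76) (nat_lit 4081392786) (nat_lit 152) (nat_lit 58284870173) (nat_lit 16) (nat_lit 5) (nat_lit 17) (nat_lit 5) (nat_lit 18) (nat_lit 4) (nat_lit 431) (nat_lit 352) (nat_lit 237)) (XT.lf (nat_lit 0) (nat_lit 51818982755) (nat_lit 152) (nat_lit 31208365493) (nat_lit 0) (nat_lit 13469865215) (nat_lit 16) (nat_lit 5) (nat_lit 18) (nat_lit 4) (nat_lit 16) (nat_lit 4) (nat_lit 432) (nat_lit 352) (nat_lit 236)))))) (XT.nd (nat_lit 468) (nat_lit 228) (nat_lit 0) (XT.nd (nat_lit 234) (nat_lit 76) (nat_lit 0) (XT.nd (nat_lit 78) (nat_lit 76) (nat_lit 0) (XT.lf (nat_lit 0) (nat_lit 1476215622) (nat_lit 76) (nat_lit 68658559030) (nat_lit 76) (nat_lit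 30303057489) (nat_lit 15) (nat_lit 4) (nat_lit 16) (nat_lit 5) (nat_lit 16) (nat_lit 4) (nat_lit 433) (nat_lit 352) (nat_lit 235)) (XT.nd (nat_lit 78) (nat_lit 76) (nat_lit 0) (XT.lf (nat_lit 0) (nat_lit 36867144819) (nat_lit 76) (nat_lit 53021892498) (nat_lit 76) (nat_lit 14660310955) (nat_lit 15) (nat_lit 4) (nat_lit 16) (nat_lit 5) (nat_lit 16) (nat_lit 4) (nat_lit 434) (nat_lit 352) (nat_lit 234)) (XT.lf (nat_lit 0) (nat_lit 1702434581) (nat_lit 152) (nat_lit 34877381128) (nat_lit 76) (nat_lit 72285530574) (nat_lit 14) (nat_lit 5) (nat_lit 16) (nat_lit 5) (nat_lit 15) (nat_lit 4) (nat_lit 435) (nat_lit 352) (nat_lit 233)))) (XT.nd (nat_lit 78) (nat_lit 76) (nat_lit 0) (XT.lf (nat_lit 0) (nat_lit 18385243413) (nat_lit 152) (nat_lit 683137764) (nat_lit 76) (nat_lit 94317016438) (nat_lit 14) (nat_lit 5) (nat_lit 16) (nat_lit 5) (nat_lit 15) (nat_lit 4) (nat_lit 436) (nat_lit 352) (nat_lit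 232)) (XT.nd (nat_lit 78) (nat_lit 0) (nat_lit 0) (XT.lf (nat_lit 0) (nat_lit 36375059101) (nat_lit 76) (nat_lit 89915531) (nat_lit 152) (nat_lit 81638338258) (nat_lit 13) (nat_lit 5) (nat_lit 14) (nat_lit 5) (nat_lit 15) (nat_lit 4) (nat_lit 437) (nat_lit 352) (nat_lit 231)) (XT.lf (nat_lit 0) (nat_lit 55765051637) (nat_lit 152) (nat_lit 48066575456) (nat_lit 0) (nat_lit 19209679325) (nat_lit 13) (nat_lit 5) (nat_lit 15) (nat_lit 4) (nat_lit 13) (nat_lit 4) (nat_lit 438) (nat_lit 352) (nat_lit 230))))) (XT.nd (nat_lit 234) (nat_lit 152) (nat_lit 0) (XT.nd (nat_lit 78) (nat_lit 76) (nat_lit 0) (XT.lf (nat_lit 0) (nat_lit 76026731987) (nat_lit 152) (nat_lit 12732815409) (nat_lit 0) (nat_lit 39466822684) (nat_lit 13) (nat_lit 5) (nat_lit 15) (nat_lit 4) (nat_lit 13) (nat_lit 4) (nat_lit 439) (nat_lit 352) (nat_lit 229)) (XT.nd (nat_lit 78) (nat_lit 0) (nat_lit 0) (XT.lf (nat_lit 0) (nat_lit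 25163962125) (nat_lit 76) (nat_lit 72525771789) (nat_lit 76) (nat_lit 35961541543) (nat_lit 12) (nat_lit 4) (nat_lit 13) (nat_lit 5) (nat_lit 13) (nat_lit 4) (nat_lit 440) (nat_lit 352) (nat_lit 228)) (XT.lf (nat_lit 0) (nat_lit 65388705044) (nat_lit 76) (nat_lit 55258256548) (nat_lit 76) (nat_lit 18689911118) (nat_lit 12) (nat_lit 4) (nat_lit 13) (nat_lit 5) (nat_lit 13) (nat_lit 4) (nat_lit 441) (nat_lit 352) (nat_lit 227)))) (XT.nd (nat_lit 156) (nat_lit 0) (nat_lit 0) (XT.nd (nat_lit 78) (nat_lit 152) (nat_lit 0) (XT.lf (nat_lit 0) (nat_lit 107616182163) (nat_lit 76) (nat_lit 37131524932) (nat_lit 76) (nat_lit 559260278) (nat_lit 12) (nat_lit 4) (nat_lit 13) (nat_lit 5) (nat_lit 13) (nat_lit 4) (nat_lit 442) (nat_lit 352) (nat_lit 226)) (XT.lf (nat_lit 0) (nat_lit 85472442) (nat_lit 76) (nat_lit 17798171308) (nat_lit 152) (nat_lit 133677642271) (nat_lit 10) (nat_lit 5) (nat_lit 11) (nat_lit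 5) (nat_lit 12) (nat_lit 4) (nat_lit 443) (nat_lit 352) (nat_lit 225))) (XT.nd (nat_lit 78) (nat_lit 0) (nat_lit 0) (XT.lf (nat_lit 0) (nat_lit 37913541652) (nat_lit 152) (nat_lit 117104265697) (nat_lit 0) (nat_lit 3075872988) (nat_lit 10) (nat_lit 5) (nat_lit 12) (nat_lit 4) (nat_lit 10) (nat_lit 4) (nat_lit 444) (nat_lit 352) (nat_lit 224)) (XT.lf (nat_lit 0) (nat_lit 59232714209) (nat_lit 152) (nat_lit 81313770288) (nat_lit 0) (nat_lit 24391821190) (nat_lit 10) (nat_lit 5) (nat_lit 12) (nat_lit 4) (nat_lit 10) (nat_lit 4) (nat_lit 445) (nat_lit 352) (nat_lit 223))))))) (XT.nd (nat_lit 1014) (nat_lit 152) (nat_lit 0) (XT.nd (nat_lit 468) (nat_lit 152) (nat_lit 0) (XT.nd (nat_lit 234) (nat_lit 76) (nat_lit 0) (XT.nd (nat_lit 78) (nat_lit 76) (nat_lit 0) (XT.lf (nat_lit 0) (nat_lit 81614042022) (nat_lit 152) (nat_lit 43741232553) (nat_lit 0) (nat_lit 46770078189) (nat_lit 10) (nat_lit 5)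 (nat_lit 12) (nat_lit 4) (nat_lit 10) (nat_lit 4) (nat_lit 446) (nat_lit 352) (nat_lit 222)) (XT.nd (nat_lit 78) (nat_lit 76) (nat_lit 0) (XT.lf (nat_lit 0) (nat_lit 105110813967) (nat_lit 152) (nat_lit 4297194070) (nat_lit 0) (nat_lit 70263925549) (nat_lit 10) (nat_lit 5) (nat_lit 12) (nat_lit 4) (nat_lit 10) (nat_lit 4) (nat_lit 447) (nat_lit 352) (nat_lit 221)) (XT.lf (nat_lit 0) (nat_lit 38339358443) (nat_lit 76) (nat_lit 92038201126) (nat_lit 76) (nat_lit 57188527390) (nat_lit 9) (nat_lit 4) (nat_lit 10) (nat_lit 5) (nat_lit 10) (nat_lit 4) (nat_lit 448) (nat_lit 352) (nat_lit 220)))) (XT.nd (nat_lit 78) (nat_lit 76) (nat_lit 0) (XT.lf (nat_lit 0) (nat_lit 83250250123) (nat_lit 76) (nat_lit 73726777642) (nat_lit 76) (nat_lit 38874451221) (nat_lit 9) (nat_lit 4) (nat_lit 10) (nat_lit 5) (nat_lit 10) (nat_lit 4) (nat_lit 449) (nat_lit 352) (nat_lit 219)) (XT.nd (nat_lit 78) (nat_lit 76)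 (nat_lit 0) (XT.lf (nat_lit 0) (nat_lit 130400327022) (nat_lit 76) (nat_lit 54502914018) (nat_lit 76) (nat_lit 19648061231) (nat_lit 9) (nat_lit 4) (nat_lit 10) (nat_lit 5) (nat_lit 10) (nat_lit 4) (nat_lit 450) (nat_lit 352) (nat_lit 218)) (XT.lf (nat_lit 0) (nat_lit 519250918) (nat_lit 152) (nat_lit 33792794467) (nat_lit 76) (nat_lit 179373806544) (nat_lit 8) (nat_lit 5) (nat_lit 10) (nat_lit 5) (nat_lit 9) (nat_lit 4) (nat_lit 451) (nat_lit 352) (nat_lit 217))))) (XT.nd (nat_lit 234) (nat_lit 76) (nat_lit 0) (XT.nd (nat_lit 78) (nat_lit 0) (nat_lit 0) (XT.lf (nat_lit 0) (nat_lit 8528287704) (nat_lit 76) (nat_lit 12636511341) (nat_lit 152) (nat_lit 202089716559) (nat_lit 7) (nat_lit 5) (nat_lit 8) (nat_lit 5) (nat_lit 9) (nat_lit 4) (nat_lit 452) (nat_lit 352) (nat_lit 216)) (XT.nd (nat_lit 78) (nat_lit 0) (nat_lit 0) (XT.lf (nat_lit 0) (nat_lit 43579379850) (nat_lit 152) (nat_lit 179307665395)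 (nat_lit 0) (nat_lit 10377729651) (nat_lit 7) (nat_lit 5) (nat_lit 9) (nat_lit 4) (nat_lit 7) (nat_lit 4) (nat_lit 453) (nat_lit 352) (nat_lit 215)) (XT.lf (nat_lit 0) (nat_lit 67319017767) (nat_lit 152) (nat_lit 142330925076) (nat_lit 0) (nat_lit 34115388094) (nat_lit 7) (nat_lit 5) (nat_lit 9) (nat_lit 4) (nat_lit 7) (nat_lit 4) (nat_lit 454) (nat_lit 352) (nat_lit 214)))) (XT.nd (nat_lit 156) (nat_lit 76) (nat_lit 0) (XT.nd (nat_lit 78) (nat_lit 0) (nat_lit 0) (XT.lf (nat_lit 0) (nat_lit 92242944387) (nat_lit 152) (nat_lit 103510675732) (nat_lit 0) (nat_lit 59037429500) (nat_lit 7) (nat_lit 5) (nat_lit 9) (nat_lit 4) (nat_lit 7) (nat_lit 4) (nat_lit 455) (nat_lit 352) (nat_lit 213)) (XT.lf (nat_lit 0) (nat_lit 118410502392) (nat_lit 152) (nat_lit 62754488197) (nat_lit 0) (nat_lit 85203192064) (nat_lit 7) (nat_lit 5) (nat_lit 9) (nat_lit 4) (nat_lit 7) (nat_lit 4) (nat_lit 456) (nat_lit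 352) (nat_lit 212))) (XT.nd (nat_lit 78) (nat_lit 76) (nat_lit 0) (XT.lf (nat_lit 0) (nat_lit 145883995491) (nat_lit 152) (nat_lit 19965323928) (nat_lit 0) (nat_lit 112674975220) (nat_lit 7) (nat_lit 5) (nat_lit 9) (nat_lit 4) (nat_lit 7) (nat_lit 4) (nat_lit 457) (nat_lit 352) (nat_lit 211)) (XT.lf (nat_lit 0) (nat_lit 25783943242) (nat_lit 76) (nat_lit 149347453136) (nat_lit 76) (nat_lit 116136804346) (nat_lit 6) (nat_lit 4) (nat_lit 7) (nat_lit 5) (nat_lit 7) (nat_lit 4) (nat_lit 458) (nat_lit 352) (nat_lit 210)))))) (XT.nd (nat_lit 468) (nat_lit 76) (nat_lit 0) (XT.nd (nat_lit 234) (nat_lit 76) (nat_lit 0) (XT.nd (nat_lit 78) (nat_lit 0) (nat_lit 0) (XT.lf (nat_lit 0) (nat_lit 74509296452) (nat_lit 76) (nat_lit 131667706883) (nat_lit 76) (nat_lit 98455507123) (nat_lit 6) (nat_lit 4) (nat_lit 7) (nat_lit 5) (nat_lit 7) (nat_lit 4) (nat_lit 459) (nat_lit 352) (nat_lit 209)) (XT.nd (nat_lit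 78) (nat_lit 0) (nat_lit 0) (XT.lf (nat_lit 0) (nat_lit 125666604671) (nat_lit 76) (nat_lit 113106108449) (nat_lit 76) (nat_lit 79892431575) (nat_lit 6) (nat_lit 4) (nat_lit 7) (nat_lit 5) (nat_lit 7) (nat_lit 4) (nat_lit 460) (nat_lit 352) (nat_lit 208)) (XT.lf (nat_lit 0) (nat_lit 179377671015) (nat_lit 76) (nat_lit 93618463551) (nat_lit 76) (nat_lit 60403379903) (nat_lit 6) (nat_lit 4) (nat_lit 7) (nat_lit 5) (nat_lit 7) (nat_lit 4) (nat_lit 461) (nat_lit 352) (nat_lit 207)))) (XT.nd (nat_lit 78) (nat_lit 76) (nat_lit 0) (XT.lf (nat_lit 0) (nat_lit 235770378974) (nat_lit 76) (nat_lit 73158373037) (nat_lit 76) (nat_lit 39941949602) (nat_lit 6) (nat_lit 4) (nat_lit 7) (nat_lit 5) (nat_lit 7) (nat_lit 4) (nat_lit 462) (nat_lit 352) (nat_lit 206)) (XT.nd (nat_lit 78) (nat_lit 76) (nat_lit 0) (XT.lf (nat_lit 0) (nat_lit 294978996900) (nat_lit 76) (nat_lit 51677122403) (nat_lit 76) (nat_lit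 18459422982) (nat_lit 6) (nat_lit 4) (nat_lit 7) (nat_lit 5) (nat_lit 7) (nat_lit 4) (nat_lit 463) (nat_lit 352) (nat_lit 205)) (XT.lf (nat_lit 0) (nat_lit 3964272092) (nat_lit 152) (nat_lit 25092156857) (nat_lit 76) (nat_lit 353113088736) (nat_lit 5) (nat_lit 5) (nat_lit 7) (nat_lit 5) (nat_lit 6) (nat_lit 4) (nat_lit 464) (nat_lit 352) (nat_lit 204))))) (XT.nd (nat_lit 234) (nat_lit 0) (nat_lit 0) (XT.nd (nat_lit 78) (nat_lit 0) (nat_lit 0) (XT.lf (nat_lit 0) (nat_lit 22622461120) (nat_lit 76) (nat_lit 4617798940) (nat_lit 152) (nat_lit 372803227936) (nat_lit 4) (nat_lit 5) (nat_lit 5) (nat_lit 5) (nat_lit 6) (nat_lit 4) (nat_lit 465) (nat_lit 352) (nat_lit 203)) (XT.nd (nat_lit 78) (nat_lit 0) (nat_lit 0) (XT.lf (nat_lit 0) (nat_lit 52438767495) (nat_lit 152) (nat_lit 345534899498) (nat_lit 0) (nat_lit 20799553924) (nat_lit 4) (nat_lit 5) (nat_lit 6) (nat_lit 4) (nat_lit 4) (nat_lit 4)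 (nat_lit 466) (nat_lit 352) (nat_lit 202)) (XT.lf (nat_lit 0) (nat_lit 78971253730) (nat_lit 152) (nat_lit 312133443788) (nat_lit 0) (nat_lit 47331040390) (nat_lit 4) (nat_lit 5) (nat_lit 6) (nat_lit 4) (nat_lit 4) (nat_lit 4) (nat_lit 467) (nat_lit 352) (nat_lit 201)))) (XT.nd (nat_lit 156) (nat_lit 0) (nat_lit 0) (XT.nd (nat_lit 78) (nat_lit 0) (nat_lit 0) (XT.lf (nat_lit 0) (nat_lit 106828794568) (nat_lit 152) (nat_lit 277065035689) (nat_lit 0) (nat_lit 75187629068) (nat_lit 4) (nat_lit 5) (nat_lit 6) (nat_lit 4) (nat_lit 4) (nat_lit 4) (nat_lit 468) (nat_lit 352) (nat_lit 200)) (XT.lf (nat_lit 0) (nat_lit 136077717488) (nat_lit 152) (nat_lit 240246178990) (nat_lit 0) (nat_lit 104435645168) (nat_lit 4) (nat_lit 5) (nat_lit 6) (nat_lit 4) (nat_lit 4) (nat_lit 4) (nat_lit 469) (nat_lit 352) (nat_lit 199))) (XT.nd (nat_lit 78) (nat_lit 0) (nat_lit 0) (XT.lf (nat_lit 0) (nat_lit 166787662783)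 (nat_lit 152) (nat_lit 201589209748) (nat_lit 0) (nat_lit 135144726824) (nat_lit 4) (nat_lit 5) (nat_lit 6) (nat_lit 4) (nat_lit 4) (nat_lit 4) (nat_lit 470) (nat_lit 352) (nat_lit 198)) (XT.lf (nat_lit 0) (nat_lit 199031749369) (nat_lit 152) (nat_lit 161002087558) (nat_lit 0) (nat_lit 167387990898) (nat_lit 4) (nat_lit 5) (nat_lit 6) (nat_lit 4) (nat_lit 4) (nat_lit 4) (nat_lit 471) (nat_lit 352) (nat_lit 197))))))))
noncomputable def xc130 : XT := (XT.nd (nat_lit 45318) (nat_lit 0) (nat_lit 3192) (XT.nd (nat_lit 44304) (nat_lit 0) (nat_lit 6688) (XT.nd (nat_lit 43836) (nat_lit 0) (nat_lit 9120) (XT.nd (nat_lit 234) (nat_lit 76) (nat_lit 0) (XT.nd (nat_lit 78) (nat_lit 0) (nat_lit 0) (XT.lf (nat_lit 0) (nat_lit 232886748881) (nat_lit 152) (nat_lit 118388176416) (nat_lit 0) (nat_lit 201242207066) (nat_lit 4) (nat_lit 5) (nat_lit 6) (nat_lit 4) (nat_lit 4) (nat_lit 4) (nat_lit 472) (nat_lit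 352) (nat_lit 196)) (XT.nd (nat_lit 78) (nat_lit 0) (nat_lit 0) (XT.lf (nat_lit 0) (nat_lit 268433268462) (nat_lit 152) (nat_lit 73646014628) (nat_lit 0) (nat_lit 236787980603) (nat_lit 4) (nat_lit 5) (nat_lit 6) (nat_lit 4) (nat_lit 4) (nat_lit 4) (nat_lit 473) (nat_lit 352) (nat_lit 195)) (XT.lf (nat_lit 0) (nat_lit 305755942681) (nat_lit 152) (nat_lit 26669073239) (nat_lit 0) (nat_lit 274109944305) (nat_lit 4) (nat_lit 5) (nat_lit 6) (nat_lit 4) (nat_lit 4) (nat_lit 4) (nat_lit 474) (nat_lit 352) (nat_lit 194)))) (XT.nd (nat_lit 78) (nat_lit 0) (nat_lit 0) (XT.lf (nat_lit 0) (nat_lit 23403557614) (nat_lit 76) (nat_lit 321905472558) (nat_lit 76) (nat_lit 290258797499) (nat_lit 3) (nat_lit 4) (nat_lit 4) (nat_lit 5) (nat_lit 4) (nat_lit 4) (nat_lit 475) (nat_lit 352) (nat_lit 193)) (XT.nd (nat_lit 78) (nat_lit 0) (nat_lit 0) (XT.lf (nat_lit 0) (nat_lit 76903528173) (nat_lit 76) (nat_lit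 310386801018) (nat_lit 76) (nat_lit 278739481499) (nat_lit 3) (nat_lit 4) (nat_lit 4) (nat_lit 5) (nat_lit 4) (nat_lit 4) (nat_lit 476) (nat_lit 352) (nat_lit 192)) (XT.lf (nat_lit 0) (nat_lit 133076419319) (nat_lit 76) (nat_lit 298293229553) (nat_lit 76) (nat_lit 266645296263) (nat_lit 3) (nat_lit 4) (nat_lit 4) (nat_lit 5) (nat_lit 4) (nat_lit 4) (nat_lit 477) (nat_lit 352) (nat_lit 191))))) (XT.nd (nat_lit 234) (nat_lit 532) (nat_lit 0) (XT.nd (nat_lit 78) (nat_lit 0) (nat_lit 0) (XT.lf (nat_lit 0) (nat_lit 1578701315) (nat_lit 684) (nat_lit 1313028795) (nat_lit 684) (nat_lit 1313028795) (nat_lit 130) (nat_lit 3) (nat_lit 139) (nat_lit 3) (nat_lit 139) (nat_lit 5) (nat_lit 353) (nat_lit 353) (nat_lit 314)) (XT.nd (nat_lit 78) (nat_lit 0) (nat_lit 76) (XT.lf (nat_lit 76) (nat_lit 1487909179) (nat_lit 0) (nat_lit 2799645792) (nat_lit 684) (nat_lit 4278798336) (nat_lit 131) (nat_lit 5) (nat_lit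 130) (nat_lit 3) (nat_lit 139) (nat_lit 5) (nat_lit 354) (nat_lit 353) (nat_lit 313)) (XT.lf (nat_lit 0) (nat_lit 5458739037) (nat_lit 608) (nat_lit 2875563182) (nat_lit 684) (nat_lit 397556027) (nat_lit 131) (nat_lit 5) (nat_lit 139) (nat_lit 5) (nat_lit 140) (nat_lit 5) (nat_lit 355) (nat_lit 353) (nat_lit 312)))) (XT.nd (nat_lit 78) (nat_lit 608) (nat_lit 0) (XT.lf (nat_lit 76) (nat_lit 1501954464) (nat_lit 0) (nat_lit 5193127489) (nat_lit 684) (nat_lit 2210277803) (nat_lit 132) (nat_lit 5) (nat_lit 131) (nat_lit 5) (nat_lit 140) (nat_lit 5) (nat_lit 356) (nat_lit 353) (nat_lit 311)) (XT.nd (nat_lit 78) (nat_lit 608) (nat_lit 0) (XT.lf (nat_lit 76) (nat_lit 6161105416) (nat_lit 0) (nat_lit 1820498796) (nat_lit 684) (nat_lit 1106562884) (nat_lit 132) (nat_lit 5) (nat_lit 131) (nat_lit 5) (nat_lit 140) (nat_lit 5) (nat_lit 357) (nat_lit 353) (nat_lit 310)) (XT.lf (nat_lit 0) (nat_lit 47864162)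 (nat_lit 684) (nat_lit 7516948452) (nat_lit 760) (nat_lit 1715445576) (nat_lit 123) (nat_lit 5) (nat_lit 132) (nat_lit 5) (nat_lit 133) (nat_lit 5) (nat_lit 358) (nat_lit 353) (nat_lit 309)))))) (XT.nd (nat_lit 468) (nat_lit 1900) (nat_lit 0) (XT.nd (nat_lit 234) (nat_lit 532) (nat_lit 0) (XT.nd (nat_lit 78) (nat_lit 0) (nat_lit 0) (XT.lf (nat_lit 0) (nat_lit 1247118038) (nat_lit 684) (nat_lit 2778297049) (nat_lit 760) (nat_lit 5454459281) (nat_lit 123) (nat_lit 5) (nat_lit 132) (nat_lit 5) (nat_lit 133) (nat_lit 5) (nat_lit 359) (nat_lit 353) (nat_lit 308)) (XT.nd (nat_lit 78) (nat_lit 0) (nat_lit 76) (XT.lf (nat_lit 76) (nat_lit 2230736606) (nat_lit 0) (nat_lit 257154768) (nat_lit 760) (nat_lit 7202542342) (nat_lit 124) (nat_lit 5) (nat_lit 123) (nat_lit 5) (nat_lit 133) (nat_lit 5) (nat_lit 360) (nat_lit 353) (nat_lit 307)) (XT.lf (nat_lit 0) (nat_lit 3845187202) (nat_lit 684) (nat_lit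 2421179702) (nat_lit 760) (nat_lit 3642468223) (nat_lit 124) (nat_lit 5) (nat_lit 133) (nat_lit 5) (nat_lit 134) (nat_lit 5) (nat_lit 361) (nat_lit 353) (nat_lit 306)))) (XT.nd (nat_lit 78) (nat_lit 608) (nat_lit 0) (XT.lf (nat_lit 76) (nat_lit 2920268850) (nat_lit 0) (nat_lit 2351222320) (nat_lit 760) (nat_lit 4866644732) (nat_lit 125) (nat_lit 5) (nat_lit 124) (nat_lit 5) (nat_lit 134) (nat_lit 5) (nat_lit 362) (nat_lit 353) (nat_lit 305)) (XT.nd (nat_lit 78) (nat_lit 684) (nat_lit 0) (XT.lf (nat_lit 0) (nat_lit 6791469263) (nat_lit 684) (nat_lit 1832305402) (nat_lit 76) (nat_lit 1754043832) (nat_lit 125) (nat_lit 5) (nat_lit 134) (nat_lit 5) (nat_lit 126) (nat_lit 5) (nat_lit 363) (nat_lit 353) (nat_lit 304)) (XT.lf (nat_lit 0) (nat_lit 3869597290) (nat_lit 684) (nat_lit 4572246335) (nat_lit 760) (nat_lit 2184954801) (nat_lit 116) (nat_lit 5) (nat_lit 125) (nat_lit 5) (nat_lit 126) (nat_lit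 5) (nat_lit 364) (nat_lit 353) (nat_lit 303))))) (XT.nd (nat_lit 234) (nat_lit 684) (nat_lit 0) (XT.nd (nat_lit 78) (nat_lit 1216) (nat_lit 0) (XT.lf (nat_lit 0) (nat_lit 9882581765) (nat_lit 684) (nat_lit 280157962) (nat_lit 760) (nat_lit 726118971) (nat_lit 116) (nat_lit 5) (nat_lit 125) (nat_lit 5) (nat_lit 126) (nat_lit 5) (nat_lit 365) (nat_lit 353) (nat_lit 302)) (XT.nd (nat_lit 78) (nat_lit 380) (nat_lit 0) (XT.lf (nat_lit 0) (nat_lit 886134508) (nat_lit 836) (nat_lit 6081955664) (nat_lit 76) (nat_lit 4190018352) (nat_lit 105) (nat_lit 5) (nat_lit 116) (nat_lit 5) (nat_lit 106) (nat_lit 5) (nat_lit 366) (nat_lit 353) (nat_lit 301)) (XT.lf (nat_lit 0) (nat_lit 2228357) (nat_lit 380) (nat_lit 2534108114) (nat_lit 456) (nat_lit 8904829493) (nat_lit 100) (nat_lit 5) (nat_lit 105) (nat_lit 5) (nat_lit 106) (nat_lit 5) (nat_lit 367) (nat_lit 353) (nat_lit 300)))) (XT.nd (nat_lit 156) (nat_lit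 380) (nat_lit 0) (XT.nd (nat_lit 78) (nat_lit 304) (nat_lit 0) (XT.lf (nat_lit 0) (nat_lit 4367982965) (nat_lit 456) (nat_lit 5206361203) (nat_lit 76) (nat_lit 2159111299) (nat_lit 100) (nat_lit 5) (nat_lit 106) (nat_lit 5) (nat_lit 101) (nat_lit 5) (nat_lit 368) (nat_lit 353) (nat_lit 299)) (XT.lf (nat_lit 0) (nat_lit 1299713469) (nat_lit 304) (nat_lit 5016305933) (nat_lit 380) (nat_lit 5723124341) (nat_lit 96) (nat_lit 5) (nat_lit 100) (nat_lit 5) (nat_lit 101) (nat_lit 5) (nat_lit 369) (nat_lit 353) (nat_lit 298))) (XT.nd (nat_lit 78) (nat_lit 380) (nat_lit 0) (XT.lf (nat_lit 0) (nat_lit 8274274155) (nat_lit 304) (nat_lit 139505068) (nat_lit 380) (nat_lit 3943744637) (nat_lit 96) (nat_lit 5) (nat_lit 100) (nat_lit 5) (nat_lit 101) (nat_lit 5) (nat_lit 370) (nat_lit 353) (nat_lit 297)) (XT.lf (nat_lit 0) (nat_lit 2882750703) (nat_lit 380) (nat_lit 7822284551) (nat_lit 456) (nat_lit 1982379703)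 (nat_lit 91) (nat_lit 5) (nat_lit 96) (nat_lit 5) (nat_lit 97) (nat_lit 5) (nat_lit 371) (nat_lit 353) (nat_lit 296))))))) (XT.nd (nat_lit 1014) (nat_lit 1444) (nat_lit 0) (XT.nd (nat_lit 468) (nat_lit 1140) (nat_lit 0) (XT.nd (nat_lit 234) (nat_lit 532) (nat_lit 0) (XT.nd (nat_lit 78) (nat_lit 304) (nat_lit 0) (XT.lf (nat_lit 0) (nat_lit 113478341) (nat_lit 456) (nat_lit 2734169376) (nat_lit 76) (nat_lit 10184168490) (nat_lit 90) (nat_lit 5) (nat_lit 96) (nat_lit 5) (nat_lit 91) (nat_lit 5) (nat_lit 372) (nat_lit 353) (nat_lit 295)) (XT.nd (nat_lit 78) (nat_lit 0) (nat_lit 0) (XT.lf (nat_lit 0) (nat_lit 2328747340) (nat_lit 380) (nat_lit 8654547571) (nat_lit 76) (nat_lit 2404475096) (nat_lit 86) (nat_lit 5) (nat_lit 91) (nat_lit 5) (nat_lit 87) (nat_lit 5) (nat_lit 373) (nat_lit 353) (nat_lit 294)) (XT.lf (nat_lit 0) (nat_lit 4717349495) (nat_lit 380) (nat_lit 1174864204) (nat_lit 76) (nat_lit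 7866197727) (nat_lit 86) (nat_lit 5) (nat_lit 91) (nat_lit 5) (nat_lit 87) (nat_lit 5) (nat_lit 374) (nat_lit 353) (nat_lit 293)))) (XT.nd (nat_lit 78) (nat_lit 228) (nat_lit 0) (XT.lf (nat_lit 0) (nat_lit 6863109387) (nat_lit 304) (nat_lit 439732728) (nat_lit 380) (nat_lit 6840887322) (nat_lit 82) (nat_lit 5) (nat_lit 86) (nat_lit 5) (nat_lit 87) (nat_lit 5) (nat_lit 375) (nat_lit 353) (nat_lit 292)) (XT.nd (nat_lit 78) (nat_lit 0) (nat_lit 0) (XT.lf (nat_lit 0) (nat_lit 699855191) (nat_lit 228) (nat_lit 9402509080) (nat_lit 304) (nat_lit 4441728037) (nat_lit 79) (nat_lit 5) (nat_lit 82) (nat_lit 5) (nat_lit 83) (nat_lit 5) (nat_lit 376) (nat_lit 353) (nat_lit 291)) (XT.lf (nat_lit 0) (nat_lit 9289106194) (nat_lit 228) (nat_lit 3855056847) (nat_lit 304) (nat_lit 1815211165) (nat_lit 79) (nat_lit 5) (nat_lit 82) (nat_lit 5) (nat_lit 83) (nat_lit 5) (nat_lit 377) (nat_lit 353) (nat_lit 290)))))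 (XT.nd (nat_lit 234) (nat_lit 532) (nat_lit 0) (XT.nd (nat_lit 78) (nat_lit 228) (nat_lit 0) (XT.lf (nat_lit 0) (nat_lit 963062372) (nat_lit 380) (nat_lit 12467829222) (nat_lit 76) (nat_lit 1961277131) (nat_lit 74) (nat_lit 5) (nat_lit 79) (nat_lit 5) (nat_lit 75) (nat_lit 5) (nat_lit 378) (nat_lit 353) (nat_lit 289)) (XT.nd (nat_lit 78) (nat_lit 228) (nat_lit 0) (XT.lf (nat_lit 0) (nat_lit 3953478706) (nat_lit 380) (nat_lit 3826236192) (nat_lit 76) (nat_lit 8058702332) (nat_lit 74) (nat_lit 5) (nat_lit 79) (nat_lit 5) (nat_lit 75) (nat_lit 5) (nat_lit 379) (nat_lit 353) (nat_lit 288)) (XT.lf (nat_lit 0) (nat_lit 5386070574) (nat_lit 228) (nat_lit 1766133595) (nat_lit 304) (nat_lit 9151847663) (nat_lit 71) (nat_lit 5) (nat_lit 74) (nat_lit 5) (nat_lit 75) (nat_lit 5) (nat_lit 380) (nat_lit 353) (nat_lit 287)))) (XT.nd (nat_lit 156) (nat_lit 304) (nat_lit 0) (XT.nd (nat_lit 78) (nat_lit 228)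 (nat_lit 0) (XT.lf (nat_lit 0) (nat_lit 10622985287) (nat_lit 304) (nat_lit 1704287084) (nat_lit 76) (nat_lit 4460102288) (nat_lit 71) (nat_lit 5) (nat_lit 75) (nat_lit 5) (nat_lit 72) (nat_lit 5) (nat_lit 381) (nat_lit 353) (nat_lit 286)) (XT.lf (nat_lit 0) (nat_lit 8169943674) (nat_lit 228) (nat_lit 6230298069) (nat_lit 304) (nat_lit 2887986943) (nat_lit 68) (nat_lit 5) (nat_lit 71) (nat_lit 5) (nat_lit 72) (nat_lit 5) (nat_lit 382) (nat_lit 353) (nat_lit 285))) (XT.nd (nat_lit 78) (nat_lit 0) (nat_lit 0) (XT.lf (nat_lit 0) (nat_lit 555877325) (nat_lit 304) (nat_lit 17049270218) (nat_lit 76) (nat_lit 207491705) (nat_lit 64) (nat_lit 5) (nat_lit 68) (nat_lit 5) (nat_lit 65) (nat_lit 5) (nat_lit 383) (nat_lit 353) (nat_lit 284)) (XT.lf (nat_lit 0) (nat_lit 4311084772) (nat_lit 304) (nat_lit 7085293017) (nat_lit 76) (nat_lit 6952725340) (nat_lit 64) (nat_lit 5) (nat_lit 68) (nat_lit 5) (nat_lit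 65) (nat_lit 5) (nat_lit 384) (nat_lit 353) (nat_lit 283)))))) (XT.nd (nat_lit 468) (nat_lit 608) (nat_lit 0) (XT.nd (nat_lit 234) (nat_lit 456) (nat_lit 0) (XT.nd (nat_lit 78) (nat_lit 152) (nat_lit 0) (XT.lf (nat_lit 0) (nat_lit 3455672577) (nat_lit 228) (nat_lit 4830537644) (nat_lit 304) (nat_lit 10624581866) (nat_lit 61) (nat_lit 5) (nat_lit 64) (nat_lit 5) (nat_lit 65) (nat_lit 5) (nat_lit 385) (nat_lit 353) (nat_lit 282)) (XT.nd (nat_lit 78) (nat_lit 152) (nat_lit 0) (XT.lf (nat_lit 0) (nat_lit 12592867493) (nat_lit 304) (nat_lit 4791294682) (nat_lit 76) (nat_lit 2109773844) (nat_lit 61) (nat_lit 5) (nat_lit 65) (nat_lit 5) (nat_lit 62) (nat_lit 5) (nat_lit 386) (nat_lit 353) (nat_lit 281)) (XT.lf (nat_lit 0) (nat_lit 6504020504) (nat_lit 152) (nat_lit 10771188530) (nat_lit 228) (nat_lit 2823019399) (nat_lit 59) (nat_lit 5) (nat_lit 61) (nat_lit 5) (nat_lit 62) (nat_lit 5) (nat_lit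 387) (nat_lit 353) (nat_lit 280)))) (XT.nd (nat_lit 78) (nat_lit 380) (nat_lit 0) (XT.lf (nat_lit 0) (nat_lit 1474491850) (nat_lit 228) (nat_lit 2253204885) (nat_lit 76) (nat_lit 17000795139) (nat_lit 58) (nat_lit 5) (nat_lit 61) (nat_lit 5) (nat_lit 59) (nat_lit 5) (nat_lit 388) (nat_lit 353) (nat_lit 279)) (XT.nd (nat_lit 78) (nat_lit 152) (nat_lit 0) (XT.lf (nat_lit 0) (nat_lit 6087654348) (nat_lit 304) (nat_lit 11545693275) (nat_lit 76) (nat_lit 3744832181) (nat_lit 55) (nat_lit 5) (nat_lit 59) (nat_lit 5) (nat_lit 56) (nat_lit 5) (nat_lit 389) (nat_lit 353) (nat_lit 278)) (XT.lf (nat_lit 0) (nat_lit 465707076) (nat_lit 152) (nat_lit 10553984926) (nat_lit 228) (nat_lit 11036256566) (nat_lit 53) (nat_lit 5) (nat_lit 55) (nat_lit 5) (nat_lit 56) (nat_lit 5) (nat_lit 390) (nat_lit 353) (nat_lit 277))))) (XT.nd (nat_lit 234) (nat_lit 380) (nat_lit 0) (XT.nd (nat_lit 78) (nat_lit 228) (nat_lit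 0) (XT.lf (nat_lit 0) (nat_lit 13449289360) (nat_lit 152) (nat_lit 2926071632) (nat_lit 228) (nat_lit 6383400246) (nat_lit 53) (nat_lit 5) (nat_lit 55) (nat_lit 5) (nat_lit 56) (nat_lit 5) (nat_lit 391) (nat_lit 353) (nat_lit 276)) (XT.nd (nat_lit 78) (nat_lit 76) (nat_lit 0) (XT.lf (nat_lit 0) (nat_lit 3592386596) (nat_lit 152) (nat_lit 18524096767) (nat_lit 228) (nat_lit 1374354292) (nat_lit 51) (nat_lit 5) (nat_lit 53) (nat_lit 5) (nat_lit 54) (nat_lit 5) (nat_lit 392) (nat_lit 353) (nat_lit 275)) (XT.lf (nat_lit 0) (nat_lit 3951344642) (nat_lit 228) (nat_lit 6928998167) (nat_lit 76) (nat_lit 13366620705) (nat_lit 50) (nat_lit 5) (nat_lit 53) (nat_lit 5) (nat_lit 51) (nat_lit 5) (nat_lit 393) (nat_lit 353) (nat_lit 274)))) (XT.nd (nat_lit 156) (nat_lit 228) (nat_lit 0) (XT.nd (nat_lit 78) (nat_lit 0) (nat_lit 0) (XT.lf (nat_lit 0) (nat_lit 6858586809) (nat_lit 152) (nat_lit 2728813451)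 (nat_lit 228) (nat_lit 15447861640) (nat_lit 48) (nat_lit 5) (nat_lit 50) (nat_lit 5) (nat_lit 51) (nat_lit 5) (nat_lit 394) (nat_lit 353) (nat_lit 273)) (XT.lf (nat_lit 0) (nat_lit 15698951012) (nat_lit 228) (nat_lit 4401500040) (nat_lit 76) (nat_lit 5752844977) (nat_lit 48) (nat_lit 5) (nat_lit 51) (nat_lit 5) (nat_lit 49) (nat_lit 5) (nat_lit 395) (nat_lit 353) (nat_lit 272))) (XT.nd (nat_lit 78) (nat_lit 76) (nat_lit 0) (XT.lf (nat_lit 0) (nat_lit 10321822442) (nat_lit 152) (nat_lit 11984330277) (nat_lit 228) (nat_lit 4396580651) (nat_lit 46) (nat_lit 5) (nat_lit 48) (nat_lit 5) (nat_lit 49) (nat_lit 5) (nat_lit 396) (nat_lit 353) (nat_lit 271)) (XT.lf (nat_lit 0) (nat_lit 1656332749) (nat_lit 228) (nat_lit 1710103717) (nat_lit 76) (nat_lit 24223921409) (nat_lit 45) (nat_lit 5) (nat_lit 48) (nat_lit 5) (nat_lit 46) (nat_lit 5) (nat_lit 397) (nat_lit 353) (nat_lit 270))))))))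
noncomputable def xc131 : XT := (XT.nd (nat_lit 1950) (nat_lit 912) (nat_lit 0) (XT.nd (nat_lit 936) (nat_lit 760) (nat_lit 0) (XT.nd (nat_lit 468) (nat_lit 380) (nat_lit 0) (XT.nd (nat_lit 234) (nat_lit 304) (nat_lit 0) (XT.nd (nat_lit 78) (nat_lit 152) (nat_lit 0) (XT.lf (nat_lit 0) (nat_lit 8161808539) (nat_lit 228) (nat_lit 14555220672) (nat_lit 76) (nat_lit 5786851582) (nat_lit 43) (nat_lit 5) (nat_lit 46) (nat_lit 5) (nat_lit 44) (nat_lit 5) (nat_lit 398) (nat_lit 353) (nat_lit 269)) (XT.nd (nat_lit 78) (nat_lit 0) (nat_lit 0) (XT.lf (nat_lit 0) (nat_lit 937172732) (nat_lit 152) (nat_lit 14139838513) (nat_lit 228) (nat_lit 14381850214) (nat_lit 41) (nat_lit 5) (nat_lit 43) (nat_lit 5) (nat_lit 44) (nat_lit 5) (nat_lit 399) (nat_lit 353) (nat_lit 268)) (XT.lf (nat_lit 0) (nat_lit 17684655956) (nat_lit 152) (nat_lit 4885332212) (nat_lit 228) (nat_lit 7880006347) (nat_lit 41) (nat_lit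 5) (nat_lit 43) (nat_lit 5) (nat_lit 44) (nat_lit 5) (nat_lit 400) (nat_lit 353) (nat_lit 267)))) (XT.nd (nat_lit 78) (nat_lit 228) (nat_lit 0) (XT.lf (nat_lit 0) (nat_lit 3800829720) (nat_lit 76) (nat_lit 26757615304) (nat_lit 152) (nat_lit 926201509) (nat_lit 40) (nat_lit 5) (nat_lit 41) (nat_lit 5) (nat_lit 42) (nat_lit 4) (nat_lit 401) (nat_lit 353) (nat_lit 266)) (XT.nd (nat_lit 78) (nat_lit 152) (nat_lit 0) (XT.lf (nat_lit 0) (nat_lit 6457177940) (nat_lit 152) (nat_lit 11129181629) (nat_lit 76) (nat_lit 14965401600) (nat_lit 39) (nat_lit 5) (nat_lit 41) (nat_lit 5) (nat_lit 40) (nat_lit 5) (nat_lit 402) (nat_lit 353) (nat_lit 265)) (XT.lf (nat_lit 0) (nat_lit 6420367524) (nat_lit 152) (nat_lit 7845248445) (nat_lit 228) (nat_lit 19401508921) (nat_lit 37) (nat_lit 5) (nat_lit 39) (nat_lit 5) (nat_lit 40) (nat_lit 5) (nat_lit 403) (nat_lit 353) (nat_lit 264))))) (XT.nd (nat_lit 234) (nat_lit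 228) (nat_lit 0) (XT.nd (nat_lit 78) (nat_lit 152) (nat_lit 0) (XT.lf (nat_lit 0) (nat_lit 22680145343) (nat_lit 228) (nat_lit 9658603142) (nat_lit 76) (nat_lit 2488728021) (nat_lit 37) (nat_lit 5) (nat_lit 40) (nat_lit 5) (nat_lit 38) (nat_lit 4) (nat_lit 404) (nat_lit 353) (nat_lit 263)) (XT.nd (nat_lit 78) (nat_lit 76) (nat_lit 0) (XT.lf (nat_lit 0) (nat_lit 8944484081) (nat_lit 76) (nat_lit 22826697654) (nat_lit 152) (nat_lit 4261877967) (nat_lit 36) (nat_lit 5) (nat_lit 37) (nat_lit 5) (nat_lit 38) (nat_lit 4) (nat_lit 405) (nat_lit 353) (nat_lit 262)) (XT.lf (nat_lit 0) (nat_lit 4043078643) (nat_lit 152) (nat_lit 8565304179) (nat_lit 76) (nat_lit 24679714142) (nat_lit 35) (nat_lit 5) (nat_lit 37) (nat_lit 5) (nat_lit 36) (nat_lit 5) (nat_lit 406) (nat_lit 353) (nat_lit 261)))) (XT.nd (nat_lit 78) (nat_lit 76) (nat_lit 0) (XT.lf (nat_lit 0) (nat_lit 11149990511) (nat_lit 152) (nat_lit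 1632312255) (nat_lit 228) (nat_lit 25811980259) (nat_lit 33) (nat_lit 5) (nat_lit 35) (nat_lit 5) (nat_lit 36) (nat_lit 5) (nat_lit 407) (nat_lit 353) (nat_lit 260)) (XT.nd (nat_lit 78) (nat_lit 76) (nat_lit 0) (XT.lf (nat_lit 0) (nat_lit 22248633531) (nat_lit 228) (nat_lit 7988176580) (nat_lit 76) (nat_lit 9714463499) (nat_lit 33) (nat_lit 5) (nat_lit 36) (nat_lit 5) (nat_lit 34) (nat_lit 4) (nat_lit 408) (nat_lit 353) (nat_lit 259)) (XT.lf (nat_lit 0) (nat_lit 12803550541) (nat_lit 76) (nat_lit 19600207154) (nat_lit 152) (nat_lit 8961584557) (nat_lit 32) (nat_lit 5) (nat_lit 33) (nat_lit 5) (nat_lit 34) (nat_lit 4) (nat_lit 409) (nat_lit 353) (nat_lit 258)))))) (XT.nd (nat_lit 468) (nat_lit 304) (nat_lit 0) (XT.nd (nat_lit 234) (nat_lit 228) (nat_lit 0) (XT.nd (nat_lit 78) (nat_lit 152) (nat_lit 0) (XT.lf (nat_lit 0) (nat_lit 335953232) (nat_lit 152) (nat_lit 7957026228) (nat_lit 76) (nat_lit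 34550650013) (nat_lit 31) (nat_lit 5) (nat_lit 33) (nat_lit 5) (nat_lit 32) (nat_lit 5) (nat_lit 410) (nat_lit 353) (nat_lit 257)) (XT.nd (nat_lit 78) (nat_lit 0) (nat_lit 0) (XT.lf (nat_lit 0) (nat_lit 10066253247) (nat_lit 228) (nat_lit 30481336306) (nat_lit 76) (nat_lit 3827445322) (nat_lit 29) (nat_lit 5) (nat_lit 32) (nat_lit 5) (nat_lit 30) (nat_lit 4) (nat_lit 411) (nat_lit 353) (nat_lit 256)) (XT.lf (nat_lit 0) (nat_lit 20545447252) (nat_lit 228) (nat_lit 9020607091) (nat_lit 76) (nat_lit 16403839206) (nat_lit 29) (nat_lit 5) (nat_lit 32) (nat_lit 5) (nat_lit 30) (nat_lit 4) (nat_lit 412) (nat_lit 353) (nat_lit 255)))) (XT.nd (nat_lit 78) (nat_lit 152) (nat_lit 0) (XT.lf (nat_lit 0) (nat_lit 13940892944) (nat_lit 76) (nat_lit 17815329468) (nat_lit 152) (nat_lit 15877893533) (nat_lit 28) (nat_lit 5) (nat_lit 29) (nat_lit 5) (nat_lit 30) (nat_lit 4) (nat_lit 413) (nat_lit 353) (nat_lit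 254)) (XT.nd (nat_lit 78) (nat_lit 152) (nat_lit 0) (XT.lf (nat_lit 0) (nat_lit 38345479576) (nat_lit 76) (nat_lit 5324984419) (nat_lit 152) (nat_lit 5703940852) (nat_lit 28) (nat_lit 5) (nat_lit 29) (nat_lit 5) (nat_lit 30) (nat_lit 4) (nat_lit 414) (nat_lit 353) (nat_lit 253)) (XT.lf (nat_lit 0) (nat_lit 5140360197) (nat_lit 152) (nat_lit 38221924912) (nat_lit 76) (nat_lit 7819488084) (nat_lit 26) (nat_lit 5) (nat_lit 28) (nat_lit 5) (nat_lit 27) (nat_lit 4) (nat_lit 415) (nat_lit 353) (nat_lit 252))))) (XT.nd (nat_lit 234) (nat_lit 228) (nat_lit 0) (XT.nd (nat_lit 78) (nat_lit 76) (nat_lit 0) (XT.lf (nat_lit 0) (nat_lit 16602854516) (nat_lit 152) (nat_lit 14740750215) (nat_lit 76) (nat_lit 21717847992) (nat_lit 26) (nat_lit 5) (nat_lit 28) (nat_lit 5) (nat_lit 27) (nat_lit 4) (nat_lit 416) (nat_lit 353) (nat_lit 251)) (XT.nd (nat_lit 78) (nat_lit 0) (nat_lit 0) (XT.lf (nat_lit 0) (nat_lit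 10224910753) (nat_lit 76) (nat_lit 18564184262) (nat_lit 152) (nat_lit 26238491599) (nat_lit 25) (nat_lit 5) (nat_lit 26) (nat_lit 5) (nat_lit 27) (nat_lit 4) (nat_lit 417) (nat_lit 353) (nat_lit 250)) (XT.lf (nat_lit 0) (nat_lit 36934058376) (nat_lit 76) (nat_lit 4891383704) (nat_lit 152) (nat_lit 15254546779) (nat_lit 25) (nat_lit 5) (nat_lit 26) (nat_lit 5) (nat_lit 27) (nat_lit 4) (nat_lit 418) (nat_lit 353) (nat_lit 249)))) (XT.nd (nat_lit 156) (nat_lit 76) (nat_lit 0) (XT.nd (nat_lit 78) (nat_lit 76) (nat_lit 0) (XT.lf (nat_lit 0) (nat_lit 5764288123) (nat_lit 76) (nat_lit 49978550516) (nat_lit 76) (nat_lit 3480712290) (nat_lit 24) (nat_lit 4) (nat_lit 25) (nat_lit 5) (nat_lit 25) (nat_lit 4) (nat_lit 419) (nat_lit 353) (nat_lit 248)) (XT.lf (nat_lit 0) (nat_lit 9015981688) (nat_lit 152) (nat_lit 28028347645) (nat_lit 76) (nat_lit 24402107405) (nat_lit 23) (nat_lit 5) (nat_lit 25)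 (nat_lit 5) (nat_lit 24) (nat_lit 4) (nat_lit 420) (nat_lit 353) (nat_lit 247))) (XT.nd (nat_lit 78) (nat_lit 76) (nat_lit 0) (XT.lf (nat_lit 0) (nat_lit 22012421750) (nat_lit 152) (nat_lit 1398285405) (nat_lit 76) (nat_lit 40367313475) (nat_lit 23) (nat_lit 5) (nat_lit 25) (nat_lit 5) (nat_lit 24) (nat_lit 4) (nat_lit 421) (nat_lit 353) (nat_lit 246)) (XT.lf (nat_lit 0) (nat_lit 27426491507) (nat_lit 76) (nat_lit 8652669218) (nat_lit 152) (nat_lit 30126000231) (nat_lit 22) (nat_lit 5) (nat_lit 23) (nat_lit 5) (nat_lit 24) (nat_lit 4) (nat_lit 422) (nat_lit 353) (nat_lit 245))))))) (XT.nd (nat_lit 1014) (nat_lit 380) (nat_lit 0) (XT.nd (nat_lit 468) (nat_lit 304) (nat_lit 0) (XT.nd (nat_lit 234) (nat_lit 76) (nat_lit 0) (XT.nd (nat_lit 78) (nat_lit 152) (nat_lit 0) (XT.lf (nat_lit 0) (nat_lit 50972458256) (nat_lit 152) (nat_lit 11133298628) (nat_lit 0) (nat_lit 6641741370) (nat_lit 22) (nat_lit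 5) (nat_lit 24) (nat_lit 4) (nat_lit 22) (nat_lit 4) (nat_lit 423) (nat_lit 353) (nat_lit 244)) (XT.nd (nat_lit 78) (nat_lit 76) (nat_lit 0) (XT.lf (nat_lit 0) (nat_lit 18325061443) (nat_lit 76) (nat_lit 48705988133) (nat_lit 76) (nat_lit 4364872381) (nat_lit 21) (nat_lit 4) (nat_lit 22) (nat_lit 5) (nat_lit 22) (nat_lit 4) (nat_lit 424) (nat_lit 353) (nat_lit 243)) (XT.lf (nat_lit 0) (nat_lit 9589167999) (nat_lit 152) (nat_lit 24693225034) (nat_lit 76) (nat_lit 39877573622) (nat_lit 20) (nat_lit 5) (nat_lit 22) (nat_lit 5) (nat_lit 21) (nat_lit 4) (nat_lit 425) (nat_lit 353) (nat_lit 242)))) (XT.nd (nat_lit 78) (nat_lit 0) (nat_lit 0) (XT.lf (nat_lit 0) (nat_lit 5184367930) (nat_lit 76) (nat_lit 18983836675) (nat_lit 152) (nat_lit 52886732943) (nat_lit 19) (nat_lit 5) (nat_lit 20) (nat_lit 5) (nat_lit 21) (nat_lit 4) (nat_lit 426) (nat_lit 353) (nat_lit 241)) (XT.nd (nat_lit 78) (nat_lit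 0) (nat_lit 0) (XT.lf (nat_lit 0) (nat_lit 37400046935) (nat_lit 76) (nat_lit 2487504956) (nat_lit 152) (nat_lit 40186537963) (nat_lit 19) (nat_lit 5) (nat_lit 20) (nat_lit 5) (nat_lit 21) (nat_lit 4) (nat_lit 427) (nat_lit 353) (nat_lit 240)) (XT.lf (nat_lit 0) (nat_lit 56617860807) (nat_lit 152) (nat_lit 12261981235) (nat_lit 0) (nat_lit 14353108792) (nat_lit 19) (nat_lit 5) (nat_lit 21) (nat_lit 4) (nat_lit 19) (nat_lit 4) (nat_lit 428) (nat_lit 353) (nat_lit 239))))) (XT.nd (nat_lit 234) (nat_lit 152) (nat_lit 0) (XT.nd (nat_lit 78) (nat_lit 76) (nat_lit 0) (XT.lf (nat_lit 0) (nat_lit 20266466242) (nat_lit 76) (nat_lit 54269127860) (nat_lit 76) (nat_lit 11996616052) (nat_lit 18) (nat_lit 4) (nat_lit 19) (nat_lit 5) (nat_lit 19) (nat_lit 4) (nat_lit 429) (nat_lit 353) (nat_lit 238)) (XT.nd (nat_lit 78) (nat_lit 0) (nat_lit 0) (XT.lf (nat_lit 0) (nat_lit 3450264120) (nat_lit 152) (nat_lit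 35206860640) (nat_lit 76) (nat_lit 51326451407) (nat_lit 17) (nat_lit 5) (nat_lit 19) (nat_lit 5) (nat_lit 18) (nat_lit 4) (nat_lit 430) (nat_lit 353) (nat_lit 237)) (XT.lf (nat_lit 0) (nat_lit 19260347677) (nat_lit 152) (nat_lit 2803227711) (nat_lit 76) (nat_lit 71534401220) (nat_lit 17) (nat_lit 5) (nat_lit 19) (nat_lit 5) (nat_lit 18) (nat_lit 4) (nat_lit 431) (nat_lit 353) (nat_lit 236)))) (XT.nd (nat_lit 156) (nat_lit 76) (nat_lit 0) (XT.nd (nat_lit 78) (nat_lit 0) (nat_lit 0) (XT.lf (nat_lit 0) (nat_lit 32241537738) (nat_lit 76) (nat_lit 4117087329) (nat_lit 152) (nat_lit 61009588126) (nat_lit 16) (nat_lit 5) (nat_lit 17) (nat_lit 5) (nat_lit 18) (nat_lit 4) (nat_lit 432) (nat_lit 353) (nat_lit 235)) (XT.lf (nat_lit 0) (nat_lit 54584323899) (nat_lit 152) (nat_lit 32430429629) (nat_lit 0) (nat_lit 14298583278) (nat_lit 16) (nat_lit 5) (nat_lit 18) (nat_lit 4) (nat_lit 16) (nat_lit 4)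 (nat_lit 433) (nat_lit 353) (nat_lit 234))) (XT.nd (nat_lit 78) (nat_lit 0) (nat_lit 0) (XT.lf (nat_lit 0) (nat_lit 1882923217) (nat_lit 76) (nat_lit 71929875246) (nat_lit 76) (nat_lit 31638344147) (nat_lit 15) (nat_lit 4) (nat_lit 16) (nat_lit 5) (nat_lit 16) (nat_lit 4) (nat_lit 434) (nat_lit 353) (nat_lit 233)) (XT.lf (nat_lit 0) (nat_lit 39027546644) (nat_lit 76) (nat_lit 55519071184) (nat_lit 76) (nat_lit 15222025344) (nat_lit 15) (nat_lit 4) (nat_lit 16) (nat_lit 5) (nat_lit 16) (nat_lit 4) (nat_lit 435) (nat_lit 353) (nat_lit 232)))))) (XT.nd (nat_lit 468) (nat_lit 152) (nat_lit 0) (XT.nd (nat_lit 234) (nat_lit 76) (nat_lit 0) (XT.nd (nat_lit 78) (nat_lit 76) (nat_lit 0) (XT.lf (nat_lit 0) (nat_lit 1945478645) (nat_lit 152) (nat_lit 36314066750) (nat_lit 76) (nat_lit 76041157499) (nat_lit 14) (nat_lit 5) (nat_lit 16) (nat_lit 5) (nat_lit 15) (nat_lit 4) (nat_lit 436) (nat_lit 353)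 (nat_lit 231)) (XT.nd (nat_lit 78) (nat_lit 76) (nat_lit 0) (XT.lf (nat_lit 0) (nat_lit 19454907807) (nat_lit 152) (nat_lit 424739000) (nat_lit 76) (nat_lit 99167486685) (nat_lit 14) (nat_lit 5) (nat_lit 16) (nat_lit 5) (nat_lit 15) (nat_lit 4) (nat_lit 437) (nat_lit 353) (nat_lit 230)) (XT.lf (nat_lit 0) (nat_lit 38436670892) (nat_lit 152) (nat_lit 85520142902) (nat_lit 0) (nat_lit 44229134) (nat_lit 13) (nat_lit 5) (nat_lit 15) (nat_lit 4) (nat_lit 13) (nat_lit 4) (nat_lit 438) (nat_lit 353) (nat_lit 229)))) (XT.nd (nat_lit 78) (nat_lit 76) (nat_lit 0) (XT.lf (nat_lit 0) (nat_lit 58696086651) (nat_lit 152) (nat_lit 50190809418) (nat_lit 0) (nat_lit 20299323949) (nat_lit 13) (nat_lit 5) (nat_lit 15) (nat_lit 4) (nat_lit 13) (nat_lit 4) (nat_lit 439) (nat_lit 353) (nat_lit 228)) (XT.nd (nat_lit 78) (nat_lit 76) (nat_lit 0) (XT.lf (nat_lit 0) (nat_lit 79964051855) (nat_lit 152) (nat_lit 13103651598)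 (nat_lit 0) (nat_lit 41563173969) (nat_lit 13) (nat_lit 5) (nat_lit 15) (nat_lit 4) (nat_lit 13) (nat_lit 4) (nat_lit 440) (nat_lit 353) (nat_lit 227)) (XT.lf (nat_lit 0) (nat_lit 26683677642) (nat_lit 76) (nat_lit 76024133862) (nat_lit 76) (nat_lit 37619336752) (nat_lit 12) (nat_lit 4) (nat_lit 13) (nat_lit 5) (nat_lit 13) (nat_lit 4) (nat_lit 441) (nat_lit 353) (nat_lit 226))))) (XT.nd (nat_lit 234) (nat_lit 0) (nat_lit 0) (XT.nd (nat_lit 78) (nat_lit 152) (nat_lit 0) (XT.lf (nat_lit 0) (nat_lit 68907204497) (nat_lit 76) (nat_lit 57899334597) (nat_lit 76) (nat_lit 19490804895) (nat_lit 12) (nat_lit 4) (nat_lit 13) (nat_lit 5) (nat_lit 13) (nat_lit 4) (nat_lit 442) (nat_lit 353) (nat_lit 225)) (XT.nd (nat_lit 78) (nat_lit 152) (nat_lit 0) (XT.lf (nat_lit 0) (nat_lit 113234195272) (nat_lit 76) (nat_lit 38872068057) (nat_lit 76) (nat_lit 459983503) (nat_lit 12) (nat_lit 4) (nat_lit 13) (nat_lit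 5) (nat_lit 13) (nat_lit 4) (nat_lit 443) (nat_lit 353) (nat_lit 224)) (XT.lf (nat_lit 0) (nat_lit 327140690) (nat_lit 76) (nat_lit 18571693854) (nat_lit 152) (nat_lit 140234455946) (nat_lit 10) (nat_lit 5) (nat_lit 11) (nat_lit 5) (nat_lit 12) (nat_lit 4) (nat_lit 444) (nat_lit 353) (nat_lit 223)))) (XT.nd (nat_lit 156) (nat_lit 0) (nat_lit 0) (XT.nd (nat_lit 78) (nat_lit 0) (nat_lit 0) (XT.lf (nat_lit 0) (nat_lit 39926195609) (nat_lit 152) (nat_lit 122729348175) (nat_lit 0) (nat_lit 3336962771) (nat_lit 10) (nat_lit 5) (nat_lit 12) (nat_lit 4) (nat_lit 10) (nat_lit 4) (nat_lit 445) (nat_lit 353) (nat_lit 222)) (XT.lf (nat_lit 0) (nat_lit 62305756467) (nat_lit 152) (nat_lit 85160286606) (nat_lit 0) (nat_lit 25713599043) (nat_lit 10) (nat_lit 5) (nat_lit 12) (nat_lit 4) (nat_lit 10) (nat_lit 4) (nat_lit 446) (nat_lit 353) (nat_lit 221))) (XT.nd (nat_lit 78) (nat_lit 0) (nat_lit 0) (XT.lf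 (nat_lit 0) (nat_lit 85800845597) (nat_lit 152) (nat_lit 45719558756) (nat_lit 0) (nat_lit 49205902855) (nat_lit 10) (nat_lit 5) (nat_lit 12) (nat_lit 4) (nat_lit 10) (nat_lit 4) (nat_lit 447) (nat_lit 353) (nat_lit 220)) (XT.lf (nat_lit 0) (nat_lit 110467403687) (nat_lit 152) (nat_lit 4313258130) (nat_lit 0) (nat_lit 73869808261) (nat_lit 10) (nat_lit 5) (nat_lit 12) (nat_lit 4) (nat_lit 10) (nat_lit 4) (nat_lit 448) (nat_lit 353) (nat_lit 219))))))))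
noncomputable def xc132 : XT := (XT.nd (nat_lit 1950) (nat_lit 76) (nat_lit 0) (XT.nd (nat_lit 936) (nat_lit 152) (nat_lit 0) (XT.nd (nat_lit 468) (nat_lit 76) (nat_lit 0) (XT.nd (nat_lit 234) (nat_lit 152) (nat_lit 0) (XT.nd (nat_lit 78) (nat_lit 0) (nat_lit 0) (XT.lf (nat_lit 0) (nat_lit 40451915627) (nat_lit 76) (nat_lit 96543812781) (nat_lit 76) (nat_lit 59943690989) (nat_lit 9) (nat_lit 4) (nat_lit 10) (nat_lit 5) (nat_lit 10) (nat_lit 4) (nat_lit 449) (nat_lit 353) (nat_lit 218)) (XT.nd (nat_lit 78) (nat_lit 0) (nat_lit 0) (XT.lf (nat_lit 0) (nat_lit 87599038117) (nat_lit 76) (nat_lit 77321403761) (nat_lit 76) (nat_lit 40718875906) (nat_lit 9) (nat_lit 4) (nat_lit 10) (nat_lit 5) (nat_lit 10) (nat_lit 4) (nat_lit 450) (nat_lit 353) (nat_lit 217)) (XT.lf (nat_lit 0) (nat_lit 137097748599) (nat_lit 76) (nat_lit 57140714231) (nat_lit 76) (nat_lit 20535894886) (nat_lit 9) (nat_lit 4) (nat_lit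 10) (nat_lit 5) (nat_lit 10) (nat_lit 4) (nat_lit 451) (nat_lit 353) (nat_lit 216)))) (XT.nd (nat_lit 78) (nat_lit 76) (nat_lit 0) (XT.lf (nat_lit 0) (nat_lit 632396887) (nat_lit 152) (nat_lit 35310588094) (nat_lit 76) (nat_lit 188422794312) (nat_lit 8) (nat_lit 5) (nat_lit 10) (nat_lit 5) (nat_lit 9) (nat_lit 4) (nat_lit 452) (nat_lit 353) (nat_lit 215)) (XT.nd (nat_lit 78) (nat_lit 0) (nat_lit 0) (XT.lf (nat_lit 0) (nat_lit 9123776475) (nat_lit 76) (nat_lit 13184934079) (nat_lit 152) (nat_lit 212104241480) (nat_lit 7) (nat_lit 5) (nat_lit 8) (nat_lit 5) (nat_lit 9) (nat_lit 4) (nat_lit 453) (nat_lit 353) (nat_lit 214)) (XT.lf (nat_lit 0) (nat_lit 45841180947) (nat_lit 152) (nat_lit 188109180490) (nat_lit 0) (nat_lit 10973505103) (nat_lit 7) (nat_lit 5) (nat_lit 9) (nat_lit 4) (nat_lit 7) (nat_lit 4) (nat_lit 454) (nat_lit 353) (nat_lit 213))))) (XT.nd (nat_lit 234) (nat_lit 76) (nat_lit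 0) (XT.nd (nat_lit 78) (nat_lit 0) (nat_lit 0) (XT.lf (nat_lit 0) (nat_lit 70763856373) (nat_lit 152) (nat_lit 149291406402) (nat_lit 0) (nat_lit 35894385088) (nat_lit 7) (nat_lit 5) (nat_lit 9) (nat_lit 4) (nat_lit 7) (nat_lit 4) (nat_lit 455) (nat_lit 353) (nat_lit 212)) (XT.nd (nat_lit 78) (nat_lit 0) (nat_lit 0) (XT.lf (nat_lit 0) (nat_lit 96930222766) (nat_lit 152) (nat_lit 108537576254) (nat_lit 0) (nat_lit 62059041536) (nat_lit 7) (nat_lit 5) (nat_lit 9) (nat_lit 4) (nat_lit 7) (nat_lit 4) (nat_lit 456) (nat_lit 353) (nat_lit 211)) (XT.lf (nat_lit 0) (nat_lit 124402580997) (nat_lit 152) (nat_lit 65750657116) (nat_lit 0) (nat_lit 89529771249) (nat_lit 7) (nat_lit 5) (nat_lit 9) (nat_lit 4) (nat_lit 7) (nat_lit 4) (nat_lit 457) (nat_lit 353) (nat_lit 210)))) (XT.nd (nat_lit 78) (nat_lit 76) (nat_lit 0) (XT.lf (nat_lit 0) (nat_lit 153246341443) (nat_lit 152) (nat_lit 20828775372) (nat_lit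 0) (nat_lit 118371980725) (nat_lit 7) (nat_lit 5) (nat_lit 9) (nat_lit 4) (nat_lit 7) (nat_lit 4) (nat_lit 458) (nat_lit 353) (nat_lit 209)) (XT.nd (nat_lit 78) (nat_lit 0) (nat_lit 0) (XT.lf (nat_lit 0) (nat_lit 27205780725) (nat_lit 76) (nat_lit 156749157479) (nat_lit 76) (nat_lit 121873319648) (nat_lit 6) (nat_lit 4) (nat_lit 7) (nat_lit 5) (nat_lit 7) (nat_lit 4) (nat_lit 459) (nat_lit 353) (nat_lit 208)) (XT.lf (nat_lit 0) (nat_lit 78361085390) (nat_lit 76) (nat_lit 138188550976) (nat_lit 76) (nat_lit 103311306370) (nat_lit 6) (nat_lit 4) (nat_lit 7) (nat_lit 5) (nat_lit 7) (nat_lit 4) (nat_lit 460) (nat_lit 353) (nat_lit 207)))))) (XT.nd (nat_lit 468) (nat_lit 0) (nat_lit 0) (XT.nd (nat_lit 234) (nat_lit 152) (nat_lit 0) (XT.nd (nat_lit 78) (nat_lit 0) (nat_lit 0) (XT.lf (nat_lit 0) (nat_lit 132070243587) (nat_lit 76) (nat_lit 118701850775) (nat_lit 76) (nat_lit 83823266383) (nat_lit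 6) (nat_lit 4) (nat_lit 7) (nat_lit 5) (nat_lit 7) (nat_lit 4) (nat_lit 461) (nat_lit 353) (nat_lit 206)) (XT.nd (nat_lit 78) (nat_lit 0) (nat_lit 0) (XT.lf (nat_lit 0) (nat_lit 188461134262) (nat_lit 76) (nat_lit 98242659971) (nat_lit 76) (nat_lit 63362799592) (nat_lit 6) (nat_lit 4) (nat_lit 7) (nat_lit 5) (nat_lit 7) (nat_lit 4) (nat_lit 462) (nat_lit 353) (nat_lit 205)) (XT.lf (nat_lit 0) (nat_lit 247668021443) (nat_lit 76) (nat_lit 76762266204) (nat_lit 76) (nat_lit 41881190600) (nat_lit 6) (nat_lit 4) (nat_lit 7) (nat_lit 5) (nat_lit 7) (nat_lit 4) (nat_lit 463) (nat_lit 353) (nat_lit 204)))) (XT.nd (nat_lit 78) (nat_lit 152) (nat_lit 0) (XT.lf (nat_lit 0) (nat_lit 309831873908) (nat_lit 76) (nat_lit 54209525681) (nat_lit 76) (nat_lit 19327292719) (nat_lit 6) (nat_lit 4) (nat_lit 7) (nat_lit 5) (nat_lit 7) (nat_lit 4) (nat_lit 464) (nat_lit 353) (nat_lit 203)) (XT.nd (nat_lit 78) (nat_lit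 76) (nat_lit 0) (XT.lf (nat_lit 0) (nat_lit 4213283622) (nat_lit 152) (nat_lit 26246103780) (nat_lit 76) (nat_lit 370816063210) (nat_lit 5) (nat_lit 5) (nat_lit 7) (nat_lit 5) (nat_lit 6) (nat_lit 4) (nat_lit 465) (nat_lit 353) (nat_lit 202)) (XT.lf (nat_lit 0) (nat_lit 23852621532) (nat_lit 76) (nat_lit 4799576758) (nat_lit 152) (nat_lit 391390964928) (nat_lit 4) (nat_lit 5) (nat_lit 5) (nat_lit 5) (nat_lit 6) (nat_lit 4) (nat_lit 466) (nat_lit 353) (nat_lit 201))))) (XT.nd (nat_lit 234) (nat_lit 0) (nat_lit 0) (XT.nd (nat_lit 78) (nat_lit 0) (nat_lit 0) (XT.lf (nat_lit 0) (nat_lit 55108983970) (nat_lit 152) (nat_lit 362715673277) (nat_lit 0) (nat_lit 21884808034) (nat_lit 4) (nat_lit 5) (nat_lit 6) (nat_lit 4) (nat_lit 4) (nat_lit 4) (nat_lit 467) (nat_lit 353) (nat_lit 200)) (XT.nd (nat_lit 78) (nat_lit 0) (nat_lit 0) (XT.lf (nat_lit 0) (nat_lit 82965795560) (nat_lit 152) (nat_lit 327648714839)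 (nat_lit 0) (nat_lit 49740712804) (nat_lit 4) (nat_lit 5) (nat_lit 6) (nat_lit 4) (nat_lit 4) (nat_lit 4) (nat_lit 468) (nat_lit 353) (nat_lit 199)) (XT.lf (nat_lit 0) (nat_lit 112214023957) (nat_lit 152) (nat_lit 290831238770) (nat_lit 0) (nat_lit 78988077563) (nat_lit 4) (nat_lit 5) (nat_lit 6) (nat_lit 4) (nat_lit 4) (nat_lit 4) (nat_lit 469) (nat_lit 353) (nat_lit 198)))) (XT.nd (nat_lit 156) (nat_lit 0) (nat_lit 0) (XT.nd (nat_lit 78) (nat_lit 0) (nat_lit 0) (XT.lf (nat_lit 0) (nat_lit 142923307801) (nat_lit 152) (nat_lit 252175584413) (nat_lit 0) (nat_lit 109696538895) (nat_lit 4) (nat_lit 5) (nat_lit 6) (nat_lit 4) (nat_lit 4) (nat_lit 4) (nat_lit 470) (nat_lit 353) (nat_lit 197)) (XT.lf (nat_lit 0) (nat_lit 175166764435) (nat_lit 152) (nat_lit 211589714495) (nat_lit 0) (nat_lit 141939212183) (nat_lit 4) (nat_lit 5) (nat_lit 6) (nat_lit 4) (nat_lit 4) (nat_lit 4) (nat_lit 471) (nat_lit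 353) (nat_lit 196))) (XT.nd (nat_lit 78) (nat_lit 0) (nat_lit 0) (XT.lf (nat_lit 0) (nat_lit 209021163992) (nat_lit 152) (nat_lit 168976995993) (nat_lit 0) (nat_lit 175792865698) (nat_lit 4) (nat_lit 5) (nat_lit 6) (nat_lit 4) (nat_lit 4) (nat_lit 4) (nat_lit 472) (nat_lit 353) (nat_lit 195)) (XT.lf (nat_lit 0) (nat_lit 244567112187) (nat_lit 152) (nat_lit 124235970053) (nat_lit 0) (nat_lit 211338103376) (nat_lit 4) (nat_lit 5) (nat_lit 6) (nat_lit 4) (nat_lit 4) (nat_lit 4) (nat_lit 473) (nat_lit 353) (nat_lit 194))))))) (XT.nd (nat_lit 44460) (nat_lit 0) (nat_lit 6308) (XT.nd (nat_lit 43914) (nat_lit 0) (nat_lit 9044) (XT.nd (nat_lit 234) (nat_lit 0) (nat_lit 0) (XT.nd (nat_lit 78) (nat_lit 76) (nat_lit 0) (XT.lf (nat_lit 0) (nat_lit 281889242230) (nat_lit 152) (nat_lit 77260110423) (nat_lit 0) (nat_lit 248659556735) (nat_lit 4) (nat_lit 5) (nat_lit 6) (nat_lit 4) (nat_lit 4) (nat_lit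 4) (nat_lit 474) (nat_lit 353) (nat_lit 193)) (XT.nd (nat_lit 78) (nat_lit 76) (nat_lit 0) (XT.lf (nat_lit 0) (nat_lit 321076416334) (nat_lit 152) (nat_lit 27937569818) (nat_lit 0) (nat_lit 287846086380) (nat_lit 4) (nat_lit 5) (nat_lit 6) (nat_lit 4) (nat_lit 4) (nat_lit 4) (nat_lit 475) (nat_lit 353) (nat_lit 192)) (XT.lf (nat_lit 0) (nat_lit 24637644882) (nat_lit 76) (nat_lit 337968955096) (nat_lit 76) (nat_lit 304738011370) (nat_lit 3) (nat_lit 4) (nat_lit 4) (nat_lit 5) (nat_lit 4) (nat_lit 4) (nat_lit 476) (nat_lit 353) (nat_lit 191)))) (XT.nd (nat_lit 43524) (nat_lit 0) (nat_lit 9652) (XT.lf (nat_lit 0) (nat_lit 80809570666) (nat_lit 76) (nat_lit 325875863841) (nat_lit 76) (nat_lit 292644335571) (nat_lit 3) (nat_lit 4) (nat_lit 4) (nat_lit 5) (nat_lit 4) (nat_lit 4) (nat_lit 477) (nat_lit 353) (nat_lit 190)) (XT.nd (nat_lit 78) (nat_lit 0) (nat_lit 0) (XT.lf (nat_lit 0) (nat_lit 2669573469)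 (nat_lit 684) (nat_lit 846999041) (nat_lit 684) (nat_lit 846999041) (nat_lit 130) (nat_lit 3) (nat_lit 139) (nat_lit 3) (nat_lit 139) (nat_lit 5) (nat_lit 354) (nat_lit 354) (nat_lit 312)) (XT.lf (nat_lit 76) (nat_lit 2608516019) (nat_lit 0) (nat_lit 3837250209) (nat_lit 684) (nat_lit 2450135081) (nat_lit 131) (nat_lit 5) (nat_lit 130) (nat_lit 3) (nat_lit 139) (nat_lit 5) (nat_lit 355) (nat_lit 354) (nat_lit 311))))) (XT.nd (nat_lit 234) (nat_lit 0) (nat_lit 76) (XT.nd (nat_lit 78) (nat_lit 608) (nat_lit 0) (XT.lf (nat_lit 76) (nat_lit 7152571053) (nat_lit 0) (nat_lit 423642139) (nat_lit 684) (nat_lit 1498508260) (nat_lit 131) (nat_lit 5) (nat_lit 130) (nat_lit 3) (nat_lit 139) (nat_lit 5) (nat_lit 356) (nat_lit 354) (nat_lit 310)) (XT.nd (nat_lit 78) (nat_lit 684) (nat_lit 0) (XT.lf (nat_lit 76) (nat_lit 2663054061) (nat_lit 0) (nat_lit 6134140344) (nat_lit 684) (nat_lit 463634140) (nat_lit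 132) (nat_lit 5) (nat_lit 131) (nat_lit 5) (nat_lit 140) (nat_lit 5) (nat_lit 357) (nat_lit 354) (nat_lit 309)) (XT.lf (nat_lit 0) (nat_lit 587408087) (nat_lit 684) (nat_lit 1963078543) (nat_lit 760) (nat_lit 6906092058) (nat_lit 122) (nat_lit 5) (nat_lit 131) (nat_lit 5) (nat_lit 132) (nat_lit 5) (nat_lit 358) (nat_lit 354) (nat_lit 308)))) (XT.nd (nat_lit 156) (nat_lit 0) (nat_lit 0) (XT.nd (nat_lit 78) (nat_lit 0) (nat_lit 0) (XT.lf (nat_lit 0) (nat_lit 1688674112) (nat_lit 684) (nat_lit 6725669027) (nat_lit 760) (nat_lit 1246770728) (nat_lit 123) (nat_lit 5) (nat_lit 132) (nat_lit 5) (nat_lit 133) (nat_lit 5) (nat_lit 359) (nat_lit 354) (nat_lit 307)) (XT.lf (nat_lit 0) (nat_lit 2869870836) (nat_lit 684) (nat_lit 1805662522) (nat_lit 760) (nat_lit 5199137363) (nat_lit 123) (nat_lit 5) (nat_lit 132) (nat_lit 5) (nat_lit 133) (nat_lit 5) (nat_lit 360) (nat_lit 354) (nat_lit 306))) (XT.nd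 (nat_lit 78) (nat_lit 0) (nat_lit 76) (XT.lf (nat_lit 76) (nat_lit 3435894600) (nat_lit 0) (nat_lit 679558117) (nat_lit 760) (nat_lit 5983222899) (nat_lit 124) (nat_lit 5) (nat_lit 123) (nat_lit 5) (nat_lit 133) (nat_lit 5) (nat_lit 361) (nat_lit 354) (nat_lit 305)) (XT.lf (nat_lit 0) (nat_lit 5462944294) (nat_lit 684) (nat_lit 1421957635) (nat_lit 760) (nat_lit 3447032022) (nat_lit 124) (nat_lit 5) (nat_lit 133) (nat_lit 5) (nat_lit 134) (nat_lit 5) (nat_lit 362) (nat_lit 354) (nat_lit 304)))))) (XT.nd (nat_lit 468) (nat_lit 1064) (nat_lit 0) (XT.nd (nat_lit 234) (nat_lit 1216) (nat_lit 0) (XT.nd (nat_lit 78) (nat_lit 608) (nat_lit 0) (XT.lf (nat_lit 76) (nat_lit 4168494295) (nat_lit 0) (nat_lit 2741396940) (nat_lit 760) (nat_lit 3665393002) (nat_lit 125) (nat_lit 5) (nat_lit 124) (nat_lit 5) (nat_lit 134) (nat_lit 5) (nat_lit 363) (nat_lit 354) (nat_lit 303)) (XT.nd (nat_lit 78) (nat_lit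 684) (nat_lit 0) (XT.lf (nat_lit 0) (nat_lit 8436346769) (nat_lit 684) (nat_lit 803704744) (nat_lit 76) (nat_lit 1590423958) (nat_lit 125) (nat_lit 5) (nat_lit 134) (nat_lit 5) (nat_lit 126) (nat_lit 5) (nat_lit 364) (nat_lit 354) (nat_lit 302)) (XT.lf (nat_lit 0) (nat_lit 5165225083) (nat_lit 684) (nat_lit 4959065048) (nat_lit 760) (nat_lit 969907882) (nat_lit 116) (nat_lit 5) (nat_lit 125) (nat_lit 5) (nat_lit 126) (nat_lit 5) (nat_lit 365) (nat_lit 354) (nat_lit 301)))) (XT.nd (nat_lit 78) (nat_lit 380) (nat_lit 0) (XT.lf (nat_lit 0) (nat_lit 47708652) (nat_lit 760) (nat_lit 435879328) (nat_lit 836) (nat_lit 10888391463) (nat_lit 105) (nat_lit 5) (nat_lit 115) (nat_lit 5) (nat_lit 116) (nat_lit 5) (nat_lit 366) (nat_lit 354) (nat_lit 300)) (XT.nd (nat_lit 78) (nat_lit 380) (nat_lit 0) (XT.lf (nat_lit 0) (nat_lit 2108269003) (nat_lit 836) (nat_lit 5251349681) (nat_lit 76) (nat_lit 4296706887)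 (nat_lit 105) (nat_lit 5) (nat_lit 116) (nat_lit 5) (nat_lit 106) (nat_lit 5) (nat_lit 367) (nat_lit 354) (nat_lit 299)) (XT.lf (nat_lit 0) (nat_lit 1118741868) (nat_lit 380) (nat_lit 2683582325) (nat_lit 456) (nat_lit 8153182485) (nat_lit 100) (nat_lit 5) (nat_lit 105) (nat_lit 5) (nat_lit 106) (nat_lit 5) (nat_lit 368) (nat_lit 354) (nat_lit 298))))) (XT.nd (nat_lit 234) (nat_lit 760) (nat_lit 0) (XT.nd (nat_lit 78) (nat_lit 304) (nat_lit 0) (XT.lf (nat_lit 0) (nat_lit 5670968221) (nat_lit 456) (nat_lit 4348131490) (nat_lit 76) (nat_lit 2246076329) (nat_lit 100) (nat_lit 5) (nat_lit 106) (nat_lit 5) (nat_lit 101) (nat_lit 5) (nat_lit 369) (nat_lit 354) (nat_lit 297)) (XT.nd (nat_lit 78) (nat_lit 0) (nat_lit 0) (XT.lf (nat_lit 0) (nat_lit 2465205824) (nat_lit 304) (nat_lit 5216735693) (nat_lit 380) (nat_lit 4905964886) (nat_lit 96) (nat_lit 5) (nat_lit 100) (nat_lit 5) (nat_lit 101) (nat_lit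 5) (nat_lit 370) (nat_lit 354) (nat_lit 296)) (XT.lf (nat_lit 0) (nat_lit 9736089463) (nat_lit 304) (nat_lit 98494096) (nat_lit 380) (nat_lit 3090155038) (nat_lit 96) (nat_lit 5) (nat_lit 100) (nat_lit 5) (nat_lit 101) (nat_lit 5) (nat_lit 371) (nat_lit 354) (nat_lit 295)))) (XT.nd (nat_lit 156) (nat_lit 304) (nat_lit 0) (XT.nd (nat_lit 78) (nat_lit 76) (nat_lit 0) (XT.lf (nat_lit 0) (nat_lit 4107192194) (nat_lit 380) (nat_lit 8103165751) (nat_lit 456) (nat_lit 1062299749) (nat_lit 91) (nat_lit 5) (nat_lit 96) (nat_lit 5) (nat_lit 97) (nat_lit 5) (nat_lit 372) (nat_lit 354) (nat_lit 294)) (XT.lf (nat_lit 0) (nat_lit 1058750552) (nat_lit 456) (nat_lit 1810383164) (nat_lit 76) (nat_lit 10766726980) (nat_lit 90) (nat_lit 5) (nat_lit 96) (nat_lit 5) (nat_lit 91) (nat_lit 5) (nat_lit 373) (nat_lit 354) (nat_lit 293))) (XT.nd (nat_lit 78) (nat_lit 0) (nat_lit 0) (XT.lf (nat_lit 0) (nat_lit 3358395167)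 (nat_lit 380) (nat_lit 7999853001) (nat_lit 76) (nat_lit 2652710380) (nat_lit 86) (nat_lit 5) (nat_lit 91) (nat_lit 5) (nat_lit 87) (nat_lit 5) (nat_lit 374) (nat_lit 354) (nat_lit 292)) (XT.lf (nat_lit 0) (nat_lit 5822941218) (nat_lit 380) (nat_lit 197967463) (nat_lit 76) (nat_lit 8381423356) (nat_lit 86) (nat_lit 5) (nat_lit 91) (nat_lit 5) (nat_lit 87) (nat_lit 5) (nat_lit 375) (nat_lit 354) (nat_lit 291))))))))
noncomputable def xc133 : XT := (XT.nd (nat_lit 1950) (nat_lit 1596) (nat_lit 0) (XT.nd (nat_lit 936) (nat_lit 1520) (nat_lit 0) (XT.nd (nat_lit 468) (nat_lit 760) (nat_lit 0) (XT.nd (nat_lit 234) (nat_lit 608) (nat_lit 0) (XT.nd (nat_lit 78) (nat_lit 228) (nat_lit 0) (XT.lf (nat_lit 0) (nat_lit 8225200937) (nat_lit 304) (nat_lit 287000539) (nat_lit 380) (nat_lit 6296014286) (nat_lit 82) (nat_lit 5) (nat_lit 86) (nat_lit 5) (nat_lit 87) (nat_lit 5) (nat_lit 376) (nat_lit 354)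 (nat_lit 290)) (XT.nd (nat_lit 78) (nat_lit 0) (nat_lit 0) (XT.lf (nat_lit 0) (nat_lit 1776677160) (nat_lit 228) (nat_lit 9653685585) (nat_lit 304) (nat_lit 3799324181) (nat_lit 79) (nat_lit 5) (nat_lit 82) (nat_lit 5) (nat_lit 83) (nat_lit 5) (nat_lit 377) (nat_lit 354) (nat_lit 289)) (XT.lf (nat_lit 0) (nat_lit 10745779799) (nat_lit 228) (nat_lit 3839286881) (nat_lit 304) (nat_lit 1082647668) (nat_lit 79) (nat_lit 5) (nat_lit 82) (nat_lit 5) (nat_lit 83) (nat_lit 5) (nat_lit 378) (nat_lit 354) (nat_lit 288)))) (XT.nd (nat_lit 78) (nat_lit 228) (nat_lit 0) (XT.lf (nat_lit 0) (nat_lit 1789447578) (nat_lit 380) (nat_lit 12053085224) (nat_lit 76) (nat_lit 2279930221) (nat_lit 74) (nat_lit 5) (nat_lit 79) (nat_lit 5) (nat_lit 75) (nat_lit 5) (nat_lit 379) (nat_lit 354) (nat_lit 287)) (XT.nd (nat_lit 78) (nat_lit 228) (nat_lit 0) (XT.lf (nat_lit 0) (nat_lit 4892326058) (nat_lit 380) (nat_lit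 3028847564) (nat_lit 76) (nat_lit 8671722433) (nat_lit 74) (nat_lit 5) (nat_lit 79) (nat_lit 5) (nat_lit 75) (nat_lit 5) (nat_lit 380) (nat_lit 354) (nat_lit 286)) (XT.lf (nat_lit 0) (nat_lit 6628127759) (nat_lit 228) (nat_lit 1602753473) (nat_lit 304) (nat_lit 8851954738) (nat_lit 71) (nat_lit 5) (nat_lit 74) (nat_lit 5) (nat_lit 75) (nat_lit 5) (nat_lit 381) (nat_lit 354) (nat_lit 285))))) (XT.nd (nat_lit 234) (nat_lit 228) (nat_lit 0) (XT.nd (nat_lit 78) (nat_lit 532) (nat_lit 0) (XT.lf (nat_lit 0) (nat_lit 11844607305) (nat_lit 304) (nat_lit 832127558) (nat_lit 76) (nat_lit 4915137167) (nat_lit 71) (nat_lit 5) (nat_lit 75) (nat_lit 5) (nat_lit 72) (nat_lit 5) (nat_lit 382) (nat_lit 354) (nat_lit 284)) (XT.nd (nat_lit 78) (nat_lit 304) (nat_lit 0) (XT.lf (nat_lit 0) (nat_lit 9520373224) (nat_lit 228) (nat_lit 6272179910) (nat_lit 304) (nat_lit 2326140856) (nat_lit 68) (nat_lit 5) (nat_lit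 71) (nat_lit 5) (nat_lit 72) (nat_lit 5) (nat_lit 383) (nat_lit 354) (nat_lit 283)) (XT.lf (nat_lit 0) (nat_lit 1254003483) (nat_lit 304) (nat_lit 16923272446) (nat_lit 76) (nat_lit 492178290) (nat_lit 64) (nat_lit 5) (nat_lit 68) (nat_lit 5) (nat_lit 65) (nat_lit 5) (nat_lit 384) (nat_lit 354) (nat_lit 282)))) (XT.nd (nat_lit 78) (nat_lit 228) (nat_lit 0) (XT.lf (nat_lit 0) (nat_lit 5165050716) (nat_lit 304) (nat_lit 6507689778) (nat_lit 76) (nat_lit 7561611131) (nat_lit 64) (nat_lit 5) (nat_lit 68) (nat_lit 5) (nat_lit 65) (nat_lit 5) (nat_lit 385) (nat_lit 354) (nat_lit 281)) (XT.nd (nat_lit 78) (nat_lit 0) (nat_lit 0) (XT.lf (nat_lit 0) (nat_lit 4545293968) (nat_lit 228) (nat_lit 4777552320) (nat_lit 304) (nat_lit 10502096675) (nat_lit 61) (nat_lit 5) (nat_lit 64) (nat_lit 5) (nat_lit 65) (nat_lit 5) (nat_lit 386) (nat_lit 354) (nat_lit 280)) (XT.lf (nat_lit 0) (nat_lit 13819581073)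 (nat_lit 304) (nat_lit 4132165768) (nat_lit 76) (nat_lit 2486772990) (nat_lit 61) (nat_lit 5) (nat_lit 65) (nat_lit 5) (nat_lit 62) (nat_lit 5) (nat_lit 387) (nat_lit 354) (nat_lit 279)))))) (XT.nd (nat_lit 468) (nat_lit 760) (nat_lit 0) (XT.nd (nat_lit 234) (nat_lit 304) (nat_lit 0) (XT.nd (nat_lit 78) (nat_lit 304) (nat_lit 0) (XT.lf (nat_lit 0) (nat_lit 7713420118) (nat_lit 152) (nat_lit 11007992477) (nat_lit 228) (nat_lit 2352357983) (nat_lit 59) (nat_lit 5) (nat_lit 61) (nat_lit 5) (nat_lit 62) (nat_lit 5) (nat_lit 388) (nat_lit 354) (nat_lit 278)) (XT.nd (nat_lit 78) (nat_lit 228) (nat_lit 0) (XT.lf (nat_lit 0) (nat_lit 2112245556) (nat_lit 228) (nat_lit 1504897739) (nat_lit 76) (nat_lit 18119347570) (nat_lit 58) (nat_lit 5) (nat_lit 61) (nat_lit 5) (nat_lit 59) (nat_lit 5) (nat_lit 389) (nat_lit 354) (nat_lit 277)) (XT.lf (nat_lit 0) (nat_lit 6947065038) (nat_lit 304) (nat_lit 11252795935)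 (nat_lit 76) (nat_lit 4219262950) (nat_lit 55) (nat_lit 5) (nat_lit 59) (nat_lit 5) (nat_lit 56) (nat_lit 5) (nat_lit 390) (nat_lit 354) (nat_lit 276)))) (XT.nd (nat_lit 78) (nat_lit 152) (nat_lit 0) (XT.lf (nat_lit 0) (nat_lit 1345139240) (nat_lit 152) (nat_lit 10767502283) (nat_lit 228) (nat_lit 11018802920) (nat_lit 53) (nat_lit 5) (nat_lit 55) (nat_lit 5) (nat_lit 56) (nat_lit 5) (nat_lit 391) (nat_lit 354) (nat_lit 275)) (XT.nd (nat_lit 78) (nat_lit 152) (nat_lit 0) (XT.lf (nat_lit 0) (nat_lit 14937131742) (nat_lit 152) (nat_lit 2773154367) (nat_lit 228) (nat_lit 6160411712) (nat_lit 53) (nat_lit 5) (nat_lit 55) (nat_lit 5) (nat_lit 56) (nat_lit 5) (nat_lit 392) (nat_lit 354) (nat_lit 274)) (XT.lf (nat_lit 0) (nat_lit 4595218358) (nat_lit 152) (nat_lit 19135969201) (nat_lit 228) (nat_lit 908563572) (nat_lit 51) (nat_lit 5) (nat_lit 53) (nat_lit 5) (nat_lit 54) (nat_lit 5) (nat_lit 393)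 (nat_lit 354) (nat_lit 273))))) (XT.nd (nat_lit 234) (nat_lit 532) (nat_lit 0) (XT.nd (nat_lit 78) (nat_lit 152) (nat_lit 0) (XT.lf (nat_lit 0) (nat_lit 4641674566) (nat_lit 228) (nat_lit 6474976013) (nat_lit 76) (nat_lit 14317855713) (nat_lit 50) (nat_lit 5) (nat_lit 53) (nat_lit 5) (nat_lit 51) (nat_lit 5) (nat_lit 394) (nat_lit 354) (nat_lit 272)) (XT.nd (nat_lit 78) (nat_lit 0) (nat_lit 0) (XT.lf (nat_lit 0) (nat_lit 7989077372) (nat_lit 152) (nat_lit 2559286741) (nat_lit 228) (nat_lit 15714421894) (nat_lit 48) (nat_lit 5) (nat_lit 50) (nat_lit 5) (nat_lit 51) (nat_lit 5) (nat_lit 395) (nat_lit 354) (nat_lit 271)) (XT.lf (nat_lit 0) (nat_lit 16947108894) (nat_lit 228) (nat_lit 3852981516) (nat_lit 76) (nat_lit 6322558192) (nat_lit 48) (nat_lit 5) (nat_lit 51) (nat_lit 5) (nat_lit 49) (nat_lit 5) (nat_lit 396) (nat_lit 354) (nat_lit 270)))) (XT.nd (nat_lit 156) (nat_lit 304) (nat_lit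 0) (XT.nd (nat_lit 78) (nat_lit 76) (nat_lit 0) (XT.lf (nat_lit 0) (nat_lit 11594110421) (nat_lit 152) (nat_lit 12280308984) (nat_lit 228) (nat_lit 4140658195) (nat_lit 46) (nat_lit 5) (nat_lit 48) (nat_lit 5) (nat_lit 49) (nat_lit 5) (nat_lit 397) (nat_lit 354) (nat_lit 269)) (XT.lf (nat_lit 0) (nat_lit 2177744119) (nat_lit 228) (nat_lit 1060788445) (nat_lit 76) (nat_lit 25709282415) (nat_lit 45) (nat_lit 5) (nat_lit 48) (nat_lit 5) (nat_lit 46) (nat_lit 5) (nat_lit 398) (nat_lit 354) (nat_lit 268))) (XT.nd (nat_lit 78) (nat_lit 152) (nat_lit 0) (XT.lf (nat_lit 0) (nat_lit 9003485521) (nat_lit 228) (nat_lit 14543028257) (nat_lit 76) (nat_lit 6360756913) (nat_lit 43) (nat_lit 5) (nat_lit 46) (nat_lit 5) (nat_lit 44) (nat_lit 5) (nat_lit 399) (nat_lit 354) (nat_lit 267)) (XT.lf (nat_lit 0) (nat_lit 1712050085) (nat_lit 152) (nat_lit 14543117712) (nat_lit 228) (nat_lit 14655302567) (nat_lit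 41) (nat_lit 5) (nat_lit 43) (nat_lit 5) (nat_lit 44) (nat_lit 5) (nat_lit 400) (nat_lit 354) (nat_lit 266))))))) (XT.nd (nat_lit 1014) (nat_lit 684) (nat_lit 0) (XT.nd (nat_lit 468) (nat_lit 532) (nat_lit 0) (XT.nd (nat_lit 234) (nat_lit 228) (nat_lit 0) (XT.nd (nat_lit 78) (nat_lit 152) (nat_lit 0) (XT.lf (nat_lit 0) (nat_lit 19262239912) (nat_lit 152) (nat_lit 4840348607) (nat_lit 228) (nat_lit 7849587465) (nat_lit 41) (nat_lit 5) (nat_lit 43) (nat_lit 5) (nat_lit 44) (nat_lit 5) (nat_lit 401) (nat_lit 354) (nat_lit 265)) (XT.nd (nat_lit 78) (nat_lit 76) (nat_lit 0) (XT.lf (nat_lit 0) (nat_lit 4688586656) (nat_lit 76) (nat_lit 27797832912) (nat_lit 152) (nat_lit 552348859) (nat_lit 40) (nat_lit 5) (nat_lit 41) (nat_lit 5) (nat_lit 42) (nat_lit 4) (nat_lit 402) (nat_lit 354) (nat_lit 264)) (XT.lf (nat_lit 0) (nat_lit 7167384355) (nat_lit 152) (nat_lit 11008244553) (nat_lit 76) (nat_lit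 15984255148) (nat_lit 39) (nat_lit 5) (nat_lit 41) (nat_lit 5) (nat_lit 40) (nat_lit 5) (nat_lit 403) (nat_lit 354) (nat_lit 263)))) (XT.nd (nat_lit 78) (nat_lit 76) (nat_lit 0) (XT.lf (nat_lit 0) (nat_lit 7407856313) (nat_lit 152) (nat_lit 7950348324) (nat_lit 228) (nat_lit 19973217967) (nat_lit 37) (nat_lit 5) (nat_lit 39) (nat_lit 5) (nat_lit 40) (nat_lit 5) (nat_lit 404) (nat_lit 354) (nat_lit 262)) (XT.nd (nat_lit 78) (nat_lit 76) (nat_lit 0) (XT.lf (nat_lit 0) (nat_lit 24179668116) (nat_lit 228) (nat_lit 9492918507) (nat_lit 76) (nat_lit 2877899230) (nat_lit 37) (nat_lit 5) (nat_lit 40) (nat_lit 5) (nat_lit 38) (nat_lit 4) (nat_lit 405) (nat_lit 354) (nat_lit 261)) (XT.lf (nat_lit 0) (nat_lit 10029861548) (nat_lit 76) (nat_lit 23687952641) (nat_lit 152) (nat_lit 4098910352) (nat_lit 36) (nat_lit 5) (nat_lit 37) (nat_lit 5) (nat_lit 38) (nat_lit 4) (nat_lit 406) (nat_lit 354) (nat_lit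 260))))) (XT.nd (nat_lit 234) (nat_lit 304) (nat_lit 0) (XT.nd (nat_lit 78) (nat_lit 152) (nat_lit 0) (XT.lf (nat_lit 0) (nat_lit 4591923238) (nat_lit 152) (nat_lit 8374264593) (nat_lit 76) (nat_lit 26168902824) (nat_lit 35) (nat_lit 5) (nat_lit 37) (nat_lit 5) (nat_lit 36) (nat_lit 5) (nat_lit 407) (nat_lit 354) (nat_lit 259)) (XT.nd (nat_lit 78) (nat_lit 0) (nat_lit 0) (XT.lf (nat_lit 0) (nat_lit 12316806046) (nat_lit 152) (nat_lit 1444306574) (nat_lit 228) (nat_lit 26745826846) (nat_lit 33) (nat_lit 5) (nat_lit 35) (nat_lit 5) (nat_lit 36) (nat_lit 5) (nat_lit 408) (nat_lit 354) (nat_lit 258)) (XT.lf (nat_lit 0) (nat_lit 23688593073) (nat_lit 228) (nat_lit 7795048098) (nat_lit 76) (nat_lit 10448750225) (nat_lit 33) (nat_lit 5) (nat_lit 36) (nat_lit 5) (nat_lit 34) (nat_lit 4) (nat_lit 409) (nat_lit 354) (nat_lit 257)))) (XT.nd (nat_lit 156) (nat_lit 152) (nat_lit 0) (XT.nd (nat_lit 78)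 (nat_lit 76) (nat_lit 0) (XT.lf (nat_lit 0) (nat_lit 14026708325) (nat_lit 76) (nat_lit 20318270511) (nat_lit 152) (nat_lit 9072512675) (nat_lit 32) (nat_lit 5) (nat_lit 33) (nat_lit 5) (nat_lit 34) (nat_lit 4) (nat_lit 410) (nat_lit 354) (nat_lit 256)) (XT.lf (nat_lit 0) (nat_lit 663570101) (nat_lit 152) (nat_lit 7789321123) (nat_lit 76) (nat_lit 36517318724) (nat_lit 31) (nat_lit 5) (nat_lit 33) (nat_lit 5) (nat_lit 32) (nat_lit 5) (nat_lit 411) (nat_lit 354) (nat_lit 255))) (XT.nd (nat_lit 78) (nat_lit 0) (nat_lit 0) (XT.lf (nat_lit 0) (nat_lit 10878201897) (nat_lit 228) (nat_lit 31437606305) (nat_lit 76) (nat_lit 4262489439) (nat_lit 29) (nat_lit 5) (nat_lit 32) (nat_lit 5) (nat_lit 30) (nat_lit 4) (nat_lit 412) (nat_lit 354) (nat_lit 254)) (XT.lf (nat_lit 0) (nat_lit 21866658650) (nat_lit 228) (nat_lit 8930878573) (nat_lit 76) (nat_lit 17456099596) (nat_lit 29) (nat_lit 5) (nat_lit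 32) (nat_lit 5) (nat_lit 30) (nat_lit 4) (nat_lit 413) (nat_lit 354) (nat_lit 253)))))) (XT.nd (nat_lit 468) (nat_lit 380) (nat_lit 0) (XT.nd (nat_lit 234) (nat_lit 76) (nat_lit 0) (XT.nd (nat_lit 78) (nat_lit 152) (nat_lit 0) (XT.lf (nat_lit 0) (nat_lit 15169974546) (nat_lit 76) (nat_lit 18462307513) (nat_lit 152) (nat_lit 16369075394) (nat_lit 28) (nat_lit 5) (nat_lit 29) (nat_lit 5) (nat_lit 30) (nat_lit 4) (nat_lit 414) (nat_lit 354) (nat_lit 252)) (XT.nd (nat_lit 78) (nat_lit 152) (nat_lit 0) (XT.lf (nat_lit 0) (nat_lit 40769455417) (nat_lit 76) (nat_lit 5359054184) (nat_lit 152) (nat_lit 5700839975) (nat_lit 28) (nat_lit 5) (nat_lit 29) (nat_lit 5) (nat_lit 30) (nat_lit 4) (nat_lit 415) (nat_lit 354) (nat_lit 251)) (XT.lf (nat_lit 0) (nat_lit 5674738182) (nat_lit 152) (nat_lit 39615289510) (nat_lit 76) (nat_lit 8436921362) (nat_lit 26) (nat_lit 5) (nat_lit 28) (nat_lit 5) (nat_lit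 27) (nat_lit 4) (nat_lit 416) (nat_lit 354) (nat_lit 250)))) (XT.nd (nat_lit 78) (nat_lit 76) (nat_lit 0) (XT.lf (nat_lit 0) (nat_lit 17697149599) (nat_lit 152) (nat_lit 14984709966) (nat_lit 76) (nat_lit 23019415510) (nat_lit 26) (nat_lit 5) (nat_lit 28) (nat_lit 5) (nat_lit 27) (nat_lit 4) (nat_lit 417) (nat_lit 354) (nat_lit 249)) (XT.nd (nat_lit 78) (nat_lit 0) (nat_lit 0) (XT.lf (nat_lit 0) (nat_lit 11221281183) (nat_lit 76) (nat_lit 19266416414) (nat_lit 152) (nat_lit 27278270320) (nat_lit 25) (nat_lit 5) (nat_lit 26) (nat_lit 5) (nat_lit 27) (nat_lit 4) (nat_lit 418) (nat_lit 354) (nat_lit 248)) (XT.lf (nat_lit 0) (nat_lit 39242785002) (nat_lit 76) (nat_lit 4920736641) (nat_lit 152) (nat_lit 15758087585) (nat_lit 25) (nat_lit 5) (nat_lit 26) (nat_lit 5) (nat_lit 27) (nat_lit 4) (nat_lit 419) (nat_lit 354) (nat_lit 247))))) (XT.nd (nat_lit 234) (nat_lit 228) (nat_lit 0) (XT.nd (nat_lit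 78) (nat_lit 76) (nat_lit 0) (XT.lf (nat_lit 0) (nat_lit 6515947720) (nat_lit 76) (nat_lit 52259523376) (nat_lit 76) (nat_lit 3396945997) (nat_lit 24) (nat_lit 4) (nat_lit 25) (nat_lit 5) (nat_lit 25) (nat_lit 4) (nat_lit 420) (nat_lit 354) (nat_lit 246)) (XT.nd (nat_lit 78) (nat_lit 0) (nat_lit 0) (XT.lf (nat_lit 0) (nat_lit 9704448046) (nat_lit 152) (nat_lit 28980496871) (nat_lit 76) (nat_lit 25821896864) (nat_lit 23) (nat_lit 5) (nat_lit 25) (nat_lit 5) (nat_lit 24) (nat_lit 4) (nat_lit 421) (nat_lit 354) (nat_lit 245)) (XT.lf (nat_lit 0) (nat_lit 23339392621) (nat_lit 152) (nat_lit 1040325241) (nat_lit 76) (nat_lit 42575854470) (nat_lit 23) (nat_lit 5) (nat_lit 25) (nat_lit 5) (nat_lit 24) (nat_lit 4) (nat_lit 422) (nat_lit 354) (nat_lit 244)))) (XT.nd (nat_lit 156) (nat_lit 152) (nat_lit 0) (XT.nd (nat_lit 78) (nat_lit 0) (nat_lit 0) (XT.lf (nat_lit 0) (nat_lit 29218789316) (nat_lit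 76) (nat_lit 8886473240) (nat_lit 152) (nat_lit 31399018935) (nat_lit 22) (nat_lit 5) (nat_lit 23) (nat_lit 5) (nat_lit 24) (nat_lit 4) (nat_lit 423) (nat_lit 354) (nat_lit 243)) (XT.lf (nat_lit 0) (nat_lit 53735603149) (nat_lit 152) (nat_lit 11281385977) (nat_lit 0) (nat_lit 7157129063) (nat_lit 22) (nat_lit 5) (nat_lit 24) (nat_lit 4) (nat_lit 22) (nat_lit 4) (nat_lit 424) (nat_lit 354) (nat_lit 242))) (XT.nd (nat_lit 78) (nat_lit 76) (nat_lit 0) (XT.lf (nat_lit 0) (nat_lit 19643302136) (nat_lit 76) (nat_lit 50949882720) (nat_lit 76) (nat_lit 4361976555) (nat_lit 21) (nat_lit 4) (nat_lit 22) (nat_lit 5) (nat_lit 22) (nat_lit 4) (nat_lit 425) (nat_lit 354) (nat_lit 241)) (XT.lf (nat_lit 0) (nat_lit 10272494591) (nat_lit 152) (nat_lit 25538275182) (nat_lit 76) (nat_lit 42046976858) (nat_lit 20) (nat_lit 5) (nat_lit 22) (nat_lit 5) (nat_lit 21) (nat_lit 4) (nat_lit 426) (nat_lit 354) (nat_lit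 240))))))))
noncomputable def xc134 : XT := (XT.nd (nat_lit 1950) (nat_lit 456) (nat_lit 0) (XT.nd (nat_lit 936) (nat_lit 380) (nat_lit 0) (XT.nd (nat_lit 468) (nat_lit 228) (nat_lit 0) (XT.nd (nat_lit 234) (nat_lit 152) (nat_lit 0) (XT.nd (nat_lit 78) (nat_lit 0) (nat_lit 0) (XT.lf (nat_lit 0) (nat_lit 5826913380) (nat_lit 76) (nat_lit 19749846448) (nat_lit 152) (nat_lit 55320893589) (nat_lit 19) (nat_lit 5) (nat_lit 20) (nat_lit 5) (nat_lit 21) (nat_lit 4) (nat_lit 427) (nat_lit 354) (nat_lit 239)) (XT.nd (nat_lit 78) (nat_lit 0) (nat_lit 0) (XT.lf (nat_lit 0) (nat_lit 39635122666) (nat_lit 76) (nat_lit 2437421098) (nat_lit 152) (nat_lit 41995697241) (nat_lit 19) (nat_lit 5) (nat_lit 20) (nat_lit 5) (nat_lit 21) (nat_lit 4) (nat_lit 428) (nat_lit 354) (nat_lit 238)) (XT.lf (nat_lit 0) (nat_lit 59632885347) (nat_lit 152) (nat_lit 12520887030) (nat_lit 0) (nat_lit 15231597875) (nat_lit 19)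 (nat_lit 5) (nat_lit 21) (nat_lit 4) (nat_lit 19) (nat_lit 4) (nat_lit 429) (nat_lit 354) (nat_lit 237)))) (XT.nd (nat_lit 78) (nat_lit 76) (nat_lit 0) (XT.lf (nat_lit 0) (nat_lit 21628270026) (nat_lit 76) (nat_lit 56814907870) (nat_lit 76) (nat_lit 12406582037) (nat_lit 18) (nat_lit 4) (nat_lit 19) (nat_lit 5) (nat_lit 19) (nat_lit 4) (nat_lit 430) (nat_lit 354) (nat_lit 236)) (XT.nd (nat_lit 78) (nat_lit 0) (nat_lit 0) (XT.lf (nat_lit 0) (nat_lit 3797813476) (nat_lit 152) (nat_lit 36629511407) (nat_lit 76) (nat_lit 54046659669) (nat_lit 17) (nat_lit 5) (nat_lit 19) (nat_lit 5) (nat_lit 18) (nat_lit 4) (nat_lit 431) (nat_lit 354) (nat_lit 235)) (XT.lf (nat_lit 0) (nat_lit 20390066156) (nat_lit 152) (nat_lit 2621777416) (nat_lit 76) (nat_lit 75257679083) (nat_lit 17) (nat_lit 5) (nat_lit 19) (nat_lit 5) (nat_lit 18) (nat_lit 4) (nat_lit 432) (nat_lit 354) (nat_lit 234))))) (XT.nd (nat_lit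 234) (nat_lit 76) (nat_lit 0) (XT.nd (nat_lit 78) (nat_lit 76) (nat_lit 0) (XT.lf (nat_lit 0) (nat_lit 34170039021) (nat_lit 76) (nat_lit 4170220519) (nat_lit 152) (nat_lit 63888162267) (nat_lit 16) (nat_lit 5) (nat_lit 17) (nat_lit 5) (nat_lit 18) (nat_lit 4) (nat_lit 433) (nat_lit 354) (nat_lit 233)) (XT.nd (nat_lit 78) (nat_lit 76) (nat_lit 0) (XT.lf (nat_lit 0) (nat_lit 57471718785) (nat_lit 152) (nat_lit 33745053933) (nat_lit 0) (nat_lit 15154305913) (nat_lit 16) (nat_lit 5) (nat_lit 18) (nat_lit 4) (nat_lit 16) (nat_lit 4) (nat_lit 434) (nat_lit 354) (nat_lit 232)) (XT.lf (nat_lit 0) (nat_lit 2279016601) (nat_lit 76) (nat_lit 75379782400) (nat_lit 76) (nat_lit 33057117394) (nat_lit 15) (nat_lit 4) (nat_lit 16) (nat_lit 5) (nat_lit 16) (nat_lit 4) (nat_lit 435) (nat_lit 354) (nat_lit 231)))) (XT.nd (nat_lit 78) (nat_lit 76) (nat_lit 0) (XT.lf (nat_lit 0) (nat_lit 41266492760) (nat_lit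 76) (nat_lit 58155418449) (nat_lit 76) (nat_lit 15827751411) (nat_lit 15) (nat_lit 4) (nat_lit 16) (nat_lit 5) (nat_lit 16) (nat_lit 4) (nat_lit 436) (nat_lit 354) (nat_lit 230)) (XT.nd (nat_lit 78) (nat_lit 0) (nat_lit 0) (XT.lf (nat_lit 0) (nat_lit 2185992790) (nat_lit 152) (nat_lit 37851145657) (nat_lit 76) (nat_lit 79971424351) (nat_lit 14) (nat_lit 5) (nat_lit 16) (nat_lit 5) (nat_lit 15) (nat_lit 4) (nat_lit 437) (nat_lit 354) (nat_lit 229)) (XT.lf (nat_lit 0) (nat_lit 20564072448) (nat_lit 152) (nat_lit 180619350) (nat_lit 76) (nat_lit 104247964807) (nat_lit 14) (nat_lit 5) (nat_lit 16) (nat_lit 5) (nat_lit 15) (nat_lit 4) (nat_lit 438) (nat_lit 354) (nat_lit 228)))))) (XT.nd (nat_lit 468) (nat_lit 228) (nat_lit 0) (XT.nd (nat_lit 234) (nat_lit 76) (nat_lit 0) (XT.nd (nat_lit 78) (nat_lit 0) (nat_lit 0) (XT.lf (nat_lit 0) (nat_lit 40494487705) (nat_lit 152) (nat_lit 89530345465) (nat_lit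 0) (nat_lit 169450740) (nat_lit 13) (nat_lit 5) (nat_lit 15) (nat_lit 4) (nat_lit 13) (nat_lit 4) (nat_lit 439) (nat_lit 354) (nat_lit 227)) (XT.nd (nat_lit 78) (nat_lit 0) (nat_lit 0) (XT.lf (nat_lit 0) (nat_lit 61760398859) (nat_lit 152) (nat_lit 52447202668) (nat_lit 0) (nat_lit 21431442671) (nat_lit 13) (nat_lit 5) (nat_lit 15) (nat_lit 4) (nat_lit 13) (nat_lit 4) (nat_lit 440) (nat_lit 354) (nat_lit 226)) (XT.lf (nat_lit 0) (nat_lit 84085595281) (nat_lit 152) (nat_lit 13517741586) (nat_lit 0) (nat_lit 43752906499) (nat_lit 13) (nat_lit 5) (nat_lit 15) (nat_lit 4) (nat_lit 13) (nat_lit 4) (nat_lit 441) (nat_lit 354) (nat_lit 225)))) (XT.nd (nat_lit 78) (nat_lit 0) (nat_lit 0) (XT.lf (nat_lit 0) (nat_lit 28255065526) (nat_lit 76) (nat_lit 79709307433) (nat_lit 76) (nat_lit 39373063801) (nat_lit 12) (nat_lit 4) (nat_lit 13) (nat_lit 5) (nat_lit 13) (nat_lit 4) (nat_lit 442) (nat_lit 354)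 (nat_lit 224)) (XT.nd (nat_lit 78) (nat_lit 0) (nat_lit 0) (XT.lf (nat_lit 0) (nat_lit 72578473294) (nat_lit 76) (nat_lit 60683793592) (nat_lit 76) (nat_lit 20344164388) (nat_lit 12) (nat_lit 4) (nat_lit 13) (nat_lit 5) (nat_lit 13) (nat_lit 4) (nat_lit 443) (nat_lit 354) (nat_lit 223)) (XT.lf (nat_lit 0) (nat_lit 119111056058) (nat_lit 76) (nat_lit 40710425998) (nat_lit 76) (nat_lit 367572438) (nat_lit 12) (nat_lit 4) (nat_lit 13) (nat_lit 5) (nat_lit 13) (nat_lit 4) (nat_lit 444) (nat_lit 354) (nat_lit 222))))) (XT.nd (nat_lit 234) (nat_lit 76) (nat_lit 0) (XT.nd (nat_lit 78) (nat_lit 0) (nat_lit 0) (XT.lf (nat_lit 0) (nat_lit 558821649) (nat_lit 76) (nat_lit 19394712995) (nat_lit 152) (nat_lit 147130923923) (nat_lit 10) (nat_lit 5) (nat_lit 11) (nat_lit 5) (nat_lit 12) (nat_lit 4) (nat_lit 445) (nat_lit 354) (nat_lit 221)) (XT.nd (nat_lit 78) (nat_lit 0) (nat_lit 0) (XT.lf (nat_lit 0)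 (nat_lit 42028606863) (nat_lit 152) (nat_lit 128657080159) (nat_lit 0) (nat_lit 3601131666) (nat_lit 10) (nat_lit 5) (nat_lit 12) (nat_lit 4) (nat_lit 10) (nat_lit 4) (nat_lit 446) (nat_lit 354) (nat_lit 220)) (XT.lf (nat_lit 0) (nat_lit 65522093312) (nat_lit 152) (nat_lit 89219505293) (nat_lit 0) (nat_lit 27091965430) (nat_lit 10) (nat_lit 5) (nat_lit 12) (nat_lit 4) (nat_lit 10) (nat_lit 4) (nat_lit 447) (nat_lit 354) (nat_lit 219)))) (XT.nd (nat_lit 156) (nat_lit 76) (nat_lit 0) (XT.nd (nat_lit 78) (nat_lit 0) (nat_lit 0) (XT.lf (nat_lit 0) (nat_lit 90187125041) (nat_lit 152) (nat_lit 47816207509) (nat_lit 0) (nat_lit 51754470792) (nat_lit 10) (nat_lit 5) (nat_lit 12) (nat_lit 4) (nat_lit 10) (nat_lit 4) (nat_lit 448) (nat_lit 354) (nat_lit 218)) (XT.lf (nat_lit 0) (nat_lit 116082428314) (nat_lit 152) (nat_lit 4348607528) (nat_lit 0) (nat_lit 77647368002) (nat_lit 10) (nat_lit 5) (nat_lit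 12) (nat_lit 4) (nat_lit 10) (nat_lit 4) (nat_lit 449) (nat_lit 354) (nat_lit 217))) (XT.nd (nat_lit 78) (nat_lit 0) (nat_lit 0) (XT.lf (nat_lit 0) (nat_lit 42651916634) (nat_lit 76) (nat_lit 101283657932) (nat_lit 76) (nat_lit 62846306132) (nat_lit 9) (nat_lit 4) (nat_lit 10) (nat_lit 5) (nat_lit 10) (nat_lit 4) (nat_lit 450) (nat_lit 354) (nat_lit 216)) (XT.lf (nat_lit 0) (nat_lit 92147947381) (nat_lit 76) (nat_lit 81104287770) (nat_lit 76) (nat_lit 42664753600) (nat_lit 9) (nat_lit 4) (nat_lit 10) (nat_lit 5) (nat_lit 10) (nat_lit 4) (nat_lit 451) (nat_lit 354) (nat_lit 215))))))) (XT.nd (nat_lit 1014) (nat_lit 228) (nat_lit 0) (XT.nd (nat_lit 468) (nat_lit 76) (nat_lit 0) (XT.nd (nat_lit 234) (nat_lit 0) (nat_lit 0) (XT.nd (nat_lit 78) (nat_lit 152) (nat_lit 0) (XT.lf (nat_lit 0) (nat_lit 144113547799) (nat_lit 76) (nat_lit 59918525009) (nat_lit 76) (nat_lit 21476912391) (nat_lit 9)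 (nat_lit 4) (nat_lit 10) (nat_lit 5) (nat_lit 10) (nat_lit 4) (nat_lit 452) (nat_lit 354) (nat_lit 214)) (XT.nd (nat_lit 78) (nat_lit 76) (nat_lit 0) (XT.lf (nat_lit 0) (nat_lit 743094667) (nat_lit 152) (nat_lit 36920248023) (nat_lit 76) (nat_lit 197916766174) (nat_lit 8) (nat_lit 5) (nat_lit 10) (nat_lit 5) (nat_lit 9) (nat_lit 4) (nat_lit 453) (nat_lit 354) (nat_lit 213)) (XT.lf (nat_lit 0) (nat_lit 9733320750) (nat_lit 76) (nat_lit 13768531959) (nat_lit 152) (nat_lit 222627856360) (nat_lit 7) (nat_lit 5) (nat_lit 8) (nat_lit 5) (nat_lit 9) (nat_lit 4) (nat_lit 454) (nat_lit 354) (nat_lit 212)))) (XT.nd (nat_lit 78) (nat_lit 0) (nat_lit 0) (XT.lf (nat_lit 0) (nat_lit 48208371154) (nat_lit 152) (nat_lit 197366006249) (nat_lit 0) (nat_lit 11591920919) (nat_lit 7) (nat_lit 5) (nat_lit 9) (nat_lit 4) (nat_lit 7) (nat_lit 4) (nat_lit 455) (nat_lit 354) (nat_lit 211)) (XT.nd (nat_lit 78) (nat_lit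 0) (nat_lit 0) (XT.lf (nat_lit 0) (nat_lit 74373602677) (nat_lit 152) (nat_lit 156614421232) (nat_lit 0) (nat_lit 37755523924) (nat_lit 7) (nat_lit 5) (nat_lit 9) (nat_lit 4) (nat_lit 7) (nat_lit 4) (nat_lit 456) (nat_lit 354) (nat_lit 210)) (XT.lf (nat_lit 0) (nat_lit 101844880081) (nat_lit 152) (nat_lit 113829640314) (nat_lit 0) (nat_lit 65225250358) (nat_lit 7) (nat_lit 5) (nat_lit 9) (nat_lit 4) (nat_lit 7) (nat_lit 4) (nat_lit 457) (nat_lit 354) (nat_lit 209))))) (XT.nd (nat_lit 234) (nat_lit 0) (nat_lit 0) (XT.nd (nat_lit 78) (nat_lit 76) (nat_lit 0) (XT.lf (nat_lit 0) (nat_lit 130687611167) (nat_lit 152) (nat_lit 68909794969) (nat_lit 0) (nat_lit 94066504330) (nat_lit 7) (nat_lit 5) (nat_lit 9) (nat_lit 4) (nat_lit 7) (nat_lit 4) (nat_lit 458) (nat_lit 354) (nat_lit 208)) (XT.nd (nat_lit 78) (nat_lit 76) (nat_lit 0) (XT.lf (nat_lit 0) (nat_lit 160970469106) (nat_lit 152) (nat_lit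 21747933186) (nat_lit 0) (nat_lit 124347955494) (nat_lit 7) (nat_lit 5) (nat_lit 9) (nat_lit 4) (nat_lit 7) (nat_lit 4) (nat_lit 459) (nat_lit 354) (nat_lit 207)) (XT.lf (nat_lit 0) (nat_lit 28686378443) (nat_lit 76) (nat_lit 164527052257) (nat_lit 76) (nat_lit 127903198859) (nat_lit 6) (nat_lit 4) (nat_lit 7) (nat_lit 5) (nat_lit 7) (nat_lit 4) (nat_lit 460) (nat_lit 354) (nat_lit 206)))) (XT.nd (nat_lit 156) (nat_lit 0) (nat_lit 0) (XT.nd (nat_lit 78) (nat_lit 0) (nat_lit 0) (XT.lf (nat_lit 0) (nat_lit 82393719357) (nat_lit 76) (nat_lit 145041251766) (nat_lit 76) (nat_lit 108416122382) (nat_lit 6) (nat_lit 4) (nat_lit 7) (nat_lit 5) (nat_lit 7) (nat_lit 4) (nat_lit 461) (nat_lit 354) (nat_lit 205)) (XT.lf (nat_lit 0) (nat_lit 138782879287) (nat_lit 76) (nat_lit 124582917830) (nat_lit 76) (nat_lit 87956573220) (nat_lit 6) (nat_lit 4) (nat_lit 7) (nat_lit 5) (nat_lit 7) (nat_lit 4) (nat_lit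 462) (nat_lit 354) (nat_lit 204))) (XT.nd (nat_lit 78) (nat_lit 0) (nat_lit 0) (XT.lf (nat_lit 0) (nat_lit 197988118138) (nat_lit 76) (nat_lit 103103340127) (nat_lit 76) (nat_lit 66475838160) (nat_lit 6) (nat_lit 4) (nat_lit 7) (nat_lit 5) (nat_lit 7) (nat_lit 4) (nat_lit 463) (nat_lit 354) (nat_lit 203)) (XT.lf (nat_lit 0) (nat_lit 260150400765) (nat_lit 76) (nat_lit 80551376808) (nat_lit 76) (nat_lit 43922772595) (nat_lit 6) (nat_lit 4) (nat_lit 7) (nat_lit 5) (nat_lit 7) (nat_lit 4) (nat_lit 464) (nat_lit 354) (nat_lit 202)))))) (XT.nd (nat_lit 468) (nat_lit 76) (nat_lit 0) (XT.nd (nat_lit 234) (nat_lit 0) (nat_lit 0) (XT.nd (nat_lit 78) (nat_lit 152) (nat_lit 0) (XT.lf (nat_lit 0) (nat_lit 325417732603) (nat_lit 76) (nat_lit 56873332721) (nat_lit 76) (nat_lit 20243678751) (nat_lit 6) (nat_lit 4) (nat_lit 7) (nat_lit 5) (nat_lit 7) (nat_lit 4) (nat_lit 465) (nat_lit 354) (nat_lit 201))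 (XT.nd (nat_lit 78) (nat_lit 76) (nat_lit 0) (XT.lf (nat_lit 0) (nat_lit 4470023019) (nat_lit 152) (nat_lit 27467106547) (nat_lit 76) (nat_lit 389399787038) (nat_lit 5) (nat_lit 5) (nat_lit 7) (nat_lit 5) (nat_lit 6) (nat_lit 4) (nat_lit 466) (nat_lit 354) (nat_lit 200)) (XT.lf (nat_lit 0) (nat_lit 25135082411) (nat_lit 76) (nat_lit 4995009447) (nat_lit 152) (nat_lit 410912962694) (nat_lit 4) (nat_lit 5) (nat_lit 5) (nat_lit 5) (nat_lit 6) (nat_lit 4) (nat_lit 467) (nat_lit 354) (nat_lit 199)))) (XT.nd (nat_lit 78) (nat_lit 0) (nat_lit 0) (XT.lf (nat_lit 0) (nat_lit 57908222829) (nat_lit 152) (nat_lit 380764408238) (nat_lit 0) (nat_lit 23020115477) (nat_lit 4) (nat_lit 5) (nat_lit 6) (nat_lit 4) (nat_lit 4) (nat_lit 4) (nat_lit 468) (nat_lit 354) (nat_lit 198)) (XT.nd (nat_lit 78) (nat_lit 0) (nat_lit 0) (XT.lf (nat_lit 0) (nat_lit 87155789776) (nat_lit 152) (nat_lit 343948247054) (nat_lit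 0) (nat_lit 52266859912) (nat_lit 4) (nat_lit 5) (nat_lit 6) (nat_lit 4) (nat_lit 4) (nat_lit 4) (nat_lit 469) (nat_lit 354) (nat_lit 197)) (XT.lf (nat_lit 0) (nat_lit 117864443668) (nat_lit 152) (nat_lit 305293844969) (nat_lit 0) (nat_lit 82974730459) (nat_lit 4) (nat_lit 5) (nat_lit 6) (nat_lit 4) (nat_lit 4) (nat_lit 4) (nat_lit 470) (nat_lit 354) (nat_lit 196))))) (XT.nd (nat_lit 234) (nat_lit 76) (nat_lit 0) (XT.nd (nat_lit 78) (nat_lit 0) (nat_lit 0) (XT.lf (nat_lit 0) (nat_lit 150107300346) (nat_lit 152) (nat_lit 264709167690) (nat_lit 0) (nat_lit 115216841094) (nat_lit 4) (nat_lit 5) (nat_lit 6) (nat_lit 4) (nat_lit 4) (nat_lit 4) (nat_lit 471) (nat_lit 354) (nat_lit 195)) (XT.nd (nat_lit 78) (nat_lit 0) (nat_lit 0) (XT.lf (nat_lit 0) (nat_lit 183961128518) (nat_lit 152) (nat_lit 222097585036) (nat_lit 0) (nat_lit 149069958749) (nat_lit 4) (nat_lit 5) (nat_lit 6) (nat_lit 4) (nat_lit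 4) (nat_lit 4) (nat_lit 472) (nat_lit 354) (nat_lit 194)) (XT.lf (nat_lit 0) (nat_lit 219506532537) (nat_lit 152) (nat_lit 177357640855) (nat_lit 0) (nat_lit 184614686084) (nat_lit 4) (nat_lit 5) (nat_lit 6) (nat_lit 4) (nat_lit 4) (nat_lit 4) (nat_lit 473) (nat_lit 354) (nat_lit 193)))) (XT.nd (nat_lit 156) (nat_lit 76) (nat_lit 0) (XT.nd (nat_lit 78) (nat_lit 0) (nat_lit 0) (XT.lf (nat_lit 0) (nat_lit 256828144316) (nat_lit 152) (nat_lit 130382811473) (nat_lit 0) (nat_lit 221935653403) (nat_lit 4) (nat_lit 5) (nat_lit 6) (nat_lit 4) (nat_lit 4) (nat_lit 4) (nat_lit 474) (nat_lit 354) (nat_lit 192)) (XT.lf (nat_lit 0) (nat_lit 296014824835) (nat_lit 152) (nat_lit 81061252056) (nat_lit 0) (nat_lit 261121720152) (nat_lit 4) (nat_lit 5) (nat_lit 6) (nat_lit 4) (nat_lit 4) (nat_lit 4) (nat_lit 475) (nat_lit 354) (nat_lit 191))) (XT.nd (nat_lit 78) (nat_lit 76) (nat_lit 0) (XT.lf (nat_lit 0)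 (nat_lit 337159875717) (nat_lit 152) (nat_lit 29275530320) (nat_lit 0) (nat_lit 302266186489) (nat_lit 4) (nat_lit 5) (nat_lit 6) (nat_lit 4) (nat_lit 4) (nat_lit 4) (nat_lit 476) (nat_lit 354) (nat_lit 190)) (XT.lf (nat_lit 0) (nat_lit 25927494825) (nat_lit 76) (nat_lit 354838567396) (nat_lit 76) (nat_lit 319944321460) (nat_lit 3) (nat_lit 4) (nat_lit 4) (nat_lit 5) (nat_lit 4) (nat_lit 4) (nat_lit 477) (nat_lit 354) (nat_lit 189))))))))
noncomputable def xc135 : XT := (XT.nd (nat_lit 1950) (nat_lit 3192) (nat_lit 0) (XT.nd (nat_lit 936) (nat_lit 2736) (nat_lit 0) (XT.nd (nat_lit 468) (nat_lit 456) (nat_lit 0) (XT.nd (nat_lit 234) (nat_lit 0) (nat_lit 76) (XT.nd (nat_lit 78) (nat_lit 684) (nat_lit 0) (XT.lf (nat_lit 0) (nat_lit 3720908912) (nat_lit 684) (nat_lit 407098477) (nat_lit 684) (nat_lit 407098477) (nat_lit 130) (nat_lit 3) (nat_lit 139) (nat_lit 3) (nat_lit 139) (nat_lit 5) (nat_lit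 355) (nat_lit 355) (nat_lit 310)) (XT.nd (nat_lit 78) (nat_lit 684) (nat_lit 0) (XT.lf (nat_lit 76) (nat_lit 3687886382) (nat_lit 0) (nat_lit 4843282449) (nat_lit 684) (nat_lit 719940546) (nat_lit 131) (nat_lit 5) (nat_lit 130) (nat_lit 3) (nat_lit 139) (nat_lit 5) (nat_lit 356) (nat_lit 355) (nat_lit 309)) (XT.lf (nat_lit 0) (nat_lit 184929151) (nat_lit 684) (nat_lit 1032162972) (nat_lit 760) (nat_lit 8225895316) (nat_lit 121) (nat_lit 5) (nat_lit 130) (nat_lit 3) (nat_lit 131) (nat_lit 5) (nat_lit 357) (nat_lit 355) (nat_lit 308)))) (XT.nd (nat_lit 78) (nat_lit 0) (nat_lit 0) (XT.lf (nat_lit 0) (nat_lit 1159347535) (nat_lit 684) (nat_lit 5879876127) (nat_lit 760) (nat_lit 2602260830) (nat_lit 122) (nat_lit 5) (nat_lit 131) (nat_lit 5) (nat_lit 132) (nat_lit 5) (nat_lit 358) (nat_lit 355) (nat_lit 307)) (XT.nd (nat_lit 78) (nat_lit 0) (nat_lit 76) (XT.lf (nat_lit 0) (nat_lit 2169713953)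 (nat_lit 684) (nat_lit 1070578640) (nat_lit 760) (nat_lit 6610290735) (nat_lit 122) (nat_lit 5) (nat_lit 131) (nat_lit 5) (nat_lit 132) (nat_lit 5) (nat_lit 359) (nat_lit 355) (nat_lit 306)) (XT.lf (nat_lit 0) (nat_lit 3259200100) (nat_lit 684) (nat_lit 6003334022) (nat_lit 760) (nat_lit 806209377) (nat_lit 123) (nat_lit 5) (nat_lit 132) (nat_lit 5) (nat_lit 133) (nat_lit 5) (nat_lit 360) (nat_lit 355) (nat_lit 305))))) (XT.nd (nat_lit 234) (nat_lit 608) (nat_lit 0) (XT.nd (nat_lit 78) (nat_lit 0) (nat_lit 0) (XT.lf (nat_lit 0) (nat_lit 4428690361) (nat_lit 684) (nat_lit 887737595) (nat_lit 760) (nat_lit 4980141958) (nat_lit 123) (nat_lit 5) (nat_lit 132) (nat_lit 5) (nat_lit 133) (nat_lit 5) (nat_lit 361) (nat_lit 355) (nat_lit 304)) (XT.nd (nat_lit 78) (nat_lit 0) (nat_lit 76) (XT.lf (nat_lit 76) (nat_lit 4599635963) (nat_lit 0) (nat_lit 1085005964) (nat_lit 760) (nat_lit 4849779455) (nat_lit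 124) (nat_lit 5) (nat_lit 123) (nat_lit 5) (nat_lit 133) (nat_lit 5) (nat_lit 362) (nat_lit 355) (nat_lit 303)) (XT.lf (nat_lit 0) (nat_lit 7029059973) (nat_lit 684) (nat_lit 476927579) (nat_lit 760) (nat_lit 3276925924) (nat_lit 124) (nat_lit 5) (nat_lit 133) (nat_lit 5) (nat_lit 134) (nat_lit 5) (nat_lit 363) (nat_lit 355) (nat_lit 302)))) (XT.nd (nat_lit 78) (nat_lit 684) (nat_lit 0) (XT.lf (nat_lit 76) (nat_lit 5376657787) (nat_lit 0) (nat_lit 3125735271) (nat_lit 760) (nat_lit 2538382409) (nat_lit 125) (nat_lit 5) (nat_lit 124) (nat_lit 5) (nat_lit 134) (nat_lit 5) (nat_lit 364) (nat_lit 355) (nat_lit 301)) (XT.nd (nat_lit 78) (nat_lit 76) (nat_lit 0) (XT.lf (nat_lit 0) (nat_lit 177871898) (nat_lit 684) (nat_lit 9867018534) (nat_lit 760) (nat_lit 1266893814) (nat_lit 116) (nat_lit 5) (nat_lit 125) (nat_lit 5) (nat_lit 126) (nat_lit 5) (nat_lit 365) (nat_lit 355) (nat_lit 300)) (XT.lf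 (nat_lit 0) (nat_lit 176921204) (nat_lit 760) (nat_lit 5170598716) (nat_lit 76) (nat_lit 6243249548) (nat_lit 115) (nat_lit 5) (nat_lit 125) (nat_lit 5) (nat_lit 116) (nat_lit 5) (nat_lit 366) (nat_lit 355) (nat_lit 299)))))) (XT.nd (nat_lit 468) (nat_lit 1292) (nat_lit 0) (XT.nd (nat_lit 234) (nat_lit 304) (nat_lit 0) (XT.nd (nat_lit 78) (nat_lit 380) (nat_lit 0) (XT.lf (nat_lit 0) (nat_lit 1072259998) (nat_lit 760) (nat_lit 558827413) (nat_lit 836) (nat_lit 10252565963) (nat_lit 105) (nat_lit 5) (nat_lit 115) (nat_lit 5) (nat_lit 116) (nat_lit 5) (nat_lit 367) (nat_lit 355) (nat_lit 298)) (XT.nd (nat_lit 78) (nat_lit 380) (nat_lit 0) (XT.lf (nat_lit 0) (nat_lit 3282006960) (nat_lit 836) (nat_lit 4484707399) (nat_lit 76) (nat_lit 4418288369) (nat_lit 105) (nat_lit 5) (nat_lit 116) (nat_lit 5) (nat_lit 106) (nat_lit 5) (nat_lit 368) (nat_lit 355) (nat_lit 297)) (XT.lf (nat_lit 0) (nat_lit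 2187288570) (nat_lit 380) (nat_lit 2838413419) (nat_lit 456) (nat_lit 7475228473) (nat_lit 100) (nat_lit 5) (nat_lit 105) (nat_lit 5) (nat_lit 106) (nat_lit 5) (nat_lit 369) (nat_lit 355) (nat_lit 296)))) (XT.nd (nat_lit 78) (nat_lit 304) (nat_lit 0) (XT.lf (nat_lit 0) (nat_lit 6938268204) (nat_lit 456) (nat_lit 3550982261) (nat_lit 76) (nat_lit 2339341112) (nat_lit 100) (nat_lit 5) (nat_lit 106) (nat_lit 5) (nat_lit 101) (nat_lit 5) (nat_lit 370) (nat_lit 355) (nat_lit 295)) (XT.nd (nat_lit 78) (nat_lit 0) (nat_lit 0) (XT.lf (nat_lit 0) (nat_lit 3586658115) (nat_lit 304) (nat_lit 5431871311) (nat_lit 380) (nat_lit 4150523291) (nat_lit 96) (nat_lit 5) (nat_lit 100) (nat_lit 5) (nat_lit 101) (nat_lit 5) (nat_lit 371) (nat_lit 355) (nat_lit 294)) (XT.lf (nat_lit 0) (nat_lit 11173552985) (nat_lit 304) (nat_lit 59893880) (nat_lit 380) (nat_lit 2291577229) (nat_lit 96) (nat_lit 5) (nat_lit 100)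 (nat_lit 5) (nat_lit 101) (nat_lit 5) (nat_lit 372) (nat_lit 355) (nat_lit 293))))) (XT.nd (nat_lit 234) (nat_lit 532) (nat_lit 0) (XT.nd (nat_lit 78) (nat_lit 380) (nat_lit 0) (XT.lf (nat_lit 0) (nat_lit 5292419338) (nat_lit 380) (nat_lit 8408339434) (nat_lit 456) (nat_lit 190971254) (nat_lit 91) (nat_lit 5) (nat_lit 96) (nat_lit 5) (nat_lit 97) (nat_lit 5) (nat_lit 373) (nat_lit 355) (nat_lit 292)) (XT.nd (nat_lit 78) (nat_lit 304) (nat_lit 0) (XT.lf (nat_lit 0) (nat_lit 1963931430) (nat_lit 456) (nat_lit 939002386) (nat_lit 76) (nat_lit 11371594001) (nat_lit 90) (nat_lit 5) (nat_lit 96) (nat_lit 5) (nat_lit 91) (nat_lit 5) (nat_lit 374) (nat_lit 355) (nat_lit 291)) (XT.lf (nat_lit 0) (nat_lit 4354623734) (nat_lit 380) (nat_lit 7413521888) (nat_lit 76) (nat_lit 2901456130) (nat_lit 86) (nat_lit 5) (nat_lit 91) (nat_lit 5) (nat_lit 87) (nat_lit 5) (nat_lit 375) (nat_lit 355) (nat_lit 290))))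 (XT.nd (nat_lit 156) (nat_lit 228) (nat_lit 0) (XT.nd (nat_lit 78) (nat_lit 0) (nat_lit 0) (XT.lf (nat_lit 0) (nat_lit 755676495) (nat_lit 304) (nat_lit 6159075543) (nat_lit 380) (nat_lit 8167197429) (nat_lit 82) (nat_lit 5) (nat_lit 86) (nat_lit 5) (nat_lit 87) (nat_lit 5) (nat_lit 376) (nat_lit 355) (nat_lit 289)) (XT.lf (nat_lit 0) (nat_lit 9560666047) (nat_lit 304) (nat_lit 142875441) (nat_lit 380) (nat_lit 5806354772) (nat_lit 82) (nat_lit 5) (nat_lit 86) (nat_lit 5) (nat_lit 87) (nat_lit 5) (nat_lit 377) (nat_lit 355) (nat_lit 288))) (XT.nd (nat_lit 78) (nat_lit 0) (nat_lit 0) (XT.lf (nat_lit 0) (nat_lit 2810480823) (nat_lit 228) (nat_lit 9937776713) (nat_lit 304) (nat_lit 3205172242) (nat_lit 79) (nat_lit 5) (nat_lit 82) (nat_lit 5) (nat_lit 83) (nat_lit 5) (nat_lit 378) (nat_lit 355) (nat_lit 287)) (XT.lf (nat_lit 0) (nat_lit 12183040031) (nat_lit 228) (nat_lit 3842114890) (nat_lit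 304) (nat_lit 390000862) (nat_lit 79) (nat_lit 5) (nat_lit 82) (nat_lit 5) (nat_lit 83) (nat_lit 5) (nat_lit 379) (nat_lit 355) (nat_lit 286))))))) (XT.nd (nat_lit 1014) (nat_lit 1216) (nat_lit 0) (XT.nd (nat_lit 468) (nat_lit 836) (nat_lit 0) (XT.nd (nat_lit 234) (nat_lit 532) (nat_lit 0) (XT.nd (nat_lit 78) (nat_lit 228) (nat_lit 0) (XT.lf (nat_lit 0) (nat_lit 2584799401) (nat_lit 380) (nat_lit 11714120020) (nat_lit 76) (nat_lit 2594007669) (nat_lit 74) (nat_lit 5) (nat_lit 79) (nat_lit 5) (nat_lit 75) (nat_lit 5) (nat_lit 380) (nat_lit 355) (nat_lit 285)) (XT.nd (nat_lit 78) (nat_lit 228) (nat_lit 0) (XT.lf (nat_lit 0) (nat_lit 5809208498) (nat_lit 380) (nat_lit 2283509500) (nat_lit 76) (nat_lit 9295861828) (nat_lit 74) (nat_lit 5) (nat_lit 79) (nat_lit 5) (nat_lit 75) (nat_lit 5) (nat_lit 381) (nat_lit 355) (nat_lit 284)) (XT.lf (nat_lit 0) (nat_lit 7841850389) (nat_lit 228) (nat_lit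 1454603798) (nat_lit 304) (nat_lit 8607490970) (nat_lit 71) (nat_lit 5) (nat_lit 74) (nat_lit 5) (nat_lit 75) (nat_lit 5) (nat_lit 382) (nat_lit 355) (nat_lit 283)))) (XT.nd (nat_lit 78) (nat_lit 532) (nat_lit 0) (XT.lf (nat_lit 0) (nat_lit 13063116812) (nat_lit 304) (nat_lit 5367605) (nat_lit 76) (nat_lit 5371351861) (nat_lit 71) (nat_lit 5) (nat_lit 75) (nat_lit 5) (nat_lit 72) (nat_lit 5) (nat_lit 383) (nat_lit 355) (nat_lit 282)) (XT.nd (nat_lit 78) (nat_lit 304) (nat_lit 0) (XT.lf (nat_lit 0) (nat_lit 10850752307) (nat_lit 228) (nat_lit 6341223769) (nat_lit 304) (nat_lit 1801862471) (nat_lit 68) (nat_lit 5) (nat_lit 71) (nat_lit 5) (nat_lit 72) (nat_lit 5) (nat_lit 384) (nat_lit 355) (nat_lit 281)) (XT.lf (nat_lit 0) (nat_lit 1924714805) (nat_lit 304) (nat_lit 16881942841) (nat_lit 76) (nat_lit 765596275) (nat_lit 64) (nat_lit 5) (nat_lit 68) (nat_lit 5) (nat_lit 65) (nat_lit 5) (nat_lit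 385) (nat_lit 355) (nat_lit 280))))) (XT.nd (nat_lit 234) (nat_lit 608) (nat_lit 0) (XT.nd (nat_lit 78) (nat_lit 228) (nat_lit 0) (XT.lf (nat_lit 0) (nat_lit 6002361489) (nat_lit 304) (nat_lit 5987842622) (nat_lit 76) (nat_lit 8176652707) (nat_lit 64) (nat_lit 5) (nat_lit 68) (nat_lit 5) (nat_lit 65) (nat_lit 5) (nat_lit 386) (nat_lit 355) (nat_lit 279)) (XT.nd (nat_lit 78) (nat_lit 0) (nat_lit 0) (XT.lf (nat_lit 0) (nat_lit 5604157543) (nat_lit 228) (nat_lit 4749298683) (nat_lit 304) (nat_lit 10434263382) (nat_lit 61) (nat_lit 5) (nat_lit 64) (nat_lit 5) (nat_lit 65) (nat_lit 5) (nat_lit 387) (nat_lit 355) (nat_lit 278)) (XT.lf (nat_lit 0) (nat_lit 15052120404) (nat_lit 304) (nat_lit 3523632426) (nat_lit 76) (nat_lit 2857379625) (nat_lit 61) (nat_lit 5) (nat_lit 65) (nat_lit 5) (nat_lit 62) (nat_lit 5) (nat_lit 388) (nat_lit 355) (nat_lit 277)))) (XT.nd (nat_lit 156) (nat_lit 380) (nat_lit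 0) (XT.nd (nat_lit 78) (nat_lit 76) (nat_lit 0) (XT.lf (nat_lit 0) (nat_lit 8901085309) (nat_lit 152) (nat_lit 11284690986) (nat_lit 228) (nat_lit 1915044012) (nat_lit 59) (nat_lit 5) (nat_lit 61) (nat_lit 5) (nat_lit 62) (nat_lit 5) (nat_lit 389) (nat_lit 355) (nat_lit 276)) (XT.lf (nat_lit 0) (nat_lit 2729448866) (nat_lit 228) (nat_lit 799219823) (nat_lit 76) (nat_lit 19268863860) (nat_lit 58) (nat_lit 5) (nat_lit 61) (nat_lit 5) (nat_lit 59) (nat_lit 5) (nat_lit 390) (nat_lit 355) (nat_lit 275))) (XT.nd (nat_lit 78) (nat_lit 152) (nat_lit 0) (XT.lf (nat_lit 0) (nat_lit 7797845023) (nat_lit 304) (nat_lit 11026155003) (nat_lit 76) (nat_lit 4690715130) (nat_lit 55) (nat_lit 5) (nat_lit 59) (nat_lit 5) (nat_lit 56) (nat_lit 5) (nat_lit 391) (nat_lit 355) (nat_lit 274)) (XT.lf (nat_lit 0) (nat_lit 2188946596) (nat_lit 152) (nat_lit 11020905162) (nat_lit 228) (nat_lit 11053401593) (nat_lit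 53) (nat_lit 5) (nat_lit 55) (nat_lit 5) (nat_lit 56) (nat_lit 5) (nat_lit 392) (nat_lit 355) (nat_lit 273)))))) (XT.nd (nat_lit 468) (nat_lit 684) (nat_lit 0) (XT.nd (nat_lit 234) (nat_lit 304) (nat_lit 0) (XT.nd (nat_lit 78) (nat_lit 228) (nat_lit 0) (XT.lf (nat_lit 0) (nat_lit 16423560133) (nat_lit 152) (nat_lit 2640409956) (nat_lit 228) (nat_lit 5976678514) (nat_lit 53) (nat_lit 5) (nat_lit 55) (nat_lit 5) (nat_lit 56) (nat_lit 5) (nat_lit 393) (nat_lit 355) (nat_lit 272)) (XT.nd (nat_lit 78) (nat_lit 76) (nat_lit 0) (XT.lf (nat_lit 0) (nat_lit 5571657219) (nat_lit 152) (nat_lit 19807658904) (nat_lit 228) (nat_lit 469176844) (nat_lit 51) (nat_lit 5) (nat_lit 53) (nat_lit 5) (nat_lit 54) (nat_lit 5) (nat_lit 394) (nat_lit 355) (nat_lit 271)) (XT.lf (nat_lit 0) (nat_lit 5320708582) (nat_lit 228) (nat_lit 6072673057) (nat_lit 76) (nat_lit 15290350742) (nat_lit 50) (nat_lit 5) (nat_lit 53)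 (nat_lit 5) (nat_lit 51) (nat_lit 5) (nat_lit 395) (nat_lit 355) (nat_lit 270)))) (XT.nd (nat_lit 78) (nat_lit 152) (nat_lit 0) (XT.lf (nat_lit 0) (nat_lit 9102872485) (nat_lit 152) (nat_lit 2409729643) (nat_lit 228) (nat_lit 16041337702) (nat_lit 48) (nat_lit 5) (nat_lit 50) (nat_lit 5) (nat_lit 51) (nat_lit 5) (nat_lit 396) (nat_lit 355) (nat_lit 269)) (XT.nd (nat_lit 78) (nat_lit 152) (nat_lit 0) (XT.lf (nat_lit 0) (nat_lit 18214609764) (nat_lit 228) (nat_lit 3348493606) (nat_lit 76) (nat_lit 6894532784) (nat_lit 48) (nat_lit 5) (nat_lit 51) (nat_lit 5) (nat_lit 49) (nat_lit 5) (nat_lit 397) (nat_lit 355) (nat_lit 268)) (XT.lf (nat_lit 0) (nat_lit 12859708782) (nat_lit 152) (nat_lit 12619278803) (nat_lit 228) (nat_lit 3916170481) (nat_lit 46) (nat_lit 5) (nat_lit 48) (nat_lit 5) (nat_lit 49) (nat_lit 5) (nat_lit 398) (nat_lit 355) (nat_lit 267))))) (XT.nd (nat_lit 234) (nat_lit 304) (nat_lit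 0) (XT.nd (nat_lit 78) (nat_lit 304) (nat_lit 0) (XT.lf (nat_lit 0) (nat_lit 2684449677) (nat_lit 228) (nat_lit 447324049) (nat_lit 76) (nat_lit 27243422214) (nat_lit 45) (nat_lit 5) (nat_lit 48) (nat_lit 5) (nat_lit 46) (nat_lit 5) (nat_lit 399) (nat_lit 355) (nat_lit 266)) (XT.nd (nat_lit 78) (nat_lit 152) (nat_lit 0) (XT.lf (nat_lit 0) (nat_lit 9846935585) (nat_lit 228) (nat_lit 14599020079) (nat_lit 76) (nat_lit 6936901563) (nat_lit 43) (nat_lit 5) (nat_lit 46) (nat_lit 5) (nat_lit 44) (nat_lit 5) (nat_lit 400) (nat_lit 355) (nat_lit 265)) (XT.lf (nat_lit 0) (nat_lit 2457987025) (nat_lit 152) (nat_lit 14994797202) (nat_lit 228) (nat_lit 14983858934) (nat_lit 41) (nat_lit 5) (nat_lit 43) (nat_lit 5) (nat_lit 44) (nat_lit 5) (nat_lit 401) (nat_lit 355) (nat_lit 264)))) (XT.nd (nat_lit 156) (nat_lit 228) (nat_lit 0) (XT.nd (nat_lit 78) (nat_lit 76) (nat_lit 0) (XT.lf (nat_lit 0) (nat_lit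 20854241846) (nat_lit 152) (nat_lit 4820007565) (nat_lit 228) (nat_lit 7857106114) (nat_lit 41) (nat_lit 5) (nat_lit 43) (nat_lit 5) (nat_lit 44) (nat_lit 5) (nat_lit 402) (nat_lit 355) (nat_lit 263)) (XT.lf (nat_lit 0) (nat_lit 5555864469) (nat_lit 76) (nat_lit 28917735299) (nat_lit 152) (nat_lit 198866324) (nat_lit 40) (nat_lit 5) (nat_lit 41) (nat_lit 5) (nat_lit 42) (nat_lit 4) (nat_lit 403) (nat_lit 355) (nat_lit 262))) (XT.nd (nat_lit 78) (nat_lit 152) (nat_lit 0) (XT.lf (nat_lit 0) (nat_lit 7877089190) (nat_lit 152) (nat_lit 10944238498) (nat_lit 76) (nat_lit 17028895088) (nat_lit 39) (nat_lit 5) (nat_lit 41) (nat_lit 5) (nat_lit 40) (nat_lit 5) (nat_lit 404) (nat_lit 355) (nat_lit 261)) (XT.lf (nat_lit 0) (nat_lit 8382757440) (nat_lit 152) (nat_lit 8087400848) (nat_lit 228) (nat_lit 20610548797) (nat_lit 37) (nat_lit 5) (nat_lit 39) (nat_lit 5) (nat_lit 40) (nat_lit 5) (nat_lit 405)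 (nat_lit 355) (nat_lit 260))))))))
noncomputable def xc136 : XT := (XT.nd (nat_lit 1950) (nat_lit 912) (nat_lit 0) (XT.nd (nat_lit 936) (nat_lit 532) (nat_lit 0) (XT.nd (nat_lit 468) (nat_lit 456) (nat_lit 0) (XT.nd (nat_lit 234) (nat_lit 228) (nat_lit 0) (XT.nd (nat_lit 78) (nat_lit 152) (nat_lit 0) (XT.lf (nat_lit 0) (nat_lit 25720184861) (nat_lit 228) (nat_lit 9379251696) (nat_lit 76) (nat_lit 3261916466) (nat_lit 37) (nat_lit 5) (nat_lit 40) (nat_lit 5) (nat_lit 38) (nat_lit 4) (nat_lit 406) (nat_lit 355) (nat_lit 259)) (XT.nd (nat_lit 78) (nat_lit 76) (nat_lit 0) (XT.lf (nat_lit 0) (nat_lit 11110178447) (nat_lit 76) (nat_lit 24618309550) (nat_lit 152) (nat_lit 3962756992) (nat_lit 36) (nat_lit 5) (nat_lit 37) (nat_lit 5) (nat_lit 38) (nat_lit 4) (nat_lit 407) (nat_lit 355) (nat_lit 258)) (XT.lf (nat_lit 0) (nat_lit 5135978052) (nat_lit 152) (nat_lit 8231250116) (nat_lit 76) (nat_lit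 27708824586) (nat_lit 35) (nat_lit 5) (nat_lit 37) (nat_lit 5) (nat_lit 36) (nat_lit 5) (nat_lit 408) (nat_lit 355) (nat_lit 257)))) (XT.nd (nat_lit 78) (nat_lit 76) (nat_lit 0) (XT.lf (nat_lit 0) (nat_lit 13485313930) (nat_lit 152) (nat_lit 1271967440) (nat_lit 228) (nat_lit 27759533221) (nat_lit 33) (nat_lit 5) (nat_lit 35) (nat_lit 5) (nat_lit 36) (nat_lit 5) (nat_lit 409) (nat_lit 355) (nat_lit 256)) (XT.nd (nat_lit 78) (nat_lit 76) (nat_lit 0) (XT.lf (nat_lit 0) (nat_lit 25170100156) (nat_lit 228) (nat_lit 7647351695) (nat_lit 76) (nat_lit 11196642205) (nat_lit 33) (nat_lit 5) (nat_lit 36) (nat_lit 5) (nat_lit 34) (nat_lit 4) (nat_lit 410) (nat_lit 355) (nat_lit 255)) (XT.lf (nat_lit 0) (nat_lit 15256824020) (nat_lit 76) (nat_lit 21096590384) (nat_lit 152) (nat_lit 9220332314) (nat_lit 32) (nat_lit 5) (nat_lit 33) (nat_lit 5) (nat_lit 34) (nat_lit 4) (nat_lit 411) (nat_lit 355) (nat_lit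 254))))) (XT.nd (nat_lit 234) (nat_lit 228) (nat_lit 0) (XT.nd (nat_lit 78) (nat_lit 152) (nat_lit 0) (XT.lf (nat_lit 0) (nat_lit 978670791) (nat_lit 152) (nat_lit 7665810838) (nat_lit 76) (nat_lit 38560088252) (nat_lit 31) (nat_lit 5) (nat_lit 33) (nat_lit 5) (nat_lit 32) (nat_lit 5) (nat_lit 412) (nat_lit 355) (nat_lit 253)) (XT.nd (nat_lit 78) (nat_lit 0) (nat_lit 0) (XT.lf (nat_lit 0) (nat_lit 11702053931) (nat_lit 228) (nat_lit 32494478170) (nat_lit 76) (nat_lit 4696631462) (nat_lit 29) (nat_lit 5) (nat_lit 32) (nat_lit 5) (nat_lit 30) (nat_lit 4) (nat_lit 413) (nat_lit 355) (nat_lit 252)) (XT.lf (nat_lit 0) (nat_lit 23226602953) (nat_lit 228) (nat_lit 8886938264) (nat_lit 76) (nat_lit 18539397483) (nat_lit 29) (nat_lit 5) (nat_lit 32) (nat_lit 5) (nat_lit 30) (nat_lit 4) (nat_lit 414) (nat_lit 355) (nat_lit 251)))) (XT.nd (nat_lit 78) (nat_lit 152) (nat_lit 0) (XT.lf (nat_lit 0) (nat_lit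 16411046475) (nat_lit 76) (nat_lit 19164299598) (nat_lit 152) (nat_lit 16912959717) (nat_lit 28) (nat_lit 5) (nat_lit 29) (nat_lit 5) (nat_lit 30) (nat_lit 4) (nat_lit 415) (nat_lit 355) (nat_lit 250)) (XT.nd (nat_lit 78) (nat_lit 152) (nat_lit 0) (XT.lf (nat_lit 0) (nat_lit 43267521714) (nat_lit 76) (nat_lit 5416413282) (nat_lit 152) (nat_lit 5724387263) (nat_lit 28) (nat_lit 5) (nat_lit 29) (nat_lit 5) (nat_lit 30) (nat_lit 4) (nat_lit 416) (nat_lit 355) (nat_lit 249)) (XT.lf (nat_lit 0) (nat_lit 6210048764) (nat_lit 152) (nat_lit 41126456119) (nat_lit 76) (nat_lit 9064172304) (nat_lit 26) (nat_lit 5) (nat_lit 28) (nat_lit 5) (nat_lit 27) (nat_lit 4) (nat_lit 417) (nat_lit 355) (nat_lit 248)))))) (XT.nd (nat_lit 468) (nat_lit 304) (nat_lit 0) (XT.nd (nat_lit 234) (nat_lit 152) (nat_lit 0) (XT.nd (nat_lit 78) (nat_lit 76) (nat_lit 0) (XT.lf (nat_lit 0) (nat_lit 18821601053) (nat_lit 152)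 (nat_lit 15286709400) (nat_lit 76) (nat_lit 24366009975) (nat_lit 26) (nat_lit 5) (nat_lit 28) (nat_lit 5) (nat_lit 27) (nat_lit 4) (nat_lit 418) (nat_lit 355) (nat_lit 247)) (XT.nd (nat_lit 78) (nat_lit 0) (nat_lit 0) (XT.lf (nat_lit 0) (nat_lit 12222367821) (nat_lit 76) (nat_lit 20024769379) (nat_lit 152) (nat_lit 28395339518) (nat_lit 25) (nat_lit 5) (nat_lit 26) (nat_lit 5) (nat_lit 27) (nat_lit 4) (nat_lit 419) (nat_lit 355) (nat_lit 246)) (XT.lf (nat_lit 0) (nat_lit 41623993375) (nat_lit 76) (nat_lit 4971565992) (nat_lit 152) (nat_lit 16310902138) (nat_lit 25) (nat_lit 5) (nat_lit 26) (nat_lit 5) (nat_lit 27) (nat_lit 4) (nat_lit 420) (nat_lit 355) (nat_lit 245)))) (XT.nd (nat_lit 78) (nat_lit 76) (nat_lit 0) (XT.lf (nat_lit 0) (nat_lit 7262103555) (nat_lit 76) (nat_lit 54674808238) (nat_lit 76) (nat_lit 3332959366) (nat_lit 24) (nat_lit 4) (nat_lit 25) (nat_lit 5) (nat_lit 25) (nat_lit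 4) (nat_lit 421) (nat_lit 355) (nat_lit 244)) (XT.nd (nat_lit 78) (nat_lit 0) (nat_lit 0) (XT.lf (nat_lit 0) (nat_lit 10405241671) (nat_lit 152) (nat_lit 30022022254) (nat_lit 76) (nat_lit 27294111061) (nat_lit 23) (nat_lit 5) (nat_lit 25) (nat_lit 5) (nat_lit 24) (nat_lit 4) (nat_lit 422) (nat_lit 355) (nat_lit 243)) (XT.lf (nat_lit 0) (nat_lit 24711668179) (nat_lit 152) (nat_lit 704246778) (nat_lit 76) (nat_lit 44877141817) (nat_lit 23) (nat_lit 5) (nat_lit 25) (nat_lit 5) (nat_lit 24) (nat_lit 4) (nat_lit 423) (nat_lit 355) (nat_lit 242))))) (XT.nd (nat_lit 234) (nat_lit 152) (nat_lit 0) (XT.nd (nat_lit 78) (nat_lit 76) (nat_lit 0) (XT.lf (nat_lit 0) (nat_lit 31061563914) (nat_lit 76) (nat_lit 9150452740) (nat_lit 152) (nat_lit 32757376860) (nat_lit 22) (nat_lit 5) (nat_lit 23) (nat_lit 5) (nat_lit 24) (nat_lit 4) (nat_lit 424) (nat_lit 355) (nat_lit 241)) (XT.nd (nat_lit 78) (nat_lit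 76) (nat_lit 0) (XT.lf (nat_lit 0) (nat_lit 56616961067) (nat_lit 152) (nat_lit 11474863364) (nat_lit 0) (nat_lit 7681244585) (nat_lit 22) (nat_lit 5) (nat_lit 24) (nat_lit 4) (nat_lit 22) (nat_lit 4) (nat_lit 425) (nat_lit 355) (nat_lit 240)) (XT.lf (nat_lit 0) (nat_lit 20990081866) (nat_lit 76) (nat_lit 53323767042) (nat_lit 76) (nat_lit 4379495387) (nat_lit 21) (nat_lit 4) (nat_lit 22) (nat_lit 5) (nat_lit 22) (nat_lit 4) (nat_lit 426) (nat_lit 355) (nat_lit 239)))) (XT.nd (nat_lit 156) (nat_lit 0) (nat_lit 0) (XT.nd (nat_lit 78) (nat_lit 76) (nat_lit 0) (XT.lf (nat_lit 0) (nat_lit 10971033781) (nat_lit 152) (nat_lit 26461800185) (nat_lit 76) (nat_lit 44308531646) (nat_lit 20) (nat_lit 5) (nat_lit 22) (nat_lit 5) (nat_lit 21) (nat_lit 4) (nat_lit 427) (nat_lit 355) (nat_lit 238)) (XT.lf (nat_lit 0) (nat_lit 6465947986) (nat_lit 76) (nat_lit 20571187241) (nat_lit 152) (nat_lit 57896302440)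 (nat_lit 19) (nat_lit 5) (nat_lit 20) (nat_lit 5) (nat_lit 21) (nat_lit 4) (nat_lit 428) (nat_lit 355) (nat_lit 237))) (XT.nd (nat_lit 78) (nat_lit 0) (nat_lit 0) (XT.lf (nat_lit 0) (nat_lit 41948011121) (nat_lit 76) (nat_lit 2401052601) (nat_lit 152) (nat_lit 43913924171) (nat_lit 19) (nat_lit 5) (nat_lit 20) (nat_lit 5) (nat_lit 21) (nat_lit 4) (nat_lit 429) (nat_lit 355) (nat_lit 236)) (XT.lf (nat_lit 0) (nat_lit 62781542312) (nat_lit 152) (nat_lit 12825667648) (nat_lit 0) (nat_lit 16139058623) (nat_lit 19) (nat_lit 5) (nat_lit 21) (nat_lit 4) (nat_lit 19) (nat_lit 4) (nat_lit 430) (nat_lit 355) (nat_lit 235))))))) (XT.nd (nat_lit 1014) (nat_lit 380) (nat_lit 0) (XT.nd (nat_lit 468) (nat_lit 228) (nat_lit 0) (XT.nd (nat_lit 234) (nat_lit 152) (nat_lit 0) (XT.nd (nat_lit 78) (nat_lit 76) (nat_lit 0) (XT.lf (nat_lit 0) (nat_lit 23025765588) (nat_lit 76) (nat_lit 59503565842) (nat_lit 76)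 (nat_lit 12854698152) (nat_lit 18) (nat_lit 4) (nat_lit 19) (nat_lit 5) (nat_lit 19) (nat_lit 4) (nat_lit 431) (nat_lit 355) (nat_lit 234)) (XT.nd (nat_lit 78) (nat_lit 0) (nat_lit 0) (XT.lf (nat_lit 0) (nat_lit 4146467099) (nat_lit 152) (nat_lit 38154690138) (nat_lit 76) (nat_lit 56888571511) (nat_lit 17) (nat_lit 5) (nat_lit 19) (nat_lit 5) (nat_lit 18) (nat_lit 4) (nat_lit 432) (nat_lit 355) (nat_lit 233)) (XT.lf (nat_lit 0) (nat_lit 21560772272) (nat_lit 152) (nat_lit 2461155011) (nat_lit 76) (nat_lit 79153495284) (nat_lit 17) (nat_lit 5) (nat_lit 19) (nat_lit 5) (nat_lit 18) (nat_lit 4) (nat_lit 433) (nat_lit 355) (nat_lit 232)))) (XT.nd (nat_lit 78) (nat_lit 76) (nat_lit 0) (XT.lf (nat_lit 0) (nat_lit 36165547227) (nat_lit 76) (nat_lit 4240208936) (nat_lit 152) (nat_lit 66926647237) (nat_lit 16) (nat_lit 5) (nat_lit 17) (nat_lit 5) (nat_lit 18) (nat_lit 4) (nat_lit 434) (nat_lit 355)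 (nat_lit 231)) (XT.nd (nat_lit 78) (nat_lit 76) (nat_lit 0) (XT.lf (nat_lit 0) (nat_lit 60488777460) (nat_lit 152) (nat_lit 35153941843) (nat_lit 0) (nat_lit 16039725037) (nat_lit 16) (nat_lit 5) (nat_lit 18) (nat_lit 4) (nat_lit 16) (nat_lit 4) (nat_lit 435) (nat_lit 355) (nat_lit 230)) (XT.lf (nat_lit 0) (nat_lit 2666842463) (nat_lit 76) (nat_lit 79015813145) (nat_lit 76) (nat_lit 34561996882) (nat_lit 15) (nat_lit 4) (nat_lit 16) (nat_lit 5) (nat_lit 16) (nat_lit 4) (nat_lit 436) (nat_lit 355) (nat_lit 229))))) (XT.nd (nat_lit 234) (nat_lit 76) (nat_lit 0) (XT.nd (nat_lit 78) (nat_lit 152) (nat_lit 0) (XT.lf (nat_lit 0) (nat_lit 43590650762) (nat_lit 76) (nat_lit 60936562348) (nat_lit 76) (nat_lit 16478209094) (nat_lit 15) (nat_lit 4) (nat_lit 16) (nat_lit 5) (nat_lit 16) (nat_lit 4) (nat_lit 437) (nat_lit 355) (nat_lit 228)) (XT.nd (nat_lit 78) (nat_lit 76) (nat_lit 0) (XT.lf (nat_lit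 0) (nat_lit 2425215526) (nat_lit 152) (nat_lit 39490982368) (nat_lit 76) (nat_lit 84086284890) (nat_lit 14) (nat_lit 5) (nat_lit 16) (nat_lit 5) (nat_lit 15) (nat_lit 4) (nat_lit 438) (nat_lit 355) (nat_lit 227)) (XT.lf (nat_lit 0) (nat_lit 52723419) (nat_lit 76) (nat_lit 21664112093) (nat_lit 152) (nat_lit 109519214523) (nat_lit 13) (nat_lit 5) (nat_lit 14) (nat_lit 5) (nat_lit 15) (nat_lit 4) (nat_lit 439) (nat_lit 355) (nat_lit 226)))) (XT.nd (nat_lit 156) (nat_lit 76) (nat_lit 0) (XT.nd (nat_lit 78) (nat_lit 0) (nat_lit 0) (XT.lf (nat_lit 0) (nat_lit 42642552924) (nat_lit 152) (nat_lit 93765770147) (nat_lit 0) (nat_lit 289497110) (nat_lit 13) (nat_lit 5) (nat_lit 15) (nat_lit 4) (nat_lit 13) (nat_lit 4) (nat_lit 440) (nat_lit 355) (nat_lit 225)) (XT.lf (nat_lit 0) (nat_lit 64965886262) (nat_lit 152) (nat_lit 54839950810) (nat_lit 0) (nat_lit 22609275597) (nat_lit 13) (nat_lit 5) (nat_lit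 15) (nat_lit 4) (nat_lit 13) (nat_lit 4) (nat_lit 441) (nat_lit 355) (nat_lit 224))) (XT.nd (nat_lit 78) (nat_lit 76) (nat_lit 0) (XT.lf (nat_lit 0) (nat_lit 88401748816) (nat_lit 152) (nat_lit 13974950578) (nat_lit 0) (nat_lit 46041752579) (nat_lit 13) (nat_lit 5) (nat_lit 15) (nat_lit 4) (nat_lit 13) (nat_lit 4) (nat_lit 442) (nat_lit 355) (nat_lit 223)) (XT.lf (nat_lit 0) (nat_lit 29882969823) (nat_lit 76) (nat_lit 83589527343) (nat_lit 76) (nat_lit 41226306751) (nat_lit 12) (nat_lit 4) (nat_lit 13) (nat_lit 5) (nat_lit 13) (nat_lit 4) (nat_lit 443) (nat_lit 355) (nat_lit 222)))))) (XT.nd (nat_lit 468) (nat_lit 228) (nat_lit 0) (XT.nd (nat_lit 234) (nat_lit 0) (nat_lit 0) (XT.nd (nat_lit 78) (nat_lit 152) (nat_lit 0) (XT.lf (nat_lit 0) (nat_lit 76412302694) (nat_lit 76) (nat_lit 63617749499) (nat_lit 76) (nat_lit 21251458093) (nat_lit 12) (nat_lit 4) (nat_lit 13) (nat_lit 5) (nat_lit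 13) (nat_lit 4) (nat_lit 444) (nat_lit 355) (nat_lit 221)) (XT.nd (nat_lit 78) (nat_lit 152) (nat_lit 0) (XT.lf (nat_lit 0) (nat_lit 125261757179) (nat_lit 76) (nat_lit 42650486561) (nat_lit 76) (nat_lit 281270571) (nat_lit 12) (nat_lit 4) (nat_lit 13) (nat_lit 5) (nat_lit 13) (nat_lit 4) (nat_lit 445) (nat_lit 355) (nat_lit 220)) (XT.lf (nat_lit 0) (nat_lit 782067877) (nat_lit 76) (nat_lit 20268697579) (nat_lit 152) (nat_lit 154382930600) (nat_lit 10) (nat_lit 5) (nat_lit 11) (nat_lit 5) (nat_lit 12) (nat_lit 4) (nat_lit 446) (nat_lit 355) (nat_lit 219)))) (XT.nd (nat_lit 78) (nat_lit 0) (nat_lit 0) (XT.lf (nat_lit 0) (nat_lit 44226274371) (nat_lit 152) (nat_lit 134900604983) (nat_lit 0) (nat_lit 3869461044) (nat_lit 10) (nat_lit 5) (nat_lit 12) (nat_lit 4) (nat_lit 10) (nat_lit 4) (nat_lit 447) (nat_lit 355) (nat_lit 218)) (XT.nd (nat_lit 78) (nat_lit 0) (nat_lit 0) (XT.lf (nat_lit 0)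 (nat_lit 68889852420) (nat_lit 152) (nat_lit 93500167049) (nat_lit 0) (nat_lit 28530633030) (nat_lit 10) (nat_lit 5) (nat_lit 12) (nat_lit 4) (nat_lit 10) (nat_lit 4) (nat_lit 448) (nat_lit 355) (nat_lit 217)) (XT.lf (nat_lit 0) (nat_lit 94783771237) (nat_lit 152) (nat_lit 50035290734) (nat_lit 0) (nat_lit 54422260359) (nat_lit 10) (nat_lit 5) (nat_lit 12) (nat_lit 4) (nat_lit 10) (nat_lit 4) (nat_lit 449) (nat_lit 355) (nat_lit 216))))) (XT.nd (nat_lit 234) (nat_lit 152) (nat_lit 0) (XT.nd (nat_lit 78) (nat_lit 76) (nat_lit 0) (XT.lf (nat_lit 0) (nat_lit 121969683010) (nat_lit 152) (nat_lit 4402488237) (nat_lit 0) (nat_lit 81605989761) (nat_lit 10) (nat_lit 5) (nat_lit 12) (nat_lit 4) (nat_lit 10) (nat_lit 4) (nat_lit 450) (nat_lit 355) (nat_lit 215)) (XT.nd (nat_lit 78) (nat_lit 0) (nat_lit 0) (XT.lf (nat_lit 0) (nat_lit 44945424236) (nat_lit 76) (nat_lit 106268615896) (nat_lit 76) (nat_lit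 65902844199) (nat_lit 9) (nat_lit 4) (nat_lit 10) (nat_lit 5) (nat_lit 10) (nat_lit 4) (nat_lit 451) (nat_lit 355) (nat_lit 214)) (XT.lf (nat_lit 0) (nat_lit 96908594054) (nat_lit 76) (nat_lit 85084049841) (nat_lit 76) (nat_lit 44716298671) (nat_lit 9) (nat_lit 4) (nat_lit 10) (nat_lit 5) (nat_lit 10) (nat_lit 4) (nat_lit 452) (nat_lit 355) (nat_lit 213)))) (XT.nd (nat_lit 156) (nat_lit 76) (nat_lit 0) (XT.nd (nat_lit 78) (nat_lit 76) (nat_lit 0) (XT.lf (nat_lit 0) (nat_lit 151465176908) (nat_lit 76) (nat_lit 62842591910) (nat_lit 76) (nat_lit 22472955526) (nat_lit 9) (nat_lit 4) (nat_lit 10) (nat_lit 5) (nat_lit 10) (nat_lit 4) (nat_lit 453) (nat_lit 355) (nat_lit 212)) (XT.lf (nat_lit 0) (nat_lit 851975419) (nat_lit 152) (nat_lit 38624882216) (nat_lit 76) (nat_lit 207878665386) (nat_lit 8) (nat_lit 5) (nat_lit 10) (nat_lit 5) (nat_lit 9) (nat_lit 4) (nat_lit 454) (nat_lit 355) (nat_lit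 211))) (XT.nd (nat_lit 78) (nat_lit 0) (nat_lit 0) (XT.lf (nat_lit 0) (nat_lit 10359084703) (nat_lit 76) (nat_lit 14388342844) (nat_lit 152) (nat_lit 233685238117) (nat_lit 7) (nat_lit 5) (nat_lit 8) (nat_lit 5) (nat_lit 9) (nat_lit 4) (nat_lit 455) (nat_lit 355) (nat_lit 210)) (XT.lf (nat_lit 0) (nat_lit 50686935888) (nat_lit 152) (nat_lit 207099491809) (nat_lit 0) (nat_lit 12234773710) (nat_lit 7) (nat_lit 5) (nat_lit 9) (nat_lit 4) (nat_lit 7) (nat_lit 4) (nat_lit 456) (nat_lit 355) (nat_lit 209))))))))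
noncomputable def xc137 : XT := (XT.nd (nat_lit 45552) (nat_lit 0) (nat_lit 4864) (XT.nd (nat_lit 936) (nat_lit 0) (nat_lit 0) (XT.nd (nat_lit 468) (nat_lit 152) (nat_lit 0) (XT.nd (nat_lit 234) (nat_lit 76) (nat_lit 0) (XT.nd (nat_lit 78) (nat_lit 0) (nat_lit 0) (XT.lf (nat_lit 0) (nat_lit 78157183932) (nat_lit 152) (nat_lit 164316747290) (nat_lit 0) (nat_lit 39703544639) (nat_lit 7) (nat_lit 5) (nat_lit 9) (nat_lit 4) (nat_lit 7) (nat_lit 4) (nat_lit 457) (nat_lit 355) (nat_lit 208)) (XT.nd (nat_lit 78) (nat_lit 0) (nat_lit 0) (XT.lf (nat_lit 0) (nat_lit 106998934676) (nat_lit 152) (nat_lit 119398841374) (nat_lit 0) (nat_lit 68543888608) (nat_lit 7) (nat_lit 5) (nat_lit 9) (nat_lit 4) (nat_lit 7) (nat_lit 4) (nat_lit 458) (nat_lit 355) (nat_lit 207)) (XT.lf (nat_lit 0) (nat_lit 137280858955) (nat_lit 152) (nat_lit 72238826665) (nat_lit 0) (nat_lit 98824473101) (nat_lit 7) (nat_lit 5) (nat_lit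 9) (nat_lit 4) (nat_lit 7) (nat_lit 4) (nat_lit 459) (nat_lit 355) (nat_lit 206)))) (XT.nd (nat_lit 78) (nat_lit 76) (nat_lit 0) (XT.lf (nat_lit 0) (nat_lit 169075056589) (nat_lit 152) (nat_lit 22724417414) (nat_lit 0) (nat_lit 130617394749) (nat_lit 7) (nat_lit 5) (nat_lit 9) (nat_lit 4) (nat_lit 7) (nat_lit 4) (nat_lit 460) (nat_lit 355) (nat_lit 205)) (XT.nd (nat_lit 78) (nat_lit 0) (nat_lit 0) (XT.lf (nat_lit 0) (nat_lit 30229820886) (nat_lit 76) (nat_lit 172699379386) (nat_lit 76) (nat_lit 134240502320) (nat_lit 6) (nat_lit 4) (nat_lit 7) (nat_lit 5) (nat_lit 7) (nat_lit 4) (nat_lit 461) (nat_lit 355) (nat_lit 204)) (XT.lf (nat_lit 0) (nat_lit 86617332487) (nat_lit 76) (nat_lit 152241861513) (nat_lit 76) (nat_lit 113781827090) (nat_lit 6) (nat_lit 4) (nat_lit 7) (nat_lit 5) (nat_lit 7) (nat_lit 4) (nat_lit 462) (nat_lit 355) (nat_lit 203))))) (XT.nd (nat_lit 234) (nat_lit 152) (nat_lit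 0) (XT.nd (nat_lit 78) (nat_lit 0) (nat_lit 0) (XT.lf (nat_lit 0) (nat_lit 145821001501) (nat_lit 76) (nat_lit 130763061014) (nat_lit 76) (nat_lit 92301924346) (nat_lit 6) (nat_lit 4) (nat_lit 7) (nat_lit 5) (nat_lit 7) (nat_lit 4) (nat_lit 463) (nat_lit 355) (nat_lit 202)) (XT.nd (nat_lit 78) (nat_lit 0) (nat_lit 0) (XT.lf (nat_lit 0) (nat_lit 207981789045) (nat_lit 76) (nat_lit 108211837889) (nat_lit 76) (nat_lit 69749651464) (nat_lit 6) (nat_lit 4) (nat_lit 7) (nat_lit 5) (nat_lit 7) (nat_lit 4) (nat_lit 464) (nat_lit 355) (nat_lit 201)) (XT.lf (nat_lit 0) (nat_lit 273247696994) (nat_lit 76) (nat_lit 84534498749) (nat_lit 76) (nat_lit 46071312554) (nat_lit 6) (nat_lit 4) (nat_lit 7) (nat_lit 5) (nat_lit 7) (nat_lit 4) (nat_lit 465) (nat_lit 355) (nat_lit 200)))) (XT.nd (nat_lit 78) (nat_lit 152) (nat_lit 0) (XT.lf (nat_lit 0) (nat_lit 341774120367) (nat_lit 76) (nat_lit 59674668976) (nat_lit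 76) (nat_lit 21210530621) (nat_lit 6) (nat_lit 4) (nat_lit 7) (nat_lit 5) (nat_lit 7) (nat_lit 4) (nat_lit 466) (nat_lit 355) (nat_lit 199)) (XT.nd (nat_lit 78) (nat_lit 76) (nat_lit 0) (XT.lf (nat_lit 0) (nat_lit 4735315750) (nat_lit 152) (nat_lit 28757647887) (nat_lit 76) (nat_lit 408908706702) (nat_lit 5) (nat_lit 5) (nat_lit 7) (nat_lit 5) (nat_lit 6) (nat_lit 4) (nat_lit 467) (nat_lit 355) (nat_lit 198)) (XT.lf (nat_lit 0) (nat_lit 26473314810) (nat_lit 76) (nat_lit 5204355249) (nat_lit 152) (nat_lit 431415481142) (nat_lit 4) (nat_lit 5) (nat_lit 5) (nat_lit 5) (nat_lit 6) (nat_lit 4) (nat_lit 468) (nat_lit 355) (nat_lit 197)))))) (XT.nd (nat_lit 468) (nat_lit 0) (nat_lit 0) (XT.nd (nat_lit 234) (nat_lit 0) (nat_lit 0) (XT.nd (nat_lit 78) (nat_lit 0) (nat_lit 0) (XT.lf (nat_lit 0) (nat_lit 60843352484) (nat_lit 152) (nat_lit 399723672909) (nat_lit 0) (nat_lit 24208370269) (nat_lit 4)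 (nat_lit 5) (nat_lit 6) (nat_lit 4) (nat_lit 4) (nat_lit 4) (nat_lit 469) (nat_lit 355) (nat_lit 196)) (XT.nd (nat_lit 78) (nat_lit 0) (nat_lit 0) (XT.lf (nat_lit 0) (nat_lit 91551406420) (nat_lit 152) (nat_lit 361070463464) (nat_lit 0) (nat_lit 54915678162) (nat_lit 4) (nat_lit 5) (nat_lit 6) (nat_lit 4) (nat_lit 4) (nat_lit 4) (nat_lit 470) (nat_lit 355) (nat_lit 195)) (XT.lf (nat_lit 0) (nat_lit 123793691713) (nat_lit 152) (nat_lit 320486922033) (nat_lit 0) (nat_lit 87157252938) (nat_lit 4) (nat_lit 5) (nat_lit 6) (nat_lit 4) (nat_lit 4) (nat_lit 4) (nat_lit 471) (nat_lit 355) (nat_lit 194)))) (XT.nd (nat_lit 78) (nat_lit 0) (nat_lit 0) (XT.lf (nat_lit 0) (nat_lit 157646975709) (nat_lit 152) (nat_lit 277876421138) (nat_lit 0) (nat_lit 121009860251) (nat_lit 4) (nat_lit 5) (nat_lit 6) (nat_lit 4) (nat_lit 4) (nat_lit 4) (nat_lit 472) (nat_lit 355) (nat_lit 193)) (XT.nd (nat_lit 78) (nat_lit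 0) (nat_lit 0) (XT.lf (nat_lit 0) (nat_lit 193191861463) (nat_lit 152) (nat_lit 233137507205) (nat_lit 0) (nat_lit 156554101545) (nat_lit 4) (nat_lit 5) (nat_lit 6) (nat_lit 4) (nat_lit 4) (nat_lit 4) (nat_lit 473) (nat_lit 355) (nat_lit 192)) (XT.lf (nat_lit 0) (nat_lit 230512979658) (nat_lit 152) (nat_lit 186163659010) (nat_lit 0) (nat_lit 193874605969) (nat_lit 4) (nat_lit 5) (nat_lit 6) (nat_lit 4) (nat_lit 4) (nat_lit 4) (nat_lit 474) (nat_lit 355) (nat_lit 191))))) (XT.nd (nat_lit 43836) (nat_lit 0) (nat_lit 8892) (XT.nd (nat_lit 78) (nat_lit 0) (nat_lit 0) (XT.lf (nat_lit 0) (nat_lit 269699190097) (nat_lit 152) (nat_lit 136843034057) (nat_lit 0) (nat_lit 233060231864) (nat_lit 4) (nat_lit 5) (nat_lit 6) (nat_lit 4) (nat_lit 4) (nat_lit 4) (nat_lit 475) (nat_lit 355) (nat_lit 190)) (XT.nd (nat_lit 78) (nat_lit 0) (nat_lit 0) (XT.lf (nat_lit 0) (nat_lit 310843793283) (nat_lit 152) (nat_lit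 85058202288) (nat_lit 0) (nat_lit 274204278341) (nat_lit 4) (nat_lit 5) (nat_lit 6) (nat_lit 4) (nat_lit 4) (nat_lit 4) (nat_lit 476) (nat_lit 355) (nat_lit 189)) (XT.lf (nat_lit 0) (nat_lit 354044752555) (nat_lit 152) (nat_lit 30685866483) (nat_lit 0) (nat_lit 317404707415) (nat_lit 4) (nat_lit 5) (nat_lit 6) (nat_lit 4) (nat_lit 4) (nat_lit 4) (nat_lit 477) (nat_lit 355) (nat_lit 188)))) (XT.nd (nat_lit 156) (nat_lit 0) (nat_lit 0) (XT.nd (nat_lit 78) (nat_lit 0) (nat_lit 0) (XT.lf (nat_lit 0) (nat_lit 9801353) (nat_lit 0) (nat_lit 9801353) (nat_lit 684) (nat_lit 4699919362) (nat_lit 121) (nat_lit 5) (nat_lit 121) (nat_lit 3) (nat_lit 130) (nat_lit 3) (nat_lit 356) (nat_lit 356) (nat_lit 308)) (XT.lf (nat_lit 0) (nat_lit 894926789) (nat_lit 684) (nat_lit 4913839708) (nat_lit 760) (nat_lit 3822918586) (nat_lit 121) (nat_lit 5) (nat_lit 130) (nat_lit 3) (nat_lit 131) (nat_lit 5) (nat_lit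 357) (nat_lit 356) (nat_lit 307))) (XT.nd (nat_lit 78) (nat_lit 0) (nat_lit 76) (XT.lf (nat_lit 0) (nat_lit 1743384789) (nat_lit 684) (nat_lit 211635756) (nat_lit 760) (nat_lit 7881478286) (nat_lit 121) (nat_lit 5) (nat_lit 130) (nat_lit 3) (nat_lit 131) (nat_lit 5) (nat_lit 358) (nat_lit 356) (nat_lit 306)) (XT.lf (nat_lit 0) (nat_lit 2696301066) (nat_lit 684) (nat_lit 5230390096) (nat_lit 760) (nat_lit 2121796800) (nat_lit 122) (nat_lit 5) (nat_lit 131) (nat_lit 5) (nat_lit 132) (nat_lit 5) (nat_lit 359) (nat_lit 356) (nat_lit 305))))))) (XT.nd (nat_lit 1014) (nat_lit 2128) (nat_lit 0) (XT.nd (nat_lit 468) (nat_lit 1976) (nat_lit 0) (XT.nd (nat_lit 234) (nat_lit 0) (nat_lit 76) (XT.nd (nat_lit 78) (nat_lit 0) (nat_lit 76) (XT.lf (nat_lit 0) (nat_lit 3686757893) (nat_lit 684) (nat_lit 225555346) (nat_lit 760) (nat_lit 6359303299) (nat_lit 122) (nat_lit 5) (nat_lit 131) (nat_lit 5) (nat_lit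 132) (nat_lit 5) (nat_lit 360) (nat_lit 356) (nat_lit 304)) (XT.nd (nat_lit 78) (nat_lit 0) (nat_lit 0) (XT.lf (nat_lit 0) (nat_lit 4770089613) (nat_lit 684) (nat_lit 5343302577) (nat_lit 760) (nat_lit 390374823) (nat_lit 123) (nat_lit 5) (nat_lit 132) (nat_lit 5) (nat_lit 133) (nat_lit 5) (nat_lit 361) (nat_lit 356) (nat_lit 303)) (XT.lf (nat_lit 0) (nat_lit 5933867268) (nat_lit 684) (nat_lit 17650050) (nat_lit 760) (nat_lit 4794725224) (nat_lit 123) (nat_lit 5) (nat_lit 132) (nat_lit 5) (nat_lit 133) (nat_lit 5) (nat_lit 362) (nat_lit 356) (nat_lit 302)))) (XT.nd (nat_lit 78) (nat_lit 0) (nat_lit 76) (XT.lf (nat_lit 76) (nat_lit 5729342599) (nat_lit 0) (nat_lit 1476190450) (nat_lit 760) (nat_lit 3792853834) (nat_lit 124) (nat_lit 5) (nat_lit 123) (nat_lit 5) (nat_lit 133) (nat_lit 5) (nat_lit 363) (nat_lit 356) (nat_lit 301)) (XT.nd (nat_lit 78) (nat_lit 0) (nat_lit 0) (XT.lf (nat_lit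 76) (nat_lit 434800361) (nat_lit 0) (nat_lit 8125261575) (nat_lit 760) (nat_lit 2702141083) (nat_lit 125) (nat_lit 5) (nat_lit 124) (nat_lit 5) (nat_lit 134) (nat_lit 5) (nat_lit 364) (nat_lit 356) (nat_lit 300)) (XT.lf (nat_lit 76) (nat_lit 6552283218) (nat_lit 0) (nat_lit 3506301839) (nat_lit 760) (nat_lit 1476838725) (nat_lit 125) (nat_lit 5) (nat_lit 124) (nat_lit 5) (nat_lit 134) (nat_lit 5) (nat_lit 365) (nat_lit 356) (nat_lit 299))))) (XT.nd (nat_lit 234) (nat_lit 684) (nat_lit 0) (XT.nd (nat_lit 78) (nat_lit 836) (nat_lit 0) (XT.lf (nat_lit 0) (nat_lit 1138842313) (nat_lit 684) (nat_lit 10497034094) (nat_lit 760) (nat_lit 186262986) (nat_lit 116) (nat_lit 5) (nat_lit 125) (nat_lit 5) (nat_lit 126) (nat_lit 5) (nat_lit 366) (nat_lit 356) (nat_lit 298)) (XT.nd (nat_lit 78) (nat_lit 760) (nat_lit 0) (XT.lf (nat_lit 0) (nat_lit 1240396938) (nat_lit 760) (nat_lit 4486795109) (nat_lit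 76) (nat_lit 6389661516) (nat_lit 115) (nat_lit 5) (nat_lit 125) (nat_lit 5) (nat_lit 116) (nat_lit 5) (nat_lit 367) (nat_lit 356) (nat_lit 297)) (XT.lf (nat_lit 0) (nat_lit 2053007613) (nat_lit 760) (nat_lit 678518552) (nat_lit 836) (nat_lit 9694677188) (nat_lit 105) (nat_lit 5) (nat_lit 115) (nat_lit 5) (nat_lit 116) (nat_lit 5) (nat_lit 368) (nat_lit 356) (nat_lit 296)))) (XT.nd (nat_lit 156) (nat_lit 304) (nat_lit 0) (XT.nd (nat_lit 78) (nat_lit 380) (nat_lit 0) (XT.lf (nat_lit 0) (nat_lit 4415109129) (nat_lit 836) (nat_lit 3775419172) (nat_lit 76) (nat_lit 4554618786) (nat_lit 105) (nat_lit 5) (nat_lit 116) (nat_lit 5) (nat_lit 106) (nat_lit 5) (nat_lit 369) (nat_lit 356) (nat_lit 295)) (XT.lf (nat_lit 0) (nat_lit 3215119763) (nat_lit 380) (nat_lit 2999066042) (nat_lit 456) (nat_lit 6864306779) (nat_lit 100) (nat_lit 5) (nat_lit 105) (nat_lit 5) (nat_lit 106) (nat_lit 5) (nat_lit 370)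 (nat_lit 356) (nat_lit 294))) (XT.nd (nat_lit 78) (nat_lit 304) (nat_lit 0) (XT.lf (nat_lit 0) (nat_lit 8177473289) (nat_lit 456) (nat_lit 2808299352) (nat_lit 76) (nat_lit 2439039203) (nat_lit 100) (nat_lit 5) (nat_lit 106) (nat_lit 5) (nat_lit 101) (nat_lit 5) (nat_lit 371) (nat_lit 356) (nat_lit 293)) (XT.lf (nat_lit 0) (nat_lit 4671380591) (nat_lit 304) (nat_lit 5662012571) (nat_lit 380) (nat_lit 3450348921) (nat_lit 96) (nat_lit 5) (nat_lit 100) (nat_lit 5) (nat_lit 101) (nat_lit 5) (nat_lit 372) (nat_lit 356) (nat_lit 292)))))) (XT.nd (nat_lit 468) (nat_lit 1064) (nat_lit 0) (XT.nd (nat_lit 234) (nat_lit 608) (nat_lit 0) (XT.nd (nat_lit 78) (nat_lit 456) (nat_lit 0) (XT.lf (nat_lit 0) (nat_lit 12594506415) (nat_lit 304) (nat_lit 23410187) (nat_lit 380) (nat_lit 1541679392) (nat_lit 96) (nat_lit 5) (nat_lit 100) (nat_lit 5) (nat_lit 101) (nat_lit 5) (nat_lit 373) (nat_lit 356) (nat_lit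 291)) (XT.nd (nat_lit 78) (nat_lit 0) (nat_lit 0) (XT.lf (nat_lit 0) (nat_lit 617558402) (nat_lit 456) (nat_lit 8110050368) (nat_lit 76) (nat_lit 5817791990) (nat_lit 90) (nat_lit 5) (nat_lit 96) (nat_lit 5) (nat_lit 91) (nat_lit 5) (nat_lit 374) (nat_lit 356) (nat_lit 290)) (XT.lf (nat_lit 0) (nat_lit 2835137843) (nat_lit 456) (nat_lit 113480907) (nat_lit 76) (nat_lit 12000518981) (nat_lit 90) (nat_lit 5) (nat_lit 96) (nat_lit 5) (nat_lit 91) (nat_lit 5) (nat_lit 375) (nat_lit 356) (nat_lit 289)))) (XT.nd (nat_lit 78) (nat_lit 304) (nat_lit 0) (XT.lf (nat_lit 0) (nat_lit 5323655426) (nat_lit 380) (nat_lit 6889573254) (nat_lit 76) (nat_lit 3151844339) (nat_lit 86) (nat_lit 5) (nat_lit 91) (nat_lit 5) (nat_lit 87) (nat_lit 5) (nat_lit 376) (nat_lit 356) (nat_lit 288)) (XT.nd (nat_lit 78) (nat_lit 0) (nat_lit 0) (XT.lf (nat_lit 0) (nat_lit 1673655617) (nat_lit 304) (nat_lit 6316100629) (nat_lit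 380) (nat_lit 7809404701) (nat_lit 82) (nat_lit 5) (nat_lit 86) (nat_lit 5) (nat_lit 87) (nat_lit 5) (nat_lit 377) (nat_lit 356) (nat_lit 287)) (XT.lf (nat_lit 0) (nat_lit 10876980584) (nat_lit 304) (nat_lit 6277603) (nat_lit 380) (nat_lit 5367003369) (nat_lit 82) (nat_lit 5) (nat_lit 86) (nat_lit 5) (nat_lit 87) (nat_lit 5) (nat_lit 378) (nat_lit 356) (nat_lit 286))))) (XT.nd (nat_lit 234) (nat_lit 456) (nat_lit 0) (XT.nd (nat_lit 78) (nat_lit 380) (nat_lit 0) (XT.lf (nat_lit 0) (nat_lit 3808120333) (nat_lit 228) (nat_lit 10254535706) (nat_lit 304) (nat_lit 2654212580) (nat_lit 79) (nat_lit 5) (nat_lit 82) (nat_lit 5) (nat_lit 83) (nat_lit 5) (nat_lit 379) (nat_lit 356) (nat_lit 285)) (XT.nd (nat_lit 78) (nat_lit 304) (nat_lit 0) (XT.lf (nat_lit 0) (nat_lit 259276964) (nat_lit 304) (nat_lit 3599000459) (nat_lit 76) (nat_lit 13344824534) (nat_lit 78) (nat_lit 5) (nat_lit 82) (nat_lit 5)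 (nat_lit 79) (nat_lit 5) (nat_lit 380) (nat_lit 356) (nat_lit 284)) (XT.lf (nat_lit 0) (nat_lit 3354292835) (nat_lit 380) (nat_lit 11445749410) (nat_lit 76) (nat_lit 2905187360) (nat_lit 74) (nat_lit 5) (nat_lit 79) (nat_lit 5) (nat_lit 75) (nat_lit 5) (nat_lit 381) (nat_lit 356) (nat_lit 283)))) (XT.nd (nat_lit 156) (nat_lit 228) (nat_lit 0) (XT.nd (nat_lit 78) (nat_lit 228) (nat_lit 0) (XT.lf (nat_lit 0) (nat_lit 6709434127) (nat_lit 380) (nat_lit 1584278678) (nat_lit 76) (nat_lit 9933492355) (nat_lit 74) (nat_lit 5) (nat_lit 79) (nat_lit 5) (nat_lit 75) (nat_lit 5) (nat_lit 382) (nat_lit 356) (nat_lit 282)) (XT.lf (nat_lit 0) (nat_lit 9034229749) (nat_lit 228) (nat_lit 1320270634) (nat_lit 304) (nat_lit 8414680481) (nat_lit 71) (nat_lit 5) (nat_lit 74) (nat_lit 5) (nat_lit 75) (nat_lit 5) (nat_lit 383) (nat_lit 356) (nat_lit 281))) (XT.nd (nat_lit 78) (nat_lit 0) (nat_lit 0) (XT.lf (nat_lit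 0) (nat_lit 807854255) (nat_lit 228) (nat_lit 13489084909) (nat_lit 304) (nat_lit 5035569528) (nat_lit 68) (nat_lit 5) (nat_lit 71) (nat_lit 5) (nat_lit 72) (nat_lit 5) (nat_lit 384) (nat_lit 356) (nat_lit 280)) (XT.lf (nat_lit 0) (nat_lit 12168220011) (nat_lit 228) (nat_lit 6436457169) (nat_lit 304) (nat_lit 1310925728) (nat_lit 68) (nat_lit 5) (nat_lit 71) (nat_lit 5) (nat_lit 72) (nat_lit 5) (nat_lit 385) (nat_lit 356) (nat_lit 279))))))))
noncomputable def xc138 : XT := (XT.nd (nat_lit 1950) (nat_lit 1292) (nat_lit 0) (XT.nd (nat_lit 936) (nat_lit 1140) (nat_lit 0) (XT.nd (nat_lit 468) (nat_lit 760) (nat_lit 0) (XT.nd (nat_lit 234) (nat_lit 228) (nat_lit 0) (XT.nd (nat_lit 78) (nat_lit 228) (nat_lit 0) (XT.lf (nat_lit 0) (nat_lit 2572434580) (nat_lit 304) (nat_lit 16921057464) (nat_lit 76) (nat_lit 1029553250) (nat_lit 64) (nat_lit 5) (nat_lit 68) (nat_lit 5) (nat_lit 65) (nat_lit 5)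 (nat_lit 386) (nat_lit 356) (nat_lit 278)) (XT.nd (nat_lit 78) (nat_lit 228) (nat_lit 0) (XT.lf (nat_lit 0) (nat_lit 6827702454) (nat_lit 304) (nat_lit 5520584735) (nat_lit 76) (nat_lit 8800415972) (nat_lit 64) (nat_lit 5) (nat_lit 68) (nat_lit 5) (nat_lit 65) (nat_lit 5) (nat_lit 387) (nat_lit 356) (nat_lit 277)) (XT.lf (nat_lit 0) (nat_lit 6638650116) (nat_lit 228) (nat_lit 4744467696) (nat_lit 304) (nat_lit 10418164191) (nat_lit 61) (nat_lit 5) (nat_lit 64) (nat_lit 5) (nat_lit 65) (nat_lit 5) (nat_lit 388) (nat_lit 356) (nat_lit 276)))) (XT.nd (nat_lit 78) (nat_lit 228) (nat_lit 0) (XT.lf (nat_lit 0) (nat_lit 16295937561) (nat_lit 304) (nat_lit 2960456559) (nat_lit 76) (nat_lit 3223620928) (nat_lit 61) (nat_lit 5) (nat_lit 65) (nat_lit 5) (nat_lit 62) (nat_lit 5) (nat_lit 389) (nat_lit 356) (nat_lit 275)) (XT.nd (nat_lit 78) (nat_lit 76) (nat_lit 0) (XT.lf (nat_lit 0) (nat_lit 10073571942)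 (nat_lit 152) (nat_lit 11600670556) (nat_lit 228) (nat_lit 1507456648) (nat_lit 59) (nat_lit 5) (nat_lit 61) (nat_lit 5) (nat_lit 62) (nat_lit 5) (nat_lit 390) (nat_lit 356) (nat_lit 274)) (XT.lf (nat_lit 0) (nat_lit 3329949457) (nat_lit 228) (nat_lit 130860811) (nat_lit 76) (nat_lit 20453213095) (nat_lit 58) (nat_lit 5) (nat_lit 61) (nat_lit 5) (nat_lit 59) (nat_lit 5) (nat_lit 391) (nat_lit 356) (nat_lit 273))))) (XT.nd (nat_lit 234) (nat_lit 380) (nat_lit 0) (XT.nd (nat_lit 78) (nat_lit 152) (nat_lit 0) (XT.lf (nat_lit 0) (nat_lit 8644360161) (nat_lit 304) (nat_lit 10861561865) (nat_lit 76) (nat_lit 5161522119) (nat_lit 55) (nat_lit 5) (nat_lit 59) (nat_lit 5) (nat_lit 56) (nat_lit 5) (nat_lit 392) (nat_lit 356) (nat_lit 272)) (XT.nd (nat_lit 78) (nat_lit 0) (nat_lit 0) (XT.lf (nat_lit 0) (nat_lit 3002748026) (nat_lit 152) (nat_lit 11313472202) (nat_lit 228) (nat_lit 11137734736) (nat_lit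 53) (nat_lit 5) (nat_lit 55) (nat_lit 5) (nat_lit 56) (nat_lit 5) (nat_lit 393) (nat_lit 356) (nat_lit 271)) (XT.lf (nat_lit 0) (nat_lit 17915551568) (nat_lit 152) (nat_lit 2526260722) (nat_lit 228) (nat_lit 5829477261) (nat_lit 53) (nat_lit 5) (nat_lit 55) (nat_lit 5) (nat_lit 56) (nat_lit 5) (nat_lit 394) (nat_lit 356) (nat_lit 270)))) (XT.nd (nat_lit 78) (nat_lit 228) (nat_lit 0) (XT.lf (nat_lit 0) (nat_lit 6527498986) (nat_lit 152) (nat_lit 20539439802) (nat_lit 228) (nat_lit 52894274) (nat_lit 51) (nat_lit 5) (nat_lit 53) (nat_lit 5) (nat_lit 54) (nat_lit 5) (nat_lit 395) (nat_lit 356) (nat_lit 269)) (XT.nd (nat_lit 78) (nat_lit 152) (nat_lit 0) (XT.lf (nat_lit 0) (nat_lit 5992141097) (nat_lit 228) (nat_lit 5717756364) (nat_lit 76) (nat_lit 16287614078) (nat_lit 50) (nat_lit 5) (nat_lit 53) (nat_lit 5) (nat_lit 51) (nat_lit 5) (nat_lit 396) (nat_lit 356) (nat_lit 268)) (XT.lf (nat_lit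 0) (nat_lit 10205944675) (nat_lit 152) (nat_lit 2278496003) (nat_lit 228) (nat_lit 16427254667) (nat_lit 48) (nat_lit 5) (nat_lit 50) (nat_lit 5) (nat_lit 51) (nat_lit 5) (nat_lit 397) (nat_lit 356) (nat_lit 267)))))) (XT.nd (nat_lit 468) (nat_lit 608) (nat_lit 0) (XT.nd (nat_lit 234) (nat_lit 152) (nat_lit 0) (XT.nd (nat_lit 78) (nat_lit 380) (nat_lit 0) (XT.lf (nat_lit 0) (nat_lit 19506424539) (nat_lit 228) (nat_lit 2883594491) (nat_lit 76) (nat_lit 7471319905) (nat_lit 48) (nat_lit 5) (nat_lit 51) (nat_lit 5) (nat_lit 49) (nat_lit 5) (nat_lit 398) (nat_lit 356) (nat_lit 266)) (XT.nd (nat_lit 78) (nat_lit 228) (nat_lit 0) (XT.lf (nat_lit 0) (nat_lit 14124819246) (nat_lit 152) (nat_lit 13000768249) (nat_lit 228) (nat_lit 3720577078) (nat_lit 46) (nat_lit 5) (nat_lit 48) (nat_lit 5) (nat_lit 49) (nat_lit 5) (nat_lit 399) (nat_lit 356) (nat_lit 265)) (XT.lf (nat_lit 0) (nat_lit 139307053)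 (nat_lit 152) (nat_lit 3042373054) (nat_lit 228) (nat_lit 28694017416) (nat_lit 43) (nat_lit 5) (nat_lit 45) (nat_lit 5) (nat_lit 46) (nat_lit 5) (nat_lit 400) (nat_lit 356) (nat_lit 264)))) (XT.nd (nat_lit 78) (nat_lit 152) (nat_lit 0) (XT.lf (nat_lit 0) (nat_lit 10695995097) (nat_lit 228) (nat_lit 14720209549) (nat_lit 76) (nat_lit 7517857121) (nat_lit 43) (nat_lit 5) (nat_lit 46) (nat_lit 5) (nat_lit 44) (nat_lit 5) (nat_lit 401) (nat_lit 356) (nat_lit 263)) (XT.nd (nat_lit 78) (nat_lit 0) (nat_lit 0) (XT.lf (nat_lit 0) (nat_lit 3179829176) (nat_lit 152) (nat_lit 15494671851) (nat_lit 228) (nat_lit 15366422620) (nat_lit 41) (nat_lit 5) (nat_lit 43) (nat_lit 5) (nat_lit 44) (nat_lit 5) (nat_lit 402) (nat_lit 356) (nat_lit 262)) (XT.lf (nat_lit 0) (nat_lit 22467375652) (nat_lit 152) (nat_lit 4823041075) (nat_lit 228) (nat_lit 7900790695) (nat_lit 41) (nat_lit 5) (nat_lit 43) (nat_lit 5)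 (nat_lit 44) (nat_lit 5) (nat_lit 403) (nat_lit 356) (nat_lit 261))))) (XT.nd (nat_lit 234) (nat_lit 304) (nat_lit 0) (XT.nd (nat_lit 78) (nat_lit 152) (nat_lit 0) (XT.lf (nat_lit 0) (nat_lit 132478921) (nat_lit 152) (nat_lit 29984011331) (nat_lit 76) (nat_lit 6272947403) (nat_lit 39) (nat_lit 5) (nat_lit 41) (nat_lit 5) (nat_lit 40) (nat_lit 5) (nat_lit 404) (nat_lit 356) (nat_lit 260)) (XT.nd (nat_lit 78) (nat_lit 152) (nat_lit 0) (XT.lf (nat_lit 0) (nat_lit 8589615412) (nat_lit 152) (nat_lit 10934154928) (nat_lit 76) (nat_lit 18102949531) (nat_lit 39) (nat_lit 5) (nat_lit 41) (nat_lit 5) (nat_lit 40) (nat_lit 5) (nat_lit 405) (nat_lit 356) (nat_lit 259)) (XT.lf (nat_lit 0) (nat_lit 9350202169) (nat_lit 152) (nat_lit 8255521555) (nat_lit 228) (nat_lit 21313339213) (nat_lit 37) (nat_lit 5) (nat_lit 39) (nat_lit 5) (nat_lit 40) (nat_lit 5) (nat_lit 406) (nat_lit 356) (nat_lit 258)))) (XT.nd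 (nat_lit 156) (nat_lit 228) (nat_lit 0) (XT.nd (nat_lit 78) (nat_lit 76) (nat_lit 0) (XT.lf (nat_lit 0) (nat_lit 27306904615) (nat_lit 228) (nat_lit 9314597286) (nat_lit 76) (nat_lit 3642810272) (nat_lit 37) (nat_lit 5) (nat_lit 40) (nat_lit 5) (nat_lit 38) (nat_lit 4) (nat_lit 407) (nat_lit 356) (nat_lit 257)) (XT.lf (nat_lit 0) (nat_lit 12190697638) (nat_lit 76) (nat_lit 25618802604) (nat_lit 152) (nat_lit 3851508104) (nat_lit 36) (nat_lit 5) (nat_lit 37) (nat_lit 5) (nat_lit 38) (nat_lit 4) (nat_lit 408) (nat_lit 356) (nat_lit 256))) (XT.nd (nat_lit 78) (nat_lit 152) (nat_lit 0) (XT.lf (nat_lit 0) (nat_lit 5678000221) (nat_lit 152) (nat_lit 8133309034) (nat_lit 76) (nat_lit 29304221935) (nat_lit 35) (nat_lit 5) (nat_lit 37) (nat_lit 5) (nat_lit 36) (nat_lit 5) (nat_lit 409) (nat_lit 356) (nat_lit 255)) (XT.lf (nat_lit 0) (nat_lit 14660865415) (nat_lit 152) (nat_lit 1113747706) (nat_lit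 228) (nat_lit 28854008779) (nat_lit 33) (nat_lit 5) (nat_lit 35) (nat_lit 5) (nat_lit 36) (nat_lit 5) (nat_lit 410) (nat_lit 356) (nat_lit 254))))))) (XT.nd (nat_lit 1014) (nat_lit 532) (nat_lit 0) (XT.nd (nat_lit 468) (nat_lit 380) (nat_lit 0) (XT.nd (nat_lit 234) (nat_lit 228) (nat_lit 0) (XT.nd (nat_lit 78) (nat_lit 152) (nat_lit 0) (XT.lf (nat_lit 0) (nat_lit 26698063149) (nat_lit 228) (nat_lit 7542237368) (nat_lit 76) (nat_lit 11960968164) (nat_lit 33) (nat_lit 5) (nat_lit 36) (nat_lit 5) (nat_lit 34) (nat_lit 4) (nat_lit 411) (nat_lit 356) (nat_lit 253)) (XT.nd (nat_lit 78) (nat_lit 76) (nat_lit 0) (XT.lf (nat_lit 0) (nat_lit 16499284522) (nat_lit 76) (nat_lit 21935915457) (nat_lit 152) (nat_lit 9403973877) (nat_lit 32) (nat_lit 5) (nat_lit 33) (nat_lit 5) (nat_lit 34) (nat_lit 4) (nat_lit 412) (nat_lit 356) (nat_lit 252)) (XT.lf (nat_lit 0) (nat_lit 1283316062) (nat_lit 152) (nat_lit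 7583816716) (nat_lit 76) (nat_lit 40684830617) (nat_lit 31) (nat_lit 5) (nat_lit 33) (nat_lit 5) (nat_lit 32) (nat_lit 5) (nat_lit 413) (nat_lit 356) (nat_lit 251)))) (XT.nd (nat_lit 78) (nat_lit 76) (nat_lit 0) (XT.lf (nat_lit 0) (nat_lit 12541072218) (nat_lit 228) (nat_lit 33652074233) (nat_lit 76) (nat_lit 5131932470) (nat_lit 29) (nat_lit 5) (nat_lit 32) (nat_lit 5) (nat_lit 30) (nat_lit 4) (nat_lit 414) (nat_lit 356) (nat_lit 250)) (XT.nd (nat_lit 78) (nat_lit 76) (nat_lit 0) (XT.lf (nat_lit 0) (nat_lit 24629757473) (nat_lit 228) (nat_lit 8886401515) (nat_lit 76) (nat_lit 19657290628) (nat_lit 29) (nat_lit 5) (nat_lit 32) (nat_lit 5) (nat_lit 30) (nat_lit 4) (nat_lit 415) (nat_lit 356) (nat_lit 249)) (XT.lf (nat_lit 0) (nat_lit 17669306918) (nat_lit 76) (nat_lit 19921949234) (nat_lit 152) (nat_lit 17509565120) (nat_lit 28) (nat_lit 5) (nat_lit 29) (nat_lit 5) (nat_lit 30) (nat_lit 4)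 (nat_lit 416) (nat_lit 356) (nat_lit 248))))) (XT.nd (nat_lit 234) (nat_lit 228) (nat_lit 0) (XT.nd (nat_lit 78) (nat_lit 152) (nat_lit 0) (XT.lf (nat_lit 0) (nat_lit 45847762675) (nat_lit 76) (nat_lit 5496219334) (nat_lit 152) (nat_lit 5773423214) (nat_lit 28) (nat_lit 5) (nat_lit 29) (nat_lit 5) (nat_lit 30) (nat_lit 4) (nat_lit 417) (nat_lit 356) (nat_lit 247)) (XT.nd (nat_lit 78) (nat_lit 0) (nat_lit 0) (XT.lf (nat_lit 0) (nat_lit 6748735940) (nat_lit 152) (nat_lit 42756839816) (nat_lit 76) (nat_lit 9703689196) (nat_lit 26) (nat_lit 5) (nat_lit 28) (nat_lit 5) (nat_lit 27) (nat_lit 4) (nat_lit 418) (nat_lit 356) (nat_lit 246)) (XT.lf (nat_lit 0) (nat_lit 19979999904) (nat_lit 152) (nat_lit 15645388577) (nat_lit 76) (nat_lit 25761746927) (nat_lit 26) (nat_lit 5) (nat_lit 28) (nat_lit 5) (nat_lit 27) (nat_lit 4) (nat_lit 419) (nat_lit 356) (nat_lit 245)))) (XT.nd (nat_lit 156) (nat_lit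 152) (nat_lit 0) (XT.nd (nat_lit 78) (nat_lit 0) (nat_lit 0) (XT.lf (nat_lit 0) (nat_lit 13232599662) (nat_lit 76) (nat_lit 20840095961) (nat_lit 152) (nat_lit 29591211422) (nat_lit 25) (nat_lit 5) (nat_lit 26) (nat_lit 5) (nat_lit 27) (nat_lit 4) (nat_lit 420) (nat_lit 356) (nat_lit 244)) (XT.lf (nat_lit 0) (nat_lit 44085301091) (nat_lit 76) (nat_lit 5043085351) (nat_lit 152) (nat_lit 16913213843) (nat_lit 25) (nat_lit 5) (nat_lit 26) (nat_lit 5) (nat_lit 27) (nat_lit 4) (nat_lit 421) (nat_lit 356) (nat_lit 243))) (XT.nd (nat_lit 78) (nat_lit 76) (nat_lit 0) (XT.lf (nat_lit 0) (nat_lit 8006486237) (nat_lit 76) (nat_lit 57229236806) (nat_lit 76) (nat_lit 3287513067) (nat_lit 24) (nat_lit 4) (nat_lit 25) (nat_lit 5) (nat_lit 25) (nat_lit 4) (nat_lit 422) (nat_lit 356) (nat_lit 242)) (XT.lf (nat_lit 0) (nat_lit 11121033208) (nat_lit 152) (nat_lit 31153509343) (nat_lit 76) (nat_lit 28823097208)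 (nat_lit 23) (nat_lit 5) (nat_lit 25) (nat_lit 5) (nat_lit 24) (nat_lit 4) (nat_lit 423) (nat_lit 356) (nat_lit 241)))))) (XT.nd (nat_lit 468) (nat_lit 228) (nat_lit 0) (XT.nd (nat_lit 234) (nat_lit 228) (nat_lit 0) (XT.nd (nat_lit 78) (nat_lit 76) (nat_lit 0) (XT.lf (nat_lit 0) (nat_lit 26133470116) (nat_lit 152) (nat_lit 387445761) (nat_lit 76) (nat_lit 47277456616) (nat_lit 23) (nat_lit 5) (nat_lit 25) (nat_lit 5) (nat_lit 24) (nat_lit 4) (nat_lit 424) (nat_lit 356) (nat_lit 240)) (XT.nd (nat_lit 78) (nat_lit 0) (nat_lit 0) (XT.lf (nat_lit 0) (nat_lit 32960977831) (nat_lit 76) (nat_lit 9444397905) (nat_lit 152) (nat_lit 34203324594) (nat_lit 22) (nat_lit 5) (nat_lit 23) (nat_lit 5) (nat_lit 24) (nat_lit 4) (nat_lit 425) (nat_lit 356) (nat_lit 239)) (XT.lf (nat_lit 0) (nat_lit 59624296885) (nat_lit 152) (nat_lit 11712468744) (nat_lit 0) (nat_lit 8216108691) (nat_lit 22) (nat_lit 5) (nat_lit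 24) (nat_lit 4) (nat_lit 22) (nat_lit 4) (nat_lit 426) (nat_lit 356) (nat_lit 238)))) (XT.nd (nat_lit 78) (nat_lit 152) (nat_lit 0) (XT.lf (nat_lit 0) (nat_lit 22370302170) (nat_lit 76) (nat_lit 55832486175) (nat_lit 76) (nat_lit 4416538188) (nat_lit 21) (nat_lit 4) (nat_lit 22) (nat_lit 5) (nat_lit 22) (nat_lit 4) (nat_lit 427) (nat_lit 356) (nat_lit 237)) (XT.nd (nat_lit 78) (nat_lit 76) (nat_lit 0) (XT.lf (nat_lit 0) (nat_lit 11687308337) (nat_lit 152) (nat_lit 27464356175) (nat_lit 76) (nat_lit 46668362714) (nat_lit 20) (nat_lit 5) (nat_lit 22) (nat_lit 5) (nat_lit 21) (nat_lit 4) (nat_lit 428) (nat_lit 356) (nat_lit 236)) (XT.lf (nat_lit 0) (nat_lit 7104609501) (nat_lit 76) (nat_lit 21449042269) (nat_lit 152) (nat_lit 60618205245) (nat_lit 19) (nat_lit 5) (nat_lit 20) (nat_lit 5) (nat_lit 21) (nat_lit 4) (nat_lit 429) (nat_lit 356) (nat_lit 235))))) (XT.nd (nat_lit 234) (nat_lit 152)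 (nat_lit 0) (XT.nd (nat_lit 78) (nat_lit 76) (nat_lit 0) (XT.lf (nat_lit 0) (nat_lit 44345758454) (nat_lit 76) (nat_lit 2377577294) (nat_lit 152) (nat_lit 45944941983) (nat_lit 19) (nat_lit 5) (nat_lit 20) (nat_lit 5) (nat_lit 21) (nat_lit 4) (nat_lit 430) (nat_lit 356) (nat_lit 234)) (XT.nd (nat_lit 78) (nat_lit 76) (nat_lit 0) (XT.lf (nat_lit 0) (nat_lit 66072104868) (nat_lit 152) (nat_lit 13175555353) (nat_lit 0) (nat_lit 17078329790) (nat_lit 19) (nat_lit 5) (nat_lit 21) (nat_lit 4) (nat_lit 19) (nat_lit 4) (nat_lit 431) (nat_lit 356) (nat_lit 233)) (XT.lf (nat_lit 0) (nat_lit 24463749615) (nat_lit 76) (nat_lit 62340796359) (nat_lit 76) (nat_lit 13341230804) (nat_lit 18) (nat_lit 4) (nat_lit 19) (nat_lit 5) (nat_lit 19) (nat_lit 4) (nat_lit 432) (nat_lit 356) (nat_lit 232)))) (XT.nd (nat_lit 156) (nat_lit 76) (nat_lit 0) (XT.nd (nat_lit 78) (nat_lit 0) (nat_lit 0) (XT.lf (nat_lit 0)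 (nat_lit 4497793128) (nat_lit 152) (nat_lit 39784604383) (nat_lit 76) (nat_lit 59859602226) (nat_lit 17) (nat_lit 5) (nat_lit 19) (nat_lit 5) (nat_lit 18) (nat_lit 4) (nat_lit 433) (nat_lit 356) (nat_lit 231)) (XT.lf (nat_lit 0) (nat_lit 22775956289) (nat_lit 152) (nat_lit 2319622035) (nat_lit 76) (nat_lit 83231743514) (nat_lit 17) (nat_lit 5) (nat_lit 19) (nat_lit 5) (nat_lit 18) (nat_lit 4) (nat_lit 434) (nat_lit 356) (nat_lit 230))) (XT.nd (nat_lit 78) (nat_lit 0) (nat_lit 0) (XT.lf (nat_lit 0) (nat_lit 38234147722) (nat_lit 76) (nat_lit 4326575294) (nat_lit 152) (nat_lit 70131552711) (nat_lit 16) (nat_lit 5) (nat_lit 17) (nat_lit 5) (nat_lit 18) (nat_lit 4) (nat_lit 435) (nat_lit 356) (nat_lit 229)) (XT.lf (nat_lit 0) (nat_lit 63643350333) (nat_lit 152) (nat_lit 36659153868) (nat_lit 0) (nat_lit 16957542426) (nat_lit 16) (nat_lit 5) (nat_lit 18) (nat_lit 4) (nat_lit 16) (nat_lit 4) (nat_lit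 436) (nat_lit 356) (nat_lit 228))))))))
noncomputable def xc139 : XT := (XT.nd (nat_lit 1950) (nat_lit 228) (nat_lit 0) (XT.nd (nat_lit 936) (nat_lit 228) (nat_lit 0) (XT.nd (nat_lit 468) (nat_lit 228) (nat_lit 0) (XT.nd (nat_lit 234) (nat_lit 76) (nat_lit 0) (XT.nd (nat_lit 78) (nat_lit 76) (nat_lit 0) (XT.lf (nat_lit 0) (nat_lit 3048597314) (nat_lit 76) (nat_lit 82846006636) (nat_lit 76) (nat_lit 36155877786) (nat_lit 15) (nat_lit 4) (nat_lit 16) (nat_lit 5) (nat_lit 16) (nat_lit 4) (nat_lit 437) (nat_lit 356) (nat_lit 227)) (XT.nd (nat_lit 78) (nat_lit 76) (nat_lit 0) (XT.lf (nat_lit 0) (nat_lit 46006766850) (nat_lit 76) (nat_lit 63868536022) (nat_lit 76) (nat_lit 17174291987) (nat_lit 15) (nat_lit 4) (nat_lit 16) (nat_lit 5) (nat_lit 16) (nat_lit 4) (nat_lit 438) (nat_lit 356) (nat_lit 226)) (XT.lf (nat_lit 0) (nat_lit 2664320380) (nat_lit 152) (nat_lit 41236306478) (nat_lit 76) (nat_lit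 88396076977) (nat_lit 14) (nat_lit 5) (nat_lit 16) (nat_lit 5) (nat_lit 15) (nat_lit 4) (nat_lit 439) (nat_lit 356) (nat_lit 225)))) (XT.nd (nat_lit 78) (nat_lit 0) (nat_lit 0) (XT.lf (nat_lit 0) (nat_lit 280887421) (nat_lit 76) (nat_lit 22637543443) (nat_lit 152) (nat_lit 114873623628) (nat_lit 13) (nat_lit 5) (nat_lit 14) (nat_lit 5) (nat_lit 15) (nat_lit 4) (nat_lit 440) (nat_lit 356) (nat_lit 224)) (XT.nd (nat_lit 78) (nat_lit 0) (nat_lit 0) (XT.lf (nat_lit 0) (nat_lit 44886554342) (nat_lit 152) (nat_lit 98235380567) (nat_lit 0) (nat_lit 405172720) (nat_lit 13) (nat_lit 5) (nat_lit 15) (nat_lit 4) (nat_lit 13) (nat_lit 4) (nat_lit 441) (nat_lit 356) (nat_lit 223)) (XT.lf (nat_lit 0) (nat_lit 68320727024) (nat_lit 152) (nat_lit 57373683505) (nat_lit 0) (nat_lit 23836121048) (nat_lit 13) (nat_lit 5) (nat_lit 15) (nat_lit 4) (nat_lit 13) (nat_lit 4) (nat_lit 442) (nat_lit 356) (nat_lit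 222))))) (XT.nd (nat_lit 234) (nat_lit 152) (nat_lit 0) (XT.nd (nat_lit 78) (nat_lit 76) (nat_lit 0) (XT.lf (nat_lit 0) (nat_lit 92923309066) (nat_lit 152) (nat_lit 14475350636) (nat_lit 0) (nat_lit 48435632276) (nat_lit 13) (nat_lit 5) (nat_lit 15) (nat_lit 4) (nat_lit 13) (nat_lit 4) (nat_lit 443) (nat_lit 356) (nat_lit 221)) (XT.nd (nat_lit 78) (nat_lit 0) (nat_lit 0) (XT.lf (nat_lit 0) (nat_lit 31572266633) (nat_lit 76) (nat_lit 87673542973) (nat_lit 76) (nat_lit 43182941599) (nat_lit 12) (nat_lit 4) (nat_lit 13) (nat_lit 5) (nat_lit 13) (nat_lit 4) (nat_lit 444) (nat_lit 356) (nat_lit 220)) (XT.lf (nat_lit 0) (nat_lit 80418773370) (nat_lit 76) (nat_lit 66707721987) (nat_lit 76) (nat_lit 22214335293) (nat_lit 12) (nat_lit 4) (nat_lit 13) (nat_lit 5) (nat_lit 13) (nat_lit 4) (nat_lit 445) (nat_lit 356) (nat_lit 219)))) (XT.nd (nat_lit 78) (nat_lit 152) (nat_lit 0) (XT.lf (nat_lit 0) (nat_lit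 131701850316) (nat_lit 76) (nat_lit 44696425187) (nat_lit 76) (nat_lit 200385810) (nat_lit 12) (nat_lit 4) (nat_lit 13) (nat_lit 5) (nat_lit 13) (nat_lit 4) (nat_lit 446) (nat_lit 356) (nat_lit 218)) (XT.nd (nat_lit 78) (nat_lit 0) (nat_lit 0) (XT.lf (nat_lit 0) (nat_lit 998318796) (nat_lit 76) (nat_lit 21195283418) (nat_lit 152) (nat_lit 162007256705) (nat_lit 10) (nat_lit 5) (nat_lit 11) (nat_lit 5) (nat_lit 12) (nat_lit 4) (nat_lit 447) (nat_lit 356) (nat_lit 217)) (XT.lf (nat_lit 0) (nat_lit 46524878034) (nat_lit 152) (nat_lit 141473908081) (nat_lit 0) (nat_lit 4143000123) (nat_lit 10) (nat_lit 5) (nat_lit 12) (nat_lit 4) (nat_lit 10) (nat_lit 4) (nat_lit 448) (nat_lit 356) (nat_lit 216)))))) (XT.nd (nat_lit 468) (nat_lit 152) (nat_lit 0) (XT.nd (nat_lit 234) (nat_lit 76) (nat_lit 0) (XT.nd (nat_lit 78) (nat_lit 0) (nat_lit 0) (XT.lf (nat_lit 0) (nat_lit 72417478322) (nat_lit 152) (nat_lit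 98011625734) (nat_lit 0) (nat_lit 30033418041) (nat_lit 10) (nat_lit 5) (nat_lit 12) (nat_lit 4) (nat_lit 10) (nat_lit 4) (nat_lit 449) (nat_lit 356) (nat_lit 215)) (XT.nd (nat_lit 78) (nat_lit 0) (nat_lit 0) (XT.lf (nat_lit 0) (nat_lit 99602134352) (nat_lit 152) (nat_lit 52381293682) (nat_lit 0) (nat_lit 57215995623) (nat_lit 10) (nat_lit 5) (nat_lit 12) (nat_lit 4) (nat_lit 10) (nat_lit 4) (nat_lit 450) (nat_lit 356) (nat_lit 214)) (XT.lf (nat_lit 0) (nat_lit 128143571497) (nat_lit 152) (nat_lit 4474268279) (nat_lit 0) (nat_lit 85755453294) (nat_lit 10) (nat_lit 5) (nat_lit 12) (nat_lit 4) (nat_lit 10) (nat_lit 4) (nat_lit 451) (nat_lit 356) (nat_lit 213)))) (XT.nd (nat_lit 78) (nat_lit 0) (nat_lit 0) (XT.lf (nat_lit 0) (nat_lit 47338647166) (nat_lit 76) (nat_lit 111510187341) (nat_lit 76) (nat_lit 69120183924) (nat_lit 9) (nat_lit 4) (nat_lit 10) (nat_lit 5) (nat_lit 10) (nat_lit 4) (nat_lit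 452) (nat_lit 356) (nat_lit 212)) (XT.nd (nat_lit 78) (nat_lit 0) (nat_lit 0) (XT.lf (nat_lit 0) (nat_lit 101893025394) (nat_lit 76) (nat_lit 89269814858) (nat_lit 76) (nat_lit 46878016000) (nat_lit 9) (nat_lit 4) (nat_lit 10) (nat_lit 5) (nat_lit 10) (nat_lit 4) (nat_lit 453) (nat_lit 356) (nat_lit 211)) (XT.lf (nat_lit 0) (nat_lit 159170818264) (nat_lit 76) (nat_lit 65919542958) (nat_lit 76) (nat_lit 23526034156) (nat_lit 9) (nat_lit 4) (nat_lit 10) (nat_lit 5) (nat_lit 10) (nat_lit 4) (nat_lit 454) (nat_lit 356) (nat_lit 210))))) (XT.nd (nat_lit 234) (nat_lit 0) (nat_lit 0) (XT.nd (nat_lit 78) (nat_lit 76) (nat_lit 0) (XT.lf (nat_lit 0) (nat_lit 959631803) (nat_lit 152) (nat_lit 40427892123) (nat_lit 76) (nat_lit 218332517842) (nat_lit 8) (nat_lit 5) (nat_lit 10) (nat_lit 5) (nat_lit 9) (nat_lit 4) (nat_lit 455) (nat_lit 356) (nat_lit 209)) (XT.nd (nat_lit 78) (nat_lit 0) (nat_lit 0)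 (XT.lf (nat_lit 0) (nat_lit 11003204848) (nat_lit 76) (nat_lit 15045523511) (nat_lit 152) (nat_lit 245302369809) (nat_lit 7) (nat_lit 5) (nat_lit 8) (nat_lit 5) (nat_lit 9) (nat_lit 4) (nat_lit 456) (nat_lit 356) (nat_lit 208)) (XT.lf (nat_lit 0) (nat_lit 53283093274) (nat_lit 152) (nat_lit 217332185444) (nat_lit 0) (nat_lit 12903888127) (nat_lit 7) (nat_lit 5) (nat_lit 9) (nat_lit 4) (nat_lit 7) (nat_lit 4) (nat_lit 457) (nat_lit 356) (nat_lit 207)))) (XT.nd (nat_lit 156) (nat_lit 0) (nat_lit 0) (XT.nd (nat_lit 78) (nat_lit 0) (nat_lit 0) (XT.lf (nat_lit 0) (nat_lit 82123910358) (nat_lit 152) (nat_lit 172416126603) (nat_lit 0) (nat_lit 41743365426) (nat_lit 7) (nat_lit 5) (nat_lit 9) (nat_lit 4) (nat_lit 7) (nat_lit 4) (nat_lit 458) (nat_lit 356) (nat_lit 206)) (XT.lf (nat_lit 0) (nat_lit 112404945438) (nat_lit 152) (nat_lit 125257871012) (nat_lit 0) (nat_lit 72023124519) (nat_lit 7) (nat_lit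 5) (nat_lit 9) (nat_lit 4) (nat_lit 7) (nat_lit 4) (nat_lit 459) (nat_lit 356) (nat_lit 205))) (XT.nd (nat_lit 78) (nat_lit 0) (nat_lit 0) (XT.lf (nat_lit 0) (nat_lit 144198296216) (nat_lit 152) (nat_lit 75745137112) (nat_lit 0) (nat_lit 103815260071) (nat_lit 7) (nat_lit 5) (nat_lit 9) (nat_lit 4) (nat_lit 7) (nat_lit 4) (nat_lit 460) (nat_lit 356) (nat_lit 204)) (XT.lf (nat_lit 0) (nat_lit 177579661145) (nat_lit 152) (nat_lit 23760037441) (nat_lit 0) (nat_lit 137195467643) (nat_lit 7) (nat_lit 5) (nat_lit 9) (nat_lit 4) (nat_lit 7) (nat_lit 4) (nat_lit 461) (nat_lit 356) (nat_lit 203))))))) (XT.nd (nat_lit 1014) (nat_lit 0) (nat_lit 0) (XT.nd (nat_lit 468) (nat_lit 152) (nat_lit 0) (XT.nd (nat_lit 234) (nat_lit 0) (nat_lit 0) (XT.nd (nat_lit 78) (nat_lit 0) (nat_lit 0) (XT.lf (nat_lit 0) (nat_lit 31840290181) (nat_lit 76) (nat_lit 181285345648) (nat_lit 76) (nat_lit 140900049901) (nat_lit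 6) (nat_lit 4) (nat_lit 7) (nat_lit 5) (nat_lit 7) (nat_lit 4) (nat_lit 462) (nat_lit 356) (nat_lit 202)) (XT.nd (nat_lit 78) (nat_lit 0) (nat_lit 0) (XT.lf (nat_lit 0) (nat_lit 91042464111) (nat_lit 76) (nat_lit 159807285344) (nat_lit 76) (nat_lit 119420939840) (nat_lit 6) (nat_lit 4) (nat_lit 7) (nat_lit 5) (nat_lit 7) (nat_lit 4) (nat_lit 463) (nat_lit 356) (nat_lit 201)) (XT.lf (nat_lit 0) (nat_lit 153201827767) (nat_lit 76) (nat_lit 137256767166) (nat_lit 76) (nat_lit 96869421893) (nat_lit 6) (nat_lit 4) (nat_lit 7) (nat_lit 5) (nat_lit 7) (nat_lit 4) (nat_lit 464) (nat_lit 356) (nat_lit 200)))) (XT.nd (nat_lit 78) (nat_lit 0) (nat_lit 0) (XT.lf (nat_lit 0) (nat_lit 218466379631) (nat_lit 76) (nat_lit 113580099403) (nat_lit 76) (nat_lit 73191801969) (nat_lit 6) (nat_lit 4) (nat_lit 7) (nat_lit 5) (nat_lit 7) (nat_lit 4) (nat_lit 465) (nat_lit 356) (nat_lit 199)) (XT.nd (nat_lit 78)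 (nat_lit 0) (nat_lit 0) (XT.lf (nat_lit 0) (nat_lit 286991511495) (nat_lit 76) (nat_lit 88720909038) (nat_lit 76) (nat_lit 48331704784) (nat_lit 6) (nat_lit 4) (nat_lit 7) (nat_lit 5) (nat_lit 7) (nat_lit 4) (nat_lit 466) (nat_lit 356) (nat_lit 198)) (XT.lf (nat_lit 0) (nat_lit 358940378435) (nat_lit 76) (nat_lit 62620007522) (nat_lit 76) (nat_lit 22229939630) (nat_lit 6) (nat_lit 4) (nat_lit 7) (nat_lit 5) (nat_lit 7) (nat_lit 4) (nat_lit 467) (nat_lit 356) (nat_lit 197))))) (XT.nd (nat_lit 234) (nat_lit 0) (nat_lit 0) (XT.nd (nat_lit 78) (nat_lit 76) (nat_lit 0) (XT.lf (nat_lit 0) (nat_lit 5009987732) (nat_lit 152) (nat_lit 30120415553) (nat_lit 76) (nat_lit 429389452977) (nat_lit 5) (nat_lit 5) (nat_lit 7) (nat_lit 5) (nat_lit 6) (nat_lit 4) (nat_lit 468) (nat_lit 356) (nat_lit 196)) (XT.nd (nat_lit 78) (nat_lit 0) (nat_lit 0) (XT.lf (nat_lit 0) (nat_lit 27870883751) (nat_lit 76) (nat_lit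 5427924785) (nat_lit 152) (nat_lit 452947135301) (nat_lit 4) (nat_lit 5) (nat_lit 5) (nat_lit 5) (nat_lit 6) (nat_lit 4) (nat_lit 469) (nat_lit 356) (nat_lit 195)) (XT.lf (nat_lit 0) (nat_lit 63921545970) (nat_lit 152) (nat_lit 419638241371) (nat_lit 0) (nat_lit 25452574739) (nat_lit 4) (nat_lit 5) (nat_lit 6) (nat_lit 4) (nat_lit 4) (nat_lit 4) (nat_lit 470) (nat_lit 356) (nat_lit 194)))) (XT.nd (nat_lit 156) (nat_lit 0) (nat_lit 0) (XT.nd (nat_lit 78) (nat_lit 0) (nat_lit 0) (XT.lf (nat_lit 0) (nat_lit 96163287086) (nat_lit 152) (nat_lit 379055781700) (nat_lit 0) (nat_lit 57693639172) (nat_lit 4) (nat_lit 5) (nat_lit 6) (nat_lit 4) (nat_lit 4) (nat_lit 4) (nat_lit 471) (nat_lit 356) (nat_lit 193)) (XT.lf (nat_lit 0) (nat_lit 130016052818) (nat_lit 152) (nat_lit 336446311052) (nat_lit 0) (nat_lit 91545760444) (nat_lit 4) (nat_lit 5) (nat_lit 6) (nat_lit 4) (nat_lit 4) (nat_lit 4) (nat_lit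 472) (nat_lit 356) (nat_lit 192))) (XT.nd (nat_lit 78) (nat_lit 0) (nat_lit 0) (XT.lf (nat_lit 0) (nat_lit 165560444988) (nat_lit 152) (nat_lit 291708378306) (nat_lit 0) (nat_lit 127089538843) (nat_lit 4) (nat_lit 5) (nat_lit 6) (nat_lit 4) (nat_lit 4) (nat_lit 4) (nat_lit 473) (nat_lit 356) (nat_lit 191)) (XT.lf (nat_lit 0) (nat_lit 202881093102) (nat_lit 152) (nat_lit 244735464576) (nat_lit 0) (nat_lit 164409602413) (nat_lit 4) (nat_lit 5) (nat_lit 6) (nat_lit 4) (nat_lit 4) (nat_lit 4) (nat_lit 474) (nat_lit 356) (nat_lit 190)))))) (XT.nd (nat_lit 44148) (nat_lit 0) (nat_lit 8968) (XT.nd (nat_lit 43914) (nat_lit 0) (nat_lit 8892) (XT.nd (nat_lit 78) (nat_lit 0) (nat_lit 0) (XT.lf (nat_lit 0) (nat_lit 242066855846) (nat_lit 152) (nat_lit 195415729590) (nat_lit 0) (nat_lit 203594808448) (nat_lit 4) (nat_lit 5) (nat_lit 6) (nat_lit 4) (nat_lit 4) (nat_lit 4) (nat_lit 475) (nat_lit 356) (nat_lit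 189)) (XT.nd (nat_lit 78) (nat_lit 0) (nat_lit 0) (XT.lf (nat_lit 0) (nat_lit 283211032655) (nat_lit 152) (nat_lit 143631745407) (nat_lit 0) (nat_lit 244738455058) (nat_lit 4) (nat_lit 5) (nat_lit 6) (nat_lit 4) (nat_lit 4) (nat_lit 4) (nat_lit 476) (nat_lit 356) (nat_lit 188)) (XT.lf (nat_lit 0) (nat_lit 326411585854) (nat_lit 152) (nat_lit 89260216828) (nat_lit 0) (nat_lit 287938503307) (nat_lit 4) (nat_lit 5) (nat_lit 6) (nat_lit 4) (nat_lit 4) (nat_lit 4) (nat_lit 477) (nat_lit 356) (nat_lit 187)))) (XT.nd (nat_lit 78) (nat_lit 0) (nat_lit 0) (XT.lf (nat_lit 0) (nat_lit 400640941) (nat_lit 0) (nat_lit 400640941) (nat_lit 684) (nat_lit 4114592578) (nat_lit 121) (nat_lit 5) (nat_lit 121) (nat_lit 3) (nat_lit 130) (nat_lit 3) (nat_lit 357) (nat_lit 357) (nat_lit 306)) (XT.nd (nat_lit 78) (nat_lit 0) (nat_lit 0) (XT.lf (nat_lit 0) (nat_lit 2415110443) (nat_lit 684) (nat_lit 4328926585) (nat_lit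 760) (nat_lit 3294338996) (nat_lit 121) (nat_lit 5) (nat_lit 130) (nat_lit 3) (nat_lit 131) (nat_lit 5) (nat_lit 358) (nat_lit 357) (nat_lit 305)) (XT.lf (nat_lit 76) (nat_lit 587643191) (nat_lit 0) (nat_lit 2657263990) (nat_lit 760) (nat_lit 7011630890) (nat_lit 122) (nat_lit 5) (nat_lit 121) (nat_lit 5) (nat_lit 131) (nat_lit 5) (nat_lit 359) (nat_lit 357) (nat_lit 304))))) (XT.nd (nat_lit 234) (nat_lit 0) (nat_lit 76) (XT.nd (nat_lit 78) (nat_lit 0) (nat_lit 0) (XT.lf (nat_lit 0) (nat_lit 4172600159) (nat_lit 684) (nat_lit 4636145576) (nat_lit 760) (nat_lit 1674075237) (nat_lit 122) (nat_lit 5) (nat_lit 131) (nat_lit 5) (nat_lit 132) (nat_lit 5) (nat_lit 360) (nat_lit 357) (nat_lit 303)) (XT.nd (nat_lit 78) (nat_lit 0) (nat_lit 0) (XT.lf (nat_lit 76) (nat_lit 597297493) (nat_lit 0) (nat_lit 4560727630) (nat_lit 760) (nat_lit 5561857027) (nat_lit 123) (nat_lit 5) (nat_lit 122) (nat_lit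 5) (nat_lit 132) (nat_lit 5) (nat_lit 361) (nat_lit 357) (nat_lit 302)) (XT.lf (nat_lit 76) (nat_lit 6227297385) (nat_lit 0) (nat_lit 3970497) (nat_lit 760) (nat_lit 4735631175) (nat_lit 123) (nat_lit 5) (nat_lit 122) (nat_lit 5) (nat_lit 132) (nat_lit 5) (nat_lit 362) (nat_lit 357) (nat_lit 301)))) (XT.nd (nat_lit 156) (nat_lit 0) (nat_lit 76) (XT.nd (nat_lit 78) (nat_lit 0) (nat_lit 0) (XT.lf (nat_lit 76) (nat_lit 837735475) (nat_lit 0) (nat_lit 6570296744) (nat_lit 760) (nat_lit 3815770188) (nat_lit 124) (nat_lit 5) (nat_lit 123) (nat_lit 5) (nat_lit 133) (nat_lit 5) (nat_lit 363) (nat_lit 357) (nat_lit 300)) (XT.lf (nat_lit 76) (nat_lit 6831886679) (nat_lit 0) (nat_lit 1855609212) (nat_lit 760) (nat_lit 2803889185) (nat_lit 124) (nat_lit 5) (nat_lit 123) (nat_lit 5) (nat_lit 133) (nat_lit 5) (nat_lit 364) (nat_lit 357) (nat_lit 299))) (XT.nd (nat_lit 78) (nat_lit 0) (nat_lit 0) (XT.lf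 (nat_lit 76) (nat_lit 1320152324) (nat_lit 0) (nat_lit 8745124467) (nat_lit 760) (nat_lit 1705378800) (nat_lit 125) (nat_lit 5) (nat_lit 124) (nat_lit 5) (nat_lit 134) (nat_lit 5) (nat_lit 365) (nat_lit 357) (nat_lit 298)) (XT.lf (nat_lit 76) (nat_lit 7702384946) (nat_lit 0) (nat_lit 3885045325) (nat_lit 760) (nat_lit 472709863) (nat_lit 125) (nat_lit 5) (nat_lit 124) (nat_lit 5) (nat_lit 134) (nat_lit 5) (nat_lit 366) (nat_lit 357) (nat_lit 297))))))))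
noncomputable def xc140 : XT := (XT.nd (nat_lit 1950) (nat_lit 2356) (nat_lit 0) (XT.nd (nat_lit 936) (nat_lit 1748) (nat_lit 0) (XT.nd (nat_lit 468) (nat_lit 1368) (nat_lit 0) (XT.nd (nat_lit 234) (nat_lit 380) (nat_lit 0) (XT.nd (nat_lit 78) (nat_lit 760) (nat_lit 0) (XT.lf (nat_lit 0) (nat_lit 815092735) (nat_lit 760) (nat_lit 10316947926) (nat_lit 76) (nat_lit 1230449445) (nat_lit 115) (nat_lit 5) (nat_lit 125) (nat_lit 5) (nat_lit 116) (nat_lit 5) (nat_lit 367) (nat_lit 357) (nat_lit 296)) (XT.nd (nat_lit 78) (nat_lit 760) (nat_lit 0) (XT.lf (nat_lit 0) (nat_lit 2258996988) (nat_lit 760) (nat_lit 3856410562) (nat_lit 76) (nat_lit 6558803994) (nat_lit 115) (nat_lit 5) (nat_lit 125) (nat_lit 5) (nat_lit 116) (nat_lit 5) (nat_lit 368) (nat_lit 357) (nat_lit 295)) (XT.lf (nat_lit 0) (nat_lit 2996596420) (nat_lit 760) (nat_lit 795664223) (nat_lit 836) (nat_lit 9208420505) (nat_lit 105) (nat_lit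 5) (nat_lit 115) (nat_lit 5) (nat_lit 116) (nat_lit 5) (nat_lit 369) (nat_lit 357) (nat_lit 294)))) (XT.nd (nat_lit 78) (nat_lit 380) (nat_lit 0) (XT.lf (nat_lit 0) (nat_lit 5514777802) (nat_lit 836) (nat_lit 3117456709) (nat_lit 76) (nat_lit 4705629542) (nat_lit 105) (nat_lit 5) (nat_lit 116) (nat_lit 5) (nat_lit 106) (nat_lit 5) (nat_lit 370) (nat_lit 357) (nat_lit 293)) (XT.nd (nat_lit 78) (nat_lit 0) (nat_lit 0) (XT.lf (nat_lit 0) (nat_lit 4208952182) (nat_lit 380) (nat_lit 3166009777) (nat_lit 456) (nat_lit 6314385504) (nat_lit 100) (nat_lit 5) (nat_lit 105) (nat_lit 5) (nat_lit 106) (nat_lit 5) (nat_lit 371) (nat_lit 357) (nat_lit 292)) (XT.lf (nat_lit 0) (nat_lit 9395681807) (nat_lit 456) (nat_lit 2114036749) (nat_lit 76) (nat_lit 2545327703) (nat_lit 100) (nat_lit 5) (nat_lit 106) (nat_lit 5) (nat_lit 101) (nat_lit 5) (nat_lit 372) (nat_lit 357) (nat_lit 291))))) (XT.nd (nat_lit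 234) (nat_lit 608) (nat_lit 0) (XT.nd (nat_lit 78) (nat_lit 456) (nat_lit 0) (XT.lf (nat_lit 0) (nat_lit 5726164650) (nat_lit 304) (nat_lit 5907514736) (nat_lit 380) (nat_lit 2799555225) (nat_lit 96) (nat_lit 5) (nat_lit 100) (nat_lit 5) (nat_lit 101) (nat_lit 5) (nat_lit 373) (nat_lit 357) (nat_lit 290)) (XT.nd (nat_lit 78) (nat_lit 456) (nat_lit 0) (XT.lf (nat_lit 0) (nat_lit 13995289215) (nat_lit 380) (nat_lit 823605439) (nat_lit 76) (nat_lit 10868017) (nat_lit 96) (nat_lit 5) (nat_lit 101) (nat_lit 5) (nat_lit 97) (nat_lit 5) (nat_lit 374) (nat_lit 357) (nat_lit 289)) (XT.lf (nat_lit 0) (nat_lit 1384636172) (nat_lit 456) (nat_lit 7684627555) (nat_lit 76) (nat_lit 6166153284) (nat_lit 90) (nat_lit 5) (nat_lit 96) (nat_lit 5) (nat_lit 91) (nat_lit 5) (nat_lit 375) (nat_lit 357) (nat_lit 288)))) (XT.nd (nat_lit 78) (nat_lit 304) (nat_lit 0) (XT.lf (nat_lit 0) (nat_lit 694428556) (nat_lit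 304) (nat_lit 2994450867) (nat_lit 380) (nat_lit 11971693297) (nat_lit 86) (nat_lit 5) (nat_lit 90) (nat_lit 5) (nat_lit 91) (nat_lit 5) (nat_lit 376) (nat_lit 357) (nat_lit 287)) (XT.nd (nat_lit 78) (nat_lit 304) (nat_lit 0) (XT.lf (nat_lit 0) (nat_lit 6271289904) (nat_lit 380) (nat_lit 6422600916) (nat_lit 76) (nat_lit 3404960731) (nat_lit 86) (nat_lit 5) (nat_lit 91) (nat_lit 5) (nat_lit 87) (nat_lit 5) (nat_lit 377) (nat_lit 357) (nat_lit 286)) (XT.lf (nat_lit 0) (nat_lit 2555701479) (nat_lit 304) (nat_lit 6495008889) (nat_lit 380) (nat_lit 7504951944) (nat_lit 82) (nat_lit 5) (nat_lit 86) (nat_lit 5) (nat_lit 87) (nat_lit 5) (nat_lit 378) (nat_lit 357) (nat_lit 285)))))) (XT.nd (nat_lit 468) (nat_lit 912) (nat_lit 0) (XT.nd (nat_lit 234) (nat_lit 532) (nat_lit 0) (XT.nd (nat_lit 78) (nat_lit 304) (nat_lit 0) (XT.lf (nat_lit 0) (nat_lit 12059321664) (nat_lit 380) (nat_lit 4851668375)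 (nat_lit 76) (nat_lit 119824456) (nat_lit 82) (nat_lit 5) (nat_lit 87) (nat_lit 5) (nat_lit 83) (nat_lit 5) (nat_lit 379) (nat_lit 357) (nat_lit 284)) (XT.nd (nat_lit 78) (nat_lit 76) (nat_lit 0) (XT.lf (nat_lit 0) (nat_lit 4775955347) (nat_lit 228) (nat_lit 10603879414) (nat_lit 304) (nat_lit 2141827268) (nat_lit 79) (nat_lit 5) (nat_lit 82) (nat_lit 5) (nat_lit 83) (nat_lit 5) (nat_lit 380) (nat_lit 357) (nat_lit 283)) (XT.lf (nat_lit 0) (nat_lit 866953995) (nat_lit 304) (nat_lit 3018562613) (nat_lit 76) (nat_lit 14147689391) (nat_lit 78) (nat_lit 5) (nat_lit 82) (nat_lit 5) (nat_lit 79) (nat_lit 5) (nat_lit 381) (nat_lit 357) (nat_lit 282)))) (XT.nd (nat_lit 78) (nat_lit 228) (nat_lit 0) (XT.lf (nat_lit 0) (nat_lit 4102736243) (nat_lit 380) (nat_lit 11243364216) (nat_lit 76) (nat_lit 3215053811) (nat_lit 74) (nat_lit 5) (nat_lit 79) (nat_lit 5) (nat_lit 75) (nat_lit 5) (nat_lit 382) (nat_lit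 357) (nat_lit 281)) (XT.nd (nat_lit 78) (nat_lit 228) (nat_lit 0) (XT.lf (nat_lit 0) (nat_lit 7597980848) (nat_lit 380) (nat_lit 925709122) (nat_lit 76) (nat_lit 10586935623) (nat_lit 74) (nat_lit 5) (nat_lit 79) (nat_lit 5) (nat_lit 75) (nat_lit 5) (nat_lit 383) (nat_lit 357) (nat_lit 280)) (XT.lf (nat_lit 0) (nat_lit 10211824992) (nat_lit 228) (nat_lit 1198471599) (nat_lit 304) (nat_lit 8270167305) (nat_lit 71) (nat_lit 5) (nat_lit 74) (nat_lit 5) (nat_lit 75) (nat_lit 5) (nat_lit 384) (nat_lit 357) (nat_lit 279))))) (XT.nd (nat_lit 234) (nat_lit 380) (nat_lit 0) (XT.nd (nat_lit 78) (nat_lit 304) (nat_lit 0) (XT.lf (nat_lit 0) (nat_lit 1586275624) (nat_lit 228) (nat_lit 13952274594) (nat_lit 304) (nat_lit 4733986227) (nat_lit 68) (nat_lit 5) (nat_lit 71) (nat_lit 5) (nat_lit 72) (nat_lit 5) (nat_lit 385) (nat_lit 357) (nat_lit 278)) (XT.nd (nat_lit 78) (nat_lit 304) (nat_lit 0) (XT.lf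 (nat_lit 0) (nat_lit 13479515446) (nat_lit 228) (nat_lit 6557075684) (nat_lit 304) (nat_lit 849460797) (nat_lit 68) (nat_lit 5) (nat_lit 71) (nat_lit 5) (nat_lit 72) (nat_lit 5) (nat_lit 386) (nat_lit 357) (nat_lit 277)) (XT.lf (nat_lit 0) (nat_lit 3201268586) (nat_lit 304) (nat_lit 17036967462) (nat_lit 76) (nat_lit 1285726751) (nat_lit 64) (nat_lit 5) (nat_lit 68) (nat_lit 5) (nat_lit 65) (nat_lit 5) (nat_lit 387) (nat_lit 357) (nat_lit 276)))) (XT.nd (nat_lit 156) (nat_lit 152) (nat_lit 0) (XT.nd (nat_lit 78) (nat_lit 228) (nat_lit 0) (XT.lf (nat_lit 0) (nat_lit 7645480221) (nat_lit 304) (nat_lit 5101239805) (nat_lit 76) (nat_lit 9435385188) (nat_lit 64) (nat_lit 5) (nat_lit 68) (nat_lit 5) (nat_lit 65) (nat_lit 5) (nat_lit 388) (nat_lit 357) (nat_lit 275)) (XT.lf (nat_lit 0) (nat_lit 7654741076) (nat_lit 228) (nat_lit 4761921538) (nat_lit 304) (nat_lit 10451260737) (nat_lit 61) (nat_lit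 5) (nat_lit 64) (nat_lit 5) (nat_lit 65) (nat_lit 5) (nat_lit 389) (nat_lit 357) (nat_lit 274))) (XT.nd (nat_lit 78) (nat_lit 152) (nat_lit 0) (XT.lf (nat_lit 0) (nat_lit 17556277419) (nat_lit 304) (nat_lit 2437860351) (nat_lit 76) (nat_lit 3587407256) (nat_lit 61) (nat_lit 5) (nat_lit 65) (nat_lit 5) (nat_lit 62) (nat_lit 5) (nat_lit 390) (nat_lit 357) (nat_lit 273)) (XT.lf (nat_lit 0) (nat_lit 11237053140) (nat_lit 152) (nat_lit 11955529498) (nat_lit 228) (nat_lit 1126285658) (nat_lit 59) (nat_lit 5) (nat_lit 61) (nat_lit 5) (nat_lit 62) (nat_lit 5) (nat_lit 391) (nat_lit 357) (nat_lit 272))))))) (XT.nd (nat_lit 1014) (nat_lit 988) (nat_lit 0) (XT.nd (nat_lit 468) (nat_lit 684) (nat_lit 0) (XT.nd (nat_lit 234) (nat_lit 228) (nat_lit 0) (XT.nd (nat_lit 78) (nat_lit 152) (nat_lit 0) (XT.lf (nat_lit 0) (nat_lit 521762943) (nat_lit 228) (nat_lit 3403717377) (nat_lit 304) (nat_lit 21162625281)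 (nat_lit 55) (nat_lit 5) (nat_lit 58) (nat_lit 5) (nat_lit 59) (nat_lit 5) (nat_lit 392) (nat_lit 357) (nat_lit 271)) (XT.nd (nat_lit 78) (nat_lit 152) (nat_lit 0) (XT.lf (nat_lit 0) (nat_lit 9490748588) (nat_lit 304) (nat_lit 10755296750) (nat_lit 76) (nat_lit 5633903197) (nat_lit 55) (nat_lit 5) (nat_lit 59) (nat_lit 5) (nat_lit 56) (nat_lit 5) (nat_lit 393) (nat_lit 357) (nat_lit 270)) (XT.lf (nat_lit 0) (nat_lit 3791755358) (nat_lit 152) (nat_lit 11644698449) (nat_lit 228) (nat_lit 11269826065) (nat_lit 53) (nat_lit 5) (nat_lit 55) (nat_lit 5) (nat_lit 56) (nat_lit 5) (nat_lit 394) (nat_lit 357) (nat_lit 269)))) (XT.nd (nat_lit 78) (nat_lit 228) (nat_lit 0) (XT.lf (nat_lit 0) (nat_lit 19419776700) (nat_lit 152) (nat_lit 2429290555) (nat_lit 228) (nat_lit 5716384070) (nat_lit 53) (nat_lit 5) (nat_lit 55) (nat_lit 5) (nat_lit 56) (nat_lit 5) (nat_lit 395) (nat_lit 357) (nat_lit 268)) (XT.nd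 (nat_lit 78) (nat_lit 0) (nat_lit 0) (XT.lf (nat_lit 0) (nat_lit 332331069) (nat_lit 228) (nat_lit 20993892855) (nat_lit 76) (nat_lit 7130208469) (nat_lit 50) (nat_lit 5) (nat_lit 53) (nat_lit 5) (nat_lit 51) (nat_lit 5) (nat_lit 396) (nat_lit 357) (nat_lit 267)) (XT.lf (nat_lit 0) (nat_lit 6659455260) (nat_lit 228) (nat_lit 5406319605) (nat_lit 76) (nat_lit 17313102083) (nat_lit 50) (nat_lit 5) (nat_lit 53) (nat_lit 5) (nat_lit 51) (nat_lit 5) (nat_lit 397) (nat_lit 357) (nat_lit 266))))) (XT.nd (nat_lit 234) (nat_lit 380) (nat_lit 0) (XT.nd (nat_lit 78) (nat_lit 152) (nat_lit 0) (XT.lf (nat_lit 0) (nat_lit 11303932219) (nat_lit 152) (nat_lit 2164103232) (nat_lit 228) (nat_lit 16871157155) (nat_lit 48) (nat_lit 5) (nat_lit 50) (nat_lit 5) (nat_lit 51) (nat_lit 5) (nat_lit 398) (nat_lit 357) (nat_lit 265)) (XT.nd (nat_lit 78) (nat_lit 152) (nat_lit 0) (XT.lf (nat_lit 0) (nat_lit 20827400447)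 (nat_lit 228) (nat_lit 2454237892) (nat_lit 76) (nat_lit 8055371599) (nat_lit 48) (nat_lit 5) (nat_lit 51) (nat_lit 5) (nat_lit 49) (nat_lit 5) (nat_lit 399) (nat_lit 357) (nat_lit 264)) (XT.lf (nat_lit 0) (nat_lit 15395345946) (nat_lit 152) (nat_lit 13424525940) (nat_lit 228) (nat_lit 3551592846) (nat_lit 46) (nat_lit 5) (nat_lit 48) (nat_lit 5) (nat_lit 49) (nat_lit 5) (nat_lit 400) (nat_lit 357) (nat_lit 263)))) (XT.nd (nat_lit 156) (nat_lit 152) (nat_lit 0) (XT.nd (nat_lit 78) (nat_lit 0) (nat_lit 0) (XT.lf (nat_lit 0) (nat_lit 712737155) (nat_lit 152) (nat_lit 2964157202) (nat_lit 228) (nat_lit 29775683735) (nat_lit 43) (nat_lit 5) (nat_lit 45) (nat_lit 5) (nat_lit 46) (nat_lit 5) (nat_lit 401) (nat_lit 357) (nat_lit 262)) (XT.lf (nat_lit 0) (nat_lit 11554343816) (nat_lit 228) (nat_lit 14904055371) (nat_lit 76) (nat_lit 8106095084) (nat_lit 43) (nat_lit 5) (nat_lit 46) (nat_lit 5) (nat_lit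 44) (nat_lit 5) (nat_lit 402) (nat_lit 357) (nat_lit 261))) (XT.nd (nat_lit 78) (nat_lit 0) (nat_lit 0) (XT.lf (nat_lit 0) (nat_lit 3882079409) (nat_lit 152) (nat_lit 16042770331) (nat_lit 228) (nat_lit 15802200203) (nat_lit 41) (nat_lit 5) (nat_lit 43) (nat_lit 5) (nat_lit 44) (nat_lit 5) (nat_lit 403) (nat_lit 357) (nat_lit 260)) (XT.lf (nat_lit 0) (nat_lit 24108133744) (nat_lit 152) (nat_lit 4848350165) (nat_lit 228) (nat_lit 7979122089) (nat_lit 41) (nat_lit 5) (nat_lit 43) (nat_lit 5) (nat_lit 44) (nat_lit 5) (nat_lit 404) (nat_lit 357) (nat_lit 259)))))) (XT.nd (nat_lit 468) (nat_lit 532) (nat_lit 0) (XT.nd (nat_lit 234) (nat_lit 152) (nat_lit 0) (XT.nd (nat_lit 78) (nat_lit 152) (nat_lit 0) (XT.lf (nat_lit 0) (nat_lit 442599783) (nat_lit 152) (nat_lit 30952454284) (nat_lit 76) (nat_lit 6798604001) (nat_lit 39) (nat_lit 5) (nat_lit 41) (nat_lit 5) (nat_lit 40) (nat_lit 5) (nat_lit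 405) (nat_lit 357) (nat_lit 258)) (XT.nd (nat_lit 78) (nat_lit 152) (nat_lit 0) (XT.lf (nat_lit 0) (nat_lit 9308140864) (nat_lit 152) (nat_lit 10975379232) (nat_lit 76) (nat_lit 19210010558) (nat_lit 39) (nat_lit 5) (nat_lit 41) (nat_lit 5) (nat_lit 40) (nat_lit 5) (nat_lit 406) (nat_lit 357) (nat_lit 257)) (XT.lf (nat_lit 0) (nat_lit 10315042761) (nat_lit 152) (nat_lit 8454012522) (nat_lit 228) (nat_lit 22081739033) (nat_lit 37) (nat_lit 5) (nat_lit 39) (nat_lit 5) (nat_lit 40) (nat_lit 5) (nat_lit 407) (nat_lit 357) (nat_lit 256)))) (XT.nd (nat_lit 78) (nat_lit 152) (nat_lit 0) (XT.lf (nat_lit 0) (nat_lit 28945003144) (nat_lit 228) (nat_lit 9296320807) (nat_lit 76) (nat_lit 4022499975) (nat_lit 37) (nat_lit 5) (nat_lit 40) (nat_lit 5) (nat_lit 38) (nat_lit 4) (nat_lit 408) (nat_lit 357) (nat_lit 255)) (XT.nd (nat_lit 78) (nat_lit 76) (nat_lit 0) (XT.lf (nat_lit 0) (nat_lit 13276432310)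 (nat_lit 76) (nat_lit 26690742803) (nat_lit 152) (nat_lit 3763460617) (nat_lit 36) (nat_lit 5) (nat_lit 37) (nat_lit 5) (nat_lit 38) (nat_lit 4) (nat_lit 409) (nat_lit 357) (nat_lit 254)) (XT.lf (nat_lit 0) (nat_lit 6220606143) (nat_lit 152) (nat_lit 8077839712) (nat_lit 76) (nat_lit 30959869421) (nat_lit 35) (nat_lit 5) (nat_lit 37) (nat_lit 5) (nat_lit 36) (nat_lit 5) (nat_lit 410) (nat_lit 357) (nat_lit 253))))) (XT.nd (nat_lit 234) (nat_lit 304) (nat_lit 0) (XT.nd (nat_lit 78) (nat_lit 76) (nat_lit 0) (XT.lf (nat_lit 0) (nat_lit 15848589673) (nat_lit 152) (nat_lit 968239531) (nat_lit 228) (nat_lit 30030495065) (nat_lit 33) (nat_lit 5) (nat_lit 35) (nat_lit 5) (nat_lit 36) (nat_lit 5) (nat_lit 411) (nat_lit 357) (nat_lit 252)) (XT.nd (nat_lit 78) (nat_lit 76) (nat_lit 0) (XT.lf (nat_lit 0) (nat_lit 28277372642) (nat_lit 228) (nat_lit 7477188772) (nat_lit 76) (nat_lit 12744498521) (nat_lit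 33) (nat_lit 5) (nat_lit 36) (nat_lit 5) (nat_lit 34) (nat_lit 4) (nat_lit 412) (nat_lit 357) (nat_lit 251)) (XT.lf (nat_lit 0) (nat_lit 17759277592) (nat_lit 76) (nat_lit 22837242345) (nat_lit 152) (nat_lit 9622585222) (nat_lit 32) (nat_lit 5) (nat_lit 33) (nat_lit 5) (nat_lit 34) (nat_lit 4) (nat_lit 413) (nat_lit 357) (nat_lit 250)))) (XT.nd (nat_lit 156) (nat_lit 76) (nat_lit 0) (XT.nd (nat_lit 78) (nat_lit 152) (nat_lit 0) (XT.lf (nat_lit 0) (nat_lit 1579419944) (nat_lit 152) (nat_lit 7540980646) (nat_lit 76) (nat_lit 42897519271) (nat_lit 31) (nat_lit 5) (nat_lit 33) (nat_lit 5) (nat_lit 32) (nat_lit 5) (nat_lit 414) (nat_lit 357) (nat_lit 249)) (XT.lf (nat_lit 0) (nat_lit 13398434754) (nat_lit 228) (nat_lit 34910979219) (nat_lit 76) (nat_lit 5570360781) (nat_lit 29) (nat_lit 5) (nat_lit 32) (nat_lit 5) (nat_lit 30) (nat_lit 4) (nat_lit 415) (nat_lit 357) (nat_lit 248))) (XT.nd (nat_lit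 78) (nat_lit 76) (nat_lit 0) (XT.lf (nat_lit 0) (nat_lit 26080587180) (nat_lit 228) (nat_lit 8927198994) (nat_lit 76) (nat_lit 20813328194) (nat_lit 29) (nat_lit 5) (nat_lit 32) (nat_lit 5) (nat_lit 30) (nat_lit 4) (nat_lit 416) (nat_lit 357) (nat_lit 247)) (XT.lf (nat_lit 0) (nat_lit 18949786432) (nat_lit 76) (nat_lit 20736128017) (nat_lit 152) (nat_lit 18159154413) (nat_lit 28) (nat_lit 5) (nat_lit 29) (nat_lit 5) (nat_lit 30) (nat_lit 4) (nat_lit 417) (nat_lit 357) (nat_lit 246))))))))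
noncomputable def xc141 : XT := (XT.nd (nat_lit 1950) (nat_lit 532) (nat_lit 0) (XT.nd (nat_lit 936) (nat_lit 532) (nat_lit 0) (XT.nd (nat_lit 468) (nat_lit 304) (nat_lit 0) (XT.nd (nat_lit 234) (nat_lit 152) (nat_lit 0) (XT.nd (nat_lit 78) (nat_lit 152) (nat_lit 0) (XT.lf (nat_lit 0) (nat_lit 48518259540) (nat_lit 76) (nat_lit 5597774416) (nat_lit 152) (nat_lit 5846962029) (nat_lit 28) (nat_lit 5) (nat_lit 29) (nat_lit 5) (nat_lit 30) (nat_lit 4) (nat_lit 418) (nat_lit 357) (nat_lit 245)) (XT.nd (nat_lit 78) (nat_lit 0) (nat_lit 0) (XT.lf (nat_lit 0) (nat_lit 7293143020) (nat_lit 152) (nat_lit 44508342480) (nat_lit 76) (nat_lit 10357860754) (nat_lit 26) (nat_lit 5) (nat_lit 28) (nat_lit 5) (nat_lit 27) (nat_lit 4) (nat_lit 419) (nat_lit 357) (nat_lit 244)) (XT.lf (nat_lit 0) (nat_lit 21176114455) (nat_lit 152) (nat_lit 16059715789) (nat_lit 76) (nat_lit 27210774368) (nat_lit 26) (nat_lit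 5) (nat_lit 28) (nat_lit 5) (nat_lit 27) (nat_lit 4) (nat_lit 420) (nat_lit 357) (nat_lit 243)))) (XT.nd (nat_lit 78) (nat_lit 76) (nat_lit 0) (XT.lf (nat_lit 0) (nat_lit 14256237310) (nat_lit 76) (nat_lit 21713473198) (nat_lit 152) (nat_lit 30867692563) (nat_lit 25) (nat_lit 5) (nat_lit 26) (nat_lit 5) (nat_lit 27) (nat_lit 4) (nat_lit 421) (nat_lit 357) (nat_lit 242)) (XT.nd (nat_lit 78) (nat_lit 76) (nat_lit 0) (XT.lf (nat_lit 0) (nat_lit 46634335350) (nat_lit 76) (nat_lit 5134641941) (nat_lit 152) (nat_lit 17565465554) (nat_lit 25) (nat_lit 5) (nat_lit 26) (nat_lit 5) (nat_lit 27) (nat_lit 4) (nat_lit 422) (nat_lit 357) (nat_lit 241)) (XT.lf (nat_lit 0) (nat_lit 8752640486) (nat_lit 76) (nat_lit 59928057519) (nat_lit 76) (nat_lit 3259512967) (nat_lit 24) (nat_lit 4) (nat_lit 25) (nat_lit 5) (nat_lit 25) (nat_lit 4) (nat_lit 423) (nat_lit 357) (nat_lit 240))))) (XT.nd (nat_lit 234) (nat_lit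 152) (nat_lit 0) (XT.nd (nat_lit 78) (nat_lit 76) (nat_lit 0) (XT.lf (nat_lit 0) (nat_lit 11854435847) (nat_lit 152) (nat_lit 32375933994) (nat_lit 76) (nat_lit 30413259409) (nat_lit 23) (nat_lit 5) (nat_lit 25) (nat_lit 5) (nat_lit 24) (nat_lit 4) (nat_lit 424) (nat_lit 357) (nat_lit 239)) (XT.nd (nat_lit 78) (nat_lit 76) (nat_lit 0) (XT.lf (nat_lit 0) (nat_lit 27609049315) (nat_lit 152) (nat_lit 87531558) (nat_lit 76) (nat_lit 49783241200) (nat_lit 23) (nat_lit 5) (nat_lit 25) (nat_lit 5) (nat_lit 24) (nat_lit 4) (nat_lit 425) (nat_lit 357) (nat_lit 238)) (XT.lf (nat_lit 0) (nat_lit 34923163431) (nat_lit 76) (nat_lit 9768248212) (nat_lit 152) (nat_lit 35739412720) (nat_lit 22) (nat_lit 5) (nat_lit 23) (nat_lit 5) (nat_lit 24) (nat_lit 4) (nat_lit 426) (nat_lit 357) (nat_lit 237)))) (XT.nd (nat_lit 78) (nat_lit 152) (nat_lit 0) (XT.lf (nat_lit 0) (nat_lit 62765591334) (nat_lit 152) (nat_lit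 11993205298) (nat_lit 0) (nat_lit 8763695874) (nat_lit 22) (nat_lit 5) (nat_lit 24) (nat_lit 4) (nat_lit 22) (nat_lit 4) (nat_lit 427) (nat_lit 357) (nat_lit 236)) (XT.nd (nat_lit 78) (nat_lit 76) (nat_lit 0) (XT.lf (nat_lit 0) (nat_lit 23788786631) (nat_lit 76) (nat_lit 58481281260) (nat_lit 76) (nat_lit 4472347438) (nat_lit 21) (nat_lit 4) (nat_lit 22) (nat_lit 5) (nat_lit 22) (nat_lit 4) (nat_lit 428) (nat_lit 357) (nat_lit 235)) (XT.lf (nat_lit 0) (nat_lit 12423803338) (nat_lit 152) (nat_lit 28546840180) (nat_lit 76) (nat_lit 49132759975) (nat_lit 20) (nat_lit 5) (nat_lit 22) (nat_lit 5) (nat_lit 21) (nat_lit 4) (nat_lit 429) (nat_lit 357) (nat_lit 234)))))) (XT.nd (nat_lit 468) (nat_lit 304) (nat_lit 0) (XT.nd (nat_lit 234) (nat_lit 152) (nat_lit 0) (XT.nd (nat_lit 78) (nat_lit 0) (nat_lit 0) (XT.lf (nat_lit 0) (nat_lit 7745884526) (nat_lit 76) (nat_lit 22384801108) (nat_lit 152) (nat_lit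 63492278939) (nat_lit 19) (nat_lit 5) (nat_lit 20) (nat_lit 5) (nat_lit 21) (nat_lit 4) (nat_lit 430) (nat_lit 357) (nat_lit 233)) (XT.nd (nat_lit 78) (nat_lit 0) (nat_lit 0) (XT.lf (nat_lit 0) (nat_lit 46835469757) (nat_lit 76) (nat_lit 2366272088) (nat_lit 152) (nat_lit 48092820922) (nat_lit 19) (nat_lit 5) (nat_lit 20) (nat_lit 5) (nat_lit 21) (nat_lit 4) (nat_lit 431) (nat_lit 357) (nat_lit 232)) (XT.lf (nat_lit 0) (nat_lit 69513111871) (nat_lit 152) (nat_lit 13570028651) (nat_lit 0) (nat_lit 18052262820) (nat_lit 19) (nat_lit 5) (nat_lit 21) (nat_lit 4) (nat_lit 19) (nat_lit 4) (nat_lit 432) (nat_lit 357) (nat_lit 231)))) (XT.nd (nat_lit 78) (nat_lit 76) (nat_lit 0) (XT.lf (nat_lit 0) (nat_lit 25946978589) (nat_lit 76) (nat_lit 65332713479) (nat_lit 76) (nat_lit 13866612294) (nat_lit 18) (nat_lit 4) (nat_lit 19) (nat_lit 5) (nat_lit 19) (nat_lit 4) (nat_lit 433) (nat_lit 357) (nat_lit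 230)) (XT.nd (nat_lit 78) (nat_lit 0) (nat_lit 0) (XT.lf (nat_lit 0) (nat_lit 4853297454) (nat_lit 152) (nat_lit 41521843434) (nat_lit 76) (nat_lit 62967414210) (nat_lit 17) (nat_lit 5) (nat_lit 19) (nat_lit 5) (nat_lit 18) (nat_lit 4) (nat_lit 434) (nat_lit 357) (nat_lit 229)) (XT.lf (nat_lit 0) (nat_lit 24039149028) (nat_lit 152) (nat_lit 2195611549) (nat_lit 76) (nat_lit 87502694378) (nat_lit 17) (nat_lit 5) (nat_lit 19) (nat_lit 5) (nat_lit 18) (nat_lit 4) (nat_lit 435) (nat_lit 357) (nat_lit 228))))) (XT.nd (nat_lit 234) (nat_lit 152) (nat_lit 0) (XT.nd (nat_lit 78) (nat_lit 76) (nat_lit 0) (XT.lf (nat_lit 0) (nat_lit 40381975865) (nat_lit 76) (nat_lit 4428941165) (nat_lit 152) (nat_lit 73509851991) (nat_lit 16) (nat_lit 5) (nat_lit 17) (nat_lit 5) (nat_lit 18) (nat_lit 4) (nat_lit 436) (nat_lit 357) (nat_lit 227)) (XT.nd (nat_lit 78) (nat_lit 76) (nat_lit 0) (XT.lf (nat_lit 0) (nat_lit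 66943553225) (nat_lit 152) (nat_lit 38263100162) (nat_lit 0) (nat_lit 17910481804) (nat_lit 16) (nat_lit 5) (nat_lit 18) (nat_lit 4) (nat_lit 16) (nat_lit 4) (nat_lit 437) (nat_lit 357) (nat_lit 226)) (XT.lf (nat_lit 0) (nat_lit 3426344846) (nat_lit 76) (nat_lit 86878921784) (nat_lit 76) (nat_lit 37841931140) (nat_lit 15) (nat_lit 4) (nat_lit 16) (nat_lit 5) (nat_lit 16) (nat_lit 4) (nat_lit 438) (nat_lit 357) (nat_lit 225)))) (XT.nd (nat_lit 156) (nat_lit 76) (nat_lit 0) (XT.nd (nat_lit 78) (nat_lit 76) (nat_lit 0) (XT.lf (nat_lit 0) (nat_lit 48521693447) (nat_lit 76) (nat_lit 66957786457) (nat_lit 76) (nat_lit 17917063220) (nat_lit 15) (nat_lit 4) (nat_lit 16) (nat_lit 5) (nat_lit 16) (nat_lit 4) (nat_lit 439) (nat_lit 357) (nat_lit 224)) (XT.lf (nat_lit 0) (nat_lit 2904424451) (nat_lit 152) (nat_lit 43090207962) (nat_lit 76) (nat_lit 92911552339) (nat_lit 14) (nat_lit 5) (nat_lit 16)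 (nat_lit 5) (nat_lit 15) (nat_lit 4) (nat_lit 440) (nat_lit 357) (nat_lit 223))) (XT.nd (nat_lit 78) (nat_lit 0) (nat_lit 0) (XT.lf (nat_lit 0) (nat_lit 499492183) (nat_lit 76) (nat_lit 23669852130) (nat_lit 152) (nat_lit 120507053906) (nat_lit 13) (nat_lit 5) (nat_lit 14) (nat_lit 5) (nat_lit 15) (nat_lit 4) (nat_lit 441) (nat_lit 357) (nat_lit 222)) (XT.lf (nat_lit 0) (nat_lit 47232354867) (nat_lit 152) (nat_lit 102948802124) (nat_lit 0) (nat_lit 517223424) (nat_lit 13) (nat_lit 5) (nat_lit 15) (nat_lit 4) (nat_lit 13) (nat_lit 4) (nat_lit 442) (nat_lit 357) (nat_lit 221))))))) (XT.nd (nat_lit 1014) (nat_lit 228) (nat_lit 0) (XT.nd (nat_lit 468) (nat_lit 76) (nat_lit 0) (XT.nd (nat_lit 234) (nat_lit 152) (nat_lit 0) (XT.nd (nat_lit 78) (nat_lit 76) (nat_lit 0) (XT.lf (nat_lit 0) (nat_lit 71833404145) (nat_lit 152) (nat_lit 60053465327) (nat_lit 0) (nat_lit 25115348118) (nat_lit 13) (nat_lit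 5) (nat_lit 15) (nat_lit 4) (nat_lit 13) (nat_lit 4) (nat_lit 443) (nat_lit 357) (nat_lit 220)) (XT.nd (nat_lit 78) (nat_lit 76) (nat_lit 0) (XT.lf (nat_lit 0) (nat_lit 97661513348) (nat_lit 152) (nat_lit 15019211164) (nat_lit 0) (nat_lit 50940672002) (nat_lit 13) (nat_lit 5) (nat_lit 15) (nat_lit 4) (nat_lit 13) (nat_lit 4) (nat_lit 444) (nat_lit 357) (nat_lit 219)) (XT.lf (nat_lit 0) (nat_lit 33327885243) (nat_lit 76) (nat_lit 91970634420) (nat_lit 76) (nat_lit 45247140389) (nat_lit 12) (nat_lit 4) (nat_lit 13) (nat_lit 5) (nat_lit 13) (nat_lit 4) (nat_lit 445) (nat_lit 357) (nat_lit 218)))) (XT.nd (nat_lit 78) (nat_lit 152) (nat_lit 0) (XT.lf (nat_lit 0) (nat_lit 84608288494) (nat_lit 76) (nat_lit 69960645513) (nat_lit 76) (nat_lit 23234625115) (nat_lit 12) (nat_lit 4) (nat_lit 13) (nat_lit 5) (nat_lit 13) (nat_lit 4) (nat_lit 446) (nat_lit 357) (nat_lit 217)) (XT.nd (nat_lit 78) (nat_lit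 152) (nat_lit 0) (XT.lf (nat_lit 0) (nat_lit 138447491837) (nat_lit 76) (nat_lit 46852710663) (nat_lit 76) (nat_lit 124284202) (nat_lit 12) (nat_lit 4) (nat_lit 13) (nat_lit 5) (nat_lit 13) (nat_lit 4) (nat_lit 447) (nat_lit 357) (nat_lit 216)) (XT.lf (nat_lit 0) (nat_lit 1208912764) (nat_lit 76) (nat_lit 22176272949) (nat_lit 152) (nat_lit 170021614619) (nat_lit 10) (nat_lit 5) (nat_lit 11) (nat_lit 5) (nat_lit 12) (nat_lit 4) (nat_lit 448) (nat_lit 357) (nat_lit 215))))) (XT.nd (nat_lit 234) (nat_lit 76) (nat_lit 0) (XT.nd (nat_lit 78) (nat_lit 0) (nat_lit 0) (XT.lf (nat_lit 0) (nat_lit 48930296489) (nat_lit 152) (nat_lit 148391841897) (nat_lit 0) (nat_lit 4422772376) (nat_lit 10) (nat_lit 5) (nat_lit 12) (nat_lit 4) (nat_lit 10) (nat_lit 4) (nat_lit 449) (nat_lit 357) (nat_lit 214)) (XT.nd (nat_lit 78) (nat_lit 0) (nat_lit 0) (XT.lf (nat_lit 0) (nat_lit 76113756574) (nat_lit 152) (nat_lit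 102763862651) (nat_lit 0) (nat_lit 31604252987) (nat_lit 10) (nat_lit 5) (nat_lit 12) (nat_lit 4) (nat_lit 10) (nat_lit 4) (nat_lit 450) (nat_lit 357) (nat_lit 213)) (XT.lf (nat_lit 0) (nat_lit 104654054724) (nat_lit 152) (nat_lit 54859078015) (nat_lit 0) (nat_lit 60142665923) (nat_lit 10) (nat_lit 5) (nat_lit 12) (nat_lit 4) (nat_lit 10) (nat_lit 4) (nat_lit 451) (nat_lit 357) (nat_lit 212)))) (XT.nd (nat_lit 156) (nat_lit 0) (nat_lit 0) (XT.nd (nat_lit 78) (nat_lit 76) (nat_lit 0) (XT.lf (nat_lit 0) (nat_lit 134619144028) (nat_lit 152) (nat_lit 4563428977) (nat_lit 0) (nat_lit 90105959786) (nat_lit 10) (nat_lit 5) (nat_lit 12) (nat_lit 4) (nat_lit 10) (nat_lit 4) (nat_lit 452) (nat_lit 357) (nat_lit 211)) (XT.lf (nat_lit 0) (nat_lit 49837962035) (nat_lit 76) (nat_lit 117020518160) (nat_lit 76) (nat_lit 72505623973) (nat_lit 9) (nat_lit 4) (nat_lit 10) (nat_lit 5) (nat_lit 10) (nat_lit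 4) (nat_lit 453) (nat_lit 357) (nat_lit 210))) (XT.nd (nat_lit 78) (nat_lit 0) (nat_lit 0) (XT.lf (nat_lit 0) (nat_lit 107113755246) (nat_lit 76) (nat_lit 93671230793) (nat_lit 76) (nat_lit 49154708088) (nat_lit 9) (nat_lit 4) (nat_lit 10) (nat_lit 5) (nat_lit 10) (nat_lit 4) (nat_lit 454) (nat_lit 357) (nat_lit 209)) (XT.lf (nat_lit 0) (nat_lit 167249434017) (nat_lit 76) (nat_lit 69156401241) (nat_lit 76) (nat_lit 24638327567) (nat_lit 9) (nat_lit 4) (nat_lit 10) (nat_lit 5) (nat_lit 10) (nat_lit 4) (nat_lit 455) (nat_lit 357) (nat_lit 208)))))) (XT.nd (nat_lit 468) (nat_lit 76) (nat_lit 0) (XT.nd (nat_lit 234) (nat_lit 0) (nat_lit 0) (XT.nd (nat_lit 78) (nat_lit 76) (nat_lit 0) (XT.lf (nat_lit 0) (nat_lit 1066622566) (nat_lit 152) (nat_lit 42332974527) (nat_lit 76) (nat_lit 229303492203) (nat_lit 8) (nat_lit 5) (nat_lit 10) (nat_lit 5) (nat_lit 9) (nat_lit 4) (nat_lit 456) (nat_lit 357)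 (nat_lit 207)) (XT.nd (nat_lit 78) (nat_lit 0) (nat_lit 0) (XT.lf (nat_lit 0) (nat_lit 11667801289) (nat_lit 76) (nat_lit 15741349370) (nat_lit 152) (nat_lit 257506599217) (nat_lit 7) (nat_lit 5) (nat_lit 8) (nat_lit 5) (nat_lit 9) (nat_lit 4) (nat_lit 457) (nat_lit 357) (nat_lit 206)) (XT.lf (nat_lit 0) (nat_lit 56003311966) (nat_lit 152) (nat_lit 228087882286) (nat_lit 0) (nat_lit 13601124014) (nat_lit 7) (nat_lit 5) (nat_lit 9) (nat_lit 4) (nat_lit 7) (nat_lit 4) (nat_lit 458) (nat_lit 357) (nat_lit 205)))) (XT.nd (nat_lit 78) (nat_lit 0) (nat_lit 0) (XT.lf (nat_lit 0) (nat_lit 86283500189) (nat_lit 152) (nat_lit 180931302046) (nat_lit 0) (nat_lit 43880097012) (nat_lit 7) (nat_lit 5) (nat_lit 9) (nat_lit 4) (nat_lit 7) (nat_lit 4) (nat_lit 459) (nat_lit 357) (nat_lit 204)) (XT.nd (nat_lit 78) (nat_lit 0) (nat_lit 0) (XT.lf (nat_lit 0) (nat_lit 118076044436) (nat_lit 152) (nat_lit 131420163719)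 (nat_lit 0) (nat_lit 75671483902) (nat_lit 7) (nat_lit 5) (nat_lit 9) (nat_lit 4) (nat_lit 7) (nat_lit 4) (nat_lit 460) (nat_lit 357) (nat_lit 203)) (XT.lf (nat_lit 0) (nat_lit 151456641242) (nat_lit 152) (nat_lit 79436583640) (nat_lit 0) (nat_lit 109050978462) (nat_lit 7) (nat_lit 5) (nat_lit 9) (nat_lit 4) (nat_lit 7) (nat_lit 4) (nat_lit 461) (nat_lit 357) (nat_lit 202))))) (XT.nd (nat_lit 234) (nat_lit 0) (nat_lit 0) (XT.nd (nat_lit 78) (nat_lit 76) (nat_lit 0) (XT.lf (nat_lit 0) (nat_lit 186504768217) (nat_lit 152) (nat_lit 24856791381) (nat_lit 0) (nat_lit 144098055680) (nat_lit 7) (nat_lit 5) (nat_lit 9) (nat_lit 4) (nat_lit 7) (nat_lit 4) (nat_lit 462) (nat_lit 357) (nat_lit 201)) (XT.nd (nat_lit 78) (nat_lit 0) (nat_lit 0) (XT.lf (nat_lit 0) (nat_lit 33522080880) (nat_lit 76) (nat_lit 190305166031) (nat_lit 76) (nat_lit 147897453726) (nat_lit 6) (nat_lit 4) (nat_lit 7) (nat_lit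 5) (nat_lit 7) (nat_lit 4) (nat_lit 463) (nat_lit 357) (nat_lit 200)) (XT.lf (nat_lit 0) (nat_lit 95680088451) (nat_lit 76) (nat_lit 167755319231) (nat_lit 76) (nat_lit 125346654764) (nat_lit 6) (nat_lit 4) (nat_lit 7) (nat_lit 5) (nat_lit 7) (nat_lit 4) (nat_lit 464) (nat_lit 357) (nat_lit 199)))) (XT.nd (nat_lit 156) (nat_lit 0) (nat_lit 0) (XT.nd (nat_lit 78) (nat_lit 0) (nat_lit 0) (XT.lf (nat_lit 0) (nat_lit 160943348806) (nat_lit 76) (nat_lit 144079290876) (nat_lit 76) (nat_lit 101669719590) (nat_lit 6) (nat_lit 4) (nat_lit 7) (nat_lit 5) (nat_lit 7) (nat_lit 4) (nat_lit 465) (nat_lit 357) (nat_lit 198)) (XT.lf (nat_lit 0) (nat_lit 229467250661) (nat_lit 76) (nat_lit 119220709471) (nat_lit 76) (nat_lit 76810274546) (nat_lit 6) (nat_lit 4) (nat_lit 7) (nat_lit 5) (nat_lit 7) (nat_lit 4) (nat_lit 466) (nat_lit 357) (nat_lit 197))) (XT.nd (nat_lit 78) (nat_lit 0) (nat_lit 0) (XT.lf (nat_lit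 0) (nat_lit 301414946164) (nat_lit 76) (nat_lit 93120387916) (nat_lit 76) (nat_lit 50709130479) (nat_lit 6) (nat_lit 4) (nat_lit 7) (nat_lit 5) (nat_lit 7) (nat_lit 4) (nat_lit 467) (nat_lit 357) (nat_lit 196)) (XT.lf (nat_lit 0) (nat_lit 376957739351) (nat_lit 76) (nat_lit 65716182590) (nat_lit 76) (nat_lit 23304141808) (nat_lit 6) (nat_lit 4) (nat_lit 7) (nat_lit 5) (nat_lit 7) (nat_lit 4) (nat_lit 468) (nat_lit 357) (nat_lit 195))))))))
noncomputable def xc142 : XT := (XT.nd (nat_lit 45786) (nat_lit 0) (nat_lit 3344) (XT.nd (nat_lit 44772) (nat_lit 0) (nat_lit 6992) (XT.nd (nat_lit 468) (nat_lit 0) (nat_lit 0) (XT.nd (nat_lit 234) (nat_lit 0) (nat_lit 0) (XT.nd (nat_lit 78) (nat_lit 76) (nat_lit 0) (XT.lf (nat_lit 0) (nat_lit 5294869154) (nat_lit 152) (nat_lit 31558305058) (nat_lit 76) (nat_lit 450890953689) (nat_lit 5) (nat_lit 5) (nat_lit 7) (nat_lit 5) (nat_lit 6) (nat_lit 4) (nat_lit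 469) (nat_lit 357) (nat_lit 194)) (XT.nd (nat_lit 78) (nat_lit 0) (nat_lit 0) (XT.lf (nat_lit 0) (nat_lit 29331460320) (nat_lit 76) (nat_lit 5666080002) (nat_lit 152) (nat_lit 475559009166) (nat_lit 4) (nat_lit 5) (nat_lit 5) (nat_lit 5) (nat_lit 6) (nat_lit 4) (nat_lit 470) (nat_lit 357) (nat_lit 193)) (XT.lf (nat_lit 0) (nat_lit 67150299787) (nat_lit 152) (nat_lit 440555196357) (nat_lit 0) (nat_lit 26755848335) (nat_lit 4) (nat_lit 5) (nat_lit 6) (nat_lit 4) (nat_lit 4) (nat_lit 4) (nat_lit 471) (nat_lit 357) (nat_lit 192)))) (XT.nd (nat_lit 78) (nat_lit 0) (nat_lit 0) (XT.lf (nat_lit 0) (nat_lit 101002571934) (nat_lit 152) (nat_lit 397946706897) (nat_lit 0) (nat_lit 60607506711) (nat_lit 4) (nat_lit 5) (nat_lit 6) (nat_lit 4) (nat_lit 4) (nat_lit 4) (nat_lit 472) (nat_lit 357) (nat_lit 191)) (XT.nd (nat_lit 78) (nat_lit 0) (nat_lit 0) (XT.lf (nat_lit 0) (nat_lit 136546494024) (nat_lit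 152) (nat_lit 353209708616) (nat_lit 0) (nat_lit 96150844257) (nat_lit 4) (nat_lit 5) (nat_lit 6) (nat_lit 4) (nat_lit 4) (nat_lit 4) (nat_lit 473) (nat_lit 357) (nat_lit 190)) (XT.lf (nat_lit 0) (nat_lit 173866694443) (nat_lit 152) (nat_lit 306237684851) (nat_lit 0) (nat_lit 133470487967) (nat_lit 4) (nat_lit 5) (nat_lit 6) (nat_lit 4) (nat_lit 4) (nat_lit 4) (nat_lit 474) (nat_lit 357) (nat_lit 189))))) (XT.nd (nat_lit 44070) (nat_lit 0) (nat_lit 8892) (XT.nd (nat_lit 78) (nat_lit 0) (nat_lit 0) (XT.lf (nat_lit 0) (nat_lit 213052030810) (nat_lit 152) (nat_lit 256918797452) (nat_lit 0) (nat_lit 172655294135) (nat_lit 4) (nat_lit 5) (nat_lit 6) (nat_lit 4) (nat_lit 4) (nat_lit 4) (nat_lit 475) (nat_lit 357) (nat_lit 188)) (XT.nd (nat_lit 43914) (nat_lit 0) (nat_lit 8892) (XT.lf (nat_lit 0) (nat_lit 254195801546) (nat_lit 152) (nat_lit 205135620495) (nat_lit 0) (nat_lit 213798559920) (nat_lit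 4) (nat_lit 5) (nat_lit 6) (nat_lit 4) (nat_lit 4) (nat_lit 4) (nat_lit 476) (nat_lit 357) (nat_lit 187)) (XT.lf (nat_lit 0) (nat_lit 774731510) (nat_lit 0) (nat_lit 774731510) (nat_lit 684) (nat_lit 3576265289) (nat_lit 121) (nat_lit 5) (nat_lit 121) (nat_lit 3) (nat_lit 130) (nat_lit 3) (nat_lit 358) (nat_lit 358) (nat_lit 304)))) (XT.nd (nat_lit 78) (nat_lit 0) (nat_lit 0) (XT.lf (nat_lit 0) (nat_lit 3874131104) (nat_lit 684) (nat_lit 3791989596) (nat_lit 760) (nat_lit 2806243683) (nat_lit 121) (nat_lit 5) (nat_lit 130) (nat_lit 3) (nat_lit 131) (nat_lit 5) (nat_lit 359) (nat_lit 358) (nat_lit 303)) (XT.nd (nat_lit 78) (nat_lit 0) (nat_lit 76) (XT.lf (nat_lit 76) (nat_lit 1358257325) (nat_lit 0) (nat_lit 3335006150) (nat_lit 760) (nat_lit 6010827204) (nat_lit 122) (nat_lit 5) (nat_lit 121) (nat_lit 5) (nat_lit 131) (nat_lit 5) (nat_lit 360) (nat_lit 358) (nat_lit 302)) (XT.lf (nat_lit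 0) (nat_lit 5597995736) (nat_lit 684) (nat_lit 4091749657) (nat_lit 760) (nat_lit 1255455731) (nat_lit 122) (nat_lit 5) (nat_lit 131) (nat_lit 5) (nat_lit 132) (nat_lit 5) (nat_lit 361) (nat_lit 358) (nat_lit 301)))))) (XT.nd (nat_lit 468) (nat_lit 1368) (nat_lit 0) (XT.nd (nat_lit 234) (nat_lit 608) (nat_lit 0) (XT.nd (nat_lit 78) (nat_lit 0) (nat_lit 0) (XT.lf (nat_lit 76) (nat_lit 1390846159) (nat_lit 0) (nat_lit 5195827816) (nat_lit 760) (nat_lit 4609786220) (nat_lit 123) (nat_lit 5) (nat_lit 122) (nat_lit 5) (nat_lit 132) (nat_lit 5) (nat_lit 362) (nat_lit 358) (nat_lit 300)) (XT.nd (nat_lit 78) (nat_lit 0) (nat_lit 76) (XT.lf (nat_lit 76) (nat_lit 7265980150) (nat_lit 0) (nat_lit 391848836) (nat_lit 760) (nat_lit 3800828296) (nat_lit 123) (nat_lit 5) (nat_lit 122) (nat_lit 5) (nat_lit 132) (nat_lit 5) (nat_lit 363) (nat_lit 358) (nat_lit 299)) (XT.lf (nat_lit 76) (nat_lit 1656838391)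 (nat_lit 0) (nat_lit 7189868000) (nat_lit 760) (nat_lit 2884075516) (nat_lit 124) (nat_lit 5) (nat_lit 123) (nat_lit 5) (nat_lit 133) (nat_lit 5) (nat_lit 364) (nat_lit 358) (nat_lit 298)))) (XT.nd (nat_lit 78) (nat_lit 684) (nat_lit 0) (XT.lf (nat_lit 76) (nat_lit 7913686864) (nat_lit 0) (nat_lit 2225586262) (nat_lit 760) (nat_lit 1875052042) (nat_lit 124) (nat_lit 5) (nat_lit 123) (nat_lit 5) (nat_lit 133) (nat_lit 5) (nat_lit 365) (nat_lit 358) (nat_lit 297)) (XT.nd (nat_lit 78) (nat_lit 760) (nat_lit 0) (XT.lf (nat_lit 76) (nat_lit 2169481432) (nat_lit 0) (nat_lit 9376122018) (nat_lit 760) (nat_lit 764008884) (nat_lit 125) (nat_lit 5) (nat_lit 124) (nat_lit 5) (nat_lit 134) (nat_lit 5) (nat_lit 366) (nat_lit 358) (nat_lit 296)) (XT.lf (nat_lit 0) (nat_lit 465997937) (nat_lit 760) (nat_lit 3789923303) (nat_lit 836) (nat_lit 8359634823) (nat_lit 114) (nat_lit 5) (nat_lit 124) (nat_lit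 5) (nat_lit 125) (nat_lit 5) (nat_lit 367) (nat_lit 358) (nat_lit 295))))) (XT.nd (nat_lit 234) (nat_lit 684) (nat_lit 0) (XT.nd (nat_lit 78) (nat_lit 760) (nat_lit 0) (XT.lf (nat_lit 0) (nat_lit 1766876136) (nat_lit 760) (nat_lit 10018772177) (nat_lit 76) (nat_lit 1148790396) (nat_lit 115) (nat_lit 5) (nat_lit 125) (nat_lit 5) (nat_lit 116) (nat_lit 5) (nat_lit 368) (nat_lit 358) (nat_lit 294)) (XT.nd (nat_lit 78) (nat_lit 760) (nat_lit 0) (XT.lf (nat_lit 0) (nat_lit 3239593280) (nat_lit 760) (nat_lit 3273970951) (nat_lit 76) (nat_lit 6750380840) (nat_lit 115) (nat_lit 5) (nat_lit 125) (nat_lit 5) (nat_lit 116) (nat_lit 5) (nat_lit 369) (nat_lit 358) (nat_lit 293)) (XT.lf (nat_lit 0) (nat_lit 3909182184) (nat_lit 760) (nat_lit 910930195) (nat_lit 836) (nat_lit 8788124484) (nat_lit 105) (nat_lit 5) (nat_lit 115) (nat_lit 5) (nat_lit 116) (nat_lit 5) (nat_lit 370) (nat_lit 358) (nat_lit 292))))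 (XT.nd (nat_lit 156) (nat_lit 304) (nat_lit 0) (XT.nd (nat_lit 78) (nat_lit 380) (nat_lit 0) (XT.lf (nat_lit 0) (nat_lit 6587716888) (nat_lit 836) (nat_lit 2505317371) (nat_lit 76) (nat_lit 4871323552) (nat_lit 105) (nat_lit 5) (nat_lit 116) (nat_lit 5) (nat_lit 106) (nat_lit 5) (nat_lit 371) (nat_lit 358) (nat_lit 291)) (XT.lf (nat_lit 0) (nat_lit 5175024672) (nat_lit 380) (nat_lit 3339721090) (nat_lit 456) (nat_lit 5820003542) (nat_lit 100) (nat_lit 5) (nat_lit 105) (nat_lit 5) (nat_lit 106) (nat_lit 5) (nat_lit 372) (nat_lit 358) (nat_lit 290))) (XT.nd (nat_lit 78) (nat_lit 304) (nat_lit 0) (XT.lf (nat_lit 0) (nat_lit 10599556467) (nat_lit 456) (nat_lit 1462661425) (nat_lit 76) (nat_lit 2658386868) (nat_lit 100) (nat_lit 5) (nat_lit 106) (nat_lit 5) (nat_lit 101) (nat_lit 5) (nat_lit 373) (nat_lit 358) (nat_lit 289)) (XT.lf (nat_lit 0) (nat_lit 6757339122) (nat_lit 304) (nat_lit 6168787558)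 (nat_lit 380) (nat_lit 2192765511) (nat_lit 96) (nat_lit 5) (nat_lit 100) (nat_lit 5) (nat_lit 101) (nat_lit 5) (nat_lit 374) (nat_lit 358) (nat_lit 288))))))) (XT.nd (nat_lit 1014) (nat_lit 1520) (nat_lit 0) (XT.nd (nat_lit 468) (nat_lit 1064) (nat_lit 0) (XT.nd (nat_lit 234) (nat_lit 304) (nat_lit 0) (XT.nd (nat_lit 78) (nat_lit 760) (nat_lit 0) (XT.lf (nat_lit 0) (nat_lit 15372478215) (nat_lit 380) (nat_lit 121606713) (nat_lit 76) (nat_lit 42850854) (nat_lit 96) (nat_lit 5) (nat_lit 101) (nat_lit 5) (nat_lit 97) (nat_lit 5) (nat_lit 375) (nat_lit 358) (nat_lit 287)) (XT.nd (nat_lit 78) (nat_lit 304) (nat_lit 0) (XT.lf (nat_lit 0) (nat_lit 2121622945) (nat_lit 456) (nat_lit 7315185163) (nat_lit 76) (nat_lit 6526589471) (nat_lit 90) (nat_lit 5) (nat_lit 96) (nat_lit 5) (nat_lit 91) (nat_lit 5) (nat_lit 376) (nat_lit 358) (nat_lit 286)) (XT.lf (nat_lit 0) (nat_lit 1470667726) (nat_lit 304)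 (nat_lit 3050189949) (nat_lit 380) (nat_lit 11889983602) (nat_lit 86) (nat_lit 5) (nat_lit 90) (nat_lit 5) (nat_lit 91) (nat_lit 5) (nat_lit 377) (nat_lit 358) (nat_lit 285)))) (XT.nd (nat_lit 78) (nat_lit 304) (nat_lit 0) (XT.lf (nat_lit 0) (nat_lit 7202951185) (nat_lit 380) (nat_lit 6007720983) (nat_lit 76) (nat_lit 3661852009) (nat_lit 86) (nat_lit 5) (nat_lit 91) (nat_lit 5) (nat_lit 87) (nat_lit 5) (nat_lit 378) (nat_lit 358) (nat_lit 284)) (XT.nd (nat_lit 78) (nat_lit 0) (nat_lit 0) (XT.lf (nat_lit 0) (nat_lit 3407625402) (nat_lit 304) (nat_lit 6695589927) (nat_lit 380) (nat_lit 7249883903) (nat_lit 82) (nat_lit 5) (nat_lit 86) (nat_lit 5) (nat_lit 87) (nat_lit 5) (nat_lit 379) (nat_lit 358) (nat_lit 283)) (XT.lf (nat_lit 0) (nat_lit 13235533533) (nat_lit 380) (nat_lit 4377540923) (nat_lit 76) (nat_lit 240287308) (nat_lit 82) (nat_lit 5) (nat_lit 87) (nat_lit 5) (nat_lit 83) (nat_lit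 5) (nat_lit 380) (nat_lit 358) (nat_lit 282))))) (XT.nd (nat_lit 234) (nat_lit 456) (nat_lit 0) (XT.nd (nat_lit 78) (nat_lit 380) (nat_lit 0) (XT.lf (nat_lit 0) (nat_lit 5719904132) (nat_lit 228) (nat_lit 10985880118) (nat_lit 304) (nat_lit 1663797597) (nat_lit 79) (nat_lit 5) (nat_lit 82) (nat_lit 5) (nat_lit 83) (nat_lit 5) (nat_lit 381) (nat_lit 358) (nat_lit 281)) (XT.nd (nat_lit 78) (nat_lit 304) (nat_lit 0) (XT.lf (nat_lit 0) (nat_lit 1449724083) (nat_lit 304) (nat_lit 2479796532) (nat_lit 76) (nat_lit 14978088491) (nat_lit 78) (nat_lit 5) (nat_lit 82) (nat_lit 5) (nat_lit 79) (nat_lit 5) (nat_lit 382) (nat_lit 358) (nat_lit 280)) (XT.lf (nat_lit 0) (nat_lit 4834611165) (nat_lit 380) (nat_lit 11102881485) (nat_lit 76) (nat_lit 3525109977) (nat_lit 74) (nat_lit 5) (nat_lit 79) (nat_lit 5) (nat_lit 75) (nat_lit 5) (nat_lit 383) (nat_lit 358) (nat_lit 279)))) (XT.nd (nat_lit 156) (nat_lit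 228) (nat_lit 0) (XT.nd (nat_lit 78) (nat_lit 228) (nat_lit 0) (XT.lf (nat_lit 0) (nat_lit 8479535233) (nat_lit 380) (nat_lit 302803205) (nat_lit 76) (nat_lit 11258476190) (nat_lit 74) (nat_lit 5) (nat_lit 79) (nat_lit 5) (nat_lit 75) (nat_lit 5) (nat_lit 384) (nat_lit 358) (nat_lit 278)) (XT.lf (nat_lit 0) (nat_lit 11380814206) (nat_lit 228) (nat_lit 1088043645) (nat_lit 304) (nat_lit 8170979797) (nat_lit 71) (nat_lit 5) (nat_lit 74) (nat_lit 5) (nat_lit 75) (nat_lit 5) (nat_lit 385) (nat_lit 358) (nat_lit 277))) (XT.nd (nat_lit 78) (nat_lit 0) (nat_lit 0) (XT.lf (nat_lit 0) (nat_lit 2335003151) (nat_lit 228) (nat_lit 14458265140) (nat_lit 304) (nat_lit 4468770094) (nat_lit 68) (nat_lit 5) (nat_lit 71) (nat_lit 5) (nat_lit 72) (nat_lit 5) (nat_lit 386) (nat_lit 358) (nat_lit 276)) (XT.lf (nat_lit 0) (nat_lit 14791028120) (nat_lit 228) (nat_lit 6702431198) (nat_lit 304) (nat_lit 413919128)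 (nat_lit 68) (nat_lit 5) (nat_lit 71) (nat_lit 5) (nat_lit 72) (nat_lit 5) (nat_lit 387) (nat_lit 358) (nat_lit 275)))))) (XT.nd (nat_lit 468) (nat_lit 532) (nat_lit 0) (XT.nd (nat_lit 234) (nat_lit 456) (nat_lit 0) (XT.nd (nat_lit 78) (nat_lit 228) (nat_lit 0) (XT.lf (nat_lit 0) (nat_lit 3815039296) (nat_lit 304) (nat_lit 17226554724) (nat_lit 76) (nat_lit 1535678247) (nat_lit 64) (nat_lit 5) (nat_lit 68) (nat_lit 5) (nat_lit 65) (nat_lit 5) (nat_lit 388) (nat_lit 358) (nat_lit 274)) (XT.nd (nat_lit 78) (nat_lit 228) (nat_lit 0) (XT.lf (nat_lit 0) (nat_lit 8459856403) (nat_lit 304) (nat_lit 4725576928) (nat_lit 76) (nat_lit 10083978408) (nat_lit 64) (nat_lit 5) (nat_lit 68) (nat_lit 5) (nat_lit 65) (nat_lit 5) (nat_lit 389) (nat_lit 358) (nat_lit 273)) (XT.lf (nat_lit 0) (nat_lit 8658030015) (nat_lit 228) (nat_lit 4800680161) (nat_lit 304) (nat_lit 10531364214) (nat_lit 61) (nat_lit 5)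 (nat_lit 64) (nat_lit 5) (nat_lit 65) (nat_lit 5) (nat_lit 390) (nat_lit 358) (nat_lit 272)))) (XT.nd (nat_lit 78) (nat_lit 456) (nat_lit 0) (XT.lf (nat_lit 0) (nat_lit 18838211908) (nat_lit 304) (nat_lit 1951482133) (nat_lit 76) (nat_lit 3950546581) (nat_lit 61) (nat_lit 5) (nat_lit 65) (nat_lit 5) (nat_lit 62) (nat_lit 5) (nat_lit 391) (nat_lit 358) (nat_lit 271)) (XT.nd (nat_lit 78) (nat_lit 304) (nat_lit 0) (XT.lf (nat_lit 0) (nat_lit 12397366205) (nat_lit 152) (nat_lit 12349065987) (nat_lit 228) (nat_lit 768501236) (nat_lit 59) (nat_lit 5) (nat_lit 61) (nat_lit 5) (nat_lit 62) (nat_lit 5) (nat_lit 392) (nat_lit 358) (nat_lit 270)) (XT.lf (nat_lit 0) (nat_lit 1149855614) (nat_lit 228) (nat_lit 3363054805) (nat_lit 304) (nat_lit 21809890946) (nat_lit 55) (nat_lit 5) (nat_lit 58) (nat_lit 5) (nat_lit 59) (nat_lit 5) (nat_lit 393) (nat_lit 358) (nat_lit 269))))) (XT.nd (nat_lit 234) (nat_lit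 380) (nat_lit 0) (XT.nd (nat_lit 78) (nat_lit 152) (nat_lit 0) (XT.lf (nat_lit 0) (nat_lit 10340950796) (nat_lit 304) (nat_lit 10704088155) (nat_lit 76) (nat_lit 6109979285) (nat_lit 55) (nat_lit 5) (nat_lit 59) (nat_lit 5) (nat_lit 56) (nat_lit 5) (nat_lit 394) (nat_lit 358) (nat_lit 268)) (XT.nd (nat_lit 78) (nat_lit 0) (nat_lit 0) (XT.lf (nat_lit 0) (nat_lit 4560816987) (nat_lit 152) (nat_lit 12014282701) (nat_lit 228) (nat_lit 11448015411) (nat_lit 53) (nat_lit 5) (nat_lit 55) (nat_lit 5) (nat_lit 56) (nat_lit 5) (nat_lit 395) (nat_lit 358) (nat_lit 267)) (XT.lf (nat_lit 0) (nat_lit 20942645403) (nat_lit 152) (nat_lit 2348230636) (nat_lit 228) (nat_lit 5635249028) (nat_lit 53) (nat_lit 5) (nat_lit 55) (nat_lit 5) (nat_lit 56) (nat_lit 5) (nat_lit 396) (nat_lit 358) (nat_lit 266)))) (XT.nd (nat_lit 156) (nat_lit 152) (nat_lit 0) (XT.nd (nat_lit 78) (nat_lit 0) (nat_lit 0) (XT.lf (nat_lit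 0) (nat_lit 699144868) (nat_lit 228) (nat_lit 21474706948) (nat_lit 76) (nat_lit 7687773465) (nat_lit 50) (nat_lit 5) (nat_lit 53) (nat_lit 5) (nat_lit 51) (nat_lit 5) (nat_lit 397) (nat_lit 358) (nat_lit 265)) (XT.lf (nat_lit 0) (nat_lit 7325949209) (nat_lit 228) (nat_lit 5134844586) (nat_lit 76) (nat_lit 18370237732) (nat_lit 50) (nat_lit 5) (nat_lit 53) (nat_lit 5) (nat_lit 51) (nat_lit 5) (nat_lit 398) (nat_lit 358) (nat_lit 264))) (XT.nd (nat_lit 78) (nat_lit 0) (nat_lit 0) (XT.lf (nat_lit 0) (nat_lit 12402181265) (nat_lit 152) (nat_lit 2065217626) (nat_lit 228) (nat_lit 17372347444) (nat_lit 48) (nat_lit 5) (nat_lit 50) (nat_lit 5) (nat_lit 51) (nat_lit 5) (nat_lit 399) (nat_lit 358) (nat_lit 263)) (XT.lf (nat_lit 0) (nat_lit 22182289455) (nat_lit 228) (nat_lit 2056735435) (nat_lit 76) (nat_lit 8649056912) (nat_lit 48) (nat_lit 5) (nat_lit 51) (nat_lit 5) (nat_lit 49) (nat_lit 5) (nat_lit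 400) (nat_lit 358) (nat_lit 262))))))))
noncomputable def xc143 : XT := (XT.nd (nat_lit 1950) (nat_lit 988) (nat_lit 0) (XT.nd (nat_lit 936) (nat_lit 760) (nat_lit 0) (XT.nd (nat_lit 468) (nat_lit 456) (nat_lit 0) (XT.nd (nat_lit 234) (nat_lit 304) (nat_lit 0) (XT.nd (nat_lit 78) (nat_lit 228) (nat_lit 0) (XT.lf (nat_lit 0) (nat_lit 16676937041) (nat_lit 152) (nat_lit 13890508953) (nat_lit 228) (nat_lit 3407165155) (nat_lit 46) (nat_lit 5) (nat_lit 48) (nat_lit 5) (nat_lit 49) (nat_lit 5) (nat_lit 401) (nat_lit 358) (nat_lit 261)) (XT.nd (nat_lit 78) (nat_lit 0) (nat_lit 0) (XT.lf (nat_lit 0) (nat_lit 1262174239) (nat_lit 152) (nat_lit 2903444876) (nat_lit 228) (nat_lit 30944255177) (nat_lit 43) (nat_lit 5) (nat_lit 45) (nat_lit 5) (nat_lit 46) (nat_lit 5) (nat_lit 402) (nat_lit 358) (nat_lit 260)) (XT.lf (nat_lit 0) (nat_lit 12425529454) (nat_lit 228) (nat_lit 15148428519) (nat_lit 76)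 (nat_lit 8704003110) (nat_lit 43) (nat_lit 5) (nat_lit 46) (nat_lit 5) (nat_lit 44) (nat_lit 5) (nat_lit 403) (nat_lit 358) (nat_lit 259)))) (XT.nd (nat_lit 78) (nat_lit 152) (nat_lit 0) (XT.lf (nat_lit 0) (nat_lit 4568935103) (nat_lit 152) (nat_lit 16639344119) (nat_lit 228) (nat_lit 16290683412) (nat_lit 41) (nat_lit 5) (nat_lit 43) (nat_lit 5) (nat_lit 44) (nat_lit 5) (nat_lit 404) (nat_lit 358) (nat_lit 258)) (XT.nd (nat_lit 78) (nat_lit 152) (nat_lit 0) (XT.lf (nat_lit 0) (nat_lit 25782827787) (nat_lit 152) (nat_lit 4894991742) (nat_lit 228) (nat_lit 8090814574) (nat_lit 41) (nat_lit 5) (nat_lit 43) (nat_lit 5) (nat_lit 44) (nat_lit 5) (nat_lit 405) (nat_lit 358) (nat_lit 257)) (XT.lf (nat_lit 0) (nat_lit 740010422) (nat_lit 152) (nat_lit 32018664196) (nat_lit 76) (nat_lit 7330832821) (nat_lit 39) (nat_lit 5) (nat_lit 41) (nat_lit 5) (nat_lit 40) (nat_lit 5) (nat_lit 406) (nat_lit 358)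 (nat_lit 256))))) (XT.nd (nat_lit 234) (nat_lit 304) (nat_lit 0) (XT.nd (nat_lit 78) (nat_lit 152) (nat_lit 0) (XT.lf (nat_lit 0) (nat_lit 10035719955) (nat_lit 152) (nat_lit 11065659811) (nat_lit 76) (nat_lit 20353652628) (nat_lit 39) (nat_lit 5) (nat_lit 41) (nat_lit 5) (nat_lit 40) (nat_lit 5) (nat_lit 407) (nat_lit 358) (nat_lit 255)) (XT.nd (nat_lit 78) (nat_lit 0) (nat_lit 0) (XT.lf (nat_lit 0) (nat_lit 11281888308) (nat_lit 152) (nat_lit 8682350235) (nat_lit 228) (nat_lit 22916195924) (nat_lit 37) (nat_lit 5) (nat_lit 39) (nat_lit 5) (nat_lit 40) (nat_lit 5) (nat_lit 408) (nat_lit 358) (nat_lit 254)) (XT.lf (nat_lit 0) (nat_lit 30639648583) (nat_lit 228) (nat_lit 9322128825) (nat_lit 76) (nat_lit 4402807913) (nat_lit 37) (nat_lit 5) (nat_lit 40) (nat_lit 5) (nat_lit 38) (nat_lit 4) (nat_lit 409) (nat_lit 358) (nat_lit 253)))) (XT.nd (nat_lit 78) (nat_lit 228) (nat_lit 0) (XT.lf (nat_lit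 0) (nat_lit 14372181173) (nat_lit 76) (nat_lit 27835710845) (nat_lit 152) (nat_lit 3697100413) (nat_lit 36) (nat_lit 5) (nat_lit 37) (nat_lit 5) (nat_lit 38) (nat_lit 4) (nat_lit 410) (nat_lit 358) (nat_lit 252)) (XT.nd (nat_lit 78) (nat_lit 152) (nat_lit 0) (XT.lf (nat_lit 0) (nat_lit 6766290337) (nat_lit 152) (nat_lit 8062561834) (nat_lit 76) (nat_lit 32680594311) (nat_lit 35) (nat_lit 5) (nat_lit 37) (nat_lit 5) (nat_lit 36) (nat_lit 5) (nat_lit 411) (nat_lit 358) (nat_lit 251)) (XT.lf (nat_lit 0) (nat_lit 17053428215) (nat_lit 152) (nat_lit 834161202) (nat_lit 228) (nat_lit 31290555734) (nat_lit 33) (nat_lit 5) (nat_lit 35) (nat_lit 5) (nat_lit 36) (nat_lit 5) (nat_lit 412) (nat_lit 358) (nat_lit 250)))))) (XT.nd (nat_lit 468) (nat_lit 380) (nat_lit 0) (XT.nd (nat_lit 234) (nat_lit 228) (nat_lit 0) (XT.nd (nat_lit 78) (nat_lit 152) (nat_lit 0) (XT.lf (nat_lit 0) (nat_lit 29912925026)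 (nat_lit 228) (nat_lit 7449995635) (nat_lit 76) (nat_lit 13549961043) (nat_lit 33) (nat_lit 5) (nat_lit 36) (nat_lit 5) (nat_lit 34) (nat_lit 4) (nat_lit 413) (nat_lit 358) (nat_lit 249)) (XT.nd (nat_lit 78) (nat_lit 76) (nat_lit 0) (XT.lf (nat_lit 0) (nat_lit 19041825457) (nat_lit 76) (nat_lit 23801808421) (nat_lit 152) (nat_lit 9875517341) (nat_lit 32) (nat_lit 5) (nat_lit 33) (nat_lit 5) (nat_lit 34) (nat_lit 4) (nat_lit 414) (nat_lit 358) (nat_lit 248)) (XT.lf (nat_lit 0) (nat_lit 1868765616) (nat_lit 152) (nat_lit 7535238834) (nat_lit 76) (nat_lit 45204252034) (nat_lit 31) (nat_lit 5) (nat_lit 33) (nat_lit 5) (nat_lit 32) (nat_lit 5) (nat_lit 415) (nat_lit 358) (nat_lit 247)))) (XT.nd (nat_lit 78) (nat_lit 76) (nat_lit 0) (XT.lf (nat_lit 0) (nat_lit 14277253477) (nat_lit 228) (nat_lit 36272220945) (nat_lit 76) (nat_lit 6013805520) (nat_lit 29) (nat_lit 5) (nat_lit 32) (nat_lit 5) (nat_lit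 30) (nat_lit 4) (nat_lit 416) (nat_lit 358) (nat_lit 246)) (XT.nd (nat_lit 78) (nat_lit 76) (nat_lit 0) (XT.lf (nat_lit 0) (nat_lit 27583566049) (nat_lit 228) (nat_lit 9007552054) (nat_lit 76) (nat_lit 22011067652) (nat_lit 29) (nat_lit 5) (nat_lit 32) (nat_lit 5) (nat_lit 30) (nat_lit 4) (nat_lit 417) (nat_lit 358) (nat_lit 245)) (XT.lf (nat_lit 0) (nat_lit 20257379307) (nat_lit 76) (nat_lit 21607928814) (nat_lit 152) (nat_lit 18862224185) (nat_lit 28) (nat_lit 5) (nat_lit 29) (nat_lit 5) (nat_lit 30) (nat_lit 4) (nat_lit 418) (nat_lit 358) (nat_lit 244))))) (XT.nd (nat_lit 234) (nat_lit 228) (nat_lit 0) (XT.nd (nat_lit 78) (nat_lit 152) (nat_lit 0) (XT.lf (nat_lit 0) (nat_lit 51287128282) (nat_lit 76) (nat_lit 5720514942) (nat_lit 152) (nat_lit 5944178750) (nat_lit 28) (nat_lit 5) (nat_lit 29) (nat_lit 5) (nat_lit 30) (nat_lit 4) (nat_lit 419) (nat_lit 358) (nat_lit 243)) (XT.nd (nat_lit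 78) (nat_lit 0) (nat_lit 0) (XT.lf (nat_lit 0) (nat_lit 7845528320) (nat_lit 152) (nat_lit 46383338446) (nat_lit 76) (nat_lit 11029030071) (nat_lit 26) (nat_lit 5) (nat_lit 28) (nat_lit 5) (nat_lit 27) (nat_lit 4) (nat_lit 420) (nat_lit 358) (nat_lit 242)) (XT.lf (nat_lit 0) (nat_lit 22413708890) (nat_lit 152) (nat_lit 16528967142) (nat_lit 76) (nat_lit 28717290495) (nat_lit 26) (nat_lit 5) (nat_lit 28) (nat_lit 5) (nat_lit 27) (nat_lit 4) (nat_lit 421) (nat_lit 358) (nat_lit 241)))) (XT.nd (nat_lit 156) (nat_lit 152) (nat_lit 0) (XT.nd (nat_lit 78) (nat_lit 0) (nat_lit 0) (XT.lf (nat_lit 0) (nat_lit 15297400799) (nat_lit 76) (nat_lit 22646196688) (nat_lit 152) (nat_lit 32226878161) (nat_lit 25) (nat_lit 5) (nat_lit 26) (nat_lit 5) (nat_lit 27) (nat_lit 4) (nat_lit 422) (nat_lit 358) (nat_lit 240)) (XT.lf (nat_lit 0) (nat_lit 49278767949) (nat_lit 76) (nat_lit 5245707210) (nat_lit 152) (nat_lit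 18268311184) (nat_lit 25) (nat_lit 5) (nat_lit 26) (nat_lit 5) (nat_lit 27) (nat_lit 4) (nat_lit 423) (nat_lit 358) (nat_lit 239))) (XT.nd (nat_lit 78) (nat_lit 76) (nat_lit 0) (XT.lf (nat_lit 0) (nat_lit 9503950457) (nat_lit 76) (nat_lit 62776940098) (nat_lit 76) (nat_lit 3247998137) (nat_lit 24) (nat_lit 4) (nat_lit 25) (nat_lit 5) (nat_lit 25) (nat_lit 4) (nat_lit 424) (nat_lit 358) (nat_lit 238)) (XT.lf (nat_lit 0) (nat_lit 12608020205) (nat_lit 152) (nat_lit 33690648322) (nat_lit 76) (nat_lit 32069076431) (nat_lit 23) (nat_lit 5) (nat_lit 25) (nat_lit 5) (nat_lit 24) (nat_lit 4) (nat_lit 425) (nat_lit 358) (nat_lit 237))))))) (XT.nd (nat_lit 1014) (nat_lit 456) (nat_lit 0) (XT.nd (nat_lit 468) (nat_lit 228) (nat_lit 0) (XT.nd (nat_lit 234) (nat_lit 228) (nat_lit 0) (XT.nd (nat_lit 78) (nat_lit 0) (nat_lit 0) (XT.lf (nat_lit 0) (nat_lit 204230783) (nat_lit 76) (nat_lit 28941662056) (nat_lit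 152) (nat_lit 52200079236) (nat_lit 22) (nat_lit 5) (nat_lit 23) (nat_lit 5) (nat_lit 24) (nat_lit 4) (nat_lit 426) (nat_lit 358) (nat_lit 236)) (XT.nd (nat_lit 78) (nat_lit 0) (nat_lit 0) (XT.lf (nat_lit 0) (nat_lit 36954252858) (nat_lit 76) (nat_lit 10122085032) (nat_lit 152) (nat_lit 37368489385) (nat_lit 22) (nat_lit 5) (nat_lit 23) (nat_lit 5) (nat_lit 24) (nat_lit 4) (nat_lit 427) (nat_lit 358) (nat_lit 235)) (XT.lf (nat_lit 0) (nat_lit 66049067821) (nat_lit 152) (nat_lit 12316324173) (nat_lit 0) (nat_lit 9325945745) (nat_lit 22) (nat_lit 5) (nat_lit 24) (nat_lit 4) (nat_lit 22) (nat_lit 4) (nat_lit 428) (nat_lit 358) (nat_lit 234)))) (XT.nd (nat_lit 78) (nat_lit 152) (nat_lit 0) (XT.lf (nat_lit 0) (nat_lit 25250307008) (nat_lit 76) (nat_lit 61275795006) (nat_lit 76) (nat_lit 4546288929) (nat_lit 21) (nat_lit 4) (nat_lit 22) (nat_lit 5) (nat_lit 22) (nat_lit 4) (nat_lit 429) (nat_lit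 358) (nat_lit 233)) (XT.nd (nat_lit 78) (nat_lit 76) (nat_lit 0) (XT.lf (nat_lit 0) (nat_lit 13182979522) (nat_lit 152) (nat_lit 29710478058) (nat_lit 76) (nat_lit 51708199902) (nat_lit 20) (nat_lit 5) (nat_lit 22) (nat_lit 5) (nat_lit 21) (nat_lit 4) (nat_lit 430) (nat_lit 358) (nat_lit 232)) (XT.lf (nat_lit 0) (nat_lit 8392629590) (nat_lit 76) (nat_lit 23380056334) (nat_lit 152) (nat_lit 66524637496) (nat_lit 19) (nat_lit 5) (nat_lit 20) (nat_lit 5) (nat_lit 21) (nat_lit 4) (nat_lit 431) (nat_lit 358) (nat_lit 231))))) (XT.nd (nat_lit 234) (nat_lit 152) (nat_lit 0) (XT.nd (nat_lit 78) (nat_lit 76) (nat_lit 0) (XT.lf (nat_lit 0) (nat_lit 49424339282) (nat_lit 76) (nat_lit 2366504902) (nat_lit 152) (nat_lit 50361980643) (nat_lit 19) (nat_lit 5) (nat_lit 20) (nat_lit 5) (nat_lit 21) (nat_lit 4) (nat_lit 432) (nat_lit 358) (nat_lit 230)) (XT.nd (nat_lit 78) (nat_lit 76) (nat_lit 0) (XT.lf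 (nat_lit 0) (nat_lit 73113394911) (nat_lit 152) (nat_lit 14008798139) (nat_lit 0) (nat_lit 19063734501) (nat_lit 19) (nat_lit 5) (nat_lit 21) (nat_lit 4) (nat_lit 19) (nat_lit 4) (nat_lit 433) (nat_lit 358) (nat_lit 229)) (XT.lf (nat_lit 0) (nat_lit 27480192819) (nat_lit 76) (nat_lit 68485859177) (nat_lit 76) (nat_lit 14431434926) (nat_lit 18) (nat_lit 4) (nat_lit 19) (nat_lit 5) (nat_lit 19) (nat_lit 4) (nat_lit 434) (nat_lit 358) (nat_lit 228)))) (XT.nd (nat_lit 156) (nat_lit 76) (nat_lit 0) (XT.nd (nat_lit 78) (nat_lit 0) (nat_lit 0) (XT.lf (nat_lit 0) (nat_lit 5214433684) (nat_lit 152) (nat_lit 43369372189) (nat_lit 76) (nat_lit 66219940813) (nat_lit 17) (nat_lit 5) (nat_lit 19) (nat_lit 5) (nat_lit 18) (nat_lit 4) (nat_lit 435) (nat_lit 358) (nat_lit 227)) (XT.lf (nat_lit 0) (nat_lit 25353936343) (nat_lit 152) (nat_lit 2087712681) (nat_lit 76) (nat_lit 91977025185) (nat_lit 17) (nat_lit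 5) (nat_lit 19) (nat_lit 5) (nat_lit 18) (nat_lit 4) (nat_lit 436) (nat_lit 358) (nat_lit 226))) (XT.nd (nat_lit 78) (nat_lit 0) (nat_lit 0) (XT.lf (nat_lit 0) (nat_lit 42615243144) (nat_lit 76) (nat_lit 4547020520) (nat_lit 152) (nat_lit 77068992340) (nat_lit 16) (nat_lit 5) (nat_lit 17) (nat_lit 5) (nat_lit 18) (nat_lit 4) (nat_lit 437) (nat_lit 358) (nat_lit 225)) (XT.lf (nat_lit 0) (nat_lit 70397792450) (nat_lit 152) (nat_lit 39968535080) (nat_lit 0) (nat_lit 18901300457) (nat_lit 16) (nat_lit 5) (nat_lit 18) (nat_lit 4) (nat_lit 16) (nat_lit 4) (nat_lit 438) (nat_lit 358) (nat_lit 224)))))) (XT.nd (nat_lit 468) (nat_lit 228) (nat_lit 0) (XT.nd (nat_lit 234) (nat_lit 76) (nat_lit 0) (XT.nd (nat_lit 78) (nat_lit 76) (nat_lit 0) (XT.lf (nat_lit 0) (nat_lit 3802031854) (nat_lit 76) (nat_lit 91123652287) (nat_lit 76) (nat_lit 39623605443) (nat_lit 15) (nat_lit 4) (nat_lit 16) (nat_lit 5)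 (nat_lit 16) (nat_lit 4) (nat_lit 439) (nat_lit 358) (nat_lit 223)) (XT.nd (nat_lit 78) (nat_lit 76) (nat_lit 0) (XT.lf (nat_lit 0) (nat_lit 51142415991) (nat_lit 76) (nat_lit 70211184745) (nat_lit 76) (nat_lit 18707752329) (nat_lit 15) (nat_lit 4) (nat_lit 16) (nat_lit 5) (nat_lit 16) (nat_lit 4) (nat_lit 440) (nat_lit 358) (nat_lit 222)) (XT.lf (nat_lit 0) (nat_lit 3146596288) (nat_lit 152) (nat_lit 45056134379) (nat_lit 76) (nat_lit 97643906838) (nat_lit 14) (nat_lit 5) (nat_lit 16) (nat_lit 5) (nat_lit 15) (nat_lit 4) (nat_lit 441) (nat_lit 358) (nat_lit 221)))) (XT.nd (nat_lit 78) (nat_lit 0) (nat_lit 0) (XT.lf (nat_lit 0) (nat_lit 710009096) (nat_lit 76) (nat_lit 24763033186) (nat_lit 152) (nat_lit 126432405782) (nat_lit 13) (nat_lit 5) (nat_lit 14) (nat_lit 5) (nat_lit 15) (nat_lit 4) (nat_lit 442) (nat_lit 358) (nat_lit 220)) (XT.nd (nat_lit 78) (nat_lit 0) (nat_lit 0) (XT.lf (nat_lit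 0) (nat_lit 49686011440) (nat_lit 152) (nat_lit 107916335227) (nat_lit 0) (nat_lit 626342707) (nat_lit 13) (nat_lit 5) (nat_lit 15) (nat_lit 4) (nat_lit 13) (nat_lit 4) (nat_lit 443) (nat_lit 358) (nat_lit 219)) (XT.lf (nat_lit 0) (nat_lit 75512730380) (nat_lit 152) (nat_lit 62884798590) (nat_lit 0) (nat_lit 26450408963) (nat_lit 13) (nat_lit 5) (nat_lit 15) (nat_lit 4) (nat_lit 13) (nat_lit 4) (nat_lit 444) (nat_lit 358) (nat_lit 218))))) (XT.nd (nat_lit 234) (nat_lit 152) (nat_lit 0) (XT.nd (nat_lit 78) (nat_lit 76) (nat_lit 0) (XT.lf (nat_lit 0) (nat_lit 102628070946) (nat_lit 152) (nat_lit 15606990766) (nat_lit 0) (nat_lit 53563223163) (nat_lit 13) (nat_lit 5) (nat_lit 15) (nat_lit 4) (nat_lit 13) (nat_lit 4) (nat_lit 445) (nat_lit 358) (nat_lit 217)) (XT.nd (nat_lit 78) (nat_lit 0) (nat_lit 0) (XT.lf (nat_lit 0) (nat_lit 35154828510) (nat_lit 76) (nat_lit 96490630357) (nat_lit 76) (nat_lit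 47423376511) (nat_lit 12) (nat_lit 4) (nat_lit 13) (nat_lit 5) (nat_lit 13) (nat_lit 4) (nat_lit 446) (nat_lit 358) (nat_lit 216)) (XT.lf (nat_lit 0) (nat_lit 88991606733) (nat_lit 76) (nat_lit 73383881803) (nat_lit 76) (nat_lit 24314336468) (nat_lit 12) (nat_lit 4) (nat_lit 13) (nat_lit 5) (nat_lit 13) (nat_lit 4) (nat_lit 447) (nat_lit 358) (nat_lit 215)))) (XT.nd (nat_lit 156) (nat_lit 0) (nat_lit 0) (XT.nd (nat_lit 78) (nat_lit 152) (nat_lit 0) (XT.lf (nat_lit 0) (nat_lit 145515489109) (nat_lit 76) (nat_lit 49124111924) (nat_lit 76) (nat_lit 52384219) (nat_lit 12) (nat_lit 4) (nat_lit 13) (nat_lit 5) (nat_lit 13) (nat_lit 4) (nat_lit 448) (nat_lit 358) (nat_lit 214)) (XT.lf (nat_lit 0) (nat_lit 1415098109) (nat_lit 76) (nat_lit 23213635676) (nat_lit 152) (nat_lit 178444686351) (nat_lit 10) (nat_lit 5) (nat_lit 11) (nat_lit 5) (nat_lit 12) (nat_lit 4) (nat_lit 449) (nat_lit 358) (nat_lit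 213))) (XT.nd (nat_lit 78) (nat_lit 0) (nat_lit 0) (XT.lf (nat_lit 0) (nat_lit 51448624967) (nat_lit 152) (nat_lit 155670153640) (nat_lit 0) (nat_lit 4709781513) (nat_lit 10) (nat_lit 5) (nat_lit 12) (nat_lit 4) (nat_lit 10) (nat_lit 4) (nat_lit 450) (nat_lit 358) (nat_lit 212)) (XT.lf (nat_lit 0) (nat_lit 79987838359) (nat_lit 152) (nat_lit 107767503067) (nat_lit 0) (nat_lit 33247199464) (nat_lit 10) (nat_lit 5) (nat_lit 12) (nat_lit 4) (nat_lit 10) (nat_lit 4) (nat_lit 451) (nat_lit 358) (nat_lit 211))))))))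
noncomputable def xc144 : XT := (XT.nd (nat_lit 45864) (nat_lit 0) (nat_lit 5320) (XT.nd (nat_lit 936) (nat_lit 228) (nat_lit 0) (XT.nd (nat_lit 468) (nat_lit 76) (nat_lit 0) (XT.nd (nat_lit 234) (nat_lit 76) (nat_lit 0) (XT.nd (nat_lit 78) (nat_lit 76) (nat_lit 0) (XT.lf (nat_lit 0) (nat_lit 109951894561) (nat_lit 152) (nat_lit 57473886471) (nat_lit 0) (nat_lit 63209545721) (nat_lit 10) (nat_lit 5) (nat_lit 12) (nat_lit 4) (nat_lit 10) (nat_lit 4) (nat_lit 452) (nat_lit 358) (nat_lit 210)) (XT.nd (nat_lit 78) (nat_lit 76) (nat_lit 0) (XT.lf (nat_lit 0) (nat_lit 141412136563) (nat_lit 152) (nat_lit 4669557146) (nat_lit 0) (nat_lit 94668159206) (nat_lit 10) (nat_lit 5) (nat_lit 12) (nat_lit 4) (nat_lit 10) (nat_lit 4) (nat_lit 453) (nat_lit 358) (nat_lit 209)) (XT.lf (nat_lit 0) (nat_lit 52449934977) (nat_lit 76) (nat_lit 122812425203) (nat_lit 76) (nat_lit 76066896875) (nat_lit 9) (nat_lit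 4) (nat_lit 10) (nat_lit 5) (nat_lit 10) (nat_lit 4) (nat_lit 454) (nat_lit 358) (nat_lit 208)))) (XT.nd (nat_lit 78) (nat_lit 76) (nat_lit 0) (XT.lf (nat_lit 0) (nat_lit 112583799998) (nat_lit 76) (nat_lit 98298488651) (nat_lit 76) (nat_lit 51551483210) (nat_lit 9) (nat_lit 4) (nat_lit 10) (nat_lit 5) (nat_lit 10) (nat_lit 4) (nat_lit 455) (nat_lit 358) (nat_lit 207)) (XT.nd (nat_lit 78) (nat_lit 76) (nat_lit 0) (XT.lf (nat_lit 0) (nat_lit 175720817138) (nat_lit 76) (nat_lit 72560598750) (nat_lit 76) (nat_lit 25812186533) (nat_lit 9) (nat_lit 4) (nat_lit 10) (nat_lit 5) (nat_lit 10) (nat_lit 4) (nat_lit 456) (nat_lit 358) (nat_lit 206)) (XT.lf (nat_lit 0) (nat_lit 1173476753) (nat_lit 152) (nat_lit 44344124657) (nat_lit 76) (nat_lit 240817962477) (nat_lit 8) (nat_lit 5) (nat_lit 10) (nat_lit 5) (nat_lit 9) (nat_lit 4) (nat_lit 457) (nat_lit 358) (nat_lit 205))))) (XT.nd (nat_lit 234) (nat_lit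 0) (nat_lit 0) (XT.nd (nat_lit 78) (nat_lit 0) (nat_lit 0) (XT.lf (nat_lit 0) (nat_lit 12354988360) (nat_lit 76) (nat_lit 16477214737) (nat_lit 152) (nat_lit 270326700985) (nat_lit 7) (nat_lit 5) (nat_lit 8) (nat_lit 5) (nat_lit 9) (nat_lit 4) (nat_lit 458) (nat_lit 358) (nat_lit 204)) (XT.nd (nat_lit 78) (nat_lit 0) (nat_lit 0) (XT.lf (nat_lit 0) (nat_lit 58854329290) (nat_lit 152) (nat_lit 239391675556) (nat_lit 0) (nat_lit 14328383372) (nat_lit 7) (nat_lit 5) (nat_lit 9) (nat_lit 4) (nat_lit 7) (nat_lit 4) (nat_lit 459) (nat_lit 358) (nat_lit 203)) (XT.lf (nat_lit 0) (nat_lit 90646105414) (nat_lit 152) (nat_lit 189882056821) (nat_lit 0) (nat_lit 46119057250) (nat_lit 7) (nat_lit 5) (nat_lit 9) (nat_lit 4) (nat_lit 7) (nat_lit 4) (nat_lit 460) (nat_lit 358) (nat_lit 202)))) (XT.nd (nat_lit 78) (nat_lit 0) (nat_lit 0) (XT.lf (nat_lit 0) (nat_lit 124025970673) (nat_lit 152) (nat_lit 137899923973)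 (nat_lit 0) (nat_lit 79497872752) (nat_lit 7) (nat_lit 5) (nat_lit 9) (nat_lit 4) (nat_lit 7) (nat_lit 4) (nat_lit 461) (nat_lit 358) (nat_lit 201)) (XT.nd (nat_lit 78) (nat_lit 0) (nat_lit 0) (XT.lf (nat_lit 0) (nat_lit 159073400937) (nat_lit 152) (nat_lit 83321510030) (nat_lit 0) (nat_lit 114544303247) (nat_lit 7) (nat_lit 5) (nat_lit 9) (nat_lit 4) (nat_lit 7) (nat_lit 4) (nat_lit 462) (nat_lit 358) (nat_lit 200)) (XT.lf (nat_lit 0) (nat_lit 195871842469) (nat_lit 152) (nat_lit 26016866387) (nat_lit 0) (nat_lit 151341792618) (nat_lit 7) (nat_lit 5) (nat_lit 9) (nat_lit 4) (nat_lit 7) (nat_lit 4) (nat_lit 463) (nat_lit 358) (nat_lit 199)))))) (XT.nd (nat_lit 468) (nat_lit 152) (nat_lit 0) (XT.nd (nat_lit 234) (nat_lit 0) (nat_lit 0) (XT.nd (nat_lit 78) (nat_lit 0) (nat_lit 0) (XT.lf (nat_lit 0) (nat_lit 35279614575) (nat_lit 76) (nat_lit 199780109685) (nat_lit 76) (nat_lit 155249153014)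 (nat_lit 6) (nat_lit 4) (nat_lit 7) (nat_lit 5) (nat_lit 7) (nat_lit 4) (nat_lit 464) (nat_lit 358) (nat_lit 198)) (XT.nd (nat_lit 78) (nat_lit 0) (nat_lit 0) (XT.lf (nat_lit 0) (nat_lit 100541644922) (nat_lit 76) (nat_lit 176104690290) (nat_lit 76) (nat_lit 131572869981) (nat_lit 6) (nat_lit 4) (nat_lit 7) (nat_lit 5) (nat_lit 7) (nat_lit 4) (nat_lit 465) (nat_lit 358) (nat_lit 197)) (XT.lf (nat_lit 0) (nat_lit 169064375341) (nat_lit 76) (nat_lit 151246688846) (nat_lit 76) (nat_lit 106714046025) (nat_lit 6) (nat_lit 4) (nat_lit 7) (nat_lit 5) (nat_lit 7) (nat_lit 4) (nat_lit 466) (nat_lit 358) (nat_lit 196)))) (XT.nd (nat_lit 78) (nat_lit 0) (nat_lit 0) (XT.lf (nat_lit 0) (nat_lit 241010955189) (nat_lit 76) (nat_lit 125146919635) (nat_lit 76) (nat_lit 80613493469) (nat_lit 6) (nat_lit 4) (nat_lit 7) (nat_lit 5) (nat_lit 7) (nat_lit 4) (nat_lit 467) (nat_lit 358) (nat_lit 195)) (XT.nd (nat_lit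 78) (nat_lit 0) (nat_lit 0) (XT.lf (nat_lit 0) (nat_lit 316552685848) (nat_lit 76) (nat_lit 97743240351) (nat_lit 76) (nat_lit 53209068142) (nat_lit 6) (nat_lit 4) (nat_lit 7) (nat_lit 5) (nat_lit 7) (nat_lit 4) (nat_lit 468) (nat_lit 358) (nat_lit 194)) (XT.lf (nat_lit 0) (nat_lit 395869428581) (nat_lit 76) (nat_lit 68970404137) (nat_lit 76) (nat_lit 24435521411) (nat_lit 6) (nat_lit 4) (nat_lit 7) (nat_lit 5) (nat_lit 7) (nat_lit 4) (nat_lit 469) (nat_lit 358) (nat_lit 193))))) (XT.nd (nat_lit 234) (nat_lit 0) (nat_lit 0) (XT.nd (nat_lit 78) (nat_lit 76) (nat_lit 0) (XT.lf (nat_lit 0) (nat_lit 5590798131) (nat_lit 152) (nat_lit 33074423238) (nat_lit 76) (nat_lit 473464551771) (nat_lit 5) (nat_lit 5) (nat_lit 7) (nat_lit 5) (nat_lit 6) (nat_lit 4) (nat_lit 470) (nat_lit 358) (nat_lit 192)) (XT.nd (nat_lit 78) (nat_lit 0) (nat_lit 0) (XT.lf (nat_lit 0) (nat_lit 30858833682) (nat_lit 76)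 (nat_lit 5919233415) (nat_lit 152) (nat_lit 499304775588) (nat_lit 4) (nat_lit 5) (nat_lit 5) (nat_lit 5) (nat_lit 6) (nat_lit 4) (nat_lit 471) (nat_lit 358) (nat_lit 191)) (XT.lf (nat_lit 0) (nat_lit 70537453342) (nat_lit 152) (nat_lit 462524038186) (nat_lit 0) (nat_lit 28121436542) (nat_lit 4) (nat_lit 5) (nat_lit 6) (nat_lit 4) (nat_lit 4) (nat_lit 4) (nat_lit 472) (nat_lit 358) (nat_lit 190)))) (XT.nd (nat_lit 156) (nat_lit 0) (nat_lit 0) (XT.nd (nat_lit 78) (nat_lit 0) (nat_lit 0) (XT.lf (nat_lit 0) (nat_lit 106080927737) (nat_lit 152) (nat_lit 417787929871) (nat_lit 0) (nat_lit 63664354228) (nat_lit 4) (nat_lit 5) (nat_lit 6) (nat_lit 4) (nat_lit 4) (nat_lit 4) (nat_lit 473) (nat_lit 358) (nat_lit 189)) (XT.lf (nat_lit 0) (nat_lit 143400701779) (nat_lit 152) (nat_lit 370816753694) (nat_lit 0) (nat_lit 100983598071) (nat_lit 4) (nat_lit 5) (nat_lit 6) (nat_lit 4) (nat_lit 4) (nat_lit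 4) (nat_lit 474) (nat_lit 358) (nat_lit 188))) (XT.nd (nat_lit 78) (nat_lit 0) (nat_lit 0) (XT.lf (nat_lit 0) (nat_lit 182585632073) (nat_lit 152) (nat_lit 321498673520) (nat_lit 0) (nat_lit 140168023414) (nat_lit 4) (nat_lit 5) (nat_lit 6) (nat_lit 4) (nat_lit 4) (nat_lit 4) (nat_lit 475) (nat_lit 358) (nat_lit 187)) (XT.lf (nat_lit 0) (nat_lit 223729016072) (nat_lit 152) (nat_lit 269716265349) (nat_lit 0) (nat_lit 181310926507) (nat_lit 4) (nat_lit 5) (nat_lit 6) (nat_lit 4) (nat_lit 4) (nat_lit 4) (nat_lit 476) (nat_lit 358) (nat_lit 186))))))) (XT.nd (nat_lit 1014) (nat_lit 2356) (nat_lit 0) (XT.nd (nat_lit 468) (nat_lit 1216) (nat_lit 0) (XT.nd (nat_lit 234) (nat_lit 0) (nat_lit 76) (XT.nd (nat_lit 78) (nat_lit 0) (nat_lit 0) (XT.lf (nat_lit 0) (nat_lit 1134609602) (nat_lit 0) (nat_lit 1134609602) (nat_lit 684) (nat_lit 3080196995) (nat_lit 121) (nat_lit 5) (nat_lit 121) (nat_lit 3)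 (nat_lit 130) (nat_lit 3) (nat_lit 359) (nat_lit 359) (nat_lit 302)) (XT.nd (nat_lit 78) (nat_lit 0) (nat_lit 0) (XT.lf (nat_lit 0) (nat_lit 5281683589) (nat_lit 684) (nat_lit 3298248198) (nat_lit 760) (nat_lit 2354435901) (nat_lit 121) (nat_lit 5) (nat_lit 130) (nat_lit 3) (nat_lit 131) (nat_lit 5) (nat_lit 360) (nat_lit 359) (nat_lit 301)) (XT.lf (nat_lit 76) (nat_lit 2098489443) (nat_lit 0) (nat_lit 3995977737) (nat_lit 760) (nat_lit 5085622324) (nat_lit 122) (nat_lit 5) (nat_lit 121) (nat_lit 5) (nat_lit 131) (nat_lit 5) (nat_lit 361) (nat_lit 359) (nat_lit 300)))) (XT.nd (nat_lit 78) (nat_lit 0) (nat_lit 0) (XT.lf (nat_lit 0) (nat_lit 6981537763) (nat_lit 684) (nat_lit 3592297959) (nat_lit 760) (nat_lit 862606506) (nat_lit 122) (nat_lit 5) (nat_lit 131) (nat_lit 5) (nat_lit 132) (nat_lit 5) (nat_lit 362) (nat_lit 359) (nat_lit 299)) (XT.nd (nat_lit 78) (nat_lit 0) (nat_lit 0) (XT.lf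 (nat_lit 76) (nat_lit 2153072177) (nat_lit 0) (nat_lit 5824838078) (nat_lit 760) (nat_lit 3724480829) (nat_lit 123) (nat_lit 5) (nat_lit 122) (nat_lit 5) (nat_lit 132) (nat_lit 5) (nat_lit 363) (nat_lit 359) (nat_lit 298)) (XT.lf (nat_lit 76) (nat_lit 8288977930) (nat_lit 0) (nat_lit 763078298) (nat_lit 760) (nat_lit 2928208090) (nat_lit 123) (nat_lit 5) (nat_lit 122) (nat_lit 5) (nat_lit 132) (nat_lit 5) (nat_lit 364) (nat_lit 359) (nat_lit 297))))) (XT.nd (nat_lit 234) (nat_lit 684) (nat_lit 0) (XT.nd (nat_lit 78) (nat_lit 684) (nat_lit 0) (XT.lf (nat_lit 76) (nat_lit 2444638264) (nat_lit 0) (nat_lit 7813358152) (nat_lit 760) (nat_lit 2010153956) (nat_lit 124) (nat_lit 5) (nat_lit 123) (nat_lit 5) (nat_lit 133) (nat_lit 5) (nat_lit 365) (nat_lit 359) (nat_lit 296)) (XT.nd (nat_lit 78) (nat_lit 684) (nat_lit 0) (XT.lf (nat_lit 76) (nat_lit 8980759733) (nat_lit 0) (nat_lit 2588291054) (nat_lit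 760) (nat_lit 999161468) (nat_lit 124) (nat_lit 5) (nat_lit 123) (nat_lit 5) (nat_lit 133) (nat_lit 5) (nat_lit 366) (nat_lit 359) (nat_lit 295)) (XT.lf (nat_lit 0) (nat_lit 124854135) (nat_lit 760) (nat_lit 9893688614) (nat_lit 836) (nat_lit 2861482588) (nat_lit 114) (nat_lit 5) (nat_lit 124) (nat_lit 5) (nat_lit 125) (nat_lit 5) (nat_lit 367) (nat_lit 359) (nat_lit 294)))) (XT.nd (nat_lit 156) (nat_lit 684) (nat_lit 0) (XT.nd (nat_lit 78) (nat_lit 0) (nat_lit 76) (XT.lf (nat_lit 0) (nat_lit 1347762363) (nat_lit 760) (nat_lit 3273777470) (nat_lit 836) (nat_lit 8581276080) (nat_lit 114) (nat_lit 5) (nat_lit 124) (nat_lit 5) (nat_lit 125) (nat_lit 5) (nat_lit 368) (nat_lit 359) (nat_lit 293)) (XT.lf (nat_lit 0) (nat_lit 2681549889) (nat_lit 760) (nat_lit 9781367797) (nat_lit 76) (nat_lit 1076360055) (nat_lit 115) (nat_lit 5) (nat_lit 125) (nat_lit 5) (nat_lit 116) (nat_lit 5) (nat_lit 369)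 (nat_lit 359) (nat_lit 292))) (XT.nd (nat_lit 78) (nat_lit 760) (nat_lit 0) (XT.lf (nat_lit 0) (nat_lit 4188553845) (nat_lit 760) (nat_lit 2734485700) (nat_lit 76) (nat_lit 6964214300) (nat_lit 115) (nat_lit 5) (nat_lit 125) (nat_lit 5) (nat_lit 116) (nat_lit 5) (nat_lit 370) (nat_lit 359) (nat_lit 291)) (XT.lf (nat_lit 0) (nat_lit 4796483418) (nat_lit 760) (nat_lit 1024941794) (nat_lit 836) (nat_lit 8428694386) (nat_lit 105) (nat_lit 5) (nat_lit 115) (nat_lit 5) (nat_lit 116) (nat_lit 5) (nat_lit 371) (nat_lit 359) (nat_lit 290)))))) (XT.nd (nat_lit 468) (nat_lit 1216) (nat_lit 0) (XT.nd (nat_lit 234) (nat_lit 760) (nat_lit 0) (XT.nd (nat_lit 78) (nat_lit 380) (nat_lit 0) (XT.lf (nat_lit 0) (nat_lit 7640186811) (nat_lit 836) (nat_lit 1933973559) (nat_lit 76) (nat_lit 5051771845) (nat_lit 105) (nat_lit 5) (nat_lit 116) (nat_lit 5) (nat_lit 106) (nat_lit 5) (nat_lit 372) (nat_lit 359) (nat_lit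 289)) (XT.nd (nat_lit 78) (nat_lit 0) (nat_lit 0) (XT.lf (nat_lit 0) (nat_lit 6119149946) (nat_lit 380) (nat_lit 3520685215) (nat_lit 456) (nat_lit 5376218017) (nat_lit 100) (nat_lit 5) (nat_lit 105) (nat_lit 5) (nat_lit 106) (nat_lit 5) (nat_lit 373) (nat_lit 359) (nat_lit 288)) (XT.lf (nat_lit 0) (nat_lit 11795376076) (nat_lit 456) (nat_lit 849103193) (nat_lit 76) (nat_lit 2778419845) (nat_lit 100) (nat_lit 5) (nat_lit 106) (nat_lit 5) (nat_lit 101) (nat_lit 5) (nat_lit 374) (nat_lit 359) (nat_lit 287)))) (XT.nd (nat_lit 78) (nat_lit 456) (nat_lit 0) (XT.lf (nat_lit 0) (nat_lit 7770821715) (nat_lit 304) (nat_lit 6446294587) (nat_lit 380) (nat_lit 1625063672) (nat_lit 96) (nat_lit 5) (nat_lit 100) (nat_lit 5) (nat_lit 101) (nat_lit 5) (nat_lit 375) (nat_lit 359) (nat_lit 286)) (XT.nd (nat_lit 78) (nat_lit 0) (nat_lit 0) (XT.lf (nat_lit 0) (nat_lit 466710285) (nat_lit 456) (nat_lit 15725280175)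 (nat_lit 76) (nat_lit 89850352) (nat_lit 90) (nat_lit 5) (nat_lit 96) (nat_lit 5) (nat_lit 91) (nat_lit 5) (nat_lit 376) (nat_lit 359) (nat_lit 285)) (XT.lf (nat_lit 0) (nat_lit 2833377530) (nat_lit 456) (nat_lit 6997340094) (nat_lit 76) (nat_lit 6900201050) (nat_lit 90) (nat_lit 5) (nat_lit 96) (nat_lit 5) (nat_lit 91) (nat_lit 5) (nat_lit 377) (nat_lit 359) (nat_lit 284))))) (XT.nd (nat_lit 234) (nat_lit 608) (nat_lit 0) (XT.nd (nat_lit 78) (nat_lit 304) (nat_lit 0) (XT.lf (nat_lit 0) (nat_lit 2216779562) (nat_lit 304) (nat_lit 3117453676) (nat_lit 380) (nat_lit 11867435743) (nat_lit 86) (nat_lit 5) (nat_lit 90) (nat_lit 5) (nat_lit 91) (nat_lit 5) (nat_lit 378) (nat_lit 359) (nat_lit 283)) (XT.nd (nat_lit 78) (nat_lit 304) (nat_lit 0) (XT.lf (nat_lit 0) (nat_lit 8123730749) (nat_lit 380) (nat_lit 5640524286) (nat_lit 76) (nat_lit 3923532585) (nat_lit 86) (nat_lit 5) (nat_lit 91) (nat_lit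 5) (nat_lit 87) (nat_lit 5) (nat_lit 379) (nat_lit 359) (nat_lit 282)) (XT.lf (nat_lit 0) (nat_lit 4234821956) (nat_lit 304) (nat_lit 6917744110) (nat_lit 380) (nat_lit 7040663232) (nat_lit 82) (nat_lit 5) (nat_lit 86) (nat_lit 5) (nat_lit 87) (nat_lit 5) (nat_lit 380) (nat_lit 359) (nat_lit 281)))) (XT.nd (nat_lit 156) (nat_lit 380) (nat_lit 0) (XT.nd (nat_lit 78) (nat_lit 228) (nat_lit 0) (XT.lf (nat_lit 0) (nat_lit 14417261035) (nat_lit 380) (nat_lit 3946340082) (nat_lit 76) (nat_lit 356130815) (nat_lit 82) (nat_lit 5) (nat_lit 87) (nat_lit 5) (nat_lit 83) (nat_lit 5) (nat_lit 381) (nat_lit 359) (nat_lit 280)) (XT.lf (nat_lit 0) (nat_lit 6645492098) (nat_lit 228) (nat_lit 11400758462) (nat_lit 304) (nat_lit 1216265450) (nat_lit 79) (nat_lit 5) (nat_lit 82) (nat_lit 5) (nat_lit 83) (nat_lit 5) (nat_lit 382) (nat_lit 359) (nat_lit 279))) (XT.nd (nat_lit 78) (nat_lit 304) (nat_lit 0) (XT.lf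 (nat_lit 0) (nat_lit 2011482294) (nat_lit 304) (nat_lit 1978213377) (nat_lit 76) (nat_lit 15838570812) (nat_lit 78) (nat_lit 5) (nat_lit 82) (nat_lit 5) (nat_lit 79) (nat_lit 5) (nat_lit 383) (nat_lit 359) (nat_lit 278)) (XT.lf (nat_lit 0) (nat_lit 5554108715) (nat_lit 380) (nat_lit 11020700442) (nat_lit 76) (nat_lit 3836788130) (nat_lit 74) (nat_lit 5) (nat_lit 79) (nat_lit 5) (nat_lit 75) (nat_lit 5) (nat_lit 384) (nat_lit 359) (nat_lit 277))))))))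
noncomputable def xc145 : XT := (XT.nd (nat_lit 1950) (nat_lit 1444) (nat_lit 0) (XT.nd (nat_lit 936) (nat_lit 1216) (nat_lit 0) (XT.nd (nat_lit 468) (nat_lit 836) (nat_lit 0) (XT.nd (nat_lit 234) (nat_lit 304) (nat_lit 0) (XT.nd (nat_lit 78) (nat_lit 228) (nat_lit 0) (XT.lf (nat_lit 0) (nat_lit 298589670) (nat_lit 228) (nat_lit 9064600329) (nat_lit 304) (nat_lit 11656446107) (nat_lit 71) (nat_lit 5) (nat_lit 74) (nat_lit 5) (nat_lit 75) (nat_lit 5) (nat_lit 385) (nat_lit 359) (nat_lit 276)) (XT.nd (nat_lit 78) (nat_lit 228) (nat_lit 0) (XT.lf (nat_lit 0) (nat_lit 12547041278) (nat_lit 228) (nat_lit 987931964) (nat_lit 304) (nat_lit 8114498516) (nat_lit 71) (nat_lit 5) (nat_lit 74) (nat_lit 5) (nat_lit 75) (nat_lit 5) (nat_lit 386) (nat_lit 359) (nat_lit 275)) (XT.lf (nat_lit 0) (nat_lit 3058931310) (nat_lit 228) (nat_lit 15007370521) (nat_lit 304) (nat_lit 4236956495) (nat_lit 68) (nat_lit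 5) (nat_lit 71) (nat_lit 5) (nat_lit 72) (nat_lit 5) (nat_lit 387) (nat_lit 359) (nat_lit 274)))) (XT.nd (nat_lit 78) (nat_lit 304) (nat_lit 0) (XT.lf (nat_lit 0) (nat_lit 16108844289) (nat_lit 228) (nat_lit 6872021446) (nat_lit 304) (nat_lit 1041652) (nat_lit 68) (nat_lit 5) (nat_lit 71) (nat_lit 5) (nat_lit 72) (nat_lit 5) (nat_lit 388) (nat_lit 359) (nat_lit 273)) (XT.nd (nat_lit 78) (nat_lit 0) (nat_lit 0) (XT.lf (nat_lit 0) (nat_lit 4417317138) (nat_lit 304) (nat_lit 17487192111) (nat_lit 76) (nat_lit 1780865932) (nat_lit 64) (nat_lit 5) (nat_lit 68) (nat_lit 5) (nat_lit 65) (nat_lit 5) (nat_lit 389) (nat_lit 359) (nat_lit 272)) (XT.lf (nat_lit 0) (nat_lit 9274778631) (nat_lit 304) (nat_lit 4389769727) (nat_lit 76) (nat_lit 10748561874) (nat_lit 64) (nat_lit 5) (nat_lit 68) (nat_lit 5) (nat_lit 65) (nat_lit 5) (nat_lit 390) (nat_lit 359) (nat_lit 271))))) (XT.nd (nat_lit 234) (nat_lit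 456) (nat_lit 0) (XT.nd (nat_lit 78) (nat_lit 152) (nat_lit 0) (XT.lf (nat_lit 0) (nat_lit 9653790369) (nat_lit 228) (nat_lit 4859909222) (nat_lit 304) (nat_lit 10656608562) (nat_lit 61) (nat_lit 5) (nat_lit 64) (nat_lit 5) (nat_lit 65) (nat_lit 5) (nat_lit 391) (nat_lit 359) (nat_lit 270)) (XT.nd (nat_lit 78) (nat_lit 152) (nat_lit 0) (XT.lf (nat_lit 0) (nat_lit 20146671816) (nat_lit 304) (nat_lit 1497336299) (nat_lit 76) (nat_lit 4314757776) (nat_lit 61) (nat_lit 5) (nat_lit 65) (nat_lit 5) (nat_lit 62) (nat_lit 5) (nat_lit 392) (nat_lit 359) (nat_lit 269)) (XT.lf (nat_lit 0) (nat_lit 13560055748) (nat_lit 152) (nat_lit 12781267598) (nat_lit 228) (nat_lit 431326565) (nat_lit 59) (nat_lit 5) (nat_lit 61) (nat_lit 5) (nat_lit 62) (nat_lit 5) (nat_lit 393) (nat_lit 359) (nat_lit 268)))) (XT.nd (nat_lit 78) (nat_lit 152) (nat_lit 0) (XT.lf (nat_lit 0) (nat_lit 1753384243) (nat_lit 228) (nat_lit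 3339961794) (nat_lit 304) (nat_lit 22527718284) (nat_lit 55) (nat_lit 5) (nat_lit 58) (nat_lit 5) (nat_lit 59) (nat_lit 5) (nat_lit 394) (nat_lit 359) (nat_lit 267)) (XT.nd (nat_lit 78) (nat_lit 152) (nat_lit 0) (XT.lf (nat_lit 0) (nat_lit 11198737365) (nat_lit 304) (nat_lit 10705076297) (nat_lit 76) (nat_lit 6591787480) (nat_lit 55) (nat_lit 5) (nat_lit 59) (nat_lit 5) (nat_lit 56) (nat_lit 5) (nat_lit 395) (nat_lit 359) (nat_lit 266)) (XT.lf (nat_lit 0) (nat_lit 5314457710) (nat_lit 152) (nat_lit 12422116410) (nat_lit 228) (nat_lit 11670935948) (nat_lit 53) (nat_lit 5) (nat_lit 55) (nat_lit 5) (nat_lit 56) (nat_lit 5) (nat_lit 396) (nat_lit 359) (nat_lit 265)))))) (XT.nd (nat_lit 468) (nat_lit 684) (nat_lit 0) (XT.nd (nat_lit 234) (nat_lit 304) (nat_lit 0) (XT.nd (nat_lit 78) (nat_lit 228) (nat_lit 0) (XT.lf (nat_lit 0) (nat_lit 22490348981) (nat_lit 152) (nat_lit 2281946524) (nat_lit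 228) (nat_lit 5584173162) (nat_lit 53) (nat_lit 5) (nat_lit 55) (nat_lit 5) (nat_lit 56) (nat_lit 5) (nat_lit 397) (nat_lit 359) (nat_lit 264)) (XT.nd (nat_lit 78) (nat_lit 0) (nat_lit 0) (XT.lf (nat_lit 0) (nat_lit 1051741337) (nat_lit 228) (nat_lit 22032450867) (nat_lit 76) (nat_lit 8254524562) (nat_lit 50) (nat_lit 5) (nat_lit 53) (nat_lit 5) (nat_lit 51) (nat_lit 5) (nat_lit 398) (nat_lit 359) (nat_lit 263)) (XT.lf (nat_lit 0) (nat_lit 7994760218) (nat_lit 228) (nat_lit 4900166407) (nat_lit 76) (nat_lit 19462428117) (nat_lit 50) (nat_lit 5) (nat_lit 53) (nat_lit 5) (nat_lit 51) (nat_lit 5) (nat_lit 399) (nat_lit 359) (nat_lit 262)))) (XT.nd (nat_lit 78) (nat_lit 152) (nat_lit 0) (XT.lf (nat_lit 0) (nat_lit 13505784600) (nat_lit 152) (nat_lit 1980641076) (nat_lit 228) (nat_lit 17930427339) (nat_lit 48) (nat_lit 5) (nat_lit 50) (nat_lit 5) (nat_lit 51) (nat_lit 5) (nat_lit 400) (nat_lit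 359) (nat_lit 261)) (XT.nd (nat_lit 78) (nat_lit 152) (nat_lit 0) (XT.lf (nat_lit 0) (nat_lit 23575774889) (nat_lit 228) (nat_lit 1687722454) (nat_lit 76) (nat_lit 9254676862) (nat_lit 48) (nat_lit 5) (nat_lit 51) (nat_lit 5) (nat_lit 49) (nat_lit 5) (nat_lit 401) (nat_lit 359) (nat_lit 260)) (XT.lf (nat_lit 0) (nat_lit 17975023166) (nat_lit 152) (nat_lit 14398872692) (nat_lit 228) (nat_lit 3285453269) (nat_lit 46) (nat_lit 5) (nat_lit 48) (nat_lit 5) (nat_lit 49) (nat_lit 5) (nat_lit 402) (nat_lit 359) (nat_lit 259))))) (XT.nd (nat_lit 234) (nat_lit 304) (nat_lit 0) (XT.nd (nat_lit 78) (nat_lit 152) (nat_lit 0) (XT.lf (nat_lit 0) (nat_lit 1791314903) (nat_lit 152) (nat_lit 2859120352) (nat_lit 228) (nat_lit 32201025537) (nat_lit 43) (nat_lit 5) (nat_lit 45) (nat_lit 5) (nat_lit 46) (nat_lit 5) (nat_lit 403) (nat_lit 359) (nat_lit 258)) (XT.nd (nat_lit 78) (nat_lit 152) (nat_lit 0) (XT.lf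 (nat_lit 0) (nat_lit 13312990460) (nat_lit 228) (nat_lit 15451582715) (nat_lit 76) (nat_lit 9313900111) (nat_lit 43) (nat_lit 5) (nat_lit 46) (nat_lit 5) (nat_lit 44) (nat_lit 5) (nat_lit 404) (nat_lit 359) (nat_lit 257)) (XT.lf (nat_lit 0) (nat_lit 5244322196) (nat_lit 152) (nat_lit 17284858057) (nat_lit 228) (nat_lit 16831633183) (nat_lit 41) (nat_lit 5) (nat_lit 43) (nat_lit 5) (nat_lit 44) (nat_lit 5) (nat_lit 405) (nat_lit 359) (nat_lit 256)))) (XT.nd (nat_lit 156) (nat_lit 152) (nat_lit 0) (XT.nd (nat_lit 78) (nat_lit 152) (nat_lit 0) (XT.lf (nat_lit 0) (nat_lit 27497626641) (nat_lit 152) (nat_lit 4962166788) (nat_lit 228) (nat_lit 8234798731) (nat_lit 41) (nat_lit 5) (nat_lit 43) (nat_lit 5) (nat_lit 44) (nat_lit 5) (nat_lit 406) (nat_lit 359) (nat_lit 255)) (XT.lf (nat_lit 0) (nat_lit 1026698607) (nat_lit 152) (nat_lit 33182941803) (nat_lit 76) (nat_lit 7871794978) (nat_lit 39) (nat_lit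 5) (nat_lit 41) (nat_lit 5) (nat_lit 40) (nat_lit 5) (nat_lit 407) (nat_lit 359) (nat_lit 254))) (XT.nd (nat_lit 78) (nat_lit 152) (nat_lit 0) (XT.lf (nat_lit 0) (nat_lit 10775303728) (nat_lit 152) (nat_lit 11203080323) (nat_lit 76) (nat_lit 21537450037) (nat_lit 39) (nat_lit 5) (nat_lit 41) (nat_lit 5) (nat_lit 40) (nat_lit 5) (nat_lit 408) (nat_lit 359) (nat_lit 253)) (XT.lf (nat_lit 0) (nat_lit 12255137743) (nat_lit 152) (nat_lit 8940174856) (nat_lit 228) (nat_lit 23817443308) (nat_lit 37) (nat_lit 5) (nat_lit 39) (nat_lit 5) (nat_lit 40) (nat_lit 5) (nat_lit 409) (nat_lit 359) (nat_lit 252))))))) (XT.nd (nat_lit 1014) (nat_lit 608) (nat_lit 0) (XT.nd (nat_lit 468) (nat_lit 456) (nat_lit 0) (XT.nd (nat_lit 234) (nat_lit 228) (nat_lit 0) (XT.nd (nat_lit 78) (nat_lit 152) (nat_lit 0) (XT.lf (nat_lit 0) (nat_lit 32396025826) (nat_lit 228) (nat_lit 9390042049) (nat_lit 76) (nat_lit 4785472516)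 (nat_lit 37) (nat_lit 5) (nat_lit 40) (nat_lit 5) (nat_lit 38) (nat_lit 4) (nat_lit 410) (nat_lit 359) (nat_lit 251)) (XT.nd (nat_lit 78) (nat_lit 76) (nat_lit 0) (XT.lf (nat_lit 0) (nat_lit 15482560978) (nat_lit 76) (nat_lit 29055551627) (nat_lit 152) (nat_lit 3651086287) (nat_lit 36) (nat_lit 5) (nat_lit 37) (nat_lit 5) (nat_lit 38) (nat_lit 4) (nat_lit 411) (nat_lit 359) (nat_lit 250)) (XT.lf (nat_lit 0) (nat_lit 7317442847) (nat_lit 152) (nat_lit 8085490504) (nat_lit 76) (nat_lit 34471296515) (nat_lit 35) (nat_lit 5) (nat_lit 37) (nat_lit 5) (nat_lit 36) (nat_lit 5) (nat_lit 412) (nat_lit 359) (nat_lit 249)))) (XT.nd (nat_lit 78) (nat_lit 76) (nat_lit 0) (XT.lf (nat_lit 0) (nat_lit 18280166799) (nat_lit 152) (nat_lit 710345177) (nat_lit 228) (nat_lit 32636068478) (nat_lit 33) (nat_lit 5) (nat_lit 35) (nat_lit 5) (nat_lit 36) (nat_lit 5) (nat_lit 413) (nat_lit 359) (nat_lit 248)) (XT.nd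 (nat_lit 78) (nat_lit 76) (nat_lit 0) (XT.lf (nat_lit 0) (nat_lit 31609644974) (nat_lit 228) (nat_lit 7458728909) (nat_lit 76) (nat_lit 14380055554) (nat_lit 33) (nat_lit 5) (nat_lit 36) (nat_lit 5) (nat_lit 34) (nat_lit 4) (nat_lit 414) (nat_lit 359) (nat_lit 247)) (XT.lf (nat_lit 0) (nat_lit 20351816036) (nat_lit 76) (nat_lit 24831086106) (nat_lit 152) (nat_lit 10162311673) (nat_lit 32) (nat_lit 5) (nat_lit 33) (nat_lit 5) (nat_lit 34) (nat_lit 4) (nat_lit 415) (nat_lit 359) (nat_lit 246))))) (XT.nd (nat_lit 234) (nat_lit 228) (nat_lit 0) (XT.nd (nat_lit 78) (nat_lit 152) (nat_lit 0) (XT.lf (nat_lit 0) (nat_lit 2153019929) (nat_lit 152) (nat_lit 7564798196) (nat_lit 76) (nat_lit 47611273525) (nat_lit 31) (nat_lit 5) (nat_lit 33) (nat_lit 5) (nat_lit 32) (nat_lit 5) (nat_lit 416) (nat_lit 359) (nat_lit 245)) (XT.nd (nat_lit 78) (nat_lit 0) (nat_lit 0) (XT.lf (nat_lit 0) (nat_lit 15180591874)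 (nat_lit 228) (nat_lit 37737254002) (nat_lit 76) (nat_lit 6464089175) (nat_lit 29) (nat_lit 5) (nat_lit 32) (nat_lit 5) (nat_lit 30) (nat_lit 4) (nat_lit 417) (nat_lit 359) (nat_lit 244)) (XT.lf (nat_lit 0) (nat_lit 29143197421) (nat_lit 228) (nat_lit 9125950618) (nat_lit 76) (nat_lit 23254090919) (nat_lit 29) (nat_lit 5) (nat_lit 32) (nat_lit 5) (nat_lit 30) (nat_lit 4) (nat_lit 418) (nat_lit 359) (nat_lit 243)))) (XT.nd (nat_lit 156) (nat_lit 152) (nat_lit 0) (XT.nd (nat_lit 78) (nat_lit 0) (nat_lit 0) (XT.lf (nat_lit 0) (nat_lit 21596872810) (nat_lit 76) (nat_lit 22538660307) (nat_lit 152) (nat_lit 19619495985) (nat_lit 28) (nat_lit 5) (nat_lit 29) (nat_lit 5) (nat_lit 30) (nat_lit 4) (nat_lit 419) (nat_lit 359) (nat_lit 242)) (XT.lf (nat_lit 0) (nat_lit 54162555684) (nat_lit 76) (nat_lit 5864002644) (nat_lit 152) (nat_lit 6064397774) (nat_lit 28) (nat_lit 5) (nat_lit 29) (nat_lit 5)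 (nat_lit 30) (nat_lit 4) (nat_lit 420) (nat_lit 359) (nat_lit 241))) (XT.nd (nat_lit 78) (nat_lit 0) (nat_lit 0) (XT.lf (nat_lit 0) (nat_lit 8408079700) (nat_lit 152) (nat_lit 48384663048) (nat_lit 76) (nat_lit 11719507679) (nat_lit 26) (nat_lit 5) (nat_lit 28) (nat_lit 5) (nat_lit 27) (nat_lit 4) (nat_lit 421) (nat_lit 359) (nat_lit 240)) (XT.lf (nat_lit 0) (nat_lit 23696560967) (nat_lit 152) (nat_lit 17052708528) (nat_lit 76) (nat_lit 30285560834) (nat_lit 26) (nat_lit 5) (nat_lit 28) (nat_lit 5) (nat_lit 27) (nat_lit 4) (nat_lit 422) (nat_lit 359) (nat_lit 239)))))) (XT.nd (nat_lit 468) (nat_lit 304) (nat_lit 0) (XT.nd (nat_lit 234) (nat_lit 152) (nat_lit 0) (XT.nd (nat_lit 78) (nat_lit 76) (nat_lit 0) (XT.lf (nat_lit 0) (nat_lit 16360095440) (nat_lit 76) (nat_lit 23639776210) (nat_lit 152) (nat_lit 33671148119) (nat_lit 25) (nat_lit 5) (nat_lit 26) (nat_lit 5) (nat_lit 27) (nat_lit 4)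 (nat_lit 423) (nat_lit 359) (nat_lit 238)) (XT.nd (nat_lit 78) (nat_lit 76) (nat_lit 0) (XT.lf (nat_lit 0) (nat_lit 52026348824) (nat_lit 76) (nat_lit 5375868463) (nat_lit 152) (nat_lit 19022608696) (nat_lit 25) (nat_lit 5) (nat_lit 26) (nat_lit 5) (nat_lit 27) (nat_lit 4) (nat_lit 424) (nat_lit 359) (nat_lit 237)) (XT.lf (nat_lit 0) (nat_lit 10263663124) (nat_lit 76) (nat_lit 65781981845) (nat_lit 76) (nat_lit 3252130036) (nat_lit 24) (nat_lit 4) (nat_lit 25) (nat_lit 5) (nat_lit 25) (nat_lit 4) (nat_lit 425) (nat_lit 359) (nat_lit 236)))) (XT.nd (nat_lit 78) (nat_lit 76) (nat_lit 0) (XT.lf (nat_lit 0) (nat_lit 13384328305) (nat_lit 152) (nat_lit 35099369063) (nat_lit 76) (nat_lit 33795118960) (nat_lit 23) (nat_lit 5) (nat_lit 25) (nat_lit 5) (nat_lit 24) (nat_lit 4) (nat_lit 426) (nat_lit 359) (nat_lit 235)) (XT.nd (nat_lit 78) (nat_lit 0) (nat_lit 0) (XT.lf (nat_lit 0) (nat_lit 485805422)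 (nat_lit 76) (nat_lit 30260577930) (nat_lit 152) (nat_lit 54659707987) (nat_lit 22) (nat_lit 5) (nat_lit 23) (nat_lit 5) (nat_lit 24) (nat_lit 4) (nat_lit 427) (nat_lit 359) (nat_lit 234)) (XT.lf (nat_lit 0) (nat_lit 39060406548) (nat_lit 76) (nat_lit 10506125256) (nat_lit 152) (nat_lit 39093699367) (nat_lit 22) (nat_lit 5) (nat_lit 23) (nat_lit 5) (nat_lit 24) (nat_lit 4) (nat_lit 428) (nat_lit 359) (nat_lit 233))))) (XT.nd (nat_lit 234) (nat_lit 152) (nat_lit 0) (XT.nd (nat_lit 78) (nat_lit 152) (nat_lit 0) (XT.lf (nat_lit 0) (nat_lit 69483219099) (nat_lit 152) (nat_lit 12681309189) (nat_lit 0) (nat_lit 9904773715) (nat_lit 22) (nat_lit 5) (nat_lit 24) (nat_lit 4) (nat_lit 22) (nat_lit 4) (nat_lit 429) (nat_lit 359) (nat_lit 232)) (XT.nd (nat_lit 78) (nat_lit 76) (nat_lit 0) (XT.lf (nat_lit 0) (nat_lit 26759607887) (nat_lit 76) (nat_lit 64222078801) (nat_lit 76) (nat_lit 4637842939) (nat_lit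 21) (nat_lit 4) (nat_lit 22) (nat_lit 5) (nat_lit 22) (nat_lit 4) (nat_lit 430) (nat_lit 359) (nat_lit 231)) (XT.lf (nat_lit 0) (nat_lit 13967285883) (nat_lit 152) (nat_lit 30956814540) (nat_lit 76) (nat_lit 54401366747) (nat_lit 20) (nat_lit 5) (nat_lit 22) (nat_lit 5) (nat_lit 21) (nat_lit 4) (nat_lit 431) (nat_lit 359) (nat_lit 230)))) (XT.nd (nat_lit 156) (nat_lit 76) (nat_lit 0) (XT.nd (nat_lit 78) (nat_lit 0) (nat_lit 0) (XT.lf (nat_lit 0) (nat_lit 9047590629) (nat_lit 76) (nat_lit 24436601256) (nat_lit 152) (nat_lit 69721839538) (nat_lit 19) (nat_lit 5) (nat_lit 20) (nat_lit 5) (nat_lit 21) (nat_lit 4) (nat_lit 432) (nat_lit 359) (nat_lit 229)) (XT.lf (nat_lit 0) (nat_lit 52119679635) (nat_lit 76) (nat_lit 2377727391) (nat_lit 152) (nat_lit 52757194121) (nat_lit 19) (nat_lit 5) (nat_lit 20) (nat_lit 5) (nat_lit 21) (nat_lit 4) (nat_lit 433) (nat_lit 359) (nat_lit 228))) (XT.nd (nat_lit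 78) (nat_lit 76) (nat_lit 0) (XT.lf (nat_lit 0) (nat_lit 76882105425) (nat_lit 152) (nat_lit 14491794105) (nat_lit 0) (nat_lit 20115659131) (nat_lit 19) (nat_lit 5) (nat_lit 21) (nat_lit 4) (nat_lit 19) (nat_lit 4) (nat_lit 434) (nat_lit 359) (nat_lit 227)) (XT.lf (nat_lit 0) (nat_lit 29068139241) (nat_lit 76) (nat_lit 71807213382) (nat_lit 76) (nat_lit 15036446144) (nat_lit 18) (nat_lit 4) (nat_lit 19) (nat_lit 5) (nat_lit 19) (nat_lit 4) (nat_lit 435) (nat_lit 359) (nat_lit 226))))))))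
noncomputable def xc146 : XT := (XT.nd (nat_lit 1950) (nat_lit 228) (nat_lit 0) (XT.nd (nat_lit 936) (nat_lit 380) (nat_lit 0) (XT.nd (nat_lit 468) (nat_lit 228) (nat_lit 0) (XT.nd (nat_lit 234) (nat_lit 76) (nat_lit 0) (XT.nd (nat_lit 78) (nat_lit 76) (nat_lit 0) (XT.lf (nat_lit 0) (nat_lit 5582612380) (nat_lit 152) (nat_lit 45330527041) (nat_lit 76) (nat_lit 69625410320) (nat_lit 17) (nat_lit 5) (nat_lit 19) (nat_lit 5) (nat_lit 18) (nat_lit 4) (nat_lit 436) (nat_lit 359) (nat_lit 225)) (XT.nd (nat_lit 78) (nat_lit 76) (nat_lit 0) (XT.lf (nat_lit 0) (nat_lit 26723973172) (nat_lit 152) (nat_lit 1994656642) (nat_lit 76) (nat_lit 96665850222) (nat_lit 17) (nat_lit 5) (nat_lit 19) (nat_lit 5) (nat_lit 18) (nat_lit 4) (nat_lit 437) (nat_lit 359) (nat_lit 224)) (XT.lf (nat_lit 0) (nat_lit 44940262432) (nat_lit 76) (nat_lit 4680613992) (nat_lit 152) (nat_lit 80816907036) (nat_lit 16) (nat_lit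 5) (nat_lit 17) (nat_lit 5) (nat_lit 18) (nat_lit 4) (nat_lit 438) (nat_lit 359) (nat_lit 223)))) (XT.nd (nat_lit 78) (nat_lit 76) (nat_lit 0) (XT.lf (nat_lit 0) (nat_lit 74014790067) (nat_lit 152) (nat_lit 41778553590) (nat_lit 0) (nat_lit 19932800458) (nat_lit 16) (nat_lit 5) (nat_lit 18) (nat_lit 4) (nat_lit 16) (nat_lit 4) (nat_lit 439) (nat_lit 359) (nat_lit 222)) (XT.nd (nat_lit 78) (nat_lit 0) (nat_lit 0) (XT.lf (nat_lit 0) (nat_lit 4177502849) (nat_lit 76) (nat_lit 95589843440) (nat_lit 76) (nat_lit 41504629476) (nat_lit 15) (nat_lit 4) (nat_lit 16) (nat_lit 5) (nat_lit 16) (nat_lit 4) (nat_lit 440) (nat_lit 359) (nat_lit 221)) (XT.lf (nat_lit 0) (nat_lit 53876079079) (nat_lit 76) (nat_lit 73636037828) (nat_lit 76) (nat_lit 19547753051) (nat_lit 15) (nat_lit 4) (nat_lit 16) (nat_lit 5) (nat_lit 16) (nat_lit 4) (nat_lit 441) (nat_lit 359) (nat_lit 220))))) (XT.nd (nat_lit 234) (nat_lit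 76) (nat_lit 0) (XT.nd (nat_lit 78) (nat_lit 76) (nat_lit 0) (XT.lf (nat_lit 0) (nat_lit 3391863168) (nat_lit 152) (nat_lit 47137889867) (nat_lit 76) (nat_lit 102604811370) (nat_lit 14) (nat_lit 5) (nat_lit 16) (nat_lit 5) (nat_lit 15) (nat_lit 4) (nat_lit 442) (nat_lit 359) (nat_lit 219)) (XT.nd (nat_lit 78) (nat_lit 0) (nat_lit 0) (XT.lf (nat_lit 0) (nat_lit 913801891) (nat_lit 76) (nat_lit 25919269607) (nat_lit 152) (nat_lit 132663322380) (nat_lit 13) (nat_lit 5) (nat_lit 14) (nat_lit 5) (nat_lit 15) (nat_lit 4) (nat_lit 443) (nat_lit 359) (nat_lit 218)) (XT.lf (nat_lit 0) (nat_lit 52253793942) (nat_lit 152) (nat_lit 113148971032) (nat_lit 0) (nat_lit 733177404) (nat_lit 13) (nat_lit 5) (nat_lit 15) (nat_lit 4) (nat_lit 13) (nat_lit 4) (nat_lit 444) (nat_lit 359) (nat_lit 217)))) (XT.nd (nat_lit 78) (nat_lit 76) (nat_lit 0) (XT.lf (nat_lit 0) (nat_lit 79367873500) (nat_lit 152) (nat_lit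 65873628085) (nat_lit 0) (nat_lit 27844850898) (nat_lit 13) (nat_lit 5) (nat_lit 15) (nat_lit 4) (nat_lit 13) (nat_lit 4) (nat_lit 445) (nat_lit 359) (nat_lit 216)) (XT.nd (nat_lit 78) (nat_lit 76) (nat_lit 0) (XT.lf (nat_lit 0) (nat_lit 107835195066) (nat_lit 152) (nat_lit 16239330367) (nat_lit 0) (nat_lit 56309880976) (nat_lit 13) (nat_lit 5) (nat_lit 15) (nat_lit 4) (nat_lit 13) (nat_lit 4) (nat_lit 446) (nat_lit 359) (nat_lit 215)) (XT.lf (nat_lit 0) (nat_lit 37058192616) (nat_lit 76) (nat_lit 101243927604) (nat_lit 76) (nat_lit 49716431143) (nat_lit 12) (nat_lit 4) (nat_lit 13) (nat_lit 5) (nat_lit 13) (nat_lit 4) (nat_lit 447) (nat_lit 359) (nat_lit 214)))))) (XT.nd (nat_lit 468) (nat_lit 228) (nat_lit 0) (XT.nd (nat_lit 234) (nat_lit 0) (nat_lit 0) (XT.nd (nat_lit 78) (nat_lit 152) (nat_lit 0) (XT.lf (nat_lit 0) (nat_lit 93579875336) (nat_lit 76) (nat_lit 76985233731) (nat_lit 76)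 (nat_lit 25455658822) (nat_lit 12) (nat_lit 4) (nat_lit 13) (nat_lit 5) (nat_lit 13) (nat_lit 4) (nat_lit 448) (nat_lit 359) (nat_lit 213)) (XT.nd (nat_lit 78) (nat_lit 76) (nat_lit 0) (XT.lf (nat_lit 0) (nat_lit 15341195) (nat_lit 152) (nat_lit 51500104931) (nat_lit 76) (nat_lit 152907746622) (nat_lit 11) (nat_lit 5) (nat_lit 13) (nat_lit 5) (nat_lit 12) (nat_lit 4) (nat_lit 449) (nat_lit 359) (nat_lit 212)) (XT.lf (nat_lit 0) (nat_lit 1618043225) (nat_lit 76) (nat_lit 24309509369) (nat_lit 152) (nat_lit 187296164208) (nat_lit 10) (nat_lit 5) (nat_lit 11) (nat_lit 5) (nat_lit 12) (nat_lit 4) (nat_lit 450) (nat_lit 359) (nat_lit 211)))) (XT.nd (nat_lit 78) (nat_lit 0) (nat_lit 0) (XT.lf (nat_lit 0) (nat_lit 54086193316) (nat_lit 152) (nat_lit 163325515878) (nat_lit 0) (nat_lit 5005017091) (nat_lit 10) (nat_lit 5) (nat_lit 12) (nat_lit 4) (nat_lit 10) (nat_lit 4) (nat_lit 451) (nat_lit 359)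 (nat_lit 210)) (XT.nd (nat_lit 78) (nat_lit 0) (nat_lit 0) (XT.lf (nat_lit 0) (nat_lit 84049265611) (nat_lit 152) (nat_lit 113033834941) (nat_lit 0) (nat_lit 34966460867) (nat_lit 10) (nat_lit 5) (nat_lit 12) (nat_lit 4) (nat_lit 10) (nat_lit 4) (nat_lit 452) (nat_lit 359) (nat_lit 209)) (XT.lf (nat_lit 0) (nat_lit 115508570559) (nat_lit 152) (nat_lit 60231349100) (nat_lit 0) (nat_lit 66424214846) (nat_lit 10) (nat_lit 5) (nat_lit 12) (nat_lit 4) (nat_lit 10) (nat_lit 4) (nat_lit 453) (nat_lit 359) (nat_lit 208))))) (XT.nd (nat_lit 234) (nat_lit 152) (nat_lit 0) (XT.nd (nat_lit 78) (nat_lit 76) (nat_lit 0) (XT.lf (nat_lit 0) (nat_lit 148539011268) (nat_lit 152) (nat_lit 4792338150) (nat_lit 0) (nat_lit 99453178441) (nat_lit 10) (nat_lit 5) (nat_lit 12) (nat_lit 4) (nat_lit 10) (nat_lit 4) (nat_lit 454) (nat_lit 359) (nat_lit 207)) (XT.nd (nat_lit 78) (nat_lit 0) (nat_lit 0) (XT.lf (nat_lit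 0) (nat_lit 55181343146) (nat_lit 76) (nat_lit 128899423910) (nat_lit 76) (nat_lit 79812184307) (nat_lit 9) (nat_lit 4) (nat_lit 10) (nat_lit 5) (nat_lit 10) (nat_lit 4) (nat_lit 455) (nat_lit 359) (nat_lit 206)) (XT.lf (nat_lit 0) (nat_lit 118316715160) (nat_lit 76) (nat_lit 103162343986) (nat_lit 76) (nat_lit 54073764597) (nat_lit 9) (nat_lit 4) (nat_lit 10) (nat_lit 5) (nat_lit 10) (nat_lit 4) (nat_lit 456) (nat_lit 359) (nat_lit 205)))) (XT.nd (nat_lit 156) (nat_lit 76) (nat_lit 0) (XT.nd (nat_lit 78) (nat_lit 76) (nat_lit 0) (XT.lf (nat_lit 0) (nat_lit 184605643863) (nat_lit 76) (nat_lit 76139991451) (nat_lit 76) (nat_lit 27050136076) (nat_lit 9) (nat_lit 4) (nat_lit 10) (nat_lit 5) (nat_lit 10) (nat_lit 4) (nat_lit 457) (nat_lit 359) (nat_lit 204)) (XT.lf (nat_lit 0) (nat_lit 1280697583) (nat_lit 152) (nat_lit 46465640553) (nat_lit 76) (nat_lit 252903573220) (nat_lit 8) (nat_lit 5)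 (nat_lit 10) (nat_lit 5) (nat_lit 9) (nat_lit 4) (nat_lit 458) (nat_lit 359) (nat_lit 203))) (XT.nd (nat_lit 78) (nat_lit 0) (nat_lit 0) (XT.lf (nat_lit 0) (nat_lit 13066884722) (nat_lit 76) (nat_lit 17254633658) (nat_lit 152) (nat_lit 283792942435) (nat_lit 7) (nat_lit 5) (nat_lit 8) (nat_lit 5) (nat_lit 9) (nat_lit 4) (nat_lit 459) (nat_lit 359) (nat_lit 202)) (XT.lf (nat_lit 0) (nat_lit 61843169769) (nat_lit 152) (nat_lit 251270011402) (nat_lit 0) (nat_lit 15087617195) (nat_lit 7) (nat_lit 5) (nat_lit 9) (nat_lit 4) (nat_lit 7) (nat_lit 4) (nat_lit 460) (nat_lit 359) (nat_lit 201))))))) (XT.nd (nat_lit 1014) (nat_lit 0) (nat_lit 0) (XT.nd (nat_lit 468) (nat_lit 152) (nat_lit 0) (XT.nd (nat_lit 234) (nat_lit 76) (nat_lit 0) (XT.nd (nat_lit 78) (nat_lit 0) (nat_lit 0) (XT.lf (nat_lit 0) (nat_lit 95222338317) (nat_lit 152) (nat_lit 199289256870) (nat_lit 0) (nat_lit 48465785974) (nat_lit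 7) (nat_lit 5) (nat_lit 9) (nat_lit 4) (nat_lit 7) (nat_lit 4) (nat_lit 461) (nat_lit 359) (nat_lit 200)) (XT.nd (nat_lit 78) (nat_lit 0) (nat_lit 0) (XT.lf (nat_lit 0) (nat_lit 130269105047) (nat_lit 152) (nat_lit 144712155608) (nat_lit 0) (nat_lit 83511600543) (nat_lit 7) (nat_lit 5) (nat_lit 9) (nat_lit 4) (nat_lit 7) (nat_lit 4) (nat_lit 462) (nat_lit 359) (nat_lit 199)) (XT.lf (nat_lit 0) (nat_lit 167066914642) (nat_lit 152) (nat_lit 87408762138) (nat_lit 0) (nat_lit 120308503318) (nat_lit 7) (nat_lit 5) (nat_lit 9) (nat_lit 4) (nat_lit 7) (nat_lit 4) (nat_lit 463) (nat_lit 359) (nat_lit 198)))) (XT.nd (nat_lit 78) (nat_lit 76) (nat_lit 0) (XT.lf (nat_lit 0) (nat_lit 205703380934) (nat_lit 152) (nat_lit 27242639807) (nat_lit 0) (nat_lit 158944105972) (nat_lit 7) (nat_lit 5) (nat_lit 9) (nat_lit 4) (nat_lit 7) (nat_lit 4) (nat_lit 464) (nat_lit 359) (nat_lit 197)) (XT.nd (nat_lit 78)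 (nat_lit 0) (nat_lit 0) (XT.lf (nat_lit 0) (nat_lit 37117454398) (nat_lit 76) (nat_lit 209732548595) (nat_lit 76) (nat_lit 162972451121) (nat_lit 6) (nat_lit 4) (nat_lit 7) (nat_lit 5) (nat_lit 7) (nat_lit 4) (nat_lit 465) (nat_lit 359) (nat_lit 196)) (XT.lf (nat_lit 0) (nat_lit 105639069163) (nat_lit 76) (nat_lit 184875099495) (nat_lit 76) (nat_lit 138114218676) (nat_lit 6) (nat_lit 4) (nat_lit 7) (nat_lit 5) (nat_lit 7) (nat_lit 4) (nat_lit 466) (nat_lit 359) (nat_lit 195))))) (XT.nd (nat_lit 234) (nat_lit 152) (nat_lit 0) (XT.nd (nat_lit 78) (nat_lit 0) (nat_lit 0) (XT.lf (nat_lit 0) (nat_lit 177584586483) (nat_lit 76) (nat_lit 158775856327) (nat_lit 76) (nat_lit 112014229465) (nat_lit 6) (nat_lit 4) (nat_lit 7) (nat_lit 5) (nat_lit 7) (nat_lit 4) (nat_lit 467) (nat_lit 359) (nat_lit 194)) (XT.nd (nat_lit 78) (nat_lit 0) (nat_lit 0) (XT.lf (nat_lit 0) (nat_lit 253125305211) (nat_lit 76)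 (nat_lit 131372678036) (nat_lit 76) (nat_lit 84610340656) (nat_lit 6) (nat_lit 4) (nat_lit 7) (nat_lit 5) (nat_lit 7) (nat_lit 4) (nat_lit 468) (nat_lit 359) (nat_lit 193)) (XT.lf (nat_lit 0) (nat_lit 332441084200) (nat_lit 76) (nat_lit 102600318958) (nat_lit 76) (nat_lit 55837304895) (nat_lit 6) (nat_lit 4) (nat_lit 7) (nat_lit 5) (nat_lit 7) (nat_lit 4) (nat_lit 469) (nat_lit 359) (nat_lit 192)))) (XT.nd (nat_lit 156) (nat_lit 76) (nat_lit 0) (XT.nd (nat_lit 78) (nat_lit 76) (nat_lit 0) (XT.lf (nat_lit 0) (nat_lit 415720770543) (nat_lit 76) (nat_lit 72390273477) (nat_lit 76) (nat_lit 25626614954) (nat_lit 6) (nat_lit 4) (nat_lit 7) (nat_lit 5) (nat_lit 7) (nat_lit 4) (nat_lit 470) (nat_lit 359) (nat_lit 191)) (XT.lf (nat_lit 0) (nat_lit 5898624224) (nat_lit 152) (nat_lit 34672092633) (nat_lit 76) (nat_lit 497164128927) (nat_lit 5) (nat_lit 5) (nat_lit 7) (nat_lit 5) (nat_lit 6) (nat_lit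 4) (nat_lit 471) (nat_lit 359) (nat_lit 190))) (XT.nd (nat_lit 78) (nat_lit 0) (nat_lit 0) (XT.lf (nat_lit 0) (nat_lit 32456923072) (nat_lit 76) (nat_lit 6187847615) (nat_lit 152) (nat_lit 524240822497) (nat_lit 4) (nat_lit 5) (nat_lit 5) (nat_lit 5) (nat_lit 6) (nat_lit 4) (nat_lit 472) (nat_lit 359) (nat_lit 189)) (XT.lf (nat_lit 0) (nat_lit 74091209062) (nat_lit 152) (nat_lit 485596799742) (nat_lit 0) (nat_lit 29552719970) (nat_lit 4) (nat_lit 5) (nat_lit 6) (nat_lit 4) (nat_lit 4) (nat_lit 4) (nat_lit 473) (nat_lit 359) (nat_lit 188)))))) (XT.nd (nat_lit 44460) (nat_lit 0) (nat_lit 8360) (XT.nd (nat_lit 44226) (nat_lit 0) (nat_lit 8892) (XT.nd (nat_lit 78) (nat_lit 0) (nat_lit 0) (XT.lf (nat_lit 0) (nat_lit 111410577031) (nat_lit 152) (nat_lit 438626430790) (nat_lit 0) (nat_lit 66871582988) (nat_lit 4) (nat_lit 5) (nat_lit 6) (nat_lit 4) (nat_lit 4) (nat_lit 4) (nat_lit 474) (nat_lit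 359) (nat_lit 187)) (XT.nd (nat_lit 78) (nat_lit 0) (nat_lit 0) (XT.lf (nat_lit 0) (nat_lit 150595120589) (nat_lit 152) (nat_lit 389309119403) (nat_lit 0) (nat_lit 106055645640) (nat_lit 4) (nat_lit 5) (nat_lit 6) (nat_lit 4) (nat_lit 4) (nat_lit 4) (nat_lit 475) (nat_lit 359) (nat_lit 186)) (XT.lf (nat_lit 0) (nat_lit 191738136268) (nat_lit 152) (nat_lit 337527443410) (nat_lit 0) (nat_lit 147198203314) (nat_lit 4) (nat_lit 5) (nat_lit 6) (nat_lit 4) (nat_lit 4) (nat_lit 4) (nat_lit 476) (nat_lit 359) (nat_lit 185)))) (XT.nd (nat_lit 78) (nat_lit 0) (nat_lit 0) (XT.lf (nat_lit 0) (nat_lit 1482624904) (nat_lit 0) (nat_lit 1482624904) (nat_lit 684) (nat_lit 2622069377) (nat_lit 121) (nat_lit 5) (nat_lit 121) (nat_lit 3) (nat_lit 130) (nat_lit 3) (nat_lit 360) (nat_lit 360) (nat_lit 300)) (XT.nd (nat_lit 78) (nat_lit 0) (nat_lit 0) (XT.lf (nat_lit 0) (nat_lit 6646761810) (nat_lit 684) (nat_lit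 2843350287) (nat_lit 760) (nat_lit 1935087432) (nat_lit 121) (nat_lit 5) (nat_lit 130) (nat_lit 3) (nat_lit 131) (nat_lit 5) (nat_lit 361) (nat_lit 360) (nat_lit 299)) (XT.lf (nat_lit 76) (nat_lit 2813227295) (nat_lit 0) (nat_lit 4644049894) (nat_lit 760) (nat_lit 4228115467) (nat_lit 122) (nat_lit 5) (nat_lit 121) (nat_lit 5) (nat_lit 131) (nat_lit 5) (nat_lit 362) (nat_lit 360) (nat_lit 298))))) (XT.nd (nat_lit 234) (nat_lit 608) (nat_lit 0) (XT.nd (nat_lit 78) (nat_lit 0) (nat_lit 0) (XT.lf (nat_lit 0) (nat_lit 8331650696) (nat_lit 684) (nat_lit 3133328566) (nat_lit 760) (nat_lit 492474236) (nat_lit 122) (nat_lit 5) (nat_lit 131) (nat_lit 5) (nat_lit 132) (nat_lit 5) (nat_lit 363) (nat_lit 360) (nat_lit 297)) (XT.nd (nat_lit 78) (nat_lit 0) (nat_lit 0) (XT.lf (nat_lit 76) (nat_lit 2889010331) (nat_lit 0) (nat_lit 6450972381) (nat_lit 760) (nat_lit 2898646183) (nat_lit 123) (nat_lit 5)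 (nat_lit 122) (nat_lit 5) (nat_lit 132) (nat_lit 5) (nat_lit 364) (nat_lit 360) (nat_lit 296)) (XT.lf (nat_lit 76) (nat_lit 9301793059) (nat_lit 0) (nat_lit 1120177355) (nat_lit 760) (nat_lit 2110753079) (nat_lit 123) (nat_lit 5) (nat_lit 122) (nat_lit 5) (nat_lit 132) (nat_lit 5) (nat_lit 365) (nat_lit 360) (nat_lit 295)))) (XT.nd (nat_lit 156) (nat_lit 684) (nat_lit 0) (XT.nd (nat_lit 78) (nat_lit 0) (nat_lit 0) (XT.lf (nat_lit 76) (nat_lit 3206287821) (nat_lit 0) (nat_lit 8443478896) (nat_lit 760) (nat_lit 1187191963) (nat_lit 124) (nat_lit 5) (nat_lit 123) (nat_lit 5) (nat_lit 133) (nat_lit 5) (nat_lit 366) (nat_lit 360) (nat_lit 294)) (XT.lf (nat_lit 76) (nat_lit 10038766905) (nat_lit 0) (nat_lit 2945755927) (nat_lit 760) (nat_lit 169624597) (nat_lit 124) (nat_lit 5) (nat_lit 123) (nat_lit 5) (nat_lit 133) (nat_lit 5) (nat_lit 367) (nat_lit 360) (nat_lit 293))) (XT.nd (nat_lit 78) (nat_lit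 0) (nat_lit 0) (XT.lf (nat_lit 0) (nat_lit 948682107) (nat_lit 760) (nat_lit 9716333047) (nat_lit 836) (nat_lit 2817565779) (nat_lit 114) (nat_lit 5) (nat_lit 124) (nat_lit 5) (nat_lit 125) (nat_lit 5) (nat_lit 368) (nat_lit 360) (nat_lit 292)) (XT.lf (nat_lit 0) (nat_lit 2193803116) (nat_lit 760) (nat_lit 2797428250) (nat_lit 836) (nat_lit 8832253276) (nat_lit 114) (nat_lit 5) (nat_lit 124) (nat_lit 5) (nat_lit 125) (nat_lit 5) (nat_lit 369) (nat_lit 360) (nat_lit 291))))))))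
noncomputable def xc147 : XT := (XT.nd (nat_lit 1950) (nat_lit 2356) (nat_lit 0) (XT.nd (nat_lit 936) (nat_lit 1748) (nat_lit 0) (XT.nd (nat_lit 468) (nat_lit 1368) (nat_lit 0) (XT.nd (nat_lit 234) (nat_lit 380) (nat_lit 0) (XT.nd (nat_lit 78) (nat_lit 760) (nat_lit 0) (XT.lf (nat_lit 0) (nat_lit 3565133002) (nat_lit 760) (nat_lit 9600737331) (nat_lit 76) (nat_lit 1012382265) (nat_lit 115) (nat_lit 5) (nat_lit 125) (nat_lit 5) (nat_lit 116) (nat_lit 5) (nat_lit 370) (nat_lit 360) (nat_lit 290)) (XT.nd (nat_lit 78) (nat_lit 760) (nat_lit 0) (XT.lf (nat_lit 0) (nat_lit 5111796412) (nat_lit 760) (nat_lit 2233401551) (nat_lit 76) (nat_lit 7200238546) (nat_lit 115) (nat_lit 5) (nat_lit 125) (nat_lit 5) (nat_lit 116) (nat_lit 5) (nat_lit 371) (nat_lit 360) (nat_lit 289)) (XT.lf (nat_lit 0) (nat_lit 5663828790) (nat_lit 760) (nat_lit 1138288738) (nat_lit 836) (nat_lit 8125561012) (nat_lit 105)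 (nat_lit 5) (nat_lit 115) (nat_lit 5) (nat_lit 116) (nat_lit 5) (nat_lit 372) (nat_lit 360) (nat_lit 288)))) (XT.nd (nat_lit 78) (nat_lit 380) (nat_lit 0) (XT.lf (nat_lit 0) (nat_lit 8678054726) (nat_lit 836) (nat_lit 1398826721) (nat_lit 76) (nat_lit 5247110655) (nat_lit 105) (nat_lit 5) (nat_lit 116) (nat_lit 5) (nat_lit 106) (nat_lit 5) (nat_lit 373) (nat_lit 360) (nat_lit 287)) (XT.nd (nat_lit 78) (nat_lit 0) (nat_lit 0) (XT.lf (nat_lit 0) (nat_lit 7046761903) (nat_lit 380) (nat_lit 3709397999) (nat_lit 456) (nat_lit 4978556625) (nat_lit 100) (nat_lit 5) (nat_lit 105) (nat_lit 5) (nat_lit 106) (nat_lit 5) (nat_lit 374) (nat_lit 360) (nat_lit 286)) (XT.lf (nat_lit 0) (nat_lit 12989083008) (nat_lit 456) (nat_lit 268709098) (nat_lit 76) (nat_lit 2905652522) (nat_lit 100) (nat_lit 5) (nat_lit 106) (nat_lit 5) (nat_lit 101) (nat_lit 5) (nat_lit 375) (nat_lit 360) (nat_lit 285))))) (XT.nd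 (nat_lit 234) (nat_lit 608) (nat_lit 0) (XT.nd (nat_lit 78) (nat_lit 456) (nat_lit 0) (XT.lf (nat_lit 0) (nat_lit 8772166099) (nat_lit 304) (nat_lit 6740552764) (nat_lit 380) (nat_lit 1091949405) (nat_lit 96) (nat_lit 5) (nat_lit 100) (nat_lit 5) (nat_lit 101) (nat_lit 5) (nat_lit 376) (nat_lit 360) (nat_lit 284)) (XT.nd (nat_lit 78) (nat_lit 0) (nat_lit 0) (XT.lf (nat_lit 0) (nat_lit 1066877645) (nat_lit 456) (nat_lit 15860492444) (nat_lit 76) (nat_lit 139373447) (nat_lit 90) (nat_lit 5) (nat_lit 96) (nat_lit 5) (nat_lit 91) (nat_lit 5) (nat_lit 377) (nat_lit 360) (nat_lit 283)) (XT.lf (nat_lit 0) (nat_lit 3524410069) (nat_lit 456) (nat_lit 6727157823) (nat_lit 76) (nat_lit 7288097367) (nat_lit 90) (nat_lit 5) (nat_lit 96) (nat_lit 5) (nat_lit 91) (nat_lit 5) (nat_lit 378) (nat_lit 360) (nat_lit 282)))) (XT.nd (nat_lit 78) (nat_lit 304) (nat_lit 0) (XT.lf (nat_lit 0) (nat_lit 2937667022)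 (nat_lit 304) (nat_lit 3196005933) (nat_lit 380) (nat_lit 11901127676) (nat_lit 86) (nat_lit 5) (nat_lit 90) (nat_lit 5) (nat_lit 91) (nat_lit 5) (nat_lit 379) (nat_lit 360) (nat_lit 281)) (XT.nd (nat_lit 78) (nat_lit 304) (nat_lit 0) (XT.lf (nat_lit 0) (nat_lit 9038427042) (nat_lit 380) (nat_lit 5317033270) (nat_lit 76) (nat_lit 4190990824) (nat_lit 86) (nat_lit 5) (nat_lit 91) (nat_lit 5) (nat_lit 87) (nat_lit 5) (nat_lit 380) (nat_lit 360) (nat_lit 280)) (XT.lf (nat_lit 0) (nat_lit 5042313877) (nat_lit 304) (nat_lit 7161476837) (nat_lit 380) (nat_lit 6874134158) (nat_lit 82) (nat_lit 5) (nat_lit 86) (nat_lit 5) (nat_lit 87) (nat_lit 5) (nat_lit 381) (nat_lit 360) (nat_lit 279)))))) (XT.nd (nat_lit 468) (nat_lit 912) (nat_lit 0) (XT.nd (nat_lit 234) (nat_lit 532) (nat_lit 0) (XT.nd (nat_lit 78) (nat_lit 304) (nat_lit 0) (XT.lf (nat_lit 0) (nat_lit 15609734813) (nat_lit 380) (nat_lit 3554017280)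 (nat_lit 76) (nat_lit 468113449) (nat_lit 82) (nat_lit 5) (nat_lit 87) (nat_lit 5) (nat_lit 83) (nat_lit 5) (nat_lit 382) (nat_lit 360) (nat_lit 278)) (XT.nd (nat_lit 78) (nat_lit 76) (nat_lit 0) (XT.lf (nat_lit 0) (nat_lit 7557896190) (nat_lit 228) (nat_lit 11848877418) (nat_lit 304) (nat_lit 795698199) (nat_lit 79) (nat_lit 5) (nat_lit 82) (nat_lit 5) (nat_lit 83) (nat_lit 5) (nat_lit 383) (nat_lit 360) (nat_lit 277)) (XT.lf (nat_lit 0) (nat_lit 2555840543) (nat_lit 304) (nat_lit 1509710911) (nat_lit 76) (nat_lit 16731703794) (nat_lit 78) (nat_lit 5) (nat_lit 82) (nat_lit 5) (nat_lit 79) (nat_lit 5) (nat_lit 384) (nat_lit 360) (nat_lit 276)))) (XT.nd (nat_lit 78) (nat_lit 228) (nat_lit 0) (XT.lf (nat_lit 0) (nat_lit 6265162897) (nat_lit 380) (nat_lit 10993662795) (nat_lit 76) (nat_lit 4151459875) (nat_lit 74) (nat_lit 5) (nat_lit 79) (nat_lit 5) (nat_lit 75) (nat_lit 5) (nat_lit 385) (nat_lit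 360) (nat_lit 275)) (XT.nd (nat_lit 78) (nat_lit 0) (nat_lit 0) (XT.lf (nat_lit 0) (nat_lit 882268070) (nat_lit 228) (nat_lit 9370674285) (nat_lit 304) (nat_lit 11796382440) (nat_lit 71) (nat_lit 5) (nat_lit 74) (nat_lit 5) (nat_lit 75) (nat_lit 5) (nat_lit 386) (nat_lit 360) (nat_lit 274)) (XT.lf (nat_lit 0) (nat_lit 13716058977) (nat_lit 228) (nat_lit 897179933) (nat_lit 304) (nat_lit 8098427278) (nat_lit 71) (nat_lit 5) (nat_lit 74) (nat_lit 5) (nat_lit 75) (nat_lit 5) (nat_lit 387) (nat_lit 360) (nat_lit 273))))) (XT.nd (nat_lit 234) (nat_lit 380) (nat_lit 0) (XT.nd (nat_lit 78) (nat_lit 304) (nat_lit 0) (XT.lf (nat_lit 0) (nat_lit 3762606222) (nat_lit 228) (nat_lit 15600090179) (nat_lit 304) (nat_lit 4035877241) (nat_lit 68) (nat_lit 5) (nat_lit 71) (nat_lit 5) (nat_lit 72) (nat_lit 5) (nat_lit 388) (nat_lit 360) (nat_lit 272)) (XT.nd (nat_lit 78) (nat_lit 228) (nat_lit 0) (XT.lf (nat_lit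 0) (nat_lit 379618254) (nat_lit 304) (nat_lit 6679433466) (nat_lit 76) (nat_lit 17052742416) (nat_lit 67) (nat_lit 5) (nat_lit 71) (nat_lit 5) (nat_lit 68) (nat_lit 5) (nat_lit 389) (nat_lit 360) (nat_lit 271)) (XT.lf (nat_lit 0) (nat_lit 5011449097) (nat_lit 304) (nat_lit 17816707861) (nat_lit 76) (nat_lit 2022656414) (nat_lit 64) (nat_lit 5) (nat_lit 68) (nat_lit 5) (nat_lit 65) (nat_lit 5) (nat_lit 390) (nat_lit 360) (nat_lit 270)))) (XT.nd (nat_lit 156) (nat_lit 152) (nat_lit 0) (XT.nd (nat_lit 78) (nat_lit 228) (nat_lit 0) (XT.lf (nat_lit 0) (nat_lit 10094009088) (nat_lit 304) (nat_lit 4090359304) (nat_lit 76) (nat_lit 11431463478) (nat_lit 64) (nat_lit 5) (nat_lit 68) (nat_lit 5) (nat_lit 65) (nat_lit 5) (nat_lit 391) (nat_lit 360) (nat_lit 269)) (XT.lf (nat_lit 0) (nat_lit 10647009460) (nat_lit 228) (nat_lit 4938909267) (nat_lit 304) (nat_lit 10825426416) (nat_lit 61) (nat_lit 5)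 (nat_lit 64) (nat_lit 5) (nat_lit 65) (nat_lit 5) (nat_lit 392) (nat_lit 360) (nat_lit 268))) (XT.nd (nat_lit 78) (nat_lit 152) (nat_lit 0) (XT.lf (nat_lit 0) (nat_lit 21486476438) (nat_lit 304) (nat_lit 1071776863) (nat_lit 76) (nat_lit 4681682845) (nat_lit 61) (nat_lit 5) (nat_lit 65) (nat_lit 5) (nat_lit 62) (nat_lit 5) (nat_lit 393) (nat_lit 360) (nat_lit 267)) (XT.lf (nat_lit 0) (nat_lit 14730413395) (nat_lit 152) (nat_lit 13252302236) (nat_lit 228) (nat_lit 112212864) (nat_lit 59) (nat_lit 5) (nat_lit 61) (nat_lit 5) (nat_lit 62) (nat_lit 5) (nat_lit 394) (nat_lit 360) (nat_lit 266))))))) (XT.nd (nat_lit 1014) (nat_lit 988) (nat_lit 0) (XT.nd (nat_lit 468) (nat_lit 684) (nat_lit 0) (XT.nd (nat_lit 234) (nat_lit 228) (nat_lit 0) (XT.nd (nat_lit 78) (nat_lit 152) (nat_lit 0) (XT.lf (nat_lit 0) (nat_lit 2336324067) (nat_lit 228) (nat_lit 3333494350) (nat_lit 304) (nat_lit 23316084054)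 (nat_lit 55) (nat_lit 5) (nat_lit 58) (nat_lit 5) (nat_lit 59) (nat_lit 5) (nat_lit 395) (nat_lit 360) (nat_lit 265)) (XT.nd (nat_lit 78) (nat_lit 152) (nat_lit 0) (XT.lf (nat_lit 0) (nat_lit 12067734577) (nat_lit 304) (nat_lit 10755780212) (nat_lit 76) (nat_lit 7081294524) (nat_lit 55) (nat_lit 5) (nat_lit 59) (nat_lit 5) (nat_lit 56) (nat_lit 5) (nat_lit 396) (nat_lit 360) (nat_lit 264)) (XT.lf (nat_lit 0) (nat_lit 6056915175) (nat_lit 152) (nat_lit 12868273999) (nat_lit 228) (nat_lit 11937493872) (nat_lit 53) (nat_lit 5) (nat_lit 55) (nat_lit 5) (nat_lit 56) (nat_lit 5) (nat_lit 397) (nat_lit 360) (nat_lit 263)))) (XT.nd (nat_lit 78) (nat_lit 228) (nat_lit 0) (XT.lf (nat_lit 0) (nat_lit 24068899363) (nat_lit 152) (nat_lit 2229426486) (nat_lit 228) (nat_lit 5561487655) (nat_lit 53) (nat_lit 5) (nat_lit 55) (nat_lit 5) (nat_lit 56) (nat_lit 5) (nat_lit 398) (nat_lit 360) (nat_lit 262))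 (XT.nd (nat_lit 78) (nat_lit 0) (nat_lit 0) (XT.lf (nat_lit 0) (nat_lit 1392436544) (nat_lit 228) (nat_lit 22666053975) (nat_lit 76) (nat_lit 8832658884) (nat_lit 50) (nat_lit 5) (nat_lit 53) (nat_lit 5) (nat_lit 51) (nat_lit 5) (nat_lit 399) (nat_lit 360) (nat_lit 261)) (XT.lf (nat_lit 0) (nat_lit 8668886934) (nat_lit 228) (nat_lit 4699441932) (nat_lit 76) (nat_lit 20593081041) (nat_lit 50) (nat_lit 5) (nat_lit 53) (nat_lit 5) (nat_lit 51) (nat_lit 5) (nat_lit 400) (nat_lit 360) (nat_lit 260))))) (XT.nd (nat_lit 234) (nat_lit 380) (nat_lit 0) (XT.nd (nat_lit 78) (nat_lit 152) (nat_lit 0) (XT.lf (nat_lit 0) (nat_lit 14619617388) (nat_lit 152) (nat_lit 1909299043) (nat_lit 228) (nat_lit 18545282059) (nat_lit 48) (nat_lit 5) (nat_lit 50) (nat_lit 5) (nat_lit 51) (nat_lit 5) (nat_lit 401) (nat_lit 360) (nat_lit 259)) (XT.nd (nat_lit 78) (nat_lit 152) (nat_lit 0) (XT.lf (nat_lit 0) (nat_lit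 25012496479) (nat_lit 228) (nat_lit 1344126942) (nat_lit 76) (nat_lit 9874478374) (nat_lit 48) (nat_lit 5) (nat_lit 51) (nat_lit 5) (nat_lit 49) (nat_lit 5) (nat_lit 402) (nat_lit 360) (nat_lit 258)) (XT.lf (nat_lit 0) (nat_lit 19294853029) (nat_lit 152) (nat_lit 14949962169) (nat_lit 228) (nat_lit 3184809702) (nat_lit 46) (nat_lit 5) (nat_lit 48) (nat_lit 5) (nat_lit 49) (nat_lit 5) (nat_lit 403) (nat_lit 360) (nat_lit 257)))) (XT.nd (nat_lit 156) (nat_lit 152) (nat_lit 0) (XT.nd (nat_lit 78) (nat_lit 0) (nat_lit 0) (XT.lf (nat_lit 0) (nat_lit 2303585366) (nat_lit 152) (nat_lit 2830197216) (nat_lit 228) (nat_lit 33547636996) (nat_lit 43) (nat_lit 5) (nat_lit 45) (nat_lit 5) (nat_lit 46) (nat_lit 5) (nat_lit 404) (nat_lit 360) (nat_lit 256)) (XT.lf (nat_lit 0) (nat_lit 14220077202) (nat_lit 228) (nat_lit 15812128083) (nat_lit 76) (nat_lit 9938050304) (nat_lit 43) (nat_lit 5) (nat_lit 46)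 (nat_lit 5) (nat_lit 44) (nat_lit 5) (nat_lit 405) (nat_lit 360) (nat_lit 255))) (XT.nd (nat_lit 78) (nat_lit 0) (nat_lit 0) (XT.lf (nat_lit 0) (nat_lit 5911926368) (nat_lit 152) (nat_lit 17979982350) (nat_lit 228) (nat_lit 17425065727) (nat_lit 41) (nat_lit 5) (nat_lit 43) (nat_lit 5) (nat_lit 44) (nat_lit 5) (nat_lit 406) (nat_lit 360) (nat_lit 254)) (XT.lf (nat_lit 0) (nat_lit 29258591842) (nat_lit 152) (nat_lit 5049209784) (nat_lit 228) (nat_lit 8410206177) (nat_lit 41) (nat_lit 5) (nat_lit 43) (nat_lit 5) (nat_lit 44) (nat_lit 5) (nat_lit 407) (nat_lit 360) (nat_lit 253)))))) (XT.nd (nat_lit 468) (nat_lit 532) (nat_lit 0) (XT.nd (nat_lit 234) (nat_lit 152) (nat_lit 0) (XT.nd (nat_lit 78) (nat_lit 152) (nat_lit 0) (XT.lf (nat_lit 0) (nat_lit 1304507609) (nat_lit 152) (nat_lit 34446029390) (nat_lit 76) (nat_lit 8423589277) (nat_lit 39) (nat_lit 5) (nat_lit 41) (nat_lit 5) (nat_lit 40)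 (nat_lit 5) (nat_lit 408) (nat_lit 360) (nat_lit 252)) (XT.nd (nat_lit 78) (nat_lit 152) (nat_lit 0) (XT.lf (nat_lit 0) (nat_lit 11529758506) (nat_lit 152) (nat_lit 11386034812) (nat_lit 76) (nat_lit 22764993539) (nat_lit 39) (nat_lit 5) (nat_lit 41) (nat_lit 5) (nat_lit 40) (nat_lit 5) (nat_lit 409) (nat_lit 360) (nat_lit 251)) (XT.lf (nat_lit 0) (nat_lit 13239010294) (nat_lit 152) (nat_lit 9227280749) (nat_lit 228) (nat_lit 24786490155) (nat_lit 37) (nat_lit 5) (nat_lit 39) (nat_lit 5) (nat_lit 40) (nat_lit 5) (nat_lit 410) (nat_lit 360) (nat_lit 250)))) (XT.nd (nat_lit 78) (nat_lit 152) (nat_lit 0) (XT.lf (nat_lit 0) (nat_lit 34219359828) (nat_lit 228) (nat_lit 9498371166) (nat_lit 76) (nat_lit 5172160389) (nat_lit 37) (nat_lit 5) (nat_lit 40) (nat_lit 5) (nat_lit 38) (nat_lit 4) (nat_lit 411) (nat_lit 360) (nat_lit 249)) (XT.nd (nat_lit 78) (nat_lit 76) (nat_lit 0) (XT.lf (nat_lit 0)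 (nat_lit 16612036642) (nat_lit 76) (nat_lit 30352370242) (nat_lit 152) (nat_lit 3624235479) (nat_lit 36) (nat_lit 5) (nat_lit 37) (nat_lit 5) (nat_lit 38) (nat_lit 4) (nat_lit 412) (nat_lit 360) (nat_lit 248)) (XT.lf (nat_lit 0) (nat_lit 7876365323) (nat_lit 152) (nat_lit 8144912946) (nat_lit 76) (nat_lit 36336967906) (nat_lit 35) (nat_lit 5) (nat_lit 37) (nat_lit 5) (nat_lit 36) (nat_lit 5) (nat_lit 413) (nat_lit 360) (nat_lit 247))))) (XT.nd (nat_lit 234) (nat_lit 304) (nat_lit 0) (XT.nd (nat_lit 78) (nat_lit 76) (nat_lit 0) (XT.lf (nat_lit 0) (nat_lit 19533465092) (nat_lit 152) (nat_lit 595727210) (nat_lit 228) (nat_lit 34069218802) (nat_lit 33) (nat_lit 5) (nat_lit 35) (nat_lit 5) (nat_lit 36) (nat_lit 5) (nat_lit 414) (nat_lit 360) (nat_lit 246)) (XT.nd (nat_lit 78) (nat_lit 76) (nat_lit 0) (XT.lf (nat_lit 0) (nat_lit 33372506994) (nat_lit 228) (nat_lit 7501718408) (nat_lit 76) (nat_lit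 15237467818) (nat_lit 33) (nat_lit 5) (nat_lit 36) (nat_lit 5) (nat_lit 34) (nat_lit 4) (nat_lit 415) (nat_lit 360) (nat_lit 245)) (XT.lf (nat_lit 0) (nat_lit 21694032059) (nat_lit 76) (nat_lit 25926778519) (nat_lit 152) (nat_lit 10482688903) (nat_lit 32) (nat_lit 5) (nat_lit 33) (nat_lit 5) (nat_lit 34) (nat_lit 4) (nat_lit 416) (nat_lit 360) (nat_lit 244)))) (XT.nd (nat_lit 156) (nat_lit 76) (nat_lit 0) (XT.nd (nat_lit 78) (nat_lit 152) (nat_lit 0) (XT.lf (nat_lit 0) (nat_lit 2433746690) (nat_lit 152) (nat_lit 7628115131) (nat_lit 76) (nat_lit 50124997192) (nat_lit 31) (nat_lit 5) (nat_lit 33) (nat_lit 5) (nat_lit 32) (nat_lit 5) (nat_lit 417) (nat_lit 360) (nat_lit 243)) (XT.lf (nat_lit 0) (nat_lit 16111481534) (nat_lit 228) (nat_lit 39307946189) (nat_lit 76) (nat_lit 6922979238) (nat_lit 29) (nat_lit 5) (nat_lit 32) (nat_lit 5) (nat_lit 30) (nat_lit 4) (nat_lit 418) (nat_lit 360) (nat_lit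 242))) (XT.nd (nat_lit 78) (nat_lit 76) (nat_lit 0) (XT.lf (nat_lit 0) (nat_lit 30764033545) (nat_lit 228) (nat_lit 9281133374) (nat_lit 76) (nat_lit 24546019850) (nat_lit 29) (nat_lit 5) (nat_lit 32) (nat_lit 5) (nat_lit 30) (nat_lit 4) (nat_lit 419) (nat_lit 360) (nat_lit 241)) (XT.lf (nat_lit 0) (nat_lit 22972974535) (nat_lit 76) (nat_lit 23529842803) (nat_lit 152) (nat_lit 20431908962) (nat_lit 28) (nat_lit 5) (nat_lit 29) (nat_lit 5) (nat_lit 30) (nat_lit 4) (nat_lit 420) (nat_lit 360) (nat_lit 240))))))))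
noncomputable def xc148 : XT := (XT.nd (nat_lit 1950) (nat_lit 532) (nat_lit 0) (XT.nd (nat_lit 936) (nat_lit 532) (nat_lit 0) (XT.nd (nat_lit 468) (nat_lit 304) (nat_lit 0) (XT.nd (nat_lit 234) (nat_lit 152) (nat_lit 0) (XT.nd (nat_lit 78) (nat_lit 152) (nat_lit 0) (XT.lf (nat_lit 0) (nat_lit 57152834025) (nat_lit 76) (nat_lit 6027916567) (nat_lit 152) (nat_lit 6207082594) (nat_lit 28) (nat_lit 5) (nat_lit 29) (nat_lit 5) (nat_lit 30) (nat_lit 4) (nat_lit 421) (nat_lit 360) (nat_lit 239)) (XT.nd (nat_lit 78) (nat_lit 0) (nat_lit 0) (XT.lf (nat_lit 0) (nat_lit 8982928097) (nat_lit 152) (nat_lit 50515603846) (nat_lit 76) (nat_lit 12431583838) (nat_lit 26) (nat_lit 5) (nat_lit 28) (nat_lit 5) (nat_lit 27) (nat_lit 4) (nat_lit 422) (nat_lit 360) (nat_lit 238)) (XT.lf (nat_lit 0) (nat_lit 25028478932) (nat_lit 152) (nat_lit 17630779807) (nat_lit 76) (nat_lit 31919934851) (nat_lit 26) (nat_lit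 5) (nat_lit 28) (nat_lit 5) (nat_lit 27) (nat_lit 4) (nat_lit 423) (nat_lit 360) (nat_lit 237)))) (XT.nd (nat_lit 78) (nat_lit 76) (nat_lit 0) (XT.lf (nat_lit 0) (nat_lit 17448235905) (nat_lit 76) (nat_lit 24695932537) (nat_lit 152) (nat_lit 35203164527) (nat_lit 25) (nat_lit 5) (nat_lit 26) (nat_lit 5) (nat_lit 27) (nat_lit 4) (nat_lit 424) (nat_lit 360) (nat_lit 236)) (XT.nd (nat_lit 78) (nat_lit 76) (nat_lit 0) (XT.lf (nat_lit 0) (nat_lit 54884938354) (nat_lit 76) (nat_lit 5524821426) (nat_lit 152) (nat_lit 19829414371) (nat_lit 25) (nat_lit 5) (nat_lit 26) (nat_lit 5) (nat_lit 27) (nat_lit 4) (nat_lit 425) (nat_lit 360) (nat_lit 235)) (XT.lf (nat_lit 0) (nat_lit 11034909904) (nat_lit 76) (nat_lit 68949715623) (nat_lit 76) (nat_lit 3271182789) (nat_lit 24) (nat_lit 4) (nat_lit 25) (nat_lit 5) (nat_lit 25) (nat_lit 4) (nat_lit 426) (nat_lit 360) (nat_lit 234))))) (XT.nd (nat_lit 234) (nat_lit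 152) (nat_lit 0) (XT.nd (nat_lit 78) (nat_lit 76) (nat_lit 0) (XT.lf (nat_lit 0) (nat_lit 14185886751) (nat_lit 152) (nat_lit 36604168196) (nat_lit 76) (nat_lit 35596066481) (nat_lit 23) (nat_lit 5) (nat_lit 25) (nat_lit 5) (nat_lit 24) (nat_lit 4) (nat_lit 427) (nat_lit 360) (nat_lit 233)) (XT.nd (nat_lit 78) (nat_lit 0) (nat_lit 0) (XT.lf (nat_lit 0) (nat_lit 756230024) (nat_lit 76) (nat_lit 31657355371) (nat_lit 152) (nat_lit 57256298637) (nat_lit 22) (nat_lit 5) (nat_lit 23) (nat_lit 5) (nat_lit 24) (nat_lit 4) (nat_lit 428) (nat_lit 360) (nat_lit 232)) (XT.lf (nat_lit 0) (nat_lit 41247840524) (nat_lit 76) (nat_lit 10920715847) (nat_lit 152) (nat_lit 40918484575) (nat_lit 22) (nat_lit 5) (nat_lit 23) (nat_lit 5) (nat_lit 24) (nat_lit 4) (nat_lit 429) (nat_lit 360) (nat_lit 231)))) (XT.nd (nat_lit 78) (nat_lit 152) (nat_lit 0) (XT.lf (nat_lit 0) (nat_lit 73076833920) (nat_lit 152) (nat_lit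 13087863362) (nat_lit 0) (nat_lit 10502081047) (nat_lit 22) (nat_lit 5) (nat_lit 24) (nat_lit 4) (nat_lit 22) (nat_lit 4) (nat_lit 430) (nat_lit 360) (nat_lit 230)) (XT.nd (nat_lit 78) (nat_lit 76) (nat_lit 0) (XT.lf (nat_lit 0) (nat_lit 28321430031) (nat_lit 76) (nat_lit 67326601375) (nat_lit 76) (nat_lit 4746596368) (nat_lit 21) (nat_lit 4) (nat_lit 22) (nat_lit 5) (nat_lit 22) (nat_lit 4) (nat_lit 431) (nat_lit 360) (nat_lit 229)) (XT.lf (nat_lit 0) (nat_lit 14779171615) (nat_lit 152) (nat_lit 32287705226) (nat_lit 76) (nat_lit 57219173725) (nat_lit 20) (nat_lit 5) (nat_lit 22) (nat_lit 5) (nat_lit 21) (nat_lit 4) (nat_lit 432) (nat_lit 360) (nat_lit 228)))))) (XT.nd (nat_lit 468) (nat_lit 304) (nat_lit 0) (XT.nd (nat_lit 234) (nat_lit 152) (nat_lit 0) (XT.nd (nat_lit 78) (nat_lit 0) (nat_lit 0) (XT.lf (nat_lit 0) (nat_lit 9713421007) (nat_lit 76) (nat_lit 25556428693) (nat_lit 152) (nat_lit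 73090897653) (nat_lit 19) (nat_lit 5) (nat_lit 20) (nat_lit 5) (nat_lit 21) (nat_lit 4) (nat_lit 433) (nat_lit 360) (nat_lit 227)) (XT.nd (nat_lit 78) (nat_lit 0) (nat_lit 0) (XT.lf (nat_lit 0) (nat_lit 54928950137) (nat_lit 76) (nat_lit 2399468402) (nat_lit 152) (nat_lit 55283593006) (nat_lit 19) (nat_lit 5) (nat_lit 20) (nat_lit 5) (nat_lit 21) (nat_lit 4) (nat_lit 434) (nat_lit 360) (nat_lit 226)) (XT.lf (nat_lit 0) (nat_lit 80828742005) (nat_lit 152) (nat_lit 15019155747) (nat_lit 0) (nat_lit 21211000277) (nat_lit 19) (nat_lit 5) (nat_lit 21) (nat_lit 4) (nat_lit 19) (nat_lit 4) (nat_lit 435) (nat_lit 360) (nat_lit 225)))) (XT.nd (nat_lit 78) (nat_lit 76) (nat_lit 0) (XT.lf (nat_lit 0) (nat_lit 30715593169) (nat_lit 76) (nat_lit 75304205567) (nat_lit 76) (nat_lit 15682544617) (nat_lit 18) (nat_lit 4) (nat_lit 19) (nat_lit 5) (nat_lit 19) (nat_lit 4) (nat_lit 436) (nat_lit 360) (nat_lit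 224)) (XT.nd (nat_lit 78) (nat_lit 0) (nat_lit 0) (XT.lf (nat_lit 0) (nat_lit 5959209678) (nat_lit 152) (nat_lit 47409013704) (nat_lit 76) (nat_lit 73192370147) (nat_lit 17) (nat_lit 5) (nat_lit 19) (nat_lit 5) (nat_lit 18) (nat_lit 4) (nat_lit 437) (nat_lit 360) (nat_lit 223)) (XT.lf (nat_lit 0) (nat_lit 28152997238) (nat_lit 152) (nat_lit 1915304056) (nat_lit 76) (nat_lit 101580751601) (nat_lit 17) (nat_lit 5) (nat_lit 19) (nat_lit 5) (nat_lit 18) (nat_lit 4) (nat_lit 438) (nat_lit 360) (nat_lit 222))))) (XT.nd (nat_lit 234) (nat_lit 152) (nat_lit 0) (XT.nd (nat_lit 78) (nat_lit 76) (nat_lit 0) (XT.lf (nat_lit 0) (nat_lit 47363472497) (nat_lit 76) (nat_lit 4829603826) (nat_lit 152) (nat_lit 84762029103) (nat_lit 16) (nat_lit 5) (nat_lit 17) (nat_lit 5) (nat_lit 18) (nat_lit 4) (nat_lit 439) (nat_lit 360) (nat_lit 221)) (XT.nd (nat_lit 78) (nat_lit 76) (nat_lit 0) (XT.lf (nat_lit 0) (nat_lit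 77803609385) (nat_lit 152) (nat_lit 43696589437) (nat_lit 0) (nat_lit 21007839554) (nat_lit 16) (nat_lit 5) (nat_lit 18) (nat_lit 4) (nat_lit 16) (nat_lit 4) (nat_lit 440) (nat_lit 360) (nat_lit 220)) (XT.lf (nat_lit 0) (nat_lit 4554513504) (nat_lit 76) (nat_lit 100287710703) (nat_lit 76) (nat_lit 43489016288) (nat_lit 15) (nat_lit 4) (nat_lit 16) (nat_lit 5) (nat_lit 16) (nat_lit 4) (nat_lit 441) (nat_lit 360) (nat_lit 219)))) (XT.nd (nat_lit 156) (nat_lit 76) (nat_lit 0) (XT.nd (nat_lit 78) (nat_lit 76) (nat_lit 0) (XT.lf (nat_lit 0) (nat_lit 56730012092) (nat_lit 76) (nat_lit 77240101712) (nat_lit 76) (nat_lit 20438621978) (nat_lit 15) (nat_lit 4) (nat_lit 16) (nat_lit 5) (nat_lit 16) (nat_lit 4) (nat_lit 442) (nat_lit 360) (nat_lit 218)) (XT.lf (nat_lit 0) (nat_lit 3641217837) (nat_lit 152) (nat_lit 49339635852) (nat_lit 76) (nat_lit 107806443494) (nat_lit 14) (nat_lit 5) (nat_lit 16)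 (nat_lit 5) (nat_lit 15) (nat_lit 4) (nat_lit 443) (nat_lit 360) (nat_lit 217))) (XT.nd (nat_lit 78) (nat_lit 0) (nat_lit 0) (XT.lf (nat_lit 0) (nat_lit 1112138099) (nat_lit 76) (nat_lit 27140933551) (nat_lit 152) (nat_lit 139214217577) (nat_lit 13) (nat_lit 5) (nat_lit 14) (nat_lit 5) (nat_lit 15) (nat_lit 4) (nat_lit 444) (nat_lit 360) (nat_lit 216)) (XT.lf (nat_lit 0) (nat_lit 54942204212) (nat_lit 152) (nat_lit 118658409647) (nat_lit 0) (nat_lit 838332928) (nat_lit 13) (nat_lit 5) (nat_lit 15) (nat_lit 4) (nat_lit 13) (nat_lit 4) (nat_lit 445) (nat_lit 360) (nat_lit 215))))))) (XT.nd (nat_lit 1014) (nat_lit 228) (nat_lit 0) (XT.nd (nat_lit 468) (nat_lit 76) (nat_lit 0) (XT.nd (nat_lit 234) (nat_lit 152) (nat_lit 0) (XT.nd (nat_lit 78) (nat_lit 76) (nat_lit 0) (XT.lf (nat_lit 0) (nat_lit 83408382006) (nat_lit 152) (nat_lit 69026347644) (nat_lit 0) (nat_lit 29302328352) (nat_lit 13) (nat_lit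 5) (nat_lit 15) (nat_lit 4) (nat_lit 13) (nat_lit 4) (nat_lit 446) (nat_lit 360) (nat_lit 214)) (XT.nd (nat_lit 78) (nat_lit 76) (nat_lit 0) (XT.lf (nat_lit 0) (nat_lit 113295635611) (nat_lit 152) (nat_lit 16917047510) (nat_lit 0) (nat_lit 59187503509) (nat_lit 13) (nat_lit 5) (nat_lit 15) (nat_lit 4) (nat_lit 13) (nat_lit 4) (nat_lit 447) (nat_lit 360) (nat_lit 213)) (XT.lf (nat_lit 0) (nat_lit 39043186310) (nat_lit 76) (nat_lit 106241512400) (nat_lit 76) (nat_lit 52131400825) (nat_lit 12) (nat_lit 4) (nat_lit 13) (nat_lit 5) (nat_lit 13) (nat_lit 4) (nat_lit 448) (nat_lit 360) (nat_lit 212)))) (XT.nd (nat_lit 78) (nat_lit 152) (nat_lit 0) (XT.lf (nat_lit 0) (nat_lit 98384663449) (nat_lit 76) (nat_lit 80772960575) (nat_lit 76) (nat_lit 26660963787) (nat_lit 12) (nat_lit 4) (nat_lit 13) (nat_lit 5) (nat_lit 13) (nat_lit 4) (nat_lit 449) (nat_lit 360) (nat_lit 211)) (XT.nd (nat_lit 78) (nat_lit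 76) (nat_lit 0) (XT.lf (nat_lit 0) (nat_lit 78316122) (nat_lit 152) (nat_lit 53953244179) (nat_lit 76) (nat_lit 160609676705) (nat_lit 11) (nat_lit 5) (nat_lit 13) (nat_lit 5) (nat_lit 12) (nat_lit 4) (nat_lit 450) (nat_lit 360) (nat_lit 210)) (XT.lf (nat_lit 0) (nat_lit 1818845804) (nat_lit 76) (nat_lit 25466201989) (nat_lit 152) (nat_lit 196596794222) (nat_lit 10) (nat_lit 5) (nat_lit 11) (nat_lit 5) (nat_lit 12) (nat_lit 4) (nat_lit 451) (nat_lit 360) (nat_lit 209))))) (XT.nd (nat_lit 234) (nat_lit 76) (nat_lit 0) (XT.nd (nat_lit 78) (nat_lit 0) (nat_lit 0) (XT.lf (nat_lit 0) (nat_lit 56849584253) (nat_lit 152) (nat_lit 171375559977) (nat_lit 0) (nat_lit 5309459784) (nat_lit 10) (nat_lit 5) (nat_lit 12) (nat_lit 4) (nat_lit 10) (nat_lit 4) (nat_lit 452) (nat_lit 360) (nat_lit 208)) (XT.nd (nat_lit 78) (nat_lit 0) (nat_lit 0) (XT.lf (nat_lit 0) (nat_lit 88307996768) (nat_lit 152) (nat_lit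 118574829835) (nat_lit 0) (nat_lit 36766395186) (nat_lit 10) (nat_lit 5) (nat_lit 12) (nat_lit 4) (nat_lit 10) (nat_lit 4) (nat_lit 453) (nat_lit 360) (nat_lit 207)) (XT.lf (nat_lit 0) (nat_lit 121337587541) (nat_lit 152) (nat_lit 63137490981) (nat_lit 0) (nat_lit 69794579183) (nat_lit 10) (nat_lit 5) (nat_lit 12) (nat_lit 4) (nat_lit 10) (nat_lit 4) (nat_lit 454) (nat_lit 360) (nat_lit 206)))) (XT.nd (nat_lit 156) (nat_lit 0) (nat_lit 0) (XT.nd (nat_lit 78) (nat_lit 76) (nat_lit 0) (XT.lf (nat_lit 0) (nat_lit 156016998455) (nat_lit 152) (nat_lit 4931549749) (nat_lit 0) (nat_lit 104472650311) (nat_lit 10) (nat_lit 5) (nat_lit 12) (nat_lit 4) (nat_lit 10) (nat_lit 4) (nat_lit 455) (nat_lit 360) (nat_lit 205)) (XT.lf (nat_lit 0) (nat_lit 58039196171) (nat_lit 76) (nat_lit 135295757869) (nat_lit 76) (nat_lit 83750133739) (nat_lit 9) (nat_lit 4) (nat_lit 10) (nat_lit 5) (nat_lit 10) (nat_lit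 4) (nat_lit 456) (nat_lit 360) (nat_lit 204))) (XT.nd (nat_lit 78) (nat_lit 0) (nat_lit 0) (XT.lf (nat_lit 0) (nat_lit 124326632697) (nat_lit 76) (nat_lit 108274140008) (nat_lit 76) (nat_lit 56727300652) (nat_lit 9) (nat_lit 4) (nat_lit 10) (nat_lit 5) (nat_lit 10) (nat_lit 4) (nat_lit 457) (nat_lit 360) (nat_lit 203)) (XT.lf (nat_lit 0) (nat_lit 193925527750) (nat_lit 76) (nat_lit 79902875616) (nat_lit 76) (nat_lit 28354878903) (nat_lit 9) (nat_lit 4) (nat_lit 10) (nat_lit 5) (nat_lit 10) (nat_lit 4) (nat_lit 458) (nat_lit 360) (nat_lit 202)))))) (XT.nd (nat_lit 468) (nat_lit 76) (nat_lit 0) (XT.nd (nat_lit 234) (nat_lit 0) (nat_lit 0) (XT.nd (nat_lit 78) (nat_lit 76) (nat_lit 0) (XT.lf (nat_lit 0) (nat_lit 1388766016) (nat_lit 152) (nat_lit 48702128625) (nat_lit 76) (nat_lit 265589307546) (nat_lit 8) (nat_lit 5) (nat_lit 10) (nat_lit 5) (nat_lit 9) (nat_lit 4) (nat_lit 459) (nat_lit 360)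 (nat_lit 201)) (XT.nd (nat_lit 78) (nat_lit 0) (nat_lit 0) (XT.lf (nat_lit 0) (nat_lit 13805623012) (nat_lit 76) (nat_lit 18075241245) (nat_lit 152) (nat_lit 297937153185) (nat_lit 7) (nat_lit 5) (nat_lit 8) (nat_lit 5) (nat_lit 9) (nat_lit 4) (nat_lit 460) (nat_lit 360) (nat_lit 200)) (XT.lf (nat_lit 0) (nat_lit 64977164099) (nat_lit 152) (nat_lit 263750747409) (nat_lit 0) (nat_lit 15880832209) (nat_lit 7) (nat_lit 5) (nat_lit 9) (nat_lit 4) (nat_lit 7) (nat_lit 4) (nat_lit 461) (nat_lit 360) (nat_lit 199)))) (XT.nd (nat_lit 78) (nat_lit 0) (nat_lit 0) (XT.lf (nat_lit 0) (nat_lit 100023298892) (nat_lit 152) (nat_lit 209174896320) (nat_lit 0) (nat_lit 50926060181) (nat_lit 7) (nat_lit 5) (nat_lit 9) (nat_lit 4) (nat_lit 7) (nat_lit 4) (nat_lit 462) (nat_lit 360) (nat_lit 198)) (XT.nd (nat_lit 78) (nat_lit 0) (nat_lit 0) (XT.lf (nat_lit 0) (nat_lit 136820506641) (nat_lit 152) (nat_lit 151872693490)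 (nat_lit 0) (nat_lit 87722404293) (nat_lit 7) (nat_lit 5) (nat_lit 9) (nat_lit 4) (nat_lit 7) (nat_lit 4) (nat_lit 463) (nat_lit 360) (nat_lit 197)) (XT.lf (nat_lit 0) (nat_lit 175456399747) (nat_lit 152) (nat_lit 91707705103) (nat_lit 0) (nat_lit 126357474886) (nat_lit 7) (nat_lit 5) (nat_lit 9) (nat_lit 4) (nat_lit 7) (nat_lit 4) (nat_lit 464) (nat_lit 360) (nat_lit 196))))) (XT.nd (nat_lit 234) (nat_lit 0) (nat_lit 0) (XT.nd (nat_lit 78) (nat_lit 76) (nat_lit 0) (XT.lf (nat_lit 0) (nat_lit 216022968430) (nat_lit 152) (nat_lit 28536681186) (nat_lit 0) (nat_lit 166923260225) (nat_lit 7) (nat_lit 5) (nat_lit 9) (nat_lit 4) (nat_lit 7) (nat_lit 4) (nat_lit 465) (nat_lit 360) (nat_lit 195)) (XT.nd (nat_lit 78) (nat_lit 0) (nat_lit 0) (XT.lf (nat_lit 0) (nat_lit 39040319494) (nat_lit 76) (nat_lit 220186009064) (nat_lit 76) (nat_lit 171085554816) (nat_lit 6) (nat_lit 4) (nat_lit 7) (nat_lit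 5) (nat_lit 7) (nat_lit 4) (nat_lit 466) (nat_lit 360) (nat_lit 194)) (XT.lf (nat_lit 0) (nat_lit 110984824883) (nat_lit 76) (nat_lit 194087266888) (nat_lit 76) (nat_lit 144986102123) (nat_lit 6) (nat_lit 4) (nat_lit 7) (nat_lit 5) (nat_lit 7) (nat_lit 4) (nat_lit 467) (nat_lit 360) (nat_lit 193)))) (XT.nd (nat_lit 156) (nat_lit 0) (nat_lit 0) (XT.nd (nat_lit 78) (nat_lit 0) (nat_lit 0) (XT.lf (nat_lit 0) (nat_lit 186524579867) (nat_lit 76) (nat_lit 166684565733) (nat_lit 76) (nat_lit 117582724284) (nat_lit 6) (nat_lit 4) (nat_lit 7) (nat_lit 5) (nat_lit 7) (nat_lit 4) (nat_lit 468) (nat_lit 360) (nat_lit 192)) (XT.lf (nat_lit 0) (nat_lit 265839441004) (nat_lit 76) (nat_lit 137912661070) (nat_lit 76) (nat_lit 88810175161) (nat_lit 6) (nat_lit 4) (nat_lit 7) (nat_lit 5) (nat_lit 7) (nat_lit 4) (nat_lit 469) (nat_lit 360) (nat_lit 191))) (XT.nd (nat_lit 78) (nat_lit 0) (nat_lit 0) (XT.lf (nat_lit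 0) (nat_lit 349118253203) (nat_lit 76) (nat_lit 107703048365) (nat_lit 76) (nat_lit 58599948685) (nat_lit 6) (nat_lit 4) (nat_lit 7) (nat_lit 5) (nat_lit 7) (nat_lit 4) (nat_lit 470) (nat_lit 360) (nat_lit 190)) (XT.lf (nat_lit 0) (nat_lit 436559299349) (nat_lit 76) (nat_lit 75983799969) (nat_lit 76) (nat_lit 26880115745) (nat_lit 6) (nat_lit 4) (nat_lit 7) (nat_lit 5) (nat_lit 7) (nat_lit 4) (nat_lit 471) (nat_lit 360) (nat_lit 189))))))))
noncomputable def xc149 : XT := (XT.nd (nat_lit 46020) (nat_lit 0) (nat_lit 2964) (XT.nd (nat_lit 45006) (nat_lit 0) (nat_lit 6232) (XT.nd (nat_lit 44538) (nat_lit 0) (nat_lit 8892) (XT.nd (nat_lit 234) (nat_lit 0) (nat_lit 0) (XT.nd (nat_lit 78) (nat_lit 76) (nat_lit 0) (XT.lf (nat_lit 0) (nat_lit 6219211840) (nat_lit 152) (nat_lit 36354856660) (nat_lit 76) (nat_lit 522046235208) (nat_lit 5) (nat_lit 5) (nat_lit 7) (nat_lit 5) (nat_lit 6) (nat_lit 4)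 (nat_lit 472) (nat_lit 360) (nat_lit 188)) (XT.nd (nat_lit 78) (nat_lit 0) (nat_lit 0) (XT.lf (nat_lit 0) (nat_lit 34129789820) (nat_lit 76) (nat_lit 6472435033) (nat_lit 152) (nat_lit 550426385736) (nat_lit 4) (nat_lit 5) (nat_lit 5) (nat_lit 5) (nat_lit 6) (nat_lit 4) (nat_lit 473) (nat_lit 360) (nat_lit 187)) (XT.lf (nat_lit 0) (nat_lit 77820153237) (nat_lit 152) (nat_lit 509828167754) (nat_lit 0) (nat_lit 31053223634) (nat_lit 4) (nat_lit 5) (nat_lit 6) (nat_lit 4) (nat_lit 4) (nat_lit 4) (nat_lit 474) (nat_lit 360) (nat_lit 186)))) (XT.nd (nat_lit 78) (nat_lit 0) (nat_lit 0) (XT.lf (nat_lit 0) (nat_lit 117004328475) (nat_lit 152) (nat_lit 460511588544) (nat_lit 0) (nat_lit 70236940866) (nat_lit 4) (nat_lit 5) (nat_lit 6) (nat_lit 4) (nat_lit 4) (nat_lit 4) (nat_lit 475) (nat_lit 360) (nat_lit 185)) (XT.nd (nat_lit 44148) (nat_lit 0) (nat_lit 8892) (XT.lf (nat_lit 0) (nat_lit 158146993373)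 (nat_lit 152) (nat_lit 408730609863) (nat_lit 0) (nat_lit 111379169569) (nat_lit 4) (nat_lit 5) (nat_lit 6) (nat_lit 4) (nat_lit 4) (nat_lit 4) (nat_lit 476) (nat_lit 360) (nat_lit 184)) (XT.lf (nat_lit 0) (nat_lit 1820960069) (nat_lit 0) (nat_lit 1820960069) (nat_lit 684) (nat_lit 2197946118) (nat_lit 121) (nat_lit 5) (nat_lit 121) (nat_lit 3) (nat_lit 130) (nat_lit 3) (nat_lit 361) (nat_lit 361) (nat_lit 298))))) (XT.nd (nat_lit 234) (nat_lit 0) (nat_lit 76) (XT.nd (nat_lit 78) (nat_lit 0) (nat_lit 0) (XT.lf (nat_lit 0) (nat_lit 7977733952) (nat_lit 684) (nat_lit 2423331570) (nat_lit 760) (nat_lit 1544703242) (nat_lit 121) (nat_lit 5) (nat_lit 130) (nat_lit 3) (nat_lit 131) (nat_lit 5) (nat_lit 362) (nat_lit 361) (nat_lit 297)) (XT.nd (nat_lit 78) (nat_lit 0) (nat_lit 76) (XT.lf (nat_lit 76) (nat_lit 3507007371) (nat_lit 0) (nat_lit 5282849458) (nat_lit 760) (nat_lit 3431096774) (nat_lit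 122) (nat_lit 5) (nat_lit 121) (nat_lit 5) (nat_lit 131) (nat_lit 5) (nat_lit 363) (nat_lit 361) (nat_lit 296)) (XT.lf (nat_lit 0) (nat_lit 9656202433) (nat_lit 684) (nat_lit 2710780217) (nat_lit 760) (nat_lit 142256591) (nat_lit 122) (nat_lit 5) (nat_lit 131) (nat_lit 5) (nat_lit 132) (nat_lit 5) (nat_lit 364) (nat_lit 361) (nat_lit 295)))) (XT.nd (nat_lit 78) (nat_lit 0) (nat_lit 0) (XT.lf (nat_lit 76) (nat_lit 3603333450) (nat_lit 0) (nat_lit 7077278279) (nat_lit 760) (nat_lit 2125611430) (nat_lit 123) (nat_lit 5) (nat_lit 122) (nat_lit 5) (nat_lit 132) (nat_lit 5) (nat_lit 365) (nat_lit 361) (nat_lit 294)) (XT.nd (nat_lit 78) (nat_lit 0) (nat_lit 76) (XT.lf (nat_lit 76) (nat_lit 10309618525) (nat_lit 0) (nat_lit 1465478869) (nat_lit 760) (nat_lit 1342036387) (nat_lit 123) (nat_lit 5) (nat_lit 122) (nat_lit 5) (nat_lit 132) (nat_lit 5) (nat_lit 366) (nat_lit 361) (nat_lit 293)) (XT.lf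 (nat_lit 76) (nat_lit 3946572865) (nat_lit 0) (nat_lit 9082843622) (nat_lit 760) (nat_lit 408937328) (nat_lit 124) (nat_lit 5) (nat_lit 123) (nat_lit 5) (nat_lit 133) (nat_lit 5) (nat_lit 367) (nat_lit 361) (nat_lit 292)))))) (XT.nd (nat_lit 468) (nat_lit 1444) (nat_lit 0) (XT.nd (nat_lit 234) (nat_lit 608) (nat_lit 0) (XT.nd (nat_lit 78) (nat_lit 0) (nat_lit 76) (XT.lf (nat_lit 0) (nat_lit 599790239) (nat_lit 760) (nat_lit 2689944109) (nat_lit 836) (nat_lit 10483110276) (nat_lit 113) (nat_lit 5) (nat_lit 123) (nat_lit 5) (nat_lit 124) (nat_lit 5) (nat_lit 368) (nat_lit 361) (nat_lit 291)) (XT.nd (nat_lit 78) (nat_lit 0) (nat_lit 0) (XT.lf (nat_lit 0) (nat_lit 1737690150) (nat_lit 760) (nat_lit 9592589610) (nat_lit 836) (nat_lit 2788837775) (nat_lit 114) (nat_lit 5) (nat_lit 124) (nat_lit 5) (nat_lit 125) (nat_lit 5) (nat_lit 369) (nat_lit 361) (nat_lit 290)) (XT.lf (nat_lit 0) (nat_lit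 3009754164) (nat_lit 760) (nat_lit 2356766245) (nat_lit 836) (nat_lit 9112336137) (nat_lit 114) (nat_lit 5) (nat_lit 124) (nat_lit 5) (nat_lit 125) (nat_lit 5) (nat_lit 370) (nat_lit 361) (nat_lit 289)))) (XT.nd (nat_lit 78) (nat_lit 760) (nat_lit 0) (XT.lf (nat_lit 0) (nat_lit 4423213344) (nat_lit 760) (nat_lit 9473337593) (nat_lit 76) (nat_lit 956157122) (nat_lit 115) (nat_lit 5) (nat_lit 125) (nat_lit 5) (nat_lit 116) (nat_lit 5) (nat_lit 371) (nat_lit 361) (nat_lit 288)) (XT.nd (nat_lit 78) (nat_lit 760) (nat_lit 0) (XT.lf (nat_lit 0) (nat_lit 6014837367) (nat_lit 760) (nat_lit 1766560577) (nat_lit 76) (nat_lit 7458494040) (nat_lit 115) (nat_lit 5) (nat_lit 125) (nat_lit 5) (nat_lit 116) (nat_lit 5) (nat_lit 372) (nat_lit 361) (nat_lit 287)) (XT.lf (nat_lit 0) (nat_lit 6516200458) (nat_lit 760) (nat_lit 1251529573) (nat_lit 836) (nat_lit 7874634443) (nat_lit 105) (nat_lit 5) (nat_lit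 115) (nat_lit 5) (nat_lit 116) (nat_lit 5) (nat_lit 373) (nat_lit 361) (nat_lit 286))))) (XT.nd (nat_lit 234) (nat_lit 760) (nat_lit 0) (XT.nd (nat_lit 78) (nat_lit 684) (nat_lit 0) (XT.lf (nat_lit 0) (nat_lit 9706840522) (nat_lit 836) (nat_lit 895665548) (nat_lit 76) (nat_lit 5457538948) (nat_lit 105) (nat_lit 5) (nat_lit 116) (nat_lit 5) (nat_lit 106) (nat_lit 5) (nat_lit 374) (nat_lit 361) (nat_lit 285)) (XT.nd (nat_lit 78) (nat_lit 304) (nat_lit 0) (XT.lf (nat_lit 0) (nat_lit 7962958918) (nat_lit 380) (nat_lit 3906367693) (nat_lit 456) (nat_lit 4622974440) (nat_lit 100) (nat_lit 5) (nat_lit 105) (nat_lit 5) (nat_lit 106) (nat_lit 5) (nat_lit 375) (nat_lit 361) (nat_lit 284)) (XT.lf (nat_lit 0) (nat_lit 292148662) (nat_lit 304) (nat_lit 13898739441) (nat_lit 380) (nat_lit 2752746098) (nat_lit 96) (nat_lit 5) (nat_lit 100) (nat_lit 5) (nat_lit 101) (nat_lit 5) (nat_lit 376) (nat_lit 361)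 (nat_lit 283)))) (XT.nd (nat_lit 156) (nat_lit 304) (nat_lit 0) (XT.nd (nat_lit 78) (nat_lit 456) (nat_lit 0) (XT.lf (nat_lit 0) (nat_lit 9766605061) (nat_lit 304) (nat_lit 7052132283) (nat_lit 380) (nat_lit 589297487) (nat_lit 96) (nat_lit 5) (nat_lit 100) (nat_lit 5) (nat_lit 101) (nat_lit 5) (nat_lit 377) (nat_lit 361) (nat_lit 282)) (XT.lf (nat_lit 0) (nat_lit 1643425015) (nat_lit 456) (nat_lit 16062993946) (nat_lit 76) (nat_lit 187186180) (nat_lit 90) (nat_lit 5) (nat_lit 96) (nat_lit 5) (nat_lit 91) (nat_lit 5) (nat_lit 378) (nat_lit 361) (nat_lit 281))) (XT.nd (nat_lit 78) (nat_lit 304) (nat_lit 0) (XT.lf (nat_lit 0) (nat_lit 4198919609) (nat_lit 456) (nat_lit 6501112743) (nat_lit 76) (nat_lit 7691401341) (nat_lit 90) (nat_lit 5) (nat_lit 96) (nat_lit 5) (nat_lit 91) (nat_lit 5) (nat_lit 379) (nat_lit 361) (nat_lit 280)) (XT.lf (nat_lit 0) (nat_lit 3637882329) (nat_lit 304) (nat_lit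 3285674323) (nat_lit 380) (nat_lit 11988537934) (nat_lit 86) (nat_lit 5) (nat_lit 90) (nat_lit 5) (nat_lit 91) (nat_lit 5) (nat_lit 380) (nat_lit 361) (nat_lit 279))))))) (XT.nd (nat_lit 1014) (nat_lit 1368) (nat_lit 0) (XT.nd (nat_lit 468) (nat_lit 988) (nat_lit 0) (XT.nd (nat_lit 234) (nat_lit 608) (nat_lit 0) (XT.nd (nat_lit 78) (nat_lit 304) (nat_lit 0) (XT.lf (nat_lit 0) (nat_lit 9951581732) (nat_lit 380) (nat_lit 5033662956) (nat_lit 76) (nat_lit 4465194886) (nat_lit 86) (nat_lit 5) (nat_lit 91) (nat_lit 5) (nat_lit 87) (nat_lit 5) (nat_lit 381) (nat_lit 361) (nat_lit 278)) (XT.nd (nat_lit 78) (nat_lit 0) (nat_lit 0) (XT.lf (nat_lit 0) (nat_lit 5834793129) (nat_lit 304) (nat_lit 7426893556) (nat_lit 380) (nat_lit 6747489631) (nat_lit 82) (nat_lit 5) (nat_lit 86) (nat_lit 5) (nat_lit 87) (nat_lit 5) (nat_lit 382) (nat_lit 361) (nat_lit 277)) (XT.lf (nat_lit 0) (nat_lit 16817986385)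 (nat_lit 380) (nat_lit 3196897457) (nat_lit 76) (nat_lit 576939614) (nat_lit 82) (nat_lit 5) (nat_lit 87) (nat_lit 5) (nat_lit 83) (nat_lit 5) (nat_lit 383) (nat_lit 361) (nat_lit 276)))) (XT.nd (nat_lit 78) (nat_lit 380) (nat_lit 0) (XT.lf (nat_lit 0) (nat_lit 8461985546) (nat_lit 228) (nat_lit 12330737191) (nat_lit 304) (nat_lit 398856784) (nat_lit 79) (nat_lit 5) (nat_lit 82) (nat_lit 5) (nat_lit 83) (nat_lit 5) (nat_lit 384) (nat_lit 361) (nat_lit 275)) (XT.nd (nat_lit 78) (nat_lit 304) (nat_lit 0) (XT.lf (nat_lit 0) (nat_lit 3086157861) (nat_lit 304) (nat_lit 1070536016) (nat_lit 76) (nat_lit 17660084394) (nat_lit 78) (nat_lit 5) (nat_lit 82) (nat_lit 5) (nat_lit 79) (nat_lit 5) (nat_lit 385) (nat_lit 361) (nat_lit 274)) (XT.lf (nat_lit 0) (nat_lit 6971481130) (nat_lit 380) (nat_lit 11019016983) (nat_lit 76) (nat_lit 4470445421) (nat_lit 74) (nat_lit 5) (nat_lit 79) (nat_lit 5) (nat_lit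 75) (nat_lit 5) (nat_lit 386) (nat_lit 361) (nat_lit 273))))) (XT.nd (nat_lit 234) (nat_lit 532) (nat_lit 0) (XT.nd (nat_lit 78) (nat_lit 228) (nat_lit 0) (XT.lf (nat_lit 0) (nat_lit 1442253507) (nat_lit 228) (nat_lit 9705733114) (nat_lit 304) (nat_lit 11984490930) (nat_lit 71) (nat_lit 5) (nat_lit 74) (nat_lit 5) (nat_lit 75) (nat_lit 5) (nat_lit 387) (nat_lit 361) (nat_lit 272)) (XT.nd (nat_lit 78) (nat_lit 228) (nat_lit 0) (XT.lf (nat_lit 0) (nat_lit 14893168624) (nat_lit 228) (nat_lit 814919992) (nat_lit 304) (nat_lit 8120767088) (nat_lit 71) (nat_lit 5) (nat_lit 74) (nat_lit 5) (nat_lit 75) (nat_lit 5) (nat_lit 388) (nat_lit 361) (nat_lit 271)) (XT.lf (nat_lit 0) (nat_lit 4450263378) (nat_lit 228) (nat_lit 16237102518) (nat_lit 304) (nat_lit 3863134071) (nat_lit 68) (nat_lit 5) (nat_lit 71) (nat_lit 5) (nat_lit 72) (nat_lit 5) (nat_lit 389) (nat_lit 361) (nat_lit 270)))) (XT.nd (nat_lit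 156) (nat_lit 228) (nat_lit 0) (XT.nd (nat_lit 78) (nat_lit 228) (nat_lit 0) (XT.lf (nat_lit 0) (nat_lit 743884413) (nat_lit 304) (nat_lit 6526089301) (nat_lit 76) (nat_lit 18029986570) (nat_lit 67) (nat_lit 5) (nat_lit 71) (nat_lit 5) (nat_lit 68) (nat_lit 5) (nat_lit 390) (nat_lit 361) (nat_lit 269)) (XT.lf (nat_lit 0) (nat_lit 5600584910) (nat_lit 304) (nat_lit 18213353817) (nat_lit 76) (nat_lit 2262335435) (nat_lit 64) (nat_lit 5) (nat_lit 68) (nat_lit 5) (nat_lit 65) (nat_lit 5) (nat_lit 391) (nat_lit 361) (nat_lit 268))) (XT.nd (nat_lit 78) (nat_lit 228) (nat_lit 0) (XT.lf (nat_lit 0) (nat_lit 10921150836) (nat_lit 304) (nat_lit 3824220662) (nat_lit 76) (nat_lit 12134985414) (nat_lit 64) (nat_lit 5) (nat_lit 68) (nat_lit 5) (nat_lit 65) (nat_lit 5) (nat_lit 392) (nat_lit 361) (nat_lit 267)) (XT.lf (nat_lit 0) (nat_lit 11642425304) (nat_lit 228) (nat_lit 5037106053) (nat_lit 304) (nat_lit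 11036527601) (nat_lit 61) (nat_lit 5) (nat_lit 64) (nat_lit 5) (nat_lit 65) (nat_lit 5) (nat_lit 393) (nat_lit 361) (nat_lit 266)))))) (XT.nd (nat_lit 468) (nat_lit 760) (nat_lit 0) (XT.nd (nat_lit 234) (nat_lit 152) (nat_lit 0) (XT.nd (nat_lit 78) (nat_lit 456) (nat_lit 0) (XT.lf (nat_lit 0) (nat_lit 22862361287) (nat_lit 304) (nat_lit 671464345) (nat_lit 76) (nat_lit 5052898216) (nat_lit 61) (nat_lit 5) (nat_lit 65) (nat_lit 5) (nat_lit 62) (nat_lit 5) (nat_lit 394) (nat_lit 361) (nat_lit 265)) (XT.nd (nat_lit 78) (nat_lit 228) (nat_lit 0) (XT.lf (nat_lit 0) (nat_lit 185064261) (nat_lit 228) (nat_lit 13574311911) (nat_lit 76) (nat_lit 15725316022) (nat_lit 58) (nat_lit 5) (nat_lit 61) (nat_lit 5) (nat_lit 59) (nat_lit 5) (nat_lit 395) (nat_lit 361) (nat_lit 264)) (XT.lf (nat_lit 0) (nat_lit 2902365315) (nat_lit 228) (nat_lit 3342830715) (nat_lit 304) (nat_lit 24175294021) (nat_lit 55)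 (nat_lit 5) (nat_lit 58) (nat_lit 5) (nat_lit 59) (nat_lit 5) (nat_lit 396) (nat_lit 361) (nat_lit 263)))) (XT.nd (nat_lit 78) (nat_lit 152) (nat_lit 0) (XT.lf (nat_lit 0) (nat_lit 12951448148) (nat_lit 304) (nat_lit 10854068179) (nat_lit 76) (nat_lit 7580409291) (nat_lit 55) (nat_lit 5) (nat_lit 59) (nat_lit 5) (nat_lit 56) (nat_lit 5) (nat_lit 397) (nat_lit 361) (nat_lit 262)) (XT.nd (nat_lit 78) (nat_lit 0) (nat_lit 0) (XT.lf (nat_lit 0) (nat_lit 6792173251) (nat_lit 152) (nat_lit 13353004495) (nat_lit 228) (nat_lit 12246850313) (nat_lit 53) (nat_lit 5) (nat_lit 55) (nat_lit 5) (nat_lit 56) (nat_lit 5) (nat_lit 398) (nat_lit 361) (nat_lit 261)) (XT.lf (nat_lit 0) (nat_lit 25684165585) (nat_lit 152) (nat_lit 2189770949) (nat_lit 228) (nat_lit 5565735130) (nat_lit 53) (nat_lit 5) (nat_lit 55) (nat_lit 5) (nat_lit 56) (nat_lit 5) (nat_lit 399) (nat_lit 361) (nat_lit 260))))) (XT.nd (nat_lit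 234) (nat_lit 380) (nat_lit 0) (XT.nd (nat_lit 78) (nat_lit 152) (nat_lit 0) (XT.lf (nat_lit 0) (nat_lit 1723380948) (nat_lit 228) (nat_lit 23374849249) (nat_lit 76) (nat_lit 9424321845) (nat_lit 50) (nat_lit 5) (nat_lit 53) (nat_lit 5) (nat_lit 51) (nat_lit 5) (nat_lit 400) (nat_lit 361) (nat_lit 259)) (XT.nd (nat_lit 78) (nat_lit 152) (nat_lit 0) (XT.lf (nat_lit 0) (nat_lit 9351209925) (nat_lit 228) (nat_lit 4530121243) (nat_lit 76) (nat_lit 21765620824) (nat_lit 50) (nat_lit 5) (nat_lit 53) (nat_lit 5) (nat_lit 51) (nat_lit 5) (nat_lit 401) (nat_lit 361) (nat_lit 258)) (XT.lf (nat_lit 0) (nat_lit 15748370192) (nat_lit 152) (nat_lit 1850229676) (nat_lit 228) (nat_lit 19217066211) (nat_lit 48) (nat_lit 5) (nat_lit 50) (nat_lit 5) (nat_lit 51) (nat_lit 5) (nat_lit 402) (nat_lit 361) (nat_lit 257)))) (XT.nd (nat_lit 156) (nat_lit 228) (nat_lit 0) (XT.nd (nat_lit 78) (nat_lit 152) (nat_lit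 0) (XT.lf (nat_lit 0) (nat_lit 26497073997) (nat_lit 228) (nat_lit 1023141331) (nat_lit 76) (nat_lit 10510667299) (nat_lit 48) (nat_lit 5) (nat_lit 51) (nat_lit 5) (nat_lit 49) (nat_lit 5) (nat_lit 403) (nat_lit 361) (nat_lit 256)) (XT.lf (nat_lit 0) (nat_lit 20641526479) (nat_lit 152) (nat_lit 15544304579) (nat_lit 228) (nat_lit 3103763356) (nat_lit 46) (nat_lit 5) (nat_lit 48) (nat_lit 5) (nat_lit 49) (nat_lit 5) (nat_lit 404) (nat_lit 361) (nat_lit 255))) (XT.nd (nat_lit 78) (nat_lit 0) (nat_lit 0) (XT.lf (nat_lit 0) (nat_lit 2802170274) (nat_lit 152) (nat_lit 2815807618) (nat_lit 228) (nat_lit 34986071165) (nat_lit 43) (nat_lit 5) (nat_lit 45) (nat_lit 5) (nat_lit 46) (nat_lit 5) (nat_lit 405) (nat_lit 361) (nat_lit 254)) (XT.lf (nat_lit 0) (nat_lit 15150071736) (nat_lit 228) (nat_lit 16229007714) (nat_lit 76) (nat_lit 10578676346) (nat_lit 43) (nat_lit 5) (nat_lit 46) (nat_lit 5) (nat_lit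 44) (nat_lit 5) (nat_lit 406) (nat_lit 361) (nat_lit 253))))))))
noncomputable def xc150 : XT := (XT.nd (nat_lit 1950) (nat_lit 988) (nat_lit 0) (XT.nd (nat_lit 936) (nat_lit 684) (nat_lit 0) (XT.nd (nat_lit 468) (nat_lit 456) (nat_lit 0) (XT.nd (nat_lit 234) (nat_lit 152) (nat_lit 0) (XT.nd (nat_lit 78) (nat_lit 152) (nat_lit 0) (XT.lf (nat_lit 0) (nat_lit 6575221609) (nat_lit 152) (nat_lit 18725585902) (nat_lit 228) (nat_lit 18071240451) (nat_lit 41) (nat_lit 5) (nat_lit 43) (nat_lit 5) (nat_lit 44) (nat_lit 5) (nat_lit 407) (nat_lit 361) (nat_lit 252)) (XT.nd (nat_lit 78) (nat_lit 152) (nat_lit 0) (XT.lf (nat_lit 0) (nat_lit 31071710884) (nat_lit 152) (nat_lit 5155579259) (nat_lit 228) (nat_lit 8616355950) (nat_lit 41) (nat_lit 5) (nat_lit 43) (nat_lit 5) (nat_lit 44) (nat_lit 5) (nat_lit 408) (nat_lit 361) (nat_lit 251)) (XT.lf (nat_lit 0) (nat_lit 1575151649) (nat_lit 152) (nat_lit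 35809093215) (nat_lit 76) (nat_lit 8988264931) (nat_lit 39) (nat_lit 5) (nat_lit 41) (nat_lit 5) (nat_lit 40) (nat_lit 5) (nat_lit 409) (nat_lit 361) (nat_lit 250)))) (XT.nd (nat_lit 78) (nat_lit 152) (nat_lit 0) (XT.lf (nat_lit 0) (nat_lit 12301883250) (nat_lit 152) (nat_lit 11613205462) (nat_lit 76) (nat_lit 24039906255) (nat_lit 39) (nat_lit 5) (nat_lit 41) (nat_lit 5) (nat_lit 40) (nat_lit 5) (nat_lit 410) (nat_lit 361) (nat_lit 249)) (XT.nd (nat_lit 78) (nat_lit 0) (nat_lit 0) (XT.lf (nat_lit 0) (nat_lit 14237573656) (nat_lit 152) (nat_lit 9543608189) (nat_lit 228) (nat_lit 25824612561) (nat_lit 37) (nat_lit 5) (nat_lit 39) (nat_lit 5) (nat_lit 40) (nat_lit 5) (nat_lit 411) (nat_lit 361) (nat_lit 248)) (XT.lf (nat_lit 0) (nat_lit 36114937988) (nat_lit 228) (nat_lit 9645695179) (nat_lit 76) (nat_lit 5564477476) (nat_lit 37) (nat_lit 5) (nat_lit 40) (nat_lit 5) (nat_lit 38) (nat_lit 4)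 (nat_lit 412) (nat_lit 361) (nat_lit 247))))) (XT.nd (nat_lit 234) (nat_lit 152) (nat_lit 0) (XT.nd (nat_lit 78) (nat_lit 228) (nat_lit 0) (XT.lf (nat_lit 0) (nat_lit 17764949236) (nat_lit 76) (nat_lit 31728529374) (nat_lit 152) (nat_lit 3615510634) (nat_lit 36) (nat_lit 5) (nat_lit 37) (nat_lit 5) (nat_lit 38) (nat_lit 4) (nat_lit 413) (nat_lit 361) (nat_lit 246)) (XT.nd (nat_lit 78) (nat_lit 152) (nat_lit 0) (XT.lf (nat_lit 0) (nat_lit 8445285933) (nat_lit 152) (nat_lit 8239367588) (nat_lit 76) (nat_lit 38282711146) (nat_lit 35) (nat_lit 5) (nat_lit 37) (nat_lit 5) (nat_lit 36) (nat_lit 5) (nat_lit 414) (nat_lit 361) (nat_lit 245)) (XT.lf (nat_lit 0) (nat_lit 20817884336) (nat_lit 152) (nat_lit 489336495) (nat_lit 228) (nat_lit 35592495525) (nat_lit 33) (nat_lit 5) (nat_lit 35) (nat_lit 5) (nat_lit 36) (nat_lit 5) (nat_lit 415) (nat_lit 361) (nat_lit 244)))) (XT.nd (nat_lit 78) (nat_lit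 152) (nat_lit 0) (XT.lf (nat_lit 0) (nat_lit 35206556172) (nat_lit 228) (nat_lit 7577532722) (nat_lit 76) (nat_lit 16124882693) (nat_lit 33) (nat_lit 5) (nat_lit 36) (nat_lit 5) (nat_lit 34) (nat_lit 4) (nat_lit 416) (nat_lit 361) (nat_lit 243)) (XT.nd (nat_lit 78) (nat_lit 76) (nat_lit 0) (XT.lf (nat_lit 0) (nat_lit 23073178307) (nat_lit 76) (nat_lit 27090816409) (nat_lit 152) (nat_lit 10836539128) (nat_lit 32) (nat_lit 5) (nat_lit 33) (nat_lit 5) (nat_lit 34) (nat_lit 4) (nat_lit 417) (nat_lit 361) (nat_lit 242)) (XT.lf (nat_lit 0) (nat_lit 2712418846) (nat_lit 152) (nat_lit 7723876466) (nat_lit 76) (nat_lit 52752027088) (nat_lit 31) (nat_lit 5) (nat_lit 33) (nat_lit 5) (nat_lit 32) (nat_lit 5) (nat_lit 418) (nat_lit 361) (nat_lit 241)))))) (XT.nd (nat_lit 468) (nat_lit 304) (nat_lit 0) (XT.nd (nat_lit 234) (nat_lit 152) (nat_lit 0) (XT.nd (nat_lit 78) (nat_lit 76) (nat_lit 0) (XT.lf (nat_lit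 0) (nat_lit 17072937757) (nat_lit 228) (nat_lit 40986567523) (nat_lit 76) (nat_lit 7392199043) (nat_lit 29) (nat_lit 5) (nat_lit 32) (nat_lit 5) (nat_lit 30) (nat_lit 4) (nat_lit 419) (nat_lit 361) (nat_lit 240)) (XT.nd (nat_lit 78) (nat_lit 76) (nat_lit 0) (XT.lf (nat_lit 0) (nat_lit 32450694410) (nat_lit 228) (nat_lit 9472070066) (nat_lit 76) (nat_lit 25890531169) (nat_lit 29) (nat_lit 5) (nat_lit 32) (nat_lit 5) (nat_lit 30) (nat_lit 4) (nat_lit 420) (nat_lit 361) (nat_lit 239)) (XT.lf (nat_lit 0) (nat_lit 24390338077) (nat_lit 76) (nat_lit 24583205221) (nat_lit 152) (nat_lit 21300613868) (nat_lit 28) (nat_lit 5) (nat_lit 29) (nat_lit 5) (nat_lit 30) (nat_lit 4) (nat_lit 421) (nat_lit 361) (nat_lit 238)))) (XT.nd (nat_lit 78) (nat_lit 152) (nat_lit 0) (XT.lf (nat_lit 0) (nat_lit 60266394599) (nat_lit 76) (nat_lit 6212045993) (nat_lit 152) (nat_lit 6371826684) (nat_lit 28) (nat_lit 5)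 (nat_lit 29) (nat_lit 5) (nat_lit 30) (nat_lit 4) (nat_lit 422) (nat_lit 361) (nat_lit 237)) (XT.nd (nat_lit 78) (nat_lit 0) (nat_lit 0) (XT.lf (nat_lit 0) (nat_lit 9572160137) (nat_lit 152) (nat_lit 52779894374) (nat_lit 76) (nat_lit 13167540149) (nat_lit 26) (nat_lit 5) (nat_lit 28) (nat_lit 5) (nat_lit 27) (nat_lit 4) (nat_lit 423) (nat_lit 361) (nat_lit 236)) (XT.lf (nat_lit 0) (nat_lit 26413317769) (nat_lit 152) (nat_lit 18263281023) (nat_lit 76) (nat_lit 33624862184) (nat_lit 26) (nat_lit 5) (nat_lit 28) (nat_lit 5) (nat_lit 27) (nat_lit 4) (nat_lit 424) (nat_lit 361) (nat_lit 235))))) (XT.nd (nat_lit 234) (nat_lit 152) (nat_lit 0) (XT.nd (nat_lit 78) (nat_lit 76) (nat_lit 0) (XT.lf (nat_lit 0) (nat_lit 18565668737) (nat_lit 76) (nat_lit 25816595393) (nat_lit 152) (nat_lit 36825870602) (nat_lit 25) (nat_lit 5) (nat_lit 26) (nat_lit 5) (nat_lit 27) (nat_lit 4) (nat_lit 425) (nat_lit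 361) (nat_lit 234)) (XT.nd (nat_lit 78) (nat_lit 76) (nat_lit 0) (XT.lf (nat_lit 0) (nat_lit 57862538640) (nat_lit 76) (nat_lit 5692363668) (nat_lit 152) (nat_lit 20689978278) (nat_lit 25) (nat_lit 5) (nat_lit 26) (nat_lit 5) (nat_lit 27) (nat_lit 4) (nat_lit 426) (nat_lit 361) (nat_lit 233)) (XT.lf (nat_lit 0) (nat_lit 11820726713) (nat_lit 76) (nat_lit 72287119487) (nat_lit 76) (nat_lit 3304534446) (nat_lit 24) (nat_lit 4) (nat_lit 25) (nat_lit 5) (nat_lit 25) (nat_lit 4) (nat_lit 427) (nat_lit 361) (nat_lit 232)))) (XT.nd (nat_lit 156) (nat_lit 0) (nat_lit 0) (XT.nd (nat_lit 78) (nat_lit 76) (nat_lit 0) (XT.lf (nat_lit 0) (nat_lit 15015219211) (nat_lit 152) (nat_lit 38207465658) (nat_lit 76) (nat_lit 37476723838) (nat_lit 23) (nat_lit 5) (nat_lit 25) (nat_lit 5) (nat_lit 24) (nat_lit 4) (nat_lit 428) (nat_lit 361) (nat_lit 231)) (XT.lf (nat_lit 0) (nat_lit 1017292619) (nat_lit 76) (nat_lit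 33134779643) (nat_lit 152) (nat_lit 59995399511) (nat_lit 22) (nat_lit 5) (nat_lit 23) (nat_lit 5) (nat_lit 24) (nat_lit 4) (nat_lit 429) (nat_lit 361) (nat_lit 230))) (XT.nd (nat_lit 78) (nat_lit 0) (nat_lit 0) (XT.lf (nat_lit 0) (nat_lit 43522852640) (nat_lit 76) (nat_lit 11366329262) (nat_lit 152) (nat_lit 42846585891) (nat_lit 22) (nat_lit 5) (nat_lit 23) (nat_lit 5) (nat_lit 24) (nat_lit 4) (nat_lit 430) (nat_lit 361) (nat_lit 229)) (XT.lf (nat_lit 0) (nat_lit 76839023793) (nat_lit 152) (nat_lit 13535897087) (nat_lit 0) (nat_lit 11119764370) (nat_lit 22) (nat_lit 5) (nat_lit 24) (nat_lit 4) (nat_lit 22) (nat_lit 4) (nat_lit 431) (nat_lit 361) (nat_lit 228))))))) (XT.nd (nat_lit 1014) (nat_lit 380) (nat_lit 0) (XT.nd (nat_lit 468) (nat_lit 304) (nat_lit 0) (XT.nd (nat_lit 234) (nat_lit 76) (nat_lit 0) (XT.nd (nat_lit 78) (nat_lit 152) (nat_lit 0) (XT.lf (nat_lit 0) (nat_lit 29940532597)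 (nat_lit 76) (nat_lit 70596259003) (nat_lit 76) (nat_lit 4872235740) (nat_lit 21) (nat_lit 4) (nat_lit 22) (nat_lit 5) (nat_lit 22) (nat_lit 4) (nat_lit 432) (nat_lit 361) (nat_lit 227)) (XT.nd (nat_lit 78) (nat_lit 76) (nat_lit 0) (XT.lf (nat_lit 0) (nat_lit 15621097487) (nat_lit 152) (nat_lit 33705310405) (nat_lit 76) (nat_lit 60168784239) (nat_lit 20) (nat_lit 5) (nat_lit 22) (nat_lit 5) (nat_lit 21) (nat_lit 4) (nat_lit 433) (nat_lit 361) (nat_lit 226)) (XT.lf (nat_lit 0) (nat_lit 10392698268) (nat_lit 76) (nat_lit 26741730739) (nat_lit 152) (nat_lit 76639289373) (nat_lit 19) (nat_lit 5) (nat_lit 20) (nat_lit 5) (nat_lit 21) (nat_lit 4) (nat_lit 434) (nat_lit 361) (nat_lit 225)))) (XT.nd (nat_lit 78) (nat_lit 76) (nat_lit 0) (XT.lf (nat_lit 0) (nat_lit 57859784511) (nat_lit 76) (nat_lit 2431328119) (nat_lit 152) (nat_lit 57946674406) (nat_lit 19) (nat_lit 5) (nat_lit 20) (nat_lit 5)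 (nat_lit 21) (nat_lit 4) (nat_lit 435) (nat_lit 361) (nat_lit 224)) (XT.nd (nat_lit 78) (nat_lit 76) (nat_lit 0) (XT.lf (nat_lit 0) (nat_lit 84963178025) (nat_lit 152) (nat_lit 15591221866) (nat_lit 0) (nat_lit 22352782210) (nat_lit 19) (nat_lit 5) (nat_lit 21) (nat_lit 4) (nat_lit 19) (nat_lit 4) (nat_lit 436) (nat_lit 361) (nat_lit 223)) (XT.lf (nat_lit 0) (nat_lit 32427379146) (nat_lit 76) (nat_lit 78984727878) (nat_lit 76) (nat_lit 16370777213) (nat_lit 18) (nat_lit 4) (nat_lit 19) (nat_lit 5) (nat_lit 19) (nat_lit 4) (nat_lit 437) (nat_lit 361) (nat_lit 222))))) (XT.nd (nat_lit 234) (nat_lit 152) (nat_lit 0) (XT.nd (nat_lit 78) (nat_lit 76) (nat_lit 0) (XT.lf (nat_lit 0) (nat_lit 6345575312) (nat_lit 152) (nat_lit 49608906848) (nat_lit 76) (nat_lit 76929711386) (nat_lit 17) (nat_lit 5) (nat_lit 19) (nat_lit 5) (nat_lit 18) (nat_lit 4) (nat_lit 438) (nat_lit 361) (nat_lit 221)) (XT.nd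 (nat_lit 78) (nat_lit 76) (nat_lit 0) (XT.lf (nat_lit 0) (nat_lit 29644842481) (nat_lit 152) (nat_lit 1848633505) (nat_lit 76) (nat_lit 106733810829) (nat_lit 17) (nat_lit 5) (nat_lit 19) (nat_lit 5) (nat_lit 18) (nat_lit 4) (nat_lit 439) (nat_lit 361) (nat_lit 220)) (XT.lf (nat_lit 0) (nat_lit 49891461944) (nat_lit 76) (nat_lit 4993949446) (nat_lit 152) (nat_lit 88913306718) (nat_lit 16) (nat_lit 5) (nat_lit 17) (nat_lit 5) (nat_lit 18) (nat_lit 4) (nat_lit 440) (nat_lit 361) (nat_lit 219)))) (XT.nd (nat_lit 156) (nat_lit 76) (nat_lit 0) (XT.nd (nat_lit 78) (nat_lit 76) (nat_lit 0) (XT.lf (nat_lit 0) (nat_lit 81773680841) (nat_lit 152) (nat_lit 45726414980) (nat_lit 0) (nat_lit 22129341802) (nat_lit 16) (nat_lit 5) (nat_lit 18) (nat_lit 4) (nat_lit 16) (nat_lit 4) (nat_lit 441) (nat_lit 361) (nat_lit 218)) (XT.lf (nat_lit 0) (nat_lit 4934743045) (nat_lit 76) (nat_lit 105228060040) (nat_lit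 76) (nat_lit 45581068316) (nat_lit 15) (nat_lit 4) (nat_lit 16) (nat_lit 5) (nat_lit 16) (nat_lit 4) (nat_lit 442) (nat_lit 361) (nat_lit 217))) (XT.nd (nat_lit 78) (nat_lit 76) (nat_lit 0) (XT.lf (nat_lit 0) (nat_lit 59711754473) (nat_lit 76) (nat_lit 81031596132) (nat_lit 76) (nat_lit 21382078042) (nat_lit 15) (nat_lit 4) (nat_lit 16) (nat_lit 5) (nat_lit 16) (nat_lit 4) (nat_lit 443) (nat_lit 361) (nat_lit 216)) (XT.lf (nat_lit 0) (nat_lit 3895624770) (nat_lit 152) (nat_lit 51665893374) (nat_lit 76) (nat_lit 113261519914) (nat_lit 14) (nat_lit 5) (nat_lit 16) (nat_lit 5) (nat_lit 15) (nat_lit 4) (nat_lit 444) (nat_lit 361) (nat_lit 215)))))) (XT.nd (nat_lit 468) (nat_lit 228) (nat_lit 0) (XT.nd (nat_lit 234) (nat_lit 76) (nat_lit 0) (XT.nd (nat_lit 78) (nat_lit 0) (nat_lit 0) (XT.lf (nat_lit 0) (nat_lit 1306199528) (nat_lit 76) (nat_lit 28430588359) (nat_lit 152) (nat_lit 146100306304)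 (nat_lit 13) (nat_lit 5) (nat_lit 14) (nat_lit 5) (nat_lit 15) (nat_lit 4) (nat_lit 445) (nat_lit 361) (nat_lit 214)) (XT.nd (nat_lit 78) (nat_lit 0) (nat_lit 0) (XT.lf (nat_lit 0) (nat_lit 57757995214) (nat_lit 152) (nat_lit 124457080753) (nat_lit 0) (nat_lit 942378060) (nat_lit 13) (nat_lit 5) (nat_lit 15) (nat_lit 4) (nat_lit 13) (nat_lit 4) (nat_lit 446) (nat_lit 361) (nat_lit 213)) (XT.lf (nat_lit 0) (nat_lit 87644211383) (nat_lit 152) (nat_lit 72349808478) (nat_lit 0) (nat_lit 30826614755) (nat_lit 13) (nat_lit 5) (nat_lit 15) (nat_lit 4) (nat_lit 13) (nat_lit 4) (nat_lit 447) (nat_lit 361) (nat_lit 212)))) (XT.nd (nat_lit 78) (nat_lit 76) (nat_lit 0) (XT.lf (nat_lit 0) (nat_lit 119022712893) (nat_lit 152) (nat_lit 17641131744) (nat_lit 0) (nat_lit 62203231052) (nat_lit 13) (nat_lit 5) (nat_lit 15) (nat_lit 4) (nat_lit 13) (nat_lit 4) (nat_lit 448) (nat_lit 361) (nat_lit 211)) (XT.nd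 (nat_lit 78) (nat_lit 0) (nat_lit 0) (XT.lf (nat_lit 0) (nat_lit 41115149765) (nat_lit 76) (nat_lit 111494983409) (nat_lit 76) (nat_lit 54673706126) (nat_lit 12) (nat_lit 4) (nat_lit 13) (nat_lit 5) (nat_lit 13) (nat_lit 4) (nat_lit 449) (nat_lit 361) (nat_lit 210)) (XT.lf (nat_lit 0) (nat_lit 103417995802) (nat_lit 76) (nat_lit 84755794689) (nat_lit 76) (nat_lit 27932807462) (nat_lit 12) (nat_lit 4) (nat_lit 13) (nat_lit 5) (nat_lit 13) (nat_lit 4) (nat_lit 450) (nat_lit 361) (nat_lit 209))))) (XT.nd (nat_lit 234) (nat_lit 76) (nat_lit 0) (XT.nd (nat_lit 78) (nat_lit 76) (nat_lit 0) (XT.lf (nat_lit 0) (nat_lit 138656297) (nat_lit 152) (nat_lit 56540370334) (nat_lit 76) (nat_lit 168691446483) (nat_lit 11) (nat_lit 5) (nat_lit 13) (nat_lit 5) (nat_lit 12) (nat_lit 4) (nat_lit 451) (nat_lit 361) (nat_lit 208)) (XT.nd (nat_lit 78) (nat_lit 0) (nat_lit 0) (XT.lf (nat_lit 0) (nat_lit 2018541308)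 (nat_lit 76) (nat_lit 26686194312) (nat_lit 152) (nat_lit 206368422417) (nat_lit 10) (nat_lit 5) (nat_lit 11) (nat_lit 5) (nat_lit 12) (nat_lit 4) (nat_lit 452) (nat_lit 361) (nat_lit 207)) (XT.lf (nat_lit 0) (nat_lit 59745651919) (nat_lit 152) (nat_lit 179838912401) (nat_lit 0) (nat_lit 5624086368) (nat_lit 10) (nat_lit 5) (nat_lit 12) (nat_lit 4) (nat_lit 10) (nat_lit 4) (nat_lit 453) (nat_lit 361) (nat_lit 206)))) (XT.nd (nat_lit 156) (nat_lit 76) (nat_lit 0) (XT.nd (nat_lit 78) (nat_lit 0) (nat_lit 0) (XT.lf (nat_lit 0) (nat_lit 92774433230) (nat_lit 152) (nat_lit 124403166018) (nat_lit 0) (nat_lit 38651527893) (nat_lit 10) (nat_lit 5) (nat_lit 12) (nat_lit 4) (nat_lit 10) (nat_lit 4) (nat_lit 454) (nat_lit 361) (nat_lit 205)) (XT.lf (nat_lit 0) (nat_lit 127453073226) (nat_lit 152) (nat_lit 66198741426) (nat_lit 0) (nat_lit 73328891902) (nat_lit 10) (nat_lit 5) (nat_lit 12) (nat_lit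 4) (nat_lit 10) (nat_lit 4) (nat_lit 455) (nat_lit 361) (nat_lit 204))) (XT.nd (nat_lit 78) (nat_lit 76) (nat_lit 0) (XT.lf (nat_lit 0) (nat_lit 163864140099) (nat_lit 152) (nat_lit 5087056662) (nat_lit 0) (nat_lit 109738743550) (nat_lit 10) (nat_lit 5) (nat_lit 12) (nat_lit 4) (nat_lit 10) (nat_lit 4) (nat_lit 456) (nat_lit 361) (nat_lit 203)) (XT.lf (nat_lit 0) (nat_lit 61030757674) (nat_lit 76) (nat_lit 142016430355) (nat_lit 76) (nat_lit 87889876449) (nat_lit 9) (nat_lit 4) (nat_lit 10) (nat_lit 5) (nat_lit 10) (nat_lit 4) (nat_lit 457) (nat_lit 361) (nat_lit 202))))))))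
noncomputable def xc151 : XT := (XT.nd (nat_lit 46098) (nat_lit 0) (nat_lit 4560) (XT.nd (nat_lit 936) (nat_lit 152) (nat_lit 0) (XT.nd (nat_lit 468) (nat_lit 76) (nat_lit 0) (XT.nd (nat_lit 234) (nat_lit 76) (nat_lit 0) (XT.nd (nat_lit 78) (nat_lit 76) (nat_lit 0) (XT.lf (nat_lit 0) (nat_lit 130628299279) (nat_lit 76) (nat_lit 113645832335) (nat_lit 76) (nat_lit 59518176183) (nat_lit 9) (nat_lit 4) (nat_lit 10) (nat_lit 5) (nat_lit 10) (nat_lit 4) (nat_lit 458) (nat_lit 361) (nat_lit 201)) (XT.nd (nat_lit 78) (nat_lit 76) (nat_lit 0) (XT.lf (nat_lit 0) (nat_lit 203703075516) (nat_lit 76) (nat_lit 83858005423) (nat_lit 76) (nat_lit 29729299514) (nat_lit 9) (nat_lit 4) (nat_lit 10) (nat_lit 5) (nat_lit 10) (nat_lit 4) (nat_lit 459) (nat_lit 361) (nat_lit 200)) (XT.lf (nat_lit 0) (nat_lit 1498144047) (nat_lit 152) (nat_lit 51058510379) (nat_lit 76) (nat_lit 278905558106) (nat_lit 8) (nat_lit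 5) (nat_lit 10) (nat_lit 5) (nat_lit 9) (nat_lit 4) (nat_lit 460) (nat_lit 361) (nat_lit 199)))) (XT.nd (nat_lit 78) (nat_lit 0) (nat_lit 0) (XT.lf (nat_lit 0) (nat_lit 14573359086) (nat_lit 76) (nat_lit 18940795511) (nat_lit 152) (nat_lit 312792798717) (nat_lit 7) (nat_lit 5) (nat_lit 8) (nat_lit 5) (nat_lit 9) (nat_lit 4) (nat_lit 461) (nat_lit 361) (nat_lit 198)) (XT.nd (nat_lit 78) (nat_lit 0) (nat_lit 0) (XT.lf (nat_lit 0) (nat_lit 68263968645) (nat_lit 152) (nat_lit 276863214880) (nat_lit 0) (nat_lit 16710097542) (nat_lit 7) (nat_lit 5) (nat_lit 9) (nat_lit 4) (nat_lit 7) (nat_lit 4) (nat_lit 462) (nat_lit 361) (nat_lit 197)) (XT.lf (nat_lit 0) (nat_lit 105060603209) (nat_lit 152) (nat_lit 219562145994) (nat_lit 0) (nat_lit 53505909593) (nat_lit 7) (nat_lit 5) (nat_lit 9) (nat_lit 4) (nat_lit 7) (nat_lit 4) (nat_lit 463) (nat_lit 361) (nat_lit 196))))) (XT.nd (nat_lit 234) (nat_lit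 76) (nat_lit 0) (XT.nd (nat_lit 78) (nat_lit 0) (nat_lit 0) (XT.lf (nat_lit 0) (nat_lit 143695950423) (nat_lit 152) (nat_lit 159398237553) (nat_lit 0) (nat_lit 92140473462) (nat_lit 7) (nat_lit 5) (nat_lit 9) (nat_lit 4) (nat_lit 7) (nat_lit 4) (nat_lit 464) (nat_lit 361) (nat_lit 195)) (XT.nd (nat_lit 78) (nat_lit 0) (nat_lit 0) (XT.lf (nat_lit 0) (nat_lit 184261999210) (nat_lit 152) (nat_lit 96228242157) (nat_lit 0) (nat_lit 132705776206) (nat_lit 7) (nat_lit 5) (nat_lit 9) (nat_lit 4) (nat_lit 7) (nat_lit 4) (nat_lit 465) (nat_lit 361) (nat_lit 194)) (XT.lf (nat_lit 0) (nat_lit 226855335401) (nat_lit 152) (nat_lit 29901755054) (nat_lit 0) (nat_lit 175298401880) (nat_lit 7) (nat_lit 5) (nat_lit 9) (nat_lit 4) (nat_lit 7) (nat_lit 4) (nat_lit 466) (nat_lit 361) (nat_lit 193)))) (XT.nd (nat_lit 78) (nat_lit 0) (nat_lit 0) (XT.lf (nat_lit 0) (nat_lit 41053099528) (nat_lit 76) (nat_lit 231165226106)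 (nat_lit 76) (nat_lit 179607615902) (nat_lit 6) (nat_lit 4) (nat_lit 7) (nat_lit 5) (nat_lit 7) (nat_lit 4) (nat_lit 467) (nat_lit 361) (nat_lit 192)) (XT.nd (nat_lit 78) (nat_lit 0) (nat_lit 0) (XT.lf (nat_lit 0) (nat_lit 116591936660) (nat_lit 76) (nat_lit 203762979365) (nat_lit 76) (nat_lit 152204724701) (nat_lit 6) (nat_lit 4) (nat_lit 7) (nat_lit 5) (nat_lit 7) (nat_lit 4) (nat_lit 468) (nat_lit 361) (nat_lit 191)) (XT.lf (nat_lit 0) (nat_lit 195905923653) (nat_lit 76) (nat_lit 174991507479) (nat_lit 76) (nat_lit 123432639043) (nat_lit 6) (nat_lit 4) (nat_lit 7) (nat_lit 5) (nat_lit 7) (nat_lit 4) (nat_lit 469) (nat_lit 361) (nat_lit 190)))))) (XT.nd (nat_lit 468) (nat_lit 0) (nat_lit 0) (XT.nd (nat_lit 234) (nat_lit 152) (nat_lit 0) (XT.nd (nat_lit 78) (nat_lit 0) (nat_lit 0) (XT.lf (nat_lit 0) (nat_lit 279183903334) (nat_lit 76) (nat_lit 144782306942) (nat_lit 76) (nat_lit 93222853962)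 (nat_lit 6) (nat_lit 4) (nat_lit 7) (nat_lit 5) (nat_lit 7) (nat_lit 4) (nat_lit 470) (nat_lit 361) (nat_lit 189)) (XT.nd (nat_lit 78) (nat_lit 0) (nat_lit 0) (XT.lf (nat_lit 0) (nat_lit 366624156605) (nat_lit 76) (nat_lit 113063451086) (nat_lit 76) (nat_lit 61503441398) (nat_lit 6) (nat_lit 4) (nat_lit 7) (nat_lit 5) (nat_lit 7) (nat_lit 4) (nat_lit 471) (nat_lit 361) (nat_lit 188)) (XT.lf (nat_lit 0) (nat_lit 458434874547) (nat_lit 76) (nat_lit 79759418828) (nat_lit 76) (nat_lit 28198878941) (nat_lit 6) (nat_lit 4) (nat_lit 7) (nat_lit 5) (nat_lit 7) (nat_lit 4) (nat_lit 472) (nat_lit 361) (nat_lit 187)))) (XT.nd (nat_lit 78) (nat_lit 76) (nat_lit 0) (XT.lf (nat_lit 0) (nat_lit 6553443547) (nat_lit 152) (nat_lit 38126485566) (nat_lit 76) (nat_lit 548170224822) (nat_lit 5) (nat_lit 5) (nat_lit 7) (nat_lit 5) (nat_lit 6) (nat_lit 4) (nat_lit 473) (nat_lit 361) (nat_lit 186)) (XT.nd (nat_lit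 78) (nat_lit 0) (nat_lit 0) (XT.lf (nat_lit 0) (nat_lit 35881649466) (nat_lit 76) (nat_lit 6773557953) (nat_lit 152) (nat_lit 577923688799) (nat_lit 4) (nat_lit 5) (nat_lit 5) (nat_lit 5) (nat_lit 6) (nat_lit 4) (nat_lit 474) (nat_lit 361) (nat_lit 185)) (XT.lf (nat_lit 0) (nat_lit 81733277653) (nat_lit 152) (nat_lit 535275610631) (nat_lit 0) (nat_lit 32626626463) (nat_lit 4) (nat_lit 5) (nat_lit 6) (nat_lit 4) (nat_lit 4) (nat_lit 4) (nat_lit 475) (nat_lit 361) (nat_lit 184))))) (XT.nd (nat_lit 44382) (nat_lit 0) (nat_lit 8892) (XT.nd (nat_lit 44226) (nat_lit 0) (nat_lit 8892) (XT.lf (nat_lit 0) (nat_lit 122875608474) (nat_lit 152) (nat_lit 483495296056) (nat_lit 0) (nat_lit 73768541859) (nat_lit 4) (nat_lit 5) (nat_lit 6) (nat_lit 4) (nat_lit 4) (nat_lit 4) (nat_lit 476) (nat_lit 361) (nat_lit 183)) (XT.nd (nat_lit 78) (nat_lit 0) (nat_lit 0) (XT.lf (nat_lit 0) (nat_lit 2151648817) (nat_lit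 0) (nat_lit 2151648817) (nat_lit 684) (nat_lit 1804236414) (nat_lit 121) (nat_lit 5) (nat_lit 121) (nat_lit 3) (nat_lit 130) (nat_lit 3) (nat_lit 362) (nat_lit 362) (nat_lit 296)) (XT.lf (nat_lit 0) (nat_lit 9282411172) (nat_lit 684) (nat_lit 2034578664) (nat_lit 760) (nat_lit 1180089369) (nat_lit 121) (nat_lit 5) (nat_lit 130) (nat_lit 3) (nat_lit 131) (nat_lit 5) (nat_lit 363) (nat_lit 362) (nat_lit 295)))) (XT.nd (nat_lit 156) (nat_lit 0) (nat_lit 76) (XT.nd (nat_lit 78) (nat_lit 0) (nat_lit 0) (XT.lf (nat_lit 76) (nat_lit 4184052717) (nat_lit 0) (nat_lit 5915787459) (nat_lit 760) (nat_lit 2687980896) (nat_lit 122) (nat_lit 5) (nat_lit 121) (nat_lit 5) (nat_lit 131) (nat_lit 5) (nat_lit 364) (nat_lit 362) (nat_lit 294)) (XT.lf (nat_lit 76) (nat_lit 10768716359) (nat_lit 0) (nat_lit 196925587) (nat_lit 760) (nat_lit 2127103324) (nat_lit 122) (nat_lit 5) (nat_lit 121) (nat_lit 5) (nat_lit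 131) (nat_lit 5) (nat_lit 365) (nat_lit 362) (nat_lit 293))) (XT.nd (nat_lit 78) (nat_lit 0) (nat_lit 0) (XT.lf (nat_lit 76) (nat_lit 4300391373) (nat_lit 0) (nat_lit 7706658999) (nat_lit 760) (nat_lit 1399268815) (nat_lit 123) (nat_lit 5) (nat_lit 122) (nat_lit 5) (nat_lit 132) (nat_lit 5) (nat_lit 366) (nat_lit 362) (nat_lit 292)) (XT.lf (nat_lit 76) (nat_lit 11317376832) (nat_lit 0) (nat_lit 1801149771) (nat_lit 760) (nat_lit 616163744) (nat_lit 123) (nat_lit 5) (nat_lit 122) (nat_lit 5) (nat_lit 132) (nat_lit 5) (nat_lit 367) (nat_lit 362) (nat_lit 291))))))) (XT.nd (nat_lit 1014) (nat_lit 1976) (nat_lit 0) (XT.nd (nat_lit 468) (nat_lit 1748) (nat_lit 0) (XT.nd (nat_lit 234) (nat_lit 0) (nat_lit 76) (XT.nd (nat_lit 78) (nat_lit 0) (nat_lit 0) (XT.lf (nat_lit 0) (nat_lit 319783131) (nat_lit 760) (nat_lit 9408785430) (nat_lit 836) (nat_lit 4344753173) (nat_lit 113) (nat_lit 5) (nat_lit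 123) (nat_lit 5) (nat_lit 124) (nat_lit 5) (nat_lit 368) (nat_lit 362) (nat_lit 290)) (XT.nd (nat_lit 78) (nat_lit 0) (nat_lit 76) (XT.lf (nat_lit 0) (nat_lit 1330183894) (nat_lit 760) (nat_lit 2299793051) (nat_lit 836) (nat_lit 10796000419) (nat_lit 113) (nat_lit 5) (nat_lit 123) (nat_lit 5) (nat_lit 124) (nat_lit 5) (nat_lit 369) (nat_lit 362) (nat_lit 289)) (XT.lf (nat_lit 0) (nat_lit 2497204079) (nat_lit 760) (nat_lit 9519330121) (nat_lit 836) (nat_lit 2774441757) (nat_lit 114) (nat_lit 5) (nat_lit 124) (nat_lit 5) (nat_lit 125) (nat_lit 5) (nat_lit 370) (nat_lit 362) (nat_lit 288)))) (XT.nd (nat_lit 78) (nat_lit 0) (nat_lit 76) (XT.lf (nat_lit 0) (nat_lit 3800841321) (nat_lit 760) (nat_lit 1948043633) (nat_lit 836) (nat_lit 9421440651) (nat_lit 114) (nat_lit 5) (nat_lit 124) (nat_lit 5) (nat_lit 125) (nat_lit 5) (nat_lit 371) (nat_lit 362) (nat_lit 287)) (XT.nd (nat_lit 78) (nat_lit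 0) (nat_lit 0) (XT.lf (nat_lit 0) (nat_lit 5260994139) (nat_lit 760) (nat_lit 9396041566) (nat_lit 76) (nat_lit 907054089) (nat_lit 115) (nat_lit 5) (nat_lit 125) (nat_lit 5) (nat_lit 116) (nat_lit 5) (nat_lit 372) (nat_lit 362) (nat_lit 286)) (XT.lf (nat_lit 0) (nat_lit 6902836501) (nat_lit 760) (nat_lit 1330162028) (nat_lit 76) (nat_lit 7739122656) (nat_lit 115) (nat_lit 5) (nat_lit 125) (nat_lit 5) (nat_lit 116) (nat_lit 5) (nat_lit 373) (nat_lit 362) (nat_lit 285))))) (XT.nd (nat_lit 234) (nat_lit 760) (nat_lit 0) (XT.nd (nat_lit 78) (nat_lit 380) (nat_lit 0) (XT.lf (nat_lit 0) (nat_lit 7358273727) (nat_lit 760) (nat_lit 1365195755) (nat_lit 836) (nat_lit 7672262202) (nat_lit 105) (nat_lit 5) (nat_lit 115) (nat_lit 5) (nat_lit 116) (nat_lit 5) (nat_lit 374) (nat_lit 362) (nat_lit 284)) (XT.nd (nat_lit 78) (nat_lit 380) (nat_lit 0) (XT.lf (nat_lit 0) (nat_lit 10731759021) (nat_lit 836)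 (nat_lit 420627956) (nat_lit 76) (nat_lit 5683316358) (nat_lit 105) (nat_lit 5) (nat_lit 116) (nat_lit 5) (nat_lit 106) (nat_lit 5) (nat_lit 375) (nat_lit 362) (nat_lit 283)) (XT.lf (nat_lit 0) (nat_lit 8872543526) (nat_lit 380) (nat_lit 4112116729) (nat_lit 456) (nat_lit 4305814758) (nat_lit 100) (nat_lit 5) (nat_lit 105) (nat_lit 5) (nat_lit 106) (nat_lit 5) (nat_lit 376) (nat_lit 362) (nat_lit 282)))) (XT.nd (nat_lit 156) (nat_lit 456) (nat_lit 0) (XT.nd (nat_lit 78) (nat_lit 0) (nat_lit 0) (XT.lf (nat_lit 0) (nat_lit 836118625) (nat_lit 304) (nat_lit 14569440108) (nat_lit 380) (nat_lit 2359669700) (nat_lit 96) (nat_lit 5) (nat_lit 100) (nat_lit 5) (nat_lit 101) (nat_lit 5) (nat_lit 377) (nat_lit 362) (nat_lit 281)) (XT.lf (nat_lit 0) (nat_lit 10759090104) (nat_lit 304) (nat_lit 7381656702) (nat_lit 380) (nat_lit 113320740) (nat_lit 96) (nat_lit 5) (nat_lit 100) (nat_lit 5) (nat_lit 101)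 (nat_lit 5) (nat_lit 378) (nat_lit 362) (nat_lit 280))) (XT.nd (nat_lit 78) (nat_lit 0) (nat_lit 0) (XT.lf (nat_lit 0) (nat_lit 2200157253) (nat_lit 456) (nat_lit 16330521766) (nat_lit 76) (nat_lit 233592257) (nat_lit 90) (nat_lit 5) (nat_lit 96) (nat_lit 5) (nat_lit 91) (nat_lit 5) (nat_lit 379) (nat_lit 362) (nat_lit 279)) (XT.lf (nat_lit 0) (nat_lit 4860828434) (nat_lit 456) (nat_lit 6316052306) (nat_lit 76) (nat_lit 8111254043) (nat_lit 90) (nat_lit 5) (nat_lit 96) (nat_lit 5) (nat_lit 91) (nat_lit 5) (nat_lit 380) (nat_lit 362) (nat_lit 278)))))) (XT.nd (nat_lit 468) (nat_lit 1064) (nat_lit 0) (XT.nd (nat_lit 234) (nat_lit 304) (nat_lit 0) (XT.nd (nat_lit 78) (nat_lit 304) (nat_lit 0) (XT.lf (nat_lit 0) (nat_lit 4321664840) (nat_lit 304) (nat_lit 3386346333) (nat_lit 380) (nat_lit 12127514830) (nat_lit 86) (nat_lit 5) (nat_lit 90) (nat_lit 5) (nat_lit 91) (nat_lit 5) (nat_lit 381) (nat_lit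 362) (nat_lit 277)) (XT.nd (nat_lit 78) (nat_lit 304) (nat_lit 0) (XT.lf (nat_lit 0) (nat_lit 10867513052) (nat_lit 380) (nat_lit 4787185579) (nat_lit 76) (nat_lit 4747098187) (nat_lit 86) (nat_lit 5) (nat_lit 91) (nat_lit 5) (nat_lit 87) (nat_lit 5) (nat_lit 382) (nat_lit 362) (nat_lit 276)) (XT.lf (nat_lit 0) (nat_lit 6616658463) (nat_lit 304) (nat_lit 7714195491) (nat_lit 380) (nat_lit 6658241678) (nat_lit 82) (nat_lit 5) (nat_lit 86) (nat_lit 5) (nat_lit 87) (nat_lit 5) (nat_lit 383) (nat_lit 362) (nat_lit 275)))) (XT.nd (nat_lit 78) (nat_lit 304) (nat_lit 0) (XT.lf (nat_lit 0) (nat_lit 18046881016) (nat_lit 380) (nat_lit 2871644202) (nat_lit 76) (nat_lit 683265499) (nat_lit 82) (nat_lit 5) (nat_lit 87) (nat_lit 5) (nat_lit 83) (nat_lit 5) (nat_lit 384) (nat_lit 362) (nat_lit 274)) (XT.nd (nat_lit 78) (nat_lit 76) (nat_lit 0) (XT.lf (nat_lit 0) (nat_lit 9362358788) (nat_lit 228) (nat_lit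 12846971014) (nat_lit 304) (nat_lit 22766675) (nat_lit 79) (nat_lit 5) (nat_lit 82) (nat_lit 5) (nat_lit 83) (nat_lit 5) (nat_lit 385) (nat_lit 362) (nat_lit 273)) (XT.lf (nat_lit 0) (nat_lit 3605568059) (nat_lit 304) (nat_lit 657250626) (nat_lit 76) (nat_lit 18626349758) (nat_lit 78) (nat_lit 5) (nat_lit 82) (nat_lit 5) (nat_lit 79) (nat_lit 5) (nat_lit 386) (nat_lit 362) (nat_lit 272))))) (XT.nd (nat_lit 234) (nat_lit 532) (nat_lit 0) (XT.nd (nat_lit 78) (nat_lit 228) (nat_lit 0) (XT.lf (nat_lit 0) (nat_lit 7676572272) (nat_lit 380) (nat_lit 11094386016) (nat_lit 76) (nat_lit 4795022162) (nat_lit 74) (nat_lit 5) (nat_lit 79) (nat_lit 5) (nat_lit 75) (nat_lit 5) (nat_lit 387) (nat_lit 362) (nat_lit 271)) (XT.nd (nat_lit 78) (nat_lit 0) (nat_lit 0) (XT.lf (nat_lit 0) (nat_lit 1982277323) (nat_lit 228) (nat_lit 10069954115) (nat_lit 304) (nat_lit 12219352092) (nat_lit 71) (nat_lit 5) (nat_lit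 74) (nat_lit 5) (nat_lit 75) (nat_lit 5) (nat_lit 388) (nat_lit 362) (nat_lit 270)) (XT.lf (nat_lit 0) (nat_lit 16083456713) (nat_lit 228) (nat_lit 740365368) (nat_lit 304) (nat_lit 8179792695) (nat_lit 71) (nat_lit 5) (nat_lit 74) (nat_lit 5) (nat_lit 75) (nat_lit 5) (nat_lit 389) (nat_lit 362) (nat_lit 269)))) (XT.nd (nat_lit 156) (nat_lit 228) (nat_lit 0) (XT.nd (nat_lit 78) (nat_lit 76) (nat_lit 0) (XT.lf (nat_lit 0) (nat_lit 5125862120) (nat_lit 228) (nat_lit 16919259530) (nat_lit 304) (nat_lit 3716574645) (nat_lit 68) (nat_lit 5) (nat_lit 71) (nat_lit 5) (nat_lit 72) (nat_lit 5) (nat_lit 390) (nat_lit 362) (nat_lit 268)) (XT.lf (nat_lit 0) (nat_lit 1094262531) (nat_lit 304) (nat_lit 6410383936) (nat_lit 76) (nat_lit 19044508151) (nat_lit 67) (nat_lit 5) (nat_lit 71) (nat_lit 5) (nat_lit 68) (nat_lit 5) (nat_lit 391) (nat_lit 362) (nat_lit 267))) (XT.nd (nat_lit 78) (nat_lit 0) (nat_lit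 0) (XT.lf (nat_lit 0) (nat_lit 6187701102) (nat_lit 304) (nat_lit 18675777120) (nat_lit 76) (nat_lit 2501117695) (nat_lit 64) (nat_lit 5) (nat_lit 68) (nat_lit 5) (nat_lit 65) (nat_lit 5) (nat_lit 392) (nat_lit 362) (nat_lit 266)) (XT.lf (nat_lit 0) (nat_lit 11759672136) (nat_lit 304) (nat_lit 3588532278) (nat_lit 76) (nat_lit 12861416101) (nat_lit 64) (nat_lit 5) (nat_lit 68) (nat_lit 5) (nat_lit 65) (nat_lit 5) (nat_lit 393) (nat_lit 362) (nat_lit 265))))))))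
noncomputable def xc152 : XT := (XT.nd (nat_lit 1950) (nat_lit 1292) (nat_lit 0) (XT.nd (nat_lit 936) (nat_lit 1064) (nat_lit 0) (XT.nd (nat_lit 468) (nat_lit 532) (nat_lit 0) (XT.nd (nat_lit 234) (nat_lit 380) (nat_lit 0) (XT.nd (nat_lit 78) (nat_lit 228) (nat_lit 0) (XT.lf (nat_lit 0) (nat_lit 12644560512) (nat_lit 228) (nat_lit 5154041921) (nat_lit 304) (nat_lit 11288879935) (nat_lit 61) (nat_lit 5) (nat_lit 64) (nat_lit 5) (nat_lit 65) (nat_lit 5) (nat_lit 394) (nat_lit 362) (nat_lit 264)) (XT.nd (nat_lit 78) (nat_lit 228) (nat_lit 0) (XT.lf (nat_lit 0) (nat_lit 24279004092) (nat_lit 304) (nat_lit 293335648) (nat_lit 76) (nat_lit 5429925194) (nat_lit 61) (nat_lit 5) (nat_lit 65) (nat_lit 5) (nat_lit 62) (nat_lit 5) (nat_lit 395) (nat_lit 362) (nat_lit 263)) (XT.lf (nat_lit 0) (nat_lit 465625122) (nat_lit 228) (nat_lit 13838887471) (nat_lit 76) (nat_lit 16640741010) (nat_lit 58) (nat_lit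 5) (nat_lit 61) (nat_lit 5) (nat_lit 59) (nat_lit 5) (nat_lit 396) (nat_lit 362) (nat_lit 262)))) (XT.nd (nat_lit 78) (nat_lit 152) (nat_lit 0) (XT.lf (nat_lit 0) (nat_lit 3454943938) (nat_lit 228) (nat_lit 3367261727) (nat_lit 304) (nat_lit 25105968713) (nat_lit 55) (nat_lit 5) (nat_lit 58) (nat_lit 5) (nat_lit 59) (nat_lit 5) (nat_lit 397) (nat_lit 362) (nat_lit 261)) (XT.nd (nat_lit 78) (nat_lit 152) (nat_lit 0) (XT.lf (nat_lit 0) (nat_lit 13853285264) (nat_lit 304) (nat_lit 10998131186) (nat_lit 76) (nat_lit 8090994418) (nat_lit 55) (nat_lit 5) (nat_lit 59) (nat_lit 5) (nat_lit 56) (nat_lit 5) (nat_lit 398) (nat_lit 362) (nat_lit 260)) (XT.lf (nat_lit 0) (nat_lit 7523992631) (nat_lit 152) (nat_lit 13876724376) (nat_lit 228) (nat_lit 12598405298) (nat_lit 53) (nat_lit 5) (nat_lit 55) (nat_lit 5) (nat_lit 56) (nat_lit 5) (nat_lit 399) (nat_lit 362) (nat_lit 259))))) (XT.nd (nat_lit 234)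 (nat_lit 304) (nat_lit 0) (XT.nd (nat_lit 78) (nat_lit 228) (nat_lit 0) (XT.lf (nat_lit 0) (nat_lit 27341907882) (nat_lit 152) (nat_lit 2162182979) (nat_lit 228) (nat_lit 5595652810) (nat_lit 53) (nat_lit 5) (nat_lit 55) (nat_lit 5) (nat_lit 56) (nat_lit 5) (nat_lit 400) (nat_lit 362) (nat_lit 258)) (XT.nd (nat_lit 78) (nat_lit 0) (nat_lit 0) (XT.lf (nat_lit 0) (nat_lit 2046577276) (nat_lit 228) (nat_lit 24158550963) (nat_lit 76) (nat_lit 10031619586) (nat_lit 50) (nat_lit 5) (nat_lit 53) (nat_lit 5) (nat_lit 51) (nat_lit 5) (nat_lit 401) (nat_lit 362) (nat_lit 257)) (XT.lf (nat_lit 0) (nat_lit 10044510688) (nat_lit 228) (nat_lit 4389921830) (nat_lit 76) (nat_lit 22983503435) (nat_lit 50) (nat_lit 5) (nat_lit 53) (nat_lit 5) (nat_lit 51) (nat_lit 5) (nat_lit 402) (nat_lit 362) (nat_lit 256)))) (XT.nd (nat_lit 78) (nat_lit 152) (nat_lit 0) (XT.lf (nat_lit 0) (nat_lit 16896579571) (nat_lit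 152) (nat_lit 1802573976) (nat_lit 228) (nat_lit 19946191674) (nat_lit 48) (nat_lit 5) (nat_lit 50) (nat_lit 5) (nat_lit 51) (nat_lit 5) (nat_lit 403) (nat_lit 362) (nat_lit 255)) (XT.nd (nat_lit 78) (nat_lit 152) (nat_lit 0) (XT.lf (nat_lit 0) (nat_lit 28034129687) (nat_lit 228) (nat_lit 722196847) (nat_lit 76) (nat_lit 11165420624) (nat_lit 48) (nat_lit 5) (nat_lit 51) (nat_lit 5) (nat_lit 49) (nat_lit 5) (nat_lit 404) (nat_lit 362) (nat_lit 254)) (XT.lf (nat_lit 0) (nat_lit 22020025295) (nat_lit 152) (nat_lit 16182603074) (nat_lit 228) (nat_lit 3041004286) (nat_lit 46) (nat_lit 5) (nat_lit 48) (nat_lit 5) (nat_lit 49) (nat_lit 5) (nat_lit 405) (nat_lit 362) (nat_lit 253)))))) (XT.nd (nat_lit 468) (nat_lit 532) (nat_lit 0) (XT.nd (nat_lit 234) (nat_lit 152) (nat_lit 0) (XT.nd (nat_lit 78) (nat_lit 152) (nat_lit 0) (XT.lf (nat_lit 0) (nat_lit 3290039005) (nat_lit 152) (nat_lit 2815192593)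 (nat_lit 228) (nat_lit 36518642133) (nat_lit 43) (nat_lit 5) (nat_lit 45) (nat_lit 5) (nat_lit 46) (nat_lit 5) (nat_lit 406) (nat_lit 362) (nat_lit 252)) (XT.nd (nat_lit 78) (nat_lit 152) (nat_lit 0) (XT.lf (nat_lit 0) (nat_lit 16106206320) (nat_lit 228) (nat_lit 16701476899) (nat_lit 76) (nat_lit 11237971639) (nat_lit 43) (nat_lit 5) (nat_lit 46) (nat_lit 5) (nat_lit 44) (nat_lit 5) (nat_lit 407) (nat_lit 362) (nat_lit 251)) (XT.lf (nat_lit 0) (nat_lit 7237496452) (nat_lit 152) (nat_lit 19522730898) (nat_lit 228) (nat_lit 18770649582) (nat_lit 41) (nat_lit 5) (nat_lit 43) (nat_lit 5) (nat_lit 44) (nat_lit 5) (nat_lit 408) (nat_lit 362) (nat_lit 250)))) (XT.nd (nat_lit 78) (nat_lit 152) (nat_lit 0) (XT.lf (nat_lit 0) (nat_lit 32942928583) (nat_lit 152) (nat_lit 5280849365) (nat_lit 228) (nat_lit 8852742422) (nat_lit 41) (nat_lit 5) (nat_lit 43) (nat_lit 5) (nat_lit 44) (nat_lit 5) (nat_lit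 409) (nat_lit 362) (nat_lit 249)) (XT.nd (nat_lit 78) (nat_lit 0) (nat_lit 0) (XT.lf (nat_lit 0) (nat_lit 1840230010) (nat_lit 152) (nat_lit 37273708742) (nat_lit 76) (nat_lit 9567833453) (nat_lit 39) (nat_lit 5) (nat_lit 41) (nat_lit 5) (nat_lit 40) (nat_lit 5) (nat_lit 410) (nat_lit 362) (nat_lit 248)) (XT.lf (nat_lit 0) (nat_lit 13094425773) (nat_lit 152) (nat_lit 11883542751) (nat_lit 76) (nat_lit 25365858972) (nat_lit 39) (nat_lit 5) (nat_lit 41) (nat_lit 5) (nat_lit 40) (nat_lit 5) (nat_lit 411) (nat_lit 362) (nat_lit 247))))) (XT.nd (nat_lit 234) (nat_lit 304) (nat_lit 0) (XT.nd (nat_lit 78) (nat_lit 76) (nat_lit 0) (XT.lf (nat_lit 0) (nat_lit 15254770114) (nat_lit 152) (nat_lit 9889236129) (nat_lit 228) (nat_lit 26933346951) (nat_lit 37) (nat_lit 5) (nat_lit 39) (nat_lit 5) (nat_lit 40) (nat_lit 5) (nat_lit 412) (nat_lit 362) (nat_lit 246)) (XT.nd (nat_lit 78) (nat_lit 76) (nat_lit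 0) (XT.lf (nat_lit 0) (nat_lit 38088131752) (nat_lit 228) (nat_lit 9830842028) (nat_lit 76) (nat_lit 5963979415) (nat_lit 37) (nat_lit 5) (nat_lit 40) (nat_lit 5) (nat_lit 38) (nat_lit 4) (nat_lit 413) (nat_lit 362) (nat_lit 245)) (XT.lf (nat_lit 0) (nat_lit 18945542060) (nat_lit 76) (nat_lit 33186648015) (nat_lit 152) (nat_lit 3624008054) (nat_lit 36) (nat_lit 5) (nat_lit 37) (nat_lit 5) (nat_lit 38) (nat_lit 4) (nat_lit 414) (nat_lit 362) (nat_lit 244)))) (XT.nd (nat_lit 156) (nat_lit 76) (nat_lit 0) (XT.nd (nat_lit 78) (nat_lit 152) (nat_lit 0) (XT.lf (nat_lit 0) (nat_lit 9026373217) (nat_lit 152) (nat_lit 8367625304) (nat_lit 76) (nat_lit 40313758126) (nat_lit 35) (nat_lit 5) (nat_lit 37) (nat_lit 5) (nat_lit 36) (nat_lit 5) (nat_lit 415) (nat_lit 362) (nat_lit 243)) (XT.lf (nat_lit 0) (nat_lit 22137913237) (nat_lit 152) (nat_lit 390286699) (nat_lit 228) (nat_lit 37208687904) (nat_lit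 33) (nat_lit 5) (nat_lit 35) (nat_lit 5) (nat_lit 36) (nat_lit 5) (nat_lit 416) (nat_lit 362) (nat_lit 242))) (XT.nd (nat_lit 78) (nat_lit 76) (nat_lit 0) (XT.lf (nat_lit 0) (nat_lit 37116928270) (nat_lit 228) (nat_lit 7684961189) (nat_lit 76) (nat_lit 17044996654) (nat_lit 33) (nat_lit 5) (nat_lit 36) (nat_lit 5) (nat_lit 34) (nat_lit 4) (nat_lit 417) (nat_lit 362) (nat_lit 241)) (XT.lf (nat_lit 0) (nat_lit 24493907196) (nat_lit 76) (nat_lit 28325356291) (nat_lit 152) (nat_lit 11223913276) (nat_lit 32) (nat_lit 5) (nat_lit 33) (nat_lit 5) (nat_lit 34) (nat_lit 4) (nat_lit 418) (nat_lit 362) (nat_lit 240))))))) (XT.nd (nat_lit 1014) (nat_lit 532) (nat_lit 0) (XT.nd (nat_lit 468) (nat_lit 304) (nat_lit 0) (XT.nd (nat_lit 234) (nat_lit 228) (nat_lit 0) (XT.nd (nat_lit 78) (nat_lit 152) (nat_lit 0) (XT.lf (nat_lit 0) (nat_lit 2990429649) (nat_lit 152) (nat_lit 7850982378) (nat_lit 76) (nat_lit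 55499179495) (nat_lit 31) (nat_lit 5) (nat_lit 33) (nat_lit 5) (nat_lit 32) (nat_lit 5) (nat_lit 419) (nat_lit 362) (nat_lit 239)) (XT.nd (nat_lit 78) (nat_lit 0) (nat_lit 0) (XT.lf (nat_lit 0) (nat_lit 18067974347) (nat_lit 228) (nat_lit 42775781635) (nat_lit 76) (nat_lit 7873437877) (nat_lit 29) (nat_lit 5) (nat_lit 32) (nat_lit 5) (nat_lit 30) (nat_lit 4) (nat_lit 420) (nat_lit 362) (nat_lit 238)) (XT.lf (nat_lit 0) (nat_lit 34207885989) (nat_lit 228) (nat_lit 9697945700) (nat_lit 76) (nat_lit 27291370949) (nat_lit 29) (nat_lit 5) (nat_lit 32) (nat_lit 5) (nat_lit 30) (nat_lit 4) (nat_lit 421) (nat_lit 362) (nat_lit 237)))) (XT.nd (nat_lit 78) (nat_lit 152) (nat_lit 0) (XT.lf (nat_lit 0) (nat_lit 25853587241) (nat_lit 76) (nat_lit 25700683194) (nat_lit 152) (nat_lit 22226968333) (nat_lit 28) (nat_lit 5) (nat_lit 29) (nat_lit 5) (nat_lit 30) (nat_lit 4) (nat_lit 422) (nat_lit 362) (nat_lit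 236)) (XT.nd (nat_lit 78) (nat_lit 152) (nat_lit 0) (XT.lf (nat_lit 0) (nat_lit 63511840290) (nat_lit 76) (nat_lit 6416284209) (nat_lit 152) (nat_lit 6558345419) (nat_lit 28) (nat_lit 5) (nat_lit 29) (nat_lit 5) (nat_lit 30) (nat_lit 4) (nat_lit 423) (nat_lit 362) (nat_lit 235)) (XT.lf (nat_lit 0) (nat_lit 10177829944) (nat_lit 152) (nat_lit 55181710260) (nat_lit 76) (nat_lit 13929660576) (nat_lit 26) (nat_lit 5) (nat_lit 28) (nat_lit 5) (nat_lit 27) (nat_lit 4) (nat_lit 424) (nat_lit 362) (nat_lit 234))))) (XT.nd (nat_lit 234) (nat_lit 228) (nat_lit 0) (XT.nd (nat_lit 78) (nat_lit 76) (nat_lit 0) (XT.lf (nat_lit 0) (nat_lit 27854994896) (nat_lit 152) (nat_lit 18950560471) (nat_lit 76) (nat_lit 35404908550) (nat_lit 26) (nat_lit 5) (nat_lit 28) (nat_lit 5) (nat_lit 27) (nat_lit 4) (nat_lit 425) (nat_lit 362) (nat_lit 233)) (XT.nd (nat_lit 78) (nat_lit 0) (nat_lit 0) (XT.lf (nat_lit 0) (nat_lit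 19716193477) (nat_lit 76) (nat_lit 27003902467) (nat_lit 152) (nat_lit 38542490978) (nat_lit 25) (nat_lit 5) (nat_lit 26) (nat_lit 5) (nat_lit 27) (nat_lit 4) (nat_lit 426) (nat_lit 362) (nat_lit 232)) (XT.lf (nat_lit 0) (nat_lit 60967323956) (nat_lit 76) (nat_lit 5878388808) (nat_lit 152) (nat_lit 21605740854) (nat_lit 25) (nat_lit 5) (nat_lit 26) (nat_lit 5) (nat_lit 27) (nat_lit 4) (nat_lit 427) (nat_lit 362) (nat_lit 231)))) (XT.nd (nat_lit 156) (nat_lit 76) (nat_lit 0) (XT.nd (nat_lit 78) (nat_lit 76) (nat_lit 0) (XT.lf (nat_lit 0) (nat_lit 12624072630) (nat_lit 76) (nat_lit 75801627918) (nat_lit 76) (nat_lit 3351659144) (nat_lit 24) (nat_lit 4) (nat_lit 25) (nat_lit 5) (nat_lit 25) (nat_lit 4) (nat_lit 428) (nat_lit 362) (nat_lit 230)) (XT.lf (nat_lit 0) (nat_lit 15874858288) (nat_lit 152) (nat_lit 39912024022) (nat_lit 76) (nat_lit 39442037612) (nat_lit 23) (nat_lit 5) (nat_lit 25)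 (nat_lit 5) (nat_lit 24) (nat_lit 4) (nat_lit 429) (nat_lit 362) (nat_lit 229))) (XT.nd (nat_lit 78) (nat_lit 0) (nat_lit 0) (XT.lf (nat_lit 0) (nat_lit 1270652573) (nat_lit 76) (nat_lit 34695878266) (nat_lit 152) (nat_lit 62882957189) (nat_lit 22) (nat_lit 5) (nat_lit 23) (nat_lit 5) (nat_lit 24) (nat_lit 4) (nat_lit 430) (nat_lit 362) (nat_lit 228)) (XT.lf (nat_lit 0) (nat_lit 45891847961) (nat_lit 76) (nat_lit 11843559668) (nat_lit 152) (nat_lit 44882046331) (nat_lit 22) (nat_lit 5) (nat_lit 23) (nat_lit 5) (nat_lit 24) (nat_lit 4) (nat_lit 431) (nat_lit 362) (nat_lit 227)))))) (XT.nd (nat_lit 468) (nat_lit 304) (nat_lit 0) (XT.nd (nat_lit 234) (nat_lit 76) (nat_lit 0) (XT.nd (nat_lit 78) (nat_lit 152) (nat_lit 0) (XT.lf (nat_lit 0) (nat_lit 80779249974) (nat_lit 152) (nat_lit 14025517843) (nat_lit 0) (nat_lit 11759724716) (nat_lit 22) (nat_lit 5) (nat_lit 24) (nat_lit 4) (nat_lit 22)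 (nat_lit 4) (nat_lit 432) (nat_lit 362) (nat_lit 226)) (XT.nd (nat_lit 78) (nat_lit 76) (nat_lit 0) (XT.lf (nat_lit 0) (nat_lit 31621714388) (nat_lit 76) (nat_lit 74038387200) (nat_lit 76) (nat_lit 5014540999) (nat_lit 21) (nat_lit 4) (nat_lit 22) (nat_lit 5) (nat_lit 22) (nat_lit 4) (nat_lit 433) (nat_lit 362) (nat_lit 225)) (XT.lf (nat_lit 0) (nat_lit 16495546729) (nat_lit 152) (nat_lit 35212090590) (nat_lit 76) (nat_lit 63257633272) (nat_lit 20) (nat_lit 5) (nat_lit 22) (nat_lit 5) (nat_lit 21) (nat_lit 4) (nat_lit 434) (nat_lit 362) (nat_lit 224)))) (XT.nd (nat_lit 78) (nat_lit 0) (nat_lit 0) (XT.lf (nat_lit 0) (nat_lit 11087939721) (nat_lit 76) (nat_lit 27994899464) (nat_lit 152) (nat_lit 80374969794) (nat_lit 19) (nat_lit 5) (nat_lit 20) (nat_lit 5) (nat_lit 21) (nat_lit 4) (nat_lit 435) (nat_lit 362) (nat_lit 223)) (XT.nd (nat_lit 78) (nat_lit 0) (nat_lit 0) (XT.lf (nat_lit 0) (nat_lit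 60920018061) (nat_lit 76) (nat_lit 2472972799) (nat_lit 152) (nat_lit 60752309033) (nat_lit 19) (nat_lit 5) (nat_lit 20) (nat_lit 5) (nat_lit 21) (nat_lit 4) (nat_lit 436) (nat_lit 362) (nat_lit 222)) (XT.lf (nat_lit 0) (nat_lit 89295689687) (nat_lit 152) (nat_lit 16208522942) (nat_lit 0) (nat_lit 23544101065) (nat_lit 19) (nat_lit 5) (nat_lit 21) (nat_lit 4) (nat_lit 19) (nat_lit 4) (nat_lit 437) (nat_lit 362) (nat_lit 221))))) (XT.nd (nat_lit 234) (nat_lit 152) (nat_lit 0) (XT.nd (nat_lit 78) (nat_lit 76) (nat_lit 0) (XT.lf (nat_lit 0) (nat_lit 34208391023) (nat_lit 76) (nat_lit 82857149790) (nat_lit 76) (nat_lit 17102336813) (nat_lit 18) (nat_lit 4) (nat_lit 19) (nat_lit 5) (nat_lit 19) (nat_lit 4) (nat_lit 438) (nat_lit 362) (nat_lit 220)) (XT.nd (nat_lit 78) (nat_lit 0) (nat_lit 0) (XT.lf (nat_lit 0) (nat_lit 6743040154) (nat_lit 152) (nat_lit 51934651473) (nat_lit 76) (nat_lit 80846693764)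 (nat_lit 17) (nat_lit 5) (nat_lit 19) (nat_lit 5) (nat_lit 18) (nat_lit 4) (nat_lit 439) (nat_lit 362) (nat_lit 219)) (XT.lf (nat_lit 0) (nat_lit 31203452298) (nat_lit 152) (nat_lit 1793731164) (nat_lit 76) (nat_lit 112137641189) (nat_lit 17) (nat_lit 5) (nat_lit 19) (nat_lit 5) (nat_lit 18) (nat_lit 4) (nat_lit 440) (nat_lit 362) (nat_lit 218)))) (XT.nd (nat_lit 156) (nat_lit 76) (nat_lit 0) (XT.nd (nat_lit 78) (nat_lit 0) (nat_lit 0) (XT.lf (nat_lit 0) (nat_lit 52530992703) (nat_lit 76) (nat_lit 5173683588) (nat_lit 152) (nat_lit 93280220271) (nat_lit 16) (nat_lit 5) (nat_lit 17) (nat_lit 5) (nat_lit 18) (nat_lit 4) (nat_lit 441) (nat_lit 362) (nat_lit 217)) (XT.lf (nat_lit 0) (nat_lit 85934828364) (nat_lit 152) (nat_lit 47872142596) (nat_lit 0) (nat_lit 23300308004) (nat_lit 16) (nat_lit 5) (nat_lit 18) (nat_lit 4) (nat_lit 16) (nat_lit 4) (nat_lit 442) (nat_lit 362) (nat_lit 216))) (XT.nd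 (nat_lit 78) (nat_lit 0) (nat_lit 0) (XT.lf (nat_lit 0) (nat_lit 5319805699) (nat_lit 76) (nat_lit 110422310028) (nat_lit 76) (nat_lit 47785383604) (nat_lit 15) (nat_lit 4) (nat_lit 16) (nat_lit 5) (nat_lit 16) (nat_lit 4) (nat_lit 443) (nat_lit 362) (nat_lit 215)) (XT.lf (nat_lit 0) (nat_lit 62829080770) (nat_lit 76) (nat_lit 85019220687) (nat_lit 76) (nat_lit 22380002775) (nat_lit 15) (nat_lit 4) (nat_lit 16) (nat_lit 5) (nat_lit 16) (nat_lit 4) (nat_lit 444) (nat_lit 362) (nat_lit 214))))))))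
noncomputable def xc153 : XT := (XT.nd (nat_lit 1950) (nat_lit 152) (nat_lit 0) (XT.nd (nat_lit 936) (nat_lit 304) (nat_lit 0) (XT.nd (nat_lit 468) (nat_lit 152) (nat_lit 0) (XT.nd (nat_lit 234) (nat_lit 76) (nat_lit 0) (XT.nd (nat_lit 78) (nat_lit 76) (nat_lit 0) (XT.lf (nat_lit 0) (nat_lit 4156026000) (nat_lit 152) (nat_lit 54121546981) (nat_lit 76) (nat_lit 118983329920) (nat_lit 14) (nat_lit 5) (nat_lit 16) (nat_lit 5) (nat_lit 15) (nat_lit 4) (nat_lit 445) (nat_lit 362) (nat_lit 213)) (XT.nd (nat_lit 78) (nat_lit 0) (nat_lit 0) (XT.lf (nat_lit 0) (nat_lit 1497091840) (nat_lit 76) (nat_lit 29790991364) (nat_lit 152) (nat_lit 153337637129) (nat_lit 13) (nat_lit 5) (nat_lit 14) (nat_lit 5) (nat_lit 15) (nat_lit 4) (nat_lit 446) (nat_lit 362) (nat_lit 212)) (XT.lf (nat_lit 0) (nat_lit 60708190477) (nat_lit 152) (nat_lit 130558166649) (nat_lit 0) (nat_lit 1045849330) (nat_lit 13) (nat_lit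 5) (nat_lit 15) (nat_lit 4) (nat_lit 13) (nat_lit 4) (nat_lit 447) (nat_lit 362) (nat_lit 211)))) (XT.nd (nat_lit 78) (nat_lit 76) (nat_lit 0) (XT.lf (nat_lit 0) (nat_lit 92085751002) (nat_lit 152) (nat_lit 75851329243) (nat_lit 0) (nat_lit 32421614414) (nat_lit 13) (nat_lit 5) (nat_lit 15) (nat_lit 4) (nat_lit 13) (nat_lit 4) (nat_lit 448) (nat_lit 362) (nat_lit 210)) (XT.nd (nat_lit 78) (nat_lit 76) (nat_lit 0) (XT.lf (nat_lit 0) (nat_lit 125030352395) (nat_lit 152) (nat_lit 18412741037) (nat_lit 0) (nat_lit 65364505863) (nat_lit 13) (nat_lit 5) (nat_lit 15) (nat_lit 4) (nat_lit 13) (nat_lit 4) (nat_lit 449) (nat_lit 362) (nat_lit 209)) (XT.lf (nat_lit 0) (nat_lit 43279573139) (nat_lit 76) (nat_lit 117016576469) (nat_lit 76) (nat_lit 57349101419) (nat_lit 12) (nat_lit 4) (nat_lit 13) (nat_lit 5) (nat_lit 13) (nat_lit 4) (nat_lit 450) (nat_lit 362) (nat_lit 208))))) (XT.nd (nat_lit 234)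 (nat_lit 0) (nat_lit 0) (XT.nd (nat_lit 78) (nat_lit 152) (nat_lit 0) (XT.lf (nat_lit 0) (nat_lit 108692386912) (nat_lit 76) (nat_lit 88942959556) (nat_lit 76) (nat_lit 29273933536) (nat_lit 12) (nat_lit 4) (nat_lit 13) (nat_lit 5) (nat_lit 13) (nat_lit 4) (nat_lit 451) (nat_lit 362) (nat_lit 207)) (XT.nd (nat_lit 78) (nat_lit 76) (nat_lit 0) (XT.lf (nat_lit 0) (nat_lit 196767678) (nat_lit 152) (nat_lit 59267129393) (nat_lit 76) (nat_lit 177172536669) (nat_lit 11) (nat_lit 5) (nat_lit 13) (nat_lit 5) (nat_lit 12) (nat_lit 4) (nat_lit 452) (nat_lit 362) (nat_lit 206)) (XT.lf (nat_lit 0) (nat_lit 2218110744) (nat_lit 76) (nat_lit 27972143232) (nat_lit 152) (nat_lit 216634043977) (nat_lit 10) (nat_lit 5) (nat_lit 11) (nat_lit 5) (nat_lit 12) (nat_lit 4) (nat_lit 453) (nat_lit 362) (nat_lit 205)))) (XT.nd (nat_lit 78) (nat_lit 0) (nat_lit 0) (XT.lf (nat_lit 0) (nat_lit 62781540823) (nat_lit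 152) (nat_lit 188735233918) (nat_lit 0) (nat_lit 5949874446) (nat_lit 10) (nat_lit 5) (nat_lit 12) (nat_lit 4) (nat_lit 10) (nat_lit 4) (nat_lit 454) (nat_lit 362) (nat_lit 204)) (XT.nd (nat_lit 78) (nat_lit 0) (nat_lit 0) (XT.lf (nat_lit 0) (nat_lit 97459446613) (nat_lit 152) (nat_lit 130532253745) (nat_lit 0) (nat_lit 40626565011) (nat_lit 10) (nat_lit 5) (nat_lit 12) (nat_lit 4) (nat_lit 10) (nat_lit 4) (nat_lit 455) (nat_lit 362) (nat_lit 203)) (XT.lf (nat_lit 0) (nat_lit 133869814241) (nat_lit 152) (nat_lit 69421944617) (nat_lit 0) (nat_lit 77035775282) (nat_lit 10) (nat_lit 5) (nat_lit 12) (nat_lit 4) (nat_lit 10) (nat_lit 4) (nat_lit 456) (nat_lit 362) (nat_lit 202)))))) (XT.nd (nat_lit 468) (nat_lit 76) (nat_lit 0) (XT.nd (nat_lit 234) (nat_lit 152) (nat_lit 0) (XT.nd (nat_lit 78) (nat_lit 76) (nat_lit 0) (XT.lf (nat_lit 0) (nat_lit 172099335060) (nat_lit 152) (nat_lit 5258805800)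 (nat_lit 0) (nat_lit 115264193855) (nat_lit 10) (nat_lit 5) (nat_lit 12) (nat_lit 4) (nat_lit 10) (nat_lit 4) (nat_lit 457) (nat_lit 362) (nat_lit 201)) (XT.nd (nat_lit 78) (nat_lit 0) (nat_lit 0) (XT.lf (nat_lit 0) (nat_lit 64163566936) (nat_lit 76) (nat_lit 149077237899) (nat_lit 76) (nat_lit 92241046937) (nat_lit 9) (nat_lit 4) (nat_lit 10) (nat_lit 5) (nat_lit 10) (nat_lit 4) (nat_lit 458) (nat_lit 362) (nat_lit 200)) (XT.lf (nat_lit 0) (nat_lit 137237115555) (nat_lit 76) (nat_lit 119290015404) (nat_lit 76) (nat_lit 62452824674) (nat_lit 9) (nat_lit 4) (nat_lit 10) (nat_lit 5) (nat_lit 10) (nat_lit 4) (nat_lit 459) (nat_lit 362) (nat_lit 199)))) (XT.nd (nat_lit 78) (nat_lit 152) (nat_lit 0) (XT.lf (nat_lit 0) (nat_lit 213961944828) (nat_lit 76) (nat_lit 88014611839) (nat_lit 76) (nat_lit 31176468948) (nat_lit 9) (nat_lit 4) (nat_lit 10) (nat_lit 5) (nat_lit 10) (nat_lit 4) (nat_lit 460)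 (nat_lit 362) (nat_lit 198)) (XT.nd (nat_lit 78) (nat_lit 76) (nat_lit 0) (XT.lf (nat_lit 0) (nat_lit 1609277763) (nat_lit 152) (nat_lit 53540030295) (nat_lit 76) (nat_lit 292884201257) (nat_lit 8) (nat_lit 5) (nat_lit 10) (nat_lit 5) (nat_lit 9) (nat_lit 4) (nat_lit 461) (nat_lit 362) (nat_lit 197)) (XT.lf (nat_lit 0) (nat_lit 15372280940) (nat_lit 76) (nat_lit 19853179688) (nat_lit 152) (nat_lit 328395058038) (nat_lit 7) (nat_lit 5) (nat_lit 8) (nat_lit 5) (nat_lit 9) (nat_lit 4) (nat_lit 462) (nat_lit 362) (nat_lit 196))))) (XT.nd (nat_lit 234) (nat_lit 76) (nat_lit 0) (XT.nd (nat_lit 78) (nat_lit 0) (nat_lit 0) (XT.lf (nat_lit 0) (nat_lit 71711585527) (nat_lit 152) (nat_lit 290638285013) (nat_lit 0) (nat_lit 17577551373) (nat_lit 7) (nat_lit 5) (nat_lit 9) (nat_lit 4) (nat_lit 7) (nat_lit 4) (nat_lit 463) (nat_lit 362) (nat_lit 195)) (XT.nd (nat_lit 78) (nat_lit 0) (nat_lit 0) (XT.lf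 (nat_lit 0) (nat_lit 110346412845) (nat_lit 152) (nat_lit 230475405092) (nat_lit 0) (nat_lit 56211632648) (nat_lit 7) (nat_lit 5) (nat_lit 9) (nat_lit 4) (nat_lit 7) (nat_lit 4) (nat_lit 464) (nat_lit 362) (nat_lit 194)) (XT.lf (nat_lit 0) (nat_lit 150911966493) (nat_lit 152) (nat_lit 167306389239) (nat_lit 0) (nat_lit 96776475779) (nat_lit 7) (nat_lit 5) (nat_lit 9) (nat_lit 4) (nat_lit 7) (nat_lit 4) (nat_lit 465) (nat_lit 362) (nat_lit 193)))) (XT.nd (nat_lit 156) (nat_lit 76) (nat_lit 0) (XT.nd (nat_lit 78) (nat_lit 0) (nat_lit 0) (XT.lf (nat_lit 0) (nat_lit 193504831122) (nat_lit 152) (nat_lit 100980835035) (nat_lit 0) (nat_lit 139368663725) (nat_lit 7) (nat_lit 5) (nat_lit 9) (nat_lit 4) (nat_lit 7) (nat_lit 4) (nat_lit 466) (nat_lit 362) (nat_lit 192)) (XT.lf (nat_lit 0) (nat_lit 238226418315) (nat_lit 152) (nat_lit 31340824492) (nat_lit 0) (nat_lit 184089606458) (nat_lit 7) (nat_lit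 5) (nat_lit 9) (nat_lit 4) (nat_lit 7) (nat_lit 4) (nat_lit 467) (nat_lit 362) (nat_lit 191))) (XT.nd (nat_lit 78) (nat_lit 0) (nat_lit 0) (XT.lf (nat_lit 0) (nat_lit 43160869298) (nat_lit 76) (nat_lit 242696200871) (nat_lit 76) (nat_lit 188558775243) (nat_lit 6) (nat_lit 4) (nat_lit 7) (nat_lit 5) (nat_lit 7) (nat_lit 4) (nat_lit 468) (nat_lit 362) (nat_lit 190)) (XT.lf (nat_lit 0) (nat_lit 122474023773) (nat_lit 76) (nat_lit 213925141152) (nat_lit 76) (nat_lit 159787130980) (nat_lit 6) (nat_lit 4) (nat_lit 7) (nat_lit 5) (nat_lit 7) (nat_lit 4) (nat_lit 469) (nat_lit 362) (nat_lit 189))))))) (XT.nd (nat_lit 45240) (nat_lit 0) (nat_lit 6536) (XT.nd (nat_lit 468) (nat_lit 0) (nat_lit 0) (XT.nd (nat_lit 234) (nat_lit 152) (nat_lit 0) (XT.nd (nat_lit 78) (nat_lit 0) (nat_lit 0) (XT.lf (nat_lit 0) (nat_lit 205751210578) (nat_lit 76) (nat_lit 183716333156) (nat_lit 76) (nat_lit 129577766275)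 (nat_lit 6) (nat_lit 4) (nat_lit 7) (nat_lit 5) (nat_lit 7) (nat_lit 4) (nat_lit 470) (nat_lit 362) (nat_lit 188)) (XT.nd (nat_lit 78) (nat_lit 0) (nat_lit 0) (XT.lf (nat_lit 0) (nat_lit 293190708731) (nat_lit 76) (nat_lit 151997851149) (nat_lit 76) (nat_lit 97858754069) (nat_lit 6) (nat_lit 4) (nat_lit 7) (nat_lit 5) (nat_lit 7) (nat_lit 4) (nat_lit 471) (nat_lit 362) (nat_lit 187)) (XT.lf (nat_lit 0) (nat_lit 385000707512) (nat_lit 76) (nat_lit 118694174936) (nat_lit 76) (nat_lit 64554572905) (nat_lit 6) (nat_lit 4) (nat_lit 7) (nat_lit 5) (nat_lit 7) (nat_lit 4) (nat_lit 472) (nat_lit 362) (nat_lit 186)))) (XT.nd (nat_lit 78) (nat_lit 152) (nat_lit 0) (XT.lf (nat_lit 0) (nat_lit 481399802157) (nat_lit 76) (nat_lit 83726010050) (nat_lit 76) (nat_lit 29585927113) (nat_lit 6) (nat_lit 4) (nat_lit 7) (nat_lit 5) (nat_lit 7) (nat_lit 4) (nat_lit 473) (nat_lit 362) (nat_lit 185)) (XT.nd (nat_lit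 78) (nat_lit 76) (nat_lit 0) (XT.lf (nat_lit 0) (nat_lit 6902223311) (nat_lit 152) (nat_lit 39990983153) (nat_lit 76) (nat_lit 575598398516) (nat_lit 5) (nat_lit 5) (nat_lit 7) (nat_lit 5) (nat_lit 6) (nat_lit 4) (nat_lit 474) (nat_lit 362) (nat_lit 184)) (XT.lf (nat_lit 0) (nat_lit 37716884006) (nat_lit 76) (nat_lit 7091828746) (nat_lit 152) (nat_lit 606798089816) (nat_lit 4) (nat_lit 5) (nat_lit 5) (nat_lit 5) (nat_lit 6) (nat_lit 4) (nat_lit 475) (nat_lit 362) (nat_lit 183))))) (XT.nd (nat_lit 44460) (nat_lit 0) (nat_lit 8208) (XT.nd (nat_lit 44304) (nat_lit 0) (nat_lit 8892) (XT.lf (nat_lit 0) (nat_lit 85840002084) (nat_lit 152) (nat_lit 561999513149) (nat_lit 0) (nat_lit 34276771071) (nat_lit 4) (nat_lit 5) (nat_lit 6) (nat_lit 4) (nat_lit 4) (nat_lit 4) (nat_lit 476) (nat_lit 362) (nat_lit 182)) (XT.nd (nat_lit 78) (nat_lit 0) (nat_lit 0) (XT.lf (nat_lit 0) (nat_lit 2476592477) (nat_lit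 0) (nat_lit 2476592477) (nat_lit 684) (nat_lit 1437661831) (nat_lit 121) (nat_lit 5) (nat_lit 121) (nat_lit 3) (nat_lit 130) (nat_lit 3) (nat_lit 363) (nat_lit 363) (nat_lit 294)) (XT.lf (nat_lit 0) (nat_lit 10568110435) (nat_lit 684) (nat_lit 1673795593) (nat_lit 760) (nat_lit 838323737) (nat_lit 121) (nat_lit 5) (nat_lit 130) (nat_lit 3) (nat_lit 131) (nat_lit 5) (nat_lit 364) (nat_lit 363) (nat_lit 293)))) (XT.nd (nat_lit 156) (nat_lit 684) (nat_lit 0) (XT.nd (nat_lit 78) (nat_lit 0) (nat_lit 0) (XT.lf (nat_lit 76) (nat_lit 4848307486) (nat_lit 0) (nat_lit 6546085248) (nat_lit 760) (nat_lit 1992746637) (nat_lit 122) (nat_lit 5) (nat_lit 121) (nat_lit 5) (nat_lit 131) (nat_lit 5) (nat_lit 365) (nat_lit 363) (nat_lit 292)) (XT.lf (nat_lit 76) (nat_lit 11740535161) (nat_lit 0) (nat_lit 525351310) (nat_lit 760) (nat_lit 1443331534) (nat_lit 122) (nat_lit 5) (nat_lit 121) (nat_lit 5) (nat_lit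 131) (nat_lit 5) (nat_lit 366) (nat_lit 363) (nat_lit 291))) (XT.nd (nat_lit 78) (nat_lit 760) (nat_lit 0) (XT.lf (nat_lit 76) (nat_lit 4984246542) (nat_lit 0) (nat_lit 8341893814) (nat_lit 760) (nat_lit 714018482) (nat_lit 123) (nat_lit 5) (nat_lit 122) (nat_lit 5) (nat_lit 132) (nat_lit 5) (nat_lit 367) (nat_lit 363) (nat_lit 290)) (XT.lf (nat_lit 0) (nat_lit 69965893) (nat_lit 760) (nat_lit 2058058236) (nat_lit 836) (nat_lit 12258604969) (nat_lit 112) (nat_lit 5) (nat_lit 122) (nat_lit 5) (nat_lit 123) (nat_lit 5) (nat_lit 368) (nat_lit 363) (nat_lit 289)))))) (XT.nd (nat_lit 468) (nat_lit 1748) (nat_lit 0) (XT.nd (nat_lit 234) (nat_lit 0) (nat_lit 76) (XT.nd (nat_lit 78) (nat_lit 0) (nat_lit 0) (XT.lf (nat_lit 0) (nat_lit 1002823852) (nat_lit 760) (nat_lit 9379559689) (nat_lit 836) (nat_lit 4360785717) (nat_lit 113) (nat_lit 5) (nat_lit 123) (nat_lit 5) (nat_lit 124) (nat_lit 5) (nat_lit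 369) (nat_lit 363) (nat_lit 288)) (XT.nd (nat_lit 78) (nat_lit 0) (nat_lit 76) (XT.lf (nat_lit 0) (nat_lit 2031980293) (nat_lit 760) (nat_lit 1938911263) (nat_lit 836) (nat_lit 11144176521) (nat_lit 113) (nat_lit 5) (nat_lit 123) (nat_lit 5) (nat_lit 124) (nat_lit 5) (nat_lit 370) (nat_lit 363) (nat_lit 287)) (XT.lf (nat_lit 0) (nat_lit 3232158996) (nat_lit 760) (nat_lit 9493810033) (nat_lit 836) (nat_lit 2773628328) (nat_lit 114) (nat_lit 5) (nat_lit 124) (nat_lit 5) (nat_lit 125) (nat_lit 5) (nat_lit 371) (nat_lit 363) (nat_lit 286)))) (XT.nd (nat_lit 78) (nat_lit 0) (nat_lit 76) (XT.lf (nat_lit 0) (nat_lit 4571925972) (nat_lit 760) (nat_lit 1567839535) (nat_lit 836) (nat_lit 9759621715) (nat_lit 114) (nat_lit 5) (nat_lit 124) (nat_lit 5) (nat_lit 125) (nat_lit 5) (nat_lit 372) (nat_lit 363) (nat_lit 285)) (XT.nd (nat_lit 78) (nat_lit 0) (nat_lit 0) (XT.lf (nat_lit 0) (nat_lit 6083336479)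 (nat_lit 760) (nat_lit 9366104047) (nat_lit 76) (nat_lit 864505759) (nat_lit 115) (nat_lit 5) (nat_lit 125) (nat_lit 5) (nat_lit 116) (nat_lit 5) (nat_lit 373) (nat_lit 363) (nat_lit 284)) (XT.lf (nat_lit 0) (nat_lit 7780637976) (nat_lit 760) (nat_lit 920727656) (nat_lit 76) (nat_lit 8042363519) (nat_lit 115) (nat_lit 5) (nat_lit 125) (nat_lit 5) (nat_lit 116) (nat_lit 5) (nat_lit 374) (nat_lit 363) (nat_lit 283))))) (XT.nd (nat_lit 234) (nat_lit 760) (nat_lit 0) (XT.nd (nat_lit 78) (nat_lit 380) (nat_lit 0) (XT.lf (nat_lit 0) (nat_lit 8194453395) (nat_lit 760) (nat_lit 1479795410) (nat_lit 836) (nat_lit 7515191446) (nat_lit 105) (nat_lit 5) (nat_lit 115) (nat_lit 5) (nat_lit 116) (nat_lit 5) (nat_lit 375) (nat_lit 363) (nat_lit 282)) (XT.nd (nat_lit 78) (nat_lit 0) (nat_lit 0) (XT.lf (nat_lit 0) (nat_lit 30819927) (nat_lit 380) (nat_lit 11727419995) (nat_lit 456) (nat_lit 5894422765) (nat_lit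 100) (nat_lit 5) (nat_lit 105) (nat_lit 5) (nat_lit 106) (nat_lit 5) (nat_lit 376) (nat_lit 363) (nat_lit 281)) (XT.lf (nat_lit 0) (nat_lit 9780058831) (nat_lit 380) (nat_lit 4327183475) (nat_lit 456) (nat_lit 4023773610) (nat_lit 100) (nat_lit 5) (nat_lit 105) (nat_lit 5) (nat_lit 106) (nat_lit 5) (nat_lit 377) (nat_lit 363) (nat_lit 280)))) (XT.nd (nat_lit 156) (nat_lit 380) (nat_lit 0) (XT.nd (nat_lit 78) (nat_lit 76) (nat_lit 0) (XT.lf (nat_lit 0) (nat_lit 1358071976) (nat_lit 304) (nat_lit 15275929071) (nat_lit 380) (nat_lit 1996280212) (nat_lit 96) (nat_lit 5) (nat_lit 100) (nat_lit 5) (nat_lit 101) (nat_lit 5) (nat_lit 378) (nat_lit 363) (nat_lit 279)) (XT.lf (nat_lit 0) (nat_lit 328598715) (nat_lit 380) (nat_lit 7395639612) (nat_lit 76) (nat_lit 11420164172) (nat_lit 95) (nat_lit 5) (nat_lit 100) (nat_lit 5) (nat_lit 96) (nat_lit 5) (nat_lit 379) (nat_lit 363) (nat_lit 278))) (XT.nd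 (nat_lit 78) (nat_lit 0) (nat_lit 0) (XT.lf (nat_lit 0) (nat_lit 2740605920) (nat_lit 456) (nat_lit 16661223022) (nat_lit 76) (nat_lit 278874379) (nat_lit 90) (nat_lit 5) (nat_lit 96) (nat_lit 5) (nat_lit 91) (nat_lit 5) (nat_lit 380) (nat_lit 363) (nat_lit 277)) (XT.lf (nat_lit 0) (nat_lit 5513813479) (nat_lit 456) (nat_lit 6169164605) (nat_lit 76) (nat_lit 8548819136) (nat_lit 90) (nat_lit 5) (nat_lit 96) (nat_lit 5) (nat_lit 91) (nat_lit 5) (nat_lit 381) (nat_lit 363) (nat_lit 276))))))))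
noncomputable def xc154 : XT := (XT.nd (nat_lit 1950) (nat_lit 1824) (nat_lit 0) (XT.nd (nat_lit 936) (nat_lit 1368) (nat_lit 0) (XT.nd (nat_lit 468) (nat_lit 1064) (nat_lit 0) (XT.nd (nat_lit 234) (nat_lit 304) (nat_lit 0) (XT.nd (nat_lit 78) (nat_lit 304) (nat_lit 0) (XT.lf (nat_lit 0) (nat_lit 4992975651) (nat_lit 304) (nat_lit 3497965957) (nat_lit 380) (nat_lit 12316248848) (nat_lit 86) (nat_lit 5) (nat_lit 90) (nat_lit 5) (nat_lit 91) (nat_lit 5) (nat_lit 382) (nat_lit 363) (nat_lit 275)) (XT.nd (nat_lit 78) (nat_lit 304) (nat_lit 0) (XT.lf (nat_lit 0) (nat_lit 11790346514) (nat_lit 380) (nat_lit 4574698578) (nat_lit 76) (nat_lit 5037644531) (nat_lit 86) (nat_lit 5) (nat_lit 91) (nat_lit 5) (nat_lit 87) (nat_lit 5) (nat_lit 383) (nat_lit 363) (nat_lit 274)) (XT.lf (nat_lit 0) (nat_lit 7392049823) (nat_lit 304) (nat_lit 8023676021) (nat_lit 380) (nat_lit 6604194637) (nat_lit 82) (nat_lit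 5) (nat_lit 86) (nat_lit 5) (nat_lit 87) (nat_lit 5) (nat_lit 384) (nat_lit 363) (nat_lit 273)))) (XT.nd (nat_lit 78) (nat_lit 304) (nat_lit 0) (XT.lf (nat_lit 0) (nat_lit 19301148252) (nat_lit 380) (nat_lit 2575228110) (nat_lit 76) (nat_lit 787704424) (nat_lit 82) (nat_lit 5) (nat_lit 87) (nat_lit 5) (nat_lit 83) (nat_lit 5) (nat_lit 385) (nat_lit 363) (nat_lit 272)) (XT.nd (nat_lit 78) (nat_lit 0) (nat_lit 0) (XT.lf (nat_lit 0) (nat_lit 324576581) (nat_lit 304) (nat_lit 13068268312) (nat_lit 76) (nat_lit 9933304841) (nat_lit 78) (nat_lit 5) (nat_lit 82) (nat_lit 5) (nat_lit 79) (nat_lit 5) (nat_lit 386) (nat_lit 363) (nat_lit 271)) (XT.lf (nat_lit 0) (nat_lit 4117005016) (nat_lit 304) (nat_lit 266700740) (nat_lit 76) (nat_lit 19633187558) (nat_lit 78) (nat_lit 5) (nat_lit 82) (nat_lit 5) (nat_lit 79) (nat_lit 5) (nat_lit 387) (nat_lit 363) (nat_lit 270))))) (XT.nd (nat_lit 234) (nat_lit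 532) (nat_lit 0) (XT.nd (nat_lit 78) (nat_lit 228) (nat_lit 0) (XT.lf (nat_lit 0) (nat_lit 8383772392) (nat_lit 380) (nat_lit 11217738591) (nat_lit 76) (nat_lit 5126432653) (nat_lit 74) (nat_lit 5) (nat_lit 79) (nat_lit 5) (nat_lit 75) (nat_lit 5) (nat_lit 388) (nat_lit 363) (nat_lit 269)) (XT.nd (nat_lit 78) (nat_lit 0) (nat_lit 0) (XT.lf (nat_lit 0) (nat_lit 2505800388) (nat_lit 228) (nat_lit 10463641703) (nat_lit 304) (nat_lit 12499831365) (nat_lit 71) (nat_lit 5) (nat_lit 74) (nat_lit 5) (nat_lit 75) (nat_lit 5) (nat_lit 389) (nat_lit 363) (nat_lit 268)) (XT.lf (nat_lit 0) (nat_lit 17291828785) (nat_lit 228) (nat_lit 672802572) (nat_lit 304) (nat_lit 8274031538) (nat_lit 71) (nat_lit 5) (nat_lit 74) (nat_lit 5) (nat_lit 75) (nat_lit 5) (nat_lit 390) (nat_lit 363) (nat_lit 267)))) (XT.nd (nat_lit 78) (nat_lit 304) (nat_lit 0) (XT.lf (nat_lit 0) (nat_lit 5793117197) (nat_lit 228) (nat_lit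 17647582494) (nat_lit 304) (nat_lit 3594270834) (nat_lit 68) (nat_lit 5) (nat_lit 71) (nat_lit 5) (nat_lit 72) (nat_lit 5) (nat_lit 391) (nat_lit 363) (nat_lit 266)) (XT.nd (nat_lit 78) (nat_lit 228) (nat_lit 0) (XT.lf (nat_lit 0) (nat_lit 1433042684) (nat_lit 304) (nat_lit 6329987187) (nat_lit 76) (nat_lit 20099248073) (nat_lit 67) (nat_lit 5) (nat_lit 71) (nat_lit 5) (nat_lit 68) (nat_lit 5) (nat_lit 392) (nat_lit 363) (nat_lit 265)) (XT.lf (nat_lit 0) (nat_lit 6775623070) (nat_lit 304) (nat_lit 19202995103) (nat_lit 76) (nat_lit 2740155882) (nat_lit 64) (nat_lit 5) (nat_lit 68) (nat_lit 5) (nat_lit 65) (nat_lit 5) (nat_lit 393) (nat_lit 363) (nat_lit 264)))))) (XT.nd (nat_lit 468) (nat_lit 684) (nat_lit 0) (XT.nd (nat_lit 234) (nat_lit 304) (nat_lit 0) (XT.nd (nat_lit 78) (nat_lit 380) (nat_lit 0) (XT.lf (nat_lit 0) (nat_lit 12612928993) (nat_lit 304) (nat_lit 3380748537) (nat_lit 76)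 (nat_lit 13613041480) (nat_lit 64) (nat_lit 5) (nat_lit 68) (nat_lit 5) (nat_lit 65) (nat_lit 5) (nat_lit 394) (nat_lit 363) (nat_lit 263)) (XT.nd (nat_lit 78) (nat_lit 152) (nat_lit 0) (XT.lf (nat_lit 0) (nat_lit 13657753565) (nat_lit 228) (nat_lit 5289368112) (nat_lit 304) (nat_lit 11581692144) (nat_lit 61) (nat_lit 5) (nat_lit 64) (nat_lit 5) (nat_lit 65) (nat_lit 5) (nat_lit 395) (nat_lit 363) (nat_lit 262)) (XT.lf (nat_lit 0) (nat_lit 67586533) (nat_lit 152) (nat_lit 25674517982) (nat_lit 228) (nat_lit 5747708338) (nat_lit 59) (nat_lit 5) (nat_lit 61) (nat_lit 5) (nat_lit 62) (nat_lit 5) (nat_lit 396) (nat_lit 363) (nat_lit 261)))) (XT.nd (nat_lit 78) (nat_lit 228) (nat_lit 0) (XT.lf (nat_lit 0) (nat_lit 734990412) (nat_lit 228) (nat_lit 14155194624) (nat_lit 76) (nat_lit 17589929252) (nat_lit 58) (nat_lit 5) (nat_lit 61) (nat_lit 5) (nat_lit 59) (nat_lit 5) (nat_lit 397) (nat_lit 363)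 (nat_lit 260)) (XT.nd (nat_lit 78) (nat_lit 0) (nat_lit 0) (XT.lf (nat_lit 0) (nat_lit 3997269691) (nat_lit 228) (nat_lit 3406182161) (nat_lit 304) (nat_lit 26109031312) (nat_lit 55) (nat_lit 5) (nat_lit 58) (nat_lit 5) (nat_lit 59) (nat_lit 5) (nat_lit 398) (nat_lit 363) (nat_lit 259)) (XT.lf (nat_lit 0) (nat_lit 14776575115) (nat_lit 304) (nat_lit 11186459150) (nat_lit 76) (nat_lit 8614877167) (nat_lit 55) (nat_lit 5) (nat_lit 59) (nat_lit 5) (nat_lit 56) (nat_lit 5) (nat_lit 399) (nat_lit 363) (nat_lit 258))))) (XT.nd (nat_lit 234) (nat_lit 304) (nat_lit 0) (XT.nd (nat_lit 78) (nat_lit 228) (nat_lit 0) (XT.lf (nat_lit 0) (nat_lit 8255938946) (nat_lit 152) (nat_lit 14440011530) (nat_lit 228) (nat_lit 12991783585) (nat_lit 53) (nat_lit 5) (nat_lit 55) (nat_lit 5) (nat_lit 56) (nat_lit 5) (nat_lit 400) (nat_lit 363) (nat_lit 257)) (XT.nd (nat_lit 78) (nat_lit 228) (nat_lit 0) (XT.lf (nat_lit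 0) (nat_lit 29047809641) (nat_lit 152) (nat_lit 2145959686) (nat_lit 228) (nat_lit 5650157376) (nat_lit 53) (nat_lit 5) (nat_lit 55) (nat_lit 5) (nat_lit 56) (nat_lit 5) (nat_lit 401) (nat_lit 363) (nat_lit 256)) (XT.lf (nat_lit 0) (nat_lit 2363896870) (nat_lit 228) (nat_lit 25017235202) (nat_lit 76) (nat_lit 10656630631) (nat_lit 50) (nat_lit 5) (nat_lit 53) (nat_lit 5) (nat_lit 51) (nat_lit 5) (nat_lit 402) (nat_lit 363) (nat_lit 255)))) (XT.nd (nat_lit 156) (nat_lit 152) (nat_lit 0) (XT.nd (nat_lit 78) (nat_lit 152) (nat_lit 0) (XT.lf (nat_lit 0) (nat_lit 10751489299) (nat_lit 228) (nat_lit 4276805246) (nat_lit 76) (nat_lit 24250231051) (nat_lit 50) (nat_lit 5) (nat_lit 53) (nat_lit 5) (nat_lit 51) (nat_lit 5) (nat_lit 403) (nat_lit 363) (nat_lit 254)) (XT.lf (nat_lit 0) (nat_lit 18068656505) (nat_lit 152) (nat_lit 1765566908) (nat_lit 228) (nat_lit 20733317270) (nat_lit 48) (nat_lit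 5) (nat_lit 50) (nat_lit 5) (nat_lit 51) (nat_lit 5) (nat_lit 404) (nat_lit 363) (nat_lit 253))) (XT.nd (nat_lit 78) (nat_lit 152) (nat_lit 0) (XT.lf (nat_lit 0) (nat_lit 29628309632) (nat_lit 228) (nat_lit 438940204) (nat_lit 76) (nat_lit 11840897968) (nat_lit 48) (nat_lit 5) (nat_lit 51) (nat_lit 5) (nat_lit 49) (nat_lit 5) (nat_lit 405) (nat_lit 363) (nat_lit 252)) (XT.lf (nat_lit 0) (nat_lit 23435241973) (nat_lit 152) (nat_lit 16865731656) (nat_lit 228) (nat_lit 2995369930) (nat_lit 46) (nat_lit 5) (nat_lit 48) (nat_lit 5) (nat_lit 49) (nat_lit 5) (nat_lit 406) (nat_lit 363) (nat_lit 251))))))) (XT.nd (nat_lit 1014) (nat_lit 760) (nat_lit 0) (XT.nd (nat_lit 468) (nat_lit 532) (nat_lit 0) (XT.nd (nat_lit 234) (nat_lit 152) (nat_lit 0) (XT.nd (nat_lit 78) (nat_lit 152) (nat_lit 0) (XT.lf (nat_lit 0) (nat_lit 3769969724) (nat_lit 152) (nat_lit 2827693352) (nat_lit 228) (nat_lit 38147991392)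 (nat_lit 43) (nat_lit 5) (nat_lit 45) (nat_lit 5) (nat_lit 46) (nat_lit 5) (nat_lit 407) (nat_lit 363) (nat_lit 250)) (XT.nd (nat_lit 78) (nat_lit 152) (nat_lit 0) (XT.lf (nat_lit 0) (nat_lit 17091680805) (nat_lit 228) (nat_lit 17229084802) (nat_lit 76) (nat_lit 11918111922) (nat_lit 43) (nat_lit 5) (nat_lit 46) (nat_lit 5) (nat_lit 44) (nat_lit 5) (nat_lit 408) (nat_lit 363) (nat_lit 249)) (XT.lf (nat_lit 0) (nat_lit 7901878088) (nat_lit 152) (nat_lit 20372668532) (nat_lit 228) (nat_lit 19524009371) (nat_lit 41) (nat_lit 5) (nat_lit 43) (nat_lit 5) (nat_lit 44) (nat_lit 5) (nat_lit 409) (nat_lit 363) (nat_lit 248)))) (XT.nd (nat_lit 78) (nat_lit 152) (nat_lit 0) (XT.lf (nat_lit 0) (nat_lit 34878176739) (nat_lit 152) (nat_lit 5424702395) (nat_lit 228) (nat_lit 9119024600) (nat_lit 41) (nat_lit 5) (nat_lit 43) (nat_lit 5) (nat_lit 44) (nat_lit 5) (nat_lit 410) (nat_lit 363) (nat_lit 247))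 (XT.nd (nat_lit 78) (nat_lit 0) (nat_lit 0) (XT.lf (nat_lit 0) (nat_lit 2101239950) (nat_lit 152) (nat_lit 38841848479) (nat_lit 76) (nat_lit 10164279797) (nat_lit 39) (nat_lit 5) (nat_lit 41) (nat_lit 5) (nat_lit 40) (nat_lit 5) (nat_lit 411) (nat_lit 363) (nat_lit 246)) (XT.lf (nat_lit 0) (nat_lit 13910097956) (nat_lit 152) (nat_lit 12196247794) (nat_lit 76) (nat_lit 26746584941) (nat_lit 39) (nat_lit 5) (nat_lit 41) (nat_lit 5) (nat_lit 40) (nat_lit 5) (nat_lit 412) (nat_lit 363) (nat_lit 245))))) (XT.nd (nat_lit 234) (nat_lit 304) (nat_lit 0) (XT.nd (nat_lit 78) (nat_lit 76) (nat_lit 0) (XT.lf (nat_lit 0) (nat_lit 16294440842) (nat_lit 152) (nat_lit 10264375967) (nat_lit 228) (nat_lit 28114484831) (nat_lit 37) (nat_lit 5) (nat_lit 39) (nat_lit 5) (nat_lit 40) (nat_lit 5) (nat_lit 413) (nat_lit 363) (nat_lit 244)) (XT.nd (nat_lit 78) (nat_lit 76) (nat_lit 0) (XT.lf (nat_lit 0) (nat_lit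 40144417582) (nat_lit 228) (nat_lit 10052871287) (nat_lit 76) (nat_lit 6372181167) (nat_lit 37) (nat_lit 5) (nat_lit 40) (nat_lit 5) (nat_lit 38) (nat_lit 4) (nat_lit 414) (nat_lit 363) (nat_lit 243)) (XT.lf (nat_lit 0) (nat_lit 20157985025) (nat_lit 76) (nat_lit 34729601434) (nat_lit 152) (nat_lit 3648947130) (nat_lit 36) (nat_lit 5) (nat_lit 37) (nat_lit 5) (nat_lit 38) (nat_lit 4) (nat_lit 415) (nat_lit 363) (nat_lit 242)))) (XT.nd (nat_lit 156) (nat_lit 76) (nat_lit 0) (XT.nd (nat_lit 78) (nat_lit 152) (nat_lit 0) (XT.lf (nat_lit 0) (nat_lit 9621749010) (nat_lit 152) (nat_lit 8528672635) (nat_lit 76) (nat_lit 42435488140) (nat_lit 35) (nat_lit 5) (nat_lit 37) (nat_lit 5) (nat_lit 36) (nat_lit 5) (nat_lit 416) (nat_lit 363) (nat_lit 241)) (XT.lf (nat_lit 0) (nat_lit 23497992286) (nat_lit 152) (nat_lit 297767817) (nat_lit 228) (nat_lit 38920884298) (nat_lit 33) (nat_lit 5) (nat_lit 35)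 (nat_lit 5) (nat_lit 36) (nat_lit 5) (nat_lit 417) (nat_lit 363) (nat_lit 240))) (XT.nd (nat_lit 78) (nat_lit 76) (nat_lit 0) (XT.lf (nat_lit 0) (nat_lit 39108869276) (nat_lit 228) (nat_lit 7822997757) (nat_lit 76) (nat_lit 18000529777) (nat_lit 33) (nat_lit 5) (nat_lit 36) (nat_lit 5) (nat_lit 34) (nat_lit 4) (nat_lit 418) (nat_lit 363) (nat_lit 239)) (XT.lf (nat_lit 0) (nat_lit 25960842894) (nat_lit 76) (nat_lit 29632779716) (nat_lit 152) (nat_lit 11645015690) (nat_lit 32) (nat_lit 5) (nat_lit 33) (nat_lit 5) (nat_lit 34) (nat_lit 4) (nat_lit 419) (nat_lit 363) (nat_lit 238)))))) (XT.nd (nat_lit 468) (nat_lit 304) (nat_lit 0) (XT.nd (nat_lit 234) (nat_lit 228) (nat_lit 0) (XT.nd (nat_lit 78) (nat_lit 152) (nat_lit 0) (XT.lf (nat_lit 0) (nat_lit 3269102933) (nat_lit 152) (nat_lit 8008531125) (nat_lit 76) (nat_lit 58373504505) (nat_lit 31) (nat_lit 5) (nat_lit 33) (nat_lit 5) (nat_lit 32)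 (nat_lit 5) (nat_lit 420) (nat_lit 363) (nat_lit 237)) (XT.nd (nat_lit 78) (nat_lit 0) (nat_lit 0) (XT.lf (nat_lit 0) (nat_lit 19099617692) (nat_lit 228) (nat_lit 44678639412) (nat_lit 76) (nat_lit 8368360458) (nat_lit 29) (nat_lit 5) (nat_lit 32) (nat_lit 5) (nat_lit 30) (nat_lit 4) (nat_lit 421) (nat_lit 363) (nat_lit 236)) (XT.lf (nat_lit 0) (nat_lit 36040418029) (nat_lit 228) (nat_lit 9958146504) (nat_lit 76) (nat_lit 28752368722) (nat_lit 29) (nat_lit 5) (nat_lit 32) (nat_lit 5) (nat_lit 30) (nat_lit 4) (nat_lit 422) (nat_lit 363) (nat_lit 235)))) (XT.nd (nat_lit 78) (nat_lit 152) (nat_lit 0) (XT.lf (nat_lit 0) (nat_lit 27367338947) (nat_lit 76) (nat_lit 26884418226) (nat_lit 152) (nat_lit 23212533322) (nat_lit 28) (nat_lit 5) (nat_lit 29) (nat_lit 5) (nat_lit 30) (nat_lit 4) (nat_lit 423) (nat_lit 363) (nat_lit 234)) (XT.nd (nat_lit 78) (nat_lit 152) (nat_lit 0) (XT.lf (nat_lit 0)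 (nat_lit 66897977394) (nat_lit 76) (nat_lit 6640623060) (nat_lit 152) (nat_lit 6766468950) (nat_lit 28) (nat_lit 5) (nat_lit 29) (nat_lit 5) (nat_lit 30) (nat_lit 4) (nat_lit 424) (nat_lit 363) (nat_lit 233)) (XT.lf (nat_lit 0) (nat_lit 10801970239) (nat_lit 152) (nat_lit 57725667579) (nat_lit 76) (nat_lit 14720241945) (nat_lit 26) (nat_lit 5) (nat_lit 28) (nat_lit 5) (nat_lit 27) (nat_lit 4) (nat_lit 425) (nat_lit 363) (nat_lit 232))))) (XT.nd (nat_lit 234) (nat_lit 228) (nat_lit 0) (XT.nd (nat_lit 78) (nat_lit 76) (nat_lit 0) (XT.lf (nat_lit 0) (nat_lit 29357505401) (nat_lit 152) (nat_lit 19693204500) (nat_lit 76) (nat_lit 37264771444) (nat_lit 26) (nat_lit 5) (nat_lit 28) (nat_lit 5) (nat_lit 27) (nat_lit 4) (nat_lit 426) (nat_lit 363) (nat_lit 231)) (XT.nd (nat_lit 78) (nat_lit 0) (nat_lit 0) (XT.lf (nat_lit 0) (nat_lit 20903582564) (nat_lit 76) (nat_lit 28260199454) (nat_lit 152) (nat_lit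 40356533301) (nat_lit 25) (nat_lit 5) (nat_lit 26) (nat_lit 5) (nat_lit 27) (nat_lit 4) (nat_lit 427) (nat_lit 363) (nat_lit 230)) (XT.lf (nat_lit 0) (nat_lit 64207670547) (nat_lit 76) (nat_lit 6082881452) (nat_lit 152) (nat_lit 22578330539) (nat_lit 25) (nat_lit 5) (nat_lit 26) (nat_lit 5) (nat_lit 27) (nat_lit 4) (nat_lit 428) (nat_lit 363) (nat_lit 229)))) (XT.nd (nat_lit 156) (nat_lit 76) (nat_lit 0) (XT.nd (nat_lit 78) (nat_lit 76) (nat_lit 0) (XT.lf (nat_lit 0) (nat_lit 13447847310) (nat_lit 76) (nat_lit 79501144648) (nat_lit 76) (nat_lit 3412120084) (nat_lit 24) (nat_lit 4) (nat_lit 25) (nat_lit 5) (nat_lit 25) (nat_lit 4) (nat_lit 429) (nat_lit 363) (nat_lit 228)) (XT.lf (nat_lit 0) (nat_lit 16767356864) (nat_lit 152) (nat_lit 41720945025) (nat_lit 76) (nat_lit 41497112355) (nat_lit 23) (nat_lit 5) (nat_lit 25) (nat_lit 5) (nat_lit 24) (nat_lit 4) (nat_lit 430) (nat_lit 363) (nat_lit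 227))) (XT.nd (nat_lit 78) (nat_lit 0) (nat_lit 0) (XT.lf (nat_lit 0) (nat_lit 1517854429) (nat_lit 76) (nat_lit 36343923554) (nat_lit 152) (nat_lit 65925325187) (nat_lit 22) (nat_lit 5) (nat_lit 23) (nat_lit 5) (nat_lit 24) (nat_lit 4) (nat_lit 431) (nat_lit 363) (nat_lit 226)) (XT.lf (nat_lit 0) (nat_lit 48361363433) (nat_lit 76) (nat_lit 12353119913) (nat_lit 152) (nat_lit 47029215446) (nat_lit 22) (nat_lit 5) (nat_lit 23) (nat_lit 5) (nat_lit 24) (nat_lit 4) (nat_lit 432) (nat_lit 363) (nat_lit 225))))))))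
noncomputable def xc155 : XT := (XT.nd (nat_lit 1950) (nat_lit 456) (nat_lit 0) (XT.nd (nat_lit 936) (nat_lit 380) (nat_lit 0) (XT.nd (nat_lit 468) (nat_lit 304) (nat_lit 0) (XT.nd (nat_lit 234) (nat_lit 76) (nat_lit 0) (XT.nd (nat_lit 78) (nat_lit 152) (nat_lit 0) (XT.lf (nat_lit 0) (nat_lit 84907350787) (nat_lit 152) (nat_lit 14557021311) (nat_lit 0) (nat_lit 12423876147) (nat_lit 22) (nat_lit 5) (nat_lit 24) (nat_lit 4) (nat_lit 22) (nat_lit 4) (nat_lit 433) (nat_lit 363) (nat_lit 224)) (XT.nd (nat_lit 78) (nat_lit 76) (nat_lit 0) (XT.lf (nat_lit 0) (nat_lit 33369834268) (nat_lit 76) (nat_lit 77660773904) (nat_lit 76) (nat_lit 5173380041) (nat_lit 21) (nat_lit 4) (nat_lit 22) (nat_lit 5) (nat_lit 22) (nat_lit 4) (nat_lit 434) (nat_lit 363) (nat_lit 223)) (XT.lf (nat_lit 0) (nat_lit 17405035510) (nat_lit 152) (nat_lit 36810803658) (nat_lit 76) (nat_lit 66493449013) (nat_lit 20) (nat_lit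 5) (nat_lit 22) (nat_lit 5) (nat_lit 21) (nat_lit 4) (nat_lit 435) (nat_lit 363) (nat_lit 222)))) (XT.nd (nat_lit 78) (nat_lit 0) (nat_lit 0) (XT.lf (nat_lit 0) (nat_lit 11801617015) (nat_lit 76) (nat_lit 29318528507) (nat_lit 152) (nat_lit 84306385814) (nat_lit 19) (nat_lit 5) (nat_lit 20) (nat_lit 5) (nat_lit 21) (nat_lit 4) (nat_lit 436) (nat_lit 363) (nat_lit 221)) (XT.nd (nat_lit 78) (nat_lit 0) (nat_lit 0) (XT.lf (nat_lit 0) (nat_lit 64117714495) (nat_lit 76) (nat_lit 2524130077) (nat_lit 152) (nat_lit 63706750704) (nat_lit 19) (nat_lit 5) (nat_lit 20) (nat_lit 5) (nat_lit 21) (nat_lit 4) (nat_lit 437) (nat_lit 363) (nat_lit 220)) (XT.lf (nat_lit 0) (nat_lit 93836984613) (nat_lit 152) (nat_lit 16871774471) (nat_lit 0) (nat_lit 24788135819) (nat_lit 19) (nat_lit 5) (nat_lit 21) (nat_lit 4) (nat_lit 19) (nat_lit 4) (nat_lit 438) (nat_lit 363) (nat_lit 219))))) (XT.nd (nat_lit 234) (nat_lit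 152) (nat_lit 0) (XT.nd (nat_lit 78) (nat_lit 76) (nat_lit 0) (XT.lf (nat_lit 0) (nat_lit 36063611408) (nat_lit 76) (nat_lit 86930334279) (nat_lit 76) (nat_lit 17878560900) (nat_lit 18) (nat_lit 4) (nat_lit 19) (nat_lit 5) (nat_lit 19) (nat_lit 4) (nat_lit 439) (nat_lit 363) (nat_lit 218)) (XT.nd (nat_lit 78) (nat_lit 0) (nat_lit 0) (XT.lf (nat_lit 0) (nat_lit 7152923298) (nat_lit 152) (nat_lit 54391065935) (nat_lit 76) (nat_lit 84952971135) (nat_lit 17) (nat_lit 5) (nat_lit 19) (nat_lit 5) (nat_lit 18) (nat_lit 4) (nat_lit 440) (nat_lit 363) (nat_lit 217)) (XT.lf (nat_lit 0) (nat_lit 32832892661) (nat_lit 152) (nat_lit 1749781425) (nat_lit 76) (nat_lit 117805421042) (nat_lit 17) (nat_lit 5) (nat_lit 19) (nat_lit 5) (nat_lit 18) (nat_lit 4) (nat_lit 441) (nat_lit 363) (nat_lit 216)))) (XT.nd (nat_lit 78) (nat_lit 76) (nat_lit 0) (XT.lf (nat_lit 0) (nat_lit 55289023210) (nat_lit 76) (nat_lit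 5368908964) (nat_lit 152) (nat_lit 97872801096) (nat_lit 16) (nat_lit 5) (nat_lit 17) (nat_lit 5) (nat_lit 18) (nat_lit 4) (nat_lit 442) (nat_lit 363) (nat_lit 215)) (XT.nd (nat_lit 78) (nat_lit 76) (nat_lit 0) (XT.lf (nat_lit 0) (nat_lit 90297296296) (nat_lit 152) (nat_lit 50138227609) (nat_lit 0) (nat_lit 24523825999) (nat_lit 16) (nat_lit 5) (nat_lit 18) (nat_lit 4) (nat_lit 16) (nat_lit 4) (nat_lit 443) (nat_lit 363) (nat_lit 214)) (XT.lf (nat_lit 0) (nat_lit 5711261292) (nat_lit 76) (nat_lit 115882515765) (nat_lit 76) (nat_lit 50106863099) (nat_lit 15) (nat_lit 4) (nat_lit 16) (nat_lit 5) (nat_lit 16) (nat_lit 4) (nat_lit 444) (nat_lit 363) (nat_lit 213)))))) (XT.nd (nat_lit 468) (nat_lit 228) (nat_lit 0) (XT.nd (nat_lit 234) (nat_lit 0) (nat_lit 0) (XT.nd (nat_lit 78) (nat_lit 152) (nat_lit 0) (XT.lf (nat_lit 0) (nat_lit 66090025578) (nat_lit 76) (nat_lit 89212172423) (nat_lit 76)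 (nat_lit 23434441309) (nat_lit 15) (nat_lit 4) (nat_lit 16) (nat_lit 5) (nat_lit 16) (nat_lit 4) (nat_lit 445) (nat_lit 363) (nat_lit 212)) (XT.nd (nat_lit 78) (nat_lit 76) (nat_lit 0) (XT.lf (nat_lit 0) (nat_lit 4423346567) (nat_lit 152) (nat_lit 56711850124) (nat_lit 76) (nat_lit 124985769894) (nat_lit 14) (nat_lit 5) (nat_lit 16) (nat_lit 5) (nat_lit 15) (nat_lit 4) (nat_lit 446) (nat_lit 363) (nat_lit 211)) (XT.lf (nat_lit 0) (nat_lit 1685853311) (nat_lit 76) (nat_lit 31225097475) (nat_lit 152) (nat_lit 160943127157) (nat_lit 13) (nat_lit 5) (nat_lit 14) (nat_lit 5) (nat_lit 15) (nat_lit 4) (nat_lit 447) (nat_lit 363) (nat_lit 210)))) (XT.nd (nat_lit 78) (nat_lit 0) (nat_lit 0) (XT.lf (nat_lit 0) (nat_lit 63800103857) (nat_lit 152) (nat_lit 136975627688) (nat_lit 0) (nat_lit 1149255054) (nat_lit 13) (nat_lit 5) (nat_lit 15) (nat_lit 4) (nat_lit 13) (nat_lit 4) (nat_lit 448) (nat_lit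 363) (nat_lit 209)) (XT.nd (nat_lit 78) (nat_lit 0) (nat_lit 0) (XT.lf (nat_lit 0) (nat_lit 96743851749) (nat_lit 152) (nat_lit 79538707806) (nat_lit 0) (nat_lit 34091374428) (nat_lit 13) (nat_lit 5) (nat_lit 15) (nat_lit 4) (nat_lit 13) (nat_lit 4) (nat_lit 449) (nat_lit 363) (nat_lit 208)) (XT.lf (nat_lit 0) (nat_lit 131333120678) (nat_lit 152) (nat_lit 19233199137) (nat_lit 0) (nat_lit 68679092388) (nat_lit 13) (nat_lit 5) (nat_lit 15) (nat_lit 4) (nat_lit 13) (nat_lit 4) (nat_lit 450) (nat_lit 363) (nat_lit 207))))) (XT.nd (nat_lit 234) (nat_lit 76) (nat_lit 0) (XT.nd (nat_lit 78) (nat_lit 76) (nat_lit 0) (XT.lf (nat_lit 0) (nat_lit 45542114958) (nat_lit 76) (nat_lit 122819191134) (nat_lit 76) (nat_lit 60163685729) (nat_lit 12) (nat_lit 4) (nat_lit 13) (nat_lit 5) (nat_lit 13) (nat_lit 4) (nat_lit 451) (nat_lit 363) (nat_lit 206)) (XT.nd (nat_lit 78) (nat_lit 76) (nat_lit 0) (XT.lf (nat_lit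 0) (nat_lit 114220875936) (nat_lit 76) (nat_lit 93344189288) (nat_lit 76) (nat_lit 30687277108) (nat_lit 12) (nat_lit 4) (nat_lit 13) (nat_lit 5) (nat_lit 13) (nat_lit 4) (nat_lit 452) (nat_lit 363) (nat_lit 205)) (XT.lf (nat_lit 0) (nat_lit 253026530) (nat_lit 152) (nat_lit 62139547578) (nat_lit 76) (nat_lit 186073356575) (nat_lit 11) (nat_lit 5) (nat_lit 13) (nat_lit 5) (nat_lit 12) (nat_lit 4) (nat_lit 453) (nat_lit 363) (nat_lit 204)))) (XT.nd (nat_lit 156) (nat_lit 0) (nat_lit 0) (XT.nd (nat_lit 78) (nat_lit 0) (nat_lit 0) (XT.lf (nat_lit 0) (nat_lit 2418487819) (nat_lit 76) (nat_lit 29326885727) (nat_lit 152) (nat_lit 227417855418) (nat_lit 10) (nat_lit 5) (nat_lit 11) (nat_lit 5) (nat_lit 12) (nat_lit 4) (nat_lit 454) (nat_lit 363) (nat_lit 203)) (XT.lf (nat_lit 0) (nat_lit 65964705218) (nat_lit 152) (nat_lit 198085261733) (nat_lit 0) (nat_lit 6287806953) (nat_lit 10) (nat_lit 5)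 (nat_lit 12) (nat_lit 4) (nat_lit 10) (nat_lit 4) (nat_lit 455) (nat_lit 363) (nat_lit 202))) (XT.nd (nat_lit 78) (nat_lit 0) (nat_lit 0) (XT.lf (nat_lit 0) (nat_lit 102374406899) (nat_lit 152) (nat_lit 136976262736) (nat_lit 0) (nat_lit 42696406389) (nat_lit 10) (nat_lit 5) (nat_lit 12) (nat_lit 4) (nat_lit 10) (nat_lit 4) (nat_lit 456) (nat_lit 363) (nat_lit 201)) (XT.lf (nat_lit 0) (nat_lit 140603293483) (nat_lit 152) (nat_lit 72814371661) (nat_lit 0) (nat_lit 80924243215) (nat_lit 10) (nat_lit 5) (nat_lit 12) (nat_lit 4) (nat_lit 10) (nat_lit 4) (nat_lit 457) (nat_lit 363) (nat_lit 200))))))) (XT.nd (nat_lit 1014) (nat_lit 152) (nat_lit 0) (XT.nd (nat_lit 468) (nat_lit 76) (nat_lit 0) (XT.nd (nat_lit 234) (nat_lit 152) (nat_lit 0) (XT.nd (nat_lit 78) (nat_lit 76) (nat_lit 0) (XT.lf (nat_lit 0) (nat_lit 180742386126) (nat_lit 152) (nat_lit 5446822103) (nat_lit 0) (nat_lit 121062336090)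 (nat_lit 10) (nat_lit 5) (nat_lit 12) (nat_lit 4) (nat_lit 10) (nat_lit 4) (nat_lit 458) (nat_lit 363) (nat_lit 199)) (XT.nd (nat_lit 78) (nat_lit 0) (nat_lit 0) (XT.lf (nat_lit 0) (nat_lit 67445460819) (nat_lit 76) (nat_lit 156494805939) (nat_lit 76) (nat_lit 96813803742) (nat_lit 9) (nat_lit 4) (nat_lit 10) (nat_lit 5) (nat_lit 10) (nat_lit 4) (nat_lit 459) (nat_lit 363) (nat_lit 198)) (XT.lf (nat_lit 0) (nat_lit 144169176605) (nat_lit 76) (nat_lit 125219950599) (nat_lit 76) (nat_lit 65538041582) (nat_lit 9) (nat_lit 4) (nat_lit 10) (nat_lit 5) (nat_lit 10) (nat_lit 4) (nat_lit 460) (nat_lit 363) (nat_lit 197)))) (XT.nd (nat_lit 78) (nat_lit 152) (nat_lit 0) (XT.lf (nat_lit 0) (nat_lit 224726904233) (nat_lit 76) (nat_lit 92382422835) (nat_lit 76) (nat_lit 32699650180) (nat_lit 9) (nat_lit 4) (nat_lit 10) (nat_lit 5) (nat_lit 10) (nat_lit 4) (nat_lit 461) (nat_lit 363) (nat_lit 196)) (XT.nd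 (nat_lit 78) (nat_lit 76) (nat_lit 0) (XT.lf (nat_lit 0) (nat_lit 1722600167) (nat_lit 152) (nat_lit 56152264824) (nat_lit 76) (nat_lit 307558674581) (nat_lit 8) (nat_lit 5) (nat_lit 10) (nat_lit 5) (nat_lit 9) (nat_lit 4) (nat_lit 462) (nat_lit 363) (nat_lit 195)) (XT.lf (nat_lit 0) (nat_lit 16204617345) (nat_lit 76) (nat_lit 20814405024) (nat_lit 152) (nat_lit 344780905620) (nat_lit 7) (nat_lit 5) (nat_lit 8) (nat_lit 5) (nat_lit 9) (nat_lit 4) (nat_lit 463) (nat_lit 363) (nat_lit 194))))) (XT.nd (nat_lit 234) (nat_lit 76) (nat_lit 0) (XT.nd (nat_lit 78) (nat_lit 0) (nat_lit 0) (XT.lf (nat_lit 0) (nat_lit 75328383352) (nat_lit 152) (nat_lit 305108439072) (nat_lit 0) (nat_lit 18485407586) (nat_lit 7) (nat_lit 5) (nat_lit 9) (nat_lit 4) (nat_lit 7) (nat_lit 4) (nat_lit 464) (nat_lit 363) (nat_lit 193)) (XT.nd (nat_lit 78) (nat_lit 0) (nat_lit 0) (XT.lf (nat_lit 0) (nat_lit 115893465439)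 (nat_lit 152) (nat_lit 241940356117) (nat_lit 0) (nat_lit 59049812989) (nat_lit 7) (nat_lit 5) (nat_lit 9) (nat_lit 4) (nat_lit 7) (nat_lit 4) (nat_lit 465) (nat_lit 363) (nat_lit 192)) (XT.lf (nat_lit 0) (nat_lit 158485880961) (nat_lit 152) (nat_lit 175615690387) (nat_lit 0) (nat_lit 101641584052) (nat_lit 7) (nat_lit 5) (nat_lit 9) (nat_lit 4) (nat_lit 7) (nat_lit 4) (nat_lit 466) (nat_lit 363) (nat_lit 191)))) (XT.nd (nat_lit 156) (nat_lit 76) (nat_lit 0) (XT.nd (nat_lit 78) (nat_lit 0) (nat_lit 0) (XT.lf (nat_lit 0) (nat_lit 203207040434) (nat_lit 152) (nat_lit 105976526011) (nat_lit 0) (nat_lit 146362129753) (nat_lit 7) (nat_lit 5) (nat_lit 9) (nat_lit 4) (nat_lit 7) (nat_lit 4) (nat_lit 467) (nat_lit 363) (nat_lit 190)) (XT.lf (nat_lit 0) (nat_lit 250163422808) (nat_lit 152) (nat_lit 32857055455) (nat_lit 0) (nat_lit 193317927583) (nat_lit 7) (nat_lit 5) (nat_lit 9) (nat_lit 4) (nat_lit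 7) (nat_lit 4) (nat_lit 468) (nat_lit 363) (nat_lit 189))) (XT.nd (nat_lit 78) (nat_lit 0) (nat_lit 0) (XT.lf (nat_lit 0) (nat_lit 45368903505) (nat_lit 76) (nat_lit 254806261217) (nat_lit 76) (nat_lit 197960209284) (nat_lit 6) (nat_lit 4) (nat_lit 7) (nat_lit 5) (nat_lit 7) (nat_lit 4) (nat_lit 469) (nat_lit 363) (nat_lit 188)) (XT.lf (nat_lit 0) (nat_lit 128645335192) (nat_lit 76) (nat_lit 224597827070) (nat_lit 76) (nat_lit 167751244937) (nat_lit 6) (nat_lit 4) (nat_lit 7) (nat_lit 5) (nat_lit 7) (nat_lit 4) (nat_lit 470) (nat_lit 363) (nat_lit 187)))))) (XT.nd (nat_lit 44772) (nat_lit 0) (nat_lit 8208) (XT.nd (nat_lit 234) (nat_lit 152) (nat_lit 0) (XT.nd (nat_lit 78) (nat_lit 0) (nat_lit 0) (XT.lf (nat_lit 0) (nat_lit 216084114184) (nat_lit 76) (nat_lit 192879701109) (nat_lit 76) (nat_lit 136032614025) (nat_lit 6) (nat_lit 4) (nat_lit 7) (nat_lit 5) (nat_lit 7) (nat_lit 4) (nat_lit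 471) (nat_lit 363) (nat_lit 186)) (XT.nd (nat_lit 78) (nat_lit 0) (nat_lit 0) (XT.lf (nat_lit 0) (nat_lit 307893428050) (nat_lit 76) (nat_lit 159576363988) (nat_lit 76) (nat_lit 102728795998) (nat_lit 6) (nat_lit 4) (nat_lit 7) (nat_lit 5) (nat_lit 7) (nat_lit 4) (nat_lit 472) (nat_lit 363) (nat_lit 185)) (XT.lf (nat_lit 0) (nat_lit 404291870395) (nat_lit 76) (nat_lit 124608522046) (nat_lit 76) (nat_lit 67760496051) (nat_lit 6) (nat_lit 4) (nat_lit 7) (nat_lit 5) (nat_lit 7) (nat_lit 4) (nat_lit 473) (nat_lit 363) (nat_lit 184)))) (XT.nd (nat_lit 78) (nat_lit 152) (nat_lit 0) (XT.lf (nat_lit 0) (nat_lit 505508961320) (nat_lit 76) (nat_lit 87892918518) (nat_lit 76) (nat_lit 31044456327) (nat_lit 6) (nat_lit 4) (nat_lit 7) (nat_lit 5) (nat_lit 7) (nat_lit 4) (nat_lit 474) (nat_lit 363) (nat_lit 183)) (XT.nd (nat_lit 78) (nat_lit 76) (nat_lit 0) (XT.lf (nat_lit 0) (nat_lit 7266479681) (nat_lit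 152) (nat_lit 41952594268) (nat_lit 76) (nat_lit 604396152866) (nat_lit 5) (nat_lit 5) (nat_lit 7) (nat_lit 5) (nat_lit 6) (nat_lit 4) (nat_lit 475) (nat_lit 363) (nat_lit 182)) (XT.lf (nat_lit 0) (nat_lit 39640054345) (nat_lit 76) (nat_lit 7427910339) (nat_lit 152) (nat_lit 637118236100) (nat_lit 4) (nat_lit 5) (nat_lit 5) (nat_lit 5) (nat_lit 6) (nat_lit 4) (nat_lit 476) (nat_lit 363) (nat_lit 181))))) (XT.nd (nat_lit 234) (nat_lit 684) (nat_lit 0) (XT.nd (nat_lit 78) (nat_lit 0) (nat_lit 0) (XT.lf (nat_lit 0) (nat_lit 2797575134) (nat_lit 0) (nat_lit 2797575134) (nat_lit 684) (nat_lit 1095226190) (nat_lit 121) (nat_lit 5) (nat_lit 121) (nat_lit 3) (nat_lit 130) (nat_lit 3) (nat_lit 364) (nat_lit 364) (nat_lit 292)) (XT.nd (nat_lit 78) (nat_lit 0) (nat_lit 0) (XT.lf (nat_lit 0) (nat_lit 11841712061) (nat_lit 684) (nat_lit 1337973351) (nat_lit 760) (nat_lit 516729630) (nat_lit 121) (nat_lit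 5) (nat_lit 130) (nat_lit 3) (nat_lit 131) (nat_lit 5) (nat_lit 365) (nat_lit 364) (nat_lit 291)) (XT.lf (nat_lit 76) (nat_lit 5503468559) (nat_lit 0) (nat_lit 7176798504) (nat_lit 760) (nat_lit 1339882106) (nat_lit 122) (nat_lit 5) (nat_lit 121) (nat_lit 5) (nat_lit 131) (nat_lit 5) (nat_lit 366) (nat_lit 364) (nat_lit 290)))) (XT.nd (nat_lit 156) (nat_lit 684) (nat_lit 0) (XT.nd (nat_lit 78) (nat_lit 0) (nat_lit 76) (XT.lf (nat_lit 76) (nat_lit 12720653061) (nat_lit 0) (nat_lit 840579822) (nat_lit 760) (nat_lit 798829670) (nat_lit 122) (nat_lit 5) (nat_lit 121) (nat_lit 5) (nat_lit 131) (nat_lit 5) (nat_lit 367) (nat_lit 364) (nat_lit 289)) (XT.lf (nat_lit 76) (nat_lit 5658706580) (nat_lit 0) (nat_lit 8985656863) (nat_lit 760) (nat_lit 64718250) (nat_lit 123) (nat_lit 5) (nat_lit 122) (nat_lit 5) (nat_lit 132) (nat_lit 5) (nat_lit 368) (nat_lit 364) (nat_lit 288))) (XT.nd (nat_lit 78)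 (nat_lit 0) (nat_lit 76) (XT.lf (nat_lit 0) (nat_lit 704965941) (nat_lit 760) (nat_lit 1734639234) (nat_lit 836) (nat_lit 12634336496) (nat_lit 112) (nat_lit 5) (nat_lit 122) (nat_lit 5) (nat_lit 123) (nat_lit 5) (nat_lit 369) (nat_lit 364) (nat_lit 287)) (XT.lf (nat_lit 0) (nat_lit 1658000478) (nat_lit 760) (nat_lit 9395326778) (nat_lit 836) (nat_lit 4396326032) (nat_lit 113) (nat_lit 5) (nat_lit 123) (nat_lit 5) (nat_lit 124) (nat_lit 5) (nat_lit 370) (nat_lit 364) (nat_lit 286))))))))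
noncomputable def xc156 : XT := (XT.nd (nat_lit 1950) (nat_lit 2508) (nat_lit 0) (XT.nd (nat_lit 936) (nat_lit 1976) (nat_lit 0) (XT.nd (nat_lit 468) (nat_lit 1140) (nat_lit 0) (XT.nd (nat_lit 234) (nat_lit 608) (nat_lit 0) (XT.nd (nat_lit 78) (nat_lit 0) (nat_lit 76) (XT.lf (nat_lit 0) (nat_lit 2709803530) (nat_lit 760) (nat_lit 1604227401) (nat_lit 836) (nat_lit 11527576804) (nat_lit 113) (nat_lit 5) (nat_lit 123) (nat_lit 5) (nat_lit 124) (nat_lit 5) (nat_lit 371) (nat_lit 364) (nat_lit 285)) (XT.nd (nat_lit 78) (nat_lit 0) (nat_lit 0) (XT.lf (nat_lit 0) (nat_lit 3947140836) (nat_lit 760) (nat_lit 9513637411) (nat_lit 836) (nat_lit 2785746917) (nat_lit 114) (nat_lit 5) (nat_lit 124) (nat_lit 5) (nat_lit 125) (nat_lit 5) (nat_lit 372) (nat_lit 364) (nat_lit 284)) (XT.lf (nat_lit 0) (nat_lit 5327545022) (nat_lit 760) (nat_lit 1213028537) (nat_lit 836) (nat_lit 10127066775) (nat_lit 114)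 (nat_lit 5) (nat_lit 124) (nat_lit 5) (nat_lit 125) (nat_lit 5) (nat_lit 373) (nat_lit 364) (nat_lit 283)))) (XT.nd (nat_lit 78) (nat_lit 760) (nat_lit 0) (XT.lf (nat_lit 0) (nat_lit 6894798208) (nat_lit 760) (nat_lit 9381130703) (nat_lit 76) (nat_lit 828002219) (nat_lit 115) (nat_lit 5) (nat_lit 125) (nat_lit 5) (nat_lit 116) (nat_lit 5) (nat_lit 374) (nat_lit 364) (nat_lit 282)) (XT.nd (nat_lit 78) (nat_lit 760) (nat_lit 0) (XT.lf (nat_lit 0) (nat_lit 8652807880) (nat_lit 760) (nat_lit 535070185) (nat_lit 76) (nat_lit 8368549476) (nat_lit 115) (nat_lit 5) (nat_lit 125) (nat_lit 5) (nat_lit 116) (nat_lit 5) (nat_lit 375) (nat_lit 364) (nat_lit 281)) (XT.lf (nat_lit 0) (nat_lit 9028907115) (nat_lit 760) (nat_lit 1595816807) (nat_lit 836) (nat_lit 7400534812) (nat_lit 105) (nat_lit 5) (nat_lit 115) (nat_lit 5) (nat_lit 116) (nat_lit 5) (nat_lit 376) (nat_lit 364) (nat_lit 280))))) (XT.nd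 (nat_lit 234) (nat_lit 456) (nat_lit 0) (XT.nd (nat_lit 78) (nat_lit 304) (nat_lit 0) (XT.lf (nat_lit 0) (nat_lit 474159142) (nat_lit 380) (nat_lit 12322801385) (nat_lit 456) (nat_lit 5715494488) (nat_lit 100) (nat_lit 5) (nat_lit 105) (nat_lit 5) (nat_lit 106) (nat_lit 5) (nat_lit 377) (nat_lit 364) (nat_lit 279)) (XT.nd (nat_lit 78) (nat_lit 304) (nat_lit 0) (XT.lf (nat_lit 0) (nat_lit 10689821980) (nat_lit 380) (nat_lit 4552123972) (nat_lit 456) (nat_lit 3773867609) (nat_lit 100) (nat_lit 5) (nat_lit 105) (nat_lit 5) (nat_lit 106) (nat_lit 5) (nat_lit 378) (nat_lit 364) (nat_lit 278)) (XT.lf (nat_lit 0) (nat_lit 1861483438) (nat_lit 304) (nat_lit 16019786256) (nat_lit 380) (nat_lit 1659474746) (nat_lit 96) (nat_lit 5) (nat_lit 100) (nat_lit 5) (nat_lit 101) (nat_lit 5) (nat_lit 379) (nat_lit 364) (nat_lit 277)))) (XT.nd (nat_lit 78) (nat_lit 380) (nat_lit 0) (XT.lf (nat_lit 0) (nat_lit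 747547629) (nat_lit 380) (nat_lit 7337095982) (nat_lit 76) (nat_lit 11996605943) (nat_lit 95) (nat_lit 5) (nat_lit 100) (nat_lit 5) (nat_lit 96) (nat_lit 5) (nat_lit 380) (nat_lit 364) (nat_lit 276)) (XT.nd (nat_lit 78) (nat_lit 0) (nat_lit 0) (XT.lf (nat_lit 0) (nat_lit 3268058714) (nat_lit 456) (nat_lit 17053626729) (nat_lit 76) (nat_lit 323296566) (nat_lit 90) (nat_lit 5) (nat_lit 96) (nat_lit 5) (nat_lit 91) (nat_lit 5) (nat_lit 381) (nat_lit 364) (nat_lit 275)) (XT.lf (nat_lit 0) (nat_lit 6161335103) (nat_lit 456) (nat_lit 6057949079) (nat_lit 76) (nat_lit 9005287204) (nat_lit 90) (nat_lit 5) (nat_lit 96) (nat_lit 5) (nat_lit 91) (nat_lit 5) (nat_lit 382) (nat_lit 364) (nat_lit 274)))))) (XT.nd (nat_lit 468) (nat_lit 760) (nat_lit 0) (XT.nd (nat_lit 234) (nat_lit 608) (nat_lit 0) (XT.nd (nat_lit 78) (nat_lit 304) (nat_lit 0) (XT.lf (nat_lit 0) (nat_lit 5655529259) (nat_lit 304) (nat_lit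 3620530746) (nat_lit 380) (nat_lit 12553247935) (nat_lit 86) (nat_lit 5) (nat_lit 90) (nat_lit 5) (nat_lit 91) (nat_lit 5) (nat_lit 383) (nat_lit 364) (nat_lit 273)) (XT.nd (nat_lit 78) (nat_lit 304) (nat_lit 0) (XT.lf (nat_lit 0) (nat_lit 12724043258) (nat_lit 380) (nat_lit 4393595611) (nat_lit 76) (nat_lit 5337772957) (nat_lit 86) (nat_lit 5) (nat_lit 91) (nat_lit 5) (nat_lit 87) (nat_lit 5) (nat_lit 384) (nat_lit 364) (nat_lit 272)) (XT.lf (nat_lit 0) (nat_lit 8164879921) (nat_lit 304) (nat_lit 8355717650) (nat_lit 380) (nat_lit 6583421035) (nat_lit 82) (nat_lit 5) (nat_lit 86) (nat_lit 5) (nat_lit 87) (nat_lit 5) (nat_lit 385) (nat_lit 364) (nat_lit 271)))) (XT.nd (nat_lit 78) (nat_lit 608) (nat_lit 0) (XT.lf (nat_lit 0) (nat_lit 20585410367) (nat_lit 380) (nat_lit 2304898084) (nat_lit 76) (nat_lit 890831732) (nat_lit 82) (nat_lit 5) (nat_lit 87) (nat_lit 5) (nat_lit 83) (nat_lit 5)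 (nat_lit 386) (nat_lit 364) (nat_lit 270)) (XT.nd (nat_lit 78) (nat_lit 304) (nat_lit 0) (XT.lf (nat_lit 0) (nat_lit 656194508) (nat_lit 304) (nat_lit 13318431806) (nat_lit 76) (nat_lit 10501894189) (nat_lit 78) (nat_lit 5) (nat_lit 82) (nat_lit 5) (nat_lit 79) (nat_lit 5) (nat_lit 387) (nat_lit 364) (nat_lit 269)) (XT.lf (nat_lit 0) (nat_lit 107450865) (nat_lit 304) (nat_lit 4517452580) (nat_lit 380) (nat_lit 20577572829) (nat_lit 74) (nat_lit 5) (nat_lit 78) (nat_lit 5) (nat_lit 79) (nat_lit 5) (nat_lit 388) (nat_lit 364) (nat_lit 268))))) (XT.nd (nat_lit 234) (nat_lit 532) (nat_lit 0) (XT.nd (nat_lit 78) (nat_lit 228) (nat_lit 0) (XT.lf (nat_lit 0) (nat_lit 9096268501) (nat_lit 380) (nat_lit 11387363184) (nat_lit 76) (nat_lit 5465892047) (nat_lit 74) (nat_lit 5) (nat_lit 79) (nat_lit 5) (nat_lit 75) (nat_lit 5) (nat_lit 389) (nat_lit 364) (nat_lit 267)) (XT.nd (nat_lit 78) (nat_lit 0)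 (nat_lit 0) (XT.lf (nat_lit 0) (nat_lit 3016042061) (nat_lit 228) (nat_lit 10887222774) (nat_lit 304) (nat_lit 12825060275) (nat_lit 71) (nat_lit 5) (nat_lit 74) (nat_lit 5) (nat_lit 75) (nat_lit 5) (nat_lit 390) (nat_lit 364) (nat_lit 266)) (XT.lf (nat_lit 0) (nat_lit 18523040847) (nat_lit 228) (nat_lit 611584592) (nat_lit 304) (nat_lit 8402244869) (nat_lit 71) (nat_lit 5) (nat_lit 74) (nat_lit 5) (nat_lit 75) (nat_lit 5) (nat_lit 391) (nat_lit 364) (nat_lit 265)))) (XT.nd (nat_lit 156) (nat_lit 228) (nat_lit 0) (XT.nd (nat_lit 78) (nat_lit 76) (nat_lit 0) (XT.lf (nat_lit 0) (nat_lit 6455527679) (nat_lit 228) (nat_lit 18423258660) (nat_lit 304) (nat_lit 3494499075) (nat_lit 68) (nat_lit 5) (nat_lit 71) (nat_lit 5) (nat_lit 72) (nat_lit 5) (nat_lit 392) (nat_lit 364) (nat_lit 264)) (XT.lf (nat_lit 0) (nat_lit 1762351985) (nat_lit 304) (nat_lit 6282843964) (nat_lit 76) (nat_lit 21197194163)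 (nat_lit 67) (nat_lit 5) (nat_lit 71) (nat_lit 5) (nat_lit 68) (nat_lit 5) (nat_lit 393) (nat_lit 364) (nat_lit 263))) (XT.nd (nat_lit 78) (nat_lit 0) (nat_lit 0) (XT.lf (nat_lit 0) (nat_lit 7367045414) (nat_lit 304) (nat_lit 19794373091) (nat_lit 76) (nat_lit 2980548983) (nat_lit 64) (nat_lit 5) (nat_lit 68) (nat_lit 5) (nat_lit 65) (nat_lit 5) (nat_lit 394) (nat_lit 364) (nat_lit 262)) (XT.lf (nat_lit 0) (nat_lit 13484186101) (nat_lit 304) (nat_lit 3198574757) (nat_lit 76) (nat_lit 14392155752) (nat_lit 64) (nat_lit 5) (nat_lit 68) (nat_lit 5) (nat_lit 65) (nat_lit 5) (nat_lit 395) (nat_lit 364) (nat_lit 261))))))) (XT.nd (nat_lit 1014) (nat_lit 912) (nat_lit 0) (XT.nd (nat_lit 468) (nat_lit 760) (nat_lit 0) (XT.nd (nat_lit 234) (nat_lit 380) (nat_lit 0) (XT.nd (nat_lit 78) (nat_lit 228) (nat_lit 0) (XT.lf (nat_lit 0) (nat_lit 14686187753) (nat_lit 228) (nat_lit 5442837964) (nat_lit 304)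 (nat_lit 11914398713) (nat_lit 61) (nat_lit 5) (nat_lit 64) (nat_lit 5) (nat_lit 65) (nat_lit 5) (nat_lit 396) (nat_lit 364) (nat_lit 260)) (XT.nd (nat_lit 78) (nat_lit 76) (nat_lit 0) (XT.lf (nat_lit 0) (nat_lit 420873266) (nat_lit 152) (nat_lit 26838828991) (nat_lit 228) (nat_lit 5792978818) (nat_lit 59) (nat_lit 5) (nat_lit 61) (nat_lit 5) (nat_lit 62) (nat_lit 5) (nat_lit 397) (nat_lit 364) (nat_lit 259)) (XT.lf (nat_lit 0) (nat_lit 994945405) (nat_lit 228) (nat_lit 14522240323) (nat_lit 76) (nat_lit 18575685297) (nat_lit 58) (nat_lit 5) (nat_lit 61) (nat_lit 5) (nat_lit 59) (nat_lit 5) (nat_lit 398) (nat_lit 364) (nat_lit 258)))) (XT.nd (nat_lit 78) (nat_lit 152) (nat_lit 0) (XT.lf (nat_lit 0) (nat_lit 4532351820) (nat_lit 228) (nat_lit 3459082968) (nat_lit 304) (nat_lit 27185697539) (nat_lit 55) (nat_lit 5) (nat_lit 58) (nat_lit 5) (nat_lit 59) (nat_lit 5) (nat_lit 399) (nat_lit 364)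 (nat_lit 257)) (XT.nd (nat_lit 78) (nat_lit 152) (nat_lit 0) (XT.lf (nat_lit 0) (nat_lit 15724588076) (nat_lit 304) (nat_lit 11417819662) (nat_lit 76) (nat_lit 9153859599) (nat_lit 55) (nat_lit 5) (nat_lit 59) (nat_lit 5) (nat_lit 56) (nat_lit 5) (nat_lit 400) (nat_lit 364) (nat_lit 256)) (XT.lf (nat_lit 0) (nat_lit 8991408622) (nat_lit 152) (nat_lit 15043600257) (nat_lit 228) (nat_lit 13426822217) (nat_lit 53) (nat_lit 5) (nat_lit 55) (nat_lit 5) (nat_lit 56) (nat_lit 5) (nat_lit 401) (nat_lit 364) (nat_lit 255))))) (XT.nd (nat_lit 234) (nat_lit 532) (nat_lit 0) (XT.nd (nat_lit 78) (nat_lit 228) (nat_lit 0) (XT.lf (nat_lit 0) (nat_lit 30807507484) (nat_lit 152) (nat_lit 2140484480) (nat_lit 228) (nat_lit 5728331391) (nat_lit 53) (nat_lit 5) (nat_lit 55) (nat_lit 5) (nat_lit 56) (nat_lit 5) (nat_lit 402) (nat_lit 364) (nat_lit 254)) (XT.nd (nat_lit 78) (nat_lit 0) (nat_lit 0) (XT.lf (nat_lit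 0) (nat_lit 2677094643) (nat_lit 228) (nat_lit 25951322986) (nat_lit 76) (nat_lit 11301416872) (nat_lit 50) (nat_lit 5) (nat_lit 53) (nat_lit 5) (nat_lit 51) (nat_lit 5) (nat_lit 403) (nat_lit 364) (nat_lit 253)) (XT.lf (nat_lit 0) (nat_lit 11474780840) (nat_lit 228) (nat_lit 4188956007) (nat_lit 76) (nat_lit 25569366136) (nat_lit 50) (nat_lit 5) (nat_lit 53) (nat_lit 5) (nat_lit 51) (nat_lit 5) (nat_lit 404) (nat_lit 364) (nat_lit 252)))) (XT.nd (nat_lit 156) (nat_lit 380) (nat_lit 0) (XT.nd (nat_lit 78) (nat_lit 0) (nat_lit 0) (XT.lf (nat_lit 0) (nat_lit 19268912872) (nat_lit 152) (nat_lit 1738529365) (nat_lit 228) (nat_lit 21579340060) (nat_lit 48) (nat_lit 5) (nat_lit 50) (nat_lit 5) (nat_lit 51) (nat_lit 5) (nat_lit 405) (nat_lit 364) (nat_lit 251)) (XT.lf (nat_lit 0) (nat_lit 31284304216) (nat_lit 228) (nat_lit 171212398) (nat_lit 76) (nat_lit 12539252447) (nat_lit 48) (nat_lit 5)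 (nat_lit 51) (nat_lit 5) (nat_lit 49) (nat_lit 5) (nat_lit 406) (nat_lit 364) (nat_lit 250))) (XT.nd (nat_lit 78) (nat_lit 228) (nat_lit 0) (XT.lf (nat_lit 0) (nat_lit 24892006714) (nat_lit 152) (nat_lit 17594731098) (nat_lit 228) (nat_lit 2965832694) (nat_lit 46) (nat_lit 5) (nat_lit 48) (nat_lit 5) (nat_lit 49) (nat_lit 5) (nat_lit 407) (nat_lit 364) (nat_lit 249)) (XT.lf (nat_lit 0) (nat_lit 4244571402) (nat_lit 152) (nat_lit 2852743443) (nat_lit 228) (nat_lit 39877084523) (nat_lit 43) (nat_lit 5) (nat_lit 45) (nat_lit 5) (nat_lit 46) (nat_lit 5) (nat_lit 408) (nat_lit 364) (nat_lit 248)))))) (XT.nd (nat_lit 468) (nat_lit 456) (nat_lit 0) (XT.nd (nat_lit 234) (nat_lit 304) (nat_lit 0) (XT.nd (nat_lit 78) (nat_lit 152) (nat_lit 0) (XT.lf (nat_lit 0) (nat_lit 18109679059) (nat_lit 228) (nat_lit 17811658369) (nat_lit 76) (nat_lit 12621266227) (nat_lit 43) (nat_lit 5) (nat_lit 46) (nat_lit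 5) (nat_lit 44) (nat_lit 5) (nat_lit 409) (nat_lit 364) (nat_lit 247)) (XT.nd (nat_lit 78) (nat_lit 0) (nat_lit 0) (XT.lf (nat_lit 0) (nat_lit 8571354590) (nat_lit 152) (nat_lit 21276835826) (nat_lit 228) (nat_lit 20332252750) (nat_lit 41) (nat_lit 5) (nat_lit 43) (nat_lit 5) (nat_lit 44) (nat_lit 5) (nat_lit 410) (nat_lit 364) (nat_lit 246)) (XT.lf (nat_lit 0) (nat_lit 36883402336) (nat_lit 152) (nat_lit 5586922150) (nat_lit 228) (nat_lit 9415016698) (nat_lit 41) (nat_lit 5) (nat_lit 43) (nat_lit 5) (nat_lit 44) (nat_lit 5) (nat_lit 411) (nat_lit 364) (nat_lit 245)))) (XT.nd (nat_lit 78) (nat_lit 152) (nat_lit 0) (XT.lf (nat_lit 0) (nat_lit 2359588513) (nat_lit 152) (nat_lit 40515872242) (nat_lit 76) (nat_lit 10779572853) (nat_lit 39) (nat_lit 5) (nat_lit 41) (nat_lit 5) (nat_lit 40) (nat_lit 5) (nat_lit 412) (nat_lit 364) (nat_lit 244)) (XT.nd (nat_lit 78) (nat_lit 152) (nat_lit 0) (XT.lf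 (nat_lit 0) (nat_lit 14751590060) (nat_lit 152) (nat_lit 12550756696) (nat_lit 76) (nat_lit 28185894251) (nat_lit 39) (nat_lit 5) (nat_lit 41) (nat_lit 5) (nat_lit 40) (nat_lit 5) (nat_lit 413) (nat_lit 364) (nat_lit 243)) (XT.lf (nat_lit 0) (nat_lit 17360348573) (nat_lit 152) (nat_lit 10669366223) (nat_lit 228) (nat_lit 29370068966) (nat_lit 37) (nat_lit 5) (nat_lit 39) (nat_lit 5) (nat_lit 40) (nat_lit 5) (nat_lit 414) (nat_lit 364) (nat_lit 242))))) (XT.nd (nat_lit 234) (nat_lit 304) (nat_lit 0) (XT.nd (nat_lit 78) (nat_lit 152) (nat_lit 0) (XT.lf (nat_lit 0) (nat_lit 42289397411) (nat_lit 228) (nat_lit 10311058757) (nat_lit 76) (nat_lit 6790565990) (nat_lit 37) (nat_lit 5) (nat_lit 40) (nat_lit 5) (nat_lit 38) (nat_lit 4) (nat_lit 415) (nat_lit 364) (nat_lit 241)) (XT.nd (nat_lit 78) (nat_lit 76) (nat_lit 0) (XT.lf (nat_lit 0) (nat_lit 21406397530) (nat_lit 76) (nat_lit 36360522339)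 (nat_lit 152) (nat_lit 3689660857) (nat_lit 36) (nat_lit 5) (nat_lit 37) (nat_lit 5) (nat_lit 38) (nat_lit 4) (nat_lit 416) (nat_lit 364) (nat_lit 240)) (XT.lf (nat_lit 0) (nat_lit 10233500525) (nat_lit 152) (nat_lit 8721696803) (nat_lit 76) (nat_lit 44653445864) (nat_lit 35) (nat_lit 5) (nat_lit 37) (nat_lit 5) (nat_lit 36) (nat_lit 5) (nat_lit 417) (nat_lit 364) (nat_lit 239)))) (XT.nd (nat_lit 156) (nat_lit 152) (nat_lit 0) (XT.nd (nat_lit 78) (nat_lit 0) (nat_lit 0) (XT.lf (nat_lit 0) (nat_lit 24902536696) (nat_lit 152) (nat_lit 211038778) (nat_lit 228) (nat_lit 40732472275) (nat_lit 33) (nat_lit 5) (nat_lit 35) (nat_lit 5) (nat_lit 36) (nat_lit 5) (nat_lit 418) (nat_lit 364) (nat_lit 238)) (XT.lf (nat_lit 0) (nat_lit 41187754548) (nat_lit 228) (nat_lit 7990826564) (nat_lit 76) (nat_lit 18994237254) (nat_lit 33) (nat_lit 5) (nat_lit 36) (nat_lit 5) (nat_lit 34) (nat_lit 4) (nat_lit 419)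 (nat_lit 364) (nat_lit 237))) (XT.nd (nat_lit 78) (nat_lit 76) (nat_lit 0) (XT.lf (nat_lit 0) (nat_lit 27478604166) (nat_lit 76) (nat_lit 31015693631) (nat_lit 152) (nat_lit 12100197767) (nat_lit 32) (nat_lit 5) (nat_lit 33) (nat_lit 5) (nat_lit 34) (nat_lit 4) (nat_lit 420) (nat_lit 364) (nat_lit 236)) (XT.lf (nat_lit 0) (nat_lit 3549702570) (nat_lit 152) (nat_lit 8195805416) (nat_lit 76) (nat_lit 61382307653) (nat_lit 31) (nat_lit 5) (nat_lit 33) (nat_lit 5) (nat_lit 32) (nat_lit 5) (nat_lit 421) (nat_lit 364) (nat_lit 235))))))))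
noncomputable def xc157 : XT := (XT.nd (nat_lit 1950) (nat_lit 684) (nat_lit 0) (XT.nd (nat_lit 936) (nat_lit 532) (nat_lit 0) (XT.nd (nat_lit 468) (nat_lit 304) (nat_lit 0) (XT.nd (nat_lit 234) (nat_lit 152) (nat_lit 0) (XT.nd (nat_lit 78) (nat_lit 76) (nat_lit 0) (XT.lf (nat_lit 0) (nat_lit 20170920234) (nat_lit 228) (nat_lit 46698574735) (nat_lit 76) (nat_lit 8878615839) (nat_lit 29) (nat_lit 5) (nat_lit 32) (nat_lit 5) (nat_lit 30) (nat_lit 4) (nat_lit 422) (nat_lit 364) (nat_lit 234)) (XT.nd (nat_lit 78) (nat_lit 76) (nat_lit 0) (XT.lf (nat_lit 0) (nat_lit 37953221462) (nat_lit 228) (nat_lit 10252247497) (nat_lit 76) (nat_lit 30277451309) (nat_lit 29) (nat_lit 5) (nat_lit 32) (nat_lit 5) (nat_lit 30) (nat_lit 4) (nat_lit 423) (nat_lit 364) (nat_lit 233)) (XT.lf (nat_lit 0) (nat_lit 28936225027) (nat_lit 76) (nat_lit 28136757843) (nat_lit 152) (nat_lit 24259070712) (nat_lit 28) (nat_lit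 5) (nat_lit 29) (nat_lit 5) (nat_lit 30) (nat_lit 4) (nat_lit 424) (nat_lit 364) (nat_lit 232)))) (XT.nd (nat_lit 78) (nat_lit 152) (nat_lit 0) (XT.lf (nat_lit 0) (nat_lit 70433846866) (nat_lit 76) (nat_lit 6885148218) (nat_lit 152) (nat_lit 6996135944) (nat_lit 28) (nat_lit 5) (nat_lit 29) (nat_lit 5) (nat_lit 30) (nat_lit 4) (nat_lit 425) (nat_lit 364) (nat_lit 231)) (XT.nd (nat_lit 78) (nat_lit 0) (nat_lit 0) (XT.lf (nat_lit 0) (nat_lit 11446602809) (nat_lit 152) (nat_lit 60416823345) (nat_lit 76) (nat_lit 15541604010) (nat_lit 26) (nat_lit 5) (nat_lit 28) (nat_lit 5) (nat_lit 27) (nat_lit 4) (nat_lit 426) (nat_lit 364) (nat_lit 230)) (XT.lf (nat_lit 0) (nat_lit 30924936916) (nat_lit 152) (nat_lit 20492028903) (nat_lit 76) (nat_lit 39209295700) (nat_lit 26) (nat_lit 5) (nat_lit 28) (nat_lit 5) (nat_lit 27) (nat_lit 4) (nat_lit 427) (nat_lit 364) (nat_lit 229))))) (XT.nd (nat_lit 234)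 (nat_lit 152) (nat_lit 0) (XT.nd (nat_lit 78) (nat_lit 76) (nat_lit 0) (XT.lf (nat_lit 0) (nat_lit 22131600162) (nat_lit 76) (nat_lit 29588041050) (nat_lit 152) (nat_lit 42271791054) (nat_lit 25) (nat_lit 5) (nat_lit 26) (nat_lit 5) (nat_lit 27) (nat_lit 4) (nat_lit 428) (nat_lit 364) (nat_lit 228)) (XT.nd (nat_lit 78) (nat_lit 76) (nat_lit 0) (XT.lf (nat_lit 0) (nat_lit 67592185950) (nat_lit 76) (nat_lit 6305912784) (nat_lit 152) (nat_lit 23609562388) (nat_lit 25) (nat_lit 5) (nat_lit 26) (nat_lit 5) (nat_lit 27) (nat_lit 4) (nat_lit 429) (nat_lit 364) (nat_lit 227)) (XT.lf (nat_lit 0) (nat_lit 14294907294) (nat_lit 76) (nat_lit 83394057059) (nat_lit 76) (nat_lit 3485563260) (nat_lit 24) (nat_lit 4) (nat_lit 25) (nat_lit 5) (nat_lit 25) (nat_lit 4) (nat_lit 430) (nat_lit 364) (nat_lit 226)))) (XT.nd (nat_lit 78) (nat_lit 76) (nat_lit 0) (XT.lf (nat_lit 0) (nat_lit 17695299003) (nat_lit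 152) (nat_lit 43637667833) (nat_lit 76) (nat_lit 43647226806) (nat_lit 23) (nat_lit 5) (nat_lit 25) (nat_lit 5) (nat_lit 24) (nat_lit 4) (nat_lit 431) (nat_lit 364) (nat_lit 225)) (XT.nd (nat_lit 78) (nat_lit 0) (nat_lit 0) (XT.lf (nat_lit 0) (nat_lit 1760340555) (nat_lit 76) (nat_lit 38082436171) (nat_lit 152) (nat_lit 69129274111) (nat_lit 22) (nat_lit 5) (nat_lit 23) (nat_lit 5) (nat_lit 24) (nat_lit 4) (nat_lit 432) (nat_lit 364) (nat_lit 224)) (XT.lf (nat_lit 0) (nat_lit 50938091989) (nat_lit 76) (nat_lit 12895839184) (nat_lit 152) (nat_lit 49292754947) (nat_lit 22) (nat_lit 5) (nat_lit 23) (nat_lit 5) (nat_lit 24) (nat_lit 4) (nat_lit 433) (nat_lit 364) (nat_lit 223)))))) (XT.nd (nat_lit 468) (nat_lit 304) (nat_lit 0) (XT.nd (nat_lit 234) (nat_lit 76) (nat_lit 0) (XT.nd (nat_lit 78) (nat_lit 152) (nat_lit 0) (XT.lf (nat_lit 0) (nat_lit 89233569404) (nat_lit 152) (nat_lit 15130883782)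 (nat_lit 0) (nat_lit 13114154032) (nat_lit 22) (nat_lit 5) (nat_lit 24) (nat_lit 4) (nat_lit 22) (nat_lit 4) (nat_lit 434) (nat_lit 364) (nat_lit 222)) (XT.nd (nat_lit 78) (nat_lit 76) (nat_lit 0) (XT.lf (nat_lit 0) (nat_lit 35189830888) (nat_lit 76) (nat_lit 81471674136) (nat_lit 76) (nat_lit 5348703912) (nat_lit 21) (nat_lit 4) (nat_lit 22) (nat_lit 5) (nat_lit 22) (nat_lit 4) (nat_lit 435) (nat_lit 364) (nat_lit 221)) (XT.lf (nat_lit 0) (nat_lit 18352123064) (nat_lit 152) (nat_lit 38504503514) (nat_lit 76) (nat_lit 69884274823) (nat_lit 20) (nat_lit 5) (nat_lit 22) (nat_lit 5) (nat_lit 21) (nat_lit 4) (nat_lit 436) (nat_lit 364) (nat_lit 220)))) (XT.nd (nat_lit 78) (nat_lit 0) (nat_lit 0) (XT.lf (nat_lit 0) (nat_lit 12536169801) (nat_lit 76) (nat_lit 30715415540) (nat_lit 152) (nat_lit 88442491980) (nat_lit 19) (nat_lit 5) (nat_lit 20) (nat_lit 5) (nat_lit 21) (nat_lit 4) (nat_lit 437)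 (nat_lit 364) (nat_lit 219)) (XT.nd (nat_lit 78) (nat_lit 0) (nat_lit 0) (XT.lf (nat_lit 0) (nat_lit 67461192539) (nat_lit 76) (nat_lit 2584584779) (nat_lit 152) (nat_lit 66816647168) (nat_lit 19) (nat_lit 5) (nat_lit 20) (nat_lit 5) (nat_lit 21) (nat_lit 4) (nat_lit 438) (nat_lit 364) (nat_lit 218)) (XT.lf (nat_lit 0) (nat_lit 98598231069) (nat_lit 152) (nat_lit 17581871478) (nat_lit 0) (nat_lit 26088159118) (nat_lit 19) (nat_lit 5) (nat_lit 21) (nat_lit 4) (nat_lit 19) (nat_lit 4) (nat_lit 439) (nat_lit 364) (nat_lit 217))))) (XT.nd (nat_lit 234) (nat_lit 152) (nat_lit 0) (XT.nd (nat_lit 78) (nat_lit 76) (nat_lit 0) (XT.lf (nat_lit 0) (nat_lit 37998130604) (nat_lit 76) (nat_lit 91213655528) (nat_lit 76) (nat_lit 18700930892) (nat_lit 18) (nat_lit 4) (nat_lit 19) (nat_lit 5) (nat_lit 19) (nat_lit 4) (nat_lit 440) (nat_lit 364) (nat_lit 216)) (XT.nd (nat_lit 78) (nat_lit 0) (nat_lit 0) (XT.lf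 (nat_lit 0) (nat_lit 7576538747) (nat_lit 152) (nat_lit 56983346569) (nat_lit 76) (nat_lit 89258617591) (nat_lit 17) (nat_lit 5) (nat_lit 19) (nat_lit 5) (nat_lit 18) (nat_lit 4) (nat_lit 441) (nat_lit 364) (nat_lit 215)) (XT.lf (nat_lit 0) (nat_lit 34537365184) (nat_lit 152) (nat_lit 1716058436) (nat_lit 76) (nat_lit 123750928188) (nat_lit 17) (nat_lit 5) (nat_lit 19) (nat_lit 5) (nat_lit 18) (nat_lit 4) (nat_lit 442) (nat_lit 364) (nat_lit 214)))) (XT.nd (nat_lit 156) (nat_lit 76) (nat_lit 0) (XT.nd (nat_lit 78) (nat_lit 0) (nat_lit 0) (XT.lf (nat_lit 0) (nat_lit 58172731398) (nat_lit 76) (nat_lit 5579795407) (nat_lit 152) (nat_lit 102701651864) (nat_lit 16) (nat_lit 5) (nat_lit 17) (nat_lit 5) (nat_lit 18) (nat_lit 4) (nat_lit 443) (nat_lit 364) (nat_lit 213)) (XT.lf (nat_lit 0) (nat_lit 94871776996) (nat_lit 152) (nat_lit 52529472671) (nat_lit 0) (nat_lit 25803080878) (nat_lit 16) (nat_lit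 5) (nat_lit 18) (nat_lit 4) (nat_lit 16) (nat_lit 4) (nat_lit 444) (nat_lit 364) (nat_lit 212))) (XT.nd (nat_lit 78) (nat_lit 0) (nat_lit 0) (XT.lf (nat_lit 0) (nat_lit 6110625089) (nat_lit 76) (nat_lit 121621394603) (nat_lit 76) (nat_lit 52550719011) (nat_lit 15) (nat_lit 4) (nat_lit 16) (nat_lit 5) (nat_lit 16) (nat_lit 4) (nat_lit 445) (nat_lit 364) (nat_lit 211)) (XT.lf (nat_lit 0) (nat_lit 69502908507) (nat_lit 76) (nat_lit 93620164900) (nat_lit 76) (nat_lit 24547604095) (nat_lit 15) (nat_lit 4) (nat_lit 16) (nat_lit 5) (nat_lit 16) (nat_lit 4) (nat_lit 446) (nat_lit 364) (nat_lit 210))))))) (XT.nd (nat_lit 1014) (nat_lit 304) (nat_lit 0) (XT.nd (nat_lit 468) (nat_lit 152) (nat_lit 0) (XT.nd (nat_lit 234) (nat_lit 76) (nat_lit 0) (XT.nd (nat_lit 78) (nat_lit 76) (nat_lit 0) (XT.lf (nat_lit 0) (nat_lit 4698499625) (nat_lit 152) (nat_lit 59442432013) (nat_lit 76) (nat_lit 131283379003)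 (nat_lit 14) (nat_lit 5) (nat_lit 16) (nat_lit 5) (nat_lit 15) (nat_lit 4) (nat_lit 447) (nat_lit 364) (nat_lit 209)) (XT.nd (nat_lit 78) (nat_lit 0) (nat_lit 0) (XT.lf (nat_lit 0) (nat_lit 1873462875) (nat_lit 76) (nat_lit 32736063498) (nat_lit 152) (nat_lit 168934599316) (nat_lit 13) (nat_lit 5) (nat_lit 14) (nat_lit 5) (nat_lit 15) (nat_lit 4) (nat_lit 448) (nat_lit 364) (nat_lit 208)) (XT.lf (nat_lit 0) (nat_lit 67041359714) (nat_lit 152) (nat_lit 143724230121) (nat_lit 0) (nat_lit 1253079039) (nat_lit 13) (nat_lit 5) (nat_lit 15) (nat_lit 4) (nat_lit 13) (nat_lit 4) (nat_lit 449) (nat_lit 364) (nat_lit 207)))) (XT.nd (nat_lit 78) (nat_lit 76) (nat_lit 0) (XT.lf (nat_lit 0) (nat_lit 101629854493) (nat_lit 152) (nat_lit 83420234671) (nat_lit 0) (nat_lit 35840096704) (nat_lit 13) (nat_lit 5) (nat_lit 15) (nat_lit 4) (nat_lit 13) (nat_lit 4) (nat_lit 450) (nat_lit 364) (nat_lit 206)) (XT.nd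 (nat_lit 78) (nat_lit 76) (nat_lit 0) (XT.lf (nat_lit 0) (nat_lit 137946262575) (nat_lit 152) (nat_lit 20103993832) (nat_lit 0) (nat_lit 72155098011) (nat_lit 13) (nat_lit 5) (nat_lit 15) (nat_lit 4) (nat_lit 13) (nat_lit 4) (nat_lit 451) (nat_lit 364) (nat_lit 205)) (XT.lf (nat_lit 0) (nat_lit 47908620399) (nat_lit 76) (nat_lit 128916419028) (nat_lit 76) (nat_lit 63123914677) (nat_lit 12) (nat_lit 4) (nat_lit 13) (nat_lit 5) (nat_lit 13) (nat_lit 4) (nat_lit 452) (nat_lit 364) (nat_lit 204))))) (XT.nd (nat_lit 234) (nat_lit 0) (nat_lit 0) (XT.nd (nat_lit 78) (nat_lit 152) (nat_lit 0) (XT.lf (nat_lit 0) (nat_lit 120017062298) (nat_lit 76) (nat_lit 97969749549) (nat_lit 76) (nat_lit 32175969212) (nat_lit 12) (nat_lit 4) (nat_lit 13) (nat_lit 5) (nat_lit 13) (nat_lit 4) (nat_lit 453) (nat_lit 364) (nat_lit 203)) (XT.nd (nat_lit 78) (nat_lit 76) (nat_lit 0) (XT.lf (nat_lit 0) (nat_lit 307782589)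 (nat_lit 152) (nat_lit 65164041252) (nat_lit 76) (nat_lit 195415294764) (nat_lit 11) (nat_lit 5) (nat_lit 13) (nat_lit 5) (nat_lit 12) (nat_lit 4) (nat_lit 454) (nat_lit 364) (nat_lit 202)) (XT.lf (nat_lit 0) (nat_lit 2620565533) (nat_lit 76) (nat_lit 30753443468) (nat_lit 152) (nat_lit 238745309859) (nat_lit 10) (nat_lit 5) (nat_lit 11) (nat_lit 5) (nat_lit 12) (nat_lit 4) (nat_lit 455) (nat_lit 364) (nat_lit 201)))) (XT.nd (nat_lit 156) (nat_lit 0) (nat_lit 0) (XT.nd (nat_lit 78) (nat_lit 0) (nat_lit 0) (XT.lf (nat_lit 0) (nat_lit 69302929008) (nat_lit 152) (nat_lit 207910854634) (nat_lit 0) (nat_lit 6638876470) (nat_lit 10) (nat_lit 5) (nat_lit 12) (nat_lit 4) (nat_lit 10) (nat_lit 4) (nat_lit 456) (nat_lit 364) (nat_lit 200)) (XT.lf (nat_lit 0) (nat_lit 107531211558) (nat_lit 152) (nat_lit 143750151886) (nat_lit 0) (nat_lit 44866159251) (nat_lit 10) (nat_lit 5) (nat_lit 12) (nat_lit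 4) (nat_lit 10) (nat_lit 4) (nat_lit 457) (nat_lit 364) (nat_lit 199))) (XT.nd (nat_lit 78) (nat_lit 0) (nat_lit 0) (XT.lf (nat_lit 0) (nat_lit 147669728932) (nat_lit 152) (nat_lit 76383734066) (nat_lit 0) (nat_lit 85003724464) (nat_lit 10) (nat_lit 5) (nat_lit 12) (nat_lit 4) (nat_lit 10) (nat_lit 4) (nat_lit 458) (nat_lit 364) (nat_lit 198)) (XT.lf (nat_lit 0) (nat_lit 189814049028) (nat_lit 152) (nat_lit 5651204943) (nat_lit 0) (nat_lit 127147137741) (nat_lit 10) (nat_lit 5) (nat_lit 12) (nat_lit 4) (nat_lit 10) (nat_lit 4) (nat_lit 459) (nat_lit 364) (nat_lit 197)))))) (XT.nd (nat_lit 468) (nat_lit 76) (nat_lit 0) (XT.nd (nat_lit 234) (nat_lit 152) (nat_lit 0) (XT.nd (nat_lit 78) (nat_lit 0) (nat_lit 0) (XT.lf (nat_lit 0) (nat_lit 70884596023) (nat_lit 76) (nat_lit 164286626640) (nat_lit 76) (nat_lit 101618851715) (nat_lit 9) (nat_lit 4) (nat_lit 10) (nat_lit 5) (nat_lit 10) (nat_lit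 4) (nat_lit 460) (nat_lit 364) (nat_lit 196)) (XT.nd (nat_lit 78) (nat_lit 0) (nat_lit 0) (XT.lf (nat_lit 0) (nat_lit 151441313687) (nat_lit 76) (nat_lit 131449596132) (nat_lit 76) (nat_lit 68780998695) (nat_lit 9) (nat_lit 4) (nat_lit 10) (nat_lit 5) (nat_lit 10) (nat_lit 4) (nat_lit 461) (nat_lit 364) (nat_lit 195)) (XT.lf (nat_lit 0) (nat_lit 236023895398) (nat_lit 76) (nat_lit 96971684933) (nat_lit 76) (nat_lit 34302304150) (nat_lit 9) (nat_lit 4) (nat_lit 10) (nat_lit 5) (nat_lit 10) (nat_lit 4) (nat_lit 462) (nat_lit 364) (nat_lit 194)))) (XT.nd (nat_lit 78) (nat_lit 76) (nat_lit 0) (XT.lf (nat_lit 0) (nat_lit 1838533817) (nat_lit 152) (nat_lit 58901132499) (nat_lit 76) (nat_lit 322964057980) (nat_lit 8) (nat_lit 5) (nat_lit 10) (nat_lit 5) (nat_lit 9) (nat_lit 4) (nat_lit 463) (nat_lit 364) (nat_lit 193)) (XT.nd (nat_lit 78) (nat_lit 0) (nat_lit 0) (XT.lf (nat_lit 0) (nat_lit 17072646269)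 (nat_lit 76) (nat_lit 21826614029) (nat_lit 152) (nat_lit 361989197776) (nat_lit 7) (nat_lit 5) (nat_lit 8) (nat_lit 5) (nat_lit 9) (nat_lit 4) (nat_lit 464) (nat_lit 364) (nat_lit 192)) (XT.lf (nat_lit 0) (nat_lit 79123118664) (nat_lit 152) (nat_lit 320307842711) (nat_lit 0) (nat_lit 19435962449) (nat_lit 7) (nat_lit 5) (nat_lit 9) (nat_lit 4) (nat_lit 7) (nat_lit 4) (nat_lit 465) (nat_lit 364) (nat_lit 191))))) (XT.nd (nat_lit 234) (nat_lit 76) (nat_lit 0) (XT.nd (nat_lit 78) (nat_lit 0) (nat_lit 0) (XT.lf (nat_lit 0) (nat_lit 121715106467) (nat_lit 152) (nat_lit 253984023147) (nat_lit 0) (nat_lit 62027336480) (nat_lit 7) (nat_lit 5) (nat_lit 9) (nat_lit 4) (nat_lit 7) (nat_lit 4) (nat_lit 466) (nat_lit 364) (nat_lit 190)) (XT.nd (nat_lit 78) (nat_lit 0) (nat_lit 0) (XT.lf (nat_lit 0) (nat_lit 166435858587) (nat_lit 152) (nat_lit 184345664644) (nat_lit 0) (nat_lit 106747504056) (nat_lit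 7) (nat_lit 5) (nat_lit 9) (nat_lit 4) (nat_lit 7) (nat_lit 4) (nat_lit 467) (nat_lit 364) (nat_lit 189)) (XT.lf (nat_lit 0) (nat_lit 213391853006) (nat_lit 152) (nat_lit 111226961585) (nat_lit 0) (nat_lit 153702941766) (nat_lit 7) (nat_lit 5) (nat_lit 9) (nat_lit 4) (nat_lit 7) (nat_lit 4) (nat_lit 468) (nat_lit 364) (nat_lit 188)))) (XT.nd (nat_lit 156) (nat_lit 0) (nat_lit 0) (XT.nd (nat_lit 78) (nat_lit 76) (nat_lit 0) (XT.lf (nat_lit 0) (nat_lit 262694889710) (nat_lit 152) (nat_lit 34453821821) (nat_lit 0) (nat_lit 203005448272) (nat_lit 7) (nat_lit 5) (nat_lit 9) (nat_lit 4) (nat_lit 7) (nat_lit 4) (nat_lit 469) (nat_lit 364) (nat_lit 187)) (XT.lf (nat_lit 0) (nat_lit 47682691757) (nat_lit 76) (nat_lit 267524125574) (nat_lit 76) (nat_lit 207834179185) (nat_lit 6) (nat_lit 4) (nat_lit 7) (nat_lit 5) (nat_lit 7) (nat_lit 4) (nat_lit 470) (nat_lit 364) (nat_lit 186))) (XT.nd (nat_lit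 78) (nat_lit 0) (nat_lit 0) (XT.lf (nat_lit 0) (nat_lit 135120785834) (nat_lit 76) (nat_lit 235806338705) (nat_lit 76) (nat_lit 176115911409) (nat_lit 6) (nat_lit 4) (nat_lit 7) (nat_lit 5) (nat_lit 7) (nat_lit 4) (nat_lit 471) (nat_lit 364) (nat_lit 185)) (XT.lf (nat_lit 0) (nat_lit 226929447401) (nat_lit 76) (nat_lit 202503324528) (nat_lit 76) (nat_lit 142812439227) (nat_lit 6) (nat_lit 4) (nat_lit 7) (nat_lit 5) (nat_lit 7) (nat_lit 4) (nat_lit 472) (nat_lit 364) (nat_lit 184))))))))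
noncomputable def xc158 : XT := (XT.nd (nat_lit 46332) (nat_lit 0) (nat_lit 2736) (XT.nd (nat_lit 45318) (nat_lit 0) (nat_lit 6156) (XT.nd (nat_lit 44850) (nat_lit 0) (nat_lit 8132) (XT.nd (nat_lit 234) (nat_lit 76) (nat_lit 0) (XT.nd (nat_lit 78) (nat_lit 0) (nat_lit 0) (XT.lf (nat_lit 0) (nat_lit 323327268507) (nat_lit 76) (nat_lit 167535790152) (nat_lit 76) (nat_lit 107844468655) (nat_lit 6) (nat_lit 4) (nat_lit 7) (nat_lit 5) (nat_lit 7) (nat_lit 4) (nat_lit 473) (nat_lit 364) (nat_lit 183)) (XT.nd (nat_lit 78) (nat_lit 0) (nat_lit 0) (XT.lf (nat_lit 0) (nat_lit 424543767777) (nat_lit 76) (nat_lit 130820479544) (nat_lit 76) (nat_lit 71128742623) (nat_lit 6) (nat_lit 4) (nat_lit 7) (nat_lit 5) (nat_lit 7) (nat_lit 4) (nat_lit 474) (nat_lit 364) (nat_lit 182)) (XT.lf (nat_lit 0) (nat_lit 530819936873) (nat_lit 76) (nat_lit 92269975296) (nat_lit 76) (nat_lit 32577842733) (nat_lit 6) (nat_lit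 4) (nat_lit 7) (nat_lit 5) (nat_lit 7) (nat_lit 4) (nat_lit 475) (nat_lit 364) (nat_lit 181)))) (XT.nd (nat_lit 44460) (nat_lit 0) (nat_lit 8816) (XT.lf (nat_lit 0) (nat_lit 7647168930) (nat_lit 152) (nat_lit 44015813059) (nat_lit 76) (nat_lit 634632136858) (nat_lit 5) (nat_lit 5) (nat_lit 7) (nat_lit 5) (nat_lit 6) (nat_lit 4) (nat_lit 476) (nat_lit 364) (nat_lit 180)) (XT.nd (nat_lit 78) (nat_lit 0) (nat_lit 0) (XT.lf (nat_lit 0) (nat_lit 3116277503) (nat_lit 0) (nat_lit 3116277503) (nat_lit 684) (nat_lit 774188195) (nat_lit 121) (nat_lit 5) (nat_lit 121) (nat_lit 3) (nat_lit 130) (nat_lit 3) (nat_lit 365) (nat_lit 365) (nat_lit 290)) (XT.lf (nat_lit 0) (nat_lit 13109712499) (nat_lit 684) (nat_lit 1024362248) (nat_lit 760) (nat_lit 212851558) (nat_lit 121) (nat_lit 5) (nat_lit 130) (nat_lit 3) (nat_lit 131) (nat_lit 5) (nat_lit 366) (nat_lit 365) (nat_lit 289))))) (XT.nd (nat_lit 234)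 (nat_lit 0) (nat_lit 0) (XT.nd (nat_lit 78) (nat_lit 684) (nat_lit 0) (XT.lf (nat_lit 76) (nat_lit 6153014503) (nat_lit 0) (nat_lit 7810839331) (nat_lit 760) (nat_lit 724334839) (nat_lit 122) (nat_lit 5) (nat_lit 121) (nat_lit 5) (nat_lit 131) (nat_lit 5) (nat_lit 367) (nat_lit 365) (nat_lit 288)) (XT.nd (nat_lit 78) (nat_lit 684) (nat_lit 0) (XT.lf (nat_lit 76) (nat_lit 13713230967) (nat_lit 0) (nat_lit 1144704909) (nat_lit 760) (nat_lit 188731752) (nat_lit 122) (nat_lit 5) (nat_lit 121) (nat_lit 5) (nat_lit 131) (nat_lit 5) (nat_lit 368) (nat_lit 365) (nat_lit 287)) (XT.lf (nat_lit 0) (nat_lit 535651035) (nat_lit 760) (nat_lit 9095812043) (nat_lit 836) (nat_lit 5782631573) (nat_lit 112) (nat_lit 5) (nat_lit 122) (nat_lit 5) (nat_lit 123) (nat_lit 5) (nat_lit 369) (nat_lit 365) (nat_lit 286)))) (XT.nd (nat_lit 78) (nat_lit 0) (nat_lit 76) (XT.lf (nat_lit 0) (nat_lit 1313004944) (nat_lit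 760) (nat_lit 1434684652) (nat_lit 836) (nat_lit 13050907089) (nat_lit 112) (nat_lit 5) (nat_lit 122) (nat_lit 5) (nat_lit 123) (nat_lit 5) (nat_lit 370) (nat_lit 365) (nat_lit 285)) (XT.nd (nat_lit 78) (nat_lit 0) (nat_lit 0) (XT.lf (nat_lit 0) (nat_lit 2289685476) (nat_lit 760) (nat_lit 9454017474) (nat_lit 836) (nat_lit 4450610388) (nat_lit 113) (nat_lit 5) (nat_lit 123) (nat_lit 5) (nat_lit 124) (nat_lit 5) (nat_lit 371) (nat_lit 365) (nat_lit 284)) (XT.lf (nat_lit 0) (nat_lit 3367946062) (nat_lit 760) (nat_lit 1292938159) (nat_lit 836) (nat_lit 11946306171) (nat_lit 113) (nat_lit 5) (nat_lit 123) (nat_lit 5) (nat_lit 124) (nat_lit 5) (nat_lit 372) (nat_lit 365) (nat_lit 283)))))) (XT.nd (nat_lit 468) (nat_lit 1064) (nat_lit 0) (XT.nd (nat_lit 234) (nat_lit 1064) (nat_lit 0) (XT.nd (nat_lit 78) (nat_lit 0) (nat_lit 0) (XT.lf (nat_lit 0) (nat_lit 4646424308) (nat_lit 760) (nat_lit 9576745020)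 (nat_lit 836) (nat_lit 2810238048) (nat_lit 114) (nat_lit 5) (nat_lit 124) (nat_lit 5) (nat_lit 125) (nat_lit 5) (nat_lit 373) (nat_lit 365) (nat_lit 282)) (XT.nd (nat_lit 78) (nat_lit 0) (nat_lit 76) (XT.lf (nat_lit 0) (nat_lit 6071947445) (nat_lit 760) (nat_lit 880752096) (nat_lit 836) (nat_lit 10524090385) (nat_lit 114) (nat_lit 5) (nat_lit 124) (nat_lit 5) (nat_lit 125) (nat_lit 5) (nat_lit 374) (nat_lit 365) (nat_lit 281)) (XT.lf (nat_lit 0) (nat_lit 7699669552) (nat_lit 760) (nat_lit 9439050235) (nat_lit 76) (nat_lit 797085931) (nat_lit 115) (nat_lit 5) (nat_lit 125) (nat_lit 5) (nat_lit 116) (nat_lit 5) (nat_lit 375) (nat_lit 365) (nat_lit 280)))) (XT.nd (nat_lit 78) (nat_lit 1140) (nat_lit 0) (XT.lf (nat_lit 0) (nat_lit 9523668687) (nat_lit 760) (nat_lit 170264643) (nat_lit 76) (nat_lit 8718104190) (nat_lit 115) (nat_lit 5) (nat_lit 125) (nat_lit 5) (nat_lit 116) (nat_lit 5) (nat_lit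 376) (nat_lit 365) (nat_lit 279)) (XT.nd (nat_lit 78) (nat_lit 380) (nat_lit 0) (XT.lf (nat_lit 0) (nat_lit 9865596053) (nat_lit 760) (nat_lit 1713731571) (nat_lit 836) (nat_lit 7325739597) (nat_lit 105) (nat_lit 5) (nat_lit 115) (nat_lit 5) (nat_lit 116) (nat_lit 5) (nat_lit 377) (nat_lit 365) (nat_lit 278)) (XT.lf (nat_lit 0) (nat_lit 898591106) (nat_lit 380) (nat_lit 12947114143) (nat_lit 456) (nat_lit 5571655230) (nat_lit 100) (nat_lit 5) (nat_lit 105) (nat_lit 5) (nat_lit 106) (nat_lit 5) (nat_lit 378) (nat_lit 365) (nat_lit 277))))) (XT.nd (nat_lit 234) (nat_lit 684) (nat_lit 0) (XT.nd (nat_lit 78) (nat_lit 380) (nat_lit 0) (XT.lf (nat_lit 0) (nat_lit 11605954991) (nat_lit 380) (nat_lit 4787513683) (nat_lit 456) (nat_lit 3553404816) (nat_lit 100) (nat_lit 5) (nat_lit 105) (nat_lit 5) (nat_lit 106) (nat_lit 5) (nat_lit 379) (nat_lit 365) (nat_lit 276)) (XT.nd (nat_lit 78) (nat_lit 76)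 (nat_lit 0) (XT.lf (nat_lit 0) (nat_lit 2349576081) (nat_lit 304) (nat_lit 16802690066) (nat_lit 380) (nat_lit 1346421746) (nat_lit 96) (nat_lit 5) (nat_lit 100) (nat_lit 5) (nat_lit 101) (nat_lit 5) (nat_lit 380) (nat_lit 365) (nat_lit 275)) (XT.lf (nat_lit 0) (nat_lit 1150021589) (nat_lit 380) (nat_lit 7315446826) (nat_lit 76) (nat_lit 12601364641) (nat_lit 95) (nat_lit 5) (nat_lit 100) (nat_lit 5) (nat_lit 96) (nat_lit 5) (nat_lit 381) (nat_lit 365) (nat_lit 274)))) (XT.nd (nat_lit 156) (nat_lit 304) (nat_lit 0) (XT.nd (nat_lit 78) (nat_lit 0) (nat_lit 0) (XT.lf (nat_lit 0) (nat_lit 3785586365) (nat_lit 456) (nat_lit 17506618774) (nat_lit 76) (nat_lit 367106262) (nat_lit 90) (nat_lit 5) (nat_lit 96) (nat_lit 5) (nat_lit 91) (nat_lit 5) (nat_lit 382) (nat_lit 365) (nat_lit 273)) (XT.lf (nat_lit 0) (nat_lit 6806663492) (nat_lit 456) (nat_lit 5980190065) (nat_lit 76) (nat_lit 9481880010)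 (nat_lit 90) (nat_lit 5) (nat_lit 96) (nat_lit 5) (nat_lit 91) (nat_lit 5) (nat_lit 383) (nat_lit 365) (nat_lit 272))) (XT.nd (nat_lit 78) (nat_lit 0) (nat_lit 0) (XT.lf (nat_lit 0) (nat_lit 6312822570) (nat_lit 304) (nat_lit 3754089249) (nat_lit 380) (nat_lit 12837315452) (nat_lit 86) (nat_lit 5) (nat_lit 90) (nat_lit 5) (nat_lit 91) (nat_lit 5) (nat_lit 384) (nat_lit 365) (nat_lit 271)) (XT.lf (nat_lit 0) (nat_lit 13672426299) (nat_lit 380) (nat_lit 4241540339) (nat_lit 76) (nat_lit 5648422330) (nat_lit 86) (nat_lit 5) (nat_lit 91) (nat_lit 5) (nat_lit 87) (nat_lit 5) (nat_lit 385) (nat_lit 365) (nat_lit 270))))))) (XT.nd (nat_lit 1014) (nat_lit 1368) (nat_lit 0) (XT.nd (nat_lit 468) (nat_lit 912) (nat_lit 0) (XT.nd (nat_lit 234) (nat_lit 532) (nat_lit 0) (XT.nd (nat_lit 78) (nat_lit 304) (nat_lit 0) (XT.lf (nat_lit 0) (nat_lit 8938863244) (nat_lit 304) (nat_lit 8710789544) (nat_lit 380)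 (nat_lit 6594239858) (nat_lit 82) (nat_lit 5) (nat_lit 86) (nat_lit 5) (nat_lit 87) (nat_lit 5) (nat_lit 386) (nat_lit 365) (nat_lit 269)) (XT.nd (nat_lit 78) (nat_lit 304) (nat_lit 0) (XT.lf (nat_lit 0) (nat_lit 21904208961) (nat_lit 380) (nat_lit 2058155297) (nat_lit 76) (nat_lit 993189270) (nat_lit 82) (nat_lit 5) (nat_lit 87) (nat_lit 5) (nat_lit 83) (nat_lit 5) (nat_lit 387) (nat_lit 365) (nat_lit 268)) (XT.lf (nat_lit 0) (nat_lit 975071443) (nat_lit 304) (nat_lit 13618593830) (nat_lit 76) (nat_lit 11092226184) (nat_lit 78) (nat_lit 5) (nat_lit 82) (nat_lit 5) (nat_lit 79) (nat_lit 5) (nat_lit 388) (nat_lit 365) (nat_lit 267)))) (XT.nd (nat_lit 78) (nat_lit 228) (nat_lit 0) (XT.lf (nat_lit 0) (nat_lit 472683626) (nat_lit 304) (nat_lit 4661528379) (nat_lit 380) (nat_lit 21314340426) (nat_lit 74) (nat_lit 5) (nat_lit 78) (nat_lit 5) (nat_lit 79) (nat_lit 5) (nat_lit 389) (nat_lit 365)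 (nat_lit 266)) (XT.nd (nat_lit 78) (nat_lit 228) (nat_lit 0) (XT.lf (nat_lit 0) (nat_lit 9817120464) (nat_lit 380) (nat_lit 11601844871) (nat_lit 76) (nat_lit 5814595051) (nat_lit 74) (nat_lit 5) (nat_lit 79) (nat_lit 5) (nat_lit 75) (nat_lit 5) (nat_lit 390) (nat_lit 365) (nat_lit 265)) (XT.lf (nat_lit 0) (nat_lit 3516006661) (nat_lit 228) (nat_lit 11341242857) (nat_lit 304) (nat_lit 13194419721) (nat_lit 71) (nat_lit 5) (nat_lit 74) (nat_lit 5) (nat_lit 75) (nat_lit 5) (nat_lit 391) (nat_lit 365) (nat_lit 264))))) (XT.nd (nat_lit 234) (nat_lit 608) (nat_lit 0) (XT.nd (nat_lit 78) (nat_lit 304) (nat_lit 0) (XT.lf (nat_lit 0) (nat_lit 19781728602) (nat_lit 228) (nat_lit 556124721) (nat_lit 304) (nat_lit 8563410857) (nat_lit 71) (nat_lit 5) (nat_lit 74) (nat_lit 5) (nat_lit 75) (nat_lit 5) (nat_lit 392) (nat_lit 365) (nat_lit 263)) (XT.nd (nat_lit 78) (nat_lit 76) (nat_lit 0) (XT.lf (nat_lit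 0) (nat_lit 7116403494) (nat_lit 228) (nat_lit 19247638863) (nat_lit 304) (nat_lit 3415722623) (nat_lit 68) (nat_lit 5) (nat_lit 71) (nat_lit 5) (nat_lit 72) (nat_lit 5) (nat_lit 393) (nat_lit 365) (nat_lit 262)) (XT.lf (nat_lit 0) (nat_lit 2084172230) (nat_lit 304) (nat_lit 6267151622) (nat_lit 76) (nat_lit 22341392816) (nat_lit 67) (nat_lit 5) (nat_lit 71) (nat_lit 5) (nat_lit 68) (nat_lit 5) (nat_lit 394) (nat_lit 365) (nat_lit 261)))) (XT.nd (nat_lit 156) (nat_lit 380) (nat_lit 0) (XT.nd (nat_lit 78) (nat_lit 0) (nat_lit 0) (XT.lf (nat_lit 0) (nat_lit 7964550692) (nat_lit 304) (nat_lit 20449604882) (nat_lit 76) (nat_lit 3223349954) (nat_lit 64) (nat_lit 5) (nat_lit 68) (nat_lit 5) (nat_lit 65) (nat_lit 5) (nat_lit 395) (nat_lit 365) (nat_lit 260)) (XT.lf (nat_lit 0) (nat_lit 14376636365) (nat_lit 304) (nat_lit 3039944577) (nat_lit 76) (nat_lit 15201071655) (nat_lit 64) (nat_lit 5) (nat_lit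 68) (nat_lit 5) (nat_lit 65) (nat_lit 5) (nat_lit 396) (nat_lit 365) (nat_lit 259))) (XT.nd (nat_lit 78) (nat_lit 152) (nat_lit 0) (XT.lf (nat_lit 0) (nat_lit 15733918011) (nat_lit 228) (nat_lit 5614300903) (nat_lit 304) (nat_lit 12286646504) (nat_lit 61) (nat_lit 5) (nat_lit 64) (nat_lit 5) (nat_lit 65) (nat_lit 5) (nat_lit 397) (nat_lit 365) (nat_lit 258)) (XT.lf (nat_lit 0) (nat_lit 759293262) (nat_lit 152) (nat_lit 28072457615) (nat_lit 228) (nat_lit 5863022374) (nat_lit 59) (nat_lit 5) (nat_lit 61) (nat_lit 5) (nat_lit 62) (nat_lit 5) (nat_lit 398) (nat_lit 365) (nat_lit 257)))))) (XT.nd (nat_lit 468) (nat_lit 684) (nat_lit 0) (XT.nd (nat_lit 234) (nat_lit 380) (nat_lit 0) (XT.nd (nat_lit 78) (nat_lit 228) (nat_lit 0) (XT.lf (nat_lit 0) (nat_lit 1247146619) (nat_lit 228) (nat_lit 14939314668) (nat_lit 76) (nat_lit 19600850137) (nat_lit 58) (nat_lit 5) (nat_lit 61) (nat_lit 5) (nat_lit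 59) (nat_lit 5) (nat_lit 399) (nat_lit 365) (nat_lit 256)) (XT.nd (nat_lit 78) (nat_lit 0) (nat_lit 0) (XT.lf (nat_lit 0) (nat_lit 5063022603) (nat_lit 228) (nat_lit 3525544326) (nat_lit 304) (nat_lit 28337467369) (nat_lit 55) (nat_lit 5) (nat_lit 58) (nat_lit 5) (nat_lit 59) (nat_lit 5) (nat_lit 400) (nat_lit 365) (nat_lit 255)) (XT.lf (nat_lit 0) (nat_lit 16700553721) (nat_lit 304) (nat_lit 11691239039) (nat_lit 76) (nat_lit 9709728156) (nat_lit 55) (nat_lit 5) (nat_lit 59) (nat_lit 5) (nat_lit 56) (nat_lit 5) (nat_lit 401) (nat_lit 365) (nat_lit 254)))) (XT.nd (nat_lit 78) (nat_lit 228) (nat_lit 0) (XT.lf (nat_lit 0) (nat_lit 9733652730) (nat_lit 152) (nat_lit 15688377232) (nat_lit 228) (nat_lit 13903559657) (nat_lit 53) (nat_lit 5) (nat_lit 55) (nat_lit 5) (nat_lit 56) (nat_lit 5) (nat_lit 402) (nat_lit 365) (nat_lit 253)) (XT.nd (nat_lit 78) (nat_lit 228) (nat_lit 0) (XT.lf (nat_lit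 0) (nat_lit 32626619693) (nat_lit 152) (nat_lit 2145220096) (nat_lit 228) (nat_lit 5829411131) (nat_lit 53) (nat_lit 5) (nat_lit 55) (nat_lit 5) (nat_lit 56) (nat_lit 5) (nat_lit 403) (nat_lit 365) (nat_lit 252)) (XT.lf (nat_lit 0) (nat_lit 2987822781) (nat_lit 228) (nat_lit 26961565800) (nat_lit 76) (nat_lit 11968033937) (nat_lit 50) (nat_lit 5) (nat_lit 53) (nat_lit 5) (nat_lit 51) (nat_lit 5) (nat_lit 404) (nat_lit 365) (nat_lit 251))))) (XT.nd (nat_lit 234) (nat_lit 380) (nat_lit 0) (XT.nd (nat_lit 78) (nat_lit 304) (nat_lit 0) (XT.lf (nat_lit 0) (nat_lit 12216970745) (nat_lit 228) (nat_lit 4124762537) (nat_lit 76) (nat_lit 26944545129) (nat_lit 50) (nat_lit 5) (nat_lit 53) (nat_lit 5) (nat_lit 51) (nat_lit 5) (nat_lit 405) (nat_lit 365) (nat_lit 250)) (XT.nd (nat_lit 78) (nat_lit 152) (nat_lit 0) (XT.lf (nat_lit 0) (nat_lit 20501586217) (nat_lit 152) (nat_lit 1720860924) (nat_lit 228)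 (nat_lit 22485388176) (nat_lit 48) (nat_lit 5) (nat_lit 50) (nat_lit 5) (nat_lit 51) (nat_lit 5) (nat_lit 406) (nat_lit 365) (nat_lit 249)) (XT.lf (nat_lit 0) (nat_lit 85713961) (nat_lit 152) (nat_lit 32922492092) (nat_lit 228) (nat_lit 13178265266) (nat_lit 46) (nat_lit 5) (nat_lit 48) (nat_lit 5) (nat_lit 49) (nat_lit 5) (nat_lit 407) (nat_lit 365) (nat_lit 248)))) (XT.nd (nat_lit 156) (nat_lit 152) (nat_lit 0) (XT.nd (nat_lit 78) (nat_lit 228) (nat_lit 0) (XT.lf (nat_lit 0) (nat_lit 26395112848) (nat_lit 152) (nat_lit 18370805848) (nat_lit 228) (nat_lit 2951488744) (nat_lit 46) (nat_lit 5) (nat_lit 48) (nat_lit 5) (nat_lit 49) (nat_lit 5) (nat_lit 408) (nat_lit 365) (nat_lit 247)) (XT.lf (nat_lit 0) (nat_lit 4716304000) (nat_lit 152) (nat_lit 2889861724) (nat_lit 228) (nat_lit 41709209554) (nat_lit 43) (nat_lit 5) (nat_lit 45) (nat_lit 5) (nat_lit 46) (nat_lit 5) (nat_lit 409) (nat_lit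 365) (nat_lit 246))) (XT.nd (nat_lit 78) (nat_lit 152) (nat_lit 0) (XT.lf (nat_lit 0) (nat_lit 19163384520) (nat_lit 228) (nat_lit 18449288297) (nat_lit 76) (nat_lit 13349607278) (nat_lit 43) (nat_lit 5) (nat_lit 46) (nat_lit 5) (nat_lit 44) (nat_lit 5) (nat_lit 410) (nat_lit 365) (nat_lit 245)) (XT.lf (nat_lit 0) (nat_lit 9248795423) (nat_lit 152) (nat_lit 22236853461) (nat_lit 228) (nat_lit 21196523357) (nat_lit 41) (nat_lit 5) (nat_lit 43) (nat_lit 5) (nat_lit 44) (nat_lit 5) (nat_lit 411) (nat_lit 365) (nat_lit 244))))))))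
noncomputable def xc159 : XT := (XT.nd (nat_lit 2028) (nat_lit 836) (nat_lit 0) (XT.nd (nat_lit 1014) (nat_lit 684) (nat_lit 0) (XT.nd (nat_lit 468) (nat_lit 532) (nat_lit 0) (XT.nd (nat_lit 234) (nat_lit 228) (nat_lit 0) (XT.nd (nat_lit 78) (nat_lit 152) (nat_lit 0) (XT.lf (nat_lit 0) (nat_lit 38964594456) (nat_lit 152) (nat_lit 5767388109) (nat_lit 228) (nat_lit 9740679884) (nat_lit 41) (nat_lit 5) (nat_lit 43) (nat_lit 5) (nat_lit 44) (nat_lit 5) (nat_lit 412) (nat_lit 365) (nat_lit 243)) (XT.nd (nat_lit 78) (nat_lit 0) (nat_lit 0) (XT.lf (nat_lit 0) (nat_lit 2616603373) (nat_lit 152) (nat_lit 42298519675) (nat_lit 76) (nat_lit 11415675366) (nat_lit 39) (nat_lit 5) (nat_lit 41) (nat_lit 5) (nat_lit 40) (nat_lit 5) (nat_lit 413) (nat_lit 365) (nat_lit 242)) (XT.lf (nat_lit 0) (nat_lit 15621584262) (nat_lit 152) (nat_lit 12946726742) (nat_lit 76) (nat_lit 29687687888) (nat_lit 39) (nat_lit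 5) (nat_lit 41) (nat_lit 5) (nat_lit 40) (nat_lit 5) (nat_lit 414) (nat_lit 365) (nat_lit 241)))) (XT.nd (nat_lit 78) (nat_lit 76) (nat_lit 0) (XT.lf (nat_lit 0) (nat_lit 18456198826) (nat_lit 152) (nat_lit 11104668056) (nat_lit 228) (nat_lit 30702390912) (nat_lit 37) (nat_lit 5) (nat_lit 39) (nat_lit 5) (nat_lit 40) (nat_lit 5) (nat_lit 415) (nat_lit 365) (nat_lit 240)) (XT.nd (nat_lit 78) (nat_lit 76) (nat_lit 0) (XT.lf (nat_lit 0) (nat_lit 44528818711) (nat_lit 228) (nat_lit 10604882812) (nat_lit 76) (nat_lit 7220593850) (nat_lit 37) (nat_lit 5) (nat_lit 40) (nat_lit 5) (nat_lit 38) (nat_lit 4) (nat_lit 416) (nat_lit 365) (nat_lit 239)) (XT.lf (nat_lit 0) (nat_lit 22694870017) (nat_lit 76) (nat_lit 38082803179) (nat_lit 152) (nat_lit 3745587320) (nat_lit 36) (nat_lit 5) (nat_lit 37) (nat_lit 5) (nat_lit 38) (nat_lit 4) (nat_lit 417) (nat_lit 365) (nat_lit 238))))) (XT.nd (nat_lit 234)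 (nat_lit 304) (nat_lit 0) (XT.nd (nat_lit 78) (nat_lit 152) (nat_lit 0) (XT.lf (nat_lit 0) (nat_lit 10863691710) (nat_lit 152) (nat_lit 8946072378) (nat_lit 76) (nat_lit 46973359262) (nat_lit 35) (nat_lit 5) (nat_lit 37) (nat_lit 5) (nat_lit 36) (nat_lit 5) (nat_lit 418) (nat_lit 365) (nat_lit 237)) (XT.nd (nat_lit 78) (nat_lit 0) (nat_lit 0) (XT.lf (nat_lit 0) (nat_lit 26355958130) (nat_lit 152) (nat_lit 129420712) (nat_lit 228) (nat_lit 42647140118) (nat_lit 33) (nat_lit 5) (nat_lit 35) (nat_lit 5) (nat_lit 36) (nat_lit 5) (nat_lit 419) (nat_lit 365) (nat_lit 236)) (XT.lf (nat_lit 0) (nat_lit 43359107634) (nat_lit 228) (nat_lit 8187809089) (nat_lit 76) (nat_lit 20028920535) (nat_lit 33) (nat_lit 5) (nat_lit 36) (nat_lit 5) (nat_lit 34) (nat_lit 4) (nat_lit 420) (nat_lit 365) (nat_lit 235)))) (XT.nd (nat_lit 156) (nat_lit 152) (nat_lit 0) (XT.nd (nat_lit 78) (nat_lit 76) (nat_lit 0) (XT.lf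 (nat_lit 0) (nat_lit 29051826100) (nat_lit 76) (nat_lit 32476931764) (nat_lit 152) (nat_lit 12589952592) (nat_lit 32) (nat_lit 5) (nat_lit 33) (nat_lit 5) (nat_lit 34) (nat_lit 4) (nat_lit 421) (nat_lit 365) (nat_lit 234)) (XT.lf (nat_lit 0) (nat_lit 3833441205) (nat_lit 152) (nat_lit 8412260298) (nat_lit 76) (nat_lit 64533171719) (nat_lit 31) (nat_lit 5) (nat_lit 33) (nat_lit 5) (nat_lit 32) (nat_lit 5) (nat_lit 422) (nat_lit 365) (nat_lit 233))) (XT.nd (nat_lit 78) (nat_lit 0) (nat_lit 0) (XT.lf (nat_lit 0) (nat_lit 21284973418) (nat_lit 228) (nat_lit 48839402203) (nat_lit 76) (nat_lit 9405845822) (nat_lit 29) (nat_lit 5) (nat_lit 32) (nat_lit 5) (nat_lit 30) (nat_lit 4) (nat_lit 423) (nat_lit 365) (nat_lit 232)) (XT.lf (nat_lit 0) (nat_lit 39951365556) (nat_lit 228) (nat_lit 10580001521) (nat_lit 76) (nat_lit 31870656437) (nat_lit 29) (nat_lit 5) (nat_lit 32) (nat_lit 5) (nat_lit 30)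 (nat_lit 4) (nat_lit 424) (nat_lit 365) (nat_lit 231)))))) (XT.nd (nat_lit 468) (nat_lit 380) (nat_lit 0) (XT.nd (nat_lit 234) (nat_lit 76) (nat_lit 0) (XT.nd (nat_lit 78) (nat_lit 152) (nat_lit 0) (XT.lf (nat_lit 0) (nat_lit 30564913043) (nat_lit 76) (nat_lit 29460256692) (nat_lit 152) (nat_lit 25368541910) (nat_lit 28) (nat_lit 5) (nat_lit 29) (nat_lit 5) (nat_lit 30) (nat_lit 4) (nat_lit 425) (nat_lit 365) (nat_lit 230)) (XT.nd (nat_lit 78) (nat_lit 152) (nat_lit 0) (XT.lf (nat_lit 0) (nat_lit 74128755176) (nat_lit 76) (nat_lit 7150035112) (nat_lit 152) (nat_lit 7247388134) (nat_lit 28) (nat_lit 5) (nat_lit 29) (nat_lit 5) (nat_lit 30) (nat_lit 4) (nat_lit 426) (nat_lit 365) (nat_lit 229)) (XT.lf (nat_lit 0) (nat_lit 12113748421) (nat_lit 152) (nat_lit 63260678015) (nat_lit 76) (nat_lit 16396099147) (nat_lit 26) (nat_lit 5) (nat_lit 28) (nat_lit 5) (nat_lit 27) (nat_lit 4) (nat_lit 427)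 (nat_lit 365) (nat_lit 228)))) (XT.nd (nat_lit 78) (nat_lit 76) (nat_lit 0) (XT.lf (nat_lit 0) (nat_lit 32561484211) (nat_lit 152) (nat_lit 21348071780) (nat_lit 76) (nat_lit 41243488996) (nat_lit 26) (nat_lit 5) (nat_lit 28) (nat_lit 5) (nat_lit 27) (nat_lit 4) (nat_lit 428) (nat_lit 365) (nat_lit 227)) (XT.nd (nat_lit 78) (nat_lit 0) (nat_lit 0) (XT.lf (nat_lit 0) (nat_lit 23404020052) (nat_lit 76) (nat_lit 30990192873) (nat_lit 152) (nat_lit 44292347579) (nat_lit 25) (nat_lit 5) (nat_lit 26) (nat_lit 5) (nat_lit 27) (nat_lit 4) (nat_lit 429) (nat_lit 365) (nat_lit 226)) (XT.lf (nat_lit 0) (nat_lit 71129737993) (nat_lit 76) (nat_lit 6547636777) (nat_lit 152) (nat_lit 24701437624) (nat_lit 25) (nat_lit 5) (nat_lit 26) (nat_lit 5) (nat_lit 27) (nat_lit 4) (nat_lit 430) (nat_lit 365) (nat_lit 225))))) (XT.nd (nat_lit 234) (nat_lit 152) (nat_lit 0) (XT.nd (nat_lit 78) (nat_lit 152) (nat_lit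 0) (XT.lf (nat_lit 0) (nat_lit 15168081337) (nat_lit 76) (nat_lit 87489252138) (nat_lit 76) (nat_lit 3571711874) (nat_lit 24) (nat_lit 4) (nat_lit 25) (nat_lit 5) (nat_lit 25) (nat_lit 4) (nat_lit 431) (nat_lit 365) (nat_lit 224)) (XT.nd (nat_lit 78) (nat_lit 76) (nat_lit 0) (XT.lf (nat_lit 0) (nat_lit 18661310480) (nat_lit 152) (nat_lit 45665968963) (nat_lit 76) (nat_lit 45897850126) (nat_lit 23) (nat_lit 5) (nat_lit 25) (nat_lit 5) (nat_lit 24) (nat_lit 4) (nat_lit 432) (nat_lit 365) (nat_lit 223)) (XT.lf (nat_lit 0) (nat_lit 1999462710) (nat_lit 76) (nat_lit 39915189670) (nat_lit 152) (nat_lit 72502003272) (nat_lit 22) (nat_lit 5) (nat_lit 23) (nat_lit 5) (nat_lit 24) (nat_lit 4) (nat_lit 433) (nat_lit 365) (nat_lit 222)))) (XT.nd (nat_lit 156) (nat_lit 152) (nat_lit 0) (XT.nd (nat_lit 78) (nat_lit 0) (nat_lit 0) (XT.lf (nat_lit 0) (nat_lit 53628906234) (nat_lit 76) (nat_lit 13472661326)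 (nat_lit 152) (nat_lit 51677645509) (nat_lit 22) (nat_lit 5) (nat_lit 23) (nat_lit 5) (nat_lit 24) (nat_lit 4) (nat_lit 434) (nat_lit 365) (nat_lit 221)) (XT.lf (nat_lit 0) (nat_lit 93768582186) (nat_lit 152) (nat_lit 15747755778) (nat_lit 0) (nat_lit 13832523028) (nat_lit 22) (nat_lit 5) (nat_lit 24) (nat_lit 4) (nat_lit 22) (nat_lit 4) (nat_lit 435) (nat_lit 365) (nat_lit 220))) (XT.nd (nat_lit 78) (nat_lit 76) (nat_lit 0) (XT.lf (nat_lit 0) (nat_lit 37086741849) (nat_lit 76) (nat_lit 85479826130) (nat_lit 76) (nat_lit 5540542617) (nat_lit 21) (nat_lit 4) (nat_lit 22) (nat_lit 5) (nat_lit 22) (nat_lit 4) (nat_lit 436) (nat_lit 365) (nat_lit 219)) (XT.lf (nat_lit 0) (nat_lit 19339421532) (nat_lit 152) (nat_lit 40296540184) (nat_lit 76) (nat_lit 73438491610) (nat_lit 20) (nat_lit 5) (nat_lit 22) (nat_lit 5) (nat_lit 21) (nat_lit 4) (nat_lit 437) (nat_lit 365) (nat_lit 218))))))) (XT.nd (nat_lit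 1014) (nat_lit 304) (nat_lit 0) (XT.nd (nat_lit 468) (nat_lit 304) (nat_lit 0) (XT.nd (nat_lit 234) (nat_lit 152) (nat_lit 0) (XT.nd (nat_lit 78) (nat_lit 0) (nat_lit 0) (XT.lf (nat_lit 0) (nat_lit 13294018595) (nat_lit 76) (nat_lit 32188565553) (nat_lit 152) (nat_lit 92792767940) (nat_lit 19) (nat_lit 5) (nat_lit 20) (nat_lit 5) (nat_lit 21) (nat_lit 4) (nat_lit 438) (nat_lit 365) (nat_lit 217)) (XT.nd (nat_lit 78) (nat_lit 0) (nat_lit 0) (XT.lf (nat_lit 0) (nat_lit 70959052456) (nat_lit 76) (nat_lit 2654175195) (nat_lit 152) (nat_lit 70089052252) (nat_lit 19) (nat_lit 5) (nat_lit 20) (nat_lit 5) (nat_lit 21) (nat_lit 4) (nat_lit 439) (nat_lit 365) (nat_lit 216)) (XT.lf (nat_lit 0) (nat_lit 103591087952) (nat_lit 152) (nat_lit 18339884129) (nat_lit 0) (nat_lit 27447548034) (nat_lit 19) (nat_lit 5) (nat_lit 21) (nat_lit 4) (nat_lit 19) (nat_lit 4) (nat_lit 440) (nat_lit 365) (nat_lit 215))))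 (XT.nd (nat_lit 78) (nat_lit 76) (nat_lit 0) (XT.lf (nat_lit 0) (nat_lit 40017165139) (nat_lit 76) (nat_lit 95717018154) (nat_lit 76) (nat_lit 19571072173) (nat_lit 18) (nat_lit 4) (nat_lit 19) (nat_lit 5) (nat_lit 19) (nat_lit 4) (nat_lit 441) (nat_lit 365) (nat_lit 214)) (XT.nd (nat_lit 78) (nat_lit 0) (nat_lit 0) (XT.lf (nat_lit 0) (nat_lit 8015201770) (nat_lit 152) (nat_lit 59717073840) (nat_lit 76) (nat_lit 93774154274) (nat_lit 17) (nat_lit 5) (nat_lit 19) (nat_lit 5) (nat_lit 18) (nat_lit 4) (nat_lit 442) (nat_lit 365) (nat_lit 213)) (XT.lf (nat_lit 0) (nat_lit 36321220191) (nat_lit 152) (nat_lit 1691918446) (nat_lit 76) (nat_lit 129988575363) (nat_lit 17) (nat_lit 5) (nat_lit 19) (nat_lit 5) (nat_lit 18) (nat_lit 4) (nat_lit 443) (nat_lit 365) (nat_lit 212))))) (XT.nd (nat_lit 234) (nat_lit 152) (nat_lit 0) (XT.nd (nat_lit 78) (nat_lit 76) (nat_lit 0) (XT.lf (nat_lit 0) (nat_lit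 61189537607) (nat_lit 76) (nat_lit 5806577463) (nat_lit 152) (nat_lit 107777968664) (nat_lit 16) (nat_lit 5) (nat_lit 17) (nat_lit 5) (nat_lit 18) (nat_lit 4) (nat_lit 444) (nat_lit 365) (nat_lit 211)) (XT.nd (nat_lit 78) (nat_lit 76) (nat_lit 0) (XT.lf (nat_lit 0) (nat_lit 99669439211) (nat_lit 152) (nat_lit 55051033544) (nat_lit 0) (nat_lit 27141365152) (nat_lit 16) (nat_lit 5) (nat_lit 18) (nat_lit 4) (nat_lit 16) (nat_lit 4) (nat_lit 445) (nat_lit 365) (nat_lit 210)) (XT.lf (nat_lit 0) (nat_lit 6519376963) (nat_lit 76) (nat_lit 127652353720) (nat_lit 76) (nat_lit 55122484220) (nat_lit 15) (nat_lit 4) (nat_lit 16) (nat_lit 5) (nat_lit 16) (nat_lit 4) (nat_lit 446) (nat_lit 365) (nat_lit 209)))) (XT.nd (nat_lit 156) (nat_lit 76) (nat_lit 0) (XT.nd (nat_lit 78) (nat_lit 76) (nat_lit 0) (XT.lf (nat_lit 0) (nat_lit 73076359284) (nat_lit 76) (nat_lit 98253448752) (nat_lit 76) (nat_lit 25721869308)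 (nat_lit 15) (nat_lit 4) (nat_lit 16) (nat_lit 5) (nat_lit 16) (nat_lit 4) (nat_lit 447) (nat_lit 365) (nat_lit 208)) (XT.lf (nat_lit 0) (nat_lit 4982391255) (nat_lit 152) (nat_lit 62319305888) (nat_lit 76) (nat_lit 137891376176) (nat_lit 14) (nat_lit 5) (nat_lit 16) (nat_lit 5) (nat_lit 15) (nat_lit 4) (nat_lit 448) (nat_lit 365) (nat_lit 207))) (XT.nd (nat_lit 78) (nat_lit 0) (nat_lit 0) (XT.lf (nat_lit 0) (nat_lit 2060847491) (nat_lit 76) (nat_lit 34327253203) (nat_lit 152) (nat_lit 177330822073) (nat_lit 13) (nat_lit 5) (nat_lit 14) (nat_lit 5) (nat_lit 15) (nat_lit 4) (nat_lit 449) (nat_lit 365) (nat_lit 206)) (XT.lf (nat_lit 0) (nat_lit 70439913562) (nat_lit 152) (nat_lit 150819576364) (nat_lit 0) (nat_lit 1357783995) (nat_lit 13) (nat_lit 5) (nat_lit 15) (nat_lit 4) (nat_lit 13) (nat_lit 4) (nat_lit 450) (nat_lit 365) (nat_lit 205)))))) (XT.nd (nat_lit 468) (nat_lit 76) (nat_lit 0)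 (XT.nd (nat_lit 234) (nat_lit 152) (nat_lit 0) (XT.nd (nat_lit 78) (nat_lit 76) (nat_lit 0) (XT.lf (nat_lit 0) (nat_lit 106755619468) (nat_lit 152) (nat_lit 87504708060) (nat_lit 0) (nat_lit 37672150114) (nat_lit 13) (nat_lit 5) (nat_lit 15) (nat_lit 4) (nat_lit 13) (nat_lit 4) (nat_lit 451) (nat_lit 365) (nat_lit 204)) (XT.nd (nat_lit 78) (nat_lit 76) (nat_lit 0) (XT.lf (nat_lit 0) (nat_lit 144885739752) (nat_lit 152) (nat_lit 21026776052) (nat_lit 0) (nat_lit 75800994412) (nat_lit 13) (nat_lit 5) (nat_lit 15) (nat_lit 4) (nat_lit 13) (nat_lit 4) (nat_lit 452) (nat_lit 365) (nat_lit 203)) (XT.lf (nat_lit 0) (nat_lit 50385139576) (nat_lit 76) (nat_lit 135322574071) (nat_lit 76) (nat_lit 66236613506) (nat_lit 12) (nat_lit 4) (nat_lit 13) (nat_lit 5) (nat_lit 13) (nat_lit 4) (nat_lit 453) (nat_lit 365) (nat_lit 202)))) (XT.nd (nat_lit 78) (nat_lit 152) (nat_lit 0) (XT.lf (nat_lit 0) (nat_lit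 126095142229) (nat_lit 76) (nat_lit 102830459972) (nat_lit 76) (nat_lit 33743342049) (nat_lit 12) (nat_lit 4) (nat_lit 13) (nat_lit 5) (nat_lit 13) (nat_lit 4) (nat_lit 454) (nat_lit 365) (nat_lit 201)) (XT.nd (nat_lit 78) (nat_lit 76) (nat_lit 0) (XT.lf (nat_lit 0) (nat_lit 361361953) (nat_lit 152) (nat_lit 68347428163) (nat_lit 76) (nat_lit 205220771847) (nat_lit 11) (nat_lit 5) (nat_lit 13) (nat_lit 5) (nat_lit 12) (nat_lit 4) (nat_lit 455) (nat_lit 365) (nat_lit 200)) (XT.lf (nat_lit 0) (nat_lit 2825202265) (nat_lit 76) (nat_lit 32255028071) (nat_lit 152) (nat_lit 250643175507) (nat_lit 10) (nat_lit 5) (nat_lit 11) (nat_lit 5) (nat_lit 12) (nat_lit 4) (nat_lit 456) (nat_lit 365) (nat_lit 199))))) (XT.nd (nat_lit 234) (nat_lit 76) (nat_lit 0) (XT.nd (nat_lit 78) (nat_lit 0) (nat_lit 0) (XT.lf (nat_lit 0) (nat_lit 72804346234) (nat_lit 152) (nat_lit 218235041187) (nat_lit 0) (nat_lit 7004089382)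 (nat_lit 10) (nat_lit 5) (nat_lit 12) (nat_lit 4) (nat_lit 10) (nat_lit 4) (nat_lit 457) (nat_lit 365) (nat_lit 198)) (XT.nd (nat_lit 78) (nat_lit 0) (nat_lit 0) (XT.lf (nat_lit 0) (nat_lit 112942315731) (nat_lit 152) (nat_lit 150869701215) (nat_lit 0) (nat_lit 47141152059) (nat_lit 10) (nat_lit 5) (nat_lit 12) (nat_lit 4) (nat_lit 10) (nat_lit 4) (nat_lit 458) (nat_lit 365) (nat_lit 197)) (XT.lf (nat_lit 0) (nat_lit 155086114040) (nat_lit 152) (nat_lit 80138198613) (nat_lit 0) (nat_lit 89284086731) (nat_lit 10) (nat_lit 5) (nat_lit 12) (nat_lit 4) (nat_lit 10) (nat_lit 4) (nat_lit 459) (nat_lit 365) (nat_lit 196)))) (XT.nd (nat_lit 156) (nat_lit 0) (nat_lit 0) (XT.nd (nat_lit 78) (nat_lit 76) (nat_lit 0) (XT.lf (nat_lit 0) (nat_lit 199336083539) (nat_lit 152) (nat_lit 5872125040) (nat_lit 0) (nat_lit 133533233717) (nat_lit 10) (nat_lit 5) (nat_lit 12) (nat_lit 4) (nat_lit 10) (nat_lit 4)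 (nat_lit 460) (nat_lit 365) (nat_lit 195)) (XT.lf (nat_lit 0) (nat_lit 74489471778) (nat_lit 76) (nat_lit 172471098928) (nat_lit 76) (nat_lit 106667465761) (nat_lit 9) (nat_lit 4) (nat_lit 10) (nat_lit 5) (nat_lit 10) (nat_lit 4) (nat_lit 461) (nat_lit 365) (nat_lit 194))) (XT.nd (nat_lit 78) (nat_lit 0) (nat_lit 0) (XT.lf (nat_lit 0) (nat_lit 159071137422) (nat_lit 76) (nat_lit 137993638754) (nat_lit 76) (nat_lit 72189259544) (nat_lit 9) (nat_lit 4) (nat_lit 10) (nat_lit 5) (nat_lit 10) (nat_lit 4) (nat_lit 462) (nat_lit 365) (nat_lit 193)) (XT.lf (nat_lit 0) (nat_lit 247880097836) (nat_lit 76) (nat_lit 101793186146) (nat_lit 76) (nat_lit 35988096419) (nat_lit 9) (nat_lit 4) (nat_lit 10) (nat_lit 5) (nat_lit 10) (nat_lit 4) (nat_lit 463) (nat_lit 365) (nat_lit 192))))))))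
noncomputable def xc160 : XT := (XT.nd (nat_lit 46488) (nat_lit 0) (nat_lit 3572) (XT.nd (nat_lit 45474) (nat_lit 0) (nat_lit 7524) (XT.nd (nat_lit 468) (nat_lit 76) (nat_lit 0) (XT.nd (nat_lit 234) (nat_lit 0) (nat_lit 0) (XT.nd (nat_lit 78) (nat_lit 76) (nat_lit 0) (XT.lf (nat_lit 0) (nat_lit 1957493290) (nat_lit 152) (nat_lit 61792905164) (nat_lit 76) (nat_lit 339137158538) (nat_lit 8) (nat_lit 5) (nat_lit 10) (nat_lit 5) (nat_lit 9) (nat_lit 4) (nat_lit 464) (nat_lit 365) (nat_lit 191)) (XT.nd (nat_lit 78) (nat_lit 0) (nat_lit 0) (XT.lf (nat_lit 0) (nat_lit 17978703124) (nat_lit 76) (nat_lit 22892084190) (nat_lit 152) (nat_lit 380060763675) (nat_lit 7) (nat_lit 5) (nat_lit 8) (nat_lit 5) (nat_lit 9) (nat_lit 4) (nat_lit 465) (nat_lit 365) (nat_lit 190)) (XT.lf (nat_lit 0) (nat_lit 83104958175) (nat_lit 152) (nat_lit 336272424584) (nat_lit 0) (nat_lit 20431601373) (nat_lit 7) (nat_lit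 5) (nat_lit 9) (nat_lit 4) (nat_lit 7) (nat_lit 4) (nat_lit 466) (nat_lit 365) (nat_lit 189)))) (XT.nd (nat_lit 78) (nat_lit 0) (nat_lit 0) (XT.lf (nat_lit 0) (nat_lit 127825322340) (nat_lit 152) (nat_lit 266634833578) (nat_lit 0) (nat_lit 65151408830) (nat_lit 7) (nat_lit 5) (nat_lit 9) (nat_lit 4) (nat_lit 7) (nat_lit 4) (nat_lit 467) (nat_lit 365) (nat_lit 188)) (XT.nd (nat_lit 78) (nat_lit 0) (nat_lit 0) (XT.lf (nat_lit 0) (nat_lit 174780947278) (nat_lit 152) (nat_lit 193516861470) (nat_lit 0) (nat_lit 112106503569) (nat_lit 7) (nat_lit 5) (nat_lit 9) (nat_lit 4) (nat_lit 7) (nat_lit 4) (nat_lit 468) (nat_lit 365) (nat_lit 187)) (XT.lf (nat_lit 0) (nat_lit 224083632096) (nat_lit 152) (nat_lit 116744417849) (nat_lit 0) (nat_lit 161408683436) (nat_lit 7) (nat_lit 5) (nat_lit 9) (nat_lit 4) (nat_lit 7) (nat_lit 4) (nat_lit 469) (nat_lit 365) (nat_lit 186))))) (XT.nd (nat_lit 234) (nat_lit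 0) (nat_lit 0) (XT.nd (nat_lit 78) (nat_lit 76) (nat_lit 0) (XT.lf (nat_lit 0) (nat_lit 275850764138) (nat_lit 152) (nat_lit 36134711184) (nat_lit 0) (nat_lit 213175334572) (nat_lit 7) (nat_lit 5) (nat_lit 9) (nat_lit 4) (nat_lit 7) (nat_lit 4) (nat_lit 470) (nat_lit 365) (nat_lit 185)) (XT.nd (nat_lit 78) (nat_lit 0) (nat_lit 0) (XT.lf (nat_lit 0) (nat_lit 50107953852) (nat_lit 76) (nat_lit 280879970216) (nat_lit 76) (nat_lit 218204082644) (nat_lit 6) (nat_lit 4) (nat_lit 7) (nat_lit 5) (nat_lit 7) (nat_lit 4) (nat_lit 471) (nat_lit 365) (nat_lit 184)) (XT.lf (nat_lit 0) (nat_lit 141915994180) (nat_lit 76) (nat_lit 247577263605) (nat_lit 76) (nat_lit 184900939837) (nat_lit 6) (nat_lit 4) (nat_lit 7) (nat_lit 5) (nat_lit 7) (nat_lit 4) (nat_lit 472) (nat_lit 365) (nat_lit 183)))) (XT.nd (nat_lit 78) (nat_lit 0) (nat_lit 0) (XT.lf (nat_lit 0) (nat_lit 238313223632) (nat_lit 76) (nat_lit 212610022149)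 (nat_lit 76) (nat_lit 149933282957) (nat_lit 6) (nat_lit 4) (nat_lit 7) (nat_lit 5) (nat_lit 7) (nat_lit 4) (nat_lit 473) (nat_lit 365) (nat_lit 182)) (XT.nd (nat_lit 78) (nat_lit 0) (nat_lit 0) (XT.lf (nat_lit 0) (nat_lit 339529159420) (nat_lit 76) (nat_lit 175894990512) (nat_lit 76) (nat_lit 113217855678) (nat_lit 6) (nat_lit 4) (nat_lit 7) (nat_lit 5) (nat_lit 7) (nat_lit 4) (nat_lit 474) (nat_lit 365) (nat_lit 181)) (XT.lf (nat_lit 0) (nat_lit 445804791867) (nat_lit 76) (nat_lit 137344751952) (nat_lit 76) (nat_lit 74667240315) (nat_lit 6) (nat_lit 4) (nat_lit 7) (nat_lit 5) (nat_lit 7) (nat_lit 4) (nat_lit 475) (nat_lit 365) (nat_lit 180)))))) (XT.nd (nat_lit 468) (nat_lit 456) (nat_lit 0) (XT.nd (nat_lit 234) (nat_lit 760) (nat_lit 0) (XT.nd (nat_lit 78) (nat_lit 0) (nat_lit 0) (XT.lf (nat_lit 0) (nat_lit 3434289666) (nat_lit 0) (nat_lit 3434289666) (nat_lit 684) (nat_lit 472036557)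 (nat_lit 121) (nat_lit 5) (nat_lit 121) (nat_lit 3) (nat_lit 130) (nat_lit 3) (nat_lit 366) (nat_lit 366) (nat_lit 288)) (XT.nd (nat_lit 78) (nat_lit 0) (nat_lit 0) (XT.lf (nat_lit 0) (nat_lit 14301426362) (nat_lit 0) (nat_lit 78065258) (nat_lit 684) (nat_lit 653600340) (nat_lit 121) (nat_lit 5) (nat_lit 121) (nat_lit 3) (nat_lit 130) (nat_lit 3) (nat_lit 367) (nat_lit 366) (nat_lit 287)) (XT.lf (nat_lit 76) (nat_lit 6800232136) (nat_lit 0) (nat_lit 8450996627) (nat_lit 760) (nat_lit 141466437) (nat_lit 122) (nat_lit 5) (nat_lit 121) (nat_lit 5) (nat_lit 131) (nat_lit 5) (nat_lit 368) (nat_lit 366) (nat_lit 286)))) (XT.nd (nat_lit 78) (nat_lit 0) (nat_lit 76) (XT.lf (nat_lit 0) (nat_lit 378908145) (nat_lit 760) (nat_lit 1054343903) (nat_lit 836) (nat_lit 14336964433) (nat_lit 111) (nat_lit 5) (nat_lit 121) (nat_lit 5) (nat_lit 122) (nat_lit 5) (nat_lit 369) (nat_lit 366) (nat_lit 285)) (XT.nd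 (nat_lit 78) (nat_lit 0) (nat_lit 0) (XT.lf (nat_lit 0) (nat_lit 1107948545) (nat_lit 760) (nat_lit 9182329747) (nat_lit 836) (nat_lit 5866861977) (nat_lit 112) (nat_lit 5) (nat_lit 122) (nat_lit 5) (nat_lit 123) (nat_lit 5) (nat_lit 370) (nat_lit 366) (nat_lit 284)) (XT.lf (nat_lit 0) (nat_lit 1898193246) (nat_lit 760) (nat_lit 1155682791) (nat_lit 836) (nat_lit 13508308468) (nat_lit 112) (nat_lit 5) (nat_lit 122) (nat_lit 5) (nat_lit 123) (nat_lit 5) (nat_lit 371) (nat_lit 366) (nat_lit 283))))) (XT.nd (nat_lit 234) (nat_lit 608) (nat_lit 0) (XT.nd (nat_lit 78) (nat_lit 0) (nat_lit 0) (XT.lf (nat_lit 0) (nat_lit 2901933897) (nat_lit 760) (nat_lit 9553860622) (nat_lit 836) (nat_lit 4522998553) (nat_lit 113) (nat_lit 5) (nat_lit 123) (nat_lit 5) (nat_lit 124) (nat_lit 5) (nat_lit 372) (nat_lit 366) (nat_lit 282)) (XT.nd (nat_lit 78) (nat_lit 0) (nat_lit 76) (XT.lf (nat_lit 0) (nat_lit 4010404459)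 (nat_lit 760) (nat_lit 1002482472) (nat_lit 836) (nat_lit 12400628761) (nat_lit 113) (nat_lit 5) (nat_lit 123) (nat_lit 5) (nat_lit 124) (nat_lit 5) (nat_lit 373) (nat_lit 366) (nat_lit 281)) (XT.lf (nat_lit 0) (nat_lit 5334007592) (nat_lit 760) (nat_lit 9681365253) (nat_lit 836) (nat_lit 2846626399) (nat_lit 114) (nat_lit 5) (nat_lit 124) (nat_lit 5) (nat_lit 125) (nat_lit 5) (nat_lit 374) (nat_lit 366) (nat_lit 280)))) (XT.nd (nat_lit 156) (nat_lit 684) (nat_lit 0) (XT.nd (nat_lit 78) (nat_lit 0) (nat_lit 76) (XT.lf (nat_lit 0) (nat_lit 6809127740) (nat_lit 760) (nat_lit 568392541) (nat_lit 836) (nat_lit 10951129617) (nat_lit 114) (nat_lit 5) (nat_lit 124) (nat_lit 5) (nat_lit 125) (nat_lit 5) (nat_lit 375) (nat_lit 366) (nat_lit 279)) (XT.lf (nat_lit 0) (nat_lit 8502005804) (nat_lit 760) (nat_lit 9538089364) (nat_lit 76) (nat_lit 771347123) (nat_lit 115) (nat_lit 5) (nat_lit 125) (nat_lit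 5) (nat_lit 116) (nat_lit 5) (nat_lit 376) (nat_lit 366) (nat_lit 278))) (XT.nd (nat_lit 78) (nat_lit 0) (nat_lit 0) (XT.lf (nat_lit 0) (nat_lit 182209570) (nat_lit 760) (nat_lit 10217966185) (nat_lit 836) (nat_lit 8912175007) (nat_lit 105) (nat_lit 5) (nat_lit 115) (nat_lit 5) (nat_lit 116) (nat_lit 5) (nat_lit 377) (nat_lit 366) (nat_lit 277)) (XT.lf (nat_lit 0) (nat_lit 10708303142) (nat_lit 760) (nat_lit 1833997672) (nat_lit 836) (nat_lit 7288559951) (nat_lit 105) (nat_lit 5) (nat_lit 115) (nat_lit 5) (nat_lit 116) (nat_lit 5) (nat_lit 378) (nat_lit 366) (nat_lit 276))))))) (XT.nd (nat_lit 1014) (nat_lit 1596) (nat_lit 0) (XT.nd (nat_lit 468) (nat_lit 1216) (nat_lit 0) (XT.nd (nat_lit 234) (nat_lit 456) (nat_lit 0) (XT.nd (nat_lit 78) (nat_lit 304) (nat_lit 0) (XT.lf (nat_lit 0) (nat_lit 1306989149) (nat_lit 380) (nat_lit 13601882719) (nat_lit 456) (nat_lit 5460565445) (nat_lit 100)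 (nat_lit 5) (nat_lit 105) (nat_lit 5) (nat_lit 106) (nat_lit 5) (nat_lit 379) (nat_lit 366) (nat_lit 275)) (XT.nd (nat_lit 78) (nat_lit 304) (nat_lit 0) (XT.lf (nat_lit 0) (nat_lit 12532413204) (nat_lit 380) (nat_lit 5033949243) (nat_lit 456) (nat_lit 3359958346) (nat_lit 100) (nat_lit 5) (nat_lit 105) (nat_lit 5) (nat_lit 106) (nat_lit 5) (nat_lit 380) (nat_lit 366) (nat_lit 274)) (XT.lf (nat_lit 0) (nat_lit 2825348282) (nat_lit 304) (nat_lit 17626420484) (nat_lit 380) (nat_lit 1054534910) (nat_lit 96) (nat_lit 5) (nat_lit 100) (nat_lit 5) (nat_lit 101) (nat_lit 5) (nat_lit 381) (nat_lit 366) (nat_lit 273)))) (XT.nd (nat_lit 78) (nat_lit 380) (nat_lit 0) (XT.lf (nat_lit 0) (nat_lit 1538676028) (nat_lit 380) (nat_lit 7328834627) (nat_lit 76) (nat_lit 13235903078) (nat_lit 95) (nat_lit 5) (nat_lit 100) (nat_lit 5) (nat_lit 96) (nat_lit 5) (nat_lit 382) (nat_lit 366) (nat_lit 272)) (XT.nd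 (nat_lit 78) (nat_lit 0) (nat_lit 0) (XT.lf (nat_lit 0) (nat_lit 4296067239) (nat_lit 456) (nat_lit 18019419743) (nat_lit 76) (nat_lit 410536285) (nat_lit 90) (nat_lit 5) (nat_lit 96) (nat_lit 5) (nat_lit 91) (nat_lit 5) (nat_lit 383) (nat_lit 366) (nat_lit 271)) (XT.lf (nat_lit 0) (nat_lit 7452902910) (nat_lit 456) (nat_lit 5933932930) (nat_lit 76) (nat_lit 9979854687) (nat_lit 90) (nat_lit 5) (nat_lit 96) (nat_lit 5) (nat_lit 91) (nat_lit 5) (nat_lit 384) (nat_lit 366) (nat_lit 270))))) (XT.nd (nat_lit 234) (nat_lit 608) (nat_lit 0) (XT.nd (nat_lit 78) (nat_lit 304) (nat_lit 0) (XT.lf (nat_lit 0) (nat_lit 6968161519) (nat_lit 304) (nat_lit 3898738805) (nat_lit 380) (nat_lit 13167530539) (nat_lit 86) (nat_lit 5) (nat_lit 90) (nat_lit 5) (nat_lit 91) (nat_lit 5) (nat_lit 385) (nat_lit 366) (nat_lit 269)) (XT.nd (nat_lit 78) (nat_lit 304) (nat_lit 0) (XT.lf (nat_lit 0) (nat_lit 14639204873)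 (nat_lit 380) (nat_lit 4116442704) (nat_lit 76) (nat_lit 5970535714) (nat_lit 86) (nat_lit 5) (nat_lit 91) (nat_lit 5) (nat_lit 87) (nat_lit 5) (nat_lit 386) (nat_lit 366) (nat_lit 268)) (XT.lf (nat_lit 0) (nat_lit 9717542756) (nat_lit 304) (nat_lit 9089445585) (nat_lit 380) (nat_lit 6635196994) (nat_lit 82) (nat_lit 5) (nat_lit 86) (nat_lit 5) (nat_lit 87) (nat_lit 5) (nat_lit 387) (nat_lit 366) (nat_lit 267)))) (XT.nd (nat_lit 156) (nat_lit 304) (nat_lit 0) (XT.nd (nat_lit 78) (nat_lit 304) (nat_lit 0) (XT.lf (nat_lit 0) (nat_lit 23262029908) (nat_lit 380) (nat_lit 1832729554) (nat_lit 76) (nat_lit 1095289506) (nat_lit 82) (nat_lit 5) (nat_lit 87) (nat_lit 5) (nat_lit 83) (nat_lit 5) (nat_lit 388) (nat_lit 366) (nat_lit 266)) (XT.lf (nat_lit 0) (nat_lit 1283296407) (nat_lit 304) (nat_lit 13967768813) (nat_lit 76) (nat_lit 11706009634) (nat_lit 78) (nat_lit 5) (nat_lit 82) (nat_lit 5) (nat_lit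 79) (nat_lit 5) (nat_lit 389) (nat_lit 366) (nat_lit 265))) (XT.nd (nat_lit 78) (nat_lit 0) (nat_lit 0) (XT.lf (nat_lit 0) (nat_lit 822721634) (nat_lit 304) (nat_lit 4820412661) (nat_lit 380) (nat_lit 22115104120) (nat_lit 74) (nat_lit 5) (nat_lit 78) (nat_lit 5) (nat_lit 79) (nat_lit 5) (nat_lit 390) (nat_lit 366) (nat_lit 264)) (XT.lf (nat_lit 0) (nat_lit 10549281285) (nat_lit 380) (nat_lit 11860044622) (nat_lit 76) (nat_lit 6173722446) (nat_lit 74) (nat_lit 5) (nat_lit 79) (nat_lit 5) (nat_lit 75) (nat_lit 5) (nat_lit 391) (nat_lit 366) (nat_lit 263)))))) (XT.nd (nat_lit 468) (nat_lit 836) (nat_lit 0) (XT.nd (nat_lit 234) (nat_lit 304) (nat_lit 0) (XT.nd (nat_lit 78) (nat_lit 228) (nat_lit 0) (XT.lf (nat_lit 0) (nat_lit 4008507673) (nat_lit 228) (nat_lit 11826363000) (nat_lit 304) (nat_lit 13607525226) (nat_lit 71) (nat_lit 5) (nat_lit 74) (nat_lit 5) (nat_lit 75) (nat_lit 5) (nat_lit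 392) (nat_lit 366) (nat_lit 262)) (XT.nd (nat_lit 78) (nat_lit 228) (nat_lit 0) (XT.lf (nat_lit 0) (nat_lit 21072434725) (nat_lit 228) (nat_lit 505890956) (nat_lit 304) (nat_lit 8756709513) (nat_lit 71) (nat_lit 5) (nat_lit 74) (nat_lit 5) (nat_lit 75) (nat_lit 5) (nat_lit 393) (nat_lit 366) (nat_lit 261)) (XT.lf (nat_lit 0) (nat_lit 7778889819) (nat_lit 228) (nat_lit 20122236018) (nat_lit 304) (nat_lit 3356575505) (nat_lit 68) (nat_lit 5) (nat_lit 71) (nat_lit 5) (nat_lit 72) (nat_lit 5) (nat_lit 394) (nat_lit 366) (nat_lit 260)))) (XT.nd (nat_lit 78) (nat_lit 228) (nat_lit 0) (XT.lf (nat_lit 0) (nat_lit 2400356031) (nat_lit 304) (nat_lit 6281339551) (nat_lit 76) (nat_lit 23534960365) (nat_lit 67) (nat_lit 5) (nat_lit 71) (nat_lit 5) (nat_lit 68) (nat_lit 5) (nat_lit 395) (nat_lit 366) (nat_lit 259)) (XT.nd (nat_lit 78) (nat_lit 0) (nat_lit 0) (XT.lf (nat_lit 0) (nat_lit 8570626759) (nat_lit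 304) (nat_lit 21168695681) (nat_lit 76) (nat_lit 3469572801) (nat_lit 64) (nat_lit 5) (nat_lit 68) (nat_lit 5) (nat_lit 65) (nat_lit 5) (nat_lit 396) (nat_lit 366) (nat_lit 258)) (XT.lf (nat_lit 0) (nat_lit 15293419167) (nat_lit 304) (nat_lit 2902999477) (nat_lit 76) (nat_lit 16042130332) (nat_lit 64) (nat_lit 5) (nat_lit 68) (nat_lit 5) (nat_lit 65) (nat_lit 5) (nat_lit 397) (nat_lit 366) (nat_lit 257))))) (XT.nd (nat_lit 234) (nat_lit 380) (nat_lit 0) (XT.nd (nat_lit 78) (nat_lit 228) (nat_lit 0) (XT.lf (nat_lit 0) (nat_lit 16804895881) (nat_lit 228) (nat_lit 5803697164) (nat_lit 304) (nat_lit 12698283008) (nat_lit 61) (nat_lit 5) (nat_lit 64) (nat_lit 5) (nat_lit 65) (nat_lit 5) (nat_lit 398) (nat_lit 366) (nat_lit 256)) (XT.nd (nat_lit 78) (nat_lit 76) (nat_lit 0) (XT.lf (nat_lit 0) (nat_lit 1085127614) (nat_lit 152) (nat_lit 29377837570) (nat_lit 228) (nat_lit 5956984935) (nat_lit 59)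 (nat_lit 5) (nat_lit 61) (nat_lit 5) (nat_lit 62) (nat_lit 5) (nat_lit 399) (nat_lit 366) (nat_lit 255)) (XT.lf (nat_lit 0) (nat_lit 1493135645) (nat_lit 228) (nat_lit 15405974124) (nat_lit 76) (nat_lit 20668312666) (nat_lit 58) (nat_lit 5) (nat_lit 61) (nat_lit 5) (nat_lit 59) (nat_lit 5) (nat_lit 400) (nat_lit 366) (nat_lit 254)))) (XT.nd (nat_lit 156) (nat_lit 152) (nat_lit 0) (XT.nd (nat_lit 78) (nat_lit 0) (nat_lit 0) (XT.lf (nat_lit 0) (nat_lit 5591958942) (nat_lit 228) (nat_lit 3605229442) (nat_lit 304) (nat_lit 29566118473) (nat_lit 55) (nat_lit 5) (nat_lit 58) (nat_lit 5) (nat_lit 59) (nat_lit 5) (nat_lit 401) (nat_lit 366) (nat_lit 253)) (XT.lf (nat_lit 0) (nat_lit 17707677771) (nat_lit 304) (nat_lit 12005985476) (nat_lit 76) (nat_lit 10284262706) (nat_lit 55) (nat_lit 5) (nat_lit 59) (nat_lit 5) (nat_lit 56) (nat_lit 5) (nat_lit 402) (nat_lit 366) (nat_lit 252))) (XT.nd (nat_lit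 78) (nat_lit 0) (nat_lit 0) (XT.lf (nat_lit 0) (nat_lit 10485799019) (nat_lit 152) (nat_lit 16375378371) (nat_lit 228) (nat_lit 14422226374) (nat_lit 53) (nat_lit 5) (nat_lit 55) (nat_lit 5) (nat_lit 56) (nat_lit 5) (nat_lit 403) (nat_lit 366) (nat_lit 251)) (XT.lf (nat_lit 0) (nat_lit 34510773203) (nat_lit 152) (nat_lit 2159702318) (nat_lit 228) (nat_lit 5952775720) (nat_lit 53) (nat_lit 5) (nat_lit 55) (nat_lit 5) (nat_lit 56) (nat_lit 5) (nat_lit 404) (nat_lit 366) (nat_lit 250))))))))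
noncomputable def xc161 : XT := (XT.nd (nat_lit 1950) (nat_lit 1064) (nat_lit 0) (XT.nd (nat_lit 936) (nat_lit 836) (nat_lit 0) (XT.nd (nat_lit 468) (nat_lit 456) (nat_lit 0) (XT.nd (nat_lit 234) (nat_lit 380) (nat_lit 0) (XT.nd (nat_lit 78) (nat_lit 152) (nat_lit 0) (XT.lf (nat_lit 0) (nat_lit 3297643314) (nat_lit 228) (nat_lit 28049033356) (nat_lit 76) (nat_lit 12658541049) (nat_lit 50) (nat_lit 5) (nat_lit 53) (nat_lit 5) (nat_lit 51) (nat_lit 5) (nat_lit 405) (nat_lit 366) (nat_lit 249)) (XT.nd (nat_lit 78) (nat_lit 152) (nat_lit 0) (XT.lf (nat_lit 0) (nat_lit 12980609180) (nat_lit 228) (nat_lit 4082799964) (nat_lit 76) (nat_lit 28379491830) (nat_lit 50) (nat_lit 5) (nat_lit 53) (nat_lit 5) (nat_lit 51) (nat_lit 5) (nat_lit 406) (nat_lit 366) (nat_lit 248)) (XT.lf (nat_lit 0) (nat_lit 21770862991) (nat_lit 152) (nat_lit 1712033303) (nat_lit 228) (nat_lit 23452815057) (nat_lit 48) (nat_lit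 5) (nat_lit 50) (nat_lit 5) (nat_lit 51) (nat_lit 5) (nat_lit 407) (nat_lit 366) (nat_lit 247)))) (XT.nd (nat_lit 78) (nat_lit 228) (nat_lit 0) (XT.lf (nat_lit 0) (nat_lit 336195657) (nat_lit 152) (nat_lit 34469891168) (nat_lit 228) (nat_lit 13682287496) (nat_lit 46) (nat_lit 5) (nat_lit 48) (nat_lit 5) (nat_lit 49) (nat_lit 5) (nat_lit 408) (nat_lit 366) (nat_lit 246)) (XT.nd (nat_lit 78) (nat_lit 228) (nat_lit 0) (XT.lf (nat_lit 0) (nat_lit 27949340869) (nat_lit 152) (nat_lit 19195321827) (nat_lit 228) (nat_lit 2951547911) (nat_lit 46) (nat_lit 5) (nat_lit 48) (nat_lit 5) (nat_lit 49) (nat_lit 5) (nat_lit 409) (nat_lit 366) (nat_lit 245)) (XT.lf (nat_lit 0) (nat_lit 5187497004) (nat_lit 152) (nat_lit 2938646066) (nat_lit 228) (nat_lit 43647976883) (nat_lit 43) (nat_lit 5) (nat_lit 45) (nat_lit 5) (nat_lit 46) (nat_lit 5) (nat_lit 410) (nat_lit 366) (nat_lit 244))))) (XT.nd (nat_lit 234)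 (nat_lit 304) (nat_lit 0) (XT.nd (nat_lit 78) (nat_lit 152) (nat_lit 0) (XT.lf (nat_lit 0) (nat_lit 20255995023) (nat_lit 228) (nat_lit 19142316892) (nat_lit 76) (nat_lit 14105321420) (nat_lit 43) (nat_lit 5) (nat_lit 46) (nat_lit 5) (nat_lit 44) (nat_lit 5) (nat_lit 411) (nat_lit 366) (nat_lit 243)) (XT.nd (nat_lit 78) (nat_lit 0) (nat_lit 0) (XT.lf (nat_lit 0) (nat_lit 9936970437) (nat_lit 152) (nat_lit 23254524564) (nat_lit 228) (nat_lit 22118170812) (nat_lit 41) (nat_lit 5) (nat_lit 43) (nat_lit 5) (nat_lit 44) (nat_lit 5) (nat_lit 412) (nat_lit 366) (nat_lit 242)) (XT.lf (nat_lit 0) (nat_lit 41127810124) (nat_lit 152) (nat_lit 5966070304) (nat_lit 228) (nat_lit 10096115105) (nat_lit 41) (nat_lit 5) (nat_lit 43) (nat_lit 5) (nat_lit 44) (nat_lit 5) (nat_lit 413) (nat_lit 366) (nat_lit 241)))) (XT.nd (nat_lit 78) (nat_lit 152) (nat_lit 0) (XT.lf (nat_lit 0) (nat_lit 2873542779) (nat_lit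 152) (nat_lit 44192904908) (nat_lit 76) (nat_lit 12074553347) (nat_lit 39) (nat_lit 5) (nat_lit 41) (nat_lit 5) (nat_lit 40) (nat_lit 5) (nat_lit 414) (nat_lit 366) (nat_lit 240)) (XT.nd (nat_lit 78) (nat_lit 152) (nat_lit 0) (XT.lf (nat_lit 0) (nat_lit 16522767511) (nat_lit 152) (nat_lit 13384024268) (nat_lit 76) (nat_lit 31255971533) (nat_lit 39) (nat_lit 5) (nat_lit 41) (nat_lit 5) (nat_lit 40) (nat_lit 5) (nat_lit 415) (nat_lit 366) (nat_lit 239)) (XT.lf (nat_lit 0) (nat_lit 19585659855) (nat_lit 152) (nat_lit 11570861569) (nat_lit 228) (nat_lit 32113989820) (nat_lit 37) (nat_lit 5) (nat_lit 39) (nat_lit 5) (nat_lit 40) (nat_lit 5) (nat_lit 416) (nat_lit 366) (nat_lit 238)))))) (XT.nd (nat_lit 468) (nat_lit 456) (nat_lit 0) (XT.nd (nat_lit 234) (nat_lit 228) (nat_lit 0) (XT.nd (nat_lit 78) (nat_lit 152) (nat_lit 0) (XT.lf (nat_lit 0) (nat_lit 46868594275) (nat_lit 228) (nat_lit 10934012320)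 (nat_lit 76) (nat_lit 7663709311) (nat_lit 37) (nat_lit 5) (nat_lit 40) (nat_lit 5) (nat_lit 38) (nat_lit 4) (nat_lit 417) (nat_lit 366) (nat_lit 237)) (XT.nd (nat_lit 78) (nat_lit 76) (nat_lit 0) (XT.lf (nat_lit 0) (nat_lit 24027484367) (nat_lit 76) (nat_lit 39900099550) (nat_lit 152) (nat_lit 3816262079) (nat_lit 36) (nat_lit 5) (nat_lit 37) (nat_lit 5) (nat_lit 38) (nat_lit 4) (nat_lit 418) (nat_lit 366) (nat_lit 236)) (XT.lf (nat_lit 0) (nat_lit 11514373945) (nat_lit 152) (nat_lit 9201349453) (nat_lit 76) (nat_lit 49401157478) (nat_lit 35) (nat_lit 5) (nat_lit 37) (nat_lit 5) (nat_lit 36) (nat_lit 5) (nat_lit 419) (nat_lit 366) (nat_lit 235)))) (XT.nd (nat_lit 78) (nat_lit 76) (nat_lit 0) (XT.lf (nat_lit 0) (nat_lit 27862685378) (nat_lit 152) (nat_lit 52290836) (nat_lit 228) (nat_lit 44668879645) (nat_lit 33) (nat_lit 5) (nat_lit 35) (nat_lit 5) (nat_lit 36) (nat_lit 5) (nat_lit 420)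 (nat_lit 366) (nat_lit 234)) (XT.nd (nat_lit 78) (nat_lit 76) (nat_lit 0) (XT.lf (nat_lit 0) (nat_lit 45628618896) (nat_lit 228) (nat_lit 8413472738) (nat_lit 76) (nat_lit 21107438143) (nat_lit 33) (nat_lit 5) (nat_lit 36) (nat_lit 5) (nat_lit 34) (nat_lit 4) (nat_lit 421) (nat_lit 366) (nat_lit 233)) (XT.lf (nat_lit 0) (nat_lit 30685180875) (nat_lit 76) (nat_lit 34019556993) (nat_lit 152) (nat_lit 13114910481) (nat_lit 32) (nat_lit 5) (nat_lit 33) (nat_lit 5) (nat_lit 34) (nat_lit 4) (nat_lit 422) (nat_lit 366) (nat_lit 232))))) (XT.nd (nat_lit 234) (nat_lit 228) (nat_lit 0) (XT.nd (nat_lit 78) (nat_lit 152) (nat_lit 0) (XT.lf (nat_lit 0) (nat_lit 4121488328) (nat_lit 152) (nat_lit 8657512417) (nat_lit 76) (nat_lit 67833978770) (nat_lit 31) (nat_lit 5) (nat_lit 33) (nat_lit 5) (nat_lit 32) (nat_lit 5) (nat_lit 423) (nat_lit 366) (nat_lit 231)) (XT.nd (nat_lit 78) (nat_lit 0) (nat_lit 0)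 (XT.lf (nat_lit 0) (nat_lit 22444920205) (nat_lit 228) (nat_lit 51105316741) (nat_lit 76) (nat_lit 9951692935) (nat_lit 29) (nat_lit 5) (nat_lit 32) (nat_lit 5) (nat_lit 30) (nat_lit 4) (nat_lit 424) (nat_lit 366) (nat_lit 230)) (XT.lf (nat_lit 0) (nat_lit 42040074897) (nat_lit 228) (nat_lit 10941329624) (nat_lit 76) (nat_lit 33536146232) (nat_lit 29) (nat_lit 5) (nat_lit 32) (nat_lit 5) (nat_lit 30) (nat_lit 4) (nat_lit 425) (nat_lit 366) (nat_lit 229)))) (XT.nd (nat_lit 156) (nat_lit 152) (nat_lit 0) (XT.nd (nat_lit 78) (nat_lit 0) (nat_lit 0) (XT.lf (nat_lit 0) (nat_lit 32258126282) (nat_lit 76) (nat_lit 30857678558) (nat_lit 152) (nat_lit 26543107476) (nat_lit 28) (nat_lit 5) (nat_lit 29) (nat_lit 5) (nat_lit 30) (nat_lit 4) (nat_lit 426) (nat_lit 366) (nat_lit 228)) (XT.lf (nat_lit 0) (nat_lit 77992304922) (nat_lit 76) (nat_lit 7435545469) (nat_lit 152) (nat_lit 7520365608) (nat_lit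 28) (nat_lit 5) (nat_lit 29) (nat_lit 5) (nat_lit 30) (nat_lit 4) (nat_lit 427) (nat_lit 366) (nat_lit 227))) (XT.nd (nat_lit 78) (nat_lit 0) (nat_lit 0) (XT.lf (nat_lit 0) (nat_lit 12805436270) (nat_lit 152) (nat_lit 66263179946) (nat_lit 76) (nat_lit 17286121734) (nat_lit 26) (nat_lit 5) (nat_lit 28) (nat_lit 5) (nat_lit 27) (nat_lit 4) (nat_lit 428) (nat_lit 366) (nat_lit 226)) (XT.lf (nat_lit 0) (nat_lit 34271463591) (nat_lit 152) (nat_lit 22262587778) (nat_lit 76) (nat_lit 43372537379) (nat_lit 26) (nat_lit 5) (nat_lit 28) (nat_lit 5) (nat_lit 27) (nat_lit 4) (nat_lit 429) (nat_lit 366) (nat_lit 225))))))) (XT.nd (nat_lit 1014) (nat_lit 456) (nat_lit 0) (XT.nd (nat_lit 468) (nat_lit 304) (nat_lit 0) (XT.nd (nat_lit 234) (nat_lit 152) (nat_lit 0) (XT.nd (nat_lit 78) (nat_lit 76) (nat_lit 0) (XT.lf (nat_lit 0) (nat_lit 24724642717) (nat_lit 76) (nat_lit 32469634282) (nat_lit 152) (nat_lit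 46422581260) (nat_lit 25) (nat_lit 5) (nat_lit 26) (nat_lit 5) (nat_lit 27) (nat_lit 4) (nat_lit 430) (nat_lit 366) (nat_lit 224)) (XT.nd (nat_lit 78) (nat_lit 76) (nat_lit 0) (XT.lf (nat_lit 0) (nat_lit 74829483618) (nat_lit 76) (nat_lit 6808286963) (nat_lit 152) (nat_lit 25856144079) (nat_lit 25) (nat_lit 5) (nat_lit 26) (nat_lit 5) (nat_lit 27) (nat_lit 4) (nat_lit 431) (nat_lit 366) (nat_lit 223)) (XT.lf (nat_lit 0) (nat_lit 16070184886) (nat_lit 76) (nat_lit 91796133997) (nat_lit 76) (nat_lit 3670361369) (nat_lit 24) (nat_lit 4) (nat_lit 25) (nat_lit 5) (nat_lit 25) (nat_lit 4) (nat_lit 432) (nat_lit 366) (nat_lit 222)))) (XT.nd (nat_lit 78) (nat_lit 76) (nat_lit 0) (XT.lf (nat_lit 0) (nat_lit 19668068998) (nat_lit 152) (nat_lit 47809963773) (nat_lit 76) (nat_lit 48254658260) (nat_lit 23) (nat_lit 5) (nat_lit 25) (nat_lit 5) (nat_lit 24) (nat_lit 4) (nat_lit 433) (nat_lit 366) (nat_lit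 221)) (XT.nd (nat_lit 78) (nat_lit 0) (nat_lit 0) (XT.lf (nat_lit 0) (nat_lit 2236492651) (nat_lit 76) (nat_lit 41846215994) (nat_lit 152) (nat_lit 76051153736) (nat_lit 22) (nat_lit 5) (nat_lit 23) (nat_lit 5) (nat_lit 24) (nat_lit 4) (nat_lit 434) (nat_lit 366) (nat_lit 220)) (XT.lf (nat_lit 0) (nat_lit 56440881837) (nat_lit 76) (nat_lit 14084643763) (nat_lit 152) (nat_lit 54189194737) (nat_lit 22) (nat_lit 5) (nat_lit 23) (nat_lit 5) (nat_lit 24) (nat_lit 4) (nat_lit 435) (nat_lit 366) (nat_lit 219))))) (XT.nd (nat_lit 234) (nat_lit 152) (nat_lit 0) (XT.nd (nat_lit 78) (nat_lit 152) (nat_lit 0) (XT.lf (nat_lit 0) (nat_lit 98523527678) (nat_lit 152) (nat_lit 16408456769) (nat_lit 0) (nat_lit 14580984821) (nat_lit 22) (nat_lit 5) (nat_lit 24) (nat_lit 4) (nat_lit 22) (nat_lit 4) (nat_lit 436) (nat_lit 366) (nat_lit 218)) (XT.nd (nat_lit 78) (nat_lit 76) (nat_lit 0) (XT.lf (nat_lit 0) (nat_lit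 39065722403) (nat_lit 76) (nat_lit 89694468943) (nat_lit 76) (nat_lit 5749001502) (nat_lit 21) (nat_lit 4) (nat_lit 22) (nat_lit 5) (nat_lit 22) (nat_lit 4) (nat_lit 437) (nat_lit 366) (nat_lit 217)) (XT.lf (nat_lit 0) (nat_lit 20369605593) (nat_lit 152) (nat_lit 42190561292) (nat_lit 76) (nat_lit 77164840723) (nat_lit 20) (nat_lit 5) (nat_lit 22) (nat_lit 5) (nat_lit 21) (nat_lit 4) (nat_lit 438) (nat_lit 366) (nat_lit 216)))) (XT.nd (nat_lit 156) (nat_lit 76) (nat_lit 0) (XT.nd (nat_lit 78) (nat_lit 0) (nat_lit 0) (XT.lf (nat_lit 0) (nat_lit 14077576943) (nat_lit 76) (nat_lit 33741194952) (nat_lit 152) (nat_lit 97367237503) (nat_lit 19) (nat_lit 5) (nat_lit 20) (nat_lit 5) (nat_lit 21) (nat_lit 4) (nat_lit 439) (nat_lit 366) (nat_lit 215)) (XT.lf (nat_lit 0) (nat_lit 74620202620) (nat_lit 76) (nat_lit 2732789784) (nat_lit 152) (nat_lit 73531439309) (nat_lit 19) (nat_lit 5) (nat_lit 20)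 (nat_lit 5) (nat_lit 21) (nat_lit 4) (nat_lit 440) (nat_lit 366) (nat_lit 214))) (XT.nd (nat_lit 78) (nat_lit 76) (nat_lit 0) (XT.lf (nat_lit 0) (nat_lit 108827735619) (nat_lit 152) (nat_lit 19147054369) (nat_lit 0) (nat_lit 28869794787) (nat_lit 19) (nat_lit 5) (nat_lit 21) (nat_lit 4) (nat_lit 19) (nat_lit 4) (nat_lit 441) (nat_lit 366) (nat_lit 213)) (XT.lf (nat_lit 0) (nat_lit 42126076007) (nat_lit 76) (nat_lit 100450877996) (nat_lit 76) (nat_lit 20490754794) (nat_lit 18) (nat_lit 4) (nat_lit 19) (nat_lit 5) (nat_lit 19) (nat_lit 4) (nat_lit 442) (nat_lit 366) (nat_lit 212)))))) (XT.nd (nat_lit 468) (nat_lit 228) (nat_lit 0) (XT.nd (nat_lit 234) (nat_lit 76) (nat_lit 0) (XT.nd (nat_lit 78) (nat_lit 76) (nat_lit 0) (XT.lf (nat_lit 0) (nat_lit 8470234952) (nat_lit 152) (nat_lit 62598219997) (nat_lit 76) (nat_lit 98510577003) (nat_lit 17) (nat_lit 5) (nat_lit 19) (nat_lit 5) (nat_lit 18)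 (nat_lit 4) (nat_lit 443) (nat_lit 366) (nat_lit 211)) (XT.nd (nat_lit 78) (nat_lit 76) (nat_lit 0) (XT.lf (nat_lit 0) (nat_lit 38188969861) (nat_lit 152) (nat_lit 1676792907) (nat_lit 76) (nat_lit 136533447002) (nat_lit 17) (nat_lit 5) (nat_lit 19) (nat_lit 5) (nat_lit 18) (nat_lit 4) (nat_lit 444) (nat_lit 366) (nat_lit 210)) (XT.lf (nat_lit 0) (nat_lit 64347127539) (nat_lit 76) (nat_lit 6049552400) (nat_lit 152) (nat_lit 113113564791) (nat_lit 16) (nat_lit 5) (nat_lit 17) (nat_lit 5) (nat_lit 18) (nat_lit 4) (nat_lit 445) (nat_lit 366) (nat_lit 209)))) (XT.nd (nat_lit 78) (nat_lit 76) (nat_lit 0) (XT.lf (nat_lit 0) (nat_lit 104701957307) (nat_lit 152) (nat_lit 57708426255) (nat_lit 0) (nat_lit 28542088947) (nat_lit 16) (nat_lit 5) (nat_lit 18) (nat_lit 4) (nat_lit 16) (nat_lit 4) (nat_lit 446) (nat_lit 366) (nat_lit 208)) (XT.nd (nat_lit 78) (nat_lit 0) (nat_lit 0) (XT.lf (nat_lit 0)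 (nat_lit 6938969956) (nat_lit 76) (nat_lit 133989519602) (nat_lit 76) (nat_lit 57828022724) (nat_lit 15) (nat_lit 4) (nat_lit 16) (nat_lit 5) (nat_lit 16) (nat_lit 4) (nat_lit 447) (nat_lit 366) (nat_lit 207)) (XT.lf (nat_lit 0) (nat_lit 76819343101) (nat_lit 76) (nat_lit 103122833758) (nat_lit 76) (nat_lit 26959785909) (nat_lit 15) (nat_lit 4) (nat_lit 16) (nat_lit 5) (nat_lit 16) (nat_lit 4) (nat_lit 448) (nat_lit 366) (nat_lit 206))))) (XT.nd (nat_lit 234) (nat_lit 76) (nat_lit 0) (XT.nd (nat_lit 78) (nat_lit 76) (nat_lit 0) (XT.lf (nat_lit 0) (nat_lit 5275925011) (nat_lit 152) (nat_lit 65348878687) (nat_lit 76) (nat_lit 144825698474) (nat_lit 14) (nat_lit 5) (nat_lit 16) (nat_lit 5) (nat_lit 15) (nat_lit 4) (nat_lit 449) (nat_lit 366) (nat_lit 205)) (XT.nd (nat_lit 78) (nat_lit 0) (nat_lit 0) (XT.lf (nat_lit 0) (nat_lit 2248888933) (nat_lit 76) (nat_lit 36002243101) (nat_lit 152) (nat_lit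 186151551649) (nat_lit 13) (nat_lit 5) (nat_lit 14) (nat_lit 5) (nat_lit 15) (nat_lit 4) (nat_lit 450) (nat_lit 366) (nat_lit 204)) (XT.lf (nat_lit 0) (nat_lit 74004073289) (nat_lit 152) (nat_lit 158278137711) (nat_lit 0) (nat_lit 1463814695) (nat_lit 13) (nat_lit 5) (nat_lit 15) (nat_lit 4) (nat_lit 13) (nat_lit 4) (nat_lit 451) (nat_lit 366) (nat_lit 203)))) (XT.nd (nat_lit 156) (nat_lit 76) (nat_lit 0) (XT.nd (nat_lit 78) (nat_lit 0) (nat_lit 0) (XT.lf (nat_lit 0) (nat_lit 112133556677) (nat_lit 152) (nat_lit 91801450633) (nat_lit 0) (nat_lit 39592082858) (nat_lit 13) (nat_lit 5) (nat_lit 15) (nat_lit 4) (nat_lit 13) (nat_lit 4) (nat_lit 452) (nat_lit 366) (nat_lit 202)) (XT.lf (nat_lit 0) (nat_lit 152168270774) (nat_lit 152) (nat_lit 22003359779) (nat_lit 0) (nat_lit 79625639597) (nat_lit 13) (nat_lit 5) (nat_lit 15) (nat_lit 4) (nat_lit 13) (nat_lit 4) (nat_lit 453) (nat_lit 366) (nat_lit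 201))) (XT.nd (nat_lit 78) (nat_lit 0) (nat_lit 0) (XT.lf (nat_lit 0) (nat_lit 52977945904) (nat_lit 76) (nat_lit 142052724627) (nat_lit 76) (nat_lit 69508991205) (nat_lit 12) (nat_lit 4) (nat_lit 13) (nat_lit 5) (nat_lit 13) (nat_lit 4) (nat_lit 454) (nat_lit 366) (nat_lit 200)) (XT.lf (nat_lit 0) (nat_lit 132469946340) (nat_lit 76) (nat_lit 107937718068) (nat_lit 76) (nat_lit 35392934889) (nat_lit 12) (nat_lit 4) (nat_lit 13) (nat_lit 5) (nat_lit 13) (nat_lit 4) (nat_lit 455) (nat_lit 366) (nat_lit 199))))))))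
noncomputable def xc162 : XT := (XT.nd (nat_lit 46566) (nat_lit 0) (nat_lit 4408) (XT.nd (nat_lit 936) (nat_lit 76) (nat_lit 0) (XT.nd (nat_lit 468) (nat_lit 228) (nat_lit 0) (XT.nd (nat_lit 234) (nat_lit 0) (nat_lit 0) (XT.nd (nat_lit 78) (nat_lit 76) (nat_lit 0) (XT.lf (nat_lit 0) (nat_lit 414069719) (nat_lit 152) (nat_lit 71696940023) (nat_lit 76) (nat_lit 215513295559) (nat_lit 11) (nat_lit 5) (nat_lit 13) (nat_lit 5) (nat_lit 12) (nat_lit 4) (nat_lit 456) (nat_lit 366) (nat_lit 198)) (XT.nd (nat_lit 78) (nat_lit 0) (nat_lit 0) (XT.lf (nat_lit 0) (nat_lit 3033227417) (nat_lit 76) (nat_lit 33835046985) (nat_lit 152) (nat_lit 263139597461) (nat_lit 10) (nat_lit 5) (nat_lit 11) (nat_lit 5) (nat_lit 12) (nat_lit 4) (nat_lit 457) (nat_lit 366) (nat_lit 197)) (XT.lf (nat_lit 0) (nat_lit 76477462207) (nat_lit 152) (nat_lit 229082071089) (nat_lit 0) (nat_lit 7384469894) (nat_lit 10) (nat_lit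 5) (nat_lit 12) (nat_lit 4) (nat_lit 10) (nat_lit 4) (nat_lit 458) (nat_lit 366) (nat_lit 196)))) (XT.nd (nat_lit 78) (nat_lit 0) (nat_lit 0) (XT.lf (nat_lit 0) (nat_lit 118620763577) (nat_lit 152) (nat_lit 158351546126) (nat_lit 0) (nat_lit 49526948752) (nat_lit 10) (nat_lit 5) (nat_lit 12) (nat_lit 4) (nat_lit 10) (nat_lit 4) (nat_lit 459) (nat_lit 366) (nat_lit 195)) (XT.nd (nat_lit 78) (nat_lit 0) (nat_lit 0) (XT.lf (nat_lit 0) (nat_lit 162870259799) (nat_lit 152) (nat_lit 84086403639) (nat_lit 0) (nat_lit 93775661628) (nat_lit 10) (nat_lit 5) (nat_lit 12) (nat_lit 4) (nat_lit 10) (nat_lit 4) (nat_lit 460) (nat_lit 366) (nat_lit 194)) (XT.lf (nat_lit 0) (nat_lit 209331306817) (nat_lit 152) (nat_lit 6109821859) (nat_lit 0) (nat_lit 140235962603) (nat_lit 10) (nat_lit 5) (nat_lit 12) (nat_lit 4) (nat_lit 10) (nat_lit 4) (nat_lit 461) (nat_lit 366) (nat_lit 193))))) (XT.nd (nat_lit 234)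 (nat_lit 152) (nat_lit 0) (XT.nd (nat_lit 78) (nat_lit 0) (nat_lit 0) (XT.lf (nat_lit 0) (nat_lit 78268953035) (nat_lit 76) (nat_lit 181067570841) (nat_lit 76) (nat_lit 111971516111) (nat_lit 9) (nat_lit 4) (nat_lit 10) (nat_lit 5) (nat_lit 10) (nat_lit 4) (nat_lit 462) (nat_lit 366) (nat_lit 192)) (XT.nd (nat_lit 78) (nat_lit 0) (nat_lit 0) (XT.lf (nat_lit 0) (nat_lit 167077082548) (nat_lit 76) (nat_lit 144867527327) (nat_lit 76) (nat_lit 75770795914) (nat_lit 9) (nat_lit 4) (nat_lit 10) (nat_lit 5) (nat_lit 10) (nat_lit 4) (nat_lit 463) (nat_lit 366) (nat_lit 191)) (XT.lf (nat_lit 0) (nat_lit 260323996304) (nat_lit 76) (nat_lit 106858280344) (nat_lit 76) (nat_lit 37760904471) (nat_lit 9) (nat_lit 4) (nat_lit 10) (nat_lit 5) (nat_lit 10) (nat_lit 4) (nat_lit 464) (nat_lit 366) (nat_lit 190)))) (XT.nd (nat_lit 78) (nat_lit 76) (nat_lit 0) (XT.lf (nat_lit 0) (nat_lit 2079887485) (nat_lit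 152) (nat_lit 64834220299) (nat_lit 76) (nat_lit 356116599377) (nat_lit 8) (nat_lit 5) (nat_lit 10) (nat_lit 5) (nat_lit 9) (nat_lit 4) (nat_lit 465) (nat_lit 366) (nat_lit 189)) (XT.nd (nat_lit 78) (nat_lit 0) (nat_lit 0) (XT.lf (nat_lit 0) (nat_lit 18925188884) (nat_lit 76) (nat_lit 24013232126) (nat_lit 152) (nat_lit 399038501187) (nat_lit 7) (nat_lit 5) (nat_lit 8) (nat_lit 5) (nat_lit 9) (nat_lit 4) (nat_lit 466) (nat_lit 366) (nat_lit 188)) (XT.lf (nat_lit 0) (nat_lit 87283501845) (nat_lit 152) (nat_lit 353039959408) (nat_lit 0) (nat_lit 21474805752) (nat_lit 7) (nat_lit 5) (nat_lit 9) (nat_lit 4) (nat_lit 7) (nat_lit 4) (nat_lit 467) (nat_lit 366) (nat_lit 187)))))) (XT.nd (nat_lit 468) (nat_lit 0) (nat_lit 0) (XT.nd (nat_lit 234) (nat_lit 76) (nat_lit 0) (XT.nd (nat_lit 78) (nat_lit 0) (nat_lit 0) (XT.lf (nat_lit 0) (nat_lit 134238774897) (nat_lit 152) (nat_lit 279922683442) (nat_lit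 0) (nat_lit 68429573852) (nat_lit 7) (nat_lit 5) (nat_lit 9) (nat_lit 4) (nat_lit 7) (nat_lit 4) (nat_lit 468) (nat_lit 366) (nat_lit 186)) (XT.nd (nat_lit 78) (nat_lit 0) (nat_lit 0) (XT.lf (nat_lit 0) (nat_lit 183541124585) (nat_lit 152) (nat_lit 203150902815) (nat_lit 0) (nat_lit 117731442634) (nat_lit 7) (nat_lit 5) (nat_lit 9) (nat_lit 4) (nat_lit 7) (nat_lit 4) (nat_lit 469) (nat_lit 366) (nat_lit 185)) (XT.lf (nat_lit 0) (nat_lit 235307937455) (nat_lit 152) (nat_lit 122541827572) (nat_lit 0) (nat_lit 169497797500) (nat_lit 7) (nat_lit 5) (nat_lit 9) (nat_lit 4) (nat_lit 7) (nat_lit 4) (nat_lit 470) (nat_lit 366) (nat_lit 184)))) (XT.nd (nat_lit 78) (nat_lit 76) (nat_lit 0) (XT.lf (nat_lit 0) (nat_lit 289662467826) (nat_lit 152) (nat_lit 37903531343) (nat_lit 0) (nat_lit 223851891674) (nat_lit 7) (nat_lit 5) (nat_lit 9) (nat_lit 4) (nat_lit 7) (nat_lit 4) (nat_lit 471) (nat_lit 366)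 (nat_lit 183)) (XT.nd (nat_lit 78) (nat_lit 0) (nat_lit 0) (XT.lf (nat_lit 0) (nat_lit 52650655406) (nat_lit 76) (nat_lit 294905500122) (nat_lit 76) (nat_lit 229094508546) (nat_lit 6) (nat_lit 4) (nat_lit 7) (nat_lit 5) (nat_lit 7) (nat_lit 4) (nat_lit 472) (nat_lit 366) (nat_lit 182)) (XT.lf (nat_lit 0) (nat_lit 149047321377) (nat_lit 76) (nat_lit 259938537638) (nat_lit 76) (nat_lit 194127150419) (nat_lit 6) (nat_lit 4) (nat_lit 7) (nat_lit 5) (nat_lit 7) (nat_lit 4) (nat_lit 473) (nat_lit 366) (nat_lit 181))))) (XT.nd (nat_lit 44850) (nat_lit 0) (nat_lit 7980) (XT.nd (nat_lit 78) (nat_lit 0) (nat_lit 0) (XT.lf (nat_lit 0) (nat_lit 250262720516) (nat_lit 76) (nat_lit 223223771688) (nat_lit 76) (nat_lit 157412007667) (nat_lit 6) (nat_lit 4) (nat_lit 7) (nat_lit 5) (nat_lit 7) (nat_lit 4) (nat_lit 474) (nat_lit 366) (nat_lit 180)) (XT.nd (nat_lit 44694) (nat_lit 0) (nat_lit 8740) (XT.lf (nat_lit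 0) (nat_lit 356537841869) (nat_lit 76) (nat_lit 184673786163) (nat_lit 76) (nat_lit 118861663282) (nat_lit 6) (nat_lit 4) (nat_lit 7) (nat_lit 5) (nat_lit 7) (nat_lit 4) (nat_lit 475) (nat_lit 366) (nat_lit 179)) (XT.lf (nat_lit 0) (nat_lit 3753122779) (nat_lit 0) (nat_lit 3753122779) (nat_lit 684) (nat_lit 186467367) (nat_lit 121) (nat_lit 5) (nat_lit 121) (nat_lit 3) (nat_lit 130) (nat_lit 3) (nat_lit 367) (nat_lit 367) (nat_lit 286)))) (XT.nd (nat_lit 156) (nat_lit 0) (nat_lit 0) (XT.nd (nat_lit 78) (nat_lit 760) (nat_lit 0) (XT.lf (nat_lit 0) (nat_lit 15296723639) (nat_lit 0) (nat_lit 362194481) (nat_lit 684) (nat_lit 97383181) (nat_lit 121) (nat_lit 5) (nat_lit 121) (nat_lit 3) (nat_lit 130) (nat_lit 3) (nat_lit 368) (nat_lit 367) (nat_lit 285)) (XT.lf (nat_lit 0) (nat_lit 399770498) (nat_lit 760) (nat_lit 8693414116) (nat_lit 836) (nat_lit 7041700133) (nat_lit 111) (nat_lit 5) (nat_lit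 121) (nat_lit 5) (nat_lit 122) (nat_lit 5) (nat_lit 369) (nat_lit 367) (nat_lit 284))) (XT.nd (nat_lit 78) (nat_lit 0) (nat_lit 76) (XT.lf (nat_lit 0) (nat_lit 915525988) (nat_lit 760) (nat_lit 796248736) (nat_lit 836) (nat_lit 14820703848) (nat_lit 111) (nat_lit 5) (nat_lit 121) (nat_lit 5) (nat_lit 122) (nat_lit 5) (nat_lit 370) (nat_lit 367) (nat_lit 283)) (XT.lf (nat_lit 0) (nat_lit 1658144120) (nat_lit 760) (nat_lit 9307411859) (nat_lit 836) (nat_lit 5974353671) (nat_lit 112) (nat_lit 5) (nat_lit 122) (nat_lit 5) (nat_lit 123) (nat_lit 5) (nat_lit 371) (nat_lit 367) (nat_lit 282))))))) (XT.nd (nat_lit 1014) (nat_lit 1976) (nat_lit 0) (XT.nd (nat_lit 468) (nat_lit 1672) (nat_lit 0) (XT.nd (nat_lit 234) (nat_lit 0) (nat_lit 152) (XT.nd (nat_lit 78) (nat_lit 0) (nat_lit 76) (XT.lf (nat_lit 0) (nat_lit 2464339240) (nat_lit 760) (nat_lit 895338954) (nat_lit 836) (nat_lit 14006722553) (nat_lit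 112) (nat_lit 5) (nat_lit 122) (nat_lit 5) (nat_lit 123) (nat_lit 5) (nat_lit 372) (nat_lit 367) (nat_lit 281)) (XT.nd (nat_lit 78) (nat_lit 0) (nat_lit 0) (XT.lf (nat_lit 0) (nat_lit 3498517348) (nat_lit 760) (nat_lit 9693360705) (nat_lit 836) (nat_lit 4612964939) (nat_lit 113) (nat_lit 5) (nat_lit 123) (nat_lit 5) (nat_lit 124) (nat_lit 5) (nat_lit 373) (nat_lit 367) (nat_lit 280)) (XT.lf (nat_lit 0) (nat_lit 4640912068) (nat_lit 760) (nat_lit 730518073) (nat_lit 836) (nat_lit 12890961588) (nat_lit 113) (nat_lit 5) (nat_lit 123) (nat_lit 5) (nat_lit 124) (nat_lit 5) (nat_lit 374) (nat_lit 367) (nat_lit 279)))) (XT.nd (nat_lit 78) (nat_lit 0) (nat_lit 0) (XT.lf (nat_lit 0) (nat_lit 6013644088) (nat_lit 760) (nat_lit 9826007650) (nat_lit 836) (nat_lit 2894514588) (nat_lit 114) (nat_lit 5) (nat_lit 124) (nat_lit 5) (nat_lit 125) (nat_lit 5) (nat_lit 375) (nat_lit 367) (nat_lit 278)) (XT.nd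 (nat_lit 78) (nat_lit 0) (nat_lit 76) (XT.lf (nat_lit 0) (nat_lit 7542856619) (nat_lit 760) (nat_lit 273549438) (nat_lit 836) (nat_lit 11408740260) (nat_lit 114) (nat_lit 5) (nat_lit 124) (nat_lit 5) (nat_lit 125) (nat_lit 5) (nat_lit 376) (nat_lit 367) (nat_lit 277)) (XT.lf (nat_lit 0) (nat_lit 9305657363) (nat_lit 760) (nat_lit 9676750402) (nat_lit 76) (nat_lit 750419600) (nat_lit 115) (nat_lit 5) (nat_lit 125) (nat_lit 5) (nat_lit 116) (nat_lit 5) (nat_lit 377) (nat_lit 367) (nat_lit 276))))) (XT.nd (nat_lit 234) (nat_lit 760) (nat_lit 0) (XT.nd (nat_lit 78) (nat_lit 380) (nat_lit 0) (XT.lf (nat_lit 0) (nat_lit 524107940) (nat_lit 760) (nat_lit 10761797373) (nat_lit 836) (nat_lit 8973529828) (nat_lit 105) (nat_lit 5) (nat_lit 115) (nat_lit 5) (nat_lit 116) (nat_lit 5) (nat_lit 378) (nat_lit 367) (nat_lit 275)) (XT.nd (nat_lit 78) (nat_lit 380) (nat_lit 0) (XT.lf (nat_lit 0) (nat_lit 11560659147)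 (nat_lit 760) (nat_lit 1957062201) (nat_lit 836) (nat_lit 7287031825) (nat_lit 105) (nat_lit 5) (nat_lit 115) (nat_lit 5) (nat_lit 116) (nat_lit 5) (nat_lit 379) (nat_lit 367) (nat_lit 274)) (XT.lf (nat_lit 0) (nat_lit 1702015238) (nat_lit 380) (nat_lit 14288700547) (nat_lit 456) (nat_lit 5380149231) (nat_lit 100) (nat_lit 5) (nat_lit 105) (nat_lit 5) (nat_lit 106) (nat_lit 5) (nat_lit 380) (nat_lit 367) (nat_lit 273)))) (XT.nd (nat_lit 156) (nat_lit 456) (nat_lit 0) (XT.nd (nat_lit 78) (nat_lit 304) (nat_lit 0) (XT.lf (nat_lit 0) (nat_lit 13473011610) (nat_lit 380) (nat_lit 5292050221) (nat_lit 456) (nat_lit 3191342467) (nat_lit 100) (nat_lit 5) (nat_lit 105) (nat_lit 5) (nat_lit 106) (nat_lit 5) (nat_lit 381) (nat_lit 367) (nat_lit 272)) (XT.lf (nat_lit 0) (nat_lit 3291598369) (nat_lit 304) (nat_lit 18492862519) (nat_lit 380) (nat_lit 781449479) (nat_lit 96) (nat_lit 5) (nat_lit 100) (nat_lit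 5) (nat_lit 101) (nat_lit 5) (nat_lit 382) (nat_lit 367) (nat_lit 271))) (XT.nd (nat_lit 78) (nat_lit 380) (nat_lit 0) (XT.lf (nat_lit 0) (nat_lit 1915975689) (nat_lit 380) (nat_lit 7375653193) (nat_lit 76) (nat_lit 13901752840) (nat_lit 95) (nat_lit 5) (nat_lit 100) (nat_lit 5) (nat_lit 96) (nat_lit 5) (nat_lit 383) (nat_lit 367) (nat_lit 270)) (XT.lf (nat_lit 0) (nat_lit 4802209880) (nat_lit 456) (nat_lit 18591565360) (nat_lit 76) (nat_lit 453806601) (nat_lit 90) (nat_lit 5) (nat_lit 96) (nat_lit 5) (nat_lit 91) (nat_lit 5) (nat_lit 384) (nat_lit 367) (nat_lit 269)))))) (XT.nd (nat_lit 468) (nat_lit 1064) (nat_lit 0) (XT.nd (nat_lit 234) (nat_lit 608) (nat_lit 0) (XT.nd (nat_lit 78) (nat_lit 304) (nat_lit 0) (XT.lf (nat_lit 0) (nat_lit 8103014036) (nat_lit 456) (nat_lit 5917462558) (nat_lit 76) (nat_lit 10500507899) (nat_lit 90) (nat_lit 5) (nat_lit 96) (nat_lit 5) (nat_lit 91) (nat_lit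 5) (nat_lit 385) (nat_lit 367) (nat_lit 268)) (XT.nd (nat_lit 78) (nat_lit 0) (nat_lit 0) (XT.lf (nat_lit 0) (nat_lit 7624685533) (nat_lit 304) (nat_lit 4054623675) (nat_lit 380) (nat_lit 13543230708) (nat_lit 86) (nat_lit 5) (nat_lit 90) (nat_lit 5) (nat_lit 91) (nat_lit 5) (nat_lit 386) (nat_lit 367) (nat_lit 267)) (XT.lf (nat_lit 0) (nat_lit 15627997098) (nat_lit 380) (nat_lit 4016437492) (nat_lit 76) (nat_lit 6305064556) (nat_lit 86) (nat_lit 5) (nat_lit 91) (nat_lit 5) (nat_lit 87) (nat_lit 5) (nat_lit 387) (nat_lit 367) (nat_lit 266)))) (XT.nd (nat_lit 78) (nat_lit 304) (nat_lit 0) (XT.lf (nat_lit 0) (nat_lit 10504314543) (nat_lit 304) (nat_lit 9492322911) (nat_lit 380) (nat_lit 6705047676) (nat_lit 82) (nat_lit 5) (nat_lit 86) (nat_lit 5) (nat_lit 87) (nat_lit 5) (nat_lit 388) (nat_lit 367) (nat_lit 265)) (XT.nd (nat_lit 78) (nat_lit 304) (nat_lit 0) (XT.lf (nat_lit 0) (nat_lit 24663326868)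 (nat_lit 380) (nat_lit 1626557861) (nat_lit 76) (nat_lit 1197619308) (nat_lit 82) (nat_lit 5) (nat_lit 87) (nat_lit 5) (nat_lit 83) (nat_lit 5) (nat_lit 389) (nat_lit 367) (nat_lit 264)) (XT.lf (nat_lit 0) (nat_lit 1582809428) (nat_lit 304) (nat_lit 14365245954) (nat_lit 76) (nat_lit 12344980991) (nat_lit 78) (nat_lit 5) (nat_lit 82) (nat_lit 5) (nat_lit 79) (nat_lit 5) (nat_lit 390) (nat_lit 367) (nat_lit 263))))) (XT.nd (nat_lit 234) (nat_lit 532) (nat_lit 0) (XT.nd (nat_lit 78) (nat_lit 228) (nat_lit 0) (XT.lf (nat_lit 0) (nat_lit 1159915608) (nat_lit 304) (nat_lit 4994138839) (nat_lit 380) (nat_lit 22980538847) (nat_lit 74) (nat_lit 5) (nat_lit 78) (nat_lit 5) (nat_lit 79) (nat_lit 5) (nat_lit 391) (nat_lit 367) (nat_lit 262)) (XT.nd (nat_lit 78) (nat_lit 228) (nat_lit 0) (XT.lf (nat_lit 0) (nat_lit 11295615913) (nat_lit 380) (nat_lit 12161080873) (nat_lit 76) (nat_lit 6544447246) (nat_lit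 74) (nat_lit 5) (nat_lit 79) (nat_lit 5) (nat_lit 75) (nat_lit 5) (nat_lit 392) (nat_lit 367) (nat_lit 261)) (XT.lf (nat_lit 0) (nat_lit 4496189907) (nat_lit 228) (nat_lit 12343357340) (nat_lit 304) (nat_lit 14064213976) (nat_lit 71) (nat_lit 5) (nat_lit 74) (nat_lit 5) (nat_lit 75) (nat_lit 5) (nat_lit 393) (nat_lit 367) (nat_lit 260)))) (XT.nd (nat_lit 156) (nat_lit 304) (nat_lit 0) (XT.nd (nat_lit 78) (nat_lit 228) (nat_lit 0) (XT.lf (nat_lit 0) (nat_lit 22399634415) (nat_lit 228) (nat_lit 460400923) (nat_lit 304) (nat_lit 8981509264) (nat_lit 71) (nat_lit 5) (nat_lit 74) (nat_lit 5) (nat_lit 75) (nat_lit 5) (nat_lit 394) (nat_lit 367) (nat_lit 259)) (XT.lf (nat_lit 0) (nat_lit 8445989548) (nat_lit 228) (nat_lit 21048724428) (nat_lit 304) (nat_lit 3315848047) (nat_lit 68) (nat_lit 5) (nat_lit 71) (nat_lit 5) (nat_lit 72) (nat_lit 5) (nat_lit 395) (nat_lit 367) (nat_lit 258))) (XT.nd (nat_lit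 78) (nat_lit 228) (nat_lit 0) (XT.lf (nat_lit 0) (nat_lit 2712641577) (nat_lit 304) (nat_lit 6324050835) (nat_lit 76) (nat_lit 24781094242) (nat_lit 67) (nat_lit 5) (nat_lit 71) (nat_lit 5) (nat_lit 68) (nat_lit 5) (nat_lit 396) (nat_lit 367) (nat_lit 257)) (XT.lf (nat_lit 0) (nat_lit 9187682843) (nat_lit 304) (nat_lit 21951947294) (nat_lit 76) (nat_lit 3720199149) (nat_lit 64) (nat_lit 5) (nat_lit 68) (nat_lit 5) (nat_lit 65) (nat_lit 5) (nat_lit 397) (nat_lit 367) (nat_lit 256))))))))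
noncomputable def xc163 : XT := (XT.nd (nat_lit 1950) (nat_lit 1368) (nat_lit 0) (XT.nd (nat_lit 936) (nat_lit 988) (nat_lit 0) (XT.nd (nat_lit 468) (nat_lit 684) (nat_lit 0) (XT.nd (nat_lit 234) (nat_lit 304) (nat_lit 0) (XT.nd (nat_lit 78) (nat_lit 380) (nat_lit 0) (XT.lf (nat_lit 0) (nat_lit 16237637503) (nat_lit 304) (nat_lit 2786070241) (nat_lit 76) (nat_lit 16917710857) (nat_lit 64) (nat_lit 5) (nat_lit 68) (nat_lit 5) (nat_lit 65) (nat_lit 5) (nat_lit 398) (nat_lit 367) (nat_lit 255)) (XT.nd (nat_lit 78) (nat_lit 152) (nat_lit 0) (XT.lf (nat_lit 0) (nat_lit 17902992801) (nat_lit 228) (nat_lit 6011053192) (nat_lit 304) (nat_lit 13149346072) (nat_lit 61) (nat_lit 5) (nat_lit 64) (nat_lit 5) (nat_lit 65) (nat_lit 5) (nat_lit 399) (nat_lit 367) (nat_lit 254)) (XT.lf (nat_lit 0) (nat_lit 1400490289) (nat_lit 152) (nat_lit 30757620219) (nat_lit 228) (nat_lit 6074164289) (nat_lit 59) (nat_lit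 5) (nat_lit 61) (nat_lit 5) (nat_lit 62) (nat_lit 5) (nat_lit 400) (nat_lit 367) (nat_lit 253)))) (XT.nd (nat_lit 78) (nat_lit 228) (nat_lit 0) (XT.lf (nat_lit 0) (nat_lit 1734351788) (nat_lit 228) (nat_lit 15922026774) (nat_lit 76) (nat_lit 21781020836) (nat_lit 58) (nat_lit 5) (nat_lit 61) (nat_lit 5) (nat_lit 59) (nat_lit 5) (nat_lit 401) (nat_lit 367) (nat_lit 252)) (XT.nd (nat_lit 78) (nat_lit 0) (nat_lit 0) (XT.lf (nat_lit 0) (nat_lit 6121702203) (nat_lit 228) (nat_lit 3697879032) (nat_lit 304) (nat_lit 30873701254) (nat_lit 55) (nat_lit 5) (nat_lit 58) (nat_lit 5) (nat_lit 59) (nat_lit 5) (nat_lit 402) (nat_lit 367) (nat_lit 251)) (XT.lf (nat_lit 0) (nat_lit 18749158134) (nat_lit 304) (nat_lit 12361554123) (nat_lit 76) (nat_lit 10879245132) (nat_lit 55) (nat_lit 5) (nat_lit 59) (nat_lit 5) (nat_lit 56) (nat_lit 5) (nat_lit 403) (nat_lit 367) (nat_lit 250))))) (XT.nd (nat_lit 234)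 (nat_lit 304) (nat_lit 0) (XT.nd (nat_lit 78) (nat_lit 228) (nat_lit 0) (XT.lf (nat_lit 0) (nat_lit 11250872328) (nat_lit 152) (nat_lit 17105786544) (nat_lit 228) (nat_lit 14983236771) (nat_lit 53) (nat_lit 5) (nat_lit 55) (nat_lit 5) (nat_lit 56) (nat_lit 5) (nat_lit 404) (nat_lit 367) (nat_lit 249)) (XT.nd (nat_lit 78) (nat_lit 228) (nat_lit 0) (XT.lf (nat_lit 0) (nat_lit 36465629347) (nat_lit 152) (nat_lit 2183534343) (nat_lit 228) (nat_lit 6097937438) (nat_lit 53) (nat_lit 5) (nat_lit 55) (nat_lit 5) (nat_lit 56) (nat_lit 5) (nat_lit 405) (nat_lit 367) (nat_lit 248)) (XT.lf (nat_lit 0) (nat_lit 3608039668) (nat_lit 228) (nat_lit 29215103405) (nat_lit 76) (nat_lit 13375010429) (nat_lit 50) (nat_lit 5) (nat_lit 53) (nat_lit 5) (nat_lit 51) (nat_lit 5) (nat_lit 406) (nat_lit 367) (nat_lit 247)))) (XT.nd (nat_lit 78) (nat_lit 304) (nat_lit 0) (XT.lf (nat_lit 0) (nat_lit 13768224581) (nat_lit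 228) (nat_lit 4061814611) (nat_lit 76) (nat_lit 29878030542) (nat_lit 50) (nat_lit 5) (nat_lit 53) (nat_lit 5) (nat_lit 51) (nat_lit 5) (nat_lit 407) (nat_lit 367) (nat_lit 246)) (XT.nd (nat_lit 78) (nat_lit 152) (nat_lit 0) (XT.lf (nat_lit 0) (nat_lit 23080900437) (nat_lit 152) (nat_lit 1711584477) (nat_lit 228) (nat_lit 24483195013) (nat_lit 48) (nat_lit 5) (nat_lit 50) (nat_lit 5) (nat_lit 51) (nat_lit 5) (nat_lit 408) (nat_lit 367) (nat_lit 245)) (XT.lf (nat_lit 0) (nat_lit 576312468) (nat_lit 152) (nat_lit 36103838761) (nat_lit 228) (nat_lit 14225911138) (nat_lit 46) (nat_lit 5) (nat_lit 48) (nat_lit 5) (nat_lit 49) (nat_lit 5) (nat_lit 409) (nat_lit 367) (nat_lit 244)))))) (XT.nd (nat_lit 468) (nat_lit 456) (nat_lit 0) (XT.nd (nat_lit 234) (nat_lit 304) (nat_lit 0) (XT.nd (nat_lit 78) (nat_lit 228) (nat_lit 0) (XT.lf (nat_lit 0) (nat_lit 29559481272) (nat_lit 152) (nat_lit 20069805094)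 (nat_lit 228) (nat_lit 2965324609) (nat_lit 46) (nat_lit 5) (nat_lit 48) (nat_lit 5) (nat_lit 49) (nat_lit 5) (nat_lit 410) (nat_lit 367) (nat_lit 243)) (XT.nd (nat_lit 78) (nat_lit 0) (nat_lit 0) (XT.lf (nat_lit 0) (nat_lit 5660366461) (nat_lit 152) (nat_lit 2998767717) (nat_lit 228) (nat_lit 45697320718) (nat_lit 43) (nat_lit 5) (nat_lit 45) (nat_lit 5) (nat_lit 46) (nat_lit 5) (nat_lit 411) (nat_lit 367) (nat_lit 242)) (XT.lf (nat_lit 0) (nat_lit 21390736976) (nat_lit 228) (nat_lit 19891327685) (nat_lit 76) (nat_lit 14890618129) (nat_lit 43) (nat_lit 5) (nat_lit 46) (nat_lit 5) (nat_lit 44) (nat_lit 5) (nat_lit 412) (nat_lit 367) (nat_lit 241)))) (XT.nd (nat_lit 78) (nat_lit 152) (nat_lit 0) (XT.lf (nat_lit 0) (nat_lit 10638567477) (nat_lit 152) (nat_lit 24331834402) (nat_lit 228) (nat_lit 23098747187) (nat_lit 41) (nat_lit 5) (nat_lit 43) (nat_lit 5) (nat_lit 44) (nat_lit 5) (nat_lit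 413) (nat_lit 367) (nat_lit 240)) (XT.nd (nat_lit 78) (nat_lit 152) (nat_lit 0) (XT.lf (nat_lit 0) (nat_lit 43379199219) (nat_lit 152) (nat_lit 6183024876) (nat_lit 228) (nat_lit 10481556893) (nat_lit 41) (nat_lit 5) (nat_lit 43) (nat_lit 5) (nat_lit 44) (nat_lit 5) (nat_lit 414) (nat_lit 367) (nat_lit 239)) (XT.lf (nat_lit 0) (nat_lit 3131604714) (nat_lit 152) (nat_lit 46202513191) (nat_lit 76) (nat_lit 12758185063) (nat_lit 39) (nat_lit 5) (nat_lit 41) (nat_lit 5) (nat_lit 40) (nat_lit 5) (nat_lit 415) (nat_lit 367) (nat_lit 238))))) (XT.nd (nat_lit 234) (nat_lit 304) (nat_lit 0) (XT.nd (nat_lit 78) (nat_lit 152) (nat_lit 0) (XT.lf (nat_lit 0) (nat_lit 17457843787) (nat_lit 152) (nat_lit 13862714088) (nat_lit 76) (nat_lit 32894869203) (nat_lit 39) (nat_lit 5) (nat_lit 41) (nat_lit 5) (nat_lit 40) (nat_lit 5) (nat_lit 416) (nat_lit 367) (nat_lit 237)) (XT.nd (nat_lit 78) (nat_lit 0) (nat_lit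 0) (XT.lf (nat_lit 0) (nat_lit 20752381477) (nat_lit 152) (nat_lit 12068642843) (nat_lit 228) (nat_lit 33607652452) (nat_lit 37) (nat_lit 5) (nat_lit 39) (nat_lit 5) (nat_lit 40) (nat_lit 5) (nat_lit 417) (nat_lit 367) (nat_lit 236)) (XT.lf (nat_lit 0) (nat_lit 49314821839) (nat_lit 228) (nat_lit 11298296035) (nat_lit 76) (nat_lit 8121348989) (nat_lit 37) (nat_lit 5) (nat_lit 40) (nat_lit 5) (nat_lit 38) (nat_lit 4) (nat_lit 418) (nat_lit 367) (nat_lit 235)))) (XT.nd (nat_lit 156) (nat_lit 152) (nat_lit 0) (XT.nd (nat_lit 78) (nat_lit 76) (nat_lit 0) (XT.lf (nat_lit 0) (nat_lit 25408333278) (nat_lit 76) (nat_lit 41816334651) (nat_lit 152) (nat_lit 3901311366) (nat_lit 36) (nat_lit 5) (nat_lit 37) (nat_lit 5) (nat_lit 38) (nat_lit 4) (nat_lit 419) (nat_lit 367) (nat_lit 234)) (XT.lf (nat_lit 0) (nat_lit 12187596179) (nat_lit 152) (nat_lit 9487243190) (nat_lit 76) (nat_lit 51942988824) (nat_lit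 35) (nat_lit 5) (nat_lit 37) (nat_lit 5) (nat_lit 36) (nat_lit 5) (nat_lit 420) (nat_lit 367) (nat_lit 233))) (XT.nd (nat_lit 78) (nat_lit 0) (nat_lit 0) (XT.lf (nat_lit 0) (nat_lit 29406587685) (nat_lit 228) (nat_lit 46781393869) (nat_lit 76) (nat_lit 20253442) (nat_lit 33) (nat_lit 5) (nat_lit 36) (nat_lit 5) (nat_lit 34) (nat_lit 4) (nat_lit 421) (nat_lit 367) (nat_lit 232)) (XT.lf (nat_lit 0) (nat_lit 48002164019) (nat_lit 228) (nat_lit 8667500746) (nat_lit 76) (nat_lit 22232716246) (nat_lit 33) (nat_lit 5) (nat_lit 36) (nat_lit 5) (nat_lit 34) (nat_lit 4) (nat_lit 422) (nat_lit 367) (nat_lit 231))))))) (XT.nd (nat_lit 1014) (nat_lit 532) (nat_lit 0) (XT.nd (nat_lit 468) (nat_lit 456) (nat_lit 0) (XT.nd (nat_lit 234) (nat_lit 76) (nat_lit 0) (XT.nd (nat_lit 78) (nat_lit 228) (nat_lit 0) (XT.lf (nat_lit 0) (nat_lit 32383397715) (nat_lit 76) (nat_lit 35646864676) (nat_lit 152) (nat_lit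 13675835380) (nat_lit 32) (nat_lit 5) (nat_lit 33) (nat_lit 5) (nat_lit 34) (nat_lit 4) (nat_lit 423) (nat_lit 367) (nat_lit 230)) (XT.nd (nat_lit 78) (nat_lit 152) (nat_lit 0) (XT.lf (nat_lit 0) (nat_lit 4414977767) (nat_lit 152) (nat_lit 8931330536) (nat_lit 76) (nat_lit 71292932552) (nat_lit 31) (nat_lit 5) (nat_lit 33) (nat_lit 5) (nat_lit 32) (nat_lit 5) (nat_lit 424) (nat_lit 367) (nat_lit 229)) (XT.lf (nat_lit 0) (nat_lit 23653967227) (nat_lit 228) (nat_lit 53500894984) (nat_lit 76) (nat_lit 10517808032) (nat_lit 29) (nat_lit 5) (nat_lit 32) (nat_lit 5) (nat_lit 30) (nat_lit 4) (nat_lit 425) (nat_lit 367) (nat_lit 228)))) (XT.nd (nat_lit 78) (nat_lit 76) (nat_lit 0) (XT.lf (nat_lit 0) (nat_lit 44224746272) (nat_lit 228) (nat_lit 11336312683) (nat_lit 76) (nat_lit 35278220639) (nat_lit 29) (nat_lit 5) (nat_lit 32) (nat_lit 5) (nat_lit 30) (nat_lit 4) (nat_lit 426) (nat_lit 367) (nat_lit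 227)) (XT.nd (nat_lit 78) (nat_lit 0) (nat_lit 0) (XT.lf (nat_lit 0) (nat_lit 34020663060) (nat_lit 76) (nat_lit 32331999249) (nat_lit 152) (nat_lit 27785127675) (nat_lit 28) (nat_lit 5) (nat_lit 29) (nat_lit 5) (nat_lit 30) (nat_lit 4) (nat_lit 427) (nat_lit 367) (nat_lit 226)) (XT.lf (nat_lit 0) (nat_lit 82034425372) (nat_lit 76) (nat_lit 7742024422) (nat_lit 152) (nat_lit 7815302769) (nat_lit 28) (nat_lit 5) (nat_lit 29) (nat_lit 5) (nat_lit 30) (nat_lit 4) (nat_lit 428) (nat_lit 367) (nat_lit 225))))) (XT.nd (nat_lit 234) (nat_lit 228) (nat_lit 0) (XT.nd (nat_lit 78) (nat_lit 76) (nat_lit 0) (XT.lf (nat_lit 0) (nat_lit 13523713006) (nat_lit 152) (nat_lit 69430731714) (nat_lit 76) (nat_lit 18214117281) (nat_lit 26) (nat_lit 5) (nat_lit 28) (nat_lit 5) (nat_lit 27) (nat_lit 4) (nat_lit 429) (nat_lit 367) (nat_lit 224)) (XT.nd (nat_lit 78) (nat_lit 76) (nat_lit 0) (XT.lf (nat_lit 0) (nat_lit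 36059327173) (nat_lit 152) (nat_lit 23237043616) (nat_lit 76) (nat_lit 45601820877) (nat_lit 26) (nat_lit 5) (nat_lit 28) (nat_lit 5) (nat_lit 27) (nat_lit 4) (nat_lit 430) (nat_lit 367) (nat_lit 223)) (XT.lf (nat_lit 0) (nat_lit 26097311734) (nat_lit 76) (nat_lit 34029562041) (nat_lit 152) (nat_lit 48667171822) (nat_lit 25) (nat_lit 5) (nat_lit 26) (nat_lit 5) (nat_lit 27) (nat_lit 4) (nat_lit 431) (nat_lit 367) (nat_lit 222)))) (XT.nd (nat_lit 156) (nat_lit 152) (nat_lit 0) (XT.nd (nat_lit 78) (nat_lit 76) (nat_lit 0) (XT.lf (nat_lit 0) (nat_lit 78700897686) (nat_lit 76) (nat_lit 7088173736) (nat_lit 152) (nat_lit 27076057472) (nat_lit 25) (nat_lit 5) (nat_lit 26) (nat_lit 5) (nat_lit 27) (nat_lit 4) (nat_lit 432) (nat_lit 367) (nat_lit 221)) (XT.lf (nat_lit 0) (nat_lit 17004033796) (nat_lit 76) (nat_lit 96324642966) (nat_lit 76) (nat_lit 3781375039) (nat_lit 24) (nat_lit 4) (nat_lit 25)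 (nat_lit 5) (nat_lit 25) (nat_lit 4) (nat_lit 433) (nat_lit 367) (nat_lit 220))) (XT.nd (nat_lit 78) (nat_lit 76) (nat_lit 0) (XT.lf (nat_lit 0) (nat_lit 20718314167) (nat_lit 152) (nat_lit 50074109456) (nat_lit 76) (nat_lit 50723550473) (nat_lit 23) (nat_lit 5) (nat_lit 25) (nat_lit 5) (nat_lit 24) (nat_lit 4) (nat_lit 434) (nat_lit 367) (nat_lit 219)) (XT.lf (nat_lit 0) (nat_lit 2472631847) (nat_lit 76) (nat_lit 43879811909) (nat_lit 152) (nat_lit 79784822806) (nat_lit 22) (nat_lit 5) (nat_lit 23) (nat_lit 5) (nat_lit 24) (nat_lit 4) (nat_lit 435) (nat_lit 367) (nat_lit 218)))))) (XT.nd (nat_lit 468) (nat_lit 304) (nat_lit 0) (XT.nd (nat_lit 234) (nat_lit 152) (nat_lit 0) (XT.nd (nat_lit 78) (nat_lit 76) (nat_lit 0) (XT.lf (nat_lit 0) (nat_lit 59381320750) (nat_lit 76) (nat_lit 14732957014) (nat_lit 152) (nat_lit 56833046268) (nat_lit 22) (nat_lit 5) (nat_lit 23) (nat_lit 5) (nat_lit 24)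 (nat_lit 4) (nat_lit 436) (nat_lit 367) (nat_lit 217)) (XT.nd (nat_lit 78) (nat_lit 76) (nat_lit 0) (XT.lf (nat_lit 0) (nat_lit 103510036381) (nat_lit 152) (nat_lit 17113970948) (nat_lit 0) (nat_lit 15361585664) (nat_lit 22) (nat_lit 5) (nat_lit 24) (nat_lit 4) (nat_lit 22) (nat_lit 4) (nat_lit 437) (nat_lit 367) (nat_lit 216)) (XT.lf (nat_lit 0) (nat_lit 41132063817) (nat_lit 76) (nat_lit 94125361558) (nat_lit 76) (nat_lit 5974258157) (nat_lit 21) (nat_lit 4) (nat_lit 22) (nat_lit 5) (nat_lit 22) (nat_lit 4) (nat_lit 438) (nat_lit 367) (nat_lit 215)))) (XT.nd (nat_lit 78) (nat_lit 76) (nat_lit 0) (XT.lf (nat_lit 0) (nat_lit 21445421913) (nat_lit 152) (nat_lit 44190514844) (nat_lit 76) (nat_lit 81072447414) (nat_lit 20) (nat_lit 5) (nat_lit 22) (nat_lit 5) (nat_lit 21) (nat_lit 4) (nat_lit 439) (nat_lit 367) (nat_lit 214)) (XT.nd (nat_lit 78) (nat_lit 0) (nat_lit 0) (XT.lf (nat_lit 0) (nat_lit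 14889262973) (nat_lit 76) (nat_lit 35376736443) (nat_lit 152) (nat_lit 102176489326) (nat_lit 19) (nat_lit 5) (nat_lit 20) (nat_lit 5) (nat_lit 21) (nat_lit 4) (nat_lit 440) (nat_lit 367) (nat_lit 213)) (XT.lf (nat_lit 0) (nat_lit 78453886258) (nat_lit 76) (nat_lit 2820364267) (nat_lit 152) (nat_lit 77151715985) (nat_lit 19) (nat_lit 5) (nat_lit 20) (nat_lit 5) (nat_lit 21) (nat_lit 4) (nat_lit 441) (nat_lit 367) (nat_lit 212))))) (XT.nd (nat_lit 234) (nat_lit 152) (nat_lit 0) (XT.nd (nat_lit 78) (nat_lit 152) (nat_lit 0) (XT.lf (nat_lit 0) (nat_lit 114320907678) (nat_lit 152) (nat_lit 20004793513) (nat_lit 0) (nat_lit 30358517498) (nat_lit 19) (nat_lit 5) (nat_lit 21) (nat_lit 4) (nat_lit 19) (nat_lit 4) (nat_lit 442) (nat_lit 367) (nat_lit 211)) (XT.nd (nat_lit 78) (nat_lit 76) (nat_lit 0) (XT.lf (nat_lit 0) (nat_lit 44330386712) (nat_lit 76) (nat_lit 105426264467) (nat_lit 76) (nat_lit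 21461894813) (nat_lit 18) (nat_lit 4) (nat_lit 19) (nat_lit 5) (nat_lit 19) (nat_lit 4) (nat_lit 443) (nat_lit 367) (nat_lit 210)) (XT.lf (nat_lit 0) (nat_lit 8942973995) (nat_lit 152) (nat_lit 65633158176) (nat_lit 76) (nat_lit 103479384778) (nat_lit 17) (nat_lit 5) (nat_lit 19) (nat_lit 5) (nat_lit 18) (nat_lit 4) (nat_lit 444) (nat_lit 367) (nat_lit 209)))) (XT.nd (nat_lit 156) (nat_lit 76) (nat_lit 0) (XT.nd (nat_lit 78) (nat_lit 76) (nat_lit 0) (XT.lf (nat_lit 0) (nat_lit 40145301493) (nat_lit 152) (nat_lit 1670182247) (nat_lit 76) (nat_lit 143401337376) (nat_lit 17) (nat_lit 5) (nat_lit 19) (nat_lit 5) (nat_lit 18) (nat_lit 4) (nat_lit 445) (nat_lit 367) (nat_lit 208)) (XT.lf (nat_lit 0) (nat_lit 67653475345) (nat_lit 76) (nat_lit 6309078604) (nat_lit 152) (nat_lit 118720896267) (nat_lit 16) (nat_lit 5) (nat_lit 17) (nat_lit 5) (nat_lit 18) (nat_lit 4) (nat_lit 446) (nat_lit 367) (nat_lit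 207))) (XT.nd (nat_lit 78) (nat_lit 76) (nat_lit 0) (XT.lf (nat_lit 0) (nat_lit 109981541464) (nat_lit 152) (nat_lit 60507535580) (nat_lit 0) (nat_lit 30008790253) (nat_lit 16) (nat_lit 5) (nat_lit 18) (nat_lit 4) (nat_lit 16) (nat_lit 4) (nat_lit 447) (nat_lit 367) (nat_lit 206)) (XT.lf (nat_lit 0) (nat_lit 7370838312) (nat_lit 76) (nat_lit 140647769457) (nat_lit 76) (nat_lit 60673541133) (nat_lit 15) (nat_lit 4) (nat_lit 16) (nat_lit 5) (nat_lit 16) (nat_lit 4) (nat_lit 448) (nat_lit 367) (nat_lit 205))))))))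
noncomputable def xc164 : XT := (XT.nd (nat_lit 1950) (nat_lit 0) (nat_lit 0) (XT.nd (nat_lit 936) (nat_lit 304) (nat_lit 0) (XT.nd (nat_lit 468) (nat_lit 228) (nat_lit 0) (XT.nd (nat_lit 234) (nat_lit 0) (nat_lit 0) (XT.nd (nat_lit 78) (nat_lit 152) (nat_lit 0) (XT.lf (nat_lit 0) (nat_lit 80741186312) (nat_lit 76) (nat_lit 108239712469) (nat_lit 76) (nat_lit 28264077369) (nat_lit 15) (nat_lit 4) (nat_lit 16) (nat_lit 5) (nat_lit 16) (nat_lit 4) (nat_lit 449) (nat_lit 367) (nat_lit 204)) (XT.nd (nat_lit 78) (nat_lit 76) (nat_lit 0) (XT.lf (nat_lit 0) (nat_lit 5580006245) (nat_lit 152) (nat_lit 68537962082) (nat_lit 76) (nat_lit 152103040985) (nat_lit 14) (nat_lit 5) (nat_lit 16) (nat_lit 5) (nat_lit 15) (nat_lit 4) (nat_lit 450) (nat_lit 367) (nat_lit 203)) (XT.lf (nat_lit 0) (nat_lit 2438430039) (nat_lit 76) (nat_lit 37764828941) (nat_lit 152) (nat_lit 195417576826) (nat_lit 13) (nat_lit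 5) (nat_lit 14) (nat_lit 5) (nat_lit 15) (nat_lit 4) (nat_lit 451) (nat_lit 367) (nat_lit 202)))) (XT.nd (nat_lit 78) (nat_lit 0) (nat_lit 0) (XT.lf (nat_lit 0) (nat_lit 77742520987) (nat_lit 152) (nat_lit 166117289521) (nat_lit 0) (nat_lit 1571600895) (nat_lit 13) (nat_lit 5) (nat_lit 15) (nat_lit 4) (nat_lit 13) (nat_lit 4) (nat_lit 452) (nat_lit 367) (nat_lit 201)) (XT.nd (nat_lit 78) (nat_lit 0) (nat_lit 0) (XT.lf (nat_lit 0) (nat_lit 117776657401) (nat_lit 152) (nat_lit 96320327855) (nat_lit 0) (nat_lit 41604635063) (nat_lit 13) (nat_lit 5) (nat_lit 15) (nat_lit 4) (nat_lit 13) (nat_lit 4) (nat_lit 453) (nat_lit 367) (nat_lit 200)) (XT.lf (nat_lit 0) (nat_lit 159811372779) (nat_lit 152) (nat_lit 23035722710) (nat_lit 0) (nat_lit 83638300684) (nat_lit 13) (nat_lit 5) (nat_lit 15) (nat_lit 4) (nat_lit 13) (nat_lit 4) (nat_lit 454) (nat_lit 367) (nat_lit 199))))) (XT.nd (nat_lit 234) (nat_lit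 76) (nat_lit 0) (XT.nd (nat_lit 78) (nat_lit 76) (nat_lit 0) (XT.lf (nat_lit 0) (nat_lit 55693554627) (nat_lit 76) (nat_lit 149122727618) (nat_lit 76) (nat_lit 72948655754) (nat_lit 12) (nat_lit 4) (nat_lit 13) (nat_lit 5) (nat_lit 13) (nat_lit 4) (nat_lit 455) (nat_lit 367) (nat_lit 198)) (XT.nd (nat_lit 78) (nat_lit 76) (nat_lit 0) (XT.lf (nat_lit 0) (nat_lit 139156978350) (nat_lit 76) (nat_lit 113303524695) (nat_lit 76) (nat_lit 37128500669) (nat_lit 12) (nat_lit 4) (nat_lit 13) (nat_lit 5) (nat_lit 13) (nat_lit 4) (nat_lit 456) (nat_lit 367) (nat_lit 197)) (XT.lf (nat_lit 0) (nat_lit 466192405) (nat_lit 152) (nat_lit 75220236414) (nat_lit 76) (nat_lit 226317518269) (nat_lit 11) (nat_lit 5) (nat_lit 13) (nat_lit 5) (nat_lit 12) (nat_lit 4) (nat_lit 457) (nat_lit 367) (nat_lit 196)))) (XT.nd (nat_lit 78) (nat_lit 0) (nat_lit 0) (XT.lf (nat_lit 0) (nat_lit 3245446647) (nat_lit 76) (nat_lit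 35497110001) (nat_lit 152) (nat_lit 276264162984) (nat_lit 10) (nat_lit 5) (nat_lit 11) (nat_lit 5) (nat_lit 12) (nat_lit 4) (nat_lit 458) (nat_lit 367) (nat_lit 195)) (XT.nd (nat_lit 78) (nat_lit 0) (nat_lit 0) (XT.lf (nat_lit 0) (nat_lit 80331175374) (nat_lit 152) (nat_lit 240477469740) (nat_lit 0) (nat_lit 7781063950) (nat_lit 10) (nat_lit 5) (nat_lit 12) (nat_lit 4) (nat_lit 10) (nat_lit 4) (nat_lit 459) (nat_lit 367) (nat_lit 194)) (XT.lf (nat_lit 0) (nat_lit 124580220857) (nat_lit 152) (nat_lit 166213214000) (nat_lit 0) (nat_lit 52029363390) (nat_lit 10) (nat_lit 5) (nat_lit 12) (nat_lit 4) (nat_lit 10) (nat_lit 4) (nat_lit 460) (nat_lit 367) (nat_lit 193)))))) (XT.nd (nat_lit 468) (nat_lit 152) (nat_lit 0) (XT.nd (nat_lit 234) (nat_lit 76) (nat_lit 0) (XT.nd (nat_lit 78) (nat_lit 76) (nat_lit 0) (XT.lf (nat_lit 0) (nat_lit 171040838600) (nat_lit 152) (nat_lit 88237476742) (nat_lit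 0) (nat_lit 98489270616) (nat_lit 10) (nat_lit 5) (nat_lit 12) (nat_lit 4) (nat_lit 10) (nat_lit 4) (nat_lit 461) (nat_lit 367) (nat_lit 192)) (XT.nd (nat_lit 78) (nat_lit 76) (nat_lit 0) (XT.lf (nat_lit 0) (nat_lit 219823649120) (nat_lit 152) (nat_lit 6364601449) (nat_lit 0) (nat_lit 147271404453) (nat_lit 10) (nat_lit 5) (nat_lit 12) (nat_lit 4) (nat_lit 10) (nat_lit 4) (nat_lit 462) (nat_lit 367) (nat_lit 191)) (XT.lf (nat_lit 0) (nat_lit 82232294263) (nat_lit 76) (nat_lit 190096384274) (nat_lit 76) (nat_lit 117543495147) (nat_lit 9) (nat_lit 4) (nat_lit 10) (nat_lit 5) (nat_lit 10) (nat_lit 4) (nat_lit 463) (nat_lit 367) (nat_lit 190)))) (XT.nd (nat_lit 78) (nat_lit 76) (nat_lit 0) (XT.lf (nat_lit 0) (nat_lit 175478454368) (nat_lit 76) (nat_lit 152087508351) (nat_lit 76) (nat_lit 79534005453) (nat_lit 9) (nat_lit 4) (nat_lit 10) (nat_lit 5) (nat_lit 10) (nat_lit 4) (nat_lit 464) (nat_lit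 367) (nat_lit 189)) (XT.nd (nat_lit 78) (nat_lit 76) (nat_lit 0) (XT.lf (nat_lit 0) (nat_lit 273385451064) (nat_lit 76) (nat_lit 112178913083) (nat_lit 76) (nat_lit 39624825641) (nat_lit 9) (nat_lit 4) (nat_lit 10) (nat_lit 5) (nat_lit 10) (nat_lit 4) (nat_lit 465) (nat_lit 367) (nat_lit 188)) (XT.lf (nat_lit 0) (nat_lit 2206121796) (nat_lit 152) (nat_lit 68032094469) (nat_lit 76) (nat_lit 373942912712) (nat_lit 8) (nat_lit 5) (nat_lit 10) (nat_lit 5) (nat_lit 9) (nat_lit 4) (nat_lit 466) (nat_lit 367) (nat_lit 187))))) (XT.nd (nat_lit 234) (nat_lit 76) (nat_lit 0) (XT.nd (nat_lit 78) (nat_lit 0) (nat_lit 0) (XT.lf (nat_lit 0) (nat_lit 19914578128) (nat_lit 76) (nat_lit 25192618202) (nat_lit 152) (nat_lit 418967477791) (nat_lit 7) (nat_lit 5) (nat_lit 8) (nat_lit 5) (nat_lit 9) (nat_lit 4) (nat_lit 467) (nat_lit 367) (nat_lit 186)) (XT.nd (nat_lit 78) (nat_lit 0) (nat_lit 0) (XT.lf (nat_lit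 0) (nat_lit 91668806880) (nat_lit 152) (nat_lit 370650155649) (nat_lit 0) (nat_lit 22568159926) (nat_lit 7) (nat_lit 5) (nat_lit 9) (nat_lit 4) (nat_lit 7) (nat_lit 4) (nat_lit 468) (nat_lit 367) (nat_lit 185)) (XT.lf (nat_lit 0) (nat_lit 140970837396) (nat_lit 152) (nat_lit 293879006444) (nat_lit 0) (nat_lit 71869732437) (nat_lit 7) (nat_lit 5) (nat_lit 9) (nat_lit 4) (nat_lit 7) (nat_lit 4) (nat_lit 469) (nat_lit 367) (nat_lit 184)))) (XT.nd (nat_lit 156) (nat_lit 76) (nat_lit 0) (XT.nd (nat_lit 78) (nat_lit 0) (nat_lit 0) (XT.lf (nat_lit 0) (nat_lit 192737346295) (nat_lit 152) (nat_lit 213270532555) (nat_lit 0) (nat_lit 123635805140) (nat_lit 7) (nat_lit 5) (nat_lit 9) (nat_lit 4) (nat_lit 7) (nat_lit 4) (nat_lit 470) (nat_lit 367) (nat_lit 183)) (XT.lf (nat_lit 0) (nat_lit 247091587167) (nat_lit 152) (nat_lit 128632809045) (nat_lit 0) (nat_lit 177989630587) (nat_lit 7) (nat_lit 5) (nat_lit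 9) (nat_lit 4) (nat_lit 7) (nat_lit 4) (nat_lit 471) (nat_lit 367) (nat_lit 182))) (XT.nd (nat_lit 78) (nat_lit 76) (nat_lit 0) (XT.lf (nat_lit 0) (nat_lit 304162974873) (nat_lit 152) (nat_lit 39764317524) (nat_lit 0) (nat_lit 235060622651) (nat_lit 7) (nat_lit 5) (nat_lit 9) (nat_lit 4) (nat_lit 7) (nat_lit 4) (nat_lit 472) (nat_lit 367) (nat_lit 181)) (XT.lf (nat_lit 0) (nat_lit 55317023878) (nat_lit 76) (nat_lit 309634023559) (nat_lit 76) (nat_lit 240531294534) (nat_lit 6) (nat_lit 4) (nat_lit 7) (nat_lit 5) (nat_lit 7) (nat_lit 4) (nat_lit 473) (nat_lit 367) (nat_lit 180))))))) (XT.nd (nat_lit 45708) (nat_lit 0) (nat_lit 5472) (XT.nd (nat_lit 45162) (nat_lit 0) (nat_lit 8056) (XT.nd (nat_lit 44928) (nat_lit 0) (nat_lit 7904) (XT.nd (nat_lit 78) (nat_lit 0) (nat_lit 0) (XT.lf (nat_lit 0) (nat_lit 156531911923) (nat_lit 76) (nat_lit 272919510644) (nat_lit 76) (nat_lit 203816422760) (nat_lit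 6) (nat_lit 4) (nat_lit 7) (nat_lit 5) (nat_lit 7) (nat_lit 4) (nat_lit 474) (nat_lit 367) (nat_lit 179)) (XT.nd (nat_lit 44772) (nat_lit 0) (nat_lit 7904) (XT.lf (nat_lit 0) (nat_lit 262806546521) (nat_lit 76) (nat_lit 234369766105) (nat_lit 76) (nat_lit 165266336451) (nat_lit 6) (nat_lit 4) (nat_lit 7) (nat_lit 5) (nat_lit 7) (nat_lit 4) (nat_lit 475) (nat_lit 367) (nat_lit 178)) (XT.lf (nat_lit 0) (nat_lit 81927594) (nat_lit 836) (nat_lit 3990904773) (nat_lit 836) (nat_lit 3990904773) (nat_lit 110) (nat_lit 3) (nat_lit 121) (nat_lit 3) (nat_lit 121) (nat_lit 5) (nat_lit 368) (nat_lit 368) (nat_lit 284)))) (XT.nd (nat_lit 78) (nat_lit 0) (nat_lit 76) (XT.lf (nat_lit 0) (nat_lit 418071429) (nat_lit 836) (nat_lit 209325739) (nat_lit 836) (nat_lit 15890581356) (nat_lit 110) (nat_lit 3) (nat_lit 121) (nat_lit 3) (nat_lit 121) (nat_lit 5) (nat_lit 369) (nat_lit 368) (nat_lit 283)) (XT.nd (nat_lit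 78) (nat_lit 0) (nat_lit 0) (XT.lf (nat_lit 0) (nat_lit 912780391) (nat_lit 760) (nat_lit 8832073048) (nat_lit 836) (nat_lit 7171776752) (nat_lit 111) (nat_lit 5) (nat_lit 121) (nat_lit 5) (nat_lit 122) (nat_lit 5) (nat_lit 370) (nat_lit 368) (nat_lit 282)) (XT.lf (nat_lit 0) (nat_lit 1430846447) (nat_lit 760) (nat_lit 554145198) (nat_lit 836) (nat_lit 15350302481) (nat_lit 111) (nat_lit 5) (nat_lit 121) (nat_lit 5) (nat_lit 122) (nat_lit 5) (nat_lit 371) (nat_lit 368) (nat_lit 281))))) (XT.nd (nat_lit 234) (nat_lit 0) (nat_lit 76) (XT.nd (nat_lit 78) (nat_lit 0) (nat_lit 0) (XT.lf (nat_lit 0) (nat_lit 2189847832) (nat_lit 760) (nat_lit 9469803427) (nat_lit 836) (nat_lit 6104498652) (nat_lit 112) (nat_lit 5) (nat_lit 122) (nat_lit 5) (nat_lit 123) (nat_lit 5) (nat_lit 372) (nat_lit 368) (nat_lit 280)) (XT.nd (nat_lit 78) (nat_lit 0) (nat_lit 76) (XT.lf (nat_lit 0) (nat_lit 3014981446) (nat_lit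 760) (nat_lit 651554449) (nat_lit 836) (nat_lit 14546513250) (nat_lit 112) (nat_lit 5) (nat_lit 122) (nat_lit 5) (nat_lit 123) (nat_lit 5) (nat_lit 373) (nat_lit 368) (nat_lit 279)) (XT.lf (nat_lit 0) (nat_lit 4082955012) (nat_lit 760) (nat_lit 9871277766) (nat_lit 836) (nat_lit 4720090699) (nat_lit 113) (nat_lit 5) (nat_lit 123) (nat_lit 5) (nat_lit 124) (nat_lit 5) (nat_lit 374) (nat_lit 368) (nat_lit 278)))) (XT.nd (nat_lit 156) (nat_lit 0) (nat_lit 76) (XT.nd (nat_lit 78) (nat_lit 0) (nat_lit 76) (XT.lf (nat_lit 0) (nat_lit 5262968906) (nat_lit 760) (nat_lit 474900192) (nat_lit 836) (nat_lit 13417869204) (nat_lit 113) (nat_lit 5) (nat_lit 123) (nat_lit 5) (nat_lit 124) (nat_lit 5) (nat_lit 375) (nat_lit 368) (nat_lit 277)) (XT.lf (nat_lit 0) (nat_lit 6688871523) (nat_lit 760) (nat_lit 10009438766) (nat_lit 836) (nat_lit 2953577615) (nat_lit 114) (nat_lit 5) (nat_lit 124) (nat_lit 5)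 (nat_lit 125) (nat_lit 5) (nat_lit 376) (nat_lit 368) (nat_lit 276))) (XT.nd (nat_lit 78) (nat_lit 0) (nat_lit 76) (XT.lf (nat_lit 76) (nat_lit 6179703) (nat_lit 0) (nat_lit 8270625972) (nat_lit 836) (nat_lit 11891510525) (nat_lit 115) (nat_lit 5) (nat_lit 114) (nat_lit 5) (nat_lit 125) (nat_lit 5) (nat_lit 377) (nat_lit 368) (nat_lit 275)) (XT.lf (nat_lit 0) (nat_lit 10114297391) (nat_lit 760) (nat_lit 9853791160) (nat_lit 76) (nat_lit 733976970) (nat_lit 115) (nat_lit 5) (nat_lit 125) (nat_lit 5) (nat_lit 116) (nat_lit 5) (nat_lit 378) (nat_lit 368) (nat_lit 274)))))) (XT.nd (nat_lit 468) (nat_lit 1292) (nat_lit 0) (XT.nd (nat_lit 234) (nat_lit 380) (nat_lit 0) (XT.nd (nat_lit 78) (nat_lit 380) (nat_lit 0) (XT.lf (nat_lit 0) (nat_lit 852161764) (nat_lit 760) (nat_lit 11329758333) (nat_lit 836) (nat_lit 9073676678) (nat_lit 105) (nat_lit 5) (nat_lit 115) (nat_lit 5) (nat_lit 116) (nat_lit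 5) (nat_lit 379) (nat_lit 368) (nat_lit 273)) (XT.nd (nat_lit 78) (nat_lit 380) (nat_lit 0) (XT.lf (nat_lit 0) (nat_lit 12426166798) (nat_lit 760) (nat_lit 2083363970) (nat_lit 836) (nat_lit 7319450425) (nat_lit 105) (nat_lit 5) (nat_lit 115) (nat_lit 5) (nat_lit 116) (nat_lit 5) (nat_lit 380) (nat_lit 368) (nat_lit 272)) (XT.lf (nat_lit 0) (nat_lit 2086142424) (nat_lit 380) (nat_lit 15009234160) (nat_lit 456) (nat_lit 5328572125) (nat_lit 100) (nat_lit 5) (nat_lit 105) (nat_lit 5) (nat_lit 106) (nat_lit 5) (nat_lit 381) (nat_lit 368) (nat_lit 271)))) (XT.nd (nat_lit 78) (nat_lit 380) (nat_lit 0) (XT.lf (nat_lit 0) (nat_lit 14431449260) (nat_lit 380) (nat_lit 5562460910) (nat_lit 456) (nat_lit 3045590954) (nat_lit 100) (nat_lit 5) (nat_lit 105) (nat_lit 5) (nat_lit 106) (nat_lit 5) (nat_lit 382) (nat_lit 368) (nat_lit 270)) (XT.nd (nat_lit 78) (nat_lit 76) (nat_lit 0) (XT.lf (nat_lit 0)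 (nat_lit 3750947152) (nat_lit 304) (nat_lit 19404009964) (nat_lit 380) (nat_lit 525000705) (nat_lit 96) (nat_lit 5) (nat_lit 100) (nat_lit 5) (nat_lit 101) (nat_lit 5) (nat_lit 383) (nat_lit 368) (nat_lit 269)) (XT.lf (nat_lit 0) (nat_lit 2284215161) (nat_lit 380) (nat_lit 7454528220) (nat_lit 76) (nat_lit 14600518130) (nat_lit 95) (nat_lit 5) (nat_lit 100) (nat_lit 5) (nat_lit 96) (nat_lit 5) (nat_lit 384) (nat_lit 368) (nat_lit 268))))) (XT.nd (nat_lit 234) (nat_lit 608) (nat_lit 0) (XT.nd (nat_lit 78) (nat_lit 304) (nat_lit 0) (XT.lf (nat_lit 0) (nat_lit 5306573689) (nat_lit 456) (nat_lit 19222889325) (nat_lit 76) (nat_lit 497125957) (nat_lit 90) (nat_lit 5) (nat_lit 96) (nat_lit 5) (nat_lit 91) (nat_lit 5) (nat_lit 385) (nat_lit 368) (nat_lit 267)) (XT.nd (nat_lit 78) (nat_lit 304) (nat_lit 0) (XT.lf (nat_lit 0) (nat_lit 8759834561) (nat_lit 456) (nat_lit 5929283969) (nat_lit 76) (nat_lit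 11045179986) (nat_lit 90) (nat_lit 5) (nat_lit 96) (nat_lit 5) (nat_lit 91) (nat_lit 5) (nat_lit 386) (nat_lit 368) (nat_lit 266)) (XT.lf (nat_lit 0) (nat_lit 8285390048) (nat_lit 304) (nat_lit 4221933481) (nat_lit 380) (nat_lit 13963996454) (nat_lit 86) (nat_lit 5) (nat_lit 90) (nat_lit 5) (nat_lit 91) (nat_lit 5) (nat_lit 387) (nat_lit 368) (nat_lit 265)))) (XT.nd (nat_lit 156) (nat_lit 304) (nat_lit 0) (XT.nd (nat_lit 78) (nat_lit 304) (nat_lit 0) (XT.lf (nat_lit 0) (nat_lit 16642351131) (nat_lit 380) (nat_lit 3939864946) (nat_lit 76) (nat_lit 6652972711) (nat_lit 86) (nat_lit 5) (nat_lit 91) (nat_lit 5) (nat_lit 87) (nat_lit 5) (nat_lit 388) (nat_lit 368) (nat_lit 264)) (XT.lf (nat_lit 0) (nat_lit 11302450587) (nat_lit 304) (nat_lit 9920140913) (nat_lit 380) (nat_lit 6802740725) (nat_lit 82) (nat_lit 5) (nat_lit 86) (nat_lit 5) (nat_lit 87) (nat_lit 5) (nat_lit 389) (nat_lit 368) (nat_lit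 263))) (XT.nd (nat_lit 78) (nat_lit 304) (nat_lit 0) (XT.lf (nat_lit 0) (nat_lit 26112543519) (nat_lit 380) (nat_lit 1437764965) (nat_lit 76) (nat_lit 1300643426) (nat_lit 82) (nat_lit 5) (nat_lit 87) (nat_lit 5) (nat_lit 83) (nat_lit 5) (nat_lit 390) (nat_lit 368) (nat_lit 262)) (XT.lf (nat_lit 0) (nat_lit 1875417656) (nat_lit 304) (nat_lit 14810572832) (nat_lit 76) (nat_lit 13010911107) (nat_lit 78) (nat_lit 5) (nat_lit 82) (nat_lit 5) (nat_lit 79) (nat_lit 5) (nat_lit 391) (nat_lit 368) (nat_lit 261))))))))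
noncomputable def xc165 : XT := (XT.nd (nat_lit 1950) (nat_lit 1520) (nat_lit 0) (XT.nd (nat_lit 936) (nat_lit 1216) (nat_lit 0) (XT.nd (nat_lit 468) (nat_lit 912) (nat_lit 0) (XT.nd (nat_lit 234) (nat_lit 304) (nat_lit 0) (XT.nd (nat_lit 78) (nat_lit 228) (nat_lit 0) (XT.lf (nat_lit 0) (nat_lit 1486444624) (nat_lit 304) (nat_lit 5182807727) (nat_lit 380) (nat_lit 23911588031) (nat_lit 74) (nat_lit 5) (nat_lit 78) (nat_lit 5) (nat_lit 79) (nat_lit 5) (nat_lit 392) (nat_lit 368) (nat_lit 260)) (XT.nd (nat_lit 78) (nat_lit 228) (nat_lit 0) (XT.lf (nat_lit 0) (nat_lit 12058918762) (nat_lit 380) (nat_lit 12504313166) (nat_lit 76) (nat_lit 6927940518) (nat_lit 74) (nat_lit 5) (nat_lit 79) (nat_lit 5) (nat_lit 75) (nat_lit 5) (nat_lit 393) (nat_lit 368) (nat_lit 259)) (XT.lf (nat_lit 0) (nat_lit 4981549834) (nat_lit 228) (nat_lit 12893111320) (nat_lit 304) (nat_lit 14564533508) (nat_lit 71) (nat_lit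 5) (nat_lit 74) (nat_lit 5) (nat_lit 75) (nat_lit 5) (nat_lit 394) (nat_lit 368) (nat_lit 258)))) (XT.nd (nat_lit 78) (nat_lit 304) (nat_lit 0) (XT.lf (nat_lit 0) (nat_lit 23767759404) (nat_lit 228) (nat_lit 419217268) (nat_lit 304) (nat_lit 9237355045) (nat_lit 71) (nat_lit 5) (nat_lit 74) (nat_lit 5) (nat_lit 75) (nat_lit 5) (nat_lit 395) (nat_lit 368) (nat_lit 257)) (XT.nd (nat_lit 78) (nat_lit 76) (nat_lit 0) (XT.lf (nat_lit 0) (nat_lit 9120584026) (nat_lit 228) (nat_lit 22028939887) (nat_lit 304) (nat_lit 3292473797) (nat_lit 68) (nat_lit 5) (nat_lit 71) (nat_lit 5) (nat_lit 72) (nat_lit 5) (nat_lit 396) (nat_lit 368) (nat_lit 256)) (XT.lf (nat_lit 0) (nat_lit 3022666169) (nat_lit 304) (nat_lit 6394125764) (nat_lit 76) (nat_lit 26083083973) (nat_lit 67) (nat_lit 5) (nat_lit 71) (nat_lit 5) (nat_lit 68) (nat_lit 5) (nat_lit 397) (nat_lit 368) (nat_lit 255))))) (XT.nd (nat_lit 234) (nat_lit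 456) (nat_lit 0) (XT.nd (nat_lit 78) (nat_lit 228) (nat_lit 0) (XT.lf (nat_lit 0) (nat_lit 9818064488) (nat_lit 304) (nat_lit 22799945411) (nat_lit 76) (nat_lit 3976184353) (nat_lit 64) (nat_lit 5) (nat_lit 68) (nat_lit 5) (nat_lit 65) (nat_lit 5) (nat_lit 398) (nat_lit 368) (nat_lit 254)) (XT.nd (nat_lit 78) (nat_lit 228) (nat_lit 0) (XT.lf (nat_lit 0) (nat_lit 17212374142) (nat_lit 304) (nat_lit 2687660184) (nat_lit 76) (nat_lit 17830239491) (nat_lit 64) (nat_lit 5) (nat_lit 68) (nat_lit 5) (nat_lit 65) (nat_lit 5) (nat_lit 399) (nat_lit 368) (nat_lit 253)) (XT.lf (nat_lit 0) (nat_lit 19032021920) (nat_lit 228) (nat_lit 6236477662) (nat_lit 304) (nat_lit 13640055021) (nat_lit 61) (nat_lit 5) (nat_lit 64) (nat_lit 5) (nat_lit 65) (nat_lit 5) (nat_lit 400) (nat_lit 368) (nat_lit 252)))) (XT.nd (nat_lit 78) (nat_lit 304) (nat_lit 0) (XT.lf (nat_lit 0) (nat_lit 1707345909) (nat_lit 152) (nat_lit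 32214676532) (nat_lit 228) (nat_lit 6213999584) (nat_lit 59) (nat_lit 5) (nat_lit 61) (nat_lit 5) (nat_lit 62) (nat_lit 5) (nat_lit 401) (nat_lit 368) (nat_lit 251)) (XT.nd (nat_lit 78) (nat_lit 228) (nat_lit 0) (XT.lf (nat_lit 0) (nat_lit 1972143627) (nat_lit 228) (nat_lit 16487519444) (nat_lit 76) (nat_lit 22941992547) (nat_lit 58) (nat_lit 5) (nat_lit 61) (nat_lit 5) (nat_lit 59) (nat_lit 5) (nat_lit 402) (nat_lit 368) (nat_lit 250)) (XT.lf (nat_lit 0) (nat_lit 6654676487) (nat_lit 228) (nat_lit 3803306424) (nat_lit 304) (nat_lit 32262535394) (nat_lit 55) (nat_lit 5) (nat_lit 58) (nat_lit 5) (nat_lit 59) (nat_lit 5) (nat_lit 403) (nat_lit 368) (nat_lit 249)))))) (XT.nd (nat_lit 468) (nat_lit 684) (nat_lit 0) (XT.nd (nat_lit 234) (nat_lit 380) (nat_lit 0) (XT.nd (nat_lit 78) (nat_lit 152) (nat_lit 0) (XT.lf (nat_lit 0) (nat_lit 19828200145) (nat_lit 304) (nat_lit 12757653937) (nat_lit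 76) (nat_lit 11496467515) (nat_lit 55) (nat_lit 5) (nat_lit 59) (nat_lit 5) (nat_lit 56) (nat_lit 5) (nat_lit 404) (nat_lit 368) (nat_lit 248)) (XT.nd (nat_lit 78) (nat_lit 0) (nat_lit 0) (XT.lf (nat_lit 0) (nat_lit 12031813548) (nat_lit 152) (nat_lit 17880930071) (nat_lit 228) (nat_lit 15587182354) (nat_lit 53) (nat_lit 5) (nat_lit 55) (nat_lit 5) (nat_lit 56) (nat_lit 5) (nat_lit 405) (nat_lit 368) (nat_lit 247)) (XT.lf (nat_lit 0) (nat_lit 38496908533) (nat_lit 152) (nat_lit 2216381726) (nat_lit 228) (nat_lit 6264533114) (nat_lit 53) (nat_lit 5) (nat_lit 55) (nat_lit 5) (nat_lit 56) (nat_lit 5) (nat_lit 406) (nat_lit 368) (nat_lit 246)))) (XT.nd (nat_lit 78) (nat_lit 152) (nat_lit 0) (XT.lf (nat_lit 0) (nat_lit 3920427310) (nat_lit 228) (nat_lit 30461453479) (nat_lit 76) (nat_lit 14119536305) (nat_lit 50) (nat_lit 5) (nat_lit 53) (nat_lit 5) (nat_lit 51) (nat_lit 5) (nat_lit 407) (nat_lit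 368) (nat_lit 245)) (XT.nd (nat_lit 78) (nat_lit 152) (nat_lit 0) (XT.lf (nat_lit 0) (nat_lit 14582336438) (nat_lit 228) (nat_lit 4060710012) (nat_lit 76) (nat_lit 31444099073) (nat_lit 50) (nat_lit 5) (nat_lit 53) (nat_lit 5) (nat_lit 51) (nat_lit 5) (nat_lit 408) (nat_lit 368) (nat_lit 244)) (XT.lf (nat_lit 0) (nat_lit 24435847316) (nat_lit 152) (nat_lit 1719113368) (nat_lit 228) (nat_lit 25578320028) (nat_lit 48) (nat_lit 5) (nat_lit 50) (nat_lit 5) (nat_lit 51) (nat_lit 5) (nat_lit 409) (nat_lit 368) (nat_lit 243))))) (XT.nd (nat_lit 234) (nat_lit 304) (nat_lit 0) (XT.nd (nat_lit 78) (nat_lit 228) (nat_lit 0) (XT.lf (nat_lit 0) (nat_lit 807674148) (nat_lit 152) (nat_lit 37827808963) (nat_lit 228) (nat_lit 14809777459) (nat_lit 46) (nat_lit 5) (nat_lit 48) (nat_lit 5) (nat_lit 49) (nat_lit 5) (nat_lit 410) (nat_lit 368) (nat_lit 242)) (XT.nd (nat_lit 78) (nat_lit 228) (nat_lit 0) (XT.lf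 (nat_lit 0) (nat_lit 31230356342) (nat_lit 152) (nat_lit 20995941314) (nat_lit 228) (nat_lit 2992229662) (nat_lit 46) (nat_lit 5) (nat_lit 48) (nat_lit 5) (nat_lit 49) (nat_lit 5) (nat_lit 411) (nat_lit 368) (nat_lit 241)) (XT.lf (nat_lit 0) (nat_lit 6137030686) (nat_lit 152) (nat_lit 3069966282) (nat_lit 228) (nat_lit 47861501938) (nat_lit 43) (nat_lit 5) (nat_lit 45) (nat_lit 5) (nat_lit 46) (nat_lit 5) (nat_lit 412) (nat_lit 368) (nat_lit 240)))) (XT.nd (nat_lit 156) (nat_lit 152) (nat_lit 0) (XT.nd (nat_lit 78) (nat_lit 152) (nat_lit 0) (XT.lf (nat_lit 0) (nat_lit 22570878996) (nat_lit 228) (nat_lit 20697136653) (nat_lit 76) (nat_lit 15707739183) (nat_lit 43) (nat_lit 5) (nat_lit 46) (nat_lit 5) (nat_lit 44) (nat_lit 5) (nat_lit 413) (nat_lit 368) (nat_lit 239)) (XT.lf (nat_lit 0) (nat_lit 11356208793) (nat_lit 152) (nat_lit 25470950938) (nat_lit 228) (nat_lit 24140004578) (nat_lit 41)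 (nat_lit 5) (nat_lit 43) (nat_lit 5) (nat_lit 44) (nat_lit 5) (nat_lit 414) (nat_lit 368) (nat_lit 238))) (XT.nd (nat_lit 78) (nat_lit 152) (nat_lit 0) (XT.lf (nat_lit 0) (nat_lit 45725028649) (nat_lit 152) (nat_lit 6418390231) (nat_lit 228) (nat_lit 10897368100) (nat_lit 41) (nat_lit 5) (nat_lit 43) (nat_lit 5) (nat_lit 44) (nat_lit 5) (nat_lit 415) (nat_lit 368) (nat_lit 237)) (XT.lf (nat_lit 0) (nat_lit 3391935331) (nat_lit 152) (nat_lit 48331199428) (nat_lit 76) (nat_lit 13468569643) (nat_lit 39) (nat_lit 5) (nat_lit 41) (nat_lit 5) (nat_lit 40) (nat_lit 5) (nat_lit 416) (nat_lit 368) (nat_lit 236))))))) (XT.nd (nat_lit 1014) (nat_lit 684) (nat_lit 0) (XT.nd (nat_lit 468) (nat_lit 380) (nat_lit 0) (XT.nd (nat_lit 234) (nat_lit 304) (nat_lit 0) (XT.nd (nat_lit 78) (nat_lit 152) (nat_lit 0) (XT.lf (nat_lit 0) (nat_lit 18429545864) (nat_lit 152) (nat_lit 14383050343) (nat_lit 76) (nat_lit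 34608636784) (nat_lit 39) (nat_lit 5) (nat_lit 41) (nat_lit 5) (nat_lit 40) (nat_lit 5) (nat_lit 417) (nat_lit 368) (nat_lit 235)) (XT.nd (nat_lit 78) (nat_lit 0) (nat_lit 0) (XT.lf (nat_lit 0) (nat_lit 21960012912) (nat_lit 152) (nat_lit 12598821647) (nat_lit 228) (nat_lit 35186414341) (nat_lit 37) (nat_lit 5) (nat_lit 39) (nat_lit 5) (nat_lit 40) (nat_lit 5) (nat_lit 418) (nat_lit 368) (nat_lit 234)) (XT.lf (nat_lit 0) (nat_lit 51873803610) (nat_lit 228) (nat_lit 11697753331) (nat_lit 76) (nat_lit 8594948603) (nat_lit 37) (nat_lit 5) (nat_lit 40) (nat_lit 5) (nat_lit 38) (nat_lit 4) (nat_lit 419) (nat_lit 368) (nat_lit 233)))) (XT.nd (nat_lit 78) (nat_lit 228) (nat_lit 0) (XT.lf (nat_lit 0) (nat_lit 26841538778) (nat_lit 76) (nat_lit 43835704785) (nat_lit 152) (nat_lit 4000446036) (nat_lit 36) (nat_lit 5) (nat_lit 37) (nat_lit 5) (nat_lit 38) (nat_lit 4) (nat_lit 420) (nat_lit 368) (nat_lit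 232)) (XT.nd (nat_lit 78) (nat_lit 152) (nat_lit 0) (XT.lf (nat_lit 0) (nat_lit 12885414570) (nat_lit 152) (nat_lit 9803624637) (nat_lit 76) (nat_lit 54605238920) (nat_lit 35) (nat_lit 5) (nat_lit 37) (nat_lit 5) (nat_lit 36) (nat_lit 5) (nat_lit 421) (nat_lit 368) (nat_lit 231)) (XT.lf (nat_lit 0) (nat_lit 30964644857) (nat_lit 228) (nat_lit 48961753440) (nat_lit 76) (nat_lit 87843443) (nat_lit 33) (nat_lit 5) (nat_lit 36) (nat_lit 5) (nat_lit 34) (nat_lit 4) (nat_lit 422) (nat_lit 368) (nat_lit 230))))) (XT.nd (nat_lit 234) (nat_lit 228) (nat_lit 0) (XT.nd (nat_lit 78) (nat_lit 152) (nat_lit 0) (XT.lf (nat_lit 0) (nat_lit 50485822494) (nat_lit 228) (nat_lit 8949723286) (nat_lit 76) (nat_lit 23407759038) (nat_lit 33) (nat_lit 5) (nat_lit 36) (nat_lit 5) (nat_lit 34) (nat_lit 4) (nat_lit 423) (nat_lit 368) (nat_lit 229)) (XT.nd (nat_lit 78) (nat_lit 76) (nat_lit 0) (XT.lf (nat_lit 0) (nat_lit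 34151282155) (nat_lit 76) (nat_lit 37362386896) (nat_lit 152) (nat_lit 14273622046) (nat_lit 32) (nat_lit 5) (nat_lit 33) (nat_lit 5) (nat_lit 34) (nat_lit 4) (nat_lit 424) (nat_lit 368) (nat_lit 228)) (XT.lf (nat_lit 0) (nat_lit 4715014657) (nat_lit 152) (nat_lit 9233627219) (nat_lit 76) (nat_lit 74918581305) (nat_lit 31) (nat_lit 5) (nat_lit 33) (nat_lit 5) (nat_lit 32) (nat_lit 5) (nat_lit 425) (nat_lit 368) (nat_lit 227)))) (XT.nd (nat_lit 156) (nat_lit 76) (nat_lit 0) (XT.nd (nat_lit 78) (nat_lit 0) (nat_lit 0) (XT.lf (nat_lit 0) (nat_lit 24915396665) (nat_lit 228) (nat_lit 56031098379) (nat_lit 76) (nat_lit 11105857572) (nat_lit 29) (nat_lit 5) (nat_lit 32) (nat_lit 5) (nat_lit 30) (nat_lit 4) (nat_lit 426) (nat_lit 368) (nat_lit 226)) (XT.lf (nat_lit 0) (nat_lit 46510965563) (nat_lit 228) (nat_lit 11765184169) (nat_lit 76) (nat_lit 37101330851) (nat_lit 29) (nat_lit 5) (nat_lit 32)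 (nat_lit 5) (nat_lit 30) (nat_lit 4) (nat_lit 427) (nat_lit 368) (nat_lit 225))) (XT.nd (nat_lit 78) (nat_lit 0) (nat_lit 0) (XT.lf (nat_lit 0) (nat_lit 35857415455) (nat_lit 76) (nat_lit 33886410335) (nat_lit 152) (nat_lit 29097163946) (nat_lit 28) (nat_lit 5) (nat_lit 29) (nat_lit 5) (nat_lit 30) (nat_lit 4) (nat_lit 428) (nat_lit 368) (nat_lit 224)) (XT.lf (nat_lit 0) (nat_lit 86265403062) (nat_lit 76) (nat_lit 8069898141) (nat_lit 152) (nat_lit 8132524943) (nat_lit 28) (nat_lit 5) (nat_lit 29) (nat_lit 5) (nat_lit 30) (nat_lit 4) (nat_lit 429) (nat_lit 368) (nat_lit 223)))))) (XT.nd (nat_lit 468) (nat_lit 304) (nat_lit 0) (XT.nd (nat_lit 234) (nat_lit 152) (nat_lit 0) (XT.nd (nat_lit 78) (nat_lit 76) (nat_lit 0) (XT.lf (nat_lit 0) (nat_lit 14270651421) (nat_lit 152) (nat_lit 72770198251) (nat_lit 76) (nat_lit 19182591363) (nat_lit 26) (nat_lit 5) (nat_lit 28) (nat_lit 5) (nat_lit 27)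 (nat_lit 4) (nat_lit 430) (nat_lit 368) (nat_lit 222)) (XT.nd (nat_lit 78) (nat_lit 76) (nat_lit 0) (XT.lf (nat_lit 0) (nat_lit 37929677117) (nat_lit 152) (nat_lit 24273114797) (nat_lit 76) (nat_lit 47936929271) (nat_lit 26) (nat_lit 5) (nat_lit 28) (nat_lit 5) (nat_lit 27) (nat_lit 4) (nat_lit 431) (nat_lit 368) (nat_lit 221)) (XT.lf (nat_lit 0) (nat_lit 27525929594) (nat_lit 76) (nat_lit 35673394833) (nat_lit 152) (nat_lit 51031107736) (nat_lit 25) (nat_lit 5) (nat_lit 26) (nat_lit 5) (nat_lit 27) (nat_lit 4) (nat_lit 432) (nat_lit 368) (nat_lit 220)))) (XT.nd (nat_lit 78) (nat_lit 152) (nat_lit 0) (XT.lf (nat_lit 0) (nat_lit 82753801878) (nat_lit 76) (nat_lit 7387682127) (nat_lit 152) (nat_lit 28363743510) (nat_lit 25) (nat_lit 5) (nat_lit 26) (nat_lit 5) (nat_lit 27) (nat_lit 4) (nat_lit 433) (nat_lit 368) (nat_lit 219)) (XT.nd (nat_lit 78) (nat_lit 76) (nat_lit 0) (XT.lf (nat_lit 0)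 (nat_lit 17972457405) (nat_lit 76) (nat_lit 101085276266) (nat_lit 76) (nat_lit 3904680165) (nat_lit 24) (nat_lit 4) (nat_lit 25) (nat_lit 5) (nat_lit 25) (nat_lit 4) (nat_lit 434) (nat_lit 368) (nat_lit 218)) (XT.lf (nat_lit 0) (nat_lit 21814857284) (nat_lit 152) (nat_lit 52463209481) (nat_lit 76) (nat_lit 53310666137) (nat_lit 23) (nat_lit 5) (nat_lit 25) (nat_lit 5) (nat_lit 24) (nat_lit 4) (nat_lit 435) (nat_lit 368) (nat_lit 217))))) (XT.nd (nat_lit 234) (nat_lit 228) (nat_lit 0) (XT.nd (nat_lit 78) (nat_lit 0) (nat_lit 0) (XT.lf (nat_lit 0) (nat_lit 2709020412) (nat_lit 76) (nat_lit 46020546373) (nat_lit 152) (nat_lit 83711579941) (nat_lit 22) (nat_lit 5) (nat_lit 23) (nat_lit 5) (nat_lit 24) (nat_lit 4) (nat_lit 436) (nat_lit 368) (nat_lit 216)) (XT.nd (nat_lit 78) (nat_lit 0) (nat_lit 0) (XT.lf (nat_lit 0) (nat_lit 62457774381) (nat_lit 76) (nat_lit 15418884740) (nat_lit 152) (nat_lit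 59615190004) (nat_lit 22) (nat_lit 5) (nat_lit 23) (nat_lit 5) (nat_lit 24) (nat_lit 4) (nat_lit 437) (nat_lit 368) (nat_lit 215)) (XT.lf (nat_lit 0) (nat_lit 108740261392) (nat_lit 152) (nat_lit 17865443954) (nat_lit 0) (nat_lit 16176423771) (nat_lit 22) (nat_lit 5) (nat_lit 24) (nat_lit 4) (nat_lit 22) (nat_lit 4) (nat_lit 438) (nat_lit 368) (nat_lit 214)))) (XT.nd (nat_lit 156) (nat_lit 76) (nat_lit 0) (XT.nd (nat_lit 78) (nat_lit 76) (nat_lit 0) (XT.lf (nat_lit 0) (nat_lit 43291211493) (nat_lit 76) (nat_lit 98782803485) (nat_lit 76) (nat_lit 6216559800) (nat_lit 21) (nat_lit 4) (nat_lit 22) (nat_lit 5) (nat_lit 22) (nat_lit 4) (nat_lit 439) (nat_lit 368) (nat_lit 213)) (XT.lf (nat_lit 0) (nat_lit 22569698487) (nat_lit 152) (nat_lit 46300653273) (nat_lit 76) (nat_lit 85170844982) (nat_lit 20) (nat_lit 5) (nat_lit 22) (nat_lit 5) (nat_lit 21) (nat_lit 4) (nat_lit 440) (nat_lit 368) (nat_lit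 212))) (XT.nd (nat_lit 78) (nat_lit 0) (nat_lit 0) (XT.lf (nat_lit 0) (nat_lit 15731510414) (nat_lit 76) (nat_lit 37098844687) (nat_lit 152) (nat_lit 107231699231) (nat_lit 19) (nat_lit 5) (nat_lit 20) (nat_lit 5) (nat_lit 21) (nat_lit 4) (nat_lit 441) (nat_lit 368) (nat_lit 211)) (XT.lf (nat_lit 0) (nat_lit 82469708468) (nat_lit 76) (nat_lit 2916879072) (nat_lit 152) (nat_lit 80958240298) (nat_lit 19) (nat_lit 5) (nat_lit 20) (nat_lit 5) (nat_lit 21) (nat_lit 4) (nat_lit 442) (nat_lit 368) (nat_lit 210))))))))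
noncomputable def xc166 : XT := (XT.nd (nat_lit 1950) (nat_lit 152) (nat_lit 0) (XT.nd (nat_lit 936) (nat_lit 380) (nat_lit 0) (XT.nd (nat_lit 468) (nat_lit 228) (nat_lit 0) (XT.nd (nat_lit 234) (nat_lit 76) (nat_lit 0) (XT.nd (nat_lit 78) (nat_lit 152) (nat_lit 0) (XT.lf (nat_lit 0) (nat_lit 120083923836) (nat_lit 152) (nat_lit 20914680740) (nat_lit 0) (nat_lit 31917471012) (nat_lit 19) (nat_lit 5) (nat_lit 21) (nat_lit 4) (nat_lit 19) (nat_lit 4) (nat_lit 443) (nat_lit 368) (nat_lit 209)) (XT.nd (nat_lit 78) (nat_lit 76) (nat_lit 0) (XT.lf (nat_lit 0) (nat_lit 46635801199) (nat_lit 76) (nat_lit 110654804512) (nat_lit 76) (nat_lit 22486556247) (nat_lit 18) (nat_lit 4) (nat_lit 19) (nat_lit 5) (nat_lit 19) (nat_lit 4) (nat_lit 444) (nat_lit 368) (nat_lit 208)) (XT.lf (nat_lit 0) (nat_lit 9434773303) (nat_lit 152) (nat_lit 68828672936) (nat_lit 76) (nat_lit 108692609278) (nat_lit 17) (nat_lit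 5) (nat_lit 19) (nat_lit 5) (nat_lit 18) (nat_lit 4) (nat_lit 445) (nat_lit 368) (nat_lit 207)))) (XT.nd (nat_lit 78) (nat_lit 76) (nat_lit 0) (XT.lf (nat_lit 0) (nat_lit 42195090956) (nat_lit 152) (nat_lit 1671650266) (nat_lit 76) (nat_lit 150608790208) (nat_lit 17) (nat_lit 5) (nat_lit 19) (nat_lit 5) (nat_lit 18) (nat_lit 4) (nat_lit 446) (nat_lit 368) (nat_lit 206)) (XT.nd (nat_lit 78) (nat_lit 0) (nat_lit 0) (XT.lf (nat_lit 0) (nat_lit 71116866963) (nat_lit 76) (nat_lit 6585574334) (nat_lit 152) (nat_lit 124613089141) (nat_lit 16) (nat_lit 5) (nat_lit 17) (nat_lit 5) (nat_lit 18) (nat_lit 4) (nat_lit 447) (nat_lit 368) (nat_lit 205)) (XT.lf (nat_lit 0) (nat_lit 115520968915) (nat_lit 152) (nat_lit 63454624842) (nat_lit 0) (nat_lit 31545145285) (nat_lit 16) (nat_lit 5) (nat_lit 18) (nat_lit 4) (nat_lit 16) (nat_lit 4) (nat_lit 448) (nat_lit 368) (nat_lit 204))))) (XT.nd (nat_lit 234)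 (nat_lit 76) (nat_lit 0) (XT.nd (nat_lit 78) (nat_lit 76) (nat_lit 0) (XT.lf (nat_lit 0) (nat_lit 7816405043) (nat_lit 76) (nat_lit 147642764619) (nat_lit 76) (nat_lit 63665601203) (nat_lit 15) (nat_lit 4) (nat_lit 16) (nat_lit 5) (nat_lit 16) (nat_lit 4) (nat_lit 449) (nat_lit 368) (nat_lit 203)) (XT.nd (nat_lit 78) (nat_lit 76) (nat_lit 0) (XT.lf (nat_lit 0) (nat_lit 84851602594) (nat_lit 76) (nat_lit 113616085415) (nat_lit 76) (nat_lit 29637646013) (nat_lit 15) (nat_lit 4) (nat_lit 16) (nat_lit 5) (nat_lit 16) (nat_lit 4) (nat_lit 450) (nat_lit 368) (nat_lit 202)) (XT.lf (nat_lit 0) (nat_lit 5895546224) (nat_lit 152) (nat_lit 71893784867) (nat_lit 76) (nat_lit 159740898328) (nat_lit 14) (nat_lit 5) (nat_lit 16) (nat_lit 5) (nat_lit 15) (nat_lit 4) (nat_lit 451) (nat_lit 368) (nat_lit 201)))) (XT.nd (nat_lit 78) (nat_lit 0) (nat_lit 0) (XT.lf (nat_lit 0) (nat_lit 2630280484) (nat_lit 76)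 (nat_lit 39619032915) (nat_lit 152) (nat_lit 205150766410) (nat_lit 13) (nat_lit 5) (nat_lit 14) (nat_lit 5) (nat_lit 15) (nat_lit 4) (nat_lit 452) (nat_lit 368) (nat_lit 200)) (XT.nd (nat_lit 78) (nat_lit 0) (nat_lit 0) (XT.lf (nat_lit 0) (nat_lit 81664335503) (nat_lit 152) (nat_lit 174355348940) (nat_lit 0) (nat_lit 1681560046) (nat_lit 13) (nat_lit 5) (nat_lit 15) (nat_lit 4) (nat_lit 13) (nat_lit 4) (nat_lit 453) (nat_lit 368) (nat_lit 199)) (XT.lf (nat_lit 0) (nat_lit 123698526906) (nat_lit 152) (nat_lit 101071768002) (nat_lit 0) (nat_lit 43714751680) (nat_lit 13) (nat_lit 5) (nat_lit 15) (nat_lit 4) (nat_lit 13) (nat_lit 4) (nat_lit 454) (nat_lit 368) (nat_lit 198)))))) (XT.nd (nat_lit 468) (nat_lit 152) (nat_lit 0) (XT.nd (nat_lit 234) (nat_lit 152) (nat_lit 0) (XT.nd (nat_lit 78) (nat_lit 76) (nat_lit 0) (XT.lf (nat_lit 0) (nat_lit 167833404880) (nat_lit 152) (nat_lit 24126007660)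 (nat_lit 0) (nat_lit 87848677493) (nat_lit 13) (nat_lit 5) (nat_lit 15) (nat_lit 4) (nat_lit 13) (nat_lit 4) (nat_lit 455) (nat_lit 368) (nat_lit 197)) (XT.nd (nat_lit 78) (nat_lit 0) (nat_lit 0) (XT.lf (nat_lit 0) (nat_lit 58538741590) (nat_lit 76) (nat_lit 156549264688) (nat_lit 76) (nat_lit 76563630481) (nat_lit 12) (nat_lit 4) (nat_lit 13) (nat_lit 5) (nat_lit 13) (nat_lit 4) (nat_lit 456) (nat_lit 368) (nat_lit 196)) (XT.lf (nat_lit 0) (nat_lit 146172455107) (nat_lit 76) (nat_lit 118940511109) (nat_lit 76) (nat_lit 38954013264) (nat_lit 12) (nat_lit 4) (nat_lit 13) (nat_lit 5) (nat_lit 13) (nat_lit 4) (nat_lit 457) (nat_lit 368) (nat_lit 195)))) (XT.nd (nat_lit 78) (nat_lit 76) (nat_lit 0) (XT.lf (nat_lit 0) (nat_lit 518000165) (nat_lit 152) (nat_lit 78925420017) (nat_lit 76) (nat_lit 237659297069) (nat_lit 11) (nat_lit 5) (nat_lit 13) (nat_lit 5) (nat_lit 12) (nat_lit 4) (nat_lit 458)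 (nat_lit 368) (nat_lit 194)) (XT.nd (nat_lit 78) (nat_lit 0) (nat_lit 0) (XT.lf (nat_lit 0) (nat_lit 3462646742) (nat_lit 76) (nat_lit 37245036401) (nat_lit 152) (nat_lit 290047970362) (nat_lit 10) (nat_lit 5) (nat_lit 11) (nat_lit 5) (nat_lit 12) (nat_lit 4) (nat_lit 459) (nat_lit 368) (nat_lit 193)) (XT.lf (nat_lit 0) (nat_lit 84374799954) (nat_lit 152) (nat_lit 252448096148) (nat_lit 0) (nat_lit 8194943053) (nat_lit 10) (nat_lit 5) (nat_lit 12) (nat_lit 4) (nat_lit 10) (nat_lit 4) (nat_lit 460) (nat_lit 368) (nat_lit 192))))) (XT.nd (nat_lit 234) (nat_lit 152) (nat_lit 0) (XT.nd (nat_lit 78) (nat_lit 0) (nat_lit 0) (XT.lf (nat_lit 0) (nat_lit 130835008863) (nat_lit 152) (nat_lit 174473163196) (nat_lit 0) (nat_lit 54654475279) (nat_lit 10) (nat_lit 5) (nat_lit 12) (nat_lit 4) (nat_lit 10) (nat_lit 4) (nat_lit 461) (nat_lit 368) (nat_lit 191)) (XT.nd (nat_lit 78) (nat_lit 0) (nat_lit 0)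 (XT.lf (nat_lit 0) (nat_lit 179617430018) (nat_lit 152) (nat_lit 92601053909) (nat_lit 0) (nat_lit 103436251975) (nat_lit 10) (nat_lit 5) (nat_lit 12) (nat_lit 4) (nat_lit 10) (nat_lit 4) (nat_lit 462) (nat_lit 368) (nat_lit 190)) (XT.lf (nat_lit 0) (nat_lit 230838212041) (nat_lit 152) (nat_lit 6636834693) (nat_lit 0) (nat_lit 154656420227) (nat_lit 10) (nat_lit 5) (nat_lit 12) (nat_lit 4) (nat_lit 10) (nat_lit 4) (nat_lit 463) (nat_lit 368) (nat_lit 189)))) (XT.nd (nat_lit 156) (nat_lit 76) (nat_lit 0) (XT.nd (nat_lit 78) (nat_lit 0) (nat_lit 0) (XT.lf (nat_lit 0) (nat_lit 86389163920) (nat_lit 76) (nat_lit 199578922209) (nat_lit 76) (nat_lit 123396545851) (nat_lit 9) (nat_lit 4) (nat_lit 10) (nat_lit 5) (nat_lit 10) (nat_lit 4) (nat_lit 464) (nat_lit 368) (nat_lit 188)) (XT.lf (nat_lit 0) (nat_lit 184295477033) (nat_lit 76) (nat_lit 159670663504) (nat_lit 76) (nat_lit 83487730436) (nat_lit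 9) (nat_lit 4) (nat_lit 10) (nat_lit 5) (nat_lit 10) (nat_lit 4) (nat_lit 465) (nat_lit 368) (nat_lit 187))) (XT.nd (nat_lit 78) (nat_lit 76) (nat_lit 0) (XT.lf (nat_lit 0) (nat_lit 287095771185) (nat_lit 76) (nat_lit 117767648961) (nat_lit 76) (nat_lit 41584185695) (nat_lit 9) (nat_lit 4) (nat_lit 10) (nat_lit 5) (nat_lit 10) (nat_lit 4) (nat_lit 466) (nat_lit 368) (nat_lit 186)) (XT.lf (nat_lit 0) (nat_lit 2336600164) (nat_lit 152) (nat_lit 71393937881) (nat_lit 76) (nat_lit 392658637365) (nat_lit 8) (nat_lit 5) (nat_lit 10) (nat_lit 5) (nat_lit 9) (nat_lit 4) (nat_lit 467) (nat_lit 368) (nat_lit 185))))))) (XT.nd (nat_lit 45786) (nat_lit 0) (nat_lit 6384) (XT.nd (nat_lit 468) (nat_lit 76) (nat_lit 0) (XT.nd (nat_lit 234) (nat_lit 0) (nat_lit 0) (XT.nd (nat_lit 78) (nat_lit 0) (nat_lit 0) (XT.lf (nat_lit 0) (nat_lit 20949427035) (nat_lit 76) (nat_lit 26432951578) (nat_lit 152) (nat_lit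 439895036756) (nat_lit 7) (nat_lit 5) (nat_lit 8) (nat_lit 5) (nat_lit 9) (nat_lit 4) (nat_lit 468) (nat_lit 368) (nat_lit 184)) (XT.nd (nat_lit 78) (nat_lit 0) (nat_lit 0) (XT.lf (nat_lit 0) (nat_lit 96271412705) (nat_lit 152) (nat_lit 389144748032) (nat_lit 0) (nat_lit 23714358296) (nat_lit 7) (nat_lit 5) (nat_lit 9) (nat_lit 4) (nat_lit 7) (nat_lit 4) (nat_lit 469) (nat_lit 368) (nat_lit 183)) (XT.lf (nat_lit 0) (nat_lit 148037632105) (nat_lit 152) (nat_lit 308536846861) (nat_lit 0) (nat_lit 75480162272) (nat_lit 7) (nat_lit 5) (nat_lit 9) (nat_lit 4) (nat_lit 7) (nat_lit 4) (nat_lit 470) (nat_lit 368) (nat_lit 182)))) (XT.nd (nat_lit 78) (nat_lit 0) (nat_lit 0) (XT.lf (nat_lit 0) (nat_lit 202391597265) (nat_lit 152) (nat_lit 223899668797) (nat_lit 0) (nat_lit 129833731790) (nat_lit 7) (nat_lit 5) (nat_lit 9) (nat_lit 4) (nat_lit 7) (nat_lit 4) (nat_lit 471) (nat_lit 368) (nat_lit 181))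 (XT.nd (nat_lit 78) (nat_lit 0) (nat_lit 0) (XT.lf (nat_lit 0) (nat_lit 259462722388) (nat_lit 152) (nat_lit 135031696749) (nat_lit 0) (nat_lit 186904480110) (nat_lit 7) (nat_lit 5) (nat_lit 9) (nat_lit 4) (nat_lit 7) (nat_lit 4) (nat_lit 472) (nat_lit 368) (nat_lit 180)) (XT.lf (nat_lit 0) (nat_lit 319386891105) (nat_lit 152) (nat_lit 41721340307) (nat_lit 0) (nat_lit 246828289968) (nat_lit 7) (nat_lit 5) (nat_lit 9) (nat_lit 4) (nat_lit 7) (nat_lit 4) (nat_lit 473) (nat_lit 368) (nat_lit 179))))) (XT.nd (nat_lit 45006) (nat_lit 0) (nat_lit 7904) (XT.nd (nat_lit 78) (nat_lit 0) (nat_lit 0) (XT.lf (nat_lit 0) (nat_lit 58113565051) (nat_lit 76) (nat_lit 325100530570) (nat_lit 76) (nat_lit 252541587662) (nat_lit 6) (nat_lit 4) (nat_lit 7) (nat_lit 5) (nat_lit 7) (nat_lit 4) (nat_lit 474) (nat_lit 368) (nat_lit 178)) (XT.nd (nat_lit 44850) (nat_lit 0) (nat_lit 7904) (XT.lf (nat_lit 0) (nat_lit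 164387736071) (nat_lit 76) (nat_lit 286551015542) (nat_lit 76) (nat_lit 213991747137) (nat_lit 6) (nat_lit 4) (nat_lit 7) (nat_lit 5) (nat_lit 7) (nat_lit 4) (nat_lit 475) (nat_lit 368) (nat_lit 177)) (XT.lf (nat_lit 0) (nat_lit 332238763) (nat_lit 836) (nat_lit 4061100316) (nat_lit 836) (nat_lit 4061100316) (nat_lit 110) (nat_lit 3) (nat_lit 121) (nat_lit 3) (nat_lit 121) (nat_lit 5) (nat_lit 369) (nat_lit 369) (nat_lit 282)))) (XT.nd (nat_lit 156) (nat_lit 0) (nat_lit 76) (XT.nd (nat_lit 78) (nat_lit 0) (nat_lit 76) (XT.lf (nat_lit 76) (nat_lit 27467476) (nat_lit 0) (nat_lit 880916919) (nat_lit 836) (nat_lit 16411691420) (nat_lit 111) (nat_lit 5) (nat_lit 110) (nat_lit 3) (nat_lit 121) (nat_lit 5) (nat_lit 370) (nat_lit 369) (nat_lit 281)) (XT.lf (nat_lit 0) (nat_lit 1405604325) (nat_lit 760) (nat_lit 9005185296) (nat_lit 836) (nat_lit 7328997437) (nat_lit 111) (nat_lit 5) (nat_lit 121)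 (nat_lit 5) (nat_lit 122) (nat_lit 5) (nat_lit 371) (nat_lit 369) (nat_lit 280))) (XT.nd (nat_lit 78) (nat_lit 0) (nat_lit 76) (XT.lf (nat_lit 0) (nat_lit 1928279164) (nat_lit 760) (nat_lit 326146359) (nat_lit 836) (nat_lit 15926038412) (nat_lit 111) (nat_lit 5) (nat_lit 121) (nat_lit 5) (nat_lit 122) (nat_lit 5) (nat_lit 372) (nat_lit 369) (nat_lit 279)) (XT.lf (nat_lit 0) (nat_lit 2706411884) (nat_lit 760) (nat_lit 9668482691) (nat_lit 836) (nat_lit 6256823174) (nat_lit 112) (nat_lit 5) (nat_lit 122) (nat_lit 5) (nat_lit 123) (nat_lit 5) (nat_lit 373) (nat_lit 369) (nat_lit 278)))))) (XT.nd (nat_lit 468) (nat_lit 1672) (nat_lit 0) (XT.nd (nat_lit 234) (nat_lit 0) (nat_lit 152) (XT.nd (nat_lit 78) (nat_lit 0) (nat_lit 76) (XT.lf (nat_lit 0) (nat_lit 3553417814) (nat_lit 760) (nat_lit 422407498) (nat_lit 836) (nat_lit 15128219473) (nat_lit 112) (nat_lit 5) (nat_lit 122) (nat_lit 5) (nat_lit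 123) (nat_lit 5) (nat_lit 374) (nat_lit 369) (nat_lit 277)) (XT.nd (nat_lit 78) (nat_lit 0) (nat_lit 0) (XT.lf (nat_lit 0) (nat_lit 4658542034) (nat_lit 760) (nat_lit 10086609479) (nat_lit 836) (nat_lit 4844056697) (nat_lit 113) (nat_lit 5) (nat_lit 123) (nat_lit 5) (nat_lit 124) (nat_lit 5) (nat_lit 375) (nat_lit 369) (nat_lit 276)) (XT.lf (nat_lit 0) (nat_lit 5879869039) (nat_lit 760) (nat_lit 233662177) (nat_lit 836) (nat_lit 13982059296) (nat_lit 113) (nat_lit 5) (nat_lit 123) (nat_lit 5) (nat_lit 124) (nat_lit 5) (nat_lit 376) (nat_lit 369) (nat_lit 275)))) (XT.nd (nat_lit 78) (nat_lit 0) (nat_lit 0) (XT.lf (nat_lit 0) (nat_lit 7363038665) (nat_lit 760) (nat_lit 10230664204) (nat_lit 836) (nat_lit 3023557898) (nat_lit 114) (nat_lit 5) (nat_lit 124) (nat_lit 5) (nat_lit 125) (nat_lit 5) (nat_lit 377) (nat_lit 369) (nat_lit 274)) (XT.nd (nat_lit 78) (nat_lit 0) (nat_lit 76) (XT.lf (nat_lit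 76) (nat_lit 281231213) (nat_lit 0) (nat_lit 8737250500) (nat_lit 836) (nat_lit 12141634364) (nat_lit 115) (nat_lit 5) (nat_lit 114) (nat_lit 5) (nat_lit 125) (nat_lit 5) (nat_lit 378) (nat_lit 369) (nat_lit 273)) (XT.lf (nat_lit 0) (nat_lit 10931447327) (nat_lit 760) (nat_lit 10068207011) (nat_lit 76) (nat_lit 721729234) (nat_lit 115) (nat_lit 5) (nat_lit 125) (nat_lit 5) (nat_lit 116) (nat_lit 5) (nat_lit 379) (nat_lit 369) (nat_lit 272))))) (XT.nd (nat_lit 234) (nat_lit 760) (nat_lit 0) (XT.nd (nat_lit 78) (nat_lit 380) (nat_lit 0) (XT.lf (nat_lit 0) (nat_lit 1168555274) (nat_lit 760) (nat_lit 11923340210) (nat_lit 836) (nat_lit 9211233853) (nat_lit 105) (nat_lit 5) (nat_lit 115) (nat_lit 5) (nat_lit 116) (nat_lit 5) (nat_lit 380) (nat_lit 369) (nat_lit 271)) (XT.nd (nat_lit 78) (nat_lit 380) (nat_lit 0) (XT.lf (nat_lit 0) (nat_lit 13308223158) (nat_lit 760) (nat_lit 2213335941) (nat_lit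 836) (nat_lit 7384349937) (nat_lit 105) (nat_lit 5) (nat_lit 115) (nat_lit 5) (nat_lit 116) (nat_lit 5) (nat_lit 381) (nat_lit 369) (nat_lit 270)) (XT.lf (nat_lit 0) (nat_lit 2461675327) (nat_lit 380) (nat_lit 15765227466) (nat_lit 456) (nat_lit 5304221077) (nat_lit 100) (nat_lit 5) (nat_lit 105) (nat_lit 5) (nat_lit 106) (nat_lit 5) (nat_lit 382) (nat_lit 369) (nat_lit 269)))) (XT.nd (nat_lit 156) (nat_lit 456) (nat_lit 0) (XT.nd (nat_lit 78) (nat_lit 304) (nat_lit 0) (XT.lf (nat_lit 0) (nat_lit 15411331991) (nat_lit 380) (nat_lit 5845852143) (nat_lit 456) (nat_lit 2920937498) (nat_lit 100) (nat_lit 5) (nat_lit 105) (nat_lit 5) (nat_lit 106) (nat_lit 5) (nat_lit 383) (nat_lit 369) (nat_lit 268)) (XT.lf (nat_lit 0) (nat_lit 4205858559) (nat_lit 304) (nat_lit 20361969482) (nat_lit 380) (nat_lit 283204256) (nat_lit 96) (nat_lit 5) (nat_lit 100) (nat_lit 5) (nat_lit 101) (nat_lit 5) (nat_lit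 384) (nat_lit 369) (nat_lit 267))) (XT.nd (nat_lit 78) (nat_lit 380) (nat_lit 0) (XT.lf (nat_lit 0) (nat_lit 2645537655) (nat_lit 380) (nat_lit 7564299862) (nat_lit 76) (nat_lit 15333879773) (nat_lit 95) (nat_lit 5) (nat_lit 100) (nat_lit 5) (nat_lit 96) (nat_lit 5) (nat_lit 385) (nat_lit 369) (nat_lit 266)) (XT.lf (nat_lit 0) (nat_lit 5811587919) (nat_lit 456) (nat_lit 19913508346) (nat_lit 76) (nat_lit 540693390) (nat_lit 90) (nat_lit 5) (nat_lit 96) (nat_lit 5) (nat_lit 91) (nat_lit 5) (nat_lit 386) (nat_lit 369) (nat_lit 265))))))))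
noncomputable def xc167 : XT := (XT.nd (nat_lit 1950) (nat_lit 1824) (nat_lit 0) (XT.nd (nat_lit 936) (nat_lit 1596) (nat_lit 0) (XT.nd (nat_lit 468) (nat_lit 836) (nat_lit 0) (XT.nd (nat_lit 234) (nat_lit 608) (nat_lit 0) (XT.nd (nat_lit 78) (nat_lit 304) (nat_lit 0) (XT.lf (nat_lit 0) (nat_lit 9426098238) (nat_lit 456) (nat_lit 5968104886) (nat_lit 76) (nat_lit 11615259114) (nat_lit 90) (nat_lit 5) (nat_lit 96) (nat_lit 5) (nat_lit 91) (nat_lit 5) (nat_lit 387) (nat_lit 369) (nat_lit 264)) (XT.nd (nat_lit 78) (nat_lit 0) (nat_lit 0) (XT.lf (nat_lit 0) (nat_lit 8953147295) (nat_lit 304) (nat_lit 4400901920) (nat_lit 380) (nat_lit 14429637738) (nat_lit 86) (nat_lit 5) (nat_lit 90) (nat_lit 5) (nat_lit 91) (nat_lit 5) (nat_lit 388) (nat_lit 369) (nat_lit 263)) (XT.lf (nat_lit 0) (nat_lit 17685764994) (nat_lit 380) (nat_lit 3885253277) (nat_lit 76) (nat_lit 7015240327) (nat_lit 86) (nat_lit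 5) (nat_lit 91) (nat_lit 5) (nat_lit 87) (nat_lit 5) (nat_lit 389) (nat_lit 369) (nat_lit 262)))) (XT.nd (nat_lit 78) (nat_lit 304) (nat_lit 0) (XT.lf (nat_lit 0) (nat_lit 12115119889) (nat_lit 304) (nat_lit 10373700663) (nat_lit 380) (nat_lit 6927404441) (nat_lit 82) (nat_lit 5) (nat_lit 86) (nat_lit 5) (nat_lit 87) (nat_lit 5) (nat_lit 390) (nat_lit 369) (nat_lit 261)) (XT.nd (nat_lit 78) (nat_lit 304) (nat_lit 0) (XT.lf (nat_lit 0) (nat_lit 27614134693) (nat_lit 380) (nat_lit 1264645695) (nat_lit 76) (nat_lit 1404807709) (nat_lit 82) (nat_lit 5) (nat_lit 87) (nat_lit 5) (nat_lit 83) (nat_lit 5) (nat_lit 391) (nat_lit 369) (nat_lit 260)) (XT.lf (nat_lit 0) (nat_lit 2162810086) (nat_lit 304) (nat_lit 15303541002) (nat_lit 76) (nat_lit 13705611825) (nat_lit 78) (nat_lit 5) (nat_lit 82) (nat_lit 5) (nat_lit 79) (nat_lit 5) (nat_lit 392) (nat_lit 369) (nat_lit 259))))) (XT.nd (nat_lit 234)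 (nat_lit 304) (nat_lit 0) (XT.nd (nat_lit 78) (nat_lit 228) (nat_lit 0) (XT.lf (nat_lit 0) (nat_lit 1804334415) (nat_lit 304) (nat_lit 5386584799) (nat_lit 380) (nat_lit 24909455180) (nat_lit 74) (nat_lit 5) (nat_lit 78) (nat_lit 5) (nat_lit 79) (nat_lit 5) (nat_lit 393) (nat_lit 369) (nat_lit 258)) (XT.nd (nat_lit 78) (nat_lit 228) (nat_lit 0) (XT.lf (nat_lit 0) (nat_lit 12841930055) (nat_lit 380) (nat_lit 12889327691) (nat_lit 76) (nat_lit 7325376918) (nat_lit 74) (nat_lit 5) (nat_lit 79) (nat_lit 5) (nat_lit 75) (nat_lit 5) (nat_lit 394) (nat_lit 369) (nat_lit 257)) (XT.lf (nat_lit 0) (nat_lit 5466954248) (nat_lit 228) (nat_lit 13476620503) (nat_lit 304) (nat_lit 15108731914) (nat_lit 71) (nat_lit 5) (nat_lit 74) (nat_lit 5) (nat_lit 75) (nat_lit 5) (nat_lit 395) (nat_lit 369) (nat_lit 256)))) (XT.nd (nat_lit 78) (nat_lit 304) (nat_lit 0) (XT.lf (nat_lit 0) (nat_lit 25181220633) (nat_lit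 228) (nat_lit 381943481) (nat_lit 304) (nat_lit 9523957779) (nat_lit 71) (nat_lit 5) (nat_lit 74) (nat_lit 5) (nat_lit 75) (nat_lit 5) (nat_lit 396) (nat_lit 369) (nat_lit 255)) (XT.nd (nat_lit 78) (nat_lit 76) (nat_lit 0) (XT.lf (nat_lit 0) (nat_lit 9805452231) (nat_lit 228) (nat_lit 23064880520) (nat_lit 304) (nat_lit 3285517756) (nat_lit 68) (nat_lit 5) (nat_lit 71) (nat_lit 5) (nat_lit 72) (nat_lit 5) (nat_lit 397) (nat_lit 369) (nat_lit 254)) (XT.lf (nat_lit 0) (nat_lit 3331978627) (nat_lit 304) (nat_lit 6490587052) (nat_lit 76) (nat_lit 27444322090) (nat_lit 67) (nat_lit 5) (nat_lit 71) (nat_lit 5) (nat_lit 68) (nat_lit 5) (nat_lit 398) (nat_lit 369) (nat_lit 253)))))) (XT.nd (nat_lit 468) (nat_lit 684) (nat_lit 0) (XT.nd (nat_lit 234) (nat_lit 456) (nat_lit 0) (XT.nd (nat_lit 78) (nat_lit 228) (nat_lit 0) (XT.lf (nat_lit 0) (nat_lit 10464067487) (nat_lit 304) (nat_lit 23713548807)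 (nat_lit 76) (nat_lit 4238463181) (nat_lit 64) (nat_lit 5) (nat_lit 68) (nat_lit 5) (nat_lit 65) (nat_lit 5) (nat_lit 399) (nat_lit 369) (nat_lit 252)) (XT.nd (nat_lit 78) (nat_lit 228) (nat_lit 0) (XT.lf (nat_lit 0) (nat_lit 18220706921) (nat_lit 304) (nat_lit 2606429978) (nat_lit 76) (nat_lit 18782198714) (nat_lit 64) (nat_lit 5) (nat_lit 68) (nat_lit 5) (nat_lit 65) (nat_lit 5) (nat_lit 400) (nat_lit 369) (nat_lit 251)) (XT.lf (nat_lit 0) (nat_lit 20195758598) (nat_lit 228) (nat_lit 6480158062) (nat_lit 304) (nat_lit 14170803029) (nat_lit 61) (nat_lit 5) (nat_lit 64) (nat_lit 5) (nat_lit 65) (nat_lit 5) (nat_lit 401) (nat_lit 369) (nat_lit 250)))) (XT.nd (nat_lit 78) (nat_lit 304) (nat_lit 0) (XT.lf (nat_lit 0) (nat_lit 2007525998) (nat_lit 152) (nat_lit 33752099975) (nat_lit 228) (nat_lit 6376061995) (nat_lit 59) (nat_lit 5) (nat_lit 61) (nat_lit 5) (nat_lit 62) (nat_lit 5) (nat_lit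 402) (nat_lit 369) (nat_lit 249)) (XT.nd (nat_lit 78) (nat_lit 228) (nat_lit 0) (XT.lf (nat_lit 0) (nat_lit 2207779606) (nat_lit 228) (nat_lit 17102726556) (nat_lit 76) (nat_lit 24154326340) (nat_lit 58) (nat_lit 5) (nat_lit 61) (nat_lit 5) (nat_lit 59) (nat_lit 5) (nat_lit 403) (nat_lit 369) (nat_lit 248)) (XT.lf (nat_lit 0) (nat_lit 7193205480) (nat_lit 228) (nat_lit 3921393233) (nat_lit 304) (nat_lit 33735207812) (nat_lit 55) (nat_lit 5) (nat_lit 58) (nat_lit 5) (nat_lit 59) (nat_lit 5) (nat_lit 404) (nat_lit 369) (nat_lit 247))))) (XT.nd (nat_lit 234) (nat_lit 532) (nat_lit 0) (XT.nd (nat_lit 78) (nat_lit 152) (nat_lit 0) (XT.lf (nat_lit 0) (nat_lit 20948031109) (nat_lit 304) (nat_lit 13194196142) (nat_lit 76) (nat_lit 12137739986) (nat_lit 55) (nat_lit 5) (nat_lit 59) (nat_lit 5) (nat_lit 56) (nat_lit 5) (nat_lit 405) (nat_lit 369) (nat_lit 246)) (XT.nd (nat_lit 78) (nat_lit 0) (nat_lit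 0) (XT.lf (nat_lit 0) (nat_lit 12831497290) (nat_lit 152) (nat_lit 18702281970) (nat_lit 228) (nat_lit 16234826047) (nat_lit 53) (nat_lit 5) (nat_lit 55) (nat_lit 5) (nat_lit 56) (nat_lit 5) (nat_lit 406) (nat_lit 369) (nat_lit 245)) (XT.lf (nat_lit 0) (nat_lit 40610414021) (nat_lit 152) (nat_lit 2257967856) (nat_lit 228) (nat_lit 6452316508) (nat_lit 53) (nat_lit 5) (nat_lit 55) (nat_lit 5) (nat_lit 56) (nat_lit 5) (nat_lit 407) (nat_lit 369) (nat_lit 244)))) (XT.nd (nat_lit 156) (nat_lit 304) (nat_lit 0) (XT.nd (nat_lit 78) (nat_lit 0) (nat_lit 0) (XT.lf (nat_lit 0) (nat_lit 4236163559) (nat_lit 228) (nat_lit 31790054411) (nat_lit 76) (nat_lit 14894243599) (nat_lit 50) (nat_lit 5) (nat_lit 53) (nat_lit 5) (nat_lit 51) (nat_lit 5) (nat_lit 408) (nat_lit 369) (nat_lit 243)) (XT.lf (nat_lit 0) (nat_lit 15425467434) (nat_lit 228) (nat_lit 4078534330) (nat_lit 76) (nat_lit 33081761626) (nat_lit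 50) (nat_lit 5) (nat_lit 53) (nat_lit 5) (nat_lit 51) (nat_lit 5) (nat_lit 409) (nat_lit 369) (nat_lit 242))) (XT.nd (nat_lit 78) (nat_lit 152) (nat_lit 0) (XT.lf (nat_lit 0) (nat_lit 25839863588) (nat_lit 152) (nat_lit 1734275084) (nat_lit 228) (nat_lit 26740197720) (nat_lit 48) (nat_lit 5) (nat_lit 50) (nat_lit 5) (nat_lit 51) (nat_lit 5) (nat_lit 410) (nat_lit 369) (nat_lit 241)) (XT.lf (nat_lit 0) (nat_lit 1031773100) (nat_lit 152) (nat_lit 39645528901) (nat_lit 228) (nat_lit 15434684258) (nat_lit 46) (nat_lit 5) (nat_lit 48) (nat_lit 5) (nat_lit 49) (nat_lit 5) (nat_lit 411) (nat_lit 369) (nat_lit 240))))))) (XT.nd (nat_lit 1014) (nat_lit 836) (nat_lit 0) (XT.nd (nat_lit 468) (nat_lit 456) (nat_lit 0) (XT.nd (nat_lit 234) (nat_lit 304) (nat_lit 0) (XT.nd (nat_lit 78) (nat_lit 228) (nat_lit 0) (XT.lf (nat_lit 0) (nat_lit 32966841059) (nat_lit 152) (nat_lit 21975575990) (nat_lit 228)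 (nat_lit 3031762979) (nat_lit 46) (nat_lit 5) (nat_lit 48) (nat_lit 5) (nat_lit 49) (nat_lit 5) (nat_lit 412) (nat_lit 369) (nat_lit 239)) (XT.nd (nat_lit 78) (nat_lit 0) (nat_lit 0) (XT.lf (nat_lit 0) (nat_lit 6619524761) (nat_lit 152) (nat_lit 3152045258) (nat_lit 228) (nat_lit 50145112349) (nat_lit 43) (nat_lit 5) (nat_lit 45) (nat_lit 5) (nat_lit 46) (nat_lit 5) (nat_lit 413) (nat_lit 369) (nat_lit 238)) (XT.lf (nat_lit 0) (nat_lit 23799745097) (nat_lit 228) (nat_lit 21560784944) (nat_lit 76) (nat_lit 16558967545) (nat_lit 43) (nat_lit 5) (nat_lit 46) (nat_lit 5) (nat_lit 44) (nat_lit 5) (nat_lit 414) (nat_lit 369) (nat_lit 237)))) (XT.nd (nat_lit 78) (nat_lit 152) (nat_lit 0) (XT.lf (nat_lit 0) (nat_lit 12092466346) (nat_lit 152) (nat_lit 26674226209) (nat_lit 228) (nat_lit 25243893724) (nat_lit 41) (nat_lit 5) (nat_lit 43) (nat_lit 5) (nat_lit 44) (nat_lit 5) (nat_lit 415) (nat_lit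 369) (nat_lit 236)) (XT.nd (nat_lit 78) (nat_lit 152) (nat_lit 0) (XT.lf (nat_lit 0) (nat_lit 48171705903) (nat_lit 152) (nat_lit 6672383765) (nat_lit 228) (nat_lit 11344035474) (nat_lit 41) (nat_lit 5) (nat_lit 43) (nat_lit 5) (nat_lit 44) (nat_lit 5) (nat_lit 416) (nat_lit 369) (nat_lit 235)) (XT.lf (nat_lit 0) (nat_lit 3655636753) (nat_lit 152) (nat_lit 50583188495) (nat_lit 76) (nat_lit 14207735384) (nat_lit 39) (nat_lit 5) (nat_lit 41) (nat_lit 5) (nat_lit 40) (nat_lit 5) (nat_lit 417) (nat_lit 369) (nat_lit 234))))) (XT.nd (nat_lit 234) (nat_lit 304) (nat_lit 0) (XT.nd (nat_lit 78) (nat_lit 152) (nat_lit 0) (XT.lf (nat_lit 0) (nat_lit 19440646638) (nat_lit 152) (nat_lit 14945468666) (nat_lit 76) (nat_lit 36401675536) (nat_lit 39) (nat_lit 5) (nat_lit 41) (nat_lit 5) (nat_lit 40) (nat_lit 5) (nat_lit 418) (nat_lit 369) (nat_lit 233)) (XT.nd (nat_lit 78) (nat_lit 0) (nat_lit 0) (XT.lf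 (nat_lit 0) (nat_lit 23212219782) (nat_lit 152) (nat_lit 13162319793) (nat_lit 228) (nat_lit 36853562057) (nat_lit 37) (nat_lit 5) (nat_lit 39) (nat_lit 5) (nat_lit 40) (nat_lit 5) (nat_lit 419) (nat_lit 369) (nat_lit 232)) (XT.lf (nat_lit 0) (nat_lit 54552065836) (nat_lit 228) (nat_lit 12132566161) (nat_lit 76) (nat_lit 9085949698) (nat_lit 37) (nat_lit 5) (nat_lit 40) (nat_lit 5) (nat_lit 38) (nat_lit 4) (nat_lit 420) (nat_lit 369) (nat_lit 231)))) (XT.nd (nat_lit 156) (nat_lit 152) (nat_lit 0) (XT.nd (nat_lit 78) (nat_lit 76) (nat_lit 0) (XT.lf (nat_lit 0) (nat_lit 28331269991) (nat_lit 76) (nat_lit 45962685852) (nat_lit 152) (nat_lit 4113456184) (nat_lit 36) (nat_lit 5) (nat_lit 37) (nat_lit 5) (nat_lit 38) (nat_lit 4) (nat_lit 421) (nat_lit 369) (nat_lit 230)) (XT.lf (nat_lit 0) (nat_lit 13609901700) (nat_lit 152) (nat_lit 10150512705) (nat_lit 76) (nat_lit 57394549080) (nat_lit 35)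 (nat_lit 5) (nat_lit 37) (nat_lit 5) (nat_lit 36) (nat_lit 5) (nat_lit 422) (nat_lit 369) (nat_lit 229))) (XT.nd (nat_lit 78) (nat_lit 0) (nat_lit 0) (XT.lf (nat_lit 0) (nat_lit 32592448790) (nat_lit 228) (nat_lit 51265886352) (nat_lit 76) (nat_lit 152623216) (nat_lit 33) (nat_lit 5) (nat_lit 36) (nat_lit 5) (nat_lit 34) (nat_lit 4) (nat_lit 423) (nat_lit 369) (nat_lit 228)) (XT.lf (nat_lit 0) (nat_lit 53085896181) (nat_lit 228) (nat_lit 9260109679) (nat_lit 76) (nat_lit 24635658991) (nat_lit 33) (nat_lit 5) (nat_lit 36) (nat_lit 5) (nat_lit 34) (nat_lit 4) (nat_lit 424) (nat_lit 369) (nat_lit 227)))))) (XT.nd (nat_lit 468) (nat_lit 456) (nat_lit 0) (XT.nd (nat_lit 234) (nat_lit 76) (nat_lit 0) (XT.nd (nat_lit 78) (nat_lit 228) (nat_lit 0) (XT.lf (nat_lit 0) (nat_lit 35993734747) (nat_lit 76) (nat_lit 39169897612) (nat_lit 152) (nat_lit 14909293985) (nat_lit 32) (nat_lit 5) (nat_lit 33)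 (nat_lit 5) (nat_lit 34) (nat_lit 4) (nat_lit 425) (nat_lit 369) (nat_lit 226)) (XT.nd (nat_lit 78) (nat_lit 152) (nat_lit 0) (XT.lf (nat_lit 0) (nat_lit 5022681945) (nat_lit 152) (nat_lit 9564451579) (nat_lit 76) (nat_lit 78719841097) (nat_lit 31) (nat_lit 5) (nat_lit 33) (nat_lit 5) (nat_lit 32) (nat_lit 5) (nat_lit 426) (nat_lit 369) (nat_lit 225)) (XT.lf (nat_lit 0) (nat_lit 26232577905) (nat_lit 228) (nat_lit 58701277919) (nat_lit 76) (nat_lit 11717530622) (nat_lit 29) (nat_lit 5) (nat_lit 32) (nat_lit 5) (nat_lit 30) (nat_lit 4) (nat_lit 427) (nat_lit 369) (nat_lit 224)))) (XT.nd (nat_lit 78) (nat_lit 76) (nat_lit 0) (XT.lf (nat_lit 0) (nat_lit 48904524705) (nat_lit 228) (nat_lit 12228323969) (nat_lit 76) (nat_lit 39010092795) (nat_lit 29) (nat_lit 5) (nat_lit 32) (nat_lit 5) (nat_lit 30) (nat_lit 4) (nat_lit 428) (nat_lit 369) (nat_lit 223)) (XT.nd (nat_lit 78) (nat_lit 0) (nat_lit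 0) (XT.lf (nat_lit 0) (nat_lit 37773387581) (nat_lit 76) (nat_lit 35524323707) (nat_lit 152) (nat_lit 30481981224) (nat_lit 28) (nat_lit 5) (nat_lit 29) (nat_lit 5) (nat_lit 30) (nat_lit 4) (nat_lit 429) (nat_lit 369) (nat_lit 222)) (XT.lf (nat_lit 0) (nat_lit 90695912599) (nat_lit 76) (nat_lit 8419671958) (nat_lit 152) (nat_lit 8472445553) (nat_lit 28) (nat_lit 5) (nat_lit 29) (nat_lit 5) (nat_lit 30) (nat_lit 4) (nat_lit 430) (nat_lit 369) (nat_lit 221))))) (XT.nd (nat_lit 234) (nat_lit 228) (nat_lit 0) (XT.nd (nat_lit 78) (nat_lit 76) (nat_lit 0) (XT.lf (nat_lit 0) (nat_lit 15048358836) (nat_lit 152) (nat_lit 76288916736) (nat_lit 76) (nat_lit 20194118408) (nat_lit 26) (nat_lit 5) (nat_lit 28) (nat_lit 5) (nat_lit 27) (nat_lit 4) (nat_lit 431) (nat_lit 369) (nat_lit 220)) (XT.nd (nat_lit 78) (nat_lit 76) (nat_lit 0) (XT.lf (nat_lit 0) (nat_lit 39887279872) (nat_lit 152) (nat_lit 25372683463)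 (nat_lit 76) (nat_lit 50383678093) (nat_lit 26) (nat_lit 5) (nat_lit 28) (nat_lit 5) (nat_lit 27) (nat_lit 4) (nat_lit 432) (nat_lit 369) (nat_lit 219)) (XT.lf (nat_lit 0) (nat_lit 29014473034) (nat_lit 76) (nat_lit 37404778579) (nat_lit 152) (nat_lit 53519694708) (nat_lit 25) (nat_lit 5) (nat_lit 26) (nat_lit 5) (nat_lit 27) (nat_lit 4) (nat_lit 433) (nat_lit 369) (nat_lit 218)))) (XT.nd (nat_lit 156) (nat_lit 152) (nat_lit 0) (XT.nd (nat_lit 78) (nat_lit 76) (nat_lit 0) (XT.lf (nat_lit 0) (nat_lit 86998393839) (nat_lit 76) (nat_lit 7707270047) (nat_lit 152) (nat_lit 29721960767) (nat_lit 25) (nat_lit 5) (nat_lit 26) (nat_lit 5) (nat_lit 27) (nat_lit 4) (nat_lit 434) (nat_lit 369) (nat_lit 217)) (XT.lf (nat_lit 0) (nat_lit 18978311041) (nat_lit 76) (nat_lit 106089110285) (nat_lit 76) (nat_lit 4040264626) (nat_lit 24) (nat_lit 4) (nat_lit 25) (nat_lit 5) (nat_lit 25) (nat_lit 4) (nat_lit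 435) (nat_lit 369) (nat_lit 216))) (XT.nd (nat_lit 78) (nat_lit 76) (nat_lit 0) (XT.lf (nat_lit 0) (nat_lit 22960590996) (nat_lit 152) (nat_lit 54982419435) (nat_lit 76) (nat_lit 56022401839) (nat_lit 23) (nat_lit 5) (nat_lit 25) (nat_lit 5) (nat_lit 24) (nat_lit 4) (nat_lit 436) (nat_lit 369) (nat_lit 215)) (XT.lf (nat_lit 0) (nat_lit 2946745331) (nat_lit 76) (nat_lit 48273268811) (nat_lit 152) (nat_lit 87840484102) (nat_lit 22) (nat_lit 5) (nat_lit 23) (nat_lit 5) (nat_lit 24) (nat_lit 4) (nat_lit 437) (nat_lit 369) (nat_lit 214))))))))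
noncomputable def xc168 : XT := (XT.nd (nat_lit 1950) (nat_lit 304) (nat_lit 0) (XT.nd (nat_lit 936) (nat_lit 456) (nat_lit 0) (XT.nd (nat_lit 468) (nat_lit 228) (nat_lit 0) (XT.nd (nat_lit 234) (nat_lit 152) (nat_lit 0) (XT.nd (nat_lit 78) (nat_lit 76) (nat_lit 0) (XT.lf (nat_lit 0) (nat_lit 65678066813) (nat_lit 76) (nat_lit 16143824329) (nat_lit 152) (nat_lit 62541973470) (nat_lit 22) (nat_lit 5) (nat_lit 23) (nat_lit 5) (nat_lit 24) (nat_lit 4) (nat_lit 438) (nat_lit 369) (nat_lit 213)) (XT.nd (nat_lit 78) (nat_lit 76) (nat_lit 0) (XT.lf (nat_lit 0) (nat_lit 114226910011) (nat_lit 152) (nat_lit 18664180513) (nat_lit 0) (nat_lit 17027656590) (nat_lit 22) (nat_lit 5) (nat_lit 24) (nat_lit 4) (nat_lit 22) (nat_lit 4) (nat_lit 439) (nat_lit 369) (nat_lit 212)) (XT.lf (nat_lit 0) (nat_lit 45548782938) (nat_lit 76) (nat_lit 103677656900) (nat_lit 76) (nat_lit 6476221109) (nat_lit 21) (nat_lit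 4) (nat_lit 22) (nat_lit 5) (nat_lit 22) (nat_lit 4) (nat_lit 440) (nat_lit 369) (nat_lit 211)))) (XT.nd (nat_lit 78) (nat_lit 76) (nat_lit 0) (XT.lf (nat_lit 0) (nat_lit 23745353914) (nat_lit 152) (nat_lit 48525538713) (nat_lit 76) (nat_lit 89469999654) (nat_lit 20) (nat_lit 5) (nat_lit 22) (nat_lit 5) (nat_lit 21) (nat_lit 4) (nat_lit 441) (nat_lit 369) (nat_lit 210)) (XT.nd (nat_lit 78) (nat_lit 0) (nat_lit 0) (XT.lf (nat_lit 0) (nat_lit 16606779170) (nat_lit 76) (nat_lit 38911402723) (nat_lit 152) (nat_lit 112544654206) (nat_lit 19) (nat_lit 5) (nat_lit 20) (nat_lit 5) (nat_lit 21) (nat_lit 4) (nat_lit 442) (nat_lit 369) (nat_lit 209)) (XT.lf (nat_lit 0) (nat_lit 86677663640) (nat_lit 76) (nat_lit 3022357123) (nat_lit 152) (nat_lit 84959838040) (nat_lit 19) (nat_lit 5) (nat_lit 20) (nat_lit 5) (nat_lit 21) (nat_lit 4) (nat_lit 443) (nat_lit 369) (nat_lit 208))))) (XT.nd (nat_lit 234)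 (nat_lit 76) (nat_lit 0) (XT.nd (nat_lit 78) (nat_lit 152) (nat_lit 0) (XT.lf (nat_lit 0) (nat_lit 126130723905) (nat_lit 152) (nat_lit 21878462443) (nat_lit 0) (nat_lit 33550557841) (nat_lit 19) (nat_lit 5) (nat_lit 21) (nat_lit 4) (nat_lit 19) (nat_lit 4) (nat_lit 444) (nat_lit 369) (nat_lit 207)) (XT.nd (nat_lit 78) (nat_lit 76) (nat_lit 0) (XT.lf (nat_lit 0) (nat_lit 49048221781) (nat_lit 76) (nat_lit 116148748204) (nat_lit 76) (nat_lit 23566953622) (nat_lit 18) (nat_lit 4) (nat_lit 19) (nat_lit 5) (nat_lit 19) (nat_lit 4) (nat_lit 445) (nat_lit 369) (nat_lit 206)) (XT.lf (nat_lit 0) (nat_lit 9947011386) (nat_lit 152) (nat_lit 72191972208) (nat_lit 76) (nat_lit 114162845420) (nat_lit 17) (nat_lit 5) (nat_lit 19) (nat_lit 5) (nat_lit 18) (nat_lit 4) (nat_lit 446) (nat_lit 369) (nat_lit 205)))) (XT.nd (nat_lit 78) (nat_lit 76) (nat_lit 0) (XT.lf (nat_lit 0) (nat_lit 44343416378) (nat_lit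 152) (nat_lit 1680819089) (nat_lit 76) (nat_lit 158173139888) (nat_lit 17) (nat_lit 5) (nat_lit 19) (nat_lit 5) (nat_lit 18) (nat_lit 4) (nat_lit 447) (nat_lit 369) (nat_lit 204)) (XT.nd (nat_lit 78) (nat_lit 0) (nat_lit 0) (XT.lf (nat_lit 0) (nat_lit 74745923780) (nat_lit 76) (nat_lit 6879516815) (nat_lit 152) (nat_lit 130803968596) (nat_lit 16) (nat_lit 5) (nat_lit 17) (nat_lit 5) (nat_lit 18) (nat_lit 4) (nat_lit 448) (nat_lit 369) (nat_lit 203)) (XT.lf (nat_lit 0) (nat_lit 121333616342) (nat_lit 152) (nat_lit 66556346998) (nat_lit 0) (nat_lit 33154978983) (nat_lit 16) (nat_lit 5) (nat_lit 18) (nat_lit 4) (nat_lit 16) (nat_lit 4) (nat_lit 449) (nat_lit 369) (nat_lit 202)))))) (XT.nd (nat_lit 468) (nat_lit 228) (nat_lit 0) (XT.nd (nat_lit 234) (nat_lit 76) (nat_lit 0) (XT.nd (nat_lit 78) (nat_lit 76) (nat_lit 0) (XT.lf (nat_lit 0) (nat_lit 8277089074) (nat_lit 76) (nat_lit 154990986014)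 (nat_lit 76) (nat_lit 66811133430) (nat_lit 15) (nat_lit 4) (nat_lit 16) (nat_lit 5) (nat_lit 16) (nat_lit 4) (nat_lit 450) (nat_lit 369) (nat_lit 201)) (XT.nd (nat_lit 78) (nat_lit 76) (nat_lit 0) (XT.lf (nat_lit 0) (nat_lit 89160719656) (nat_lit 76) (nat_lit 119264587938) (nat_lit 76) (nat_lit 31083577996) (nat_lit 15) (nat_lit 4) (nat_lit 16) (nat_lit 5) (nat_lit 16) (nat_lit 4) (nat_lit 451) (nat_lit 369) (nat_lit 200)) (XT.lf (nat_lit 0) (nat_lit 6223466090) (nat_lit 152) (nat_lit 75424006701) (nat_lit 76) (nat_lit 167757607911) (nat_lit 14) (nat_lit 5) (nat_lit 16) (nat_lit 5) (nat_lit 15) (nat_lit 4) (nat_lit 452) (nat_lit 369) (nat_lit 199)))) (XT.nd (nat_lit 78) (nat_lit 0) (nat_lit 0) (XT.lf (nat_lit 0) (nat_lit 2825222122) (nat_lit 76) (nat_lit 41569111568) (nat_lit 152) (nat_lit 215374119463) (nat_lit 13) (nat_lit 5) (nat_lit 14) (nat_lit 5) (nat_lit 15) (nat_lit 4) (nat_lit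 453) (nat_lit 369) (nat_lit 198)) (XT.nd (nat_lit 78) (nat_lit 0) (nat_lit 0) (XT.lf (nat_lit 0) (nat_lit 85779015740) (nat_lit 152) (nat_lit 183011615201) (nat_lit 0) (nat_lit 1794099823) (nat_lit 13) (nat_lit 5) (nat_lit 15) (nat_lit 4) (nat_lit 13) (nat_lit 4) (nat_lit 454) (nat_lit 369) (nat_lit 197)) (XT.lf (nat_lit 0) (nat_lit 129913418453) (nat_lit 152) (nat_lit 106066783844) (nat_lit 0) (nat_lit 45927595716) (nat_lit 13) (nat_lit 5) (nat_lit 15) (nat_lit 4) (nat_lit 13) (nat_lit 4) (nat_lit 455) (nat_lit 369) (nat_lit 196))))) (XT.nd (nat_lit 234) (nat_lit 152) (nat_lit 0) (XT.nd (nat_lit 78) (nat_lit 76) (nat_lit 0) (XT.lf (nat_lit 0) (nat_lit 176253613411) (nat_lit 152) (nat_lit 25276524654) (nat_lit 0) (nat_lit 92266927036) (nat_lit 13) (nat_lit 5) (nat_lit 15) (nat_lit 4) (nat_lit 13) (nat_lit 4) (nat_lit 456) (nat_lit 369) (nat_lit 195)) (XT.nd (nat_lit 78) (nat_lit 0) (nat_lit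 0) (XT.lf (nat_lit 0) (nat_lit 61520562326) (nat_lit 76) (nat_lit 164349880475) (nat_lit 76) (nat_lit 80362371587) (nat_lit 12) (nat_lit 4) (nat_lit 13) (nat_lit 5) (nat_lit 13) (nat_lit 4) (nat_lit 457) (nat_lit 369) (nat_lit 194)) (XT.lf (nat_lit 0) (nat_lit 153533348011) (nat_lit 76) (nat_lit 124861967667) (nat_lit 76) (nat_lit 40873675434) (nat_lit 12) (nat_lit 4) (nat_lit 13) (nat_lit 5) (nat_lit 13) (nat_lit 4) (nat_lit 458) (nat_lit 369) (nat_lit 193)))) (XT.nd (nat_lit 156) (nat_lit 0) (nat_lit 0) (XT.nd (nat_lit 78) (nat_lit 76) (nat_lit 0) (XT.lf (nat_lit 0) (nat_lit 569748827) (nat_lit 152) (nat_lit 82821053178) (nat_lit 76) (nat_lit 249565756604) (nat_lit 11) (nat_lit 5) (nat_lit 13) (nat_lit 5) (nat_lit 12) (nat_lit 4) (nat_lit 459) (nat_lit 369) (nat_lit 192)) (XT.lf (nat_lit 0) (nat_lit 3685600179) (nat_lit 76) (nat_lit 39082862733) (nat_lit 152) (nat_lit 304523701514) (nat_lit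 10) (nat_lit 5) (nat_lit 11) (nat_lit 5) (nat_lit 12) (nat_lit 4) (nat_lit 460) (nat_lit 369) (nat_lit 191))) (XT.nd (nat_lit 78) (nat_lit 0) (nat_lit 0) (XT.lf (nat_lit 0) (nat_lit 88618089440) (nat_lit 152) (nat_lit 265022204285) (nat_lit 0) (nat_lit 8627208034) (nat_lit 10) (nat_lit 5) (nat_lit 12) (nat_lit 4) (nat_lit 10) (nat_lit 4) (nat_lit 461) (nat_lit 369) (nat_lit 190)) (XT.lf (nat_lit 0) (nat_lit 137400139771) (nat_lit 152) (nat_lit 183150824527) (nat_lit 0) (nat_lit 57408644594) (nat_lit 10) (nat_lit 5) (nat_lit 12) (nat_lit 4) (nat_lit 10) (nat_lit 4) (nat_lit 462) (nat_lit 369) (nat_lit 189))))))) (XT.nd (nat_lit 45864) (nat_lit 0) (nat_lit 7524) (XT.nd (nat_lit 468) (nat_lit 152) (nat_lit 0) (XT.nd (nat_lit 234) (nat_lit 76) (nat_lit 0) (XT.nd (nat_lit 78) (nat_lit 76) (nat_lit 0) (XT.lf (nat_lit 0) (nat_lit 188620568628) (nat_lit 152) (nat_lit 97187300101) (nat_lit 0) (nat_lit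 108628488907) (nat_lit 10) (nat_lit 5) (nat_lit 12) (nat_lit 4) (nat_lit 10) (nat_lit 4) (nat_lit 463) (nat_lit 369) (nat_lit 188)) (XT.nd (nat_lit 78) (nat_lit 76) (nat_lit 0) (XT.lf (nat_lit 0) (nat_lit 242401329414) (nat_lit 152) (nat_lit 6926955948) (nat_lit 0) (nat_lit 162408692985) (nat_lit 10) (nat_lit 5) (nat_lit 12) (nat_lit 4) (nat_lit 10) (nat_lit 4) (nat_lit 464) (nat_lit 369) (nat_lit 187)) (XT.lf (nat_lit 0) (nat_lit 90749669685) (nat_lit 76) (nat_lit 209537658544) (nat_lit 76) (nat_lit 129544491915) (nat_lit 9) (nat_lit 4) (nat_lit 10) (nat_lit 5) (nat_lit 10) (nat_lit 4) (nat_lit 465) (nat_lit 369) (nat_lit 186)))) (XT.nd (nat_lit 78) (nat_lit 76) (nat_lit 0) (XT.lf (nat_lit 0) (nat_lit 193549343807) (nat_lit 76) (nat_lit 167634949273) (nat_lit 76) (nat_lit 87641277693) (nat_lit 9) (nat_lit 4) (nat_lit 10) (nat_lit 5) (nat_lit 10) (nat_lit 4) (nat_lit 466) (nat_lit 369) (nat_lit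 185)) (XT.nd (nat_lit 78) (nat_lit 76) (nat_lit 0) (XT.lf (nat_lit 0) (nat_lit 301487791099) (nat_lit 76) (nat_lit 123637700546) (nat_lit 76) (nat_lit 43643548061) (nat_lit 9) (nat_lit 4) (nat_lit 10) (nat_lit 5) (nat_lit 10) (nat_lit 4) (nat_lit 467) (nat_lit 369) (nat_lit 184)) (XT.lf (nat_lit 0) (nat_lit 2471727023) (nat_lit 152) (nat_lit 74927570093) (nat_lit 76) (nat_lit 412308420949) (nat_lit 8) (nat_lit 5) (nat_lit 10) (nat_lit 5) (nat_lit 9) (nat_lit 4) (nat_lit 468) (nat_lit 369) (nat_lit 183))))) (XT.nd (nat_lit 234) (nat_lit 76) (nat_lit 0) (XT.nd (nat_lit 78) (nat_lit 0) (nat_lit 0) (XT.lf (nat_lit 0) (nat_lit 22032381380) (nat_lit 76) (nat_lit 27737095725) (nat_lit 152) (nat_lit 461870908843) (nat_lit 7) (nat_lit 5) (nat_lit 8) (nat_lit 5) (nat_lit 9) (nat_lit 4) (nat_lit 469) (nat_lit 369) (nat_lit 182)) (XT.nd (nat_lit 78) (nat_lit 0) (nat_lit 0) (XT.lf (nat_lit 0) (nat_lit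 101102366996) (nat_lit 152) (nat_lit 408567595047) (nat_lit 0) (nat_lit 24916212604) (nat_lit 7) (nat_lit 5) (nat_lit 9) (nat_lit 4) (nat_lit 7) (nat_lit 4) (nat_lit 470) (nat_lit 369) (nat_lit 181)) (XT.lf (nat_lit 0) (nat_lit 155456069573) (nat_lit 152) (nat_lit 323930936456) (nat_lit 0) (nat_lit 79269538379) (nat_lit 7) (nat_lit 5) (nat_lit 9) (nat_lit 4) (nat_lit 7) (nat_lit 4) (nat_lit 471) (nat_lit 369) (nat_lit 180)))) (XT.nd (nat_lit 156) (nat_lit 76) (nat_lit 0) (XT.nd (nat_lit 78) (nat_lit 0) (nat_lit 0) (XT.lf (nat_lit 0) (nat_lit 212526944617) (nat_lit 152) (nat_lit 235063459144) (nat_lit 0) (nat_lit 136340054563) (nat_lit 7) (nat_lit 5) (nat_lit 9) (nat_lit 4) (nat_lit 7) (nat_lit 4) (nat_lit 472) (nat_lit 369) (nat_lit 179)) (XT.lf (nat_lit 0) (nat_lit 272450875164) (nat_lit 152) (nat_lit 141753573879) (nat_lit 0) (nat_lit 196263643339) (nat_lit 7) (nat_lit 5) (nat_lit 9) (nat_lit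 4) (nat_lit 7) (nat_lit 4) (nat_lit 473) (nat_lit 369) (nat_lit 178))) (XT.nd (nat_lit 78) (nat_lit 76) (nat_lit 0) (XT.lf (nat_lit 0) (nat_lit 335370537238) (nat_lit 152) (nat_lit 43779114267) (nat_lit 0) (nat_lit 259182979917) (nat_lit 7) (nat_lit 5) (nat_lit 9) (nat_lit 4) (nat_lit 7) (nat_lit 4) (nat_lit 474) (nat_lit 369) (nat_lit 177)) (XT.lf (nat_lit 0) (nat_lit 61047080020) (nat_lit 76) (nat_lit 341341775541) (nat_lit 76) (nat_lit 265153908224) (nat_lit 6) (nat_lit 4) (nat_lit 7) (nat_lit 5) (nat_lit 7) (nat_lit 4) (nat_lit 475) (nat_lit 369) (nat_lit 176)))))) (XT.nd (nat_lit 468) (nat_lit 380) (nat_lit 0) (XT.nd (nat_lit 234) (nat_lit 0) (nat_lit 76) (XT.nd (nat_lit 78) (nat_lit 0) (nat_lit 0) (XT.lf (nat_lit 0) (nat_lit 572174772) (nat_lit 836) (nat_lit 4146831345) (nat_lit 836) (nat_lit 4146831345) (nat_lit 110) (nat_lit 3) (nat_lit 121) (nat_lit 3) (nat_lit 121) (nat_lit 5)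 (nat_lit 370) (nat_lit 370) (nat_lit 280)) (XT.nd (nat_lit 78) (nat_lit 0) (nat_lit 76) (XT.lf (nat_lit 76) (nat_lit 259704178) (nat_lit 0) (nat_lit 1123083043) (nat_lit 836) (nat_lit 16781542826) (nat_lit 111) (nat_lit 5) (nat_lit 110) (nat_lit 3) (nat_lit 121) (nat_lit 5) (nat_lit 371) (nat_lit 370) (nat_lit 279)) (XT.lf (nat_lit 0) (nat_lit 1881494440) (nat_lit 760) (nat_lit 9211914942) (nat_lit 836) (nat_lit 7512800459) (nat_lit 111) (nat_lit 5) (nat_lit 121) (nat_lit 5) (nat_lit 122) (nat_lit 5) (nat_lit 372) (nat_lit 370) (nat_lit 278)))) (XT.nd (nat_lit 78) (nat_lit 0) (nat_lit 76) (XT.lf (nat_lit 0) (nat_lit 2410988264) (nat_lit 760) (nat_lit 110520707) (nat_lit 836) (nat_lit 16548390952) (nat_lit 111) (nat_lit 5) (nat_lit 121) (nat_lit 5) (nat_lit 122) (nat_lit 5) (nat_lit 373) (nat_lit 370) (nat_lit 277)) (XT.nd (nat_lit 78) (nat_lit 0) (nat_lit 0) (XT.lf (nat_lit 0) (nat_lit 3210958475)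 (nat_lit 760) (nat_lit 9902645232) (nat_lit 836) (nat_lit 6430979153) (nat_lit 112) (nat_lit 5) (nat_lit 122) (nat_lit 5) (nat_lit 123) (nat_lit 5) (nat_lit 374) (nat_lit 370) (nat_lit 276)) (XT.lf (nat_lit 0) (nat_lit 4082732511) (nat_lit 760) (nat_lit 206135879) (nat_lit 836) (nat_lit 15752549323) (nat_lit 112) (nat_lit 5) (nat_lit 122) (nat_lit 5) (nat_lit 123) (nat_lit 5) (nat_lit 375) (nat_lit 370) (nat_lit 275))))) (XT.nd (nat_lit 234) (nat_lit 608) (nat_lit 0) (XT.nd (nat_lit 78) (nat_lit 0) (nat_lit 0) (XT.lf (nat_lit 0) (nat_lit 5228375504) (nat_lit 760) (nat_lit 10338575168) (nat_lit 836) (nat_lit 4984637276) (nat_lit 113) (nat_lit 5) (nat_lit 123) (nat_lit 5) (nat_lit 124) (nat_lit 5) (nat_lit 376) (nat_lit 370) (nat_lit 274)) (XT.nd (nat_lit 78) (nat_lit 0) (nat_lit 76) (XT.lf (nat_lit 0) (nat_lit 6494725699) (nat_lit 760) (nat_lit 4997872) (nat_lit 836) (nat_lit 14584379160)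 (nat_lit 113) (nat_lit 5) (nat_lit 123) (nat_lit 5) (nat_lit 124) (nat_lit 5) (nat_lit 377) (nat_lit 370) (nat_lit 273)) (XT.lf (nat_lit 0) (nat_lit 8039329886) (nat_lit 760) (nat_lit 10488912607) (nat_lit 836) (nat_lit 3104260875) (nat_lit 114) (nat_lit 5) (nat_lit 124) (nat_lit 5) (nat_lit 125) (nat_lit 5) (nat_lit 378) (nat_lit 370) (nat_lit 272)))) (XT.nd (nat_lit 156) (nat_lit 684) (nat_lit 0) (XT.nd (nat_lit 78) (nat_lit 0) (nat_lit 76) (XT.lf (nat_lit 76) (nat_lit 544492342) (nat_lit 0) (nat_lit 9222270149) (nat_lit 836) (nat_lit 12436288248) (nat_lit 115) (nat_lit 5) (nat_lit 114) (nat_lit 5) (nat_lit 125) (nat_lit 5) (nat_lit 379) (nat_lit 370) (nat_lit 271)) (XT.lf (nat_lit 0) (nat_lit 11760500478) (nat_lit 760) (nat_lit 10319214906) (nat_lit 76) (nat_lit 713419700) (nat_lit 115) (nat_lit 5) (nat_lit 125) (nat_lit 5) (nat_lit 116) (nat_lit 5) (nat_lit 380) (nat_lit 370) (nat_lit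 270))) (XT.nd (nat_lit 78) (nat_lit 0) (nat_lit 0) (XT.lf (nat_lit 0) (nat_lit 1475314486) (nat_lit 760) (nat_lit 12544082242) (nat_lit 836) (nat_lit 9385059347) (nat_lit 105) (nat_lit 5) (nat_lit 115) (nat_lit 5) (nat_lit 116) (nat_lit 5) (nat_lit 381) (nat_lit 370) (nat_lit 269)) (XT.lf (nat_lit 0) (nat_lit 14210140457) (nat_lit 760) (nat_lit 2347407520) (nat_lit 836) (nat_lit 7480485340) (nat_lit 105) (nat_lit 5) (nat_lit 115) (nat_lit 5) (nat_lit 116) (nat_lit 5) (nat_lit 382) (nat_lit 370) (nat_lit 268))))))))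
noncomputable def xc169 : XT := (XT.nd (nat_lit 1950) (nat_lit 2052) (nat_lit 0) (XT.nd (nat_lit 936) (nat_lit 1596) (nat_lit 0) (XT.nd (nat_lit 468) (nat_lit 1216) (nat_lit 0) (XT.nd (nat_lit 234) (nat_lit 456) (nat_lit 0) (XT.nd (nat_lit 78) (nat_lit 304) (nat_lit 0) (XT.lf (nat_lit 0) (nat_lit 2830768872) (nat_lit 380) (nat_lit 16558506161) (nat_lit 456) (nat_lit 5305686414) (nat_lit 100) (nat_lit 5) (nat_lit 105) (nat_lit 5) (nat_lit 106) (nat_lit 5) (nat_lit 383) (nat_lit 370) (nat_lit 267)) (XT.nd (nat_lit 78) (nat_lit 304) (nat_lit 0) (XT.lf (nat_lit 0) (nat_lit 16416193619) (nat_lit 380) (nat_lit 6142923152) (nat_lit 456) (nat_lit 2815797975) (nat_lit 100) (nat_lit 5) (nat_lit 105) (nat_lit 5) (nat_lit 106) (nat_lit 5) (nat_lit 384) (nat_lit 370) (nat_lit 266)) (XT.lf (nat_lit 0) (nat_lit 4658658561) (nat_lit 304) (nat_lit 21368965025) (nat_lit 380) (nat_lit 54238407) (nat_lit 96)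 (nat_lit 5) (nat_lit 100) (nat_lit 5) (nat_lit 101) (nat_lit 5) (nat_lit 385) (nat_lit 370) (nat_lit 265)))) (XT.nd (nat_lit 78) (nat_lit 380) (nat_lit 0) (XT.lf (nat_lit 0) (nat_lit 3001952166) (nat_lit 380) (nat_lit 7704007128) (nat_lit 76) (nat_lit 16103599372) (nat_lit 95) (nat_lit 5) (nat_lit 100) (nat_lit 5) (nat_lit 96) (nat_lit 5) (nat_lit 386) (nat_lit 370) (nat_lit 264)) (XT.nd (nat_lit 78) (nat_lit 0) (nat_lit 0) (XT.lf (nat_lit 0) (nat_lit 6319569171) (nat_lit 456) (nat_lit 20663809210) (nat_lit 76) (nat_lit 584699611) (nat_lit 90) (nat_lit 5) (nat_lit 96) (nat_lit 5) (nat_lit 91) (nat_lit 5) (nat_lit 387) (nat_lit 370) (nat_lit 263)) (XT.lf (nat_lit 0) (nat_lit 10104452536) (nat_lit 456) (nat_lit 6032820080) (nat_lit 76) (nat_lit 12212185451) (nat_lit 90) (nat_lit 5) (nat_lit 96) (nat_lit 5) (nat_lit 91) (nat_lit 5) (nat_lit 388) (nat_lit 370) (nat_lit 262))))) (XT.nd (nat_lit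 234) (nat_lit 608) (nat_lit 0) (XT.nd (nat_lit 78) (nat_lit 304) (nat_lit 0) (XT.lf (nat_lit 0) (nat_lit 9630725516) (nat_lit 304) (nat_lit 4591805761) (nat_lit 380) (nat_lit 14940182174) (nat_lit 86) (nat_lit 5) (nat_lit 90) (nat_lit 5) (nat_lit 91) (nat_lit 5) (nat_lit 389) (nat_lit 370) (nat_lit 261)) (XT.nd (nat_lit 78) (nat_lit 304) (nat_lit 0) (XT.lf (nat_lit 0) (nat_lit 18761705222) (nat_lit 380) (nat_lit 3851302865) (nat_lit 76) (nat_lit 7392867633) (nat_lit 86) (nat_lit 5) (nat_lit 91) (nat_lit 5) (nat_lit 87) (nat_lit 5) (nat_lit 390) (nat_lit 370) (nat_lit 260)) (XT.lf (nat_lit 0) (nat_lit 12945408103) (nat_lit 304) (nat_lit 10853884747) (nat_lit 380) (nat_lit 7078334010) (nat_lit 82) (nat_lit 5) (nat_lit 86) (nat_lit 5) (nat_lit 87) (nat_lit 5) (nat_lit 391) (nat_lit 370) (nat_lit 259)))) (XT.nd (nat_lit 78) (nat_lit 608) (nat_lit 0) (XT.lf (nat_lit 0) (nat_lit 29172586550) (nat_lit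 380) (nat_lit 1105648938) (nat_lit 76) (nat_lit 1510542073) (nat_lit 82) (nat_lit 5) (nat_lit 87) (nat_lit 5) (nat_lit 83) (nat_lit 5) (nat_lit 392) (nat_lit 370) (nat_lit 258)) (XT.nd (nat_lit 78) (nat_lit 304) (nat_lit 0) (XT.lf (nat_lit 0) (nat_lit 2446571042) (nat_lit 304) (nat_lit 15844173407) (nat_lit 76) (nat_lit 14430942450) (nat_lit 78) (nat_lit 5) (nat_lit 82) (nat_lit 5) (nat_lit 79) (nat_lit 5) (nat_lit 393) (nat_lit 370) (nat_lit 257)) (XT.lf (nat_lit 0) (nat_lit 2115474094) (nat_lit 304) (nat_lit 5605697881) (nat_lit 380) (nat_lit 25975597097) (nat_lit 74) (nat_lit 5) (nat_lit 78) (nat_lit 5) (nat_lit 79) (nat_lit 5) (nat_lit 394) (nat_lit 370) (nat_lit 256)))))) (XT.nd (nat_lit 468) (nat_lit 836) (nat_lit 0) (XT.nd (nat_lit 234) (nat_lit 532) (nat_lit 0) (XT.nd (nat_lit 78) (nat_lit 228) (nat_lit 0) (XT.lf (nat_lit 0) (nat_lit 13647351143) (nat_lit 380) (nat_lit 13315924566)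 (nat_lit 76) (nat_lit 7737939981) (nat_lit 74) (nat_lit 5) (nat_lit 79) (nat_lit 5) (nat_lit 75) (nat_lit 5) (nat_lit 395) (nat_lit 370) (nat_lit 255)) (XT.nd (nat_lit 78) (nat_lit 0) (nat_lit 0) (XT.lf (nat_lit 0) (nat_lit 5954657446) (nat_lit 228) (nat_lit 14094989957) (nat_lit 304) (nat_lit 15697249445) (nat_lit 71) (nat_lit 5) (nat_lit 74) (nat_lit 5) (nat_lit 75) (nat_lit 5) (nat_lit 396) (nat_lit 370) (nat_lit 254)) (XT.lf (nat_lit 0) (nat_lit 26644429746) (nat_lit 228) (nat_lit 348220111) (nat_lit 304) (nat_lit 9841185130) (nat_lit 71) (nat_lit 5) (nat_lit 74) (nat_lit 5) (nat_lit 75) (nat_lit 5) (nat_lit 397) (nat_lit 370) (nat_lit 253)))) (XT.nd (nat_lit 78) (nat_lit 304) (nat_lit 0) (XT.lf (nat_lit 0) (nat_lit 10503288564) (nat_lit 228) (nat_lit 24158708346) (nat_lit 304) (nat_lit 3294165771) (nat_lit 68) (nat_lit 5) (nat_lit 71) (nat_lit 5) (nat_lit 72) (nat_lit 5) (nat_lit 398)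 (nat_lit 370) (nat_lit 252)) (XT.nd (nat_lit 78) (nat_lit 228) (nat_lit 0) (XT.lf (nat_lit 0) (nat_lit 3642050710) (nat_lit 304) (nat_lit 6612626609) (nat_lit 76) (nat_lit 28868314990) (nat_lit 67) (nat_lit 5) (nat_lit 71) (nat_lit 5) (nat_lit 68) (nat_lit 5) (nat_lit 399) (nat_lit 370) (nat_lit 251)) (XT.lf (nat_lit 0) (nat_lit 11127950930) (nat_lit 304) (nat_lit 24693880328) (nat_lit 76) (nat_lit 4507955148) (nat_lit 64) (nat_lit 5) (nat_lit 68) (nat_lit 5) (nat_lit 65) (nat_lit 5) (nat_lit 400) (nat_lit 370) (nat_lit 250))))) (XT.nd (nat_lit 234) (nat_lit 456) (nat_lit 0) (XT.nd (nat_lit 78) (nat_lit 380) (nat_lit 0) (XT.lf (nat_lit 0) (nat_lit 19265723284) (nat_lit 304) (nat_lit 2541183936) (nat_lit 76) (nat_lit 19776136085) (nat_lit 64) (nat_lit 5) (nat_lit 68) (nat_lit 5) (nat_lit 65) (nat_lit 5) (nat_lit 401) (nat_lit 370) (nat_lit 249)) (XT.nd (nat_lit 78) (nat_lit 152) (nat_lit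 0) (XT.lf (nat_lit 0) (nat_lit 21397959755) (nat_lit 228) (nat_lit 6742357818) (nat_lit 304) (nat_lit 14742150670) (nat_lit 61) (nat_lit 5) (nat_lit 64) (nat_lit 5) (nat_lit 65) (nat_lit 5) (nat_lit 402) (nat_lit 370) (nat_lit 248)) (XT.lf (nat_lit 0) (nat_lit 2302743835) (nat_lit 152) (nat_lit 35373210295) (nat_lit 228) (nat_lit 6560046438) (nat_lit 59) (nat_lit 5) (nat_lit 61) (nat_lit 5) (nat_lit 62) (nat_lit 5) (nat_lit 403) (nat_lit 370) (nat_lit 247)))) (XT.nd (nat_lit 156) (nat_lit 152) (nat_lit 0) (XT.nd (nat_lit 78) (nat_lit 228) (nat_lit 0) (XT.lf (nat_lit 0) (nat_lit 2442457746) (nat_lit 228) (nat_lit 17768140562) (nat_lit 76) (nat_lit 25421211969) (nat_lit 58) (nat_lit 5) (nat_lit 61) (nat_lit 5) (nat_lit 59) (nat_lit 5) (nat_lit 404) (nat_lit 370) (nat_lit 246)) (XT.lf (nat_lit 0) (nat_lit 7739528038) (nat_lit 228) (nat_lit 4052085559) (nat_lit 304) (nat_lit 35294571965) (nat_lit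 55) (nat_lit 5) (nat_lit 58) (nat_lit 5) (nat_lit 59) (nat_lit 5) (nat_lit 405) (nat_lit 370) (nat_lit 245))) (XT.nd (nat_lit 78) (nat_lit 152) (nat_lit 0) (XT.lf (nat_lit 0) (nat_lit 22111914257) (nat_lit 304) (nat_lit 13671284188) (nat_lit 76) (nat_lit 12804898273) (nat_lit 55) (nat_lit 5) (nat_lit 59) (nat_lit 5) (nat_lit 56) (nat_lit 5) (nat_lit 406) (nat_lit 370) (nat_lit 244)) (XT.lf (nat_lit 0) (nat_lit 13652748403) (nat_lit 152) (nat_lit 19571459920) (nat_lit 228) (nat_lit 16927097577) (nat_lit 53) (nat_lit 5) (nat_lit 55) (nat_lit 5) (nat_lit 56) (nat_lit 5) (nat_lit 407) (nat_lit 370) (nat_lit 243))))))) (XT.nd (nat_lit 1014) (nat_lit 836) (nat_lit 0) (XT.nd (nat_lit 468) (nat_lit 684) (nat_lit 0) (XT.nd (nat_lit 234) (nat_lit 304) (nat_lit 0) (XT.nd (nat_lit 78) (nat_lit 228) (nat_lit 0) (XT.lf (nat_lit 0) (nat_lit 42812054959) (nat_lit 152) (nat_lit 2308069916) (nat_lit 228)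 (nat_lit 6661151598) (nat_lit 53) (nat_lit 5) (nat_lit 55) (nat_lit 5) (nat_lit 56) (nat_lit 5) (nat_lit 408) (nat_lit 370) (nat_lit 242)) (XT.nd (nat_lit 78) (nat_lit 0) (nat_lit 0) (XT.lf (nat_lit 0) (nat_lit 4556556665) (nat_lit 228) (nat_lit 33203165528) (nat_lit 76) (nat_lit 15701296350) (nat_lit 50) (nat_lit 5) (nat_lit 53) (nat_lit 5) (nat_lit 51) (nat_lit 5) (nat_lit 409) (nat_lit 370) (nat_lit 241)) (XT.lf (nat_lit 0) (nat_lit 16300155023) (nat_lit 228) (nat_lit 4114469043) (nat_lit 76) (nat_lit 34795221680) (nat_lit 50) (nat_lit 5) (nat_lit 53) (nat_lit 5) (nat_lit 51) (nat_lit 5) (nat_lit 410) (nat_lit 370) (nat_lit 240)))) (XT.nd (nat_lit 78) (nat_lit 152) (nat_lit 0) (XT.lf (nat_lit 0) (nat_lit 27297139222) (nat_lit 152) (nat_lit 1756776637) (nat_lit 228) (nat_lit 27971050409) (nat_lit 48) (nat_lit 5) (nat_lit 50) (nat_lit 5) (nat_lit 51) (nat_lit 5) (nat_lit 411) (nat_lit 370)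 (nat_lit 239)) (XT.nd (nat_lit 78) (nat_lit 0) (nat_lit 0) (XT.lf (nat_lit 0) (nat_lit 1249996897) (nat_lit 152) (nat_lit 41560984022) (nat_lit 228) (nat_lit 16101582123) (nat_lit 46) (nat_lit 5) (nat_lit 48) (nat_lit 5) (nat_lit 49) (nat_lit 5) (nat_lit 412) (nat_lit 370) (nat_lit 238)) (XT.lf (nat_lit 0) (nat_lit 34773883247) (nat_lit 152) (nat_lit 23010715433) (nat_lit 228) (nat_lit 3083506987) (nat_lit 46) (nat_lit 5) (nat_lit 48) (nat_lit 5) (nat_lit 49) (nat_lit 5) (nat_lit 413) (nat_lit 370) (nat_lit 237))))) (XT.nd (nat_lit 234) (nat_lit 304) (nat_lit 0) (XT.nd (nat_lit 78) (nat_lit 152) (nat_lit 0) (XT.lf (nat_lit 0) (nat_lit 7109813962) (nat_lit 152) (nat_lit 3244868075) (nat_lit 228) (nat_lit 52553080270) (nat_lit 43) (nat_lit 5) (nat_lit 45) (nat_lit 5) (nat_lit 46) (nat_lit 5) (nat_lit 414) (nat_lit 370) (nat_lit 236)) (XT.nd (nat_lit 78) (nat_lit 152) (nat_lit 0) (XT.lf (nat_lit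 0) (nat_lit 25080727500) (nat_lit 228) (nat_lit 22483532998) (nat_lit 76) (nat_lit 17446636016) (nat_lit 43) (nat_lit 5) (nat_lit 46) (nat_lit 5) (nat_lit 44) (nat_lit 5) (nat_lit 415) (nat_lit 370) (nat_lit 235)) (XT.lf (nat_lit 0) (nat_lit 12849876160) (nat_lit 152) (nat_lit 27944198494) (nat_lit 228) (nat_lit 26412563618) (nat_lit 41) (nat_lit 5) (nat_lit 43) (nat_lit 5) (nat_lit 44) (nat_lit 5) (nat_lit 416) (nat_lit 370) (nat_lit 234)))) (XT.nd (nat_lit 156) (nat_lit 152) (nat_lit 0) (XT.nd (nat_lit 78) (nat_lit 152) (nat_lit 0) (XT.lf (nat_lit 0) (nat_lit 50725802148) (nat_lit 152) (nat_lit 6945299120) (nat_lit 228) (nat_lit 11822166017) (nat_lit 41) (nat_lit 5) (nat_lit 43) (nat_lit 5) (nat_lit 44) (nat_lit 5) (nat_lit 417) (nat_lit 370) (nat_lit 233)) (XT.lf (nat_lit 0) (nat_lit 3923774286) (nat_lit 152) (nat_lit 52963077259) (nat_lit 76) (nat_lit 14977747784) (nat_lit 39) (nat_lit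 5) (nat_lit 41) (nat_lit 5) (nat_lit 40) (nat_lit 5) (nat_lit 418) (nat_lit 370) (nat_lit 232))) (XT.nd (nat_lit 78) (nat_lit 152) (nat_lit 0) (XT.lf (nat_lit 0) (nat_lit 20493970108) (nat_lit 152) (nat_lit 15550579565) (nat_lit 76) (nat_lit 38278545628) (nat_lit 39) (nat_lit 5) (nat_lit 41) (nat_lit 5) (nat_lit 40) (nat_lit 5) (nat_lit 419) (nat_lit 370) (nat_lit 231)) (XT.lf (nat_lit 0) (nat_lit 24512700361) (nat_lit 152) (nat_lit 13760170080) (nat_lit 228) (nat_lit 38612636530) (nat_lit 37) (nat_lit 5) (nat_lit 39) (nat_lit 5) (nat_lit 40) (nat_lit 5) (nat_lit 420) (nat_lit 370) (nat_lit 230)))))) (XT.nd (nat_lit 468) (nat_lit 456) (nat_lit 0) (XT.nd (nat_lit 234) (nat_lit 228) (nat_lit 0) (XT.nd (nat_lit 78) (nat_lit 152) (nat_lit 0) (XT.lf (nat_lit 0) (nat_lit 57356378466) (nat_lit 228) (nat_lit 12603072170) (nat_lit 76) (nat_lit 9595806062) (nat_lit 37) (nat_lit 5) (nat_lit 40) (nat_lit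 5) (nat_lit 38) (nat_lit 4) (nat_lit 421) (nat_lit 370) (nat_lit 229)) (XT.nd (nat_lit 78) (nat_lit 76) (nat_lit 0) (XT.lf (nat_lit 0) (nat_lit 29881760270) (nat_lit 76) (nat_lit 48202040850) (nat_lit 152) (nat_lit 4240206405) (nat_lit 36) (nat_lit 5) (nat_lit 37) (nat_lit 5) (nat_lit 38) (nat_lit 4) (nat_lit 422) (nat_lit 370) (nat_lit 228)) (XT.lf (nat_lit 0) (nat_lit 14363155425) (nat_lit 152) (nat_lit 10528067217) (nat_lit 76) (nat_lit 60317835004) (nat_lit 35) (nat_lit 5) (nat_lit 37) (nat_lit 5) (nat_lit 36) (nat_lit 5) (nat_lit 423) (nat_lit 370) (nat_lit 227)))) (XT.nd (nat_lit 78) (nat_lit 76) (nat_lit 0) (XT.lf (nat_lit 0) (nat_lit 34294245098) (nat_lit 228) (nat_lit 53698609459) (nat_lit 76) (nat_lit 215027710) (nat_lit 33) (nat_lit 5) (nat_lit 36) (nat_lit 5) (nat_lit 34) (nat_lit 4) (nat_lit 424) (nat_lit 370) (nat_lit 226)) (XT.nd (nat_lit 78) (nat_lit 76) (nat_lit 0) (XT.lf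 (nat_lit 0) (nat_lit 55808928007) (nat_lit 228) (nat_lit 9598761629) (nat_lit 76) (nat_lit 25919607020) (nat_lit 33) (nat_lit 5) (nat_lit 36) (nat_lit 5) (nat_lit 34) (nat_lit 4) (nat_lit 425) (nat_lit 370) (nat_lit 225)) (XT.lf (nat_lit 0) (nat_lit 37915769317) (nat_lit 76) (nat_lit 41073418680) (nat_lit 152) (nat_lit 15584002073) (nat_lit 32) (nat_lit 5) (nat_lit 33) (nat_lit 5) (nat_lit 34) (nat_lit 4) (nat_lit 426) (nat_lit 370) (nat_lit 224))))) (XT.nd (nat_lit 234) (nat_lit 228) (nat_lit 0) (XT.nd (nat_lit 78) (nat_lit 152) (nat_lit 0) (XT.lf (nat_lit 0) (nat_lit 5339046479) (nat_lit 152) (nat_lit 9923983001) (nat_lit 76) (nat_lit 82706019751) (nat_lit 31) (nat_lit 5) (nat_lit 33) (nat_lit 5) (nat_lit 32) (nat_lit 5) (nat_lit 427) (nat_lit 370) (nat_lit 223)) (XT.nd (nat_lit 78) (nat_lit 0) (nat_lit 0) (XT.lf (nat_lit 0) (nat_lit 27608979052) (nat_lit 228) (nat_lit 61517180474) (nat_lit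 76) (nat_lit 12354545630) (nat_lit 29) (nat_lit 5) (nat_lit 32) (nat_lit 5) (nat_lit 30) (nat_lit 4) (nat_lit 428) (nat_lit 370) (nat_lit 222)) (XT.lf (nat_lit 0) (nat_lit 51411438799) (nat_lit 228) (nat_lit 12726253176) (nat_lit 76) (nat_lit 41009300746) (nat_lit 29) (nat_lit 5) (nat_lit 32) (nat_lit 5) (nat_lit 30) (nat_lit 4) (nat_lit 429) (nat_lit 370) (nat_lit 221)))) (XT.nd (nat_lit 156) (nat_lit 152) (nat_lit 0) (XT.nd (nat_lit 78) (nat_lit 0) (nat_lit 0) (XT.lf (nat_lit 0) (nat_lit 39773713516) (nat_lit 76) (nat_lit 37249376949) (nat_lit 152) (nat_lit 31942551107) (nat_lit 28) (nat_lit 5) (nat_lit 29) (nat_lit 5) (nat_lit 30) (nat_lit 4) (nat_lit 430) (nat_lit 370) (nat_lit 220)) (XT.lf (nat_lit 0) (nat_lit 95337047806) (nat_lit 76) (nat_lit 8791928944) (nat_lit 152) (nat_lit 8835563852) (nat_lit 28) (nat_lit 5) (nat_lit 29) (nat_lit 5) (nat_lit 30) (nat_lit 4) (nat_lit 431) (nat_lit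 370) (nat_lit 219))) (XT.nd (nat_lit 78) (nat_lit 0) (nat_lit 0) (XT.lf (nat_lit 0) (nat_lit 15858985252) (nat_lit 152) (nat_lit 79994708216) (nat_lit 76) (nat_lit 21251350384) (nat_lit 26) (nat_lit 5) (nat_lit 28) (nat_lit 5) (nat_lit 27) (nat_lit 4) (nat_lit 432) (nat_lit 370) (nat_lit 218)) (XT.lf (nat_lit 0) (nat_lit 41937080508) (nat_lit 152) (nat_lit 26537837297) (nat_lit 76) (nat_lit 52948124908) (nat_lit 26) (nat_lit 5) (nat_lit 28) (nat_lit 5) (nat_lit 27) (nat_lit 4) (nat_lit 433) (nat_lit 370) (nat_lit 217))))))))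
noncomputable def xc170 : XT := (XT.nd (nat_lit 1950) (nat_lit 380) (nat_lit 0) (XT.nd (nat_lit 936) (nat_lit 532) (nat_lit 0) (XT.nd (nat_lit 468) (nat_lit 228) (nat_lit 0) (XT.nd (nat_lit 234) (nat_lit 152) (nat_lit 0) (XT.nd (nat_lit 78) (nat_lit 76) (nat_lit 0) (XT.lf (nat_lit 0) (nat_lit 30567007987) (nat_lit 76) (nat_lit 39227592568) (nat_lit 152) (nat_lit 56138565235) (nat_lit 25) (nat_lit 5) (nat_lit 26) (nat_lit 5) (nat_lit 27) (nat_lit 4) (nat_lit 434) (nat_lit 370) (nat_lit 216)) (XT.nd (nat_lit 78) (nat_lit 76) (nat_lit 0) (XT.lf (nat_lit 0) (nat_lit 91445276675) (nat_lit 76) (nat_lit 8047466940) (nat_lit 152) (nat_lit 31153664321) (nat_lit 25) (nat_lit 5) (nat_lit 26) (nat_lit 5) (nat_lit 27) (nat_lit 4) (nat_lit 435) (nat_lit 370) (nat_lit 215)) (XT.lf (nat_lit 0) (nat_lit 20024488058) (nat_lit 76) (nat_lit 111347824489) (nat_lit 76) (nat_lit 4188173959) (nat_lit 24) (nat_lit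 4) (nat_lit 25) (nat_lit 5) (nat_lit 25) (nat_lit 4) (nat_lit 436) (nat_lit 370) (nat_lit 214)))) (XT.nd (nat_lit 78) (nat_lit 76) (nat_lit 0) (XT.lf (nat_lit 0) (nat_lit 24158498865) (nat_lit 152) (nat_lit 57637254221) (nat_lit 76) (nat_lit 58865428865) (nat_lit 23) (nat_lit 5) (nat_lit 25) (nat_lit 5) (nat_lit 24) (nat_lit 4) (nat_lit 437) (nat_lit 370) (nat_lit 213)) (XT.nd (nat_lit 78) (nat_lit 0) (nat_lit 0) (XT.lf (nat_lit 0) (nat_lit 3186848038) (nat_lit 76) (nat_lit 50643118301) (nat_lit 152) (nat_lit 92181102561) (nat_lit 22) (nat_lit 5) (nat_lit 23) (nat_lit 5) (nat_lit 24) (nat_lit 4) (nat_lit 438) (nat_lit 370) (nat_lit 212)) (XT.lf (nat_lit 0) (nat_lit 69050318192) (nat_lit 76) (nat_lit 16909287973) (nat_lit 152) (nat_lit 65620114290) (nat_lit 22) (nat_lit 5) (nat_lit 23) (nat_lit 5) (nat_lit 24) (nat_lit 4) (nat_lit 439) (nat_lit 370) (nat_lit 211))))) (XT.nd (nat_lit 234)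 (nat_lit 76) (nat_lit 0) (XT.nd (nat_lit 78) (nat_lit 152) (nat_lit 0) (XT.lf (nat_lit 0) (nat_lit 119983276417) (nat_lit 152) (nat_lit 19511642928) (nat_lit 0) (nat_lit 17917508019) (nat_lit 22) (nat_lit 5) (nat_lit 24) (nat_lit 4) (nat_lit 22) (nat_lit 4) (nat_lit 440) (nat_lit 370) (nat_lit 210)) (XT.nd (nat_lit 78) (nat_lit 76) (nat_lit 0) (XT.lf (nat_lit 0) (nat_lit 47910585686) (nat_lit 76) (nat_lit 108821370349) (nat_lit 76) (nat_lit 6753622477) (nat_lit 21) (nat_lit 4) (nat_lit 22) (nat_lit 5) (nat_lit 22) (nat_lit 4) (nat_lit 441) (nat_lit 370) (nat_lit 209)) (XT.lf (nat_lit 0) (nat_lit 24975406646) (nat_lit 152) (nat_lit 50870049460) (nat_lit 76) (nat_lit 93980336303) (nat_lit 20) (nat_lit 5) (nat_lit 22) (nat_lit 5) (nat_lit 21) (nat_lit 4) (nat_lit 442) (nat_lit 370) (nat_lit 208)))) (XT.nd (nat_lit 78) (nat_lit 0) (nat_lit 0) (XT.lf (nat_lit 0) (nat_lit 17517565508) (nat_lit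 76) (nat_lit 40818529142) (nat_lit 152) (nat_lit 118127778085) (nat_lit 19) (nat_lit 5) (nat_lit 20) (nat_lit 5) (nat_lit 21) (nat_lit 4) (nat_lit 443) (nat_lit 370) (nat_lit 207)) (XT.nd (nat_lit 78) (nat_lit 0) (nat_lit 0) (XT.lf (nat_lit 0) (nat_lit 91088163374) (nat_lit 76) (nat_lit 3136861916) (nat_lit 152) (nat_lit 89165821531) (nat_lit 19) (nat_lit 5) (nat_lit 20) (nat_lit 5) (nat_lit 21) (nat_lit 4) (nat_lit 444) (nat_lit 370) (nat_lit 206)) (XT.lf (nat_lit 0) (nat_lit 132475903072) (nat_lit 152) (nat_lit 22898052382) (nat_lit 0) (nat_lit 35261839273) (nat_lit 19) (nat_lit 5) (nat_lit 21) (nat_lit 4) (nat_lit 19) (nat_lit 4) (nat_lit 445) (nat_lit 370) (nat_lit 205)))))) (XT.nd (nat_lit 468) (nat_lit 228) (nat_lit 0) (XT.nd (nat_lit 234) (nat_lit 152) (nat_lit 0) (XT.nd (nat_lit 78) (nat_lit 76) (nat_lit 0) (XT.lf (nat_lit 0) (nat_lit 51573767131) (nat_lit 76) (nat_lit 121920996015)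 (nat_lit 76) (nat_lit 24705455102) (nat_lit 18) (nat_lit 4) (nat_lit 19) (nat_lit 5) (nat_lit 19) (nat_lit 4) (nat_lit 446) (nat_lit 370) (nat_lit 204)) (XT.nd (nat_lit 78) (nat_lit 0) (nat_lit 0) (XT.lf (nat_lit 0) (nat_lit 10481096122) (nat_lit 152) (nat_lit 75730700638) (nat_lit 76) (nat_lit 119903283091) (nat_lit 17) (nat_lit 5) (nat_lit 19) (nat_lit 5) (nat_lit 18) (nat_lit 4) (nat_lit 447) (nat_lit 370) (nat_lit 203)) (XT.lf (nat_lit 0) (nat_lit 46595572117) (nat_lit 152) (nat_lit 1697364632) (nat_lit 76) (nat_lit 166112554407) (nat_lit 17) (nat_lit 5) (nat_lit 19) (nat_lit 5) (nat_lit 18) (nat_lit 4) (nat_lit 448) (nat_lit 370) (nat_lit 202)))) (XT.nd (nat_lit 78) (nat_lit 76) (nat_lit 0) (XT.lf (nat_lit 0) (nat_lit 78549626744) (nat_lit 76) (nat_lit 7191441648) (nat_lit 152) (nat_lit 137308089927) (nat_lit 16) (nat_lit 5) (nat_lit 17) (nat_lit 5) (nat_lit 18) (nat_lit 4) (nat_lit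 449) (nat_lit 370) (nat_lit 201)) (XT.nd (nat_lit 78) (nat_lit 76) (nat_lit 0) (XT.lf (nat_lit 0) (nat_lit 127433493515) (nat_lit 152) (nat_lit 69819757014) (nat_lit 0) (nat_lit 34842275719) (nat_lit 16) (nat_lit 5) (nat_lit 18) (nat_lit 4) (nat_lit 16) (nat_lit 4) (nat_lit 450) (nat_lit 370) (nat_lit 200)) (XT.lf (nat_lit 0) (nat_lit 8754312033) (nat_lit 76) (nat_lit 162709771745) (nat_lit 76) (nat_lit 70117451704) (nat_lit 15) (nat_lit 4) (nat_lit 16) (nat_lit 5) (nat_lit 16) (nat_lit 4) (nat_lit 451) (nat_lit 370) (nat_lit 199))))) (XT.nd (nat_lit 234) (nat_lit 76) (nat_lit 0) (XT.nd (nat_lit 78) (nat_lit 152) (nat_lit 0) (XT.lf (nat_lit 0) (nat_lit 93679106597) (nat_lit 76) (nat_lit 125198518697) (nat_lit 76) (nat_lit 32605148898) (nat_lit 15) (nat_lit 4) (nat_lit 16) (nat_lit 5) (nat_lit 16) (nat_lit 4) (nat_lit 452) (nat_lit 370) (nat_lit 198)) (XT.nd (nat_lit 78) (nat_lit 76) (nat_lit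 0) (XT.lf (nat_lit 0) (nat_lit 6564700669) (nat_lit 152) (nat_lit 79136733195) (nat_lit 76) (nat_lit 176172395033) (nat_lit 14) (nat_lit 5) (nat_lit 16) (nat_lit 5) (nat_lit 15) (nat_lit 4) (nat_lit 453) (nat_lit 370) (nat_lit 197)) (XT.lf (nat_lit 0) (nat_lit 3024013942) (nat_lit 76) (nat_lit 43619564433) (nat_lit 152) (nat_lit 226111818391) (nat_lit 13) (nat_lit 5) (nat_lit 14) (nat_lit 5) (nat_lit 15) (nat_lit 4) (nat_lit 454) (nat_lit 370) (nat_lit 196)))) (XT.nd (nat_lit 156) (nat_lit 76) (nat_lit 0) (XT.nd (nat_lit 78) (nat_lit 0) (nat_lit 0) (XT.lf (nat_lit 0) (nat_lit 90096504815) (nat_lit 152) (nat_lit 192106412572) (nat_lit 0) (nat_lit 1909620483) (nat_lit 13) (nat_lit 5) (nat_lit 15) (nat_lit 4) (nat_lit 13) (nat_lit 4) (nat_lit 455) (nat_lit 370) (nat_lit 195)) (XT.lf (nat_lit 0) (nat_lit 136436268697) (nat_lit 152) (nat_lit 111316996000) (nat_lit 0) (nat_lit 48248561853) (nat_lit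 13) (nat_lit 5) (nat_lit 15) (nat_lit 4) (nat_lit 13) (nat_lit 4) (nat_lit 456) (nat_lit 370) (nat_lit 194))) (XT.nd (nat_lit 78) (nat_lit 76) (nat_lit 0) (XT.lf (nat_lit 0) (nat_lit 185092179150) (nat_lit 152) (nat_lit 26489753709) (nat_lit 0) (nat_lit 96903688960) (nat_lit 13) (nat_lit 5) (nat_lit 15) (nat_lit 4) (nat_lit 13) (nat_lit 4) (nat_lit 457) (nat_lit 370) (nat_lit 193)) (XT.lf (nat_lit 0) (nat_lit 64646371537) (nat_lit 76) (nat_lit 172543023072) (nat_lit 76) (nat_lit 84353786840) (nat_lit 12) (nat_lit 4) (nat_lit 13) (nat_lit 5) (nat_lit 13) (nat_lit 4) (nat_lit 458) (nat_lit 370) (nat_lit 192))))))) (XT.nd (nat_lit 1014) (nat_lit 0) (nat_lit 0) (XT.nd (nat_lit 468) (nat_lit 228) (nat_lit 0) (XT.nd (nat_lit 234) (nat_lit 0) (nat_lit 0) (XT.nd (nat_lit 78) (nat_lit 152) (nat_lit 0) (XT.lf (nat_lit 0) (nat_lit 161257425978) (nat_lit 76) (nat_lit 131081874216) (nat_lit 76) (nat_lit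 42891927466) (nat_lit 12) (nat_lit 4) (nat_lit 13) (nat_lit 5) (nat_lit 13) (nat_lit 4) (nat_lit 459) (nat_lit 370) (nat_lit 191)) (XT.nd (nat_lit 78) (nat_lit 76) (nat_lit 0) (XT.lf (nat_lit 0) (nat_lit 621681759) (nat_lit 152) (nat_lit 86916175824) (nat_lit 76) (nat_lit 262065354803) (nat_lit 11) (nat_lit 5) (nat_lit 13) (nat_lit 5) (nat_lit 12) (nat_lit 4) (nat_lit 460) (nat_lit 370) (nat_lit 190)) (XT.lf (nat_lit 0) (nat_lit 3915069395) (nat_lit 76) (nat_lit 41014851232) (nat_lit 152) (nat_lit 319725698503) (nat_lit 10) (nat_lit 5) (nat_lit 11) (nat_lit 5) (nat_lit 12) (nat_lit 4) (nat_lit 461) (nat_lit 370) (nat_lit 189)))) (XT.nd (nat_lit 78) (nat_lit 0) (nat_lit 0) (XT.lf (nat_lit 0) (nat_lit 93071261021) (nat_lit 152) (nat_lit 278229507996) (nat_lit 0) (nat_lit 9078992770) (nat_lit 10) (nat_lit 5) (nat_lit 12) (nat_lit 4) (nat_lit 10) (nat_lit 4) (nat_lit 462) (nat_lit 370) (nat_lit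 188)) (XT.nd (nat_lit 78) (nat_lit 0) (nat_lit 0) (XT.lf (nat_lit 0) (nat_lit 144291353530) (nat_lit 152) (nat_lit 192266645274) (nat_lit 0) (nat_lit 60298528570) (nat_lit 10) (nat_lit 5) (nat_lit 12) (nat_lit 4) (nat_lit 10) (nat_lit 4) (nat_lit 463) (nat_lit 370) (nat_lit 187)) (XT.lf (nat_lit 0) (nat_lit 198071793984) (nat_lit 152) (nat_lit 102006931316) (nat_lit 0) (nat_lit 114078438826) (nat_lit 10) (nat_lit 5) (nat_lit 12) (nat_lit 4) (nat_lit 10) (nat_lit 4) (nat_lit 464) (nat_lit 370) (nat_lit 186))))) (XT.nd (nat_lit 234) (nat_lit 152) (nat_lit 0) (XT.nd (nat_lit 78) (nat_lit 76) (nat_lit 0) (XT.lf (nat_lit 0) (nat_lit 254540631052) (nat_lit 152) (nat_lit 7235462040) (nat_lit 0) (nat_lit 170546770942) (nat_lit 10) (nat_lit 5) (nat_lit 12) (nat_lit 4) (nat_lit 10) (nat_lit 4) (nat_lit 465) (nat_lit 370) (nat_lit 185)) (XT.nd (nat_lit 78) (nat_lit 0) (nat_lit 0) (XT.lf (nat_lit 0)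 (nat_lit 95324384524) (nat_lit 76) (nat_lit 219996210608) (nat_lit 76) (nat_lit 136001869592) (nat_lit 9) (nat_lit 4) (nat_lit 10) (nat_lit 5) (nat_lit 10) (nat_lit 4) (nat_lit 466) (nat_lit 370) (nat_lit 184)) (XT.lf (nat_lit 0) (nat_lit 203262269431) (nat_lit 76) (nat_lit 175999238772) (nat_lit 76) (nat_lit 92004439751) (nat_lit 9) (nat_lit 4) (nat_lit 10) (nat_lit 5) (nat_lit 10) (nat_lit 4) (nat_lit 467) (nat_lit 370) (nat_lit 183)))) (XT.nd (nat_lit 156) (nat_lit 76) (nat_lit 0) (XT.nd (nat_lit 78) (nat_lit 76) (nat_lit 0) (XT.lf (nat_lit 0) (nat_lit 316595950591) (nat_lit 76) (nat_lit 129802958941) (nat_lit 76) (nat_lit 45807723723) (nat_lit 9) (nat_lit 4) (nat_lit 10) (nat_lit 5) (nat_lit 10) (nat_lit 4) (nat_lit 468) (nat_lit 370) (nat_lit 182)) (XT.lf (nat_lit 0) (nat_lit 2611909157) (nat_lit 152) (nat_lit 78641236869) (nat_lit 76) (nat_lit 432939127000) (nat_lit 8) (nat_lit 5)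 (nat_lit 10) (nat_lit 5) (nat_lit 9) (nat_lit 4) (nat_lit 469) (nat_lit 370) (nat_lit 181))) (XT.nd (nat_lit 78) (nat_lit 0) (nat_lit 0) (XT.lf (nat_lit 0) (nat_lit 23166184569) (nat_lit 76) (nat_lit 29108074383) (nat_lit 152) (nat_lit 484947329795) (nat_lit 7) (nat_lit 5) (nat_lit 8) (nat_lit 5) (nat_lit 9) (nat_lit 4) (nat_lit 470) (nat_lit 370) (nat_lit 180)) (XT.lf (nat_lit 0) (nat_lit 106173252834) (nat_lit 152) (nat_lit 428964781706) (nat_lit 0) (nat_lit 26176659418) (nat_lit 7) (nat_lit 5) (nat_lit 9) (nat_lit 4) (nat_lit 7) (nat_lit 4) (nat_lit 471) (nat_lit 370) (nat_lit 179)))))) (XT.nd (nat_lit 45396) (nat_lit 0) (nat_lit 7904) (XT.nd (nat_lit 234) (nat_lit 0) (nat_lit 0) (XT.nd (nat_lit 78) (nat_lit 0) (nat_lit 0) (XT.lf (nat_lit 0) (nat_lit 163243889708) (nat_lit 152) (nat_lit 340097775571) (nat_lit 0) (nat_lit 83246954521) (nat_lit 7) (nat_lit 5) (nat_lit 9) (nat_lit 4) (nat_lit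 7) (nat_lit 4) (nat_lit 472) (nat_lit 370) (nat_lit 178)) (XT.nd (nat_lit 78) (nat_lit 0) (nat_lit 0) (XT.lf (nat_lit 0) (nat_lit 223167593425) (nat_lit 152) (nat_lit 246788339046) (nat_lit 0) (nat_lit 143170332742) (nat_lit 7) (nat_lit 5) (nat_lit 9) (nat_lit 4) (nat_lit 7) (nat_lit 4) (nat_lit 473) (nat_lit 370) (nat_lit 177)) (XT.lf (nat_lit 0) (nat_lit 286087039471) (nat_lit 152) (nat_lit 148814306805) (nat_lit 0) (nat_lit 206089468792) (nat_lit 7) (nat_lit 5) (nat_lit 9) (nat_lit 4) (nat_lit 7) (nat_lit 4) (nat_lit 474) (nat_lit 370) (nat_lit 176)))) (XT.nd (nat_lit 45006) (nat_lit 0) (nat_lit 7828) (XT.lf (nat_lit 0) (nat_lit 352152036051) (nat_lit 152) (nat_lit 45942407345) (nat_lit 0) (nat_lit 272154170138) (nat_lit 7) (nat_lit 5) (nat_lit 9) (nat_lit 4) (nat_lit 7) (nat_lit 4) (nat_lit 475) (nat_lit 370) (nat_lit 175)) (XT.nd (nat_lit 78) (nat_lit 0) (nat_lit 0) (XT.lf (nat_lit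 0) (nat_lit 803345027) (nat_lit 836) (nat_lit 4247756598) (nat_lit 836) (nat_lit 4247756598) (nat_lit 110) (nat_lit 3) (nat_lit 121) (nat_lit 3) (nat_lit 121) (nat_lit 5) (nat_lit 371) (nat_lit 371) (nat_lit 278)) (XT.lf (nat_lit 76) (nat_lit 482089231) (nat_lit 0) (nat_lit 1358938128) (nat_lit 836) (nat_lit 17211791699) (nat_lit 111) (nat_lit 5) (nat_lit 110) (nat_lit 3) (nat_lit 121) (nat_lit 5) (nat_lit 372) (nat_lit 371) (nat_lit 277))))) (XT.nd (nat_lit 234) (nat_lit 0) (nat_lit 76) (XT.nd (nat_lit 78) (nat_lit 0) (nat_lit 0) (XT.lf (nat_lit 0) (nat_lit 2343469298) (nat_lit 760) (nat_lit 9451622147) (nat_lit 836) (nat_lit 7722774405) (nat_lit 111) (nat_lit 5) (nat_lit 121) (nat_lit 5) (nat_lit 122) (nat_lit 5) (nat_lit 373) (nat_lit 371) (nat_lit 276)) (XT.nd (nat_lit 78) (nat_lit 0) (nat_lit 76) (XT.lf (nat_lit 76) (nat_lit 97442052) (nat_lit 0) (nat_lit 2785998050) (nat_lit 836) (nat_lit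 17122112575) (nat_lit 112) (nat_lit 5) (nat_lit 111) (nat_lit 5) (nat_lit 122) (nat_lit 5) (nat_lit 374) (nat_lit 371) (nat_lit 275)) (XT.lf (nat_lit 0) (nat_lit 3706405261) (nat_lit 760) (nat_lit 10171689881) (nat_lit 836) (nat_lit 6626736564) (nat_lit 112) (nat_lit 5) (nat_lit 122) (nat_lit 5) (nat_lit 123) (nat_lit 5) (nat_lit 375) (nat_lit 371) (nat_lit 274)))) (XT.nd (nat_lit 156) (nat_lit 0) (nat_lit 76) (XT.nd (nat_lit 78) (nat_lit 0) (nat_lit 76) (XT.lf (nat_lit 0) (nat_lit 4605820434) (nat_lit 760) (nat_lit 1121137) (nat_lit 836) (nat_lit 16420375317) (nat_lit 112) (nat_lit 5) (nat_lit 122) (nat_lit 5) (nat_lit 123) (nat_lit 5) (nat_lit 376) (nat_lit 371) (nat_lit 273)) (XT.lf (nat_lit 0) (nat_lit 5795378287) (nat_lit 760) (nat_lit 10626601627) (nat_lit 836) (nat_lit 5141694759) (nat_lit 113) (nat_lit 5) (nat_lit 123) (nat_lit 5) (nat_lit 124) (nat_lit 5) (nat_lit 377) (nat_lit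 371) (nat_lit 272))) (XT.nd (nat_lit 78) (nat_lit 0) (nat_lit 76) (XT.lf (nat_lit 76) (nat_lit 219789046) (nat_lit 0) (nat_lit 6894136848) (nat_lit 836) (nat_lit 15009455470) (nat_lit 114) (nat_lit 5) (nat_lit 113) (nat_lit 5) (nat_lit 124) (nat_lit 5) (nat_lit 378) (nat_lit 371) (nat_lit 271)) (XT.lf (nat_lit 0) (nat_lit 8720787798) (nat_lit 760) (nat_lit 10783621451) (nat_lit 836) (nat_lit 3195551091) (nat_lit 114) (nat_lit 5) (nat_lit 124) (nat_lit 5) (nat_lit 125) (nat_lit 5) (nat_lit 379) (nat_lit 371) (nat_lit 270))))))))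
noncomputable def xc171 : XT := (XT.nd (nat_lit 1950) (nat_lit 2280) (nat_lit 0) (XT.nd (nat_lit 936) (nat_lit 2052) (nat_lit 0) (XT.nd (nat_lit 468) (nat_lit 1064) (nat_lit 0) (XT.nd (nat_lit 234) (nat_lit 380) (nat_lit 0) (XT.nd (nat_lit 78) (nat_lit 684) (nat_lit 0) (XT.lf (nat_lit 76) (nat_lit 797748314) (nat_lit 0) (nat_lit 9727063587) (nat_lit 836) (nat_lit 12774721404) (nat_lit 115) (nat_lit 5) (nat_lit 114) (nat_lit 5) (nat_lit 125) (nat_lit 5) (nat_lit 380) (nat_lit 371) (nat_lit 269)) (XT.nd (nat_lit 78) (nat_lit 760) (nat_lit 0) (XT.lf (nat_lit 0) (nat_lit 12604743902) (nat_lit 760) (nat_lit 10606239183) (nat_lit 76) (nat_lit 708822209) (nat_lit 115) (nat_lit 5) (nat_lit 125) (nat_lit 5) (nat_lit 116) (nat_lit 5) (nat_lit 381) (nat_lit 371) (nat_lit 268)) (XT.lf (nat_lit 0) (nat_lit 1774324155) (nat_lit 760) (nat_lit 13193576623) (nat_lit 836) (nat_lit 9594234130) (nat_lit 105)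 (nat_lit 5) (nat_lit 115) (nat_lit 5) (nat_lit 116) (nat_lit 5) (nat_lit 382) (nat_lit 371) (nat_lit 267)))) (XT.nd (nat_lit 78) (nat_lit 380) (nat_lit 0) (XT.lf (nat_lit 0) (nat_lit 15135165522) (nat_lit 760) (nat_lit 2486006723) (nat_lit 836) (nat_lit 7606816098) (nat_lit 105) (nat_lit 5) (nat_lit 115) (nat_lit 5) (nat_lit 116) (nat_lit 5) (nat_lit 383) (nat_lit 371) (nat_lit 266)) (XT.nd (nat_lit 78) (nat_lit 0) (nat_lit 0) (XT.lf (nat_lit 0) (nat_lit 3195445437) (nat_lit 380) (nat_lit 17390982328) (nat_lit 456) (nat_lit 5331745594) (nat_lit 100) (nat_lit 5) (nat_lit 105) (nat_lit 5) (nat_lit 106) (nat_lit 5) (nat_lit 384) (nat_lit 371) (nat_lit 265)) (XT.lf (nat_lit 0) (nat_lit 17449515796) (nat_lit 380) (nat_lit 6454403461) (nat_lit 456) (nat_lit 2728754407) (nat_lit 100) (nat_lit 5) (nat_lit 105) (nat_lit 5) (nat_lit 106) (nat_lit 5) (nat_lit 385) (nat_lit 371) (nat_lit 264))))) (XT.nd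 (nat_lit 234) (nat_lit 304) (nat_lit 0) (XT.nd (nat_lit 78) (nat_lit 380) (nat_lit 0) (XT.lf (nat_lit 0) (nat_lit 158336846) (nat_lit 380) (nat_lit 22266324234) (nat_lit 76) (nat_lit 4950534197) (nat_lit 95) (nat_lit 5) (nat_lit 100) (nat_lit 5) (nat_lit 96) (nat_lit 5) (nat_lit 386) (nat_lit 371) (nat_lit 263)) (XT.nd (nat_lit 78) (nat_lit 380) (nat_lit 0) (XT.lf (nat_lit 0) (nat_lit 3355349211) (nat_lit 380) (nat_lit 7872873945) (nat_lit 76) (nat_lit 16911523659) (nat_lit 95) (nat_lit 5) (nat_lit 100) (nat_lit 5) (nat_lit 96) (nat_lit 5) (nat_lit 387) (nat_lit 371) (nat_lit 262)) (XT.lf (nat_lit 0) (nat_lit 6832737522) (nat_lit 456) (nat_lit 21474437717) (nat_lit 76) (nat_lit 629328288) (nat_lit 90) (nat_lit 5) (nat_lit 96) (nat_lit 5) (nat_lit 91) (nat_lit 5) (nat_lit 388) (nat_lit 371) (nat_lit 261)))) (XT.nd (nat_lit 78) (nat_lit 304) (nat_lit 0) (XT.lf (nat_lit 0) (nat_lit 10797475060)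 (nat_lit 456) (nat_lit 6122497319) (nat_lit 76) (nat_lit 12837455388) (nat_lit 90) (nat_lit 5) (nat_lit 96) (nat_lit 5) (nat_lit 91) (nat_lit 5) (nat_lit 389) (nat_lit 371) (nat_lit 260)) (XT.nd (nat_lit 78) (nat_lit 0) (nat_lit 0) (XT.lf (nat_lit 0) (nat_lit 10320806786) (nat_lit 304) (nat_lit 4794964071) (nat_lit 380) (nat_lit 15495864797) (nat_lit 86) (nat_lit 5) (nat_lit 90) (nat_lit 5) (nat_lit 91) (nat_lit 5) (nat_lit 390) (nat_lit 371) (nat_lit 259)) (XT.lf (nat_lit 0) (nat_lit 19873624477) (nat_lit 380) (nat_lit 3836872022) (nat_lit 76) (nat_lit 7786878624) (nat_lit 86) (nat_lit 5) (nat_lit 91) (nat_lit 5) (nat_lit 87) (nat_lit 5) (nat_lit 391) (nat_lit 371) (nat_lit 258)))))) (XT.nd (nat_lit 468) (nat_lit 912) (nat_lit 0) (XT.nd (nat_lit 234) (nat_lit 532) (nat_lit 0) (XT.nd (nat_lit 78) (nat_lit 304) (nat_lit 0) (XT.lf (nat_lit 0) (nat_lit 13796335850) (nat_lit 304) (nat_lit 11361657489)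 (nat_lit 380) (nat_lit 7254980277) (nat_lit 82) (nat_lit 5) (nat_lit 86) (nat_lit 5) (nat_lit 87) (nat_lit 5) (nat_lit 392) (nat_lit 371) (nat_lit 257)) (XT.nd (nat_lit 78) (nat_lit 304) (nat_lit 0) (XT.lf (nat_lit 0) (nat_lit 30792435944) (nat_lit 380) (nat_lit 959363093) (nat_lit 76) (nat_lit 1618263262) (nat_lit 82) (nat_lit 5) (nat_lit 87) (nat_lit 5) (nat_lit 83) (nat_lit 5) (nat_lit 393) (nat_lit 371) (nat_lit 256)) (XT.lf (nat_lit 0) (nat_lit 2728192520) (nat_lit 304) (nat_lit 16432713465) (nat_lit 76) (nat_lit 15188816134) (nat_lit 78) (nat_lit 5) (nat_lit 82) (nat_lit 5) (nat_lit 79) (nat_lit 5) (nat_lit 394) (nat_lit 371) (nat_lit 255)))) (XT.nd (nat_lit 78) (nat_lit 228) (nat_lit 0) (XT.lf (nat_lit 0) (nat_lit 2421631433) (nat_lit 304) (nat_lit 5840435239) (nat_lit 380) (nat_lit 27111718592) (nat_lit 74) (nat_lit 5) (nat_lit 78) (nat_lit 5) (nat_lit 79) (nat_lit 5) (nat_lit 395)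 (nat_lit 371) (nat_lit 254)) (XT.nd (nat_lit 78) (nat_lit 228) (nat_lit 0) (XT.lf (nat_lit 0) (nat_lit 14477858913) (nat_lit 380) (nat_lit 13784106727) (nat_lit 76) (nat_lit 8166827199) (nat_lit 74) (nat_lit 5) (nat_lit 79) (nat_lit 5) (nat_lit 75) (nat_lit 5) (nat_lit 396) (nat_lit 371) (nat_lit 253)) (XT.lf (nat_lit 0) (nat_lit 6446817062) (nat_lit 228) (nat_lit 14749434175) (nat_lit 304) (nat_lit 16330711405) (nat_lit 71) (nat_lit 5) (nat_lit 74) (nat_lit 5) (nat_lit 75) (nat_lit 5) (nat_lit 397) (nat_lit 371) (nat_lit 252))))) (XT.nd (nat_lit 234) (nat_lit 608) (nat_lit 0) (XT.nd (nat_lit 78) (nat_lit 304) (nat_lit 0) (XT.lf (nat_lit 0) (nat_lit 28161819561) (nat_lit 228) (nat_lit 317721326) (nat_lit 304) (nat_lit 10189053422) (nat_lit 71) (nat_lit 5) (nat_lit 74) (nat_lit 5) (nat_lit 75) (nat_lit 5) (nat_lit 398) (nat_lit 371) (nat_lit 251)) (XT.nd (nat_lit 78) (nat_lit 76) (nat_lit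 0) (XT.lf (nat_lit 0) (nat_lit 11216719406) (nat_lit 228) (nat_lit 25312751519) (nat_lit 304) (nat_lit 3317714991) (nat_lit 68) (nat_lit 5) (nat_lit 71) (nat_lit 5) (nat_lit 72) (nat_lit 5) (nat_lit 399) (nat_lit 371) (nat_lit 250)) (XT.lf (nat_lit 0) (nat_lit 3954287623) (nat_lit 304) (nat_lit 6759593725) (nat_lit 76) (nat_lit 30358693820) (nat_lit 67) (nat_lit 5) (nat_lit 71) (nat_lit 5) (nat_lit 68) (nat_lit 5) (nat_lit 400) (nat_lit 371) (nat_lit 249)))) (XT.nd (nat_lit 156) (nat_lit 380) (nat_lit 0) (XT.nd (nat_lit 78) (nat_lit 0) (nat_lit 0) (XT.lf (nat_lit 0) (nat_lit 11811949446) (nat_lit 304) (nat_lit 25742319543) (nat_lit 76) (nat_lit 4785569511) (nat_lit 64) (nat_lit 5) (nat_lit 68) (nat_lit 5) (nat_lit 65) (nat_lit 5) (nat_lit 401) (nat_lit 371) (nat_lit 248)) (XT.lf (nat_lit 0) (nat_lit 20350534181) (nat_lit 304) (nat_lit 2490857607) (nat_lit 76) (nat_lit 20814672990) (nat_lit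 64) (nat_lit 5) (nat_lit 68) (nat_lit 5) (nat_lit 65) (nat_lit 5) (nat_lit 402) (nat_lit 371) (nat_lit 247))) (XT.nd (nat_lit 78) (nat_lit 152) (nat_lit 0) (XT.lf (nat_lit 0) (nat_lit 22642382211) (nat_lit 228) (nat_lit 7023413897) (nat_lit 304) (nat_lit 15354820551) (nat_lit 61) (nat_lit 5) (nat_lit 64) (nat_lit 5) (nat_lit 65) (nat_lit 5) (nat_lit 403) (nat_lit 371) (nat_lit 246)) (XT.lf (nat_lit 0) (nat_lit 2594608044) (nat_lit 152) (nat_lit 37081558176) (nat_lit 228) (nat_lit 6765764265) (nat_lit 59) (nat_lit 5) (nat_lit 61) (nat_lit 5) (nat_lit 62) (nat_lit 5) (nat_lit 404) (nat_lit 371) (nat_lit 245))))))) (XT.nd (nat_lit 1014) (nat_lit 912) (nat_lit 0) (XT.nd (nat_lit 468) (nat_lit 684) (nat_lit 0) (XT.nd (nat_lit 234) (nat_lit 380) (nat_lit 0) (XT.nd (nat_lit 78) (nat_lit 228) (nat_lit 0) (XT.lf (nat_lit 0) (nat_lit 2677314565) (nat_lit 228) (nat_lit 18484463852) (nat_lit 76) (nat_lit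 26745940878) (nat_lit 58) (nat_lit 5) (nat_lit 61) (nat_lit 5) (nat_lit 59) (nat_lit 5) (nat_lit 405) (nat_lit 371) (nat_lit 244)) (XT.nd (nat_lit 78) (nat_lit 0) (nat_lit 0) (XT.lf (nat_lit 0) (nat_lit 8295812635) (nat_lit 228) (nat_lit 4195390667) (nat_lit 304) (nat_lit 36943748421) (nat_lit 55) (nat_lit 5) (nat_lit 58) (nat_lit 5) (nat_lit 59) (nat_lit 5) (nat_lit 406) (nat_lit 371) (nat_lit 243)) (XT.lf (nat_lit 0) (nat_lit 23323162209) (nat_lit 304) (nat_lit 14189205076) (nat_lit 76) (nat_lit 13499811022) (nat_lit 55) (nat_lit 5) (nat_lit 59) (nat_lit 5) (nat_lit 56) (nat_lit 5) (nat_lit 407) (nat_lit 371) (nat_lit 242)))) (XT.nd (nat_lit 78) (nat_lit 228) (nat_lit 0) (XT.lf (nat_lit 0) (nat_lit 14498357478) (nat_lit 152) (nat_lit 20490226885) (nat_lit 228) (nat_lit 17665089850) (nat_lit 53) (nat_lit 5) (nat_lit 55) (nat_lit 5) (nat_lit 56) (nat_lit 5) (nat_lit 408) (nat_lit 371) (nat_lit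 241)) (XT.nd (nat_lit 78) (nat_lit 228) (nat_lit 0) (XT.lf (nat_lit 0) (nat_lit 45107868807) (nat_lit 152) (nat_lit 2366515288) (nat_lit 228) (nat_lit 6891006696) (nat_lit 53) (nat_lit 5) (nat_lit 55) (nat_lit 5) (nat_lit 56) (nat_lit 5) (nat_lit 409) (nat_lit 371) (nat_lit 240)) (XT.lf (nat_lit 0) (nat_lit 4882874229) (nat_lit 228) (nat_lit 34703331421) (nat_lit 76) (nat_lit 16542905903) (nat_lit 50) (nat_lit 5) (nat_lit 53) (nat_lit 5) (nat_lit 51) (nat_lit 5) (nat_lit 410) (nat_lit 371) (nat_lit 239))))) (XT.nd (nat_lit 234) (nat_lit 380) (nat_lit 0) (XT.nd (nat_lit 78) (nat_lit 304) (nat_lit 0) (XT.lf (nat_lit 0) (nat_lit 17208962518) (nat_lit 228) (nat_lit 4167818796) (nat_lit 76) (nat_lit 36588834893) (nat_lit 50) (nat_lit 5) (nat_lit 53) (nat_lit 5) (nat_lit 51) (nat_lit 5) (nat_lit 411) (nat_lit 371) (nat_lit 238)) (XT.nd (nat_lit 78) (nat_lit 152) (nat_lit 0) (XT.lf (nat_lit 0)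 (nat_lit 28811912241) (nat_lit 152) (nat_lit 1786373109) (nat_lit 228) (nat_lit 29273315223) (nat_lit 48) (nat_lit 5) (nat_lit 50) (nat_lit 5) (nat_lit 51) (nat_lit 5) (nat_lit 412) (nat_lit 371) (nat_lit 237)) (XT.lf (nat_lit 0) (nat_lit 1463639728) (nat_lit 152) (nat_lit 43578424312) (nat_lit 228) (nat_lit 16811571571) (nat_lit 46) (nat_lit 5) (nat_lit 48) (nat_lit 5) (nat_lit 49) (nat_lit 5) (nat_lit 413) (nat_lit 371) (nat_lit 236)))) (XT.nd (nat_lit 156) (nat_lit 152) (nat_lit 0) (XT.nd (nat_lit 78) (nat_lit 228) (nat_lit 0) (XT.lf (nat_lit 0) (nat_lit 36656523111) (nat_lit 152) (nat_lit 24103528432) (nat_lit 228) (nat_lit 3147120757) (nat_lit 46) (nat_lit 5) (nat_lit 48) (nat_lit 5) (nat_lit 49) (nat_lit 5) (nat_lit 414) (nat_lit 371) (nat_lit 235)) (XT.lf (nat_lit 0) (nat_lit 7609806213) (nat_lit 152) (nat_lit 3348354613) (nat_lit 228) (nat_lit 55090677416) (nat_lit 43) (nat_lit 5)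 (nat_lit 45) (nat_lit 5) (nat_lit 46) (nat_lit 5) (nat_lit 415) (nat_lit 371) (nat_lit 234))) (XT.nd (nat_lit 78) (nat_lit 152) (nat_lit 0) (XT.lf (nat_lit 0) (nat_lit 26417299157) (nat_lit 228) (nat_lit 23466855957) (nat_lit 76) (nat_lit 18373135703) (nat_lit 43) (nat_lit 5) (nat_lit 46) (nat_lit 5) (nat_lit 44) (nat_lit 5) (nat_lit 416) (nat_lit 371) (nat_lit 233)) (XT.lf (nat_lit 0) (nat_lit 13630951825) (nat_lit 152) (nat_lit 29283595243) (nat_lit 228) (nat_lit 27648362056) (nat_lit 41) (nat_lit 5) (nat_lit 43) (nat_lit 5) (nat_lit 44) (nat_lit 5) (nat_lit 417) (nat_lit 371) (nat_lit 232)))))) (XT.nd (nat_lit 468) (nat_lit 532) (nat_lit 0) (XT.nd (nat_lit 234) (nat_lit 228) (nat_lit 0) (XT.nd (nat_lit 78) (nat_lit 152) (nat_lit 0) (XT.lf (nat_lit 0) (nat_lit 53394074976) (nat_lit 152) (nat_lit 7237503909) (nat_lit 228) (nat_lit 12332484087) (nat_lit 41) (nat_lit 5) (nat_lit 43) (nat_lit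 5) (nat_lit 44) (nat_lit 5) (nat_lit 418) (nat_lit 371) (nat_lit 231)) (XT.nd (nat_lit 78) (nat_lit 0) (nat_lit 0) (XT.lf (nat_lit 0) (nat_lit 4197383132) (nat_lit 152) (nat_lit 55475838231) (nat_lit 76) (nat_lit 15780717378) (nat_lit 39) (nat_lit 5) (nat_lit 41) (nat_lit 5) (nat_lit 40) (nat_lit 5) (nat_lit 419) (nat_lit 371) (nat_lit 230)) (XT.lf (nat_lit 0) (nat_lit 21592402073) (nat_lit 152) (nat_lit 16199162933) (nat_lit 76) (nat_lit 40243979772) (nat_lit 39) (nat_lit 5) (nat_lit 41) (nat_lit 5) (nat_lit 40) (nat_lit 5) (nat_lit 420) (nat_lit 371) (nat_lit 229)))) (XT.nd (nat_lit 78) (nat_lit 76) (nat_lit 0) (XT.lf (nat_lit 0) (nat_lit 25865201221) (nat_lit 152) (nat_lit 14393515816) (nat_lit 228) (nat_lit 40467437400) (nat_lit 37) (nat_lit 5) (nat_lit 39) (nat_lit 5) (nat_lit 40) (nat_lit 5) (nat_lit 421) (nat_lit 371) (nat_lit 228)) (XT.nd (nat_lit 78) (nat_lit 76) (nat_lit 0) (XT.lf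 (nat_lit 0) (nat_lit 60293775020) (nat_lit 228) (nat_lit 13109758839) (nat_lit 76) (nat_lit 10125989907) (nat_lit 37) (nat_lit 5) (nat_lit 40) (nat_lit 5) (nat_lit 38) (nat_lit 4) (nat_lit 422) (nat_lit 371) (nat_lit 227)) (XT.lf (nat_lit 0) (nat_lit 31497323820) (nat_lit 76) (nat_lit 50558828340) (nat_lit 152) (nat_lit 4380631611) (nat_lit 36) (nat_lit 5) (nat_lit 37) (nat_lit 5) (nat_lit 38) (nat_lit 4) (nat_lit 423) (nat_lit 371) (nat_lit 226))))) (XT.nd (nat_lit 234) (nat_lit 304) (nat_lit 0) (XT.nd (nat_lit 78) (nat_lit 152) (nat_lit 0) (XT.lf (nat_lit 0) (nat_lit 15147307428) (nat_lit 152) (nat_lit 10936582938) (nat_lit 76) (nat_lit 63382305865) (nat_lit 35) (nat_lit 5) (nat_lit 37) (nat_lit 5) (nat_lit 36) (nat_lit 5) (nat_lit 424) (nat_lit 371) (nat_lit 225)) (XT.nd (nat_lit 78) (nat_lit 0) (nat_lit 0) (XT.lf (nat_lit 0) (nat_lit 36074421179) (nat_lit 228) (nat_lit 56265107995) (nat_lit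 76) (nat_lit 275460124) (nat_lit 33) (nat_lit 5) (nat_lit 36) (nat_lit 5) (nat_lit 34) (nat_lit 4) (nat_lit 425) (nat_lit 371) (nat_lit 224)) (XT.lf (nat_lit 0) (nat_lit 58661720909) (nat_lit 228) (nat_lit 9965907389) (nat_lit 76) (nat_lit 27262902636) (nat_lit 33) (nat_lit 5) (nat_lit 36) (nat_lit 5) (nat_lit 34) (nat_lit 4) (nat_lit 426) (nat_lit 371) (nat_lit 223)))) (XT.nd (nat_lit 156) (nat_lit 152) (nat_lit 0) (XT.nd (nat_lit 78) (nat_lit 76) (nat_lit 0) (XT.lf (nat_lit 0) (nat_lit 39922530873) (nat_lit 76) (nat_lit 43077226745) (nat_lit 152) (nat_lit 16299023845) (nat_lit 32) (nat_lit 5) (nat_lit 33) (nat_lit 5) (nat_lit 34) (nat_lit 4) (nat_lit 427) (nat_lit 371) (nat_lit 222)) (XT.lf (nat_lit 0) (nat_lit 5665164731) (nat_lit 152) (nat_lit 10312525773) (nat_lit 76) (nat_lit 86886841464) (nat_lit 31) (nat_lit 5) (nat_lit 33) (nat_lit 5) (nat_lit 32) (nat_lit 5) (nat_lit 428) (nat_lit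 371) (nat_lit 221))) (XT.nd (nat_lit 78) (nat_lit 0) (nat_lit 0) (XT.lf (nat_lit 0) (nat_lit 29048178346) (nat_lit 228) (nat_lit 64484956648) (nat_lit 76) (nat_lit 13018657018) (nat_lit 29) (nat_lit 5) (nat_lit 32) (nat_lit 5) (nat_lit 30) (nat_lit 4) (nat_lit 429) (nat_lit 371) (nat_lit 220)) (XT.lf (nat_lit 0) (nat_lit 54037963446) (nat_lit 228) (nat_lit 13259629788) (nat_lit 76) (nat_lit 43103941123) (nat_lit 29) (nat_lit 5) (nat_lit 32) (nat_lit 5) (nat_lit 30) (nat_lit 4) (nat_lit 430) (nat_lit 371) (nat_lit 219))))))))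
noncomputable def xc172 : XT := (XT.nd (nat_lit 1950) (nat_lit 456) (nat_lit 0) (XT.nd (nat_lit 936) (nat_lit 608) (nat_lit 0) (XT.nd (nat_lit 468) (nat_lit 304) (nat_lit 0) (XT.nd (nat_lit 234) (nat_lit 76) (nat_lit 0) (XT.nd (nat_lit 78) (nat_lit 152) (nat_lit 0) (XT.lf (nat_lit 0) (nat_lit 41863674980) (nat_lit 76) (nat_lit 39065439499) (nat_lit 152) (nat_lit 33482055825) (nat_lit 28) (nat_lit 5) (nat_lit 29) (nat_lit 5) (nat_lit 30) (nat_lit 4) (nat_lit 431) (nat_lit 371) (nat_lit 218)) (XT.nd (nat_lit 78) (nat_lit 152) (nat_lit 0) (XT.lf (nat_lit 0) (nat_lit 100200353328) (nat_lit 76) (nat_lit 9187328917) (nat_lit 152) (nat_lit 9222463152) (nat_lit 28) (nat_lit 5) (nat_lit 29) (nat_lit 5) (nat_lit 30) (nat_lit 4) (nat_lit 432) (nat_lit 371) (nat_lit 217)) (XT.lf (nat_lit 0) (nat_lit 16704731317) (nat_lit 152) (nat_lit 83895890923) (nat_lit 76) (nat_lit 22357025437) (nat_lit 26) (nat_lit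 5) (nat_lit 28) (nat_lit 5) (nat_lit 27) (nat_lit 4) (nat_lit 433) (nat_lit 371) (nat_lit 216)))) (XT.nd (nat_lit 78) (nat_lit 76) (nat_lit 0) (XT.lf (nat_lit 0) (nat_lit 44084217202) (nat_lit 152) (nat_lit 27770869443) (nat_lit 76) (nat_lit 55636585947) (nat_lit 26) (nat_lit 5) (nat_lit 28) (nat_lit 5) (nat_lit 27) (nat_lit 4) (nat_lit 434) (nat_lit 371) (nat_lit 215)) (XT.nd (nat_lit 78) (nat_lit 0) (nat_lit 0) (XT.lf (nat_lit 0) (nat_lit 32187704238) (nat_lit 76) (nat_lit 41145956379) (nat_lit 152) (nat_lit 58893689226) (nat_lit 25) (nat_lit 5) (nat_lit 26) (nat_lit 5) (nat_lit 27) (nat_lit 4) (nat_lit 435) (nat_lit 371) (nat_lit 214)) (XT.lf (nat_lit 0) (nat_lit 96105488940) (nat_lit 76) (nat_lit 8408872841) (nat_lit 152) (nat_lit 32662010137) (nat_lit 25) (nat_lit 5) (nat_lit 26) (nat_lit 5) (nat_lit 27) (nat_lit 4) (nat_lit 436) (nat_lit 371) (nat_lit 213))))) (XT.nd (nat_lit 234)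 (nat_lit 76) (nat_lit 0) (XT.nd (nat_lit 78) (nat_lit 152) (nat_lit 0) (XT.lf (nat_lit 0) (nat_lit 21113931478) (nat_lit 76) (nat_lit 116873726997) (nat_lit 76) (nat_lit 4348508826) (nat_lit 24) (nat_lit 4) (nat_lit 25) (nat_lit 5) (nat_lit 25) (nat_lit 4) (nat_lit 437) (nat_lit 371) (nat_lit 212)) (XT.nd (nat_lit 78) (nat_lit 76) (nat_lit 0) (XT.lf (nat_lit 0) (nat_lit 25411664915) (nat_lit 152) (nat_lit 60433596582) (nat_lit 76) (nat_lit 61846711133) (nat_lit 23) (nat_lit 5) (nat_lit 25) (nat_lit 5) (nat_lit 24) (nat_lit 4) (nat_lit 438) (nat_lit 371) (nat_lit 211)) (XT.lf (nat_lit 0) (nat_lit 3430331430) (nat_lit 76) (nat_lit 53135533671) (nat_lit 152) (nat_lit 96743531162) (nat_lit 22) (nat_lit 5) (nat_lit 23) (nat_lit 5) (nat_lit 24) (nat_lit 4) (nat_lit 439) (nat_lit 371) (nat_lit 210)))) (XT.nd (nat_lit 78) (nat_lit 76) (nat_lit 0) (XT.lf (nat_lit 0) (nat_lit 72582968377) (nat_lit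 76) (nat_lit 17716904234) (nat_lit 152) (nat_lit 68856713788) (nat_lit 22) (nat_lit 5) (nat_lit 23) (nat_lit 5) (nat_lit 24) (nat_lit 4) (nat_lit 440) (nat_lit 371) (nat_lit 209)) (XT.nd (nat_lit 78) (nat_lit 76) (nat_lit 0) (XT.lf (nat_lit 0) (nat_lit 126023275526) (nat_lit 152) (nat_lit 20409450371) (nat_lit 0) (nat_lit 18848275573) (nat_lit 22) (nat_lit 5) (nat_lit 24) (nat_lit 4) (nat_lit 22) (nat_lit 4) (nat_lit 441) (nat_lit 371) (nat_lit 208)) (XT.lf (nat_lit 0) (nat_lit 50382635243) (nat_lit 76) (nat_lit 114226004041) (nat_lit 76) (nat_lit 7049208646) (nat_lit 21) (nat_lit 4) (nat_lit 22) (nat_lit 5) (nat_lit 22) (nat_lit 4) (nat_lit 442) (nat_lit 371) (nat_lit 207)))))) (XT.nd (nat_lit 468) (nat_lit 304) (nat_lit 0) (XT.nd (nat_lit 234) (nat_lit 152) (nat_lit 0) (XT.nd (nat_lit 78) (nat_lit 76) (nat_lit 0) (XT.lf (nat_lit 0) (nat_lit 26262984267) (nat_lit 152) (nat_lit 53339387590)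 (nat_lit 76) (nat_lit 98712765059) (nat_lit 20) (nat_lit 5) (nat_lit 22) (nat_lit 5) (nat_lit 21) (nat_lit 4) (nat_lit 443) (nat_lit 371) (nat_lit 206)) (XT.nd (nat_lit 78) (nat_lit 0) (nat_lit 0) (XT.lf (nat_lit 0) (nat_lit 18466411928) (nat_lit 76) (nat_lit 42824586015) (nat_lit 152) (nat_lit 123994158978) (nat_lit 19) (nat_lit 5) (nat_lit 20) (nat_lit 5) (nat_lit 21) (nat_lit 4) (nat_lit 444) (nat_lit 371) (nat_lit 205)) (XT.lf (nat_lit 0) (nat_lit 95712065013) (nat_lit 76) (nat_lit 3260495883) (nat_lit 152) (nat_lit 93586009740) (nat_lit 19) (nat_lit 5) (nat_lit 20) (nat_lit 5) (nat_lit 21) (nat_lit 4) (nat_lit 445) (nat_lit 371) (nat_lit 204)))) (XT.nd (nat_lit 78) (nat_lit 152) (nat_lit 0) (XT.lf (nat_lit 0) (nat_lit 139134748540) (nat_lit 152) (nat_lit 23975532613) (nat_lit 0) (nat_lit 37055546692) (nat_lit 19) (nat_lit 5) (nat_lit 21) (nat_lit 4) (nat_lit 19) (nat_lit 4) (nat_lit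 446) (nat_lit 371) (nat_lit 203)) (XT.nd (nat_lit 78) (nat_lit 76) (nat_lit 0) (XT.lf (nat_lit 0) (nat_lit 54218790418) (nat_lit 76) (nat_lit 127985127811) (nat_lit 76) (nat_lit 25904586178) (nat_lit 18) (nat_lit 4) (nat_lit 19) (nat_lit 5) (nat_lit 19) (nat_lit 4) (nat_lit 447) (nat_lit 371) (nat_lit 202)) (XT.lf (nat_lit 0) (nat_lit 11038469899) (nat_lit 152) (nat_lit 79452954326) (nat_lit 76) (nat_lit 125927740126) (nat_lit 17) (nat_lit 5) (nat_lit 19) (nat_lit 5) (nat_lit 18) (nat_lit 4) (nat_lit 448) (nat_lit 371) (nat_lit 201))))) (XT.nd (nat_lit 234) (nat_lit 228) (nat_lit 0) (XT.nd (nat_lit 78) (nat_lit 76) (nat_lit 0) (XT.lf (nat_lit 0) (nat_lit 48957083077) (nat_lit 152) (nat_lit 1721012537) (nat_lit 76) (nat_lit 174446080108) (nat_lit 17) (nat_lit 5) (nat_lit 19) (nat_lit 5) (nat_lit 18) (nat_lit 4) (nat_lit 449) (nat_lit 371) (nat_lit 200)) (XT.nd (nat_lit 78) (nat_lit 0) (nat_lit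 0) (XT.lf (nat_lit 0) (nat_lit 82537340984) (nat_lit 76) (nat_lit 7521942521) (nat_lit 152) (nat_lit 144140771431) (nat_lit 16) (nat_lit 5) (nat_lit 17) (nat_lit 5) (nat_lit 18) (nat_lit 4) (nat_lit 450) (nat_lit 371) (nat_lit 199)) (XT.lf (nat_lit 0) (nat_lit 133835278264) (nat_lit 152) (nat_lit 73252325514) (nat_lit 0) (nat_lit 36611190217) (nat_lit 16) (nat_lit 5) (nat_lit 18) (nat_lit 4) (nat_lit 16) (nat_lit 4) (nat_lit 451) (nat_lit 371) (nat_lit 198)))) (XT.nd (nat_lit 156) (nat_lit 152) (nat_lit 0) (XT.nd (nat_lit 78) (nat_lit 0) (nat_lit 0) (XT.lf (nat_lit 0) (nat_lit 9249504738) (nat_lit 76) (nat_lit 170817356868) (nat_lit 76) (nat_lit 73592269053) (nat_lit 15) (nat_lit 4) (nat_lit 16) (nat_lit 5) (nat_lit 16) (nat_lit 4) (nat_lit 452) (nat_lit 371) (nat_lit 197)) (XT.lf (nat_lit 0) (nat_lit 98417802025) (nat_lit 76) (nat_lit 131431869904) (nat_lit 76) (nat_lit 34205829928) (nat_lit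 15) (nat_lit 4) (nat_lit 16) (nat_lit 5) (nat_lit 16) (nat_lit 4) (nat_lit 453) (nat_lit 371) (nat_lit 196))) (XT.nd (nat_lit 78) (nat_lit 76) (nat_lit 0) (XT.lf (nat_lit 0) (nat_lit 6920202165) (nat_lit 152) (nat_lit 83040532357) (nat_lit 76) (nat_lit 185005419978) (nat_lit 14) (nat_lit 5) (nat_lit 16) (nat_lit 5) (nat_lit 15) (nat_lit 4) (nat_lit 454) (nat_lit 371) (nat_lit 195)) (XT.lf (nat_lit 0) (nat_lit 3227396694) (nat_lit 76) (nat_lit 45775143368) (nat_lit 152) (nat_lit 237389285007) (nat_lit 13) (nat_lit 5) (nat_lit 14) (nat_lit 5) (nat_lit 15) (nat_lit 4) (nat_lit 455) (nat_lit 371) (nat_lit 194))))))) (XT.nd (nat_lit 1014) (nat_lit 152) (nat_lit 0) (XT.nd (nat_lit 468) (nat_lit 152) (nat_lit 0) (XT.nd (nat_lit 234) (nat_lit 152) (nat_lit 0) (XT.nd (nat_lit 78) (nat_lit 0) (nat_lit 0) (XT.lf (nat_lit 0) (nat_lit 94627215123) (nat_lit 152) (nat_lit 201661136023) (nat_lit 0) (nat_lit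 2028517079) (nat_lit 13) (nat_lit 5) (nat_lit 15) (nat_lit 4) (nat_lit 13) (nat_lit 4) (nat_lit 456) (nat_lit 371) (nat_lit 193)) (XT.nd (nat_lit 78) (nat_lit 0) (nat_lit 0) (XT.lf (nat_lit 0) (nat_lit 143282734578) (nat_lit 152) (nat_lit 116834658011) (nat_lit 0) (nat_lit 50683290491) (nat_lit 13) (nat_lit 5) (nat_lit 15) (nat_lit 4) (nat_lit 13) (nat_lit 4) (nat_lit 457) (nat_lit 371) (nat_lit 192)) (XT.lf (nat_lit 0) (nat_lit 194370266627) (nat_lit 152) (nat_lit 27768348263) (nat_lit 0) (nat_lit 101770112023) (nat_lit 13) (nat_lit 5) (nat_lit 15) (nat_lit 4) (nat_lit 13) (nat_lit 4) (nat_lit 458) (nat_lit 371) (nat_lit 191)))) (XT.nd (nat_lit 78) (nat_lit 76) (nat_lit 0) (XT.lf (nat_lit 0) (nat_lit 67923843034) (nat_lit 76) (nat_lit 181148086764) (nat_lit 76) (nat_lit 88547255477) (nat_lit 12) (nat_lit 4) (nat_lit 13) (nat_lit 5) (nat_lit 13) (nat_lit 4) (nat_lit 459) (nat_lit 371) (nat_lit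 190)) (XT.nd (nat_lit 78) (nat_lit 76) (nat_lit 0) (XT.lf (nat_lit 0) (nat_lit 169363300058) (nat_lit 76) (nat_lit 137614932249) (nat_lit 76) (nat_lit 45013456502) (nat_lit 12) (nat_lit 4) (nat_lit 13) (nat_lit 5) (nat_lit 13) (nat_lit 4) (nat_lit 460) (nat_lit 371) (nat_lit 189)) (XT.lf (nat_lit 0) (nat_lit 674031599) (nat_lit 152) (nat_lit 91220324739) (nat_lit 76) (nat_lit 275187951676) (nat_lit 11) (nat_lit 5) (nat_lit 13) (nat_lit 5) (nat_lit 12) (nat_lit 4) (nat_lit 461) (nat_lit 371) (nat_lit 188))))) (XT.nd (nat_lit 234) (nat_lit 76) (nat_lit 0) (XT.nd (nat_lit 78) (nat_lit 0) (nat_lit 0) (XT.lf (nat_lit 0) (nat_lit 4151810807) (nat_lit 76) (nat_lit 43045498885) (nat_lit 152) (nat_lit 335690044120) (nat_lit 10) (nat_lit 5) (nat_lit 11) (nat_lit 5) (nat_lit 12) (nat_lit 4) (nat_lit 462) (nat_lit 371) (nat_lit 187)) (XT.nd (nat_lit 78) (nat_lit 0) (nat_lit 0) (XT.lf (nat_lit 0) (nat_lit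 97745020997) (nat_lit 152) (nat_lit 292101249605) (nat_lit 0) (nat_lit 9551467882) (nat_lit 10) (nat_lit 5) (nat_lit 12) (nat_lit 4) (nat_lit 10) (nat_lit 4) (nat_lit 463) (nat_lit 371) (nat_lit 186)) (XT.lf (nat_lit 0) (nat_lit 151525156373) (nat_lit 152) (nat_lit 201842135833) (nat_lit 0) (nat_lit 63331098307) (nat_lit 10) (nat_lit 5) (nat_lit 12) (nat_lit 4) (nat_lit 10) (nat_lit 4) (nat_lit 464) (nat_lit 371) (nat_lit 185)))) (XT.nd (nat_lit 156) (nat_lit 76) (nat_lit 0) (XT.nd (nat_lit 78) (nat_lit 0) (nat_lit 0) (XT.lf (nat_lit 0) (nat_lit 207993702890) (nat_lit 152) (nat_lit 107071238163) (nat_lit 0) (nat_lit 119799163917) (nat_lit 10) (nat_lit 5) (nat_lit 12) (nat_lit 4) (nat_lit 10) (nat_lit 4) (nat_lit 465) (nat_lit 371) (nat_lit 184)) (XT.lf (nat_lit 0) (nat_lit 267285109467) (nat_lit 152) (nat_lit 7562911601) (nat_lit 0) (nat_lit 179090112489) (nat_lit 10) (nat_lit 5) (nat_lit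 12) (nat_lit 4) (nat_lit 10) (nat_lit 4) (nat_lit 466) (nat_lit 371) (nat_lit 183))) (XT.nd (nat_lit 78) (nat_lit 0) (nat_lit 0) (XT.lf (nat_lit 0) (nat_lit 100124373687) (nat_lit 76) (nat_lit 230979394505) (nat_lit 76) (nat_lit 142783961331) (nat_lit 9) (nat_lit 4) (nat_lit 10) (nat_lit 5) (nat_lit 10) (nat_lit 4) (nat_lit 467) (nat_lit 371) (nat_lit 182)) (XT.lf (nat_lit 0) (nat_lit 213457544746) (nat_lit 76) (nat_lit 184783365822) (nat_lit 76) (nat_lit 96587517223) (nat_lit 9) (nat_lit 4) (nat_lit 10) (nat_lit 5) (nat_lit 10) (nat_lit 4) (nat_lit 468) (nat_lit 371) (nat_lit 181)))))) (XT.nd (nat_lit 468) (nat_lit 0) (nat_lit 0) (XT.nd (nat_lit 234) (nat_lit 0) (nat_lit 0) (XT.nd (nat_lit 78) (nat_lit 152) (nat_lit 0) (XT.lf (nat_lit 0) (nat_lit 332456378448) (nat_lit 76) (nat_lit 136278026042) (nat_lit 76) (nat_lit 48081781800) (nat_lit 9) (nat_lit 4) (nat_lit 10) (nat_lit 5) (nat_lit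 10) (nat_lit 4) (nat_lit 469) (nat_lit 371) (nat_lit 180)) (XT.nd (nat_lit 78) (nat_lit 76) (nat_lit 0) (XT.lf (nat_lit 0) (nat_lit 2757557479) (nat_lit 152) (nat_lit 82543628209) (nat_lit 76) (nat_lit 454599947298) (nat_lit 8) (nat_lit 5) (nat_lit 10) (nat_lit 5) (nat_lit 9) (nat_lit 4) (nat_lit 470) (nat_lit 371) (nat_lit 179)) (XT.lf (nat_lit 0) (nat_lit 24353685744) (nat_lit 76) (nat_lit 30549077985) (nat_lit 152) (nat_lit 509179163867) (nat_lit 7) (nat_lit 5) (nat_lit 8) (nat_lit 5) (nat_lit 9) (nat_lit 4) (nat_lit 471) (nat_lit 371) (nat_lit 178)))) (XT.nd (nat_lit 78) (nat_lit 0) (nat_lit 0) (XT.lf (nat_lit 0) (nat_lit 111496217053) (nat_lit 152) (nat_lit 450384727736) (nat_lit 0) (nat_lit 27498767840) (nat_lit 7) (nat_lit 5) (nat_lit 9) (nat_lit 4) (nat_lit 7) (nat_lit 4) (nat_lit 472) (nat_lit 371) (nat_lit 177)) (XT.nd (nat_lit 78) (nat_lit 0) (nat_lit 0) (XT.lf (nat_lit 0) (nat_lit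 171419704743) (nat_lit 152) (nat_lit 357075718582) (nat_lit 0) (nat_lit 87421945533) (nat_lit 7) (nat_lit 5) (nat_lit 9) (nat_lit 4) (nat_lit 7) (nat_lit 4) (nat_lit 473) (nat_lit 371) (nat_lit 176)) (XT.lf (nat_lit 0) (nat_lit 234338945048) (nat_lit 152) (nat_lit 259102093363) (nat_lit 0) (nat_lit 150340890604) (nat_lit 7) (nat_lit 5) (nat_lit 9) (nat_lit 4) (nat_lit 7) (nat_lit 4) (nat_lit 474) (nat_lit 371) (nat_lit 175))))) (XT.nd (nat_lit 45240) (nat_lit 0) (nat_lit 7904) (XT.nd (nat_lit 45084) (nat_lit 0) (nat_lit 7828) (XT.lf (nat_lit 0) (nat_lit 300403745685) (nat_lit 152) (nat_lit 156230581541) (nat_lit 0) (nat_lit 216405410065) (nat_lit 7) (nat_lit 5) (nat_lit 9) (nat_lit 4) (nat_lit 7) (nat_lit 4) (nat_lit 475) (nat_lit 371) (nat_lit 174)) (XT.nd (nat_lit 78) (nat_lit 0) (nat_lit 0) (XT.lf (nat_lit 0) (nat_lit 1027241544) (nat_lit 836) (nat_lit 4363621694) (nat_lit 836) (nat_lit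 4363621694) (nat_lit 110) (nat_lit 3) (nat_lit 121) (nat_lit 3) (nat_lit 121) (nat_lit 5) (nat_lit 372) (nat_lit 372) (nat_lit 276)) (XT.lf (nat_lit 76) (nat_lit 696125525) (nat_lit 0) (nat_lit 1589879078) (nat_lit 836) (nat_lit 17701561994) (nat_lit 111) (nat_lit 5) (nat_lit 110) (nat_lit 3) (nat_lit 121) (nat_lit 5) (nat_lit 373) (nat_lit 372) (nat_lit 275)))) (XT.nd (nat_lit 156) (nat_lit 0) (nat_lit 76) (XT.nd (nat_lit 78) (nat_lit 0) (nat_lit 0) (XT.lf (nat_lit 0) (nat_lit 2794339031) (nat_lit 760) (nat_lit 9723850834) (nat_lit 836) (nat_lit 7958649110) (nat_lit 111) (nat_lit 5) (nat_lit 121) (nat_lit 5) (nat_lit 122) (nat_lit 5) (nat_lit 374) (nat_lit 372) (nat_lit 274)) (XT.lf (nat_lit 76) (nat_lit 299435084) (nat_lit 0) (nat_lit 3049060603) (nat_lit 836) (nat_lit 17641066298) (nat_lit 112) (nat_lit 5) (nat_lit 111) (nat_lit 5) (nat_lit 122) (nat_lit 5) (nat_lit 375) (nat_lit 372)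 (nat_lit 273))) (XT.nd (nat_lit 78) (nat_lit 0) (nat_lit 0) (XT.lf (nat_lit 0) (nat_lit 4195488665) (nat_lit 760) (nat_lit 10475206245) (nat_lit 836) (nat_lit 6843976752) (nat_lit 112) (nat_lit 5) (nat_lit 122) (nat_lit 5) (nat_lit 123) (nat_lit 5) (nat_lit 376) (nat_lit 372) (nat_lit 272)) (XT.lf (nat_lit 76) (nat_lit 200544462) (nat_lit 0) (nat_lit 4927996284) (nat_lit 836) (nat_lit 16935317214) (nat_lit 113) (nat_lit 5) (nat_lit 112) (nat_lit 5) (nat_lit 123) (nat_lit 5) (nat_lit 377) (nat_lit 372) (nat_lit 271))))))))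
noncomputable def xc173 : XT := (XT.nd (nat_lit 1950) (nat_lit 2432) (nat_lit 0) (XT.nd (nat_lit 936) (nat_lit 1976) (nat_lit 0) (XT.nd (nat_lit 468) (nat_lit 1140) (nat_lit 0) (XT.nd (nat_lit 234) (nat_lit 608) (nat_lit 0) (XT.nd (nat_lit 78) (nat_lit 0) (nat_lit 0) (XT.lf (nat_lit 0) (nat_lit 6362320905) (nat_lit 760) (nat_lit 10950310575) (nat_lit 836) (nat_lit 5315174616) (nat_lit 113) (nat_lit 5) (nat_lit 123) (nat_lit 5) (nat_lit 124) (nat_lit 5) (nat_lit 378) (nat_lit 372) (nat_lit 270)) (XT.nd (nat_lit 78) (nat_lit 0) (nat_lit 76) (XT.lf (nat_lit 76) (nat_lit 435050904) (nat_lit 0) (nat_lit 7301735505) (nat_lit 836) (nat_lit 15479221406) (nat_lit 114) (nat_lit 5) (nat_lit 113) (nat_lit 5) (nat_lit 124) (nat_lit 5) (nat_lit 379) (nat_lit 372) (nat_lit 269)) (XT.lf (nat_lit 0) (nat_lit 9410334143) (nat_lit 760) (nat_lit 11114424485) (nat_lit 836) (nat_lit 3297348756) (nat_lit 114)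 (nat_lit 5) (nat_lit 124) (nat_lit 5) (nat_lit 125) (nat_lit 5) (nat_lit 380) (nat_lit 372) (nat_lit 268)))) (XT.nd (nat_lit 78) (nat_lit 684) (nat_lit 0) (XT.lf (nat_lit 76) (nat_lit 1042652831) (nat_lit 0) (nat_lit 10253035751) (nat_lit 836) (nat_lit 13156422322) (nat_lit 115) (nat_lit 5) (nat_lit 114) (nat_lit 5) (nat_lit 125) (nat_lit 5) (nat_lit 381) (nat_lit 372) (nat_lit 267)) (XT.nd (nat_lit 78) (nat_lit 760) (nat_lit 0) (XT.lf (nat_lit 0) (nat_lit 13467378738) (nat_lit 760) (nat_lit 10928899018) (nat_lit 76) (nat_lit 707738624) (nat_lit 115) (nat_lit 5) (nat_lit 125) (nat_lit 5) (nat_lit 116) (nat_lit 5) (nat_lit 382) (nat_lit 372) (nat_lit 266)) (XT.lf (nat_lit 0) (nat_lit 2067343259) (nat_lit 760) (nat_lit 13873473384) (nat_lit 836) (nat_lit 9838047256) (nat_lit 105) (nat_lit 5) (nat_lit 115) (nat_lit 5) (nat_lit 116) (nat_lit 5) (nat_lit 383) (nat_lit 372) (nat_lit 265))))) (XT.nd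 (nat_lit 234) (nat_lit 760) (nat_lit 0) (XT.nd (nat_lit 78) (nat_lit 380) (nat_lit 0) (XT.lf (nat_lit 0) (nat_lit 16086497986) (nat_lit 760) (nat_lit 2629562231) (nat_lit 836) (nat_lit 7762491589) (nat_lit 105) (nat_lit 5) (nat_lit 115) (nat_lit 5) (nat_lit 116) (nat_lit 5) (nat_lit 384) (nat_lit 372) (nat_lit 264)) (XT.nd (nat_lit 78) (nat_lit 0) (nat_lit 0) (XT.lf (nat_lit 0) (nat_lit 3557610563) (nat_lit 380) (nat_lit 18264659208) (nat_lit 456) (nat_lit 5381348619) (nat_lit 100) (nat_lit 5) (nat_lit 105) (nat_lit 5) (nat_lit 106) (nat_lit 5) (nat_lit 385) (nat_lit 372) (nat_lit 263)) (XT.lf (nat_lit 0) (nat_lit 18514746685) (nat_lit 380) (nat_lit 6781054837) (nat_lit 456) (nat_lit 2658540456) (nat_lit 100) (nat_lit 5) (nat_lit 105) (nat_lit 5) (nat_lit 106) (nat_lit 5) (nat_lit 386) (nat_lit 372) (nat_lit 262)))) (XT.nd (nat_lit 78) (nat_lit 380) (nat_lit 0) (XT.lf (nat_lit 0) (nat_lit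 359872199) (nat_lit 380) (nat_lit 23173608503) (nat_lit 76) (nat_lit 5200674543) (nat_lit 95) (nat_lit 5) (nat_lit 100) (nat_lit 5) (nat_lit 96) (nat_lit 5) (nat_lit 387) (nat_lit 372) (nat_lit 261)) (XT.nd (nat_lit 78) (nat_lit 380) (nat_lit 0) (XT.lf (nat_lit 0) (nat_lit 3707515253) (nat_lit 380) (nat_lit 8070296745) (nat_lit 76) (nat_lit 17759589019) (nat_lit 95) (nat_lit 5) (nat_lit 100) (nat_lit 5) (nat_lit 96) (nat_lit 5) (nat_lit 388) (nat_lit 372) (nat_lit 260)) (XT.lf (nat_lit 0) (nat_lit 7353231443) (nat_lit 456) (nat_lit 22346289351) (nat_lit 76) (nat_lit 674757240) (nat_lit 90) (nat_lit 5) (nat_lit 96) (nat_lit 5) (nat_lit 91) (nat_lit 5) (nat_lit 389) (nat_lit 372) (nat_lit 259)))))) (XT.nd (nat_lit 468) (nat_lit 1064) (nat_lit 0) (XT.nd (nat_lit 234) (nat_lit 608) (nat_lit 0) (XT.nd (nat_lit 78) (nat_lit 304) (nat_lit 0) (XT.lf (nat_lit 0) (nat_lit 11507688856) (nat_lit 456)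 (nat_lit 6236364801) (nat_lit 76) (nat_lit 13492625811) (nat_lit 90) (nat_lit 5) (nat_lit 96) (nat_lit 5) (nat_lit 91) (nat_lit 5) (nat_lit 390) (nat_lit 372) (nat_lit 258)) (XT.nd (nat_lit 78) (nat_lit 0) (nat_lit 0) (XT.lf (nat_lit 0) (nat_lit 11026003583) (nat_lit 304) (nat_lit 5010737691) (nat_lit 380) (nat_lit 16097119274) (nat_lit 86) (nat_lit 5) (nat_lit 90) (nat_lit 5) (nat_lit 91) (nat_lit 5) (nat_lit 391) (nat_lit 372) (nat_lit 257)) (XT.lf (nat_lit 0) (nat_lit 21024978259) (nat_lit 380) (nat_lit 3840964160) (nat_lit 76) (nat_lit 8198324695) (nat_lit 86) (nat_lit 5) (nat_lit 91) (nat_lit 5) (nat_lit 87) (nat_lit 5) (nat_lit 392) (nat_lit 372) (nat_lit 256)))) (XT.nd (nat_lit 78) (nat_lit 304) (nat_lit 0) (XT.lf (nat_lit 0) (nat_lit 14670875856) (nat_lit 304) (nat_lit 11898065538) (nat_lit 380) (nat_lit 7456939782) (nat_lit 82) (nat_lit 5) (nat_lit 86) (nat_lit 5) (nat_lit 87) (nat_lit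 5) (nat_lit 393) (nat_lit 372) (nat_lit 255)) (XT.nd (nat_lit 78) (nat_lit 304) (nat_lit 0) (XT.lf (nat_lit 0) (nat_lit 32478289093) (nat_lit 380) (nat_lit 824502864) (nat_lit 76) (nat_lit 1728377410) (nat_lit 82) (nat_lit 5) (nat_lit 87) (nat_lit 5) (nat_lit 83) (nat_lit 5) (nat_lit 394) (nat_lit 372) (nat_lit 254)) (XT.lf (nat_lit 0) (nat_lit 3009085526) (nat_lit 304) (nat_lit 17069615703) (nat_lit 76) (nat_lit 15981206203) (nat_lit 78) (nat_lit 5) (nat_lit 82) (nat_lit 5) (nat_lit 79) (nat_lit 5) (nat_lit 395) (nat_lit 372) (nat_lit 253))))) (XT.nd (nat_lit 234) (nat_lit 532) (nat_lit 0) (XT.nd (nat_lit 78) (nat_lit 228) (nat_lit 0) (XT.lf (nat_lit 0) (nat_lit 2724466869) (nat_lit 304) (nat_lit 6091144043) (nat_lit 380) (nat_lit 28319768595) (nat_lit 74) (nat_lit 5) (nat_lit 78) (nat_lit 5) (nat_lit 79) (nat_lit 5) (nat_lit 396) (nat_lit 372) (nat_lit 252)) (XT.nd (nat_lit 78) (nat_lit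 228) (nat_lit 0) (XT.lf (nat_lit 0) (nat_lit 15336119399) (nat_lit 380) (nat_lit 14294070279) (nat_lit 76) (nat_lit 8613254926) (nat_lit 74) (nat_lit 5) (nat_lit 79) (nat_lit 5) (nat_lit 75) (nat_lit 5) (nat_lit 397) (nat_lit 372) (nat_lit 251)) (XT.lf (nat_lit 0) (nat_lit 6945508703) (nat_lit 228) (nat_lit 15441277511) (nat_lit 304) (nat_lit 17009922248) (nat_lit 71) (nat_lit 5) (nat_lit 74) (nat_lit 5) (nat_lit 75) (nat_lit 5) (nat_lit 398) (nat_lit 372) (nat_lit 250)))) (XT.nd (nat_lit 156) (nat_lit 304) (nat_lit 0) (XT.nd (nat_lit 78) (nat_lit 228) (nat_lit 0) (XT.lf (nat_lit 0) (nat_lit 29737863670) (nat_lit 228) (nat_lit 290151800) (nat_lit 304) (nat_lit 10567720638) (nat_lit 71) (nat_lit 5) (nat_lit 74) (nat_lit 5) (nat_lit 75) (nat_lit 5) (nat_lit 399) (nat_lit 372) (nat_lit 249)) (XT.lf (nat_lit 0) (nat_lit 11948318564) (nat_lit 228) (nat_lit 26529507240) (nat_lit 304) (nat_lit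 3355565304) (nat_lit 68) (nat_lit 5) (nat_lit 71) (nat_lit 5) (nat_lit 72) (nat_lit 5) (nat_lit 400) (nat_lit 372) (nat_lit 248))) (XT.nd (nat_lit 78) (nat_lit 228) (nat_lit 0) (XT.lf (nat_lit 0) (nat_lit 4270037721) (nat_lit 304) (nat_lit 6930984555) (nat_lit 76) (nat_lit 31919225409) (nat_lit 67) (nat_lit 5) (nat_lit 71) (nat_lit 5) (nat_lit 68) (nat_lit 5) (nat_lit 401) (nat_lit 372) (nat_lit 247)) (XT.lf (nat_lit 0) (nat_lit 12518284758) (nat_lit 304) (nat_lit 26860496925) (nat_lit 76) (nat_lit 5072209987) (nat_lit 64) (nat_lit 5) (nat_lit 68) (nat_lit 5) (nat_lit 65) (nat_lit 5) (nat_lit 402) (nat_lit 372) (nat_lit 246))))))) (XT.nd (nat_lit 1014) (nat_lit 1064) (nat_lit 0) (XT.nd (nat_lit 468) (nat_lit 684) (nat_lit 0) (XT.nd (nat_lit 234) (nat_lit 304) (nat_lit 0) (XT.nd (nat_lit 78) (nat_lit 380) (nat_lit 0) (XT.lf (nat_lit 0) (nat_lit 21478287404) (nat_lit 304) (nat_lit 2454506587)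 (nat_lit 76) (nat_lit 21900513307) (nat_lit 64) (nat_lit 5) (nat_lit 68) (nat_lit 5) (nat_lit 65) (nat_lit 5) (nat_lit 403) (nat_lit 372) (nat_lit 245)) (XT.nd (nat_lit 78) (nat_lit 152) (nat_lit 0) (XT.lf (nat_lit 0) (nat_lit 23932800159) (nat_lit 228) (nat_lit 7323734875) (nat_lit 304) (nat_lit 16009692961) (nat_lit 61) (nat_lit 5) (nat_lit 64) (nat_lit 5) (nat_lit 65) (nat_lit 5) (nat_lit 404) (nat_lit 372) (nat_lit 244)) (XT.lf (nat_lit 0) (nat_lit 2884635061) (nat_lit 152) (nat_lit 38880930748) (nat_lit 228) (nat_lit 6993136836) (nat_lit 59) (nat_lit 5) (nat_lit 61) (nat_lit 5) (nat_lit 62) (nat_lit 5) (nat_lit 405) (nat_lit 372) (nat_lit 243)))) (XT.nd (nat_lit 78) (nat_lit 228) (nat_lit 0) (XT.lf (nat_lit 0) (nat_lit 2913433292) (nat_lit 228) (nat_lit 19252602020) (nat_lit 76) (nat_lit 28131916661) (nat_lit 58) (nat_lit 5) (nat_lit 61) (nat_lit 5) (nat_lit 59) (nat_lit 5) (nat_lit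 406) (nat_lit 372) (nat_lit 242)) (XT.nd (nat_lit 78) (nat_lit 0) (nat_lit 0) (XT.lf (nat_lit 0) (nat_lit 8864170790) (nat_lit 228) (nat_lit 4351374105) (nat_lit 304) (nat_lit 38686126642) (nat_lit 55) (nat_lit 5) (nat_lit 58) (nat_lit 5) (nat_lit 59) (nat_lit 5) (nat_lit 407) (nat_lit 372) (nat_lit 241)) (XT.lf (nat_lit 0) (nat_lit 24585150014) (nat_lit 304) (nat_lit 14748421955) (nat_lit 76) (nat_lit 14224386911) (nat_lit 55) (nat_lit 5) (nat_lit 59) (nat_lit 5) (nat_lit 56) (nat_lit 5) (nat_lit 408) (nat_lit 372) (nat_lit 240))))) (XT.nd (nat_lit 234) (nat_lit 304) (nat_lit 0) (XT.nd (nat_lit 78) (nat_lit 228) (nat_lit 0) (XT.lf (nat_lit 0) (nat_lit 15371095447) (nat_lit 152) (nat_lit 21460492397) (nat_lit 228) (nat_lit 18450056265) (nat_lit 53) (nat_lit 5) (nat_lit 55) (nat_lit 5) (nat_lit 56) (nat_lit 5) (nat_lit 409) (nat_lit 372) (nat_lit 239)) (XT.nd (nat_lit 78) (nat_lit 228) (nat_lit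 0) (XT.lf (nat_lit 0) (nat_lit 47504043290) (nat_lit 152) (nat_lit 2433178354) (nat_lit 228) (nat_lit 7141949338) (nat_lit 53) (nat_lit 5) (nat_lit 55) (nat_lit 5) (nat_lit 56) (nat_lit 5) (nat_lit 410) (nat_lit 372) (nat_lit 238)) (XT.lf (nat_lit 0) (nat_lit 5216351030) (nat_lit 228) (nat_lit 36293380183) (nat_lit 76) (nat_lit 17421338941) (nat_lit 50) (nat_lit 5) (nat_lit 53) (nat_lit 5) (nat_lit 51) (nat_lit 5) (nat_lit 411) (nat_lit 372) (nat_lit 237)))) (XT.nd (nat_lit 156) (nat_lit 152) (nat_lit 0) (XT.nd (nat_lit 78) (nat_lit 152) (nat_lit 0) (XT.lf (nat_lit 0) (nat_lit 18154489776) (nat_lit 228) (nat_lit 4238002300) (nat_lit 76) (nat_lit 38467122107) (nat_lit 50) (nat_lit 5) (nat_lit 53) (nat_lit 5) (nat_lit 51) (nat_lit 5) (nat_lit 412) (nat_lit 372) (nat_lit 236)) (XT.lf (nat_lit 0) (nat_lit 30388486138) (nat_lit 152) (nat_lit 1822864228) (nat_lit 228) (nat_lit 30649645196) (nat_lit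 48) (nat_lit 5) (nat_lit 50) (nat_lit 5) (nat_lit 51) (nat_lit 5) (nat_lit 413) (nat_lit 372) (nat_lit 235))) (XT.nd (nat_lit 78) (nat_lit 0) (nat_lit 0) (XT.lf (nat_lit 0) (nat_lit 1673912858) (nat_lit 152) (nat_lit 45702371460) (nat_lit 228) (nat_lit 17565901026) (nat_lit 46) (nat_lit 5) (nat_lit 48) (nat_lit 5) (nat_lit 49) (nat_lit 5) (nat_lit 414) (nat_lit 372) (nat_lit 234)) (XT.lf (nat_lit 0) (nat_lit 38619912260) (nat_lit 152) (nat_lit 25256348598) (nat_lit 228) (nat_lit 3222334773) (nat_lit 46) (nat_lit 5) (nat_lit 48) (nat_lit 5) (nat_lit 49) (nat_lit 5) (nat_lit 415) (nat_lit 372) (nat_lit 233)))))) (XT.nd (nat_lit 468) (nat_lit 532) (nat_lit 0) (XT.nd (nat_lit 234) (nat_lit 152) (nat_lit 0) (XT.nd (nat_lit 78) (nat_lit 152) (nat_lit 0) (XT.lf (nat_lit 0) (nat_lit 8121363692) (nat_lit 152) (nat_lit 3462478133) (nat_lit 228) (nat_lit 57763527053) (nat_lit 43) (nat_lit 5) (nat_lit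 45) (nat_lit 5) (nat_lit 46) (nat_lit 5) (nat_lit 416) (nat_lit 372) (nat_lit 232)) (XT.nd (nat_lit 78) (nat_lit 152) (nat_lit 0) (XT.lf (nat_lit 0) (nat_lit 27813026049) (nat_lit 228) (nat_lit 24512440306) (nat_lit 76) (nat_lit 19340924357) (nat_lit 43) (nat_lit 5) (nat_lit 46) (nat_lit 5) (nat_lit 44) (nat_lit 5) (nat_lit 417) (nat_lit 372) (nat_lit 231)) (XT.lf (nat_lit 0) (nat_lit 14438197246) (nat_lit 152) (nat_lit 30695336751) (nat_lit 228) (nat_lit 28953837081) (nat_lit 41) (nat_lit 5) (nat_lit 43) (nat_lit 5) (nat_lit 44) (nat_lit 5) (nat_lit 418) (nat_lit 372) (nat_lit 230)))) (XT.nd (nat_lit 78) (nat_lit 152) (nat_lit 0) (XT.lf (nat_lit 0) (nat_lit 56183490944) (nat_lit 152) (nat_lit 7549437910) (nat_lit 228) (nat_lit 12875829169) (nat_lit 41) (nat_lit 5) (nat_lit 43) (nat_lit 5) (nat_lit 44) (nat_lit 5) (nat_lit 419) (nat_lit 372) (nat_lit 229)) (XT.nd (nat_lit 78) (nat_lit 0)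 (nat_lit 0) (XT.lf (nat_lit 0) (nat_lit 4477474631) (nat_lit 152) (nat_lit 58126824800) (nat_lit 76) (nat_lit 16618807401) (nat_lit 39) (nat_lit 5) (nat_lit 41) (nat_lit 5) (nat_lit 40) (nat_lit 5) (nat_lit 420) (nat_lit 372) (nat_lit 228)) (XT.lf (nat_lit 0) (nat_lit 22738900598) (nat_lit 152) (nat_lit 16892163611) (nat_lit 76) (nat_lit 42302897002) (nat_lit 39) (nat_lit 5) (nat_lit 41) (nat_lit 5) (nat_lit 40) (nat_lit 5) (nat_lit 421) (nat_lit 372) (nat_lit 227))))) (XT.nd (nat_lit 234) (nat_lit 304) (nat_lit 0) (XT.nd (nat_lit 78) (nat_lit 76) (nat_lit 0) (XT.lf (nat_lit 0) (nat_lit 27273532341) (nat_lit 152) (nat_lit 15063610865) (nat_lit 228) (nat_lit 42422028358) (nat_lit 37) (nat_lit 5) (nat_lit 39) (nat_lit 5) (nat_lit 40) (nat_lit 5) (nat_lit 422) (nat_lit 372) (nat_lit 226)) (XT.nd (nat_lit 78) (nat_lit 76) (nat_lit 0) (XT.lf (nat_lit 0) (nat_lit 63371572734) (nat_lit 228) (nat_lit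 13653258628) (nat_lit 76) (nat_lit 10677997830) (nat_lit 37) (nat_lit 5) (nat_lit 40) (nat_lit 5) (nat_lit 38) (nat_lit 4) (nat_lit 423) (nat_lit 372) (nat_lit 225)) (XT.lf (nat_lit 0) (nat_lit 33182371903) (nat_lit 76) (nat_lit 53038411887) (nat_lit 152) (nat_lit 4534733383) (nat_lit 36) (nat_lit 5) (nat_lit 37) (nat_lit 5) (nat_lit 38) (nat_lit 4) (nat_lit 424) (nat_lit 372) (nat_lit 224)))) (XT.nd (nat_lit 156) (nat_lit 76) (nat_lit 0) (XT.nd (nat_lit 78) (nat_lit 152) (nat_lit 0) (XT.lf (nat_lit 0) (nat_lit 15964531513) (nat_lit 152) (nat_lit 11376484520) (nat_lit 76) (nat_lit 66595483844) (nat_lit 35) (nat_lit 5) (nat_lit 37) (nat_lit 5) (nat_lit 36) (nat_lit 5) (nat_lit 425) (nat_lit 372) (nat_lit 223)) (XT.lf (nat_lit 0) (nat_lit 37937519859) (nat_lit 228) (nat_lit 58970942136) (nat_lit 76) (nat_lit 334295287) (nat_lit 33) (nat_lit 5) (nat_lit 36) (nat_lit 5) (nat_lit 34) (nat_lit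 4) (nat_lit 426) (nat_lit 372) (nat_lit 222))) (XT.nd (nat_lit 78) (nat_lit 76) (nat_lit 0) (XT.lf (nat_lit 0) (nat_lit 61651357069) (nat_lit 228) (nat_lit 10361896799) (nat_lit 76) (nat_lit 28668964108) (nat_lit 33) (nat_lit 5) (nat_lit 36) (nat_lit 5) (nat_lit 34) (nat_lit 4) (nat_lit 427) (nat_lit 372) (nat_lit 221)) (XT.lf (nat_lit 0) (nat_lit 42019313280) (nat_lit 76) (nat_lit 45185860990) (nat_lit 152) (nat_lit 17055763398) (nat_lit 32) (nat_lit 5) (nat_lit 33) (nat_lit 5) (nat_lit 34) (nat_lit 4) (nat_lit 428) (nat_lit 372) (nat_lit 220))))))))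
noncomputable def xc174 : XT := (XT.nd (nat_lit 1950) (nat_lit 608) (nat_lit 0) (XT.nd (nat_lit 936) (nat_lit 532) (nat_lit 0) (XT.nd (nat_lit 468) (nat_lit 304) (nat_lit 0) (XT.nd (nat_lit 234) (nat_lit 228) (nat_lit 0) (XT.nd (nat_lit 78) (nat_lit 152) (nat_lit 0) (XT.lf (nat_lit 0) (nat_lit 6002088208) (nat_lit 152) (nat_lit 10730504553) (nat_lit 76) (nat_lit 91272472177) (nat_lit 31) (nat_lit 5) (nat_lit 33) (nat_lit 5) (nat_lit 32) (nat_lit 5) (nat_lit 429) (nat_lit 372) (nat_lit 219)) (XT.nd (nat_lit 78) (nat_lit 0) (nat_lit 0) (XT.lf (nat_lit 0) (nat_lit 30553875555) (nat_lit 228) (nat_lit 67611170150) (nat_lit 76) (nat_lit 13711661621) (nat_lit 29) (nat_lit 5) (nat_lit 32) (nat_lit 5) (nat_lit 30) (nat_lit 4) (nat_lit 430) (nat_lit 372) (nat_lit 218)) (XT.lf (nat_lit 0) (nat_lit 56790612372) (nat_lit 228) (nat_lit 13829245249) (nat_lit 76) (nat_lit 45299206514) (nat_lit 29) (nat_lit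 5) (nat_lit 32) (nat_lit 5) (nat_lit 30) (nat_lit 4) (nat_lit 431) (nat_lit 372) (nat_lit 217)))) (XT.nd (nat_lit 78) (nat_lit 152) (nat_lit 0) (XT.lf (nat_lit 0) (nat_lit 44048718854) (nat_lit 76) (nat_lit 40976619594) (nat_lit 152) (nat_lit 35103893005) (nat_lit 28) (nat_lit 5) (nat_lit 29) (nat_lit 5) (nat_lit 30) (nat_lit 4) (nat_lit 432) (nat_lit 372) (nat_lit 216)) (XT.nd (nat_lit 78) (nat_lit 152) (nat_lit 0) (XT.lf (nat_lit 0) (nat_lit 105297856828) (nat_lit 76) (nat_lit 9606607859) (nat_lit 152) (nat_lit 9633809536) (nat_lit 28) (nat_lit 5) (nat_lit 29) (nat_lit 5) (nat_lit 30) (nat_lit 4) (nat_lit 433) (nat_lit 372) (nat_lit 215)) (XT.lf (nat_lit 0) (nat_lit 17587856139) (nat_lit 152) (nat_lit 88001295261) (nat_lit 76) (nat_lit 23513976512) (nat_lit 26) (nat_lit 5) (nat_lit 28) (nat_lit 5) (nat_lit 27) (nat_lit 4) (nat_lit 434) (nat_lit 372) (nat_lit 214))))) (XT.nd (nat_lit 234)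 (nat_lit 228) (nat_lit 0) (XT.nd (nat_lit 78) (nat_lit 76) (nat_lit 0) (XT.lf (nat_lit 0) (nat_lit 46334035925) (nat_lit 152) (nat_lit 29074279384) (nat_lit 76) (nat_lit 58455653153) (nat_lit 26) (nat_lit 5) (nat_lit 28) (nat_lit 5) (nat_lit 27) (nat_lit 4) (nat_lit 435) (nat_lit 372) (nat_lit 213)) (XT.nd (nat_lit 78) (nat_lit 0) (nat_lit 0) (XT.lf (nat_lit 0) (nat_lit 33880849860) (nat_lit 76) (nat_lit 43164237583) (nat_lit 152) (nat_lit 61791385687) (nat_lit 25) (nat_lit 5) (nat_lit 26) (nat_lit 5) (nat_lit 27) (nat_lit 4) (nat_lit 436) (nat_lit 372) (nat_lit 212)) (XT.lf (nat_lit 0) (nat_lit 100990535205) (nat_lit 76) (nat_lit 8792157802) (nat_lit 152) (nat_lit 34250360167) (nat_lit 25) (nat_lit 5) (nat_lit 26) (nat_lit 5) (nat_lit 27) (nat_lit 4) (nat_lit 437) (nat_lit 372) (nat_lit 211)))) (XT.nd (nat_lit 78) (nat_lit 152) (nat_lit 0) (XT.lf (nat_lit 0) (nat_lit 22249645300) (nat_lit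 76) (nat_lit 122679781857) (nat_lit 76) (nat_lit 4521422857) (nat_lit 24) (nat_lit 4) (nat_lit 25) (nat_lit 5) (nat_lit 25) (nat_lit 4) (nat_lit 438) (nat_lit 372) (nat_lit 210)) (XT.nd (nat_lit 78) (nat_lit 76) (nat_lit 0) (XT.lf (nat_lit 0) (nat_lit 26723283177) (nat_lit 152) (nat_lit 63377706933) (nat_lit 76) (nat_lit 64973523628) (nat_lit 23) (nat_lit 5) (nat_lit 25) (nat_lit 5) (nat_lit 24) (nat_lit 4) (nat_lit 439) (nat_lit 372) (nat_lit 209)) (XT.lf (nat_lit 0) (nat_lit 3678166359) (nat_lit 76) (nat_lit 55756264509) (nat_lit 152) (nat_lit 101538416085) (nat_lit 22) (nat_lit 5) (nat_lit 23) (nat_lit 5) (nat_lit 24) (nat_lit 4) (nat_lit 440) (nat_lit 372) (nat_lit 208)))))) (XT.nd (nat_lit 468) (nat_lit 304) (nat_lit 0) (XT.nd (nat_lit 234) (nat_lit 152) (nat_lit 0) (XT.nd (nat_lit 78) (nat_lit 76) (nat_lit 0) (XT.lf (nat_lit 0) (nat_lit 76284800946) (nat_lit 76) (nat_lit 18568420068)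 (nat_lit 152) (nat_lit 72259271730) (nat_lit 22) (nat_lit 5) (nat_lit 23) (nat_lit 5) (nat_lit 24) (nat_lit 4) (nat_lit 441) (nat_lit 372) (nat_lit 207)) (XT.nd (nat_lit 78) (nat_lit 76) (nat_lit 0) (XT.lf (nat_lit 0) (nat_lit 132361478113) (nat_lit 152) (nat_lit 21359378940) (nat_lit 0) (nat_lit 19822337564) (nat_lit 22) (nat_lit 5) (nat_lit 24) (nat_lit 4) (nat_lit 22) (nat_lit 4) (nat_lit 442) (nat_lit 372) (nat_lit 206)) (XT.lf (nat_lit 0) (nat_lit 52971173149) (nat_lit 76) (nat_lit 119904256781) (nat_lit 76) (nat_lit 7363487713) (nat_lit 21) (nat_lit 4) (nat_lit 22) (nat_lit 5) (nat_lit 22) (nat_lit 4) (nat_lit 443) (nat_lit 372) (nat_lit 205)))) (XT.nd (nat_lit 78) (nat_lit 76) (nat_lit 0) (XT.lf (nat_lit 0) (nat_lit 27611332835) (nat_lit 152) (nat_lit 55939087723) (nat_lit 76) (nat_lit 103678708928) (nat_lit 20) (nat_lit 5) (nat_lit 22) (nat_lit 5) (nat_lit 21) (nat_lit 4) (nat_lit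 444) (nat_lit 372) (nat_lit 204)) (XT.nd (nat_lit 78) (nat_lit 0) (nat_lit 0) (XT.lf (nat_lit 0) (nat_lit 19455916782) (nat_lit 76) (nat_lit 44934187575) (nat_lit 152) (nat_lit 130157578482) (nat_lit 19) (nat_lit 5) (nat_lit 20) (nat_lit 5) (nat_lit 21) (nat_lit 4) (nat_lit 445) (nat_lit 372) (nat_lit 203)) (XT.lf (nat_lit 0) (nat_lit 100560700891) (nat_lit 76) (nat_lit 3393399019) (nat_lit 152) (nat_lit 98230749804) (nat_lit 19) (nat_lit 5) (nat_lit 20) (nat_lit 5) (nat_lit 21) (nat_lit 4) (nat_lit 446) (nat_lit 372) (nat_lit 202))))) (XT.nd (nat_lit 234) (nat_lit 152) (nat_lit 0) (XT.nd (nat_lit 78) (nat_lit 152) (nat_lit 0) (XT.lf (nat_lit 0) (nat_lit 146123277636) (nat_lit 152) (nat_lit 25113155150) (nat_lit 0) (nat_lit 38936093148) (nat_lit 19) (nat_lit 5) (nat_lit 21) (nat_lit 4) (nat_lit 19) (nat_lit 4) (nat_lit 447) (nat_lit 372) (nat_lit 201)) (XT.nd (nat_lit 78) (nat_lit 76) (nat_lit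 0) (XT.lf (nat_lit 0) (nat_lit 56989897676) (nat_lit 76) (nat_lit 134355433631) (nat_lit 76) (nat_lit 27167033918) (nat_lit 18) (nat_lit 4) (nat_lit 19) (nat_lit 5) (nat_lit 19) (nat_lit 4) (nat_lit 448) (nat_lit 372) (nat_lit 200)) (XT.lf (nat_lit 0) (nat_lit 11620614683) (nat_lit 152) (nat_lit 83367296969) (nat_lit 76) (nat_lit 132250696638) (nat_lit 17) (nat_lit 5) (nat_lit 19) (nat_lit 5) (nat_lit 18) (nat_lit 4) (nat_lit 449) (nat_lit 372) (nat_lit 199)))) (XT.nd (nat_lit 156) (nat_lit 76) (nat_lit 0) (XT.nd (nat_lit 78) (nat_lit 76) (nat_lit 0) (XT.lf (nat_lit 0) (nat_lit 51433719411) (nat_lit 152) (nat_lit 1751534522) (nat_lit 76) (nat_lit 183193688405) (nat_lit 17) (nat_lit 5) (nat_lit 19) (nat_lit 5) (nat_lit 18) (nat_lit 4) (nat_lit 450) (nat_lit 372) (nat_lit 198)) (XT.lf (nat_lit 0) (nat_lit 86718841051) (nat_lit 76) (nat_lit 7871671204) (nat_lit 152) (nat_lit 151318129284) (nat_lit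 16) (nat_lit 5) (nat_lit 17) (nat_lit 5) (nat_lit 18) (nat_lit 4) (nat_lit 451) (nat_lit 372) (nat_lit 197))) (XT.nd (nat_lit 78) (nat_lit 76) (nat_lit 0) (XT.lf (nat_lit 0) (nat_lit 140554352901) (nat_lit 152) (nat_lit 76861953716) (nat_lit 0) (nat_lit 38466058765) (nat_lit 16) (nat_lit 5) (nat_lit 18) (nat_lit 4) (nat_lit 16) (nat_lit 4) (nat_lit 452) (nat_lit 372) (nat_lit 196)) (XT.lf (nat_lit 0) (nat_lit 9764113402) (nat_lit 76) (nat_lit 179332915447) (nat_lit 76) (nat_lit 77243714491) (nat_lit 15) (nat_lit 4) (nat_lit 16) (nat_lit 5) (nat_lit 16) (nat_lit 4) (nat_lit 453) (nat_lit 372) (nat_lit 195))))))) (XT.nd (nat_lit 1014) (nat_lit 228) (nat_lit 0) (XT.nd (nat_lit 468) (nat_lit 228) (nat_lit 0) (XT.nd (nat_lit 234) (nat_lit 0) (nat_lit 0) (XT.nd (nat_lit 78) (nat_lit 152) (nat_lit 0) (XT.lf (nat_lit 0) (nat_lit 103388343009) (nat_lit 76) (nat_lit 137979359337) (nat_lit 76) (nat_lit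 35889294744) (nat_lit 15) (nat_lit 4) (nat_lit 16) (nat_lit 5) (nat_lit 16) (nat_lit 4) (nat_lit 454) (nat_lit 372) (nat_lit 194)) (XT.nd (nat_lit 78) (nat_lit 76) (nat_lit 0) (XT.lf (nat_lit 0) (nat_lit 7290943758) (nat_lit 152) (nat_lit 87144452401) (nat_lit 76) (nat_lit 194277827208) (nat_lit 14) (nat_lit 5) (nat_lit 16) (nat_lit 5) (nat_lit 15) (nat_lit 4) (nat_lit 455) (nat_lit 372) (nat_lit 193)) (XT.lf (nat_lit 0) (nat_lit 3436097190) (nat_lit 76) (nat_lit 48040862634) (nat_lit 152) (nat_lit 249233239684) (nat_lit 13) (nat_lit 5) (nat_lit 14) (nat_lit 5) (nat_lit 15) (nat_lit 4) (nat_lit 456) (nat_lit 372) (nat_lit 192)))) (XT.nd (nat_lit 78) (nat_lit 0) (nat_lit 0) (XT.lf (nat_lit 0) (nat_lit 99382054399) (nat_lit 152) (nat_lit 211698299692) (nat_lit 0) (nat_lit 2151181548) (nat_lit 13) (nat_lit 5) (nat_lit 15) (nat_lit 4) (nat_lit 13) (nat_lit 4) (nat_lit 457) (nat_lit 372) (nat_lit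 191)) (XT.nd (nat_lit 78) (nat_lit 0) (nat_lit 0) (XT.lf (nat_lit 0) (nat_lit 150469231801) (nat_lit 152) (nat_lit 122632683167) (nat_lit 0) (nat_lit 53237682267) (nat_lit 13) (nat_lit 5) (nat_lit 15) (nat_lit 4) (nat_lit 13) (nat_lit 4) (nat_lit 458) (nat_lit 372) (nat_lit 190)) (XT.lf (nat_lit 0) (nat_lit 204110075668) (nat_lit 152) (nat_lit 29115139252) (nat_lit 0) (nat_lit 106877881673) (nat_lit 13) (nat_lit 5) (nat_lit 15) (nat_lit 4) (nat_lit 13) (nat_lit 4) (nat_lit 459) (nat_lit 372) (nat_lit 189))))) (XT.nd (nat_lit 234) (nat_lit 76) (nat_lit 0) (XT.nd (nat_lit 78) (nat_lit 76) (nat_lit 0) (XT.lf (nat_lit 0) (nat_lit 71360990215) (nat_lit 76) (nat_lit 190185457124) (nat_lit 76) (nat_lit 92952649358) (nat_lit 12) (nat_lit 4) (nat_lit 13) (nat_lit 5) (nat_lit 13) (nat_lit 4) (nat_lit 460) (nat_lit 372) (nat_lit 188)) (XT.nd (nat_lit 78) (nat_lit 76) (nat_lit 0) (XT.lf (nat_lit 0)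 (nat_lit 177870469851) (nat_lit 76) (nat_lit 144476598881) (nat_lit 76) (nat_lit 47243206572) (nat_lit 12) (nat_lit 4) (nat_lit 13) (nat_lit 5) (nat_lit 13) (nat_lit 4) (nat_lit 461) (nat_lit 372) (nat_lit 187)) (XT.lf (nat_lit 0) (nat_lit 727021842) (nat_lit 152) (nat_lit 95743554241) (nat_lit 76) (nat_lit 288964881352) (nat_lit 11) (nat_lit 5) (nat_lit 13) (nat_lit 5) (nat_lit 12) (nat_lit 4) (nat_lit 462) (nat_lit 372) (nat_lit 186)))) (XT.nd (nat_lit 156) (nat_lit 0) (nat_lit 0) (XT.nd (nat_lit 78) (nat_lit 0) (nat_lit 0) (XT.lf (nat_lit 0) (nat_lit 4396578619) (nat_lit 76) (nat_lit 45179547154) (nat_lit 152) (nat_lit 352454646726) (nat_lit 10) (nat_lit 5) (nat_lit 11) (nat_lit 5) (nat_lit 12) (nat_lit 4) (nat_lit 463) (nat_lit 372) (nat_lit 185)) (XT.lf (nat_lit 0) (nat_lit 102650591253) (nat_lit 152) (nat_lit 306670272367) (nat_lit 0) (nat_lit 10045844426) (nat_lit 10) (nat_lit 5)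 (nat_lit 12) (nat_lit 4) (nat_lit 10) (nat_lit 4) (nat_lit 464) (nat_lit 372) (nat_lit 184))) (XT.nd (nat_lit 78) (nat_lit 0) (nat_lit 0) (XT.lf (nat_lit 0) (nat_lit 159118861055) (nat_lit 152) (nat_lit 211899919083) (nat_lit 0) (nat_lit 66513656222) (nat_lit 10) (nat_lit 5) (nat_lit 12) (nat_lit 4) (nat_lit 10) (nat_lit 4) (nat_lit 465) (nat_lit 372) (nat_lit 183)) (XT.lf (nat_lit 0) (nat_lit 218410004094) (nat_lit 152) (nat_lit 112392110983) (nat_lit 0) (nat_lit 125804363066) (nat_lit 10) (nat_lit 5) (nat_lit 12) (nat_lit 4) (nat_lit 10) (nat_lit 4) (nat_lit 466) (nat_lit 372) (nat_lit 182)))))) (XT.nd (nat_lit 468) (nat_lit 0) (nat_lit 0) (XT.nd (nat_lit 234) (nat_lit 152) (nat_lit 0) (XT.nd (nat_lit 78) (nat_lit 76) (nat_lit 0) (XT.lf (nat_lit 0) (nat_lit 280665189760) (nat_lit 152) (nat_lit 7909924716) (nat_lit 0) (nat_lit 188059133306) (nat_lit 10) (nat_lit 5) (nat_lit 12) (nat_lit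 4) (nat_lit 10) (nat_lit 4) (nat_lit 467) (nat_lit 372) (nat_lit 181)) (XT.nd (nat_lit 78) (nat_lit 0) (nat_lit 0) (XT.lf (nat_lit 0) (nat_lit 105161222699) (nat_lit 76) (nat_lit 242513283384) (nat_lit 76) (nat_lit 149906831289) (nat_lit 9) (nat_lit 4) (nat_lit 10) (nat_lit 5) (nat_lit 10) (nat_lit 4) (nat_lit 468) (nat_lit 372) (nat_lit 180)) (XT.lf (nat_lit 0) (nat_lit 224159593724) (nat_lit 76) (nat_lit 194008171403) (nat_lit 76) (nat_lit 101401342505) (nat_lit 9) (nat_lit 4) (nat_lit 10) (nat_lit 5) (nat_lit 10) (nat_lit 4) (nat_lit 469) (nat_lit 372) (nat_lit 179)))) (XT.nd (nat_lit 78) (nat_lit 152) (nat_lit 0) (XT.lf (nat_lit 0) (nat_lit 349106979980) (nat_lit 76) (nat_lit 143078248572) (nat_lit 76) (nat_lit 50471060814) (nat_lit 9) (nat_lit 4) (nat_lit 10) (nat_lit 5) (nat_lit 10) (nat_lit 4) (nat_lit 470) (nat_lit 372) (nat_lit 178)) (XT.nd (nat_lit 78) (nat_lit 76) (nat_lit 0)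 (XT.lf (nat_lit 0) (nat_lit 2909088745) (nat_lit 152) (nat_lit 86643897599) (nat_lit 76) (nat_lit 477342519673) (nat_lit 8) (nat_lit 5) (nat_lit 10) (nat_lit 5) (nat_lit 9) (nat_lit 4) (nat_lit 471) (nat_lit 372) (nat_lit 177)) (XT.lf (nat_lit 0) (nat_lit 25597847987) (nat_lit 76) (nat_lit 32063470554) (nat_lit 152) (nat_lit 534624033700) (nat_lit 7) (nat_lit 5) (nat_lit 8) (nat_lit 5) (nat_lit 9) (nat_lit 4) (nat_lit 472) (nat_lit 372) (nat_lit 176))))) (XT.nd (nat_lit 45396) (nat_lit 0) (nat_lit 7828) (XT.nd (nat_lit 78) (nat_lit 0) (nat_lit 0) (XT.lf (nat_lit 0) (nat_lit 117083999858) (nat_lit 152) (nat_lit 472878301488) (nat_lit 0) (nat_lit 28885747457) (nat_lit 7) (nat_lit 5) (nat_lit 9) (nat_lit 4) (nat_lit 7) (nat_lit 4) (nat_lit 473) (nat_lit 372) (nat_lit 175)) (XT.nd (nat_lit 45240) (nat_lit 0) (nat_lit 7828) (XT.lf (nat_lit 0) (nat_lit 180003044219) (nat_lit 152) (nat_lit 374905063907)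 (nat_lit 0) (nat_lit 91804510643) (nat_lit 7) (nat_lit 5) (nat_lit 9) (nat_lit 4) (nat_lit 7) (nat_lit 4) (nat_lit 474) (nat_lit 372) (nat_lit 174)) (XT.lf (nat_lit 0) (nat_lit 1245251482) (nat_lit 836) (nat_lit 4494253813) (nat_lit 836) (nat_lit 4494253813) (nat_lit 110) (nat_lit 3) (nat_lit 121) (nat_lit 3) (nat_lit 121) (nat_lit 5) (nat_lit 373) (nat_lit 373) (nat_lit 274)))) (XT.nd (nat_lit 156) (nat_lit 0) (nat_lit 76) (XT.nd (nat_lit 78) (nat_lit 0) (nat_lit 76) (XT.lf (nat_lit 76) (nat_lit 903205571) (nat_lit 0) (nat_lit 1817213434) (nat_lit 836) (nat_lit 18250296066) (nat_lit 111) (nat_lit 5) (nat_lit 110) (nat_lit 3) (nat_lit 121) (nat_lit 5) (nat_lit 374) (nat_lit 373) (nat_lit 273)) (XT.lf (nat_lit 0) (nat_lit 3236728334) (nat_lit 760) (nat_lit 10028317825) (nat_lit 836) (nat_lit 8220287674) (nat_lit 111) (nat_lit 5) (nat_lit 121) (nat_lit 5) (nat_lit 122) (nat_lit 5) (nat_lit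 375) (nat_lit 373) (nat_lit 272))) (XT.nd (nat_lit 78) (nat_lit 0) (nat_lit 76) (XT.lf (nat_lit 76) (nat_lit 493201332) (nat_lit 0) (nat_lit 3313770005) (nat_lit 836) (nat_lit 18217312897) (nat_lit 112) (nat_lit 5) (nat_lit 111) (nat_lit 5) (nat_lit 122) (nat_lit 5) (nat_lit 376) (nat_lit 373) (nat_lit 271)) (XT.lf (nat_lit 0) (nat_lit 4680785222) (nat_lit 760) (nat_lit 10812963718) (nat_lit 836) (nat_lit 7082686573) (nat_lit 112) (nat_lit 5) (nat_lit 122) (nat_lit 5) (nat_lit 123) (nat_lit 5) (nat_lit 377) (nat_lit 373) (nat_lit 270))))))))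
noncomputable def xc175 : XT := (XT.nd (nat_lit 2028) (nat_lit 2432) (nat_lit 0) (XT.nd (nat_lit 1014) (nat_lit 1976) (nat_lit 0) (XT.nd (nat_lit 468) (nat_lit 1672) (nat_lit 0) (XT.nd (nat_lit 234) (nat_lit 0) (nat_lit 152) (XT.nd (nat_lit 78) (nat_lit 0) (nat_lit 76) (XT.lf (nat_lit 76) (nat_lit 393574478) (nat_lit 0) (nat_lit 5256652513) (nat_lit 836) (nat_lit 17503376500) (nat_lit 113) (nat_lit 5) (nat_lit 112) (nat_lit 5) (nat_lit 123) (nat_lit 5) (nat_lit 378) (nat_lit 373) (nat_lit 269)) (XT.nd (nat_lit 78) (nat_lit 0) (nat_lit 0) (XT.lf (nat_lit 0) (nat_lit 6931841669) (nat_lit 760) (nat_lit 11309507615) (nat_lit 836) (nat_lit 5505101255) (nat_lit 113) (nat_lit 5) (nat_lit 123) (nat_lit 5) (nat_lit 124) (nat_lit 5) (nat_lit 379) (nat_lit 373) (nat_lit 268)) (XT.lf (nat_lit 76) (nat_lit 642084542) (nat_lit 0) (nat_lit 7723867011) (nat_lit 836) (nat_lit 15998573101) (nat_lit 114) (nat_lit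 5) (nat_lit 113) (nat_lit 5) (nat_lit 124) (nat_lit 5) (nat_lit 380) (nat_lit 373) (nat_lit 267)))) (XT.nd (nat_lit 78) (nat_lit 0) (nat_lit 0) (XT.lf (nat_lit 0) (nat_lit 10110789131) (nat_lit 760) (nat_lit 11481140687) (nat_lit 836) (nat_lit 3409626725) (nat_lit 114) (nat_lit 5) (nat_lit 124) (nat_lit 5) (nat_lit 125) (nat_lit 5) (nat_lit 381) (nat_lit 373) (nat_lit 266)) (XT.nd (nat_lit 78) (nat_lit 0) (nat_lit 76) (XT.lf (nat_lit 76) (nat_lit 1280742028) (nat_lit 0) (nat_lit 10801623126) (nat_lit 836) (nat_lit 13581104978) (nat_lit 115) (nat_lit 5) (nat_lit 114) (nat_lit 5) (nat_lit 125) (nat_lit 5) (nat_lit 382) (nat_lit 373) (nat_lit 265)) (XT.lf (nat_lit 0) (nat_lit 14351539186) (nat_lit 760) (nat_lit 11286997370) (nat_lit 76) (nat_lit 709996580) (nat_lit 115) (nat_lit 5) (nat_lit 125) (nat_lit 5) (nat_lit 116) (nat_lit 5) (nat_lit 383) (nat_lit 373) (nat_lit 264))))) (XT.nd (nat_lit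 234) (nat_lit 760) (nat_lit 0) (XT.nd (nat_lit 78) (nat_lit 380) (nat_lit 0) (XT.lf (nat_lit 0) (nat_lit 2356019172) (nat_lit 760) (nat_lit 14585485313) (nat_lit 836) (nat_lit 10115982653) (nat_lit 105) (nat_lit 5) (nat_lit 115) (nat_lit 5) (nat_lit 116) (nat_lit 5) (nat_lit 384) (nat_lit 373) (nat_lit 263)) (XT.nd (nat_lit 78) (nat_lit 380) (nat_lit 0) (XT.lf (nat_lit 0) (nat_lit 17067307409) (nat_lit 760) (nat_lit 2778505351) (nat_lit 836) (nat_lit 7946838105) (nat_lit 105) (nat_lit 5) (nat_lit 115) (nat_lit 5) (nat_lit 116) (nat_lit 5) (nat_lit 385) (nat_lit 373) (nat_lit 262)) (XT.lf (nat_lit 0) (nat_lit 3919067376) (nat_lit 380) (nat_lit 19181636171) (nat_lit 456) (nat_lit 5453604934) (nat_lit 100) (nat_lit 5) (nat_lit 105) (nat_lit 5) (nat_lit 106) (nat_lit 5) (nat_lit 386) (nat_lit 373) (nat_lit 261)))) (XT.nd (nat_lit 156) (nat_lit 380) (nat_lit 0) (XT.nd (nat_lit 78) (nat_lit 380)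 (nat_lit 0) (XT.lf (nat_lit 0) (nat_lit 19615318577) (nat_lit 380) (nat_lit 7123673296) (nat_lit 456) (nat_lit 2604028321) (nat_lit 100) (nat_lit 5) (nat_lit 105) (nat_lit 5) (nat_lit 106) (nat_lit 5) (nat_lit 387) (nat_lit 373) (nat_lit 260)) (XT.lf (nat_lit 0) (nat_lit 553483506) (nat_lit 380) (nat_lit 24145411883) (nat_lit 76) (nat_lit 5463078915) (nat_lit 95) (nat_lit 5) (nat_lit 100) (nat_lit 5) (nat_lit 96) (nat_lit 5) (nat_lit 388) (nat_lit 373) (nat_lit 259))) (XT.nd (nat_lit 78) (nat_lit 380) (nat_lit 0) (XT.lf (nat_lit 0) (nat_lit 4060145965) (nat_lit 380) (nat_lit 8295833444) (nat_lit 76) (nat_lit 18649826227) (nat_lit 95) (nat_lit 5) (nat_lit 100) (nat_lit 5) (nat_lit 96) (nat_lit 5) (nat_lit 389) (nat_lit 373) (nat_lit 258)) (XT.lf (nat_lit 0) (nat_lit 7883121627) (nat_lit 456) (nat_lit 23280501549) (nat_lit 76) (nat_lit 721159534) (nat_lit 90) (nat_lit 5) (nat_lit 96) (nat_lit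 5) (nat_lit 91) (nat_lit 5) (nat_lit 390) (nat_lit 373) (nat_lit 257)))))) (XT.nd (nat_lit 468) (nat_lit 1064) (nat_lit 0) (XT.nd (nat_lit 234) (nat_lit 608) (nat_lit 0) (XT.nd (nat_lit 78) (nat_lit 304) (nat_lit 0) (XT.lf (nat_lit 0) (nat_lit 12237576739) (nat_lit 456) (nat_lit 6373799927) (nat_lit 76) (nat_lit 14179318466) (nat_lit 90) (nat_lit 5) (nat_lit 96) (nat_lit 5) (nat_lit 91) (nat_lit 5) (nat_lit 391) (nat_lit 373) (nat_lit 256)) (XT.nd (nat_lit 78) (nat_lit 0) (nat_lit 0) (XT.lf (nat_lit 0) (nat_lit 11748874246) (nat_lit 304) (nat_lit 5239528922) (nat_lit 380) (nat_lit 16744570464) (nat_lit 86) (nat_lit 5) (nat_lit 90) (nat_lit 5) (nat_lit 91) (nat_lit 5) (nat_lit 392) (nat_lit 373) (nat_lit 255)) (XT.lf (nat_lit 0) (nat_lit 22219240829) (nat_lit 380) (nat_lit 3862716258) (nat_lit 76) (nat_lit 8628288222) (nat_lit 86) (nat_lit 5) (nat_lit 91) (nat_lit 5) (nat_lit 87) (nat_lit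 5) (nat_lit 393) (nat_lit 373) (nat_lit 254)))) (XT.nd (nat_lit 78) (nat_lit 304) (nat_lit 0) (XT.lf (nat_lit 0) (nat_lit 15571969048) (nat_lit 304) (nat_lit 12464238814) (nat_lit 380) (nat_lit 7683945947) (nat_lit 82) (nat_lit 5) (nat_lit 86) (nat_lit 5) (nat_lit 87) (nat_lit 5) (nat_lit 394) (nat_lit 373) (nat_lit 253)) (XT.nd (nat_lit 78) (nat_lit 304) (nat_lit 0) (XT.lf (nat_lit 0) (nat_lit 34234839695) (nat_lit 380) (nat_lit 699897275) (nat_lit 76) (nat_lit 1841282434) (nat_lit 82) (nat_lit 5) (nat_lit 87) (nat_lit 5) (nat_lit 83) (nat_lit 5) (nat_lit 395) (nat_lit 373) (nat_lit 252)) (XT.lf (nat_lit 0) (nat_lit 3290590487) (nat_lit 304) (nat_lit 17755537816) (nat_lit 76) (nat_lit 16810152465) (nat_lit 78) (nat_lit 5) (nat_lit 82) (nat_lit 5) (nat_lit 79) (nat_lit 5) (nat_lit 396) (nat_lit 373) (nat_lit 251))))) (XT.nd (nat_lit 234) (nat_lit 532) (nat_lit 0) (XT.nd (nat_lit 78) (nat_lit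 228) (nat_lit 0) (XT.lf (nat_lit 0) (nat_lit 3025546324) (nat_lit 304) (nat_lit 6358229175) (nat_lit 380) (nat_lit 29601937590) (nat_lit 74) (nat_lit 5) (nat_lit 78) (nat_lit 5) (nat_lit 79) (nat_lit 5) (nat_lit 397) (nat_lit 373) (nat_lit 250)) (XT.nd (nat_lit 78) (nat_lit 228) (nat_lit 0) (XT.lf (nat_lit 0) (nat_lit 16224800689) (nat_lit 380) (nat_lit 14846196210) (nat_lit 76) (nat_lit 9078463129) (nat_lit 74) (nat_lit 5) (nat_lit 79) (nat_lit 5) (nat_lit 75) (nat_lit 5) (nat_lit 398) (nat_lit 373) (nat_lit 249)) (XT.lf (nat_lit 0) (nat_lit 7452739501) (nat_lit 228) (nat_lit 16171955109) (nat_lit 304) (nat_lit 17735860784) (nat_lit 71) (nat_lit 5) (nat_lit 74) (nat_lit 5) (nat_lit 75) (nat_lit 5) (nat_lit 399) (nat_lit 373) (nat_lit 248)))) (XT.nd (nat_lit 156) (nat_lit 304) (nat_lit 0) (XT.nd (nat_lit 78) (nat_lit 228) (nat_lit 0) (XT.lf (nat_lit 0) (nat_lit 31377095295) (nat_lit 228)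 (nat_lit 265243886) (nat_lit 304) (nat_lit 10977480407) (nat_lit 71) (nat_lit 5) (nat_lit 74) (nat_lit 5) (nat_lit 75) (nat_lit 5) (nat_lit 400) (nat_lit 373) (nat_lit 247)) (XT.lf (nat_lit 0) (nat_lit 12700621737) (nat_lit 228) (nat_lit 27811645318) (nat_lit 304) (nat_lit 3407211655) (nat_lit 68) (nat_lit 5) (nat_lit 71) (nat_lit 5) (nat_lit 72) (nat_lit 5) (nat_lit 401) (nat_lit 373) (nat_lit 246))) (XT.nd (nat_lit 78) (nat_lit 228) (nat_lit 0) (XT.lf (nat_lit 0) (nat_lit 4590601482) (nat_lit 304) (nat_lit 7126432779) (nat_lit 76) (nat_lit 33553823322) (nat_lit 67) (nat_lit 5) (nat_lit 71) (nat_lit 5) (nat_lit 68) (nat_lit 5) (nat_lit 402) (nat_lit 373) (nat_lit 245)) (XT.lf (nat_lit 0) (nat_lit 13249176629) (nat_lit 304) (nat_lit 28050289485) (nat_lit 76) (nat_lit 5368779218) (nat_lit 64) (nat_lit 5) (nat_lit 68) (nat_lit 5) (nat_lit 65) (nat_lit 5) (nat_lit 403) (nat_lit 373) (nat_lit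 244))))))) (XT.nd (nat_lit 1014) (nat_lit 1064) (nat_lit 0) (XT.nd (nat_lit 468) (nat_lit 684) (nat_lit 0) (XT.nd (nat_lit 234) (nat_lit 304) (nat_lit 0) (XT.nd (nat_lit 78) (nat_lit 380) (nat_lit 0) (XT.lf (nat_lit 0) (nat_lit 22652180472) (nat_lit 304) (nat_lit 2431296406) (nat_lit 76) (nat_lit 23036452050) (nat_lit 64) (nat_lit 5) (nat_lit 68) (nat_lit 5) (nat_lit 65) (nat_lit 5) (nat_lit 404) (nat_lit 373) (nat_lit 243)) (XT.nd (nat_lit 78) (nat_lit 152) (nat_lit 0) (XT.lf (nat_lit 0) (nat_lit 25273021879) (nat_lit 228) (nat_lit 7643799428) (nat_lit 304) (nat_lit 16707802445) (nat_lit 61) (nat_lit 5) (nat_lit 64) (nat_lit 5) (nat_lit 65) (nat_lit 5) (nat_lit 405) (nat_lit 373) (nat_lit 242)) (XT.lf (nat_lit 0) (nat_lit 3174260569) (nat_lit 152) (nat_lit 40775357932) (nat_lit 228) (nat_lit 7242189921) (nat_lit 59) (nat_lit 5) (nat_lit 61) (nat_lit 5) (nat_lit 62) (nat_lit 5) (nat_lit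 406) (nat_lit 373) (nat_lit 241)))) (XT.nd (nat_lit 78) (nat_lit 228) (nat_lit 0) (XT.lf (nat_lit 0) (nat_lit 3151851441) (nat_lit 228) (nat_lit 20073658404) (nat_lit 76) (nat_lit 29582665546) (nat_lit 58) (nat_lit 5) (nat_lit 61) (nat_lit 5) (nat_lit 59) (nat_lit 5) (nat_lit 407) (nat_lit 373) (nat_lit 240)) (XT.nd (nat_lit 78) (nat_lit 0) (nat_lit 0) (XT.lf (nat_lit 0) (nat_lit 9446669600) (nat_lit 228) (nat_lit 4520157236) (nat_lit 304) (nat_lit 40525367940) (nat_lit 55) (nat_lit 5) (nat_lit 58) (nat_lit 5) (nat_lit 59) (nat_lit 5) (nat_lit 408) (nat_lit 373) (nat_lit 239)) (XT.lf (nat_lit 0) (nat_lit 25901327873) (nat_lit 304) (nat_lit 15349567883) (nat_lit 76) (nat_lit 14980581619) (nat_lit 55) (nat_lit 5) (nat_lit 59) (nat_lit 5) (nat_lit 56) (nat_lit 5) (nat_lit 409) (nat_lit 373) (nat_lit 238))))) (XT.nd (nat_lit 234) (nat_lit 304) (nat_lit 0) (XT.nd (nat_lit 78) (nat_lit 228) (nat_lit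 0) (XT.lf (nat_lit 0) (nat_lit 16273727403) (nat_lit 152) (nat_lit 22484314447) (nat_lit 228) (nat_lit 19283408895) (nat_lit 53) (nat_lit 5) (nat_lit 55) (nat_lit 5) (nat_lit 56) (nat_lit 5) (nat_lit 410) (nat_lit 373) (nat_lit 237)) (XT.nd (nat_lit 78) (nat_lit 228) (nat_lit 0) (XT.lf (nat_lit 0) (nat_lit 50006938010) (nat_lit 152) (nat_lit 2507977682) (nat_lit 228) (nat_lit 7414141868) (nat_lit 53) (nat_lit 5) (nat_lit 55) (nat_lit 5) (nat_lit 56) (nat_lit 5) (nat_lit 411) (nat_lit 373) (nat_lit 236)) (XT.lf (nat_lit 0) (nat_lit 5558196327) (nat_lit 228) (nat_lit 37976423062) (nat_lit 76) (nat_lit 18338925382) (nat_lit 50) (nat_lit 5) (nat_lit 53) (nat_lit 5) (nat_lit 51) (nat_lit 5) (nat_lit 412) (nat_lit 373) (nat_lit 235)))) (XT.nd (nat_lit 156) (nat_lit 152) (nat_lit 0) (XT.nd (nat_lit 78) (nat_lit 152) (nat_lit 0) (XT.lf (nat_lit 0) (nat_lit 19139383546) (nat_lit 228) (nat_lit 4324544195)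 (nat_lit 76) (nat_lit 40434782492) (nat_lit 50) (nat_lit 5) (nat_lit 53) (nat_lit 5) (nat_lit 51) (nat_lit 5) (nat_lit 413) (nat_lit 373) (nat_lit 234)) (XT.lf (nat_lit 0) (nat_lit 32031246757) (nat_lit 152) (nat_lit 1866091306) (nat_lit 228) (nat_lit 32102911321) (nat_lit 48) (nat_lit 5) (nat_lit 50) (nat_lit 5) (nat_lit 51) (nat_lit 5) (nat_lit 414) (nat_lit 373) (nat_lit 233))) (XT.nd (nat_lit 78) (nat_lit 0) (nat_lit 0) (XT.lf (nat_lit 0) (nat_lit 1881954210) (nat_lit 152) (nat_lit 47937626932) (nat_lit 228) (nat_lit 18365965580) (nat_lit 46) (nat_lit 5) (nat_lit 48) (nat_lit 5) (nat_lit 49) (nat_lit 5) (nat_lit 415) (nat_lit 373) (nat_lit 232)) (XT.lf (nat_lit 0) (nat_lit 40669332358) (nat_lit 152) (nat_lit 26471677361) (nat_lit 228) (nat_lit 3308946277) (nat_lit 46) (nat_lit 5) (nat_lit 48) (nat_lit 5) (nat_lit 49) (nat_lit 5) (nat_lit 416) (nat_lit 373) (nat_lit 231)))))) (XT.nd (nat_lit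 468) (nat_lit 532) (nat_lit 0) (XT.nd (nat_lit 234) (nat_lit 152) (nat_lit 0) (XT.nd (nat_lit 78) (nat_lit 152) (nat_lit 0) (XT.lf (nat_lit 0) (nat_lit 8646313663) (nat_lit 152) (nat_lit 3587262620) (nat_lit 228) (nat_lit 60577613398) (nat_lit 43) (nat_lit 5) (nat_lit 45) (nat_lit 5) (nat_lit 46) (nat_lit 5) (nat_lit 417) (nat_lit 373) (nat_lit 230)) (XT.nd (nat_lit 78) (nat_lit 152) (nat_lit 0) (XT.lf (nat_lit 0) (nat_lit 29271579332) (nat_lit 228) (nat_lit 25622181641) (nat_lit 76) (nat_lit 20352534629) (nat_lit 43) (nat_lit 5) (nat_lit 46) (nat_lit 5) (nat_lit 44) (nat_lit 5) (nat_lit 418) (nat_lit 373) (nat_lit 229)) (XT.lf (nat_lit 0) (nat_lit 15274118744) (nat_lit 152) (nat_lit 32182540547) (nat_lit 228) (nat_lit 30331739296) (nat_lit 41) (nat_lit 5) (nat_lit 43) (nat_lit 5) (nat_lit 44) (nat_lit 5) (nat_lit 419) (nat_lit 373) (nat_lit 228)))) (XT.nd (nat_lit 78) (nat_lit 152) (nat_lit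 0) (XT.lf (nat_lit 0) (nat_lit 59101248002) (nat_lit 152) (nat_lit 7881611670) (nat_lit 228) (nat_lit 13453154305) (nat_lit 41) (nat_lit 5) (nat_lit 43) (nat_lit 5) (nat_lit 44) (nat_lit 5) (nat_lit 420) (nat_lit 373) (nat_lit 227)) (XT.nd (nat_lit 78) (nat_lit 0) (nat_lit 0) (XT.lf (nat_lit 0) (nat_lit 4765042097) (nat_lit 152) (nat_lit 60921777975) (nat_lit 76) (nat_lit 17494241335) (nat_lit 39) (nat_lit 5) (nat_lit 41) (nat_lit 5) (nat_lit 40) (nat_lit 5) (nat_lit 421) (nat_lit 373) (nat_lit 226)) (XT.lf (nat_lit 0) (nat_lit 23936506327) (nat_lit 152) (nat_lit 17630687919) (nat_lit 76) (nat_lit 44460416675) (nat_lit 39) (nat_lit 5) (nat_lit 41) (nat_lit 5) (nat_lit 40) (nat_lit 5) (nat_lit 422) (nat_lit 373) (nat_lit 225))))) (XT.nd (nat_lit 234) (nat_lit 304) (nat_lit 0) (XT.nd (nat_lit 78) (nat_lit 76) (nat_lit 0) (XT.lf (nat_lit 0) (nat_lit 28741581800) (nat_lit 152) (nat_lit 15771820213)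 (nat_lit 228) (nat_lit 44480743460) (nat_lit 37) (nat_lit 5) (nat_lit 39) (nat_lit 5) (nat_lit 40) (nat_lit 5) (nat_lit 423) (nat_lit 373) (nat_lit 224)) (XT.nd (nat_lit 78) (nat_lit 76) (nat_lit 0) (XT.lf (nat_lit 0) (nat_lit 66597393060) (nat_lit 228) (nat_lit 14234345004) (nat_lit 76) (nat_lit 11253356612) (nat_lit 37) (nat_lit 5) (nat_lit 40) (nat_lit 5) (nat_lit 38) (nat_lit 4) (nat_lit 424) (nat_lit 373) (nat_lit 223)) (XT.lf (nat_lit 0) (nat_lit 34941428723) (nat_lit 76) (nat_lit 55646470467) (nat_lit 152) (nat_lit 4702576802) (nat_lit 36) (nat_lit 5) (nat_lit 37) (nat_lit 5) (nat_lit 38) (nat_lit 4) (nat_lit 425) (nat_lit 373) (nat_lit 222)))) (XT.nd (nat_lit 156) (nat_lit 76) (nat_lit 0) (XT.nd (nat_lit 78) (nat_lit 152) (nat_lit 0) (XT.lf (nat_lit 0) (nat_lit 16817051707) (nat_lit 152) (nat_lit 11848322292) (nat_lit 76) (nat_lit 69965224192) (nat_lit 35) (nat_lit 5) (nat_lit 37)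 (nat_lit 5) (nat_lit 36) (nat_lit 5) (nat_lit 426) (nat_lit 373) (nat_lit 221)) (XT.lf (nat_lit 0) (nat_lit 39888253103) (nat_lit 228) (nat_lit 61822054995) (nat_lit 76) (nat_lit 391882757) (nat_lit 33) (nat_lit 5) (nat_lit 36) (nat_lit 5) (nat_lit 34) (nat_lit 4) (nat_lit 427) (nat_lit 373) (nat_lit 220))) (XT.nd (nat_lit 78) (nat_lit 76) (nat_lit 0) (XT.lf (nat_lit 0) (nat_lit 64785217543) (nat_lit 228) (nat_lit 10787197117) (nat_lit 76) (nat_lit 30141338699) (nat_lit 33) (nat_lit 5) (nat_lit 36) (nat_lit 5) (nat_lit 34) (nat_lit 4) (nat_lit 428) (nat_lit 373) (nat_lit 219)) (XT.lf (nat_lit 0) (nat_lit 44211576780) (nat_lit 76) (nat_lit 47404131734) (nat_lit 152) (nat_lit 17855751895) (nat_lit 32) (nat_lit 5) (nat_lit 33) (nat_lit 5) (nat_lit 34) (nat_lit 4) (nat_lit 429) (nat_lit 373) (nat_lit 218))))))))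
noncomputable def xc176 : XT := (XT.nd (nat_lit 1950) (nat_lit 608) (nat_lit 0) (XT.nd (nat_lit 936) (nat_lit 532) (nat_lit 0) (XT.nd (nat_lit 468) (nat_lit 304) (nat_lit 0) (XT.nd (nat_lit 234) (nat_lit 228) (nat_lit 0) (XT.nd (nat_lit 78) (nat_lit 152) (nat_lit 0) (XT.lf (nat_lit 0) (nat_lit 6350868574) (nat_lit 152) (nat_lit 11178460612) (nat_lit 76) (nat_lit 95873545800) (nat_lit 31) (nat_lit 5) (nat_lit 33) (nat_lit 5) (nat_lit 32) (nat_lit 5) (nat_lit 430) (nat_lit 373) (nat_lit 217)) (XT.nd (nat_lit 78) (nat_lit 0) (nat_lit 0) (XT.lf (nat_lit 0) (nat_lit 32129903384) (nat_lit 228) (nat_lit 70902808630) (nat_lit 76) (nat_lit 14435405021) (nat_lit 29) (nat_lit 5) (nat_lit 32) (nat_lit 5) (nat_lit 30) (nat_lit 4) (nat_lit 431) (nat_lit 373) (nat_lit 216)) (XT.lf (nat_lit 0) (nat_lit 59676175420) (nat_lit 228) (nat_lit 14436021771) (nat_lit 76) (nat_lit 47600510001) (nat_lit 29) (nat_lit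 5) (nat_lit 32) (nat_lit 5) (nat_lit 30) (nat_lit 4) (nat_lit 432) (nat_lit 373) (nat_lit 215)))) (XT.nd (nat_lit 78) (nat_lit 152) (nat_lit 0) (XT.lf (nat_lit 0) (nat_lit 46334474638) (nat_lit 76) (nat_lit 42987271998) (nat_lit 152) (nat_lit 36811681204) (nat_lit 28) (nat_lit 5) (nat_lit 29) (nat_lit 5) (nat_lit 30) (nat_lit 4) (nat_lit 433) (nat_lit 373) (nat_lit 214)) (XT.nd (nat_lit 78) (nat_lit 152) (nat_lit 0) (XT.lf (nat_lit 0) (nat_lit 110642101899) (nat_lit 76) (nat_lit 10050577703) (nat_lit 152) (nat_lit 10070351012) (nat_lit 28) (nat_lit 5) (nat_lit 29) (nat_lit 5) (nat_lit 30) (nat_lit 4) (nat_lit 434) (nat_lit 373) (nat_lit 213)) (XT.lf (nat_lit 0) (nat_lit 18510685006) (nat_lit 152) (nat_lit 92320280471) (nat_lit 76) (nat_lit 24725140013) (nat_lit 26) (nat_lit 5) (nat_lit 28) (nat_lit 5) (nat_lit 27) (nat_lit 4) (nat_lit 435) (nat_lit 373) (nat_lit 212))))) (XT.nd (nat_lit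 234) (nat_lit 228) (nat_lit 0) (XT.nd (nat_lit 78) (nat_lit 76) (nat_lit 0) (XT.lf (nat_lit 0) (nat_lit 48692105398) (nat_lit 152) (nat_lit 30450774731) (nat_lit 76) (nat_lit 61412211691) (nat_lit 26) (nat_lit 5) (nat_lit 28) (nat_lit 5) (nat_lit 27) (nat_lit 4) (nat_lit 436) (nat_lit 373) (nat_lit 211)) (XT.nd (nat_lit 78) (nat_lit 0) (nat_lit 0) (XT.lf (nat_lit 0) (nat_lit 35650865514) (nat_lit 76) (nat_lit 45287060242) (nat_lit 152) (nat_lit 64838335470) (nat_lit 25) (nat_lit 5) (nat_lit 26) (nat_lit 5) (nat_lit 27) (nat_lit 4) (nat_lit 437) (nat_lit 373) (nat_lit 210)) (XT.lf (nat_lit 0) (nat_lit 106112417357) (nat_lit 76) (nat_lit 9198061673) (nat_lit 152) (nat_lit 35922288174) (nat_lit 25) (nat_lit 5) (nat_lit 26) (nat_lit 5) (nat_lit 27) (nat_lit 4) (nat_lit 438) (nat_lit 373) (nat_lit 209)))) (XT.nd (nat_lit 78) (nat_lit 152) (nat_lit 0) (XT.lf (nat_lit 0) (nat_lit 23434705568) (nat_lit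 76) (nat_lit 128779638080) (nat_lit 76) (nat_lit 4707120838) (nat_lit 24) (nat_lit 4) (nat_lit 25) (nat_lit 5) (nat_lit 25) (nat_lit 4) (nat_lit 439) (nat_lit 373) (nat_lit 208)) (XT.nd (nat_lit 78) (nat_lit 76) (nat_lit 0) (XT.lf (nat_lit 0) (nat_lit 28096667306) (nat_lit 152) (nat_lit 66476234476) (nat_lit 76) (nat_lit 68253471409) (nat_lit 23) (nat_lit 5) (nat_lit 25) (nat_lit 5) (nat_lit 24) (nat_lit 4) (nat_lit 440) (nat_lit 373) (nat_lit 207)) (XT.lf (nat_lit 0) (nat_lit 3931297677) (nat_lit 76) (nat_lit 58511383090) (nat_lit 152) (nat_lit 106576977130) (nat_lit 22) (nat_lit 5) (nat_lit 23) (nat_lit 5) (nat_lit 24) (nat_lit 4) (nat_lit 441) (nat_lit 373) (nat_lit 206)))))) (XT.nd (nat_lit 468) (nat_lit 304) (nat_lit 0) (XT.nd (nat_lit 234) (nat_lit 152) (nat_lit 0) (XT.nd (nat_lit 78) (nat_lit 76) (nat_lit 0) (XT.lf (nat_lit 0) (nat_lit 80164967661) (nat_lit 76) (nat_lit 19465703315)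 (nat_lit 152) (nat_lit 75835702212) (nat_lit 22) (nat_lit 5) (nat_lit 23) (nat_lit 5) (nat_lit 24) (nat_lit 4) (nat_lit 442) (nat_lit 373) (nat_lit 205)) (XT.nd (nat_lit 78) (nat_lit 76) (nat_lit 0) (XT.lf (nat_lit 0) (nat_lit 139013147312) (nat_lit 152) (nat_lit 22363362446) (nat_lit 0) (nat_lit 20842160303) (nat_lit 22) (nat_lit 5) (nat_lit 24) (nat_lit 4) (nat_lit 22) (nat_lit 4) (nat_lit 443) (nat_lit 373) (nat_lit 204)) (XT.lf (nat_lit 0) (nat_lit 55682685224) (nat_lit 76) (nat_lit 125869494599) (nat_lit 76) (nat_lit 7697030476) (nat_lit 21) (nat_lit 4) (nat_lit 22) (nat_lit 5) (nat_lit 22) (nat_lit 4) (nat_lit 444) (nat_lit 373) (nat_lit 203)))) (XT.nd (nat_lit 78) (nat_lit 76) (nat_lit 0) (XT.lf (nat_lit 0) (nat_lit 29023826330) (nat_lit 152) (nat_lit 58675026920) (nat_lit 76) (nat_lit 108890132461) (nat_lit 20) (nat_lit 5) (nat_lit 22) (nat_lit 5) (nat_lit 21) (nat_lit 4) (nat_lit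 445) (nat_lit 373) (nat_lit 202)) (XT.nd (nat_lit 78) (nat_lit 0) (nat_lit 0) (XT.lf (nat_lit 0) (nat_lit 20488743694) (nat_lit 76) (nat_lit 47152209660) (nat_lit 152) (nat_lit 136632542717) (nat_lit 19) (nat_lit 5) (nat_lit 20) (nat_lit 5) (nat_lit 21) (nat_lit 4) (nat_lit 446) (nat_lit 373) (nat_lit 201)) (XT.lf (nat_lit 0) (nat_lit 105645908386) (nat_lit 76) (nat_lit 3535747739) (nat_lit 152) (nat_lit 103110939971) (nat_lit 19) (nat_lit 5) (nat_lit 20) (nat_lit 5) (nat_lit 21) (nat_lit 4) (nat_lit 447) (nat_lit 373) (nat_lit 200))))) (XT.nd (nat_lit 234) (nat_lit 152) (nat_lit 0) (XT.nd (nat_lit 78) (nat_lit 152) (nat_lit 0) (XT.lf (nat_lit 0) (nat_lit 153458277498) (nat_lit 152) (nat_lit 26313344341) (nat_lit 0) (nat_lit 40908085216) (nat_lit 19) (nat_lit 5) (nat_lit 21) (nat_lit 4) (nat_lit 19) (nat_lit 4) (nat_lit 448) (nat_lit 373) (nat_lit 199)) (XT.nd (nat_lit 78) (nat_lit 76) (nat_lit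 0) (XT.lf (nat_lit 0) (nat_lit 59893966472) (nat_lit 76) (nat_lit 141046946292) (nat_lit 76) (nat_lit 28495651765) (nat_lit 18) (nat_lit 4) (nat_lit 19) (nat_lit 5) (nat_lit 19) (nat_lit 4) (nat_lit 449) (nat_lit 373) (nat_lit 198)) (XT.lf (nat_lit 0) (nat_lit 12229057018) (nat_lit 152) (nat_lit 87482777397) (nat_lit 76) (nat_lit 138887330795) (nat_lit 17) (nat_lit 5) (nat_lit 19) (nat_lit 5) (nat_lit 18) (nat_lit 4) (nat_lit 450) (nat_lit 373) (nat_lit 197)))) (XT.nd (nat_lit 156) (nat_lit 76) (nat_lit 0) (XT.nd (nat_lit 78) (nat_lit 76) (nat_lit 0) (XT.lf (nat_lit 0) (nat_lit 54031511667) (nat_lit 152) (nat_lit 1788745134) (nat_lit 76) (nat_lit 192376324563) (nat_lit 17) (nat_lit 5) (nat_lit 19) (nat_lit 5) (nat_lit 18) (nat_lit 4) (nat_lit 451) (nat_lit 373) (nat_lit 196)) (XT.lf (nat_lit 0) (nat_lit 91104336862) (nat_lit 76) (nat_lit 8241337809) (nat_lit 152) (nat_lit 158857114461) (nat_lit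 16) (nat_lit 5) (nat_lit 17) (nat_lit 5) (nat_lit 18) (nat_lit 4) (nat_lit 452) (nat_lit 373) (nat_lit 195))) (XT.nd (nat_lit 78) (nat_lit 76) (nat_lit 0) (XT.lf (nat_lit 0) (nat_lit 147606842177) (nat_lit 152) (nat_lit 80656989658) (nat_lit 0) (nat_lit 40411410716) (nat_lit 16) (nat_lit 5) (nat_lit 18) (nat_lit 4) (nat_lit 16) (nat_lit 4) (nat_lit 453) (nat_lit 373) (nat_lit 194)) (XT.lf (nat_lit 0) (nat_lit 10299605627) (nat_lit 76) (nat_lit 188276604970) (nat_lit 76) (nat_lit 81080350996) (nat_lit 15) (nat_lit 4) (nat_lit 16) (nat_lit 5) (nat_lit 16) (nat_lit 4) (nat_lit 454) (nat_lit 373) (nat_lit 193))))))) (XT.nd (nat_lit 1014) (nat_lit 228) (nat_lit 0) (XT.nd (nat_lit 468) (nat_lit 228) (nat_lit 0) (XT.nd (nat_lit 234) (nat_lit 0) (nat_lit 0) (XT.nd (nat_lit 78) (nat_lit 152) (nat_lit 0) (XT.lf (nat_lit 0) (nat_lit 108602794974) (nat_lit 76) (nat_lit 144856464210) (nat_lit 76) (nat_lit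 37659426891) (nat_lit 15) (nat_lit 4) (nat_lit 16) (nat_lit 5) (nat_lit 16) (nat_lit 4) (nat_lit 455) (nat_lit 373) (nat_lit 192)) (XT.nd (nat_lit 78) (nat_lit 76) (nat_lit 0) (XT.lf (nat_lit 0) (nat_lit 7677923132) (nat_lit 152) (nat_lit 91458040940) (nat_lit 76) (nat_lit 204011796782) (nat_lit 14) (nat_lit 5) (nat_lit 16) (nat_lit 5) (nat_lit 15) (nat_lit 4) (nat_lit 456) (nat_lit 373) (nat_lit 191)) (XT.lf (nat_lit 0) (nat_lit 3650832354) (nat_lit 76) (nat_lit 50422009710) (nat_lit 152) (nat_lit 261671763734) (nat_lit 13) (nat_lit 5) (nat_lit 14) (nat_lit 5) (nat_lit 15) (nat_lit 4) (nat_lit 457) (nat_lit 373) (nat_lit 190)))) (XT.nd (nat_lit 78) (nat_lit 0) (nat_lit 0) (XT.lf (nat_lit 0) (nat_lit 104372452828) (nat_lit 152) (nat_lit 222241588253) (nat_lit 0) (nat_lit 2278004675) (nat_lit 13) (nat_lit 5) (nat_lit 15) (nat_lit 4) (nat_lit 13) (nat_lit 4) (nat_lit 458) (nat_lit 373) (nat_lit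 189)) (XT.nd (nat_lit 78) (nat_lit 0) (nat_lit 0) (XT.lf (nat_lit 0) (nat_lit 158012975019) (nat_lit 152) (nat_lit 128724673112) (nat_lit 0) (nat_lit 55917913094) (nat_lit 13) (nat_lit 5) (nat_lit 15) (nat_lit 4) (nat_lit 13) (nat_lit 4) (nat_lit 459) (nat_lit 373) (nat_lit 188)) (XT.lf (nat_lit 0) (nat_lit 214334895287) (nat_lit 152) (nat_lit 30533139822) (nat_lit 0) (nat_lit 112239248818) (nat_lit 13) (nat_lit 5) (nat_lit 15) (nat_lit 4) (nat_lit 13) (nat_lit 4) (nat_lit 460) (nat_lit 373) (nat_lit 187))))) (XT.nd (nat_lit 234) (nat_lit 76) (nat_lit 0) (XT.nd (nat_lit 78) (nat_lit 76) (nat_lit 0) (XT.lf (nat_lit 0) (nat_lit 74966187145) (nat_lit 76) (nat_lit 199676558570) (nat_lit 76) (nat_lit 97580355392) (nat_lit 12) (nat_lit 4) (nat_lit 13) (nat_lit 5) (nat_lit 13) (nat_lit 4) (nat_lit 461) (nat_lit 373) (nat_lit 186)) (XT.nd (nat_lit 78) (nat_lit 76) (nat_lit 0) (XT.lf (nat_lit 0)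 (nat_lit 186799371838) (nat_lit 76) (nat_lit 151683122721) (nat_lit 76) (nat_lit 49586389344) (nat_lit 12) (nat_lit 4) (nat_lit 13) (nat_lit 5) (nat_lit 13) (nat_lit 4) (nat_lit 462) (nat_lit 373) (nat_lit 185)) (XT.lf (nat_lit 0) (nat_lit 780868320) (nat_lit 152) (nat_lit 100496458270) (nat_lit 76) (nat_lit 303429027545) (nat_lit 11) (nat_lit 5) (nat_lit 13) (nat_lit 5) (nat_lit 12) (nat_lit 4) (nat_lit 463) (nat_lit 373) (nat_lit 184)))) (XT.nd (nat_lit 156) (nat_lit 0) (nat_lit 0) (XT.nd (nat_lit 78) (nat_lit 0) (nat_lit 0) (XT.lf (nat_lit 0) (nat_lit 4650128432) (nat_lit 76) (nat_lit 47421992380) (nat_lit 152) (nat_lit 370059329540) (nat_lit 10) (nat_lit 5) (nat_lit 11) (nat_lit 5) (nat_lit 12) (nat_lit 4) (nat_lit 464) (nat_lit 373) (nat_lit 183)) (XT.lf (nat_lit 0) (nat_lit 107799736875) (nat_lit 152) (nat_lit 321971096898) (nat_lit 0) (nat_lit 10563377600) (nat_lit 10) (nat_lit 5)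 (nat_lit 12) (nat_lit 4) (nat_lit 10) (nat_lit 4) (nat_lit 465) (nat_lit 373) (nat_lit 182))) (XT.nd (nat_lit 78) (nat_lit 0) (nat_lit 0) (XT.lf (nat_lit 0) (nat_lit 167090628927) (nat_lit 152) (nat_lit 222463782573) (nat_lit 0) (nat_lit 69853854226) (nat_lit 10) (nat_lit 5) (nat_lit 12) (nat_lit 4) (nat_lit 10) (nat_lit 4) (nat_lit 466) (nat_lit 373) (nat_lit 181)) (XT.lf (nat_lit 0) (nat_lit 229345575555) (nat_lit 152) (nat_lit 117982066567) (nat_lit 0) (nat_lit 132108405212) (nat_lit 10) (nat_lit 5) (nat_lit 12) (nat_lit 4) (nat_lit 10) (nat_lit 4) (nat_lit 467) (nat_lit 373) (nat_lit 180)))))) (XT.nd (nat_lit 468) (nat_lit 0) (nat_lit 0) (XT.nd (nat_lit 234) (nat_lit 152) (nat_lit 0) (XT.nd (nat_lit 78) (nat_lit 76) (nat_lit 0) (XT.lf (nat_lit 0) (nat_lit 294712802825) (nat_lit 152) (nat_lit 8277182889) (nat_lit 0) (nat_lit 197475255680) (nat_lit 10) (nat_lit 5) (nat_lit 12) (nat_lit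 4) (nat_lit 10) (nat_lit 4) (nat_lit 468) (nat_lit 373) (nat_lit 179)) (XT.nd (nat_lit 78) (nat_lit 0) (nat_lit 0) (XT.lf (nat_lit 0) (nat_lit 110447066444) (nat_lit 76) (nat_lit 254625268782) (nat_lit 76) (nat_lit 157387362777) (nat_lit 9) (nat_lit 4) (nat_lit 10) (nat_lit 5) (nat_lit 10) (nat_lit 4) (nat_lit 469) (nat_lit 373) (nat_lit 178)) (XT.lf (nat_lit 0) (nat_lit 235394033039) (nat_lit 76) (nat_lit 203695552571) (nat_lit 76) (nat_lit 106457304795) (nat_lit 9) (nat_lit 4) (nat_lit 10) (nat_lit 5) (nat_lit 10) (nat_lit 4) (nat_lit 470) (nat_lit 373) (nat_lit 177)))) (XT.nd (nat_lit 78) (nat_lit 152) (nat_lit 0) (XT.lf (nat_lit 0) (nat_lit 366587528626) (nat_lit 76) (nat_lit 150219753951) (nat_lit 76) (nat_lit 52981180679) (nat_lit 9) (nat_lit 4) (nat_lit 10) (nat_lit 5) (nat_lit 10) (nat_lit 4) (nat_lit 471) (nat_lit 373) (nat_lit 176)) (XT.nd (nat_lit 78) (nat_lit 76) (nat_lit 0)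 (XT.lf (nat_lit 0) (nat_lit 3066927211) (nat_lit 152) (nat_lit 90951682483) (nat_lit 76) (nat_lit 501221051562) (nat_lit 8) (nat_lit 5) (nat_lit 10) (nat_lit 5) (nat_lit 9) (nat_lit 4) (nat_lit 472) (nat_lit 373) (nat_lit 175)) (XT.lf (nat_lit 0) (nat_lit 26901756673) (nat_lit 76) (nat_lit 33654797070) (nat_lit 152) (nat_lit 561342456826) (nat_lit 7) (nat_lit 5) (nat_lit 8) (nat_lit 5) (nat_lit 9) (nat_lit 4) (nat_lit 473) (nat_lit 373) (nat_lit 174))))) (XT.nd (nat_lit 45474) (nat_lit 0) (nat_lit 7904) (XT.nd (nat_lit 45318) (nat_lit 0) (nat_lit 7828) (XT.lf (nat_lit 0) (nat_lit 122949965793) (nat_lit 152) (nat_lit 496498939796) (nat_lit 0) (nat_lit 30340956576) (nat_lit 7) (nat_lit 5) (nat_lit 9) (nat_lit 4) (nat_lit 7) (nat_lit 4) (nat_lit 474) (nat_lit 373) (nat_lit 173)) (XT.nd (nat_lit 78) (nat_lit 0) (nat_lit 0) (XT.lf (nat_lit 0) (nat_lit 1458668578) (nat_lit 836) (nat_lit 4639557012)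 (nat_lit 836) (nat_lit 4639557012) (nat_lit 110) (nat_lit 3) (nat_lit 121) (nat_lit 3) (nat_lit 121) (nat_lit 5) (nat_lit 374) (nat_lit 374) (nat_lit 272)) (XT.lf (nat_lit 76) (nat_lit 1104623238) (nat_lit 0) (nat_lit 2042169709) (nat_lit 836) (nat_lit 18857736921) (nat_lit 111) (nat_lit 5) (nat_lit 110) (nat_lit 3) (nat_lit 121) (nat_lit 5) (nat_lit 375) (nat_lit 374) (nat_lit 271)))) (XT.nd (nat_lit 156) (nat_lit 0) (nat_lit 76) (XT.nd (nat_lit 78) (nat_lit 0) (nat_lit 0) (XT.lf (nat_lit 0) (nat_lit 3673097496) (nat_lit 760) (nat_lit 10364903285) (nat_lit 836) (nat_lit 8507679481) (nat_lit 111) (nat_lit 5) (nat_lit 121) (nat_lit 5) (nat_lit 122) (nat_lit 5) (nat_lit 376) (nat_lit 374) (nat_lit 270)) (XT.lf (nat_lit 76) (nat_lit 680033274) (nat_lit 0) (nat_lit 3581278344) (nat_lit 836) (nat_lit 18850802835) (nat_lit 112) (nat_lit 5) (nat_lit 111) (nat_lit 5) (nat_lit 122) (nat_lit 5) (nat_lit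 377) (nat_lit 374) (nat_lit 269))) (XT.nd (nat_lit 78) (nat_lit 0) (nat_lit 0) (XT.lf (nat_lit 0) (nat_lit 5164731170) (nat_lit 760) (nat_lit 11184901846) (nat_lit 836) (nat_lit 7342953313) (nat_lit 112) (nat_lit 5) (nat_lit 122) (nat_lit 5) (nat_lit 123) (nat_lit 5) (nat_lit 378) (nat_lit 374) (nat_lit 268)) (XT.lf (nat_lit 76) (nat_lit 579242130) (nat_lit 0) (nat_lit 5594094133) (nat_lit 836) (nat_lit 18125750246) (nat_lit 113) (nat_lit 5) (nat_lit 112) (nat_lit 5) (nat_lit 123) (nat_lit 5) (nat_lit 379) (nat_lit 374) (nat_lit 267))))))))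
noncomputable def xc177 : XT := (XT.nd (nat_lit 1950) (nat_lit 2432) (nat_lit 0) (XT.nd (nat_lit 936) (nat_lit 1976) (nat_lit 0) (XT.nd (nat_lit 468) (nat_lit 1140) (nat_lit 0) (XT.nd (nat_lit 234) (nat_lit 608) (nat_lit 0) (XT.nd (nat_lit 78) (nat_lit 0) (nat_lit 0) (XT.lf (nat_lit 0) (nat_lit 7506465244) (nat_lit 760) (nat_lit 11704172576) (nat_lit 836) (nat_lit 5711574375) (nat_lit 113) (nat_lit 5) (nat_lit 123) (nat_lit 5) (nat_lit 124) (nat_lit 5) (nat_lit 380) (nat_lit 374) (nat_lit 266)) (XT.nd (nat_lit 78) (nat_lit 0) (nat_lit 76) (XT.lf (nat_lit 76) (nat_lit 842244183) (nat_lit 0) (nat_lit 8161801613) (nat_lit 836) (nat_lit 16567563546) (nat_lit 114) (nat_lit 5) (nat_lit 113) (nat_lit 5) (nat_lit 124) (nat_lit 5) (nat_lit 381) (nat_lit 374) (nat_lit 265)) (XT.lf (nat_lit 0) (nat_lit 10824889387) (nat_lit 760) (nat_lit 11883764594) (nat_lit 836) (nat_lit 3532407863) (nat_lit 114)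 (nat_lit 5) (nat_lit 124) (nat_lit 5) (nat_lit 125) (nat_lit 5) (nat_lit 382) (nat_lit 374) (nat_lit 264)))) (XT.nd (nat_lit 78) (nat_lit 684) (nat_lit 0) (XT.lf (nat_lit 76) (nat_lit 1513447206) (nat_lit 0) (nat_lit 11374298919) (nat_lit 836) (nat_lit 14048696771) (nat_lit 115) (nat_lit 5) (nat_lit 114) (nat_lit 5) (nat_lit 125) (nat_lit 5) (nat_lit 383) (nat_lit 374) (nat_lit 263)) (XT.nd (nat_lit 78) (nat_lit 760) (nat_lit 0) (XT.lf (nat_lit 0) (nat_lit 15260310260) (nat_lit 760) (nat_lit 11680511322) (nat_lit 76) (nat_lit 715447452) (nat_lit 115) (nat_lit 5) (nat_lit 125) (nat_lit 5) (nat_lit 116) (nat_lit 5) (nat_lit 384) (nat_lit 374) (nat_lit 262)) (XT.lf (nat_lit 0) (nat_lit 2641900630) (nat_lit 760) (nat_lit 15331392920) (nat_lit 836) (nat_lit 10427707440) (nat_lit 105) (nat_lit 5) (nat_lit 115) (nat_lit 5) (nat_lit 116) (nat_lit 5) (nat_lit 385) (nat_lit 374) (nat_lit 261)))))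 (XT.nd (nat_lit 234) (nat_lit 760) (nat_lit 0) (XT.nd (nat_lit 78) (nat_lit 380) (nat_lit 0) (XT.lf (nat_lit 0) (nat_lit 18080749445) (nat_lit 760) (nat_lit 2933271896) (nat_lit 836) (nat_lit 8159347300) (nat_lit 105) (nat_lit 5) (nat_lit 115) (nat_lit 5) (nat_lit 116) (nat_lit 5) (nat_lit 386) (nat_lit 374) (nat_lit 260)) (XT.nd (nat_lit 78) (nat_lit 0) (nat_lit 0) (XT.lf (nat_lit 0) (nat_lit 4281529847) (nat_lit 380) (nat_lit 20144113900) (nat_lit 456) (nat_lit 5547771698) (nat_lit 100) (nat_lit 5) (nat_lit 105) (nat_lit 5) (nat_lit 106) (nat_lit 5) (nat_lit 387) (nat_lit 374) (nat_lit 259)) (XT.lf (nat_lit 0) (nat_lit 20754664602) (nat_lit 380) (nat_lit 7483091172) (nat_lit 456) (nat_lit 2564216896) (nat_lit 100) (nat_lit 5) (nat_lit 105) (nat_lit 5) (nat_lit 106) (nat_lit 5) (nat_lit 388) (nat_lit 374) (nat_lit 258)))) (XT.nd (nat_lit 78) (nat_lit 380) (nat_lit 0) (XT.lf (nat_lit 0)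 (nat_lit 740448109) (nat_lit 380) (nat_lit 25183179489) (nat_lit 76) (nat_lit 5738383106) (nat_lit 95) (nat_lit 5) (nat_lit 100) (nat_lit 5) (nat_lit 96) (nat_lit 5) (nat_lit 389) (nat_lit 374) (nat_lit 257)) (XT.nd (nat_lit 78) (nat_lit 380) (nat_lit 0) (XT.lf (nat_lit 0) (nat_lit 4414858433) (nat_lit 380) (nat_lit 8549193698) (nat_lit 76) (nat_lit 19584365391) (nat_lit 95) (nat_lit 5) (nat_lit 100) (nat_lit 5) (nat_lit 96) (nat_lit 5) (nat_lit 390) (nat_lit 374) (nat_lit 256)) (XT.lf (nat_lit 0) (nat_lit 8424423842) (nat_lit 456) (nat_lit 24278447470) (nat_lit 76) (nat_lit 768704525) (nat_lit 90) (nat_lit 5) (nat_lit 96) (nat_lit 5) (nat_lit 91) (nat_lit 5) (nat_lit 391) (nat_lit 374) (nat_lit 255)))))) (XT.nd (nat_lit 468) (nat_lit 1064) (nat_lit 0) (XT.nd (nat_lit 234) (nat_lit 608) (nat_lit 0) (XT.nd (nat_lit 78) (nat_lit 304) (nat_lit 0) (XT.lf (nat_lit 0) (nat_lit 12989594751) (nat_lit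 456) (nat_lit 6534319299) (nat_lit 76) (nat_lit 14899224403) (nat_lit 90) (nat_lit 5) (nat_lit 96) (nat_lit 5) (nat_lit 91) (nat_lit 5) (nat_lit 392) (nat_lit 374) (nat_lit 254)) (XT.nd (nat_lit 78) (nat_lit 0) (nat_lit 0) (XT.lf (nat_lit 0) (nat_lit 12491937444) (nat_lit 304) (nat_lit 5481781419) (nat_lit 380) (nat_lit 17439028218) (nat_lit 86) (nat_lit 5) (nat_lit 90) (nat_lit 5) (nat_lit 91) (nat_lit 5) (nat_lit 393) (nat_lit 374) (nat_lit 253)) (XT.lf (nat_lit 0) (nat_lit 23459920473) (nat_lit 380) (nat_lit 3901388478) (nat_lit 76) (nat_lit 9077886118) (nat_lit 86) (nat_lit 5) (nat_lit 91) (nat_lit 5) (nat_lit 87) (nat_lit 5) (nat_lit 394) (nat_lit 374) (nat_lit 252)))) (XT.nd (nat_lit 78) (nat_lit 304) (nat_lit 0) (XT.lf (nat_lit 0) (nat_lit 16502539745) (nat_lit 304) (nat_lit 13061391798) (nat_lit 380) (nat_lit 7935861317) (nat_lit 82) (nat_lit 5) (nat_lit 86) (nat_lit 5) (nat_lit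 87) (nat_lit 5) (nat_lit 395) (nat_lit 374) (nat_lit 251)) (XT.nd (nat_lit 78) (nat_lit 304) (nat_lit 0) (XT.lf (nat_lit 0) (nat_lit 36066886576) (nat_lit 380) (nat_lit 584478776) (nat_lit 76) (nat_lit 1957370277) (nat_lit 82) (nat_lit 5) (nat_lit 87) (nat_lit 5) (nat_lit 83) (nat_lit 5) (nat_lit 396) (nat_lit 374) (nat_lit 250)) (XT.lf (nat_lit 0) (nat_lit 3573986846) (nat_lit 304) (nat_lit 18491334053) (nat_lit 76) (nat_lit 17677767528) (nat_lit 78) (nat_lit 5) (nat_lit 82) (nat_lit 5) (nat_lit 79) (nat_lit 5) (nat_lit 397) (nat_lit 374) (nat_lit 249))))) (XT.nd (nat_lit 234) (nat_lit 532) (nat_lit 0) (XT.nd (nat_lit 78) (nat_lit 228) (nat_lit 0) (XT.lf (nat_lit 0) (nat_lit 3326352994) (nat_lit 304) (nat_lit 6642152361) (nat_lit 380) (nat_lit 30960656297) (nat_lit 74) (nat_lit 5) (nat_lit 78) (nat_lit 5) (nat_lit 79) (nat_lit 5) (nat_lit 398) (nat_lit 374) (nat_lit 248)) (XT.nd (nat_lit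 78) (nat_lit 228) (nat_lit 0) (XT.lf (nat_lit 0) (nat_lit 17146585231) (nat_lit 380) (nat_lit 15441043361) (nat_lit 76) (nat_lit 9563720034) (nat_lit 74) (nat_lit 5) (nat_lit 79) (nat_lit 5) (nat_lit 75) (nat_lit 5) (nat_lit 399) (nat_lit 374) (nat_lit 247)) (XT.lf (nat_lit 0) (nat_lit 7970460706) (nat_lit 228) (nat_lit 16943014289) (nat_lit 304) (nat_lit 18509676430) (nat_lit 71) (nat_lit 5) (nat_lit 74) (nat_lit 5) (nat_lit 75) (nat_lit 5) (nat_lit 400) (nat_lit 374) (nat_lit 246)))) (XT.nd (nat_lit 156) (nat_lit 304) (nat_lit 0) (XT.nd (nat_lit 78) (nat_lit 228) (nat_lit 0) (XT.lf (nat_lit 0) (nat_lit 33084125516) (nat_lit 228) (nat_lit 242755057) (nat_lit 304) (nat_lit 11418756910) (nat_lit 71) (nat_lit 5) (nat_lit 74) (nat_lit 5) (nat_lit 75) (nat_lit 5) (nat_lit 401) (nat_lit 374) (nat_lit 245)) (XT.lf (nat_lit 0) (nat_lit 13476140121) (nat_lit 228) (nat_lit 29162012361) (nat_lit 304)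 (nat_lit 3472237167) (nat_lit 68) (nat_lit 5) (nat_lit 71) (nat_lit 5) (nat_lit 72) (nat_lit 5) (nat_lit 402) (nat_lit 374) (nat_lit 244))) (XT.nd (nat_lit 78) (nat_lit 228) (nat_lit 0) (XT.lf (nat_lit 0) (nat_lit 4917239832) (nat_lit 304) (nat_lit 7345701353) (nat_lit 76) (nat_lit 35266559061) (nat_lit 67) (nat_lit 5) (nat_lit 71) (nat_lit 5) (nat_lit 68) (nat_lit 5) (nat_lit 403) (nat_lit 374) (nat_lit 243)) (XT.lf (nat_lit 0) (nat_lit 14006853268) (nat_lit 304) (nat_lit 29313817759) (nat_lit 76) (nat_lit 5676183014) (nat_lit 64) (nat_lit 5) (nat_lit 68) (nat_lit 5) (nat_lit 65) (nat_lit 5) (nat_lit 404) (nat_lit 374) (nat_lit 242))))))) (XT.nd (nat_lit 1014) (nat_lit 1064) (nat_lit 0) (XT.nd (nat_lit 468) (nat_lit 684) (nat_lit 0) (XT.nd (nat_lit 234) (nat_lit 304) (nat_lit 0) (XT.nd (nat_lit 78) (nat_lit 380) (nat_lit 0) (XT.lf (nat_lit 0) (nat_lit 23875473122) (nat_lit 304) (nat_lit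 2420493416) (nat_lit 76) (nat_lit 24225384019) (nat_lit 64) (nat_lit 5) (nat_lit 68) (nat_lit 5) (nat_lit 65) (nat_lit 5) (nat_lit 405) (nat_lit 374) (nat_lit 241)) (XT.nd (nat_lit 78) (nat_lit 152) (nat_lit 0) (XT.lf (nat_lit 0) (nat_lit 26666905818) (nat_lit 228) (nat_lit 7984155212) (nat_lit 304) (nat_lit 17450335276) (nat_lit 61) (nat_lit 5) (nat_lit 64) (nat_lit 5) (nat_lit 65) (nat_lit 5) (nat_lit 406) (nat_lit 374) (nat_lit 240)) (XT.lf (nat_lit 0) (nat_lit 3464850019) (nat_lit 152) (nat_lit 42769119612) (nat_lit 228) (nat_lit 7513048844) (nat_lit 59) (nat_lit 5) (nat_lit 61) (nat_lit 5) (nat_lit 62) (nat_lit 5) (nat_lit 407) (nat_lit 374) (nat_lit 239)))) (XT.nd (nat_lit 78) (nat_lit 228) (nat_lit 0) (XT.lf (nat_lit 0) (nat_lit 3393567808) (nat_lit 228) (nat_lit 20948929788) (nat_lit 76) (nat_lit 31101846943) (nat_lit 58) (nat_lit 5) (nat_lit 61) (nat_lit 5) (nat_lit 59) (nat_lit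 5) (nat_lit 408) (nat_lit 374) (nat_lit 238)) (XT.nd (nat_lit 78) (nat_lit 0) (nat_lit 0) (XT.lf (nat_lit 0) (nat_lit 10045343462) (nat_lit 228) (nat_lit 4701915144) (nat_lit 304) (nat_lit 42465409549) (nat_lit 55) (nat_lit 5) (nat_lit 58) (nat_lit 5) (nat_lit 59) (nat_lit 5) (nat_lit 409) (nat_lit 374) (nat_lit 237)) (XT.lf (nat_lit 0) (nat_lit 27275233594) (nat_lit 304) (nat_lit 15993440681) (nat_lit 76) (nat_lit 15770404681) (nat_lit 55) (nat_lit 5) (nat_lit 59) (nat_lit 5) (nat_lit 56) (nat_lit 5) (nat_lit 410) (nat_lit 374) (nat_lit 236))))) (XT.nd (nat_lit 234) (nat_lit 304) (nat_lit 0) (XT.nd (nat_lit 78) (nat_lit 228) (nat_lit 0) (XT.lf (nat_lit 0) (nat_lit 17209025731) (nat_lit 152) (nat_lit 23563901989) (nat_lit 228) (nat_lit 20166717495) (nat_lit 53) (nat_lit 5) (nat_lit 55) (nat_lit 5) (nat_lit 56) (nat_lit 5) (nat_lit 411) (nat_lit 374) (nat_lit 235)) (XT.nd (nat_lit 78) (nat_lit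 228) (nat_lit 0) (XT.lf (nat_lit 0) (nat_lit 52623105822) (nat_lit 152) (nat_lit 2590873537) (nat_lit 228) (nat_lit 7707837681) (nat_lit 53) (nat_lit 5) (nat_lit 55) (nat_lit 5) (nat_lit 56) (nat_lit 5) (nat_lit 412) (nat_lit 374) (nat_lit 234)) (XT.lf (nat_lit 0) (nat_lit 5909600697) (nat_lit 228) (nat_lit 39755855435) (nat_lit 76) (nat_lit 19298066203) (nat_lit 50) (nat_lit 5) (nat_lit 53) (nat_lit 5) (nat_lit 51) (nat_lit 5) (nat_lit 413) (nat_lit 374) (nat_lit 233)))) (XT.nd (nat_lit 156) (nat_lit 152) (nat_lit 0) (XT.nd (nat_lit 78) (nat_lit 152) (nat_lit 0) (XT.lf (nat_lit 0) (nat_lit 20166347536) (nat_lit 228) (nat_lit 4427067805) (nat_lit 76) (nat_lit 42496706904) (nat_lit 50) (nat_lit 5) (nat_lit 53) (nat_lit 5) (nat_lit 51) (nat_lit 5) (nat_lit 414) (nat_lit 374) (nat_lit 232)) (XT.lf (nat_lit 0) (nat_lit 33744678766) (nat_lit 152) (nat_lit 1915934525) (nat_lit 228) (nat_lit 33636205517)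 (nat_lit 48) (nat_lit 5) (nat_lit 50) (nat_lit 5) (nat_lit 51) (nat_lit 5) (nat_lit 415) (nat_lit 374) (nat_lit 231))) (XT.nd (nat_lit 78) (nat_lit 0) (nat_lit 0) (XT.lf (nat_lit 0) (nat_lit 2088837144) (nat_lit 152) (nat_lit 50289280976) (nat_lit 228) (nat_lit 19213306492) (nat_lit 46) (nat_lit 5) (nat_lit 48) (nat_lit 5) (nat_lit 49) (nat_lit 5) (nat_lit 416) (nat_lit 374) (nat_lit 230)) (XT.lf (nat_lit 0) (nat_lit 42810213474) (nat_lit 152) (nat_lit 27752187608) (nat_lit 228) (nat_lit 3406815146) (nat_lit 46) (nat_lit 5) (nat_lit 48) (nat_lit 5) (nat_lit 49) (nat_lit 5) (nat_lit 417) (nat_lit 374) (nat_lit 229)))))) (XT.nd (nat_lit 468) (nat_lit 532) (nat_lit 0) (XT.nd (nat_lit 234) (nat_lit 152) (nat_lit 0) (XT.nd (nat_lit 78) (nat_lit 152) (nat_lit 0) (XT.lf (nat_lit 0) (nat_lit 9186458630) (nat_lit 152) (nat_lit 3722780473) (nat_lit 228) (nat_lit 63539292246) (nat_lit 43) (nat_lit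 5) (nat_lit 45) (nat_lit 5) (nat_lit 46) (nat_lit 5) (nat_lit 418) (nat_lit 374) (nat_lit 228)) (XT.nd (nat_lit 78) (nat_lit 152) (nat_lit 0) (XT.lf (nat_lit 0) (nat_lit 30796747397) (nat_lit 228) (nat_lit 26798183531) (nat_lit 76) (nat_lit 21410582270) (nat_lit 43) (nat_lit 5) (nat_lit 46) (nat_lit 5) (nat_lit 44) (nat_lit 5) (nat_lit 419) (nat_lit 374) (nat_lit 227)) (XT.lf (nat_lit 0) (nat_lit 16141236597) (nat_lit 152) (nat_lit 33748526492) (nat_lit 228) (nat_lit 31785025000) (nat_lit 41) (nat_lit 5) (nat_lit 43) (nat_lit 5) (nat_lit 44) (nat_lit 5) (nat_lit 420) (nat_lit 374) (nat_lit 226)))) (XT.nd (nat_lit 78) (nat_lit 152) (nat_lit 0) (XT.lf (nat_lit 0) (nat_lit 62154797940) (nat_lit 152) (nat_lit 8234605509) (nat_lit 228) (nat_lit 14065525105) (nat_lit 41) (nat_lit 5) (nat_lit 43) (nat_lit 5) (nat_lit 44) (nat_lit 5) (nat_lit 421) (nat_lit 374) (nat_lit 225)) (XT.nd (nat_lit 78)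 (nat_lit 0) (nat_lit 0) (XT.lf (nat_lit 0) (nat_lit 5061066297) (nat_lit 152) (nat_lit 63866834614) (nat_lit 76) (nat_lit 18409310376) (nat_lit 39) (nat_lit 5) (nat_lit 41) (nat_lit 5) (nat_lit 40) (nat_lit 5) (nat_lit 422) (nat_lit 374) (nat_lit 224)) (XT.lf (nat_lit 0) (nat_lit 25188352686) (nat_lit 152) (nat_lit 18416001116) (nat_lit 76) (nat_lit 46721872722) (nat_lit 39) (nat_lit 5) (nat_lit 41) (nat_lit 5) (nat_lit 40) (nat_lit 5) (nat_lit 423) (nat_lit 374) (nat_lit 223))))) (XT.nd (nat_lit 234) (nat_lit 304) (nat_lit 0) (XT.nd (nat_lit 78) (nat_lit 76) (nat_lit 0) (XT.lf (nat_lit 0) (nat_lit 30273330134) (nat_lit 152) (nat_lit 16519621024) (nat_lit 228) (nat_lit 46648194406) (nat_lit 37) (nat_lit 5) (nat_lit 39) (nat_lit 5) (nat_lit 40) (nat_lit 5) (nat_lit 424) (nat_lit 374) (nat_lit 222)) (XT.nd (nat_lit 78) (nat_lit 76) (nat_lit 0) (XT.lf (nat_lit 0) (nat_lit 69979182612) (nat_lit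 228) (nat_lit 14853929323) (nat_lit 76) (nat_lit 11853628879) (nat_lit 37) (nat_lit 5) (nat_lit 40) (nat_lit 5) (nat_lit 38) (nat_lit 4) (nat_lit 425) (nat_lit 374) (nat_lit 221)) (XT.lf (nat_lit 0) (nat_lit 36779147075) (nat_lit 76) (nat_lit 58389009850) (nat_lit 152) (nat_lit 4884287728) (nat_lit 36) (nat_lit 5) (nat_lit 37) (nat_lit 5) (nat_lit 38) (nat_lit 4) (nat_lit 426) (nat_lit 374) (nat_lit 220)))) (XT.nd (nat_lit 156) (nat_lit 76) (nat_lit 0) (XT.nd (nat_lit 78) (nat_lit 152) (nat_lit 0) (XT.lf (nat_lit 0) (nat_lit 17707150204) (nat_lit 152) (nat_lit 12352768834) (nat_lit 76) (nat_lit 73499735882) (nat_lit 35) (nat_lit 5) (nat_lit 37) (nat_lit 5) (nat_lit 36) (nat_lit 5) (nat_lit 427) (nat_lit 374) (nat_lit 219)) (XT.lf (nat_lit 0) (nat_lit 41931515874) (nat_lit 228) (nat_lit 64824782010) (nat_lit 76) (nat_lit 448549643) (nat_lit 33) (nat_lit 5) (nat_lit 36) (nat_lit 5) (nat_lit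 34) (nat_lit 4) (nat_lit 428) (nat_lit 374) (nat_lit 218))) (XT.nd (nat_lit 78) (nat_lit 76) (nat_lit 0) (XT.lf (nat_lit 0) (nat_lit 68071002339) (nat_lit 228) (nat_lit 11242389606) (nat_lit 76) (nat_lit 31683713013) (nat_lit 33) (nat_lit 5) (nat_lit 36) (nat_lit 5) (nat_lit 34) (nat_lit 4) (nat_lit 429) (nat_lit 374) (nat_lit 217)) (XT.lf (nat_lit 0) (nat_lit 46504965447) (nat_lit 76) (nat_lit 49737129880) (nat_lit 152) (nat_lit 18700648631) (nat_lit 32) (nat_lit 5) (nat_lit 33) (nat_lit 5) (nat_lit 34) (nat_lit 4) (nat_lit 430) (nat_lit 374) (nat_lit 216))))))))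
noncomputable def xc178 : XT := (XT.nd (nat_lit 1950) (nat_lit 608) (nat_lit 0) (XT.nd (nat_lit 936) (nat_lit 532) (nat_lit 0) (XT.nd (nat_lit 468) (nat_lit 304) (nat_lit 0) (XT.nd (nat_lit 234) (nat_lit 228) (nat_lit 0) (XT.nd (nat_lit 78) (nat_lit 152) (nat_lit 0) (XT.lf (nat_lit 0) (nat_lit 6712562529) (nat_lit 152) (nat_lit 11657048795) (nat_lit 76) (nat_lit 100701191356) (nat_lit 31) (nat_lit 5) (nat_lit 33) (nat_lit 5) (nat_lit 32) (nat_lit 5) (nat_lit 431) (nat_lit 374) (nat_lit 215)) (XT.nd (nat_lit 78) (nat_lit 0) (nat_lit 0) (XT.lf (nat_lit 0) (nat_lit 33780238963) (nat_lit 228) (nat_lit 74367295976) (nat_lit 76) (nat_lit 15191787806) (nat_lit 29) (nat_lit 5) (nat_lit 32) (nat_lit 5) (nat_lit 30) (nat_lit 4) (nat_lit 432) (nat_lit 374) (nat_lit 214)) (XT.lf (nat_lit 0) (nat_lit 62701736962) (nat_lit 228) (nat_lit 15081010397) (nat_lit 76) (nat_lit 50013499819) (nat_lit 29) (nat_lit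 5) (nat_lit 32) (nat_lit 5) (nat_lit 30) (nat_lit 4) (nat_lit 433) (nat_lit 374) (nat_lit 213)))) (XT.nd (nat_lit 78) (nat_lit 152) (nat_lit 0) (XT.lf (nat_lit 0) (nat_lit 48726771923) (nat_lit 76) (nat_lit 45102006505) (nat_lit 152) (nat_lit 38609266216) (nat_lit 28) (nat_lit 5) (nat_lit 29) (nat_lit 5) (nat_lit 30) (nat_lit 4) (nat_lit 434) (nat_lit 374) (nat_lit 212)) (XT.nd (nat_lit 78) (nat_lit 152) (nat_lit 0) (XT.lf (nat_lit 0) (nat_lit 116246181806) (nat_lit 76) (nat_lit 10520126499) (nat_lit 152) (nat_lit 10532917088) (nat_lit 28) (nat_lit 5) (nat_lit 29) (nat_lit 5) (nat_lit 30) (nat_lit 4) (nat_lit 435) (nat_lit 374) (nat_lit 211)) (XT.lf (nat_lit 0) (nat_lit 19475617044) (nat_lit 152) (nat_lit 96862752949) (nat_lit 76) (nat_lit 25993564519) (nat_lit 26) (nat_lit 5) (nat_lit 28) (nat_lit 5) (nat_lit 27) (nat_lit 4) (nat_lit 436) (nat_lit 374) (nat_lit 210))))) (XT.nd (nat_lit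 234) (nat_lit 228) (nat_lit 0) (XT.nd (nat_lit 78) (nat_lit 76) (nat_lit 0) (XT.lf (nat_lit 0) (nat_lit 51164232370) (nat_lit 152) (nat_lit 31903273901) (nat_lit 76) (nat_lit 64513457995) (nat_lit 26) (nat_lit 5) (nat_lit 28) (nat_lit 5) (nat_lit 27) (nat_lit 4) (nat_lit 437) (nat_lit 374) (nat_lit 209)) (XT.nd (nat_lit 78) (nat_lit 0) (nat_lit 0) (XT.lf (nat_lit 0) (nat_lit 37502318686) (nat_lit 76) (nat_lit 47519314188) (nat_lit 152) (nat_lit 68041595099) (nat_lit 25) (nat_lit 5) (nat_lit 26) (nat_lit 5) (nat_lit 27) (nat_lit 4) (nat_lit 438) (nat_lit 374) (nat_lit 208)) (XT.lf (nat_lit 0) (nat_lit 111483666698) (nat_lit 76) (nat_lit 9627394218) (nat_lit 152) (nat_lit 37681586255) (nat_lit 25) (nat_lit 5) (nat_lit 26) (nat_lit 5) (nat_lit 27) (nat_lit 4) (nat_lit 439) (nat_lit 374) (nat_lit 207)))) (XT.nd (nat_lit 78) (nat_lit 152) (nat_lit 0) (XT.lf (nat_lit 0) (nat_lit 24672271235) (nat_lit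 76) (nat_lit 135187660465) (nat_lit 76) (nat_lit 4905857232) (nat_lit 24) (nat_lit 4) (nat_lit 25) (nat_lit 5) (nat_lit 25) (nat_lit 4) (nat_lit 440) (nat_lit 374) (nat_lit 206)) (XT.nd (nat_lit 78) (nat_lit 76) (nat_lit 0) (XT.lf (nat_lit 0) (nat_lit 29535260282) (nat_lit 152) (nat_lit 69736229598) (nat_lit 76) (nat_lit 71694509242) (nat_lit 23) (nat_lit 5) (nat_lit 25) (nat_lit 5) (nat_lit 24) (nat_lit 4) (nat_lit 441) (nat_lit 374) (nat_lit 205)) (XT.lf (nat_lit 0) (nat_lit 4190649862) (nat_lit 76) (nat_lit 61407297238) (nat_lit 152) (nat_lit 111871032554) (nat_lit 22) (nat_lit 5) (nat_lit 23) (nat_lit 5) (nat_lit 24) (nat_lit 4) (nat_lit 442) (nat_lit 374) (nat_lit 204)))))) (XT.nd (nat_lit 468) (nat_lit 304) (nat_lit 0) (XT.nd (nat_lit 234) (nat_lit 152) (nat_lit 0) (XT.nd (nat_lit 78) (nat_lit 76) (nat_lit 0) (XT.lf (nat_lit 0) (nat_lit 84233013474) (nat_lit 76) (nat_lit 20410745618)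 (nat_lit 152) (nat_lit 79594350721) (nat_lit 22) (nat_lit 5) (nat_lit 23) (nat_lit 5) (nat_lit 24) (nat_lit 4) (nat_lit 443) (nat_lit 374) (nat_lit 203)) (XT.nd (nat_lit 78) (nat_lit 76) (nat_lit 0) (XT.lf (nat_lit 0) (nat_lit 145994276599) (nat_lit 152) (nat_lit 23423493887) (nat_lit 0) (nat_lit 21910305380) (nat_lit 22) (nat_lit 5) (nat_lit 24) (nat_lit 4) (nat_lit 22) (nat_lit 4) (nat_lit 444) (nat_lit 374) (nat_lit 202)) (XT.lf (nat_lit 0) (nat_lit 58523920091) (nat_lit 76) (nat_lit 132135781100) (nat_lit 76) (nat_lit 8050470096) (nat_lit 21) (nat_lit 4) (nat_lit 22) (nat_lit 5) (nat_lit 22) (nat_lit 4) (nat_lit 445) (nat_lit 374) (nat_lit 201)))) (XT.nd (nat_lit 78) (nat_lit 76) (nat_lit 0) (XT.lf (nat_lit 0) (nat_lit 30503976243) (nat_lit 152) (nat_lit 61553435691) (nat_lit 76) (nat_lit 114359571590) (nat_lit 20) (nat_lit 5) (nat_lit 22) (nat_lit 5) (nat_lit 21) (nat_lit 4) (nat_lit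 446) (nat_lit 374) (nat_lit 200)) (XT.nd (nat_lit 78) (nat_lit 0) (nat_lit 0) (XT.lf (nat_lit 0) (nat_lit 21567630832) (nat_lit 76) (nat_lit 49483799922) (nat_lit 152) (nat_lit 143434315259) (nat_lit 19) (nat_lit 5) (nat_lit 20) (nat_lit 5) (nat_lit 21) (nat_lit 4) (nat_lit 447) (nat_lit 374) (nat_lit 199)) (XT.lf (nat_lit 0) (nat_lit 110980060903) (nat_lit 76) (nat_lit 3687753963) (nat_lit 152) (nat_lit 108238054023) (nat_lit 19) (nat_lit 5) (nat_lit 20) (nat_lit 5) (nat_lit 21) (nat_lit 4) (nat_lit 448) (nat_lit 374) (nat_lit 198))))) (XT.nd (nat_lit 234) (nat_lit 152) (nat_lit 0) (XT.nd (nat_lit 78) (nat_lit 152) (nat_lit 0) (XT.lf (nat_lit 0) (nat_lit 161157346458) (nat_lit 152) (nat_lit 27578699934) (nat_lit 0) (nat_lit 42976335202) (nat_lit 19) (nat_lit 5) (nat_lit 21) (nat_lit 4) (nat_lit 19) (nat_lit 4) (nat_lit 449) (nat_lit 374) (nat_lit 197)) (XT.nd (nat_lit 78) (nat_lit 76) (nat_lit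 0) (XT.lf (nat_lit 0) (nat_lit 62938164942) (nat_lit 76) (nat_lit 148075475900) (nat_lit 76) (nat_lit 29893464875) (nat_lit 18) (nat_lit 4) (nat_lit 19) (nat_lit 5) (nat_lit 19) (nat_lit 4) (nat_lit 450) (nat_lit 374) (nat_lit 196)) (XT.lf (nat_lit 0) (nat_lit 12865372998) (nat_lit 152) (nat_lit 91808948539) (nat_lit 76) (nat_lit 145853556133) (nat_lit 17) (nat_lit 5) (nat_lit 19) (nat_lit 5) (nat_lit 18) (nat_lit 4) (nat_lit 451) (nat_lit 374) (nat_lit 195)))) (XT.nd (nat_lit 156) (nat_lit 76) (nat_lit 0) (XT.nd (nat_lit 78) (nat_lit 76) (nat_lit 0) (XT.lf (nat_lit 0) (nat_lit 56756766422) (nat_lit 152) (nat_lit 1832498840) (nat_lit 76) (nat_lit 202015958694) (nat_lit 17) (nat_lit 5) (nat_lit 19) (nat_lit 5) (nat_lit 18) (nat_lit 4) (nat_lit 452) (nat_lit 374) (nat_lit 194)) (XT.lf (nat_lit 0) (nat_lit 95704500424) (nat_lit 76) (nat_lit 8631711315) (nat_lit 152) (nat_lit 166775551783) (nat_lit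 16) (nat_lit 5) (nat_lit 17) (nat_lit 5) (nat_lit 18) (nat_lit 4) (nat_lit 453) (nat_lit 374) (nat_lit 193))) (XT.nd (nat_lit 78) (nat_lit 76) (nat_lit 0) (XT.lf (nat_lit 0) (nat_lit 155009652886) (nat_lit 152) (nat_lit 84646245722) (nat_lit 0) (nat_lit 42451980357) (nat_lit 16) (nat_lit 5) (nat_lit 18) (nat_lit 4) (nat_lit 16) (nat_lit 4) (nat_lit 454) (nat_lit 374) (nat_lit 192)) (XT.lf (nat_lit 0) (nat_lit 10857476208) (nat_lit 76) (nat_lit 197669613224) (nat_lit 76) (nat_lit 85111194651) (nat_lit 15) (nat_lit 4) (nat_lit 16) (nat_lit 5) (nat_lit 16) (nat_lit 4) (nat_lit 455) (nat_lit 374) (nat_lit 191))))))) (XT.nd (nat_lit 1014) (nat_lit 228) (nat_lit 0) (XT.nd (nat_lit 468) (nat_lit 228) (nat_lit 0) (XT.nd (nat_lit 234) (nat_lit 0) (nat_lit 0) (XT.nd (nat_lit 78) (nat_lit 152) (nat_lit 0) (XT.lf (nat_lit 0) (nat_lit 114073782626) (nat_lit 76) (nat_lit 152079456949) (nat_lit 76) (nat_lit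 39520327860) (nat_lit 15) (nat_lit 4) (nat_lit 16) (nat_lit 5) (nat_lit 16) (nat_lit 4) (nat_lit 456) (nat_lit 374) (nat_lit 190)) (XT.nd (nat_lit 78) (nat_lit 76) (nat_lit 0) (XT.lf (nat_lit 0) (nat_lit 8082165942) (nat_lit 152) (nat_lit 95991365590) (nat_lit 76) (nat_lit 214230598152) (nat_lit 14) (nat_lit 5) (nat_lit 16) (nat_lit 5) (nat_lit 15) (nat_lit 4) (nat_lit 457) (nat_lit 374) (nat_lit 189)) (XT.lf (nat_lit 0) (nat_lit 3872313024) (nat_lit 76) (nat_lit 52924156856) (nat_lit 152) (nat_lit 274734365132) (nat_lit 13) (nat_lit 5) (nat_lit 14) (nat_lit 5) (nat_lit 15) (nat_lit 4) (nat_lit 458) (nat_lit 374) (nat_lit 188)))) (XT.nd (nat_lit 78) (nat_lit 0) (nat_lit 0) (XT.lf (nat_lit 0) (nat_lit 109610391306) (nat_lit 152) (nat_lit 233315911272) (nat_lit 0) (nat_lit 2409377969) (nat_lit 13) (nat_lit 5) (nat_lit 15) (nat_lit 4) (nat_lit 13) (nat_lit 4) (nat_lit 459) (nat_lit 374) (nat_lit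 187)) (XT.nd (nat_lit 78) (nat_lit 0) (nat_lit 0) (XT.lf (nat_lit 0) (nat_lit 165932019805) (nat_lit 152) (nat_lit 135124948298) (nat_lit 0) (nat_lit 58730449759) (nat_lit 13) (nat_lit 5) (nat_lit 15) (nat_lit 4) (nat_lit 13) (nat_lit 4) (nat_lit 460) (nat_lit 374) (nat_lit 186)) (XT.lf (nat_lit 0) (nat_lit 225069160084) (nat_lit 152) (nat_lit 32025550651) (nat_lit 0) (nat_lit 117867059840) (nat_lit 13) (nat_lit 5) (nat_lit 15) (nat_lit 4) (nat_lit 13) (nat_lit 4) (nat_lit 461) (nat_lit 374) (nat_lit 185))))) (XT.nd (nat_lit 234) (nat_lit 76) (nat_lit 0) (XT.nd (nat_lit 78) (nat_lit 76) (nat_lit 0) (XT.lf (nat_lit 0) (nat_lit 78748190306) (nat_lit 76) (nat_lit 209643904495) (nat_lit 76) (nat_lit 102441299299) (nat_lit 12) (nat_lit 4) (nat_lit 13) (nat_lit 5) (nat_lit 13) (nat_lit 4) (nat_lit 462) (nat_lit 374) (nat_lit 184)) (XT.nd (nat_lit 78) (nat_lit 76) (nat_lit 0) (XT.lf (nat_lit 0)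 (nat_lit 196171429767) (nat_lit 76) (nat_lit 159251581711) (nat_lit 76) (nat_lit 52048495609) (nat_lit 12) (nat_lit 4) (nat_lit 13) (nat_lit 5) (nat_lit 13) (nat_lit 4) (nat_lit 463) (nat_lit 374) (nat_lit 183)) (XT.lf (nat_lit 0) (nat_lit 835780567) (nat_lit 152) (nat_lit 105490193943) (nat_lit 76) (nat_lit 318614902619) (nat_lit 11) (nat_lit 5) (nat_lit 13) (nat_lit 5) (nat_lit 12) (nat_lit 4) (nat_lit 464) (nat_lit 374) (nat_lit 182)))) (XT.nd (nat_lit 156) (nat_lit 0) (nat_lit 0) (XT.nd (nat_lit 78) (nat_lit 0) (nat_lit 0) (XT.lf (nat_lit 0) (nat_lit 4913220687) (nat_lit 76) (nat_lit 49778096868) (nat_lit 152) (nat_lit 388545924567) (nat_lit 10) (nat_lit 5) (nat_lit 11) (nat_lit 5) (nat_lit 12) (nat_lit 4) (nat_lit 465) (nat_lit 374) (nat_lit 181)) (XT.lf (nat_lit 0) (nat_lit 113204794975) (nat_lit 152) (nat_lit 338040001777) (nat_lit 0) (nat_lit 11105370473) (nat_lit 10) (nat_lit 5)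 (nat_lit 12) (nat_lit 4) (nat_lit 10) (nat_lit 4) (nat_lit 466) (nat_lit 374) (nat_lit 180))) (XT.nd (nat_lit 78) (nat_lit 0) (nat_lit 0) (XT.lf (nat_lit 0) (nat_lit 175459513950) (nat_lit 152) (nat_lit 233558733639) (nat_lit 0) (nat_lit 73359712645) (nat_lit 10) (nat_lit 5) (nat_lit 12) (nat_lit 4) (nat_lit 10) (nat_lit 4) (nat_lit 467) (nat_lit 374) (nat_lit 179)) (XT.lf (nat_lit 0) (nat_lit 240826524407) (nat_lit 152) (nat_lit 123854276502) (nat_lit 0) (nat_lit 138726364242) (nat_lit 10) (nat_lit 5) (nat_lit 12) (nat_lit 4) (nat_lit 10) (nat_lit 4) (nat_lit 468) (nat_lit 374) (nat_lit 178)))))) (XT.nd (nat_lit 45786) (nat_lit 0) (nat_lit 7828) (XT.nd (nat_lit 234) (nat_lit 152) (nat_lit 0) (XT.nd (nat_lit 78) (nat_lit 76) (nat_lit 0) (XT.lf (nat_lit 0) (nat_lit 309461462084) (nat_lit 152) (nat_lit 8665429279) (nat_lit 0) (nat_lit 207360960149) (nat_lit 10) (nat_lit 5) (nat_lit 12) (nat_lit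 4) (nat_lit 10) (nat_lit 4) (nat_lit 469) (nat_lit 374) (nat_lit 177)) (XT.nd (nat_lit 78) (nat_lit 0) (nat_lit 0) (XT.lf (nat_lit 0) (nat_lit 115994619412) (nat_lit 76) (nat_lit 267344125171) (nat_lit 76) (nat_lit 165243297740) (nat_lit 9) (nat_lit 4) (nat_lit 10) (nat_lit 5) (nat_lit 10) (nat_lit 4) (nat_lit 470) (nat_lit 374) (nat_lit 176)) (XT.lf (nat_lit 0) (nat_lit 247187734354) (nat_lit 76) (nat_lit 213868513962) (nat_lit 76) (nat_lit 111767376534) (nat_lit 9) (nat_lit 4) (nat_lit 10) (nat_lit 5) (nat_lit 10) (nat_lit 4) (nat_lit 471) (nat_lit 374) (nat_lit 175)))) (XT.nd (nat_lit 78) (nat_lit 152) (nat_lit 0) (XT.lf (nat_lit 0) (nat_lit 384939761879) (nat_lit 76) (nat_lit 157719488089) (nat_lit 76) (nat_lit 55618055426) (nat_lit 9) (nat_lit 4) (nat_lit 10) (nat_lit 5) (nat_lit 10) (nat_lit 4) (nat_lit 472) (nat_lit 374) (nat_lit 174)) (XT.nd (nat_lit 78) (nat_lit 76) (nat_lit 0)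 (XT.lf (nat_lit 0) (nat_lit 3231506251) (nat_lit 152) (nat_lit 95477126021) (nat_lit 76) (nat_lit 526292449632) (nat_lit 8) (nat_lit 5) (nat_lit 10) (nat_lit 5) (nat_lit 9) (nat_lit 4) (nat_lit 473) (nat_lit 374) (nat_lit 173)) (XT.lf (nat_lit 0) (nat_lit 28268627986) (nat_lit 76) (nat_lit 35326791335) (nat_lit 152) (nat_lit 589397989138) (nat_lit 7) (nat_lit 5) (nat_lit 8) (nat_lit 5) (nat_lit 9) (nat_lit 4) (nat_lit 474) (nat_lit 374) (nat_lit 172))))) (XT.nd (nat_lit 234) (nat_lit 0) (nat_lit 76) (XT.nd (nat_lit 78) (nat_lit 0) (nat_lit 0) (XT.lf (nat_lit 0) (nat_lit 1668703614) (nat_lit 836) (nat_lit 4799508112) (nat_lit 836) (nat_lit 4799508112) (nat_lit 110) (nat_lit 3) (nat_lit 121) (nat_lit 3) (nat_lit 121) (nat_lit 5) (nat_lit 375) (nat_lit 375) (nat_lit 270)) (XT.nd (nat_lit 78) (nat_lit 0) (nat_lit 76) (XT.lf (nat_lit 76) (nat_lit 1301584457) (nat_lit 0) (nat_lit 2265906859) (nat_lit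 836) (nat_lit 19523912703) (nat_lit 111) (nat_lit 5) (nat_lit 110) (nat_lit 3) (nat_lit 121) (nat_lit 5) (nat_lit 376) (nat_lit 375) (nat_lit 269)) (XT.lf (nat_lit 0) (nat_lit 4105761664) (nat_lit 760) (nat_lit 10733642389) (nat_lit 836) (nat_lit 8820934133) (nat_lit 111) (nat_lit 5) (nat_lit 121) (nat_lit 5) (nat_lit 122) (nat_lit 5) (nat_lit 377) (nat_lit 375) (nat_lit 268)))) (XT.nd (nat_lit 156) (nat_lit 0) (nat_lit 76) (XT.nd (nat_lit 78) (nat_lit 0) (nat_lit 76) (XT.lf (nat_lit 76) (nat_lit 861129611) (nat_lit 0) (nat_lit 3852695857) (nat_lit 836) (nat_lit 19541755034) (nat_lit 112) (nat_lit 5) (nat_lit 111) (nat_lit 5) (nat_lit 122) (nat_lit 5) (nat_lit 378) (nat_lit 375) (nat_lit 267)) (XT.lf (nat_lit 0) (nat_lit 5649640462) (nat_lit 760) (nat_lit 11591121942) (nat_lit 836) (nat_lit 7624960308) (nat_lit 112) (nat_lit 5) (nat_lit 122) (nat_lit 5) (nat_lit 123) (nat_lit 5) (nat_lit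 379) (nat_lit 375) (nat_lit 266))) (XT.nd (nat_lit 78) (nat_lit 0) (nat_lit 76) (XT.lf (nat_lit 76) (nat_lit 758761087) (nat_lit 0) (nat_lit 5941471396) (nat_lit 836) (nat_lit 18802745169) (nat_lit 113) (nat_lit 5) (nat_lit 112) (nat_lit 5) (nat_lit 123) (nat_lit 5) (nat_lit 380) (nat_lit 375) (nat_lit 265)) (XT.lf (nat_lit 0) (nat_lit 8088619791) (nat_lit 760) (nat_lit 12134451118) (nat_lit 836) (nat_lit 5934765844) (nat_lit 113) (nat_lit 5) (nat_lit 123) (nat_lit 5) (nat_lit 124) (nat_lit 5) (nat_lit 381) (nat_lit 375) (nat_lit 264))))))))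
noncomputable def xc179 : XT := (XT.nd (nat_lit 1950) (nat_lit 2508) (nat_lit 0) (XT.nd (nat_lit 936) (nat_lit 1976) (nat_lit 0) (XT.nd (nat_lit 468) (nat_lit 1140) (nat_lit 0) (XT.nd (nat_lit 234) (nat_lit 608) (nat_lit 0) (XT.nd (nat_lit 78) (nat_lit 0) (nat_lit 76) (XT.lf (nat_lit 76) (nat_lit 1036787606) (nat_lit 0) (nat_lit 8616822534) (nat_lit 836) (nat_lit 17186473960) (nat_lit 114) (nat_lit 5) (nat_lit 113) (nat_lit 5) (nat_lit 124) (nat_lit 5) (nat_lit 382) (nat_lit 375) (nat_lit 263)) (XT.nd (nat_lit 78) (nat_lit 0) (nat_lit 0) (XT.lf (nat_lit 0) (nat_lit 11555304649) (nat_lit 760) (nat_lit 12322457923) (nat_lit 836) (nat_lit 3665762770) (nat_lit 114) (nat_lit 5) (nat_lit 124) (nat_lit 5) (nat_lit 125) (nat_lit 5) (nat_lit 383) (nat_lit 375) (nat_lit 262)) (XT.lf (nat_lit 76) (nat_lit 1742106484) (nat_lit 0) (nat_lit 11972578161) (nat_lit 836) (nat_lit 14559328021) (nat_lit 115)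 (nat_lit 5) (nat_lit 114) (nat_lit 5) (nat_lit 125) (nat_lit 5) (nat_lit 384) (nat_lit 375) (nat_lit 261)))) (XT.nd (nat_lit 78) (nat_lit 760) (nat_lit 0) (XT.lf (nat_lit 0) (nat_lit 16196744471) (nat_lit 760) (nat_lit 12109583675) (nat_lit 76) (nat_lit 723964535) (nat_lit 115) (nat_lit 5) (nat_lit 125) (nat_lit 5) (nat_lit 116) (nat_lit 5) (nat_lit 385) (nat_lit 375) (nat_lit 260)) (XT.nd (nat_lit 78) (nat_lit 0) (nat_lit 0) (XT.lf (nat_lit 0) (nat_lit 2926449629) (nat_lit 760) (nat_lit 16113049497) (nat_lit 836) (nat_lit 10773061659) (nat_lit 105) (nat_lit 5) (nat_lit 115) (nat_lit 5) (nat_lit 116) (nat_lit 5) (nat_lit 386) (nat_lit 375) (nat_lit 259)) (XT.lf (nat_lit 0) (nat_lit 19129981172) (nat_lit 760) (nat_lit 3094303997) (nat_lit 836) (nat_lit 8399665948) (nat_lit 105) (nat_lit 5) (nat_lit 115) (nat_lit 5) (nat_lit 116) (nat_lit 5) (nat_lit 387) (nat_lit 375) (nat_lit 258))))) (XT.nd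 (nat_lit 234) (nat_lit 380) (nat_lit 0) (XT.nd (nat_lit 78) (nat_lit 380) (nat_lit 0) (XT.lf (nat_lit 0) (nat_lit 4646635003) (nat_lit 380) (nat_lit 21154399796) (nat_lit 456) (nat_lit 5663243291) (nat_lit 100) (nat_lit 5) (nat_lit 105) (nat_lit 5) (nat_lit 106) (nat_lit 5) (nat_lit 388) (nat_lit 375) (nat_lit 257)) (XT.nd (nat_lit 78) (nat_lit 380) (nat_lit 0) (XT.lf (nat_lit 0) (nat_lit 21936234655) (nat_lit 380) (nat_lit 7860179254) (nat_lit 456) (nat_lit 2538221082) (nat_lit 100) (nat_lit 5) (nat_lit 105) (nat_lit 5) (nat_lit 106) (nat_lit 5) (nat_lit 389) (nat_lit 375) (nat_lit 256)) (XT.lf (nat_lit 0) (nat_lit 921951628) (nat_lit 380) (nat_lit 26288594256) (nat_lit 76) (nat_lit 6027252597) (nat_lit 95) (nat_lit 5) (nat_lit 100) (nat_lit 5) (nat_lit 96) (nat_lit 5) (nat_lit 390) (nat_lit 375) (nat_lit 255)))) (XT.nd (nat_lit 78) (nat_lit 380) (nat_lit 0) (XT.lf (nat_lit 0) (nat_lit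 4773202415) (nat_lit 380) (nat_lit 8830230328) (nat_lit 76) (nat_lit 20565441123) (nat_lit 95) (nat_lit 5) (nat_lit 100) (nat_lit 5) (nat_lit 96) (nat_lit 5) (nat_lit 391) (nat_lit 375) (nat_lit 254)) (XT.nd (nat_lit 78) (nat_lit 0) (nat_lit 0) (XT.lf (nat_lit 0) (nat_lit 8979110915) (nat_lit 456) (nat_lit 25341731153) (nat_lit 76) (nat_lit 817558811) (nat_lit 90) (nat_lit 5) (nat_lit 96) (nat_lit 5) (nat_lit 91) (nat_lit 5) (nat_lit 392) (nat_lit 375) (nat_lit 253)) (XT.lf (nat_lit 0) (nat_lit 13766184851) (nat_lit 456) (nat_lit 6717569844) (nat_lit 76) (nat_lit 15654108537) (nat_lit 90) (nat_lit 5) (nat_lit 96) (nat_lit 5) (nat_lit 91) (nat_lit 5) (nat_lit 393) (nat_lit 375) (nat_lit 252)))))) (XT.nd (nat_lit 468) (nat_lit 760) (nat_lit 0) (XT.nd (nat_lit 234) (nat_lit 608) (nat_lit 0) (XT.nd (nat_lit 78) (nat_lit 304) (nat_lit 0) (XT.lf (nat_lit 0) (nat_lit 13257685777) (nat_lit 304)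 (nat_lit 5737980287) (nat_lit 380) (nat_lit 18181482332) (nat_lit 86) (nat_lit 5) (nat_lit 90) (nat_lit 5) (nat_lit 91) (nat_lit 5) (nat_lit 394) (nat_lit 375) (nat_lit 251)) (XT.nd (nat_lit 78) (nat_lit 304) (nat_lit 0) (XT.lf (nat_lit 0) (nat_lit 24750574187) (nat_lit 380) (nat_lit 3956354870) (nat_lit 76) (nat_lit 9548273381) (nat_lit 86) (nat_lit 5) (nat_lit 91) (nat_lit 5) (nat_lit 87) (nat_lit 5) (nat_lit 395) (nat_lit 375) (nat_lit 250)) (XT.lf (nat_lit 0) (nat_lit 17465510038) (nat_lit 304) (nat_lit 13690825145) (nat_lit 380) (nat_lit 8212670776) (nat_lit 82) (nat_lit 5) (nat_lit 86) (nat_lit 5) (nat_lit 87) (nat_lit 5) (nat_lit 396) (nat_lit 375) (nat_lit 249)))) (XT.nd (nat_lit 78) (nat_lit 608) (nat_lit 0) (XT.lf (nat_lit 0) (nat_lit 37979350991) (nat_lit 380) (nat_lit 477273361) (nat_lit 76) (nat_lit 2077029015) (nat_lit 82) (nat_lit 5) (nat_lit 87) (nat_lit 5) (nat_lit 83) (nat_lit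 5) (nat_lit 397) (nat_lit 375) (nat_lit 248)) (XT.nd (nat_lit 78) (nat_lit 304) (nat_lit 0) (XT.lf (nat_lit 0) (nat_lit 3860501911) (nat_lit 304) (nat_lit 19278049822) (nat_lit 76) (nat_lit 18586243151) (nat_lit 78) (nat_lit 5) (nat_lit 82) (nat_lit 5) (nat_lit 79) (nat_lit 5) (nat_lit 398) (nat_lit 375) (nat_lit 247)) (XT.lf (nat_lit 0) (nat_lit 3628298175) (nat_lit 304) (nat_lit 6943431614) (nat_lit 380) (nat_lit 32398595531) (nat_lit 74) (nat_lit 5) (nat_lit 78) (nat_lit 5) (nat_lit 79) (nat_lit 5) (nat_lit 399) (nat_lit 375) (nat_lit 246))))) (XT.nd (nat_lit 234) (nat_lit 532) (nat_lit 0) (XT.nd (nat_lit 78) (nat_lit 228) (nat_lit 0) (XT.lf (nat_lit 0) (nat_lit 18104181620) (nat_lit 380) (nat_lit 16079342550) (nat_lit 76) (nat_lit 10070326669) (nat_lit 74) (nat_lit 5) (nat_lit 79) (nat_lit 5) (nat_lit 75) (nat_lit 5) (nat_lit 400) (nat_lit 375) (nat_lit 245)) (XT.nd (nat_lit 78) (nat_lit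 0) (nat_lit 0) (XT.lf (nat_lit 0) (nat_lit 8500579415) (nat_lit 228) (nat_lit 17756116410) (nat_lit 304) (nat_lit 19332686425) (nat_lit 71) (nat_lit 5) (nat_lit 74) (nat_lit 5) (nat_lit 75) (nat_lit 5) (nat_lit 401) (nat_lit 375) (nat_lit 244)) (XT.lf (nat_lit 0) (nat_lit 34863661005) (nat_lit 228) (nat_lit 222465578) (nat_lit 304) (nat_lit 11892100636) (nat_lit 71) (nat_lit 5) (nat_lit 74) (nat_lit 5) (nat_lit 75) (nat_lit 5) (nat_lit 402) (nat_lit 375) (nat_lit 243)))) (XT.nd (nat_lit 156) (nat_lit 228) (nat_lit 0) (XT.nd (nat_lit 78) (nat_lit 76) (nat_lit 0) (XT.lf (nat_lit 0) (nat_lit 14277373246) (nat_lit 228) (nat_lit 30583636586) (nat_lit 304) (nat_lit 3550307012) (nat_lit 68) (nat_lit 5) (nat_lit 71) (nat_lit 5) (nat_lit 72) (nat_lit 5) (nat_lit 403) (nat_lit 375) (nat_lit 242)) (XT.lf (nat_lit 0) (nat_lit 5251181893) (nat_lit 304) (nat_lit 7588675251) (nat_lit 76) (nat_lit 37061673476)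 (nat_lit 67) (nat_lit 5) (nat_lit 71) (nat_lit 5) (nat_lit 68) (nat_lit 5) (nat_lit 404) (nat_lit 375) (nat_lit 241))) (XT.nd (nat_lit 78) (nat_lit 0) (nat_lit 0) (XT.lf (nat_lit 0) (nat_lit 14793561290) (nat_lit 304) (nat_lit 30653444066) (nat_lit 76) (nat_lit 5995334418) (nat_lit 64) (nat_lit 5) (nat_lit 68) (nat_lit 5) (nat_lit 65) (nat_lit 5) (nat_lit 405) (nat_lit 375) (nat_lit 240)) (XT.lf (nat_lit 0) (nat_lit 25151499501) (nat_lit 304) (nat_lit 2421456581) (nat_lit 76) (nat_lit 25470312510) (nat_lit 64) (nat_lit 5) (nat_lit 68) (nat_lit 5) (nat_lit 65) (nat_lit 5) (nat_lit 406) (nat_lit 375) (nat_lit 239))))))) (XT.nd (nat_lit 1014) (nat_lit 912) (nat_lit 0) (XT.nd (nat_lit 468) (nat_lit 760) (nat_lit 0) (XT.nd (nat_lit 234) (nat_lit 380) (nat_lit 0) (XT.nd (nat_lit 78) (nat_lit 228) (nat_lit 0) (XT.lf (nat_lit 0) (nat_lit 28118376139) (nat_lit 228) (nat_lit 8345418131) (nat_lit 304)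 (nat_lit 18238627739) (nat_lit 61) (nat_lit 5) (nat_lit 64) (nat_lit 5) (nat_lit 65) (nat_lit 5) (nat_lit 407) (nat_lit 375) (nat_lit 238)) (XT.nd (nat_lit 78) (nat_lit 76) (nat_lit 0) (XT.lf (nat_lit 0) (nat_lit 3757708321) (nat_lit 152) (nat_lit 44866753628) (nat_lit 228) (nat_lit 7805934326) (nat_lit 59) (nat_lit 5) (nat_lit 61) (nat_lit 5) (nat_lit 62) (nat_lit 5) (nat_lit 408) (nat_lit 375) (nat_lit 237)) (XT.lf (nat_lit 0) (nat_lit 3639548961) (nat_lit 228) (nat_lit 21879903230) (nat_lit 76) (nat_lit 32693264115) (nat_lit 58) (nat_lit 5) (nat_lit 61) (nat_lit 5) (nat_lit 59) (nat_lit 5) (nat_lit 409) (nat_lit 375) (nat_lit 236)))) (XT.nd (nat_lit 78) (nat_lit 152) (nat_lit 0) (XT.lf (nat_lit 0) (nat_lit 10662205086) (nat_lit 228) (nat_lit 4896874888) (nat_lit 304) (nat_lit 44510469788) (nat_lit 55) (nat_lit 5) (nat_lit 58) (nat_lit 5) (nat_lit 59) (nat_lit 5) (nat_lit 410) (nat_lit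 375) (nat_lit 235)) (XT.nd (nat_lit 78) (nat_lit 152) (nat_lit 0) (XT.lf (nat_lit 0) (nat_lit 28710504867) (nat_lit 304) (nat_lit 16680998795) (nat_lit 76) (nat_lit 16595926257) (nat_lit 55) (nat_lit 5) (nat_lit 59) (nat_lit 5) (nat_lit 56) (nat_lit 5) (nat_lit 411) (nat_lit 375) (nat_lit 234)) (XT.lf (nat_lit 0) (nat_lit 18179782648) (nat_lit 152) (nat_lit 24701618013) (nat_lit 228) (nat_lit 21101709293) (nat_lit 53) (nat_lit 5) (nat_lit 55) (nat_lit 5) (nat_lit 56) (nat_lit 5) (nat_lit 412) (nat_lit 375) (nat_lit 233))))) (XT.nd (nat_lit 234) (nat_lit 532) (nat_lit 0) (XT.nd (nat_lit 78) (nat_lit 228) (nat_lit 0) (XT.lf (nat_lit 0) (nat_lit 55359314095) (nat_lit 152) (nat_lit 2681865713) (nat_lit 228) (nat_lit 8023378063) (nat_lit 53) (nat_lit 5) (nat_lit 55) (nat_lit 5) (nat_lit 56) (nat_lit 5) (nat_lit 413) (nat_lit 375) (nat_lit 232)) (XT.nd (nat_lit 78) (nat_lit 0) (nat_lit 0) (XT.lf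 (nat_lit 0) (nat_lit 6271742458) (nat_lit 228) (nat_lit 41635359064) (nat_lit 76) (nat_lit 20301241216) (nat_lit 50) (nat_lit 5) (nat_lit 53) (nat_lit 5) (nat_lit 51) (nat_lit 5) (nat_lit 414) (nat_lit 375) (nat_lit 231)) (XT.lf (nat_lit 0) (nat_lit 21238152272) (nat_lit 228) (nat_lit 4545288678) (nat_lit 76) (nat_lit 44657991490) (nat_lit 50) (nat_lit 5) (nat_lit 53) (nat_lit 5) (nat_lit 51) (nat_lit 5) (nat_lit 415) (nat_lit 375) (nat_lit 230)))) (XT.nd (nat_lit 156) (nat_lit 228) (nat_lit 0) (XT.nd (nat_lit 78) (nat_lit 152) (nat_lit 0) (XT.lf (nat_lit 0) (nat_lit 35533381794) (nat_lit 152) (nat_lit 1972310530) (nat_lit 228) (nat_lit 35252844483) (nat_lit 48) (nat_lit 5) (nat_lit 50) (nat_lit 5) (nat_lit 51) (nat_lit 5) (nat_lit 416) (nat_lit 375) (nat_lit 229)) (XT.lf (nat_lit 0) (nat_lit 2295578523) (nat_lit 152) (nat_lit 52762722528) (nat_lit 228) (nat_lit 20109611393) (nat_lit 46)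 (nat_lit 5) (nat_lit 48) (nat_lit 5) (nat_lit 49) (nat_lit 5) (nat_lit 417) (nat_lit 375) (nat_lit 228))) (XT.nd (nat_lit 78) (nat_lit 228) (nat_lit 0) (XT.lf (nat_lit 0) (nat_lit 45048152264) (nat_lit 152) (nat_lit 29100727944) (nat_lit 228) (nat_lit 3515860262) (nat_lit 46) (nat_lit 5) (nat_lit 48) (nat_lit 5) (nat_lit 49) (nat_lit 5) (nat_lit 418) (nat_lit 375) (nat_lit 227)) (XT.lf (nat_lit 0) (nat_lit 9743585900) (nat_lit 152) (nat_lit 3869150537) (nat_lit 228) (nat_lit 66655302826) (nat_lit 43) (nat_lit 5) (nat_lit 45) (nat_lit 5) (nat_lit 46) (nat_lit 5) (nat_lit 419) (nat_lit 375) (nat_lit 226)))))) (XT.nd (nat_lit 468) (nat_lit 456) (nat_lit 0) (XT.nd (nat_lit 234) (nat_lit 304) (nat_lit 0) (XT.nd (nat_lit 78) (nat_lit 152) (nat_lit 0) (XT.lf (nat_lit 0) (nat_lit 32392447895) (nat_lit 228) (nat_lit 28042757385) (nat_lit 76) (nat_lit 22517774341) (nat_lit 43) (nat_lit 5) (nat_lit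 46) (nat_lit 5) (nat_lit 44) (nat_lit 5) (nat_lit 420) (nat_lit 375) (nat_lit 225)) (XT.nd (nat_lit 78) (nat_lit 0) (nat_lit 0) (XT.lf (nat_lit 0) (nat_lit 17042096082) (nat_lit 152) (nat_lit 35396822585) (nat_lit 228) (nat_lit 33316860141) (nat_lit 41) (nat_lit 5) (nat_lit 43) (nat_lit 5) (nat_lit 44) (nat_lit 5) (nat_lit 421) (nat_lit 375) (nat_lit 224)) (XT.lf (nat_lit 0) (nat_lit 65351868938) (nat_lit 152) (nat_lit 8609068896) (nat_lit 228) (nat_lit 14714119352) (nat_lit 41) (nat_lit 5) (nat_lit 43) (nat_lit 5) (nat_lit 44) (nat_lit 5) (nat_lit 422) (nat_lit 375) (nat_lit 223)))) (XT.nd (nat_lit 78) (nat_lit 152) (nat_lit 0) (XT.lf (nat_lit 0) (nat_lit 5366520604) (nat_lit 152) (nat_lit 66968537107) (nat_lit 76) (nat_lit 19366380860) (nat_lit 39) (nat_lit 5) (nat_lit 41) (nat_lit 5) (nat_lit 40) (nat_lit 5) (nat_lit 423) (nat_lit 375) (nat_lit 222)) (XT.nd (nat_lit 78) (nat_lit 152)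 (nat_lit 0) (XT.lf (nat_lit 0) (nat_lit 26497676028) (nat_lit 152) (nat_lit 19249525707) (nat_lit 76) (nat_lit 49092828230) (nat_lit 39) (nat_lit 5) (nat_lit 41) (nat_lit 5) (nat_lit 40) (nat_lit 5) (nat_lit 424) (nat_lit 375) (nat_lit 221)) (XT.lf (nat_lit 0) (nat_lit 31872864437) (nat_lit 152) (nat_lit 17308604162) (nat_lit 228) (nat_lit 48929278750) (nat_lit 37) (nat_lit 5) (nat_lit 39) (nat_lit 5) (nat_lit 40) (nat_lit 5) (nat_lit 425) (nat_lit 375) (nat_lit 220))))) (XT.nd (nat_lit 234) (nat_lit 304) (nat_lit 0) (XT.nd (nat_lit 78) (nat_lit 152) (nat_lit 0) (XT.lf (nat_lit 0) (nat_lit 73525234622) (nat_lit 228) (nat_lit 15513058505) (nat_lit 76) (nat_lit 12480418656) (nat_lit 37) (nat_lit 5) (nat_lit 40) (nat_lit 5) (nat_lit 38) (nat_lit 4) (nat_lit 426) (nat_lit 375) (nat_lit 219)) (XT.nd (nat_lit 78) (nat_lit 76) (nat_lit 0) (XT.lf (nat_lit 0) (nat_lit 38700323853) (nat_lit 76) (nat_lit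 61272374955) (nat_lit 152) (nat_lit 5080050491) (nat_lit 36) (nat_lit 5) (nat_lit 37) (nat_lit 5) (nat_lit 38) (nat_lit 4) (nat_lit 427) (nat_lit 375) (nat_lit 218)) (XT.lf (nat_lit 0) (nat_lit 18637175208) (nat_lit 152) (nat_lit 12890616281) (nat_lit 76) (nat_lit 77207602931) (nat_lit 35) (nat_lit 5) (nat_lit 37) (nat_lit 5) (nat_lit 36) (nat_lit 5) (nat_lit 428) (nat_lit 375) (nat_lit 217)))) (XT.nd (nat_lit 156) (nat_lit 152) (nat_lit 0) (XT.nd (nat_lit 78) (nat_lit 0) (nat_lit 0) (XT.lf (nat_lit 0) (nat_lit 44072400162) (nat_lit 228) (nat_lit 67985861714) (nat_lit 76) (nat_lit 504603200) (nat_lit 33) (nat_lit 5) (nat_lit 36) (nat_lit 5) (nat_lit 34) (nat_lit 4) (nat_lit 429) (nat_lit 375) (nat_lit 216)) (XT.lf (nat_lit 0) (nat_lit 71516751023) (nat_lit 228) (nat_lit 11728166804) (nat_lit 76) (nat_lit 33299923498) (nat_lit 33) (nat_lit 5) (nat_lit 36) (nat_lit 5) (nat_lit 34) (nat_lit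 4) (nat_lit 430) (nat_lit 375) (nat_lit 215))) (XT.nd (nat_lit 78) (nat_lit 76) (nat_lit 0) (XT.lf (nat_lit 0) (nat_lit 48905324675) (nat_lit 76) (nat_lit 52190237222) (nat_lit 152) (nat_lit 19592242641) (nat_lit 32) (nat_lit 5) (nat_lit 33) (nat_lit 5) (nat_lit 34) (nat_lit 4) (nat_lit 431) (nat_lit 375) (nat_lit 214)) (XT.lf (nat_lit 0) (nat_lit 7088236485) (nat_lit 152) (nat_lit 12167035161) (nat_lit 76) (nat_lit 105767061143) (nat_lit 31) (nat_lit 5) (nat_lit 33) (nat_lit 5) (nat_lit 32) (nat_lit 5) (nat_lit 432) (nat_lit 375) (nat_lit 213))))))))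
noncomputable def xc180 : XT := (XT.nd (nat_lit 1950) (nat_lit 532) (nat_lit 0) (XT.nd (nat_lit 936) (nat_lit 532) (nat_lit 0) (XT.nd (nat_lit 468) (nat_lit 304) (nat_lit 0) (XT.nd (nat_lit 234) (nat_lit 152) (nat_lit 0) (XT.nd (nat_lit 78) (nat_lit 76) (nat_lit 0) (XT.lf (nat_lit 0) (nat_lit 35509015455) (nat_lit 228) (nat_lit 78012506048) (nat_lit 76) (nat_lit 15982771786) (nat_lit 29) (nat_lit 5) (nat_lit 32) (nat_lit 5) (nat_lit 30) (nat_lit 4) (nat_lit 433) (nat_lit 375) (nat_lit 212)) (XT.nd (nat_lit 78) (nat_lit 76) (nat_lit 0) (XT.lf (nat_lit 0) (nat_lit 65874694804) (nat_lit 228) (nat_lit 15765389748) (nat_lit 76) (nat_lit 52544074419) (nat_lit 29) (nat_lit 5) (nat_lit 32) (nat_lit 5) (nat_lit 30) (nat_lit 4) (nat_lit 434) (nat_lit 375) (nat_lit 211)) (XT.lf (nat_lit 0) (nat_lit 51231657959) (nat_lit 76) (nat_lit 47325697221) (nat_lit 152) (nat_lit 40500728122) (nat_lit 28) (nat_lit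 5) (nat_lit 29) (nat_lit 5) (nat_lit 30) (nat_lit 4) (nat_lit 435) (nat_lit 375) (nat_lit 210)))) (XT.nd (nat_lit 78) (nat_lit 152) (nat_lit 0) (XT.lf (nat_lit 0) (nat_lit 122123774172) (nat_lit 76) (nat_lit 11016218911) (nat_lit 152) (nat_lit 11022418748) (nat_lit 28) (nat_lit 5) (nat_lit 29) (nat_lit 5) (nat_lit 30) (nat_lit 4) (nat_lit 436) (nat_lit 375) (nat_lit 209)) (XT.nd (nat_lit 78) (nat_lit 0) (nat_lit 0) (XT.lf (nat_lit 0) (nat_lit 20485132850) (nat_lit 152) (nat_lit 101639186247) (nat_lit 76) (nat_lit 27322419620) (nat_lit 26) (nat_lit 5) (nat_lit 28) (nat_lit 5) (nat_lit 27) (nat_lit 4) (nat_lit 437) (nat_lit 375) (nat_lit 208)) (XT.lf (nat_lit 0) (nat_lit 53756477278) (nat_lit 152) (nat_lit 33434909644) (nat_lit 76) (nat_lit 67766918395) (nat_lit 26) (nat_lit 5) (nat_lit 28) (nat_lit 5) (nat_lit 27) (nat_lit 4) (nat_lit 438) (nat_lit 375) (nat_lit 207))))) (XT.nd (nat_lit 234)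 (nat_lit 152) (nat_lit 0) (XT.nd (nat_lit 78) (nat_lit 76) (nat_lit 0) (XT.lf (nat_lit 0) (nat_lit 39439937928) (nat_lit 76) (nat_lit 49866165099) (nat_lit 152) (nat_lit 71408611685) (nat_lit 25) (nat_lit 5) (nat_lit 26) (nat_lit 5) (nat_lit 27) (nat_lit 4) (nat_lit 439) (nat_lit 375) (nat_lit 206)) (XT.nd (nat_lit 78) (nat_lit 76) (nat_lit 0) (XT.lf (nat_lit 0) (nat_lit 117117376992) (nat_lit 76) (nat_lit 10081035549) (nat_lit 152) (nat_lit 39532272073) (nat_lit 25) (nat_lit 5) (nat_lit 26) (nat_lit 5) (nat_lit 27) (nat_lit 4) (nat_lit 440) (nat_lit 375) (nat_lit 205)) (XT.lf (nat_lit 0) (nat_lit 25965594899) (nat_lit 76) (nat_lit 141918962292) (nat_lit 76) (nat_lit 5117934993) (nat_lit 24) (nat_lit 4) (nat_lit 25) (nat_lit 5) (nat_lit 25) (nat_lit 4) (nat_lit 441) (nat_lit 375) (nat_lit 204)))) (XT.nd (nat_lit 78) (nat_lit 76) (nat_lit 0) (XT.lf (nat_lit 0) (nat_lit 31042644257) (nat_lit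 152) (nat_lit 73165157539) (nat_lit 76) (nat_lit 75304961926) (nat_lit 23) (nat_lit 5) (nat_lit 25) (nat_lit 5) (nat_lit 24) (nat_lit 4) (nat_lit 442) (nat_lit 375) (nat_lit 203)) (XT.nd (nat_lit 78) (nat_lit 0) (nat_lit 0) (XT.lf (nat_lit 0) (nat_lit 4457132289) (nat_lit 76) (nat_lit 64450764135) (nat_lit 152) (nat_lit 117433025512) (nat_lit 22) (nat_lit 5) (nat_lit 23) (nat_lit 5) (nat_lit 24) (nat_lit 4) (nat_lit 443) (nat_lit 375) (nat_lit 202)) (XT.lf (nat_lit 0) (nat_lit 88498902180) (nat_lit 76) (nat_lit 21405665789) (nat_lit 152) (nat_lit 83544012381) (nat_lit 22) (nat_lit 5) (nat_lit 23) (nat_lit 5) (nat_lit 24) (nat_lit 4) (nat_lit 444) (nat_lit 375) (nat_lit 201)))))) (XT.nd (nat_lit 468) (nat_lit 304) (nat_lit 0) (XT.nd (nat_lit 234) (nat_lit 76) (nat_lit 0) (XT.nd (nat_lit 78) (nat_lit 152) (nat_lit 0) (XT.lf (nat_lit 0) (nat_lit 153321629359) (nat_lit 152) (nat_lit 24542027600)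 (nat_lit 0) (nat_lit 23029437032) (nat_lit 22) (nat_lit 5) (nat_lit 24) (nat_lit 4) (nat_lit 22) (nat_lit 4) (nat_lit 445) (nat_lit 375) (nat_lit 200)) (XT.nd (nat_lit 78) (nat_lit 76) (nat_lit 0) (XT.lf (nat_lit 0) (nat_lit 61501908029) (nat_lit 76) (nat_lit 138717909631) (nat_lit 76) (nat_lit 8424502079) (nat_lit 21) (nat_lit 4) (nat_lit 22) (nat_lit 5) (nat_lit 22) (nat_lit 4) (nat_lit 446) (nat_lit 375) (nat_lit 199)) (XT.lf (nat_lit 0) (nat_lit 32055441356) (nat_lit 152) (nat_lit 64580910129) (nat_lit 76) (nat_lit 120100164686) (nat_lit 20) (nat_lit 5) (nat_lit 22) (nat_lit 5) (nat_lit 21) (nat_lit 4) (nat_lit 447) (nat_lit 375) (nat_lit 198)))) (XT.nd (nat_lit 78) (nat_lit 0) (nat_lit 0) (XT.lf (nat_lit 0) (nat_lit 22695400086) (nat_lit 76) (nat_lit 51934388811) (nat_lit 152) (nat_lit 150578952026) (nat_lit 19) (nat_lit 5) (nat_lit 20) (nat_lit 5) (nat_lit 21) (nat_lit 4) (nat_lit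 448) (nat_lit 375) (nat_lit 197)) (XT.nd (nat_lit 78) (nat_lit 0) (nat_lit 0) (XT.lf (nat_lit 0) (nat_lit 116576099865) (nat_lit 76) (nat_lit 3849664416) (nat_lit 152) (nat_lit 113624167204) (nat_lit 19) (nat_lit 5) (nat_lit 20) (nat_lit 5) (nat_lit 21) (nat_lit 4) (nat_lit 449) (nat_lit 375) (nat_lit 196)) (XT.lf (nat_lit 0) (nat_lit 169238937213) (nat_lit 152) (nat_lit 28912000805) (nat_lit 0) (nat_lit 45145873707) (nat_lit 19) (nat_lit 5) (nat_lit 21) (nat_lit 4) (nat_lit 19) (nat_lit 4) (nat_lit 450) (nat_lit 375) (nat_lit 195))))) (XT.nd (nat_lit 234) (nat_lit 152) (nat_lit 0) (XT.nd (nat_lit 78) (nat_lit 76) (nat_lit 0) (XT.lf (nat_lit 0) (nat_lit 66129971281) (nat_lit 76) (nat_lit 155457646334) (nat_lit 76) (nat_lit 31363676008) (nat_lit 18) (nat_lit 4) (nat_lit 19) (nat_lit 5) (nat_lit 19) (nat_lit 4) (nat_lit 451) (nat_lit 375) (nat_lit 194)) (XT.nd (nat_lit 78) (nat_lit 0) (nat_lit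 0) (XT.lf (nat_lit 0) (nat_lit 13531193239) (nat_lit 152) (nat_lit 96355887822) (nat_lit 76) (nat_lit 153166060514) (nat_lit 17) (nat_lit 5) (nat_lit 19) (nat_lit 5) (nat_lit 18) (nat_lit 4) (nat_lit 452) (nat_lit 375) (nat_lit 193)) (XT.lf (nat_lit 0) (nat_lit 59616082449) (nat_lit 152) (nat_lit 1882687455) (nat_lit 76) (nat_lit 212135639080) (nat_lit 17) (nat_lit 5) (nat_lit 19) (nat_lit 5) (nat_lit 18) (nat_lit 4) (nat_lit 453) (nat_lit 375) (nat_lit 192)))) (XT.nd (nat_lit 156) (nat_lit 76) (nat_lit 0) (XT.nd (nat_lit 78) (nat_lit 0) (nat_lit 0) (XT.lf (nat_lit 0) (nat_lit 100530493445) (nat_lit 76) (nat_lit 9043620343) (nat_lit 152) (nat_lit 175092181163) (nat_lit 16) (nat_lit 5) (nat_lit 17) (nat_lit 5) (nat_lit 18) (nat_lit 4) (nat_lit 454) (nat_lit 375) (nat_lit 191)) (XT.lf (nat_lit 0) (nat_lit 162780515213) (nat_lit 152) (nat_lit 88839017492) (nat_lit 0) (nat_lit 44592719152) (nat_lit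 16) (nat_lit 5) (nat_lit 18) (nat_lit 4) (nat_lit 16) (nat_lit 4) (nat_lit 455) (nat_lit 375) (nat_lit 190))) (XT.nd (nat_lit 78) (nat_lit 0) (nat_lit 0) (XT.lf (nat_lit 0) (nat_lit 11439252784) (nat_lit 76) (nat_lit 207534207722) (nat_lit 76) (nat_lit 89345734978) (nat_lit 15) (nat_lit 4) (nat_lit 16) (nat_lit 5) (nat_lit 16) (nat_lit 4) (nat_lit 456) (nat_lit 375) (nat_lit 189)) (XT.lf (nat_lit 0) (nat_lit 119814522011) (nat_lit 76) (nat_lit 159665442975) (nat_lit 76) (nat_lit 41476325771) (nat_lit 15) (nat_lit 4) (nat_lit 16) (nat_lit 5) (nat_lit 16) (nat_lit 4) (nat_lit 457) (nat_lit 375) (nat_lit 188))))))) (XT.nd (nat_lit 1014) (nat_lit 152) (nat_lit 0) (XT.nd (nat_lit 468) (nat_lit 152) (nat_lit 0) (XT.nd (nat_lit 234) (nat_lit 76) (nat_lit 0) (XT.nd (nat_lit 78) (nat_lit 76) (nat_lit 0) (XT.lf (nat_lit 0) (nat_lit 8504729254) (nat_lit 152) (nat_lit 100755036003) (nat_lit 76) (nat_lit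 224958646456) (nat_lit 14) (nat_lit 5) (nat_lit 16) (nat_lit 5) (nat_lit 15) (nat_lit 4) (nat_lit 458) (nat_lit 375) (nat_lit 187)) (XT.nd (nat_lit 78) (nat_lit 0) (nat_lit 0) (XT.lf (nat_lit 0) (nat_lit 4101247544) (nat_lit 76) (nat_lit 55553173462) (nat_lit 152) (nat_lit 288452047753) (nat_lit 13) (nat_lit 5) (nat_lit 14) (nat_lit 5) (nat_lit 15) (nat_lit 4) (nat_lit 459) (nat_lit 375) (nat_lit 186)) (XT.lf (nat_lit 0) (nat_lit 115108430904) (nat_lit 152) (nat_lit 244947460674) (nat_lit 0) (nat_lit 2545695449) (nat_lit 13) (nat_lit 5) (nat_lit 15) (nat_lit 4) (nat_lit 13) (nat_lit 4) (nat_lit 460) (nat_lit 375) (nat_lit 185)))) (XT.nd (nat_lit 78) (nat_lit 76) (nat_lit 0) (XT.lf (nat_lit 0) (nat_lit 174245306541) (nat_lit 152) (nat_lit 141848580321) (nat_lit 0) (nat_lit 61682066134) (nat_lit 13) (nat_lit 5) (nat_lit 15) (nat_lit 4) (nat_lit 13) (nat_lit 4) (nat_lit 461) (nat_lit 375) (nat_lit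 184)) (XT.nd (nat_lit 78) (nat_lit 76) (nat_lit 0) (XT.lf (nat_lit 0) (nat_lit 236338509275) (nat_lit 152) (nat_lit 33595765906) (nat_lit 0) (nat_lit 123774787962) (nat_lit 13) (nat_lit 5) (nat_lit 15) (nat_lit 4) (nat_lit 13) (nat_lit 4) (nat_lit 462) (nat_lit 375) (nat_lit 183)) (XT.lf (nat_lit 0) (nat_lit 82716161095) (nat_lit 76) (nat_lit 220111150056) (nat_lit 76) (nat_lit 107546970738) (nat_lit 12) (nat_lit 4) (nat_lit 13) (nat_lit 5) (nat_lit 13) (nat_lit 4) (nat_lit 463) (nat_lit 375) (nat_lit 182))))) (XT.nd (nat_lit 234) (nat_lit 0) (nat_lit 0) (XT.nd (nat_lit 78) (nat_lit 152) (nat_lit 0) (XT.lf (nat_lit 0) (nat_lit 206009107230) (nat_lit 76) (nat_lit 167199923022) (nat_lit 76) (nat_lit 54635307507) (nat_lit 12) (nat_lit 4) (nat_lit 13) (nat_lit 5) (nat_lit 13) (nat_lit 4) (nat_lit 464) (nat_lit 375) (nat_lit 181)) (XT.nd (nat_lit 78) (nat_lit 76) (nat_lit 0) (XT.lf (nat_lit 0)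 (nat_lit 891963093) (nat_lit 152) (nat_lit 110736506596) (nat_lit 76) (nat_lit 334558730467) (nat_lit 11) (nat_lit 5) (nat_lit 13) (nat_lit 5) (nat_lit 12) (nat_lit 4) (nat_lit 465) (nat_lit 375) (nat_lit 180)) (XT.lf (nat_lit 0) (nat_lit 5186623975) (nat_lit 76) (nat_lit 52253400686) (nat_lit 152) (nat_lit 407958371408) (nat_lit 10) (nat_lit 5) (nat_lit 11) (nat_lit 5) (nat_lit 12) (nat_lit 4) (nat_lit 466) (nat_lit 375) (nat_lit 179)))) (XT.nd (nat_lit 156) (nat_lit 0) (nat_lit 0) (XT.nd (nat_lit 78) (nat_lit 0) (nat_lit 0) (XT.lf (nat_lit 0) (nat_lit 118878704798) (nat_lit 152) (nat_lit 354915108473) (nat_lit 0) (nat_lit 11673177766) (nat_lit 10) (nat_lit 5) (nat_lit 12) (nat_lit 4) (nat_lit 10) (nat_lit 4) (nat_lit 467) (nat_lit 375) (nat_lit 178)) (XT.lf (nat_lit 0) (nat_lit 184245508766) (nat_lit 152) (nat_lit 245211057565) (nat_lit 0) (nat_lit 77039639963) (nat_lit 10) (nat_lit 5)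 (nat_lit 12) (nat_lit 4) (nat_lit 10) (nat_lit 4) (nat_lit 468) (nat_lit 375) (nat_lit 177))) (XT.nd (nat_lit 78) (nat_lit 0) (nat_lit 0) (XT.lf (nat_lit 0) (nat_lit 252880249787) (nat_lit 152) (nat_lit 130022597227) (nat_lit 0) (nat_lit 145674055488) (nat_lit 10) (nat_lit 5) (nat_lit 12) (nat_lit 4) (nat_lit 10) (nat_lit 4) (nat_lit 469) (nat_lit 375) (nat_lit 176)) (XT.lf (nat_lit 0) (nat_lit 324946343912) (nat_lit 152) (nat_lit 9075469218) (nat_lit 0) (nat_lit 217739839617) (nat_lit 10) (nat_lit 5) (nat_lit 12) (nat_lit 4) (nat_lit 10) (nat_lit 4) (nat_lit 470) (nat_lit 375) (nat_lit 175)))))) (XT.nd (nat_lit 45864) (nat_lit 0) (nat_lit 7828) (XT.nd (nat_lit 234) (nat_lit 76) (nat_lit 0) (XT.nd (nat_lit 78) (nat_lit 0) (nat_lit 0) (XT.lf (nat_lit 0) (nat_lit 121817207205) (nat_lit 76) (nat_lit 280700077870) (nat_lit 76) (nat_lit 173493278340) (nat_lit 9) (nat_lit 4) (nat_lit 10) (nat_lit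 5) (nat_lit 10) (nat_lit 4) (nat_lit 471) (nat_lit 375) (nat_lit 174)) (XT.nd (nat_lit 78) (nat_lit 0) (nat_lit 0) (XT.lf (nat_lit 0) (nat_lit 259568889474) (nat_lit 76) (nat_lit 224551221984) (nat_lit 76) (nat_lit 117344141278) (nat_lit 9) (nat_lit 4) (nat_lit 10) (nat_lit 5) (nat_lit 10) (nat_lit 4) (nat_lit 472) (nat_lit 375) (nat_lit 173)) (XT.lf (nat_lit 0) (nat_lit 404207481785) (nat_lit 76) (nat_lit 165595255183) (nat_lit 76) (nat_lit 58387906691) (nat_lit 9) (nat_lit 4) (nat_lit 10) (nat_lit 5) (nat_lit 10) (nat_lit 4) (nat_lit 473) (nat_lit 375) (nat_lit 172)))) (XT.nd (nat_lit 45474) (nat_lit 0) (nat_lit 7752) (XT.lf (nat_lit 0) (nat_lit 3403269935) (nat_lit 152) (nat_lit 100230900158) (nat_lit 76) (nat_lit 552616455780) (nat_lit 8) (nat_lit 5) (nat_lit 10) (nat_lit 5) (nat_lit 9) (nat_lit 4) (nat_lit 474) (nat_lit 375) (nat_lit 171)) (XT.nd (nat_lit 78) (nat_lit 0) (nat_lit 0)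 (XT.lf (nat_lit 0) (nat_lit 1876493994) (nat_lit 836) (nat_lit 4974153132) (nat_lit 836) (nat_lit 4974153132) (nat_lit 110) (nat_lit 3) (nat_lit 121) (nat_lit 3) (nat_lit 121) (nat_lit 5) (nat_lit 376) (nat_lit 376) (nat_lit 268)) (XT.lf (nat_lit 76) (nat_lit 1495217019) (nat_lit 0) (nat_lit 2489522987) (nat_lit 836) (nat_lit 20249123247) (nat_lit 111) (nat_lit 5) (nat_lit 110) (nat_lit 3) (nat_lit 121) (nat_lit 5) (nat_lit 377) (nat_lit 376) (nat_lit 267))))) (XT.nd (nat_lit 234) (nat_lit 0) (nat_lit 76) (XT.nd (nat_lit 78) (nat_lit 0) (nat_lit 0) (XT.lf (nat_lit 0) (nat_lit 4536908516) (nat_lit 760) (nat_lit 11134718104) (nat_lit 836) (nat_lit 9160276239) (nat_lit 111) (nat_lit 5) (nat_lit 121) (nat_lit 5) (nat_lit 122) (nat_lit 5) (nat_lit 378) (nat_lit 376) (nat_lit 266)) (XT.nd (nat_lit 78) (nat_lit 0) (nat_lit 76) (XT.lf (nat_lit 76) (nat_lit 1037605295) (nat_lit 0) (nat_lit 4129098083)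 (nat_lit 836) (nat_lit 20290645105) (nat_lit 112) (nat_lit 5) (nat_lit 111) (nat_lit 5) (nat_lit 122) (nat_lit 5) (nat_lit 379) (nat_lit 376) (nat_lit 265)) (XT.lf (nat_lit 0) (nat_lit 6137721335) (nat_lit 760) (nat_lit 12031879857) (nat_lit 836) (nat_lit 7928983226) (nat_lit 112) (nat_lit 5) (nat_lit 122) (nat_lit 5) (nat_lit 123) (nat_lit 5) (nat_lit 380) (nat_lit 376) (nat_lit 264)))) (XT.nd (nat_lit 156) (nat_lit 0) (nat_lit 76) (XT.nd (nat_lit 78) (nat_lit 0) (nat_lit 76) (XT.lf (nat_lit 76) (nat_lit 933258644) (nat_lit 0) (nat_lit 6299925969) (nat_lit 836) (nat_lit 19534907290) (nat_lit 113) (nat_lit 5) (nat_lit 112) (nat_lit 5) (nat_lit 123) (nat_lit 5) (nat_lit 381) (nat_lit 376) (nat_lit 263)) (XT.lf (nat_lit 0) (nat_lit 8680652853) (nat_lit 760) (nat_lit 12600647519) (nat_lit 836) (nat_lit 6174917062) (nat_lit 113) (nat_lit 5) (nat_lit 123) (nat_lit 5) (nat_lit 124) (nat_lit 5)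 (nat_lit 382) (nat_lit 376) (nat_lit 262))) (XT.nd (nat_lit 78) (nat_lit 0) (nat_lit 76) (XT.lf (nat_lit 76) (nat_lit 1226886591) (nat_lit 0) (nat_lit 9090231316) (nat_lit 836) (nat_lit 17855804221) (nat_lit 114) (nat_lit 5) (nat_lit 113) (nat_lit 5) (nat_lit 124) (nat_lit 5) (nat_lit 383) (nat_lit 376) (nat_lit 261)) (XT.lf (nat_lit 0) (nat_lit 12304653367) (nat_lit 760) (nat_lit 12797542361) (nat_lit 836) (nat_lit 3809807837) (nat_lit 114) (nat_lit 5) (nat_lit 124) (nat_lit 5) (nat_lit 125) (nat_lit 5) (nat_lit 384) (nat_lit 376) (nat_lit 260))))))))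
noncomputable def xc181 : XT := (XT.nd (nat_lit 1950) (nat_lit 2280) (nat_lit 0) (XT.nd (nat_lit 936) (nat_lit 2052) (nat_lit 0) (XT.nd (nat_lit 468) (nat_lit 1064) (nat_lit 0) (XT.nd (nat_lit 234) (nat_lit 380) (nat_lit 0) (XT.nd (nat_lit 78) (nat_lit 684) (nat_lit 0) (XT.lf (nat_lit 76) (nat_lit 1967975453) (nat_lit 0) (nat_lit 12598022758) (nat_lit 836) (nat_lit 15113322913) (nat_lit 115) (nat_lit 5) (nat_lit 114) (nat_lit 5) (nat_lit 125) (nat_lit 5) (nat_lit 385) (nat_lit 376) (nat_lit 259)) (XT.nd (nat_lit 78) (nat_lit 760) (nat_lit 0) (XT.lf (nat_lit 0) (nat_lit 17163877566) (nat_lit 760) (nat_lit 12574515727) (nat_lit 76) (nat_lit 735441410) (nat_lit 115) (nat_lit 5) (nat_lit 125) (nat_lit 5) (nat_lit 116) (nat_lit 5) (nat_lit 386) (nat_lit 376) (nat_lit 258)) (XT.lf (nat_lit 0) (nat_lit 3211052353) (nat_lit 760) (nat_lit 16932386263) (nat_lit 836) (nat_lit 11152049298) (nat_lit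 105) (nat_lit 5) (nat_lit 115) (nat_lit 5) (nat_lit 116) (nat_lit 5) (nat_lit 387) (nat_lit 376) (nat_lit 257)))) (XT.nd (nat_lit 78) (nat_lit 380) (nat_lit 0) (XT.lf (nat_lit 0) (nat_lit 20218175700) (nat_lit 760) (nat_lit 3262051855) (nat_lit 836) (nat_lit 8667586918) (nat_lit 105) (nat_lit 5) (nat_lit 115) (nat_lit 5) (nat_lit 116) (nat_lit 5) (nat_lit 388) (nat_lit 376) (nat_lit 256)) (XT.nd (nat_lit 78) (nat_lit 0) (nat_lit 0) (XT.lf (nat_lit 0) (nat_lit 5015954204) (nat_lit 380) (nat_lit 22214913618) (nat_lit 456) (nat_lit 5799541971) (nat_lit 100) (nat_lit 5) (nat_lit 105) (nat_lit 5) (nat_lit 106) (nat_lit 5) (nat_lit 389) (nat_lit 376) (nat_lit 255)) (XT.lf (nat_lit 0) (nat_lit 23163510626) (nat_lit 380) (nat_lit 8255849010) (nat_lit 456) (nat_lit 2525262151) (nat_lit 100) (nat_lit 5) (nat_lit 105) (nat_lit 5) (nat_lit 106) (nat_lit 5) (nat_lit 390) (nat_lit 376) (nat_lit 254)))))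 (XT.nd (nat_lit 234) (nat_lit 304) (nat_lit 0) (XT.nd (nat_lit 78) (nat_lit 380) (nat_lit 0) (XT.lf (nat_lit 0) (nat_lit 1099097839) (nat_lit 380) (nat_lit 27463573440) (nat_lit 76) (nat_lit 6330384239) (nat_lit 95) (nat_lit 5) (nat_lit 100) (nat_lit 5) (nat_lit 96) (nat_lit 5) (nat_lit 391) (nat_lit 376) (nat_lit 253)) (XT.nd (nat_lit 78) (nat_lit 380) (nat_lit 0) (XT.lf (nat_lit 0) (nat_lit 5136670754) (nat_lit 380) (nat_lit 9138931818) (nat_lit 76) (nat_lit 21595397953) (nat_lit 95) (nat_lit 5) (nat_lit 100) (nat_lit 5) (nat_lit 96) (nat_lit 5) (nat_lit 392) (nat_lit 376) (nat_lit 252)) (XT.lf (nat_lit 0) (nat_lit 9549123949) (nat_lit 456) (nat_lit 26472183978) (nat_lit 76) (nat_lit 867887146) (nat_lit 90) (nat_lit 5) (nat_lit 96) (nat_lit 5) (nat_lit 91) (nat_lit 5) (nat_lit 393) (nat_lit 376) (nat_lit 251)))) (XT.nd (nat_lit 78) (nat_lit 304) (nat_lit 0) (XT.lf (nat_lit 0) (nat_lit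 14569786939) (nat_lit 456) (nat_lit 6923320972) (nat_lit 76) (nat_lit 16445814340) (nat_lit 90) (nat_lit 5) (nat_lit 96) (nat_lit 5) (nat_lit 91) (nat_lit 5) (nat_lit 394) (nat_lit 376) (nat_lit 250)) (XT.nd (nat_lit 78) (nat_lit 0) (nat_lit 0) (XT.lf (nat_lit 0) (nat_lit 14048598602) (nat_lit 304) (nat_lit 6008652360) (nat_lit 380) (nat_lit 18973098583) (nat_lit 86) (nat_lit 5) (nat_lit 90) (nat_lit 5) (nat_lit 91) (nat_lit 5) (nat_lit 395) (nat_lit 376) (nat_lit 249)) (XT.lf (nat_lit 0) (nat_lit 26094821889) (nat_lit 380) (nat_lit 4027095033) (nat_lit 76) (nat_lit 10040646648) (nat_lit 86) (nat_lit 5) (nat_lit 91) (nat_lit 5) (nat_lit 87) (nat_lit 5) (nat_lit 396) (nat_lit 376) (nat_lit 248)))))) (XT.nd (nat_lit 468) (nat_lit 912) (nat_lit 0) (XT.nd (nat_lit 234) (nat_lit 532) (nat_lit 0) (XT.nd (nat_lit 78) (nat_lit 304) (nat_lit 0) (XT.lf (nat_lit 0) (nat_lit 18463813481) (nat_lit 304)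 (nat_lit 14353927633) (nat_lit 380) (nat_lit 8514475646) (nat_lit 82) (nat_lit 5) (nat_lit 86) (nat_lit 5) (nat_lit 87) (nat_lit 5) (nat_lit 397) (nat_lit 376) (nat_lit 247)) (XT.nd (nat_lit 78) (nat_lit 304) (nat_lit 0) (XT.lf (nat_lit 0) (nat_lit 39977293676) (nat_lit 380) (nat_lit 377391583) (nat_lit 76) (nat_lit 2200644842) (nat_lit 82) (nat_lit 5) (nat_lit 87) (nat_lit 5) (nat_lit 83) (nat_lit 5) (nat_lit 398) (nat_lit 376) (nat_lit 246)) (XT.lf (nat_lit 0) (nat_lit 4151319045) (nat_lit 304) (nat_lit 20116917452) (nat_lit 76) (nat_lit 19537856666) (nat_lit 78) (nat_lit 5) (nat_lit 82) (nat_lit 5) (nat_lit 79) (nat_lit 5) (nat_lit 399) (nat_lit 376) (nat_lit 245)))) (XT.nd (nat_lit 78) (nat_lit 228) (nat_lit 0) (XT.lf (nat_lit 0) (nat_lit 3932731253) (nat_lit 304) (nat_lit 7262640959) (nat_lit 380) (nat_lit 33918667185) (nat_lit 74) (nat_lit 5) (nat_lit 78) (nat_lit 5) (nat_lit 79) (nat_lit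 5) (nat_lit 400) (nat_lit 376) (nat_lit 244)) (XT.nd (nat_lit 78) (nat_lit 228) (nat_lit 0) (XT.lf (nat_lit 0) (nat_lit 19100335941) (nat_lit 380) (nat_lit 16761991782) (nat_lit 76) (nat_lit 10599621355) (nat_lit 74) (nat_lit 5) (nat_lit 79) (nat_lit 5) (nat_lit 75) (nat_lit 5) (nat_lit 401) (nat_lit 376) (nat_lit 243)) (XT.lf (nat_lit 0) (nat_lit 9044969540) (nat_lit 228) (nat_lit 18613039152) (nat_lit 304) (nat_lit 20206373965) (nat_lit 71) (nat_lit 5) (nat_lit 74) (nat_lit 5) (nat_lit 75) (nat_lit 5) (nat_lit 402) (nat_lit 376) (nat_lit 242))))) (XT.nd (nat_lit 234) (nat_lit 608) (nat_lit 0) (XT.nd (nat_lit 78) (nat_lit 304) (nat_lit 0) (XT.lf (nat_lit 0) (nat_lit 36720521345) (nat_lit 228) (nat_lit 204176401) (nat_lit 304) (nat_lit 12398184923) (nat_lit 71) (nat_lit 5) (nat_lit 74) (nat_lit 5) (nat_lit 75) (nat_lit 5) (nat_lit 403) (nat_lit 376) (nat_lit 241)) (XT.nd (nat_lit 78) (nat_lit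 76) (nat_lit 0) (XT.lf (nat_lit 0) (nat_lit 15106821155) (nat_lit 228) (nat_lit 32079733252) (nat_lit 304) (nat_lit 3641162939) (nat_lit 68) (nat_lit 5) (nat_lit 71) (nat_lit 5) (nat_lit 72) (nat_lit 5) (nat_lit 404) (nat_lit 376) (nat_lit 240)) (XT.lf (nat_lit 0) (nat_lit 5593632207) (nat_lit 304) (nat_lit 7855355119) (nat_lit 76) (nat_lit 38943588407) (nat_lit 67) (nat_lit 5) (nat_lit 71) (nat_lit 5) (nat_lit 68) (nat_lit 5) (nat_lit 405) (nat_lit 376) (nat_lit 239)))) (XT.nd (nat_lit 156) (nat_lit 380) (nat_lit 0) (XT.nd (nat_lit 78) (nat_lit 0) (nat_lit 0) (XT.lf (nat_lit 0) (nat_lit 15611575281) (nat_lit 304) (nat_lit 32071771978) (nat_lit 76) (nat_lit 6327157606) (nat_lit 64) (nat_lit 5) (nat_lit 68) (nat_lit 5) (nat_lit 65) (nat_lit 5) (nat_lit 406) (nat_lit 376) (nat_lit 238)) (XT.lf (nat_lit 0) (nat_lit 26483680120) (nat_lit 304) (nat_lit 2433630085) (nat_lit 76) (nat_lit 26774358103)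 (nat_lit 64) (nat_lit 5) (nat_lit 68) (nat_lit 5) (nat_lit 65) (nat_lit 5) (nat_lit 407) (nat_lit 376) (nat_lit 237))) (XT.nd (nat_lit 78) (nat_lit 152) (nat_lit 0) (XT.lf (nat_lit 0) (nat_lit 29631437830) (nat_lit 228) (nat_lit 8728271948) (nat_lit 304) (nat_lit 19074165202) (nat_lit 61) (nat_lit 5) (nat_lit 64) (nat_lit 5) (nat_lit 65) (nat_lit 5) (nat_lit 408) (nat_lit 376) (nat_lit 236)) (XT.lf (nat_lit 0) (nat_lit 4054088796) (nat_lit 152) (nat_lit 47073064584) (nat_lit 228) (nat_lit 8121158970) (nat_lit 59) (nat_lit 5) (nat_lit 61) (nat_lit 5) (nat_lit 62) (nat_lit 5) (nat_lit 409) (nat_lit 376) (nat_lit 235))))))) (XT.nd (nat_lit 1014) (nat_lit 912) (nat_lit 0) (XT.nd (nat_lit 468) (nat_lit 684) (nat_lit 0) (XT.nd (nat_lit 234) (nat_lit 380) (nat_lit 0) (XT.nd (nat_lit 78) (nat_lit 228) (nat_lit 0) (XT.lf (nat_lit 0) (nat_lit 3890735263) (nat_lit 228) (nat_lit 22868253903) (nat_lit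 76) (nat_lit 34360875008) (nat_lit 58) (nat_lit 5) (nat_lit 61) (nat_lit 5) (nat_lit 59) (nat_lit 5) (nat_lit 410) (nat_lit 376) (nat_lit 234)) (XT.nd (nat_lit 78) (nat_lit 0) (nat_lit 0) (XT.lf (nat_lit 0) (nat_lit 11299255885) (nat_lit 228) (nat_lit 5105314086) (nat_lit 304) (nat_lit 46665054285) (nat_lit 55) (nat_lit 5) (nat_lit 58) (nat_lit 5) (nat_lit 59) (nat_lit 5) (nat_lit 411) (nat_lit 376) (nat_lit 233)) (XT.lf (nat_lit 0) (nat_lit 30210891420) (nat_lit 304) (nat_lit 17413358105) (nat_lit 76) (nat_lit 17459283878) (nat_lit 55) (nat_lit 5) (nat_lit 59) (nat_lit 5) (nat_lit 56) (nat_lit 5) (nat_lit 412) (nat_lit 376) (nat_lit 232)))) (XT.nd (nat_lit 78) (nat_lit 228) (nat_lit 0) (XT.lf (nat_lit 0) (nat_lit 19188822239) (nat_lit 152) (nat_lit 25899983198) (nat_lit 228) (nat_lit 22090269518) (nat_lit 53) (nat_lit 5) (nat_lit 55) (nat_lit 5) (nat_lit 56) (nat_lit 5) (nat_lit 413) (nat_lit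 376) (nat_lit 231)) (XT.nd (nat_lit 78) (nat_lit 228) (nat_lit 0) (XT.lf (nat_lit 0) (nat_lit 58222565951) (nat_lit 152) (nat_lit 2780991652) (nat_lit 228) (nat_lit 8361189595) (nat_lit 53) (nat_lit 5) (nat_lit 55) (nat_lit 5) (nat_lit 56) (nat_lit 5) (nat_lit 414) (nat_lit 376) (nat_lit 230)) (XT.lf (nat_lit 0) (nat_lit 6645793732) (nat_lit 228) (nat_lit 43618905573) (nat_lit 76) (nat_lit 21351016839) (nat_lit 50) (nat_lit 5) (nat_lit 53) (nat_lit 5) (nat_lit 51) (nat_lit 5) (nat_lit 415) (nat_lit 376) (nat_lit 229))))) (XT.nd (nat_lit 234) (nat_lit 380) (nat_lit 0) (XT.nd (nat_lit 78) (nat_lit 304) (nat_lit 0) (XT.lf (nat_lit 0) (nat_lit 22357644791) (nat_lit 228) (nat_lit 4679008879) (nat_lit 76) (nat_lit 46923951601) (nat_lit 50) (nat_lit 5) (nat_lit 53) (nat_lit 5) (nat_lit 51) (nat_lit 5) (nat_lit 416) (nat_lit 376) (nat_lit 228)) (XT.nd (nat_lit 78) (nat_lit 152) (nat_lit 0) (XT.lf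 (nat_lit 0) (nat_lit 37402086339) (nat_lit 152) (nat_lit 2035170300) (nat_lit 228) (nat_lit 36956374408) (nat_lit 48) (nat_lit 5) (nat_lit 50) (nat_lit 5) (nat_lit 51) (nat_lit 5) (nat_lit 417) (nat_lit 376) (nat_lit 227)) (XT.lf (nat_lit 0) (nat_lit 2503146132) (nat_lit 152) (nat_lit 55363650041) (nat_lit 228) (nat_lit 21056715162) (nat_lit 46) (nat_lit 5) (nat_lit 48) (nat_lit 5) (nat_lit 49) (nat_lit 5) (nat_lit 418) (nat_lit 376) (nat_lit 226)))) (XT.nd (nat_lit 156) (nat_lit 152) (nat_lit 0) (XT.nd (nat_lit 78) (nat_lit 228) (nat_lit 0) (XT.lf (nat_lit 0) (nat_lit 47388930051) (nat_lit 152) (nat_lit 30520327566) (nat_lit 228) (nat_lit 3636056321) (nat_lit 46) (nat_lit 5) (nat_lit 48) (nat_lit 5) (nat_lit 49) (nat_lit 5) (nat_lit 419) (nat_lit 376) (nat_lit 225)) (XT.lf (nat_lit 0) (nat_lit 10319476614) (nat_lit 152) (nat_lit 4026536444) (nat_lit 228) (nat_lit 69932780862) (nat_lit 43)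 (nat_lit 5) (nat_lit 45) (nat_lit 5) (nat_lit 46) (nat_lit 5) (nat_lit 420) (nat_lit 376) (nat_lit 224))) (XT.nd (nat_lit 78) (nat_lit 152) (nat_lit 0) (XT.lf (nat_lit 0) (nat_lit 34062739793) (nat_lit 228) (nat_lit 29358423307) (nat_lit 76) (nat_lit 23676917441) (nat_lit 43) (nat_lit 5) (nat_lit 46) (nat_lit 5) (nat_lit 44) (nat_lit 5) (nat_lit 421) (nat_lit 376) (nat_lit 223)) (XT.lf (nat_lit 0) (nat_lit 17979278125) (nat_lit 152) (nat_lit 37131171439) (nat_lit 228) (nat_lit 34930625045) (nat_lit 41) (nat_lit 5) (nat_lit 43) (nat_lit 5) (nat_lit 44) (nat_lit 5) (nat_lit 422) (nat_lit 376) (nat_lit 222)))))) (XT.nd (nat_lit 468) (nat_lit 532) (nat_lit 0) (XT.nd (nat_lit 234) (nat_lit 228) (nat_lit 0) (XT.nd (nat_lit 78) (nat_lit 152) (nat_lit 0) (XT.lf (nat_lit 0) (nat_lit 68700488326) (nat_lit 152) (nat_lit 9005720175) (nat_lit 228) (nat_lit 15400227125) (nat_lit 41) (nat_lit 5) (nat_lit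 43) (nat_lit 5) (nat_lit 44) (nat_lit 5) (nat_lit 423) (nat_lit 376) (nat_lit 221)) (XT.nd (nat_lit 78) (nat_lit 0) (nat_lit 0) (XT.lf (nat_lit 0) (nat_lit 5682375880) (nat_lit 152) (nat_lit 70233844473) (nat_lit 76) (nat_lit 20367901686) (nat_lit 39) (nat_lit 5) (nat_lit 41) (nat_lit 5) (nat_lit 40) (nat_lit 5) (nat_lit 424) (nat_lit 376) (nat_lit 220)) (XT.lf (nat_lit 0) (nat_lit 27867825777) (nat_lit 152) (nat_lit 20132840574) (nat_lit 76) (nat_lit 51579090387) (nat_lit 39) (nat_lit 5) (nat_lit 41) (nat_lit 5) (nat_lit 40) (nat_lit 5) (nat_lit 425) (nat_lit 376) (nat_lit 219)))) (XT.nd (nat_lit 78) (nat_lit 76) (nat_lit 0) (XT.lf (nat_lit 0) (nat_lit 33544392280) (nat_lit 152) (nat_lit 18140476172) (nat_lit 228) (nat_lit 51329189059) (nat_lit 37) (nat_lit 5) (nat_lit 39) (nat_lit 5) (nat_lit 40) (nat_lit 5) (nat_lit 426) (nat_lit 376) (nat_lit 218)) (XT.nd (nat_lit 78) (nat_lit 76) (nat_lit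 0) (XT.lf (nat_lit 0) (nat_lit 77244210983) (nat_lit 228) (nat_lit 16212913441) (nat_lit 76) (nat_lit 13135376852) (nat_lit 37) (nat_lit 5) (nat_lit 40) (nat_lit 5) (nat_lit 38) (nat_lit 4) (nat_lit 427) (nat_lit 376) (nat_lit 217)) (XT.lf (nat_lit 0) (nat_lit 40709915488) (nat_lit 76) (nat_lit 64303263192) (nat_lit 152) (nat_lit 5290105965) (nat_lit 36) (nat_lit 5) (nat_lit 37) (nat_lit 5) (nat_lit 38) (nat_lit 4) (nat_lit 428) (nat_lit 376) (nat_lit 216))))) (XT.nd (nat_lit 234) (nat_lit 304) (nat_lit 0) (XT.nd (nat_lit 78) (nat_lit 152) (nat_lit 0) (XT.lf (nat_lit 0) (nat_lit 19609548702) (nat_lit 152) (nat_lit 13462774310) (nat_lit 76) (nat_lit 81097806437) (nat_lit 35) (nat_lit 5) (nat_lit 37) (nat_lit 5) (nat_lit 36) (nat_lit 5) (nat_lit 429) (nat_lit 376) (nat_lit 215)) (XT.nd (nat_lit 78) (nat_lit 0) (nat_lit 0) (XT.lf (nat_lit 0) (nat_lit 46316209280) (nat_lit 228) (nat_lit 71312447864)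 (nat_lit 76) (nat_lit 560333202) (nat_lit 33) (nat_lit 5) (nat_lit 36) (nat_lit 5) (nat_lit 34) (nat_lit 4) (nat_lit 430) (nat_lit 376) (nat_lit 214)) (XT.lf (nat_lit 0) (nat_lit 75130863917) (nat_lit 228) (nat_lit 12245330443) (nat_lit 76) (nat_lit 34993967141) (nat_lit 33) (nat_lit 5) (nat_lit 36) (nat_lit 5) (nat_lit 34) (nat_lit 4) (nat_lit 431) (nat_lit 376) (nat_lit 213)))) (XT.nd (nat_lit 156) (nat_lit 152) (nat_lit 0) (XT.nd (nat_lit 78) (nat_lit 76) (nat_lit 0) (XT.lf (nat_lit 0) (nat_lit 51418718760) (nat_lit 76) (nat_lit 54769137607) (nat_lit 152) (nat_lit 20532454844) (nat_lit 32) (nat_lit 5) (nat_lit 33) (nat_lit 5) (nat_lit 34) (nat_lit 4) (nat_lit 432) (nat_lit 376) (nat_lit 212)) (XT.lf (nat_lit 0) (nat_lit 7478971056) (nat_lit 152) (nat_lit 12709295241) (nat_lit 76) (nat_lit 111083359976) (nat_lit 31) (nat_lit 5) (nat_lit 33) (nat_lit 5) (nat_lit 32) (nat_lit 5) (nat_lit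 433) (nat_lit 376) (nat_lit 211))) (XT.nd (nat_lit 78) (nat_lit 0) (nat_lit 0) (XT.lf (nat_lit 0) (nat_lit 37320533841) (nat_lit 228) (nat_lit 81846777857) (nat_lit 76) (nat_lit 16810386193) (nat_lit 29) (nat_lit 5) (nat_lit 32) (nat_lit 5) (nat_lit 30) (nat_lit 4) (nat_lit 434) (nat_lit 376) (nat_lit 210)) (XT.lf (nat_lit 0) (nat_lit 69202779652) (nat_lit 228) (nat_lit 16490465432) (nat_lit 76) (nat_lit 55198397966) (nat_lit 29) (nat_lit 5) (nat_lit 32) (nat_lit 5) (nat_lit 30) (nat_lit 4) (nat_lit 435) (nat_lit 376) (nat_lit 209))))))))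
noncomputable def xc182 : XT := (XT.nd (nat_lit 1950) (nat_lit 304) (nat_lit 0) (XT.nd (nat_lit 936) (nat_lit 608) (nat_lit 0) (XT.nd (nat_lit 468) (nat_lit 304) (nat_lit 0) (XT.nd (nat_lit 234) (nat_lit 76) (nat_lit 0) (XT.nd (nat_lit 78) (nat_lit 152) (nat_lit 0) (XT.lf (nat_lit 0) (nat_lit 53855415405) (nat_lit 76) (nat_lit 49663492641) (nat_lit 152) (nat_lit 42490389105) (nat_lit 28) (nat_lit 5) (nat_lit 29) (nat_lit 5) (nat_lit 30) (nat_lit 4) (nat_lit 436) (nat_lit 376) (nat_lit 208)) (XT.nd (nat_lit 78) (nat_lit 152) (nat_lit 0) (XT.lf (nat_lit 0) (nat_lit 128289176737) (nat_lit 76) (nat_lit 11539897056) (nat_lit 152) (nat_lit 11539848805) (nat_lit 28) (nat_lit 5) (nat_lit 29) (nat_lit 5) (nat_lit 30) (nat_lit 4) (nat_lit 437) (nat_lit 376) (nat_lit 207)) (XT.lf (nat_lit 0) (nat_lit 21541802149) (nat_lit 152) (nat_lit 106660642748) (nat_lit 76) (nat_lit 28715004887) (nat_lit 26) (nat_lit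 5) (nat_lit 28) (nat_lit 5) (nat_lit 27) (nat_lit 4) (nat_lit 438) (nat_lit 376) (nat_lit 206)))) (XT.nd (nat_lit 78) (nat_lit 76) (nat_lit 0) (XT.lf (nat_lit 0) (nat_lit 56475170338) (nat_lit 152) (nat_lit 35049033401) (nat_lit 76) (nat_lit 71180468397) (nat_lit 26) (nat_lit 5) (nat_lit 28) (nat_lit 5) (nat_lit 27) (nat_lit 4) (nat_lit 439) (nat_lit 376) (nat_lit 205)) (XT.nd (nat_lit 78) (nat_lit 0) (nat_lit 0) (XT.lf (nat_lit 0) (nat_lit 41468627167) (nat_lit 76) (nat_lit 52333065373) (nat_lit 152) (nat_lit 74947238941) (nat_lit 25) (nat_lit 5) (nat_lit 26) (nat_lit 5) (nat_lit 27) (nat_lit 4) (nat_lit 440) (nat_lit 376) (nat_lit 204)) (XT.lf (nat_lit 0) (nat_lit 123027238549) (nat_lit 76) (nat_lit 10559936869) (nat_lit 152) (nat_lit 41478596793) (nat_lit 25) (nat_lit 5) (nat_lit 26) (nat_lit 5) (nat_lit 27) (nat_lit 4) (nat_lit 441) (nat_lit 376) (nat_lit 203))))) (XT.nd (nat_lit 234)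 (nat_lit 76) (nat_lit 0) (XT.nd (nat_lit 78) (nat_lit 152) (nat_lit 0) (XT.lf (nat_lit 0) (nat_lit 27318033467) (nat_lit 76) (nat_lit 148989439933) (nat_lit 76) (nat_lit 5343704668) (nat_lit 24) (nat_lit 4) (nat_lit 25) (nat_lit 5) (nat_lit 25) (nat_lit 4) (nat_lit 442) (nat_lit 376) (nat_lit 202)) (XT.nd (nat_lit 78) (nat_lit 76) (nat_lit 0) (XT.lf (nat_lit 0) (nat_lit 32622550585) (nat_lit 152) (nat_lit 76770913340) (nat_lit 76) (nat_lit 79093545371) (nat_lit 23) (nat_lit 5) (nat_lit 25) (nat_lit 5) (nat_lit 24) (nat_lit 4) (nat_lit 443) (nat_lit 376) (nat_lit 201)) (XT.lf (nat_lit 0) (nat_lit 4731644172) (nat_lit 76) (nat_lit 67648905095) (nat_lit 152) (nat_lit 123276052145) (nat_lit 22) (nat_lit 5) (nat_lit 23) (nat_lit 5) (nat_lit 24) (nat_lit 4) (nat_lit 444) (nat_lit 376) (nat_lit 200)))) (XT.nd (nat_lit 78) (nat_lit 76) (nat_lit 0) (XT.lf (nat_lit 0) (nat_lit 92973042782) (nat_lit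 76) (nat_lit 22452713605) (nat_lit 152) (nat_lit 87693951436) (nat_lit 22) (nat_lit 5) (nat_lit 23) (nat_lit 5) (nat_lit 24) (nat_lit 4) (nat_lit 445) (nat_lit 376) (nat_lit 199)) (XT.nd (nat_lit 78) (nat_lit 76) (nat_lit 0) (XT.lf (nat_lit 0) (nat_lit 161012780152) (nat_lit 152) (nat_lit 25721382059) (nat_lit 0) (nat_lit 24202329639) (nat_lit 22) (nat_lit 5) (nat_lit 24) (nat_lit 4) (nat_lit 22) (nat_lit 4) (nat_lit 446) (nat_lit 376) (nat_lit 198)) (XT.lf (nat_lit 0) (nat_lit 64623980240) (nat_lit 76) (nat_lit 145631437290) (nat_lit 76) (nat_lit 8819884532) (nat_lit 21) (nat_lit 4) (nat_lit 22) (nat_lit 5) (nat_lit 22) (nat_lit 4) (nat_lit 447) (nat_lit 376) (nat_lit 197)))))) (XT.nd (nat_lit 468) (nat_lit 304) (nat_lit 0) (XT.nd (nat_lit 234) (nat_lit 152) (nat_lit 0) (XT.nd (nat_lit 78) (nat_lit 76) (nat_lit 0) (XT.lf (nat_lit 0) (nat_lit 33682037733) (nat_lit 152) (nat_lit 67764425162)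 (nat_lit 76) (nat_lit 126125684954) (nat_lit 20) (nat_lit 5) (nat_lit 22) (nat_lit 5) (nat_lit 21) (nat_lit 4) (nat_lit 448) (nat_lit 376) (nat_lit 196)) (XT.nd (nat_lit 78) (nat_lit 0) (nat_lit 0) (XT.lf (nat_lit 0) (nat_lit 23874966201) (nat_lit 76) (nat_lit 54509701352) (nat_lit 152) (nat_lit 158083338179) (nat_lit 19) (nat_lit 5) (nat_lit 20) (nat_lit 5) (nat_lit 21) (nat_lit 4) (nat_lit 449) (nat_lit 376) (nat_lit 195)) (XT.lf (nat_lit 0) (nat_lit 122447567821) (nat_lit 76) (nat_lit 4021760113) (nat_lit 152) (nat_lit 119281983709) (nat_lit 19) (nat_lit 5) (nat_lit 20) (nat_lit 5) (nat_lit 21) (nat_lit 4) (nat_lit 450) (nat_lit 376) (nat_lit 194)))) (XT.nd (nat_lit 78) (nat_lit 152) (nat_lit 0) (XT.lf (nat_lit 0) (nat_lit 177722401927) (nat_lit 152) (nat_lit 30316209347) (nat_lit 0) (nat_lit 47421962627) (nat_lit 19) (nat_lit 5) (nat_lit 21) (nat_lit 4) (nat_lit 19) (nat_lit 4) (nat_lit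 451) (nat_lit 376) (nat_lit 193)) (XT.nd (nat_lit 78) (nat_lit 76) (nat_lit 0) (XT.lf (nat_lit 0) (nat_lit 69477193738) (nat_lit 76) (nat_lit 163210933765) (nat_lit 76) (nat_lit 32909671952) (nat_lit 18) (nat_lit 4) (nat_lit 19) (nat_lit 5) (nat_lit 19) (nat_lit 4) (nat_lit 452) (nat_lit 376) (nat_lit 192)) (XT.lf (nat_lit 0) (nat_lit 14228207859) (nat_lit 152) (nat_lit 101134219045) (nat_lit 76) (nat_lit 160842346827) (nat_lit 17) (nat_lit 5) (nat_lit 19) (nat_lit 5) (nat_lit 18) (nat_lit 4) (nat_lit 453) (nat_lit 376) (nat_lit 191))))) (XT.nd (nat_lit 234) (nat_lit 228) (nat_lit 0) (XT.nd (nat_lit 78) (nat_lit 76) (nat_lit 0) (XT.lf (nat_lit 0) (nat_lit 62616367484) (nat_lit 152) (nat_lit 1939237857) (nat_lit 76) (nat_lit 222759547975) (nat_lit 17) (nat_lit 5) (nat_lit 19) (nat_lit 5) (nat_lit 18) (nat_lit 4) (nat_lit 454) (nat_lit 376) (nat_lit 190)) (XT.nd (nat_lit 78) (nat_lit 0) (nat_lit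 0) (XT.lf (nat_lit 0) (nat_lit 105593995894) (nat_lit 76) (nat_lit 9477954160) (nat_lit 152) (nat_lit 183826701143) (nat_lit 16) (nat_lit 5) (nat_lit 17) (nat_lit 5) (nat_lit 18) (nat_lit 4) (nat_lit 455) (nat_lit 376) (nat_lit 189)) (XT.lf (nat_lit 0) (nat_lit 170938025947) (nat_lit 152) (nat_lit 93245103953) (nat_lit 0) (nat_lit 46838808423) (nat_lit 16) (nat_lit 5) (nat_lit 18) (nat_lit 4) (nat_lit 16) (nat_lit 4) (nat_lit 456) (nat_lit 376) (nat_lit 188)))) (XT.nd (nat_lit 156) (nat_lit 152) (nat_lit 0) (XT.nd (nat_lit 78) (nat_lit 0) (nat_lit 0) (XT.lf (nat_lit 0) (nat_lit 12046501379) (nat_lit 76) (nat_lit 217893787801) (nat_lit 76) (nat_lit 93793956506) (nat_lit 15) (nat_lit 4) (nat_lit 16) (nat_lit 5) (nat_lit 16) (nat_lit 4) (nat_lit 457) (nat_lit 376) (nat_lit 187)) (XT.lf (nat_lit 0) (nat_lit 125838853783) (nat_lit 76) (nat_lit 167632400546) (nat_lit 76) (nat_lit 43531984706)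 (nat_lit 15) (nat_lit 4) (nat_lit 16) (nat_lit 5) (nat_lit 16) (nat_lit 4) (nat_lit 458) (nat_lit 376) (nat_lit 186))) (XT.nd (nat_lit 78) (nat_lit 76) (nat_lit 0) (XT.lf (nat_lit 0) (nat_lit 8946704959) (nat_lit 152) (nat_lit 105760227381) (nat_lit 76) (nat_lit 236221561451) (nat_lit 14) (nat_lit 5) (nat_lit 16) (nat_lit 5) (nat_lit 15) (nat_lit 4) (nat_lit 459) (nat_lit 376) (nat_lit 185)) (XT.lf (nat_lit 0) (nat_lit 4338345175) (nat_lit 76) (nat_lit 58315239176) (nat_lit 152) (nat_lit 302857384257) (nat_lit 13) (nat_lit 5) (nat_lit 14) (nat_lit 5) (nat_lit 15) (nat_lit 4) (nat_lit 460) (nat_lit 376) (nat_lit 184))))))) (XT.nd (nat_lit 1014) (nat_lit 0) (nat_lit 0) (XT.nd (nat_lit 468) (nat_lit 152) (nat_lit 0) (XT.nd (nat_lit 234) (nat_lit 152) (nat_lit 0) (XT.nd (nat_lit 78) (nat_lit 0) (nat_lit 0) (XT.lf (nat_lit 0) (nat_lit 120879743636) (nat_lit 152) (nat_lit 257163771430) (nat_lit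 0) (nat_lit 2687355352) (nat_lit 13) (nat_lit 5) (nat_lit 15) (nat_lit 4) (nat_lit 13) (nat_lit 4) (nat_lit 461) (nat_lit 376) (nat_lit 183)) (XT.nd (nat_lit 78) (nat_lit 0) (nat_lit 0) (XT.lf (nat_lit 0) (nat_lit 182972706331) (nat_lit 152) (nat_lit 148911426215) (nat_lit 0) (nat_lit 64779860041) (nat_lit 13) (nat_lit 5) (nat_lit 15) (nat_lit 4) (nat_lit 13) (nat_lit 4) (nat_lit 462) (nat_lit 376) (nat_lit 182)) (XT.lf (nat_lit 0) (nat_lit 248169848513) (nat_lit 152) (nat_lit 35247379799) (nat_lit 0) (nat_lit 129976566027) (nat_lit 13) (nat_lit 5) (nat_lit 15) (nat_lit 4) (nat_lit 13) (nat_lit 4) (nat_lit 463) (nat_lit 376) (nat_lit 181)))) (XT.nd (nat_lit 78) (nat_lit 76) (nat_lit 0) (XT.lf (nat_lit 0) (nat_lit 86879689126) (nat_lit 76) (nat_lit 231103147774) (nat_lit 76) (nat_lit 112909449863) (nat_lit 12) (nat_lit 4) (nat_lit 13) (nat_lit 5) (nat_lit 13) (nat_lit 4) (nat_lit 464) (nat_lit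 376) (nat_lit 180)) (XT.nd (nat_lit 78) (nat_lit 76) (nat_lit 0) (XT.lf (nat_lit 0) (nat_lit 216335962569) (nat_lit 76) (nat_lit 175547005091) (nat_lit 76) (nat_lit 57352911539) (nat_lit 12) (nat_lit 4) (nat_lit 13) (nat_lit 5) (nat_lit 13) (nat_lit 4) (nat_lit 465) (nat_lit 376) (nat_lit 179)) (XT.lf (nat_lit 0) (nat_lit 949616575) (nat_lit 152) (nat_lit 116247756376) (nat_lit 76) (nat_lit 351298533401) (nat_lit 11) (nat_lit 5) (nat_lit 13) (nat_lit 5) (nat_lit 12) (nat_lit 4) (nat_lit 466) (nat_lit 376) (nat_lit 178))))) (XT.nd (nat_lit 234) (nat_lit 76) (nat_lit 0) (XT.nd (nat_lit 78) (nat_lit 0) (nat_lit 0) (XT.lf (nat_lit 0) (nat_lit 5471118214) (nat_lit 76) (nat_lit 54853734189) (nat_lit 152) (nat_lit 428342821147) (nat_lit 10) (nat_lit 5) (nat_lit 11) (nat_lit 5) (nat_lit 12) (nat_lit 4) (nat_lit 467) (nat_lit 376) (nat_lit 177)) (XT.nd (nat_lit 78) (nat_lit 0) (nat_lit 0) (XT.lf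 (nat_lit 0) (nat_lit 124835039198) (nat_lit 152) (nat_lit 372636470796) (nat_lit 0) (nat_lit 12268209688) (nat_lit 10) (nat_lit 5) (nat_lit 12) (nat_lit 4) (nat_lit 10) (nat_lit 4) (nat_lit 468) (nat_lit 376) (nat_lit 176)) (XT.lf (nat_lit 0) (nat_lit 193469592927) (nat_lit 152) (nat_lit 257448378919) (nat_lit 0) (nat_lit 80902453421) (nat_lit 10) (nat_lit 5) (nat_lit 12) (nat_lit 4) (nat_lit 10) (nat_lit 4) (nat_lit 469) (nat_lit 376) (nat_lit 175)))) (XT.nd (nat_lit 156) (nat_lit 76) (nat_lit 0) (XT.nd (nat_lit 78) (nat_lit 0) (nat_lit 0) (XT.lf (nat_lit 0) (nat_lit 265535508680) (nat_lit 152) (nat_lit 136501601827) (nat_lit 0) (nat_lit 152968073939) (nat_lit 10) (nat_lit 5) (nat_lit 12) (nat_lit 4) (nat_lit 10) (nat_lit 4) (nat_lit 470) (nat_lit 376) (nat_lit 174)) (XT.lf (nat_lit 0) (nat_lit 341204371968) (nat_lit 152) (nat_lit 9508171002) (nat_lit 0) (nat_lit 228636656051) (nat_lit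 10) (nat_lit 5) (nat_lit 12) (nat_lit 4) (nat_lit 10) (nat_lit 4) (nat_lit 471) (nat_lit 376) (nat_lit 173))) (XT.nd (nat_lit 78) (nat_lit 0) (nat_lit 0) (XT.lf (nat_lit 0) (nat_lit 127928799377) (nat_lit 76) (nat_lit 294724874453) (nat_lit 76) (nat_lit 182156890750) (nat_lit 9) (nat_lit 4) (nat_lit 10) (nat_lit 5) (nat_lit 10) (nat_lit 4) (nat_lit 472) (nat_lit 376) (nat_lit 172)) (XT.lf (nat_lit 0) (nat_lit 272567078530) (nat_lit 76) (nat_lit 235769061835) (nat_lit 76) (nat_lit 123200823098) (nat_lit 9) (nat_lit 4) (nat_lit 10) (nat_lit 5) (nat_lit 10) (nat_lit 4) (nat_lit 473) (nat_lit 376) (nat_lit 171)))))) (XT.nd (nat_lit 45942) (nat_lit 0) (nat_lit 7296) (XT.nd (nat_lit 45708) (nat_lit 0) (nat_lit 7752) (XT.nd (nat_lit 45552) (nat_lit 0) (nat_lit 7676) (XT.lf (nat_lit 0) (nat_lit 424436660238) (nat_lit 76) (nat_lit 173865759610) (nat_lit 76) (nat_lit 61297277983) (nat_lit 9) (nat_lit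 4) (nat_lit 10) (nat_lit 5) (nat_lit 10) (nat_lit 4) (nat_lit 474) (nat_lit 376) (nat_lit 170)) (XT.nd (nat_lit 78) (nat_lit 0) (nat_lit 0) (XT.lf (nat_lit 0) (nat_lit 2083112525) (nat_lit 836) (nat_lit 5163604203) (nat_lit 836) (nat_lit 5163604203) (nat_lit 110) (nat_lit 3) (nat_lit 121) (nat_lit 3) (nat_lit 121) (nat_lit 5) (nat_lit 377) (nat_lit 377) (nat_lit 266)) (XT.lf (nat_lit 76) (nat_lit 1686579539) (nat_lit 0) (nat_lit 2714063340) (nat_lit 836) (nat_lit 21033928532) (nat_lit 111) (nat_lit 5) (nat_lit 110) (nat_lit 3) (nat_lit 121) (nat_lit 5) (nat_lit 378) (nat_lit 377) (nat_lit 265)))) (XT.nd (nat_lit 78) (nat_lit 0) (nat_lit 0) (XT.lf (nat_lit 0) (nat_lit 4968614504) (nat_lit 760) (nat_lit 11568455003) (nat_lit 836) (nat_lit 9526040981) (nat_lit 111) (nat_lit 5) (nat_lit 121) (nat_lit 5) (nat_lit 122) (nat_lit 5) (nat_lit 379) (nat_lit 377) (nat_lit 264)) (XT.nd (nat_lit 78)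 (nat_lit 0) (nat_lit 76) (XT.lf (nat_lit 76) (nat_lit 1210500711) (nat_lit 0) (nat_lit 4411532519) (nat_lit 836) (nat_lit 21098195337) (nat_lit 112) (nat_lit 5) (nat_lit 111) (nat_lit 5) (nat_lit 122) (nat_lit 5) (nat_lit 380) (nat_lit 377) (nat_lit 263)) (XT.lf (nat_lit 0) (nat_lit 6631091620) (nat_lit 760) (nat_lit 12507579807) (nat_lit 836) (nat_lit 8255386948) (nat_lit 112) (nat_lit 5) (nat_lit 122) (nat_lit 5) (nat_lit 123) (nat_lit 5) (nat_lit 381) (nat_lit 377) (nat_lit 262))))) (XT.nd (nat_lit 234) (nat_lit 532) (nat_lit 0) (XT.nd (nat_lit 78) (nat_lit 0) (nat_lit 76) (XT.lf (nat_lit 76) (nat_lit 1103785070) (nat_lit 0) (nat_lit 6670596647) (nat_lit 836) (nat_lit 20323013075) (nat_lit 113) (nat_lit 5) (nat_lit 112) (nat_lit 5) (nat_lit 123) (nat_lit 5) (nat_lit 382) (nat_lit 377) (nat_lit 261)) (XT.nd (nat_lit 78) (nat_lit 0) (nat_lit 0) (XT.lf (nat_lit 0) (nat_lit 9284846106) (nat_lit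 760) (nat_lit 13103218529) (nat_lit 836) (nat_lit 6432336770) (nat_lit 113) (nat_lit 5) (nat_lit 123) (nat_lit 5) (nat_lit 124) (nat_lit 5) (nat_lit 383) (nat_lit 377) (nat_lit 260)) (XT.lf (nat_lit 76) (nat_lit 1413636457) (nat_lit 0) (nat_lit 9583353001) (nat_lit 836) (nat_lit 18576264785) (nat_lit 114) (nat_lit 5) (nat_lit 113) (nat_lit 5) (nat_lit 124) (nat_lit 5) (nat_lit 384) (nat_lit 377) (nat_lit 259)))) (XT.nd (nat_lit 156) (nat_lit 684) (nat_lit 0) (XT.nd (nat_lit 78) (nat_lit 0) (nat_lit 0) (XT.lf (nat_lit 0) (nat_lit 13075517315) (nat_lit 760) (nat_lit 13309493440) (nat_lit 836) (nat_lit 3964703607) (nat_lit 114) (nat_lit 5) (nat_lit 124) (nat_lit 5) (nat_lit 125) (nat_lit 5) (nat_lit 385) (nat_lit 377) (nat_lit 258)) (XT.lf (nat_lit 76) (nat_lit 2192236942) (nat_lit 0) (nat_lit 13252246516) (nat_lit 836) (nat_lit 15711191772) (nat_lit 115) (nat_lit 5) (nat_lit 114) (nat_lit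 5) (nat_lit 125) (nat_lit 5) (nat_lit 386) (nat_lit 377) (nat_lit 257))) (XT.nd (nat_lit 78) (nat_lit 760) (nat_lit 0) (XT.lf (nat_lit 0) (nat_lit 18164743436) (nat_lit 760) (nat_lit 13075761122) (nat_lit 76) (nat_lit 749790487) (nat_lit 115) (nat_lit 5) (nat_lit 125) (nat_lit 5) (nat_lit 116) (nat_lit 5) (nat_lit 387) (nat_lit 377) (nat_lit 256)) (XT.lf (nat_lit 0) (nat_lit 3497029227) (nat_lit 760) (nat_lit 17791417632) (nat_lit 836) (nat_lit 11564830498) (nat_lit 105) (nat_lit 5) (nat_lit 115) (nat_lit 5) (nat_lit 116) (nat_lit 5) (nat_lit 388) (nat_lit 377) (nat_lit 255))))))))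
noncomputable def xc183 : XT := (XT.nd (nat_lit 1950) (nat_lit 2204) (nat_lit 0) (XT.nd (nat_lit 936) (nat_lit 1748) (nat_lit 0) (XT.nd (nat_lit 468) (nat_lit 912) (nat_lit 0) (XT.nd (nat_lit 234) (nat_lit 760) (nat_lit 0) (XT.nd (nat_lit 78) (nat_lit 380) (nat_lit 0) (XT.lf (nat_lit 0) (nat_lit 21348536157) (nat_lit 760) (nat_lit 3436975453) (nat_lit 836) (nat_lit 8963041249) (nat_lit 105) (nat_lit 5) (nat_lit 115) (nat_lit 5) (nat_lit 116) (nat_lit 5) (nat_lit 389) (nat_lit 377) (nat_lit 254)) (XT.nd (nat_lit 78) (nat_lit 0) (nat_lit 0) (XT.lf (nat_lit 0) (nat_lit 5391003569) (nat_lit 380) (nat_lit 23328193388) (nat_lit 456) (nat_lit 5956309560) (nat_lit 100) (nat_lit 5) (nat_lit 105) (nat_lit 5) (nat_lit 106) (nat_lit 5) (nat_lit 390) (nat_lit 377) (nat_lit 253)) (XT.lf (nat_lit 0) (nat_lit 24440021068) (nat_lit 380) (nat_lit 8671054878) (nat_lit 456) (nat_lit 2524659059) (nat_lit 100)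 (nat_lit 5) (nat_lit 105) (nat_lit 5) (nat_lit 106) (nat_lit 5) (nat_lit 391) (nat_lit 377) (nat_lit 252)))) (XT.nd (nat_lit 78) (nat_lit 380) (nat_lit 0) (XT.lf (nat_lit 0) (nat_lit 1272917701) (nat_lit 380) (nat_lit 28710266372) (nat_lit 76) (nat_lit 6648507997) (nat_lit 95) (nat_lit 5) (nat_lit 100) (nat_lit 5) (nat_lit 96) (nat_lit 5) (nat_lit 392) (nat_lit 377) (nat_lit 251)) (XT.nd (nat_lit 78) (nat_lit 380) (nat_lit 0) (XT.lf (nat_lit 0) (nat_lit 5506709025) (nat_lit 380) (nat_lit 9475415799) (nat_lit 76) (nat_lit 22676695989) (nat_lit 95) (nat_lit 5) (nat_lit 100) (nat_lit 5) (nat_lit 96) (nat_lit 5) (nat_lit 393) (nat_lit 377) (nat_lit 250)) (XT.lf (nat_lit 0) (nat_lit 10136382857) (nat_lit 456) (nat_lit 27671862353) (nat_lit 76) (nat_lit 919853290) (nat_lit 90) (nat_lit 5) (nat_lit 96) (nat_lit 5) (nat_lit 91) (nat_lit 5) (nat_lit 394) (nat_lit 377) (nat_lit 249))))) (XT.nd (nat_lit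 234) (nat_lit 608) (nat_lit 0) (XT.nd (nat_lit 78) (nat_lit 304) (nat_lit 0) (XT.lf (nat_lit 0) (nat_lit 15402850296) (nat_lit 456) (nat_lit 7151457665) (nat_lit 76) (nat_lit 17276268663) (nat_lit 90) (nat_lit 5) (nat_lit 96) (nat_lit 5) (nat_lit 91) (nat_lit 5) (nat_lit 395) (nat_lit 377) (nat_lit 248)) (XT.nd (nat_lit 78) (nat_lit 0) (nat_lit 0) (XT.lf (nat_lit 0) (nat_lit 14867154189) (nat_lit 304) (nat_lit 6294366664) (nat_lit 380) (nat_lit 19815215766) (nat_lit 86) (nat_lit 5) (nat_lit 90) (nat_lit 5) (nat_lit 91) (nat_lit 5) (nat_lit 396) (nat_lit 377) (nat_lit 247)) (XT.lf (nat_lit 0) (nat_lit 27496360256) (nat_lit 380) (nat_lit 4113186674) (nat_lit 76) (nat_lit 10556247777) (nat_lit 86) (nat_lit 5) (nat_lit 91) (nat_lit 5) (nat_lit 87) (nat_lit 5) (nat_lit 397) (nat_lit 377) (nat_lit 246)))) (XT.nd (nat_lit 78) (nat_lit 304) (nat_lit 0) (XT.lf (nat_lit 0) (nat_lit 19500408184) (nat_lit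 304) (nat_lit 15052178420) (nat_lit 380) (nat_lit 8841488618) (nat_lit 82) (nat_lit 5) (nat_lit 86) (nat_lit 5) (nat_lit 87) (nat_lit 5) (nat_lit 398) (nat_lit 377) (nat_lit 245)) (XT.nd (nat_lit 78) (nat_lit 304) (nat_lit 0) (XT.lf (nat_lit 0) (nat_lit 42065931725) (nat_lit 380) (nat_lit 284020395) (nat_lit 76) (nat_lit 2328603955) (nat_lit 82) (nat_lit 5) (nat_lit 87) (nat_lit 5) (nat_lit 83) (nat_lit 5) (nat_lit 399) (nat_lit 377) (nat_lit 244)) (XT.lf (nat_lit 0) (nat_lit 4447585259) (nat_lit 304) (nat_lit 21009353021) (nat_lit 76) (nat_lit 20534977488) (nat_lit 78) (nat_lit 5) (nat_lit 82) (nat_lit 5) (nat_lit 79) (nat_lit 5) (nat_lit 400) (nat_lit 377) (nat_lit 243)))))) (XT.nd (nat_lit 468) (nat_lit 912) (nat_lit 0) (XT.nd (nat_lit 234) (nat_lit 304) (nat_lit 0) (XT.nd (nat_lit 78) (nat_lit 228) (nat_lit 0) (XT.lf (nat_lit 0) (nat_lit 4240948922) (nat_lit 304) (nat_lit 7600410435)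 (nat_lit 380) (nat_lit 35524026283) (nat_lit 74) (nat_lit 5) (nat_lit 78) (nat_lit 5) (nat_lit 79) (nat_lit 5) (nat_lit 401) (nat_lit 377) (nat_lit 242)) (XT.nd (nat_lit 78) (nat_lit 228) (nat_lit 0) (XT.lf (nat_lit 0) (nat_lit 20137842752) (nat_lit 380) (nat_lit 17490052465) (nat_lit 76) (nat_lit 11152984148) (nat_lit 74) (nat_lit 5) (nat_lit 79) (nat_lit 5) (nat_lit 75) (nat_lit 5) (nat_lit 402) (nat_lit 377) (nat_lit 241)) (XT.lf (nat_lit 0) (nat_lit 9605482103) (nat_lit 228) (nat_lit 19515679248) (nat_lit 304) (nat_lit 21132387193) (nat_lit 71) (nat_lit 5) (nat_lit 74) (nat_lit 5) (nat_lit 75) (nat_lit 5) (nat_lit 403) (nat_lit 377) (nat_lit 240)))) (XT.nd (nat_lit 78) (nat_lit 304) (nat_lit 0) (XT.lf (nat_lit 0) (nat_lit 38659656066) (nat_lit 228) (nat_lit 187707257) (nat_lit 304) (nat_lit 12937803245) (nat_lit 71) (nat_lit 5) (nat_lit 74) (nat_lit 5) (nat_lit 75) (nat_lit 5) (nat_lit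 404) (nat_lit 377) (nat_lit 239)) (XT.nd (nat_lit 78) (nat_lit 76) (nat_lit 0) (XT.lf (nat_lit 0) (nat_lit 15966995997) (nat_lit 228) (nat_lit 33653710696) (nat_lit 304) (nat_lit 3744618435) (nat_lit 68) (nat_lit 5) (nat_lit 71) (nat_lit 5) (nat_lit 72) (nat_lit 5) (nat_lit 405) (nat_lit 377) (nat_lit 238)) (XT.lf (nat_lit 0) (nat_lit 5945777509) (nat_lit 304) (nat_lit 8145851768) (nat_lit 76) (nat_lit 40916918628) (nat_lit 67) (nat_lit 5) (nat_lit 71) (nat_lit 5) (nat_lit 68) (nat_lit 5) (nat_lit 406) (nat_lit 377) (nat_lit 237))))) (XT.nd (nat_lit 234) (nat_lit 456) (nat_lit 0) (XT.nd (nat_lit 78) (nat_lit 228) (nat_lit 0) (XT.lf (nat_lit 0) (nat_lit 16463207039) (nat_lit 304) (nat_lit 33571646934) (nat_lit 76) (nat_lit 6672591646) (nat_lit 64) (nat_lit 5) (nat_lit 68) (nat_lit 5) (nat_lit 65) (nat_lit 5) (nat_lit 407) (nat_lit 377) (nat_lit 236)) (XT.nd (nat_lit 78) (nat_lit 228) (nat_lit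 0) (XT.lf (nat_lit 0) (nat_lit 27875533644) (nat_lit 304) (nat_lit 2456536692) (nat_lit 76) (nat_lit 28140767589) (nat_lit 64) (nat_lit 5) (nat_lit 68) (nat_lit 5) (nat_lit 65) (nat_lit 5) (nat_lit 408) (nat_lit 377) (nat_lit 235)) (XT.lf (nat_lit 0) (nat_lit 31210191476) (nat_lit 228) (nat_lit 9133468231) (nat_lit 304) (nat_lit 19958581921) (nat_lit 61) (nat_lit 5) (nat_lit 64) (nat_lit 5) (nat_lit 65) (nat_lit 5) (nat_lit 409) (nat_lit 377) (nat_lit 234)))) (XT.nd (nat_lit 156) (nat_lit 228) (nat_lit 0) (XT.nd (nat_lit 78) (nat_lit 76) (nat_lit 0) (XT.lf (nat_lit 0) (nat_lit 4355201452) (nat_lit 152) (nat_lit 49393133482) (nat_lit 228) (nat_lit 8459124336) (nat_lit 59) (nat_lit 5) (nat_lit 61) (nat_lit 5) (nat_lit 62) (nat_lit 5) (nat_lit 410) (nat_lit 377) (nat_lit 233)) (XT.lf (nat_lit 0) (nat_lit 4148046498) (nat_lit 228) (nat_lit 23915843934) (nat_lit 76) (nat_lit 36108803281) (nat_lit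 58) (nat_lit 5) (nat_lit 61) (nat_lit 5) (nat_lit 59) (nat_lit 5) (nat_lit 411) (nat_lit 377) (nat_lit 232))) (XT.nd (nat_lit 78) (nat_lit 0) (nat_lit 0) (XT.lf (nat_lit 0) (nat_lit 11958495817) (nat_lit 228) (nat_lit 5327559794) (nat_lit 304) (nat_lit 48933963243) (nat_lit 55) (nat_lit 5) (nat_lit 58) (nat_lit 5) (nat_lit 59) (nat_lit 5) (nat_lit 412) (nat_lit 377) (nat_lit 231)) (XT.lf (nat_lit 0) (nat_lit 31780267111) (nat_lit 304) (nat_lit 18191789611) (nat_lit 76) (nat_lit 18362689168) (nat_lit 55) (nat_lit 5) (nat_lit 59) (nat_lit 5) (nat_lit 56) (nat_lit 5) (nat_lit 413) (nat_lit 377) (nat_lit 230))))))) (XT.nd (nat_lit 1014) (nat_lit 988) (nat_lit 0) (XT.nd (nat_lit 468) (nat_lit 532) (nat_lit 0) (XT.nd (nat_lit 234) (nat_lit 304) (nat_lit 0) (XT.nd (nat_lit 78) (nat_lit 228) (nat_lit 0) (XT.lf (nat_lit 0) (nat_lit 20239012066) (nat_lit 152) (nat_lit 27161680123) (nat_lit 228) (nat_lit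 23134442640) (nat_lit 53) (nat_lit 5) (nat_lit 55) (nat_lit 5) (nat_lit 56) (nat_lit 5) (nat_lit 414) (nat_lit 377) (nat_lit 229)) (XT.nd (nat_lit 78) (nat_lit 228) (nat_lit 0) (XT.lf (nat_lit 0) (nat_lit 61220121596) (nat_lit 152) (nat_lit 2888324819) (nat_lit 228) (nat_lit 8721782072) (nat_lit 53) (nat_lit 5) (nat_lit 55) (nat_lit 5) (nat_lit 56) (nat_lit 5) (nat_lit 415) (nat_lit 377) (nat_lit 228)) (XT.lf (nat_lit 0) (nat_lit 7032926186) (nat_lit 228) (nat_lit 45710761105) (nat_lit 76) (nat_lit 22450053906) (nat_lit 50) (nat_lit 5) (nat_lit 53) (nat_lit 5) (nat_lit 51) (nat_lit 5) (nat_lit 416) (nat_lit 377) (nat_lit 227)))) (XT.nd (nat_lit 78) (nat_lit 304) (nat_lit 0) (XT.lf (nat_lit 0) (nat_lit 23527758238) (nat_lit 228) (nat_lit 4828111946) (nat_lit 76) (nat_lit 49300136061) (nat_lit 50) (nat_lit 5) (nat_lit 53) (nat_lit 5) (nat_lit 51) (nat_lit 5) (nat_lit 417) (nat_lit 377) (nat_lit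 226)) (XT.nd (nat_lit 78) (nat_lit 152) (nat_lit 0) (XT.lf (nat_lit 0) (nat_lit 39355669527) (nat_lit 152) (nat_lit 2104497290) (nat_lit 228) (nat_lit 38750576531) (nat_lit 48) (nat_lit 5) (nat_lit 50) (nat_lit 5) (nat_lit 51) (nat_lit 5) (nat_lit 418) (nat_lit 377) (nat_lit 225)) (XT.lf (nat_lit 0) (nat_lit 2712465508) (nat_lit 152) (nat_lit 58098083234) (nat_lit 228) (nat_lit 22056601440) (nat_lit 46) (nat_lit 5) (nat_lit 48) (nat_lit 5) (nat_lit 49) (nat_lit 5) (nat_lit 419) (nat_lit 377) (nat_lit 224))))) (XT.nd (nat_lit 234) (nat_lit 304) (nat_lit 0) (XT.nd (nat_lit 78) (nat_lit 228) (nat_lit 0) (XT.lf (nat_lit 0) (nat_lit 49838530906) (nat_lit 152) (nat_lit 32014201745) (nat_lit 228) (nat_lit 3767431061) (nat_lit 46) (nat_lit 5) (nat_lit 48) (nat_lit 5) (nat_lit 49) (nat_lit 5) (nat_lit 420) (nat_lit 377) (nat_lit 223)) (XT.nd (nat_lit 78) (nat_lit 0) (nat_lit 0) (XT.lf (nat_lit 0)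 (nat_lit 10915914317) (nat_lit 152) (nat_lit 4195145245) (nat_lit 228) (nat_lit 73379272872) (nat_lit 43) (nat_lit 5) (nat_lit 45) (nat_lit 5) (nat_lit 46) (nat_lit 5) (nat_lit 421) (nat_lit 377) (nat_lit 222)) (XT.lf (nat_lit 0) (nat_lit 35811835516) (nat_lit 228) (nat_lit 30747911867) (nat_lit 76) (nat_lit 24890926019) (nat_lit 43) (nat_lit 5) (nat_lit 46) (nat_lit 5) (nat_lit 44) (nat_lit 5) (nat_lit 422) (nat_lit 377) (nat_lit 221)))) (XT.nd (nat_lit 156) (nat_lit 152) (nat_lit 0) (XT.nd (nat_lit 78) (nat_lit 0) (nat_lit 0) (XT.lf (nat_lit 0) (nat_lit 18955409595) (nat_lit 152) (nat_lit 38955537472) (nat_lit 228) (nat_lit 36629919922) (nat_lit 41) (nat_lit 5) (nat_lit 43) (nat_lit 5) (nat_lit 44) (nat_lit 5) (nat_lit 423) (nat_lit 377) (nat_lit 220)) (XT.lf (nat_lit 0) (nat_lit 72209005660) (nat_lit 152) (nat_lit 9425346623) (nat_lit 228) (nat_lit 16125251458) (nat_lit 41) (nat_lit 5)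 (nat_lit 43) (nat_lit 5) (nat_lit 44) (nat_lit 5) (nat_lit 424) (nat_lit 377) (nat_lit 219))) (XT.nd (nat_lit 78) (nat_lit 0) (nat_lit 0) (XT.lf (nat_lit 0) (nat_lit 6009605100) (nat_lit 152) (nat_lit 73670144869) (nat_lit 76) (nat_lit 21416411765) (nat_lit 39) (nat_lit 5) (nat_lit 41) (nat_lit 5) (nat_lit 40) (nat_lit 5) (nat_lit 425) (nat_lit 377) (nat_lit 218)) (XT.lf (nat_lit 0) (nat_lit 29302274615) (nat_lit 152) (nat_lit 21067680862) (nat_lit 76) (nat_lit 54186725854) (nat_lit 39) (nat_lit 5) (nat_lit 41) (nat_lit 5) (nat_lit 40) (nat_lit 5) (nat_lit 426) (nat_lit 377) (nat_lit 217)))))) (XT.nd (nat_lit 468) (nat_lit 532) (nat_lit 0) (XT.nd (nat_lit 234) (nat_lit 228) (nat_lit 0) (XT.nd (nat_lit 78) (nat_lit 76) (nat_lit 0) (XT.lf (nat_lit 0) (nat_lit 35292255542) (nat_lit 152) (nat_lit 19017061706) (nat_lit 228) (nat_lit 53853422998) (nat_lit 37) (nat_lit 5) (nat_lit 39) (nat_lit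 5) (nat_lit 40) (nat_lit 5) (nat_lit 427) (nat_lit 377) (nat_lit 216)) (XT.nd (nat_lit 78) (nat_lit 76) (nat_lit 0) (XT.lf (nat_lit 0) (nat_lit 81145164960) (nat_lit 228) (nat_lit 16954808101) (nat_lit 76) (nat_lit 13820206704) (nat_lit 37) (nat_lit 5) (nat_lit 40) (nat_lit 5) (nat_lit 38) (nat_lit 4) (nat_lit 428) (nat_lit 377) (nat_lit 215)) (XT.lf (nat_lit 0) (nat_lit 42813053386) (nat_lit 76) (nat_lit 67488738814) (nat_lit 152) (nat_lit 5514749994) (nat_lit 36) (nat_lit 5) (nat_lit 37) (nat_lit 5) (nat_lit 38) (nat_lit 4) (nat_lit 429) (nat_lit 377) (nat_lit 214)))) (XT.nd (nat_lit 78) (nat_lit 152) (nat_lit 0) (XT.lf (nat_lit 0) (nat_lit 20626774194) (nat_lit 152) (nat_lit 14070268776) (nat_lit 76) (nat_lit 85179747426) (nat_lit 35) (nat_lit 5) (nat_lit 37) (nat_lit 5) (nat_lit 36) (nat_lit 5) (nat_lit 430) (nat_lit 377) (nat_lit 213)) (XT.nd (nat_lit 78) (nat_lit 0) (nat_lit 0) (XT.lf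 (nat_lit 0) (nat_lit 48668472452) (nat_lit 228) (nat_lit 74812122923) (nat_lit 76) (nat_lit 616014118) (nat_lit 33) (nat_lit 5) (nat_lit 36) (nat_lit 5) (nat_lit 34) (nat_lit 4) (nat_lit 431) (nat_lit 377) (nat_lit 212)) (XT.lf (nat_lit 0) (nat_lit 78922123978) (nat_lit 228) (nat_lit 12794789981) (nat_lit 76) (nat_lit 36770012408) (nat_lit 33) (nat_lit 5) (nat_lit 36) (nat_lit 5) (nat_lit 34) (nat_lit 4) (nat_lit 432) (nat_lit 377) (nat_lit 211))))) (XT.nd (nat_lit 234) (nat_lit 228) (nat_lit 0) (XT.nd (nat_lit 78) (nat_lit 228) (nat_lit 0) (XT.lf (nat_lit 0) (nat_lit 54051448667) (nat_lit 76) (nat_lit 57479828976) (nat_lit 152) (nat_lit 21523340690) (nat_lit 32) (nat_lit 5) (nat_lit 33) (nat_lit 5) (nat_lit 34) (nat_lit 4) (nat_lit 433) (nat_lit 377) (nat_lit 210)) (XT.nd (nat_lit 78) (nat_lit 152) (nat_lit 0) (XT.lf (nat_lit 0) (nat_lit 7885865412) (nat_lit 152) (nat_lit 13284812903) (nat_lit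 76) (nat_lit 116662875619) (nat_lit 31) (nat_lit 5) (nat_lit 33) (nat_lit 5) (nat_lit 32) (nat_lit 5) (nat_lit 434) (nat_lit 377) (nat_lit 209)) (XT.lf (nat_lit 0) (nat_lit 39219274922) (nat_lit 228) (nat_lit 85878932175) (nat_lit 76) (nat_lit 17676733908) (nat_lit 29) (nat_lit 5) (nat_lit 32) (nat_lit 5) (nat_lit 30) (nat_lit 4) (nat_lit 435) (nat_lit 377) (nat_lit 208)))) (XT.nd (nat_lit 156) (nat_lit 152) (nat_lit 0) (XT.nd (nat_lit 78) (nat_lit 76) (nat_lit 0) (XT.lf (nat_lit 0) (nat_lit 72694075195) (nat_lit 228) (nat_lit 17257670061) (nat_lit 76) (nat_lit 57982916346) (nat_lit 29) (nat_lit 5) (nat_lit 32) (nat_lit 5) (nat_lit 30) (nat_lit 4) (nat_lit 436) (nat_lit 377) (nat_lit 207)) (XT.lf (nat_lit 0) (nat_lit 56604580324) (nat_lit 76) (nat_lit 52120826510) (nat_lit 152) (nat_lit 44582822008) (nat_lit 28) (nat_lit 5) (nat_lit 29) (nat_lit 5) (nat_lit 30) (nat_lit 4) (nat_lit 437)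 (nat_lit 377) (nat_lit 206))) (XT.nd (nat_lit 78) (nat_lit 152) (nat_lit 0) (XT.lf (nat_lit 0) (nat_lit 134757344286) (nat_lit 76) (nat_lit 12092281658) (nat_lit 152) (nat_lit 12086282625) (nat_lit 28) (nat_lit 5) (nat_lit 29) (nat_lit 5) (nat_lit 30) (nat_lit 4) (nat_lit 438) (nat_lit 377) (nat_lit 205)) (XT.lf (nat_lit 0) (nat_lit 22648291492) (nat_lit 152) (nat_lit 111938797052) (nat_lit 76) (nat_lit 30174759019) (nat_lit 26) (nat_lit 5) (nat_lit 28) (nat_lit 5) (nat_lit 27) (nat_lit 4) (nat_lit 439) (nat_lit 377) (nat_lit 204))))))))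
noncomputable def xc184 : XT := (XT.nd (nat_lit 1950) (nat_lit 304) (nat_lit 0) (XT.nd (nat_lit 936) (nat_lit 456) (nat_lit 0) (XT.nd (nat_lit 468) (nat_lit 228) (nat_lit 0) (XT.nd (nat_lit 234) (nat_lit 228) (nat_lit 0) (XT.nd (nat_lit 78) (nat_lit 76) (nat_lit 0) (XT.lf (nat_lit 0) (nat_lit 59326928127) (nat_lit 152) (nat_lit 36749220468) (nat_lit 76) (nat_lit 74762352662) (nat_lit 26) (nat_lit 5) (nat_lit 28) (nat_lit 5) (nat_lit 27) (nat_lit 4) (nat_lit 440) (nat_lit 377) (nat_lit 203)) (XT.nd (nat_lit 78) (nat_lit 0) (nat_lit 0) (XT.lf (nat_lit 0) (nat_lit 43593480151) (nat_lit 76) (nat_lit 54925765824) (nat_lit 152) (nat_lit 78665754332) (nat_lit 25) (nat_lit 5) (nat_lit 26) (nat_lit 5) (nat_lit 27) (nat_lit 4) (nat_lit 441) (nat_lit 377) (nat_lit 202)) (XT.lf (nat_lit 0) (nat_lit 129227573453) (nat_lit 76) (nat_lit 11065121506) (nat_lit 152) (nat_lit 43525053721) (nat_lit 25) (nat_lit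 5) (nat_lit 26) (nat_lit 5) (nat_lit 27) (nat_lit 4) (nat_lit 442) (nat_lit 377) (nat_lit 201)))) (XT.nd (nat_lit 78) (nat_lit 152) (nat_lit 0) (XT.lf (nat_lit 0) (nat_lit 28733058790) (nat_lit 76) (nat_lit 156415809460) (nat_lit 76) (nat_lit 5583563756) (nat_lit 24) (nat_lit 4) (nat_lit 25) (nat_lit 5) (nat_lit 25) (nat_lit 4) (nat_lit 443) (nat_lit 377) (nat_lit 200)) (XT.nd (nat_lit 78) (nat_lit 76) (nat_lit 0) (XT.lf (nat_lit 0) (nat_lit 34278870055) (nat_lit 152) (nat_lit 80561838076) (nat_lit 76) (nat_lit 83069388489) (nat_lit 23) (nat_lit 5) (nat_lit 25) (nat_lit 5) (nat_lit 24) (nat_lit 4) (nat_lit 444) (nat_lit 377) (nat_lit 199)) (XT.lf (nat_lit 0) (nat_lit 5015079232) (nat_lit 76) (nat_lit 71009221327) (nat_lit 152) (nat_lit 129413891357) (nat_lit 22) (nat_lit 5) (nat_lit 23) (nat_lit 5) (nat_lit 24) (nat_lit 4) (nat_lit 445) (nat_lit 377) (nat_lit 198))))) (XT.nd (nat_lit 234)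 (nat_lit 152) (nat_lit 0) (XT.nd (nat_lit 78) (nat_lit 76) (nat_lit 0) (XT.lf (nat_lit 0) (nat_lit 97666316685) (nat_lit 76) (nat_lit 23554274026) (nat_lit 152) (nat_lit 92053921965) (nat_lit 22) (nat_lit 5) (nat_lit 23) (nat_lit 5) (nat_lit 24) (nat_lit 4) (nat_lit 446) (nat_lit 377) (nat_lit 197)) (XT.nd (nat_lit 78) (nat_lit 76) (nat_lit 0) (XT.lf (nat_lit 0) (nat_lit 169086157776) (nat_lit 152) (nat_lit 26964143296) (nat_lit 0) (nat_lit 25431875378) (nat_lit 22) (nat_lit 5) (nat_lit 24) (nat_lit 4) (nat_lit 22) (nat_lit 4) (nat_lit 447) (nat_lit 377) (nat_lit 196)) (XT.lf (nat_lit 0) (nat_lit 67897788603) (nat_lit 76) (nat_lit 152892720880) (nat_lit 76) (nat_lit 9237438713) (nat_lit 21) (nat_lit 4) (nat_lit 22) (nat_lit 5) (nat_lit 22) (nat_lit 4) (nat_lit 448) (nat_lit 377) (nat_lit 195)))) (XT.nd (nat_lit 78) (nat_lit 76) (nat_lit 0) (XT.lf (nat_lit 0) (nat_lit 35387748970) (nat_lit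 152) (nat_lit 71111348939) (nat_lit 76) (nat_lit 132450574221) (nat_lit 20) (nat_lit 5) (nat_lit 22) (nat_lit 5) (nat_lit 21) (nat_lit 4) (nat_lit 449) (nat_lit 377) (nat_lit 194)) (XT.nd (nat_lit 78) (nat_lit 0) (nat_lit 0) (XT.lf (nat_lit 0) (nat_lit 25109345905) (nat_lit 76) (nat_lit 57215769730) (nat_lit 152) (nat_lit 165965227131) (nat_lit 19) (nat_lit 5) (nat_lit 20) (nat_lit 5) (nat_lit 21) (nat_lit 4) (nat_lit 450) (nat_lit 377) (nat_lit 193)) (XT.lf (nat_lit 0) (nat_lit 128608642777) (nat_lit 76) (nat_lit 4204356034) (nat_lit 152) (nat_lit 125224865792) (nat_lit 19) (nat_lit 5) (nat_lit 20) (nat_lit 5) (nat_lit 21) (nat_lit 4) (nat_lit 451) (nat_lit 377) (nat_lit 192)))))) (XT.nd (nat_lit 468) (nat_lit 228) (nat_lit 0) (XT.nd (nat_lit 234) (nat_lit 76) (nat_lit 0) (XT.nd (nat_lit 78) (nat_lit 152) (nat_lit 0) (XT.lf (nat_lit 0) (nat_lit 186628039350) (nat_lit 152) (nat_lit 31794476506)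 (nat_lit 0) (nat_lit 49810108589) (nat_lit 19) (nat_lit 5) (nat_lit 21) (nat_lit 4) (nat_lit 19) (nat_lit 4) (nat_lit 452) (nat_lit 377) (nat_lit 191)) (XT.nd (nat_lit 78) (nat_lit 76) (nat_lit 0) (XT.lf (nat_lit 0) (nat_lit 72987991196) (nat_lit 76) (nat_lit 171353707314) (nat_lit 76) (nat_lit 34535030511) (nat_lit 18) (nat_lit 4) (nat_lit 19) (nat_lit 5) (nat_lit 19) (nat_lit 4) (nat_lit 453) (nat_lit 377) (nat_lit 190)) (XT.lf (nat_lit 0) (nat_lit 14958171502) (nat_lit 152) (nat_lit 106155135739) (nat_lit 76) (nat_lit 168900775540) (nat_lit 17) (nat_lit 5) (nat_lit 19) (nat_lit 5) (nat_lit 18) (nat_lit 4) (nat_lit 454) (nat_lit 377) (nat_lit 189)))) (XT.nd (nat_lit 78) (nat_lit 76) (nat_lit 0) (XT.lf (nat_lit 0) (nat_lit 65764855620) (nat_lit 152) (nat_lit 2002109981) (nat_lit 76) (nat_lit 233913060013) (nat_lit 17) (nat_lit 5) (nat_lit 19) (nat_lit 5) (nat_lit 18) (nat_lit 4) (nat_lit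 455) (nat_lit 377) (nat_lit 188)) (XT.nd (nat_lit 78) (nat_lit 0) (nat_lit 0) (XT.lf (nat_lit 0) (nat_lit 110907235623) (nat_lit 76) (nat_lit 9935663931) (nat_lit 152) (nat_lit 192999814813) (nat_lit 16) (nat_lit 5) (nat_lit 17) (nat_lit 5) (nat_lit 18) (nat_lit 4) (nat_lit 456) (nat_lit 377) (nat_lit 187)) (XT.lf (nat_lit 0) (nat_lit 179501693660) (nat_lit 152) (nat_lit 97874829070) (nat_lit 0) (nat_lit 49195672484) (nat_lit 16) (nat_lit 5) (nat_lit 18) (nat_lit 4) (nat_lit 16) (nat_lit 4) (nat_lit 457) (nat_lit 377) (nat_lit 186))))) (XT.nd (nat_lit 234) (nat_lit 76) (nat_lit 0) (XT.nd (nat_lit 78) (nat_lit 76) (nat_lit 0) (XT.lf (nat_lit 0) (nat_lit 12680831850) (nat_lit 76) (nat_lit 228772939498) (nat_lit 76) (nat_lit 98466361614) (nat_lit 15) (nat_lit 4) (nat_lit 16) (nat_lit 5) (nat_lit 16) (nat_lit 4) (nat_lit 458) (nat_lit 377) (nat_lit 185)) (XT.nd (nat_lit 78) (nat_lit 76) (nat_lit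 0) (XT.lf (nat_lit 0) (nat_lit 132161277807) (nat_lit 76) (nat_lit 175999222770) (nat_lit 76) (nat_lit 45692114687) (nat_lit 15) (nat_lit 4) (nat_lit 16) (nat_lit 5) (nat_lit 16) (nat_lit 4) (nat_lit 459) (nat_lit 377) (nat_lit 184)) (XT.lf (nat_lit 0) (nat_lit 9409223193) (nat_lit 152) (nat_lit 111018705487) (nat_lit 76) (nat_lit 248046229249) (nat_lit 14) (nat_lit 5) (nat_lit 16) (nat_lit 5) (nat_lit 15) (nat_lit 4) (nat_lit 460) (nat_lit 377) (nat_lit 183)))) (XT.nd (nat_lit 156) (nat_lit 0) (nat_lit 0) (XT.nd (nat_lit 78) (nat_lit 0) (nat_lit 0) (XT.lf (nat_lit 0) (nat_lit 4584319354) (nat_lit 76) (nat_lit 61216857862) (nat_lit 152) (nat_lit 317984592805) (nat_lit 13) (nat_lit 5) (nat_lit 14) (nat_lit 5) (nat_lit 15) (nat_lit 4) (nat_lit 461) (nat_lit 377) (nat_lit 182)) (XT.lf (nat_lit 0) (nat_lit 126938144592) (nat_lit 152) (nat_lit 269993785600) (nat_lit 0) (nat_lit 2834761786) (nat_lit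 13) (nat_lit 5) (nat_lit 15) (nat_lit 4) (nat_lit 13) (nat_lit 4) (nat_lit 462) (nat_lit 377) (nat_lit 181))) (XT.nd (nat_lit 78) (nat_lit 0) (nat_lit 0) (XT.lf (nat_lit 0) (nat_lit 192135069052) (nat_lit 152) (nat_lit 156330164762) (nat_lit 0) (nat_lit 68031270821) (nat_lit 13) (nat_lit 5) (nat_lit 15) (nat_lit 4) (nat_lit 13) (nat_lit 4) (nat_lit 463) (nat_lit 377) (nat_lit 180)) (XT.lf (nat_lit 0) (nat_lit 260591414657) (nat_lit 152) (nat_lit 36984193776) (nat_lit 0) (nat_lit 136487220784) (nat_lit 13) (nat_lit 5) (nat_lit 15) (nat_lit 4) (nat_lit 13) (nat_lit 4) (nat_lit 464) (nat_lit 377) (nat_lit 179))))))) (XT.nd (nat_lit 46566) (nat_lit 0) (nat_lit 6536) (XT.nd (nat_lit 468) (nat_lit 76) (nat_lit 0) (XT.nd (nat_lit 234) (nat_lit 76) (nat_lit 0) (XT.nd (nat_lit 78) (nat_lit 76) (nat_lit 0) (XT.lf (nat_lit 0) (nat_lit 91248816418) (nat_lit 76) (nat_lit 242646006037) (nat_lit 76) (nat_lit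 118541435362) (nat_lit 12) (nat_lit 4) (nat_lit 13) (nat_lit 5) (nat_lit 13) (nat_lit 4) (nat_lit 465) (nat_lit 377) (nat_lit 178)) (XT.nd (nat_lit 78) (nat_lit 76) (nat_lit 0) (XT.lf (nat_lit 0) (nat_lit 227176706255) (nat_lit 76) (nat_lit 184312641893) (nat_lit 76) (nat_lit 60207712359) (nat_lit 12) (nat_lit 4) (nat_lit 13) (nat_lit 5) (nat_lit 13) (nat_lit 4) (nat_lit 466) (nat_lit 377) (nat_lit 177)) (XT.lf (nat_lit 0) (nat_lit 1008938969) (nat_lit 152) (nat_lit 122036946417) (nat_lit 76) (nat_lit 368874223256) (nat_lit 11) (nat_lit 5) (nat_lit 13) (nat_lit 5) (nat_lit 12) (nat_lit 4) (nat_lit 467) (nat_lit 377) (nat_lit 176)))) (XT.nd (nat_lit 78) (nat_lit 0) (nat_lit 0) (XT.lf (nat_lit 0) (nat_lit 5767497745) (nat_lit 76) (nat_lit 57585231301) (nat_lit 152) (nat_lit 449747745576) (nat_lit 10) (nat_lit 5) (nat_lit 11) (nat_lit 5) (nat_lit 12) (nat_lit 4) (nat_lit 468) (nat_lit 377)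 (nat_lit 175)) (XT.nd (nat_lit 78) (nat_lit 0) (nat_lit 0) (XT.lf (nat_lit 0) (nat_lit 131088037561) (nat_lit 152) (nat_lit 391246169075) (nat_lit 0) (nat_lit 12891935849) (nat_lit 10) (nat_lit 5) (nat_lit 12) (nat_lit 4) (nat_lit 10) (nat_lit 4) (nat_lit 469) (nat_lit 377) (nat_lit 174)) (XT.lf (nat_lit 0) (nat_lit 203153783434) (nat_lit 152) (nat_lit 270299726188) (nat_lit 0) (nat_lit 84957400546) (nat_lit 10) (nat_lit 5) (nat_lit 12) (nat_lit 4) (nat_lit 10) (nat_lit 4) (nat_lit 470) (nat_lit 377) (nat_lit 173))))) (XT.nd (nat_lit 234) (nat_lit 0) (nat_lit 0) (XT.nd (nat_lit 78) (nat_lit 76) (nat_lit 0) (XT.lf (nat_lit 0) (nat_lit 278822484933) (nat_lit 152) (nat_lit 143306613655) (nat_lit 0) (nat_lit 160625834259) (nat_lit 10) (nat_lit 5) (nat_lit 12) (nat_lit 4) (nat_lit 10) (nat_lit 4) (nat_lit 471) (nat_lit 377) (nat_lit 172)) (XT.nd (nat_lit 78) (nat_lit 76) (nat_lit 0) (XT.lf (nat_lit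 0) (nat_lit 358274305632) (nat_lit 152) (nat_lit 9964466920) (nat_lit 0) (nat_lit 240077399923) (nat_lit 10) (nat_lit 5) (nat_lit 12) (nat_lit 4) (nat_lit 10) (nat_lit 4) (nat_lit 472) (nat_lit 377) (nat_lit 171)) (XT.lf (nat_lit 0) (nat_lit 134344043710) (nat_lit 76) (nat_lit 309451859845) (nat_lit 76) (nat_lit 191254711245) (nat_lit 9) (nat_lit 4) (nat_lit 10) (nat_lit 5) (nat_lit 10) (nat_lit 4) (nat_lit 473) (nat_lit 377) (nat_lit 170)))) (XT.nd (nat_lit 45708) (nat_lit 0) (nat_lit 7676) (XT.nd (nat_lit 45630) (nat_lit 0) (nat_lit 7676) (XT.lf (nat_lit 0) (nat_lit 286213341375) (nat_lit 76) (nat_lit 247548697468) (nat_lit 76) (nat_lit 129351317545) (nat_lit 9) (nat_lit 4) (nat_lit 10) (nat_lit 5) (nat_lit 10) (nat_lit 4) (nat_lit 474) (nat_lit 377) (nat_lit 169)) (XT.lf (nat_lit 0) (nat_lit 2289575482) (nat_lit 836) (nat_lit 5368036943) (nat_lit 836) (nat_lit 5368036943) (nat_lit 110)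 (nat_lit 3) (nat_lit 121) (nat_lit 3) (nat_lit 121) (nat_lit 5) (nat_lit 378) (nat_lit 378) (nat_lit 264))) (XT.nd (nat_lit 78) (nat_lit 0) (nat_lit 76) (XT.lf (nat_lit 76) (nat_lit 1876669667) (nat_lit 0) (nat_lit 2940527689) (nat_lit 836) (nat_lit 21879138902) (nat_lit 111) (nat_lit 5) (nat_lit 110) (nat_lit 3) (nat_lit 121) (nat_lit 5) (nat_lit 379) (nat_lit 378) (nat_lit 263)) (XT.lf (nat_lit 0) (nat_lit 5402859797) (nat_lit 760) (nat_lit 12035314029) (nat_lit 836) (nat_lit 9918670403) (nat_lit 111) (nat_lit 5) (nat_lit 121) (nat_lit 5) (nat_lit 122) (nat_lit 5) (nat_lit 380) (nat_lit 378) (nat_lit 262)))))) (XT.nd (nat_lit 468) (nat_lit 1216) (nat_lit 0) (XT.nd (nat_lit 234) (nat_lit 0) (nat_lit 152) (XT.nd (nat_lit 78) (nat_lit 0) (nat_lit 76) (XT.lf (nat_lit 76) (nat_lit 1380790056) (nat_lit 0) (nat_lit 4701024819) (nat_lit 836) (nat_lit 21965366308) (nat_lit 112) (nat_lit 5) (nat_lit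 111) (nat_lit 5) (nat_lit 122) (nat_lit 5) (nat_lit 381) (nat_lit 378) (nat_lit 261)) (XT.nd (nat_lit 78) (nat_lit 0) (nat_lit 0) (XT.lf (nat_lit 0) (nat_lit 7131792884) (nat_lit 760) (nat_lit 13018769189) (nat_lit 836) (nat_lit 8604623016) (nat_lit 112) (nat_lit 5) (nat_lit 122) (nat_lit 5) (nat_lit 123) (nat_lit 5) (nat_lit 382) (nat_lit 378) (nat_lit 260)) (XT.lf (nat_lit 76) (nat_lit 1271322163) (nat_lit 0) (nat_lit 7054624783) (nat_lit 836) (nat_lit 21168062068) (nat_lit 113) (nat_lit 5) (nat_lit 112) (nat_lit 5) (nat_lit 123) (nat_lit 5) (nat_lit 383) (nat_lit 378) (nat_lit 259)))) (XT.nd (nat_lit 78) (nat_lit 0) (nat_lit 0) (XT.lf (nat_lit 0) (nat_lit 9903429100) (nat_lit 760) (nat_lit 13642768240) (nat_lit 836) (nat_lit 6707399283) (nat_lit 113) (nat_lit 5) (nat_lit 123) (nat_lit 5) (nat_lit 124) (nat_lit 5) (nat_lit 384) (nat_lit 378) (nat_lit 258)) (XT.nd (nat_lit 78) (nat_lit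 0) (nat_lit 76) (XT.lf (nat_lit 76) (nat_lit 1598064799) (nat_lit 0) (nat_lit 10097541167) (nat_lit 836) (nat_lit 19348769954) (nat_lit 114) (nat_lit 5) (nat_lit 113) (nat_lit 5) (nat_lit 124) (nat_lit 5) (nat_lit 385) (nat_lit 378) (nat_lit 257)) (XT.lf (nat_lit 0) (nat_lit 13870455339) (nat_lit 760) (nat_lit 13858935423) (nat_lit 836) (nat_lit 4130653415) (nat_lit 114) (nat_lit 5) (nat_lit 124) (nat_lit 5) (nat_lit 125) (nat_lit 5) (nat_lit 386) (nat_lit 378) (nat_lit 256))))) (XT.nd (nat_lit 234) (nat_lit 760) (nat_lit 0) (XT.nd (nat_lit 78) (nat_lit 684) (nat_lit 0) (XT.lf (nat_lit 76) (nat_lit 2416009983) (nat_lit 0) (nat_lit 13936920175) (nat_lit 836) (nat_lit 16353624570) (nat_lit 115) (nat_lit 5) (nat_lit 114) (nat_lit 5) (nat_lit 125) (nat_lit 5) (nat_lit 387) (nat_lit 378) (nat_lit 255)) (XT.nd (nat_lit 78) (nat_lit 760) (nat_lit 0) (XT.lf (nat_lit 0) (nat_lit 19202388310) (nat_lit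 760) (nat_lit 13613920705) (nat_lit 76) (nat_lit 766941694) (nat_lit 115) (nat_lit 5) (nat_lit 125) (nat_lit 5) (nat_lit 116) (nat_lit 5) (nat_lit 388) (nat_lit 378) (nat_lit 254)) (XT.lf (nat_lit 0) (nat_lit 3785644186) (nat_lit 760) (nat_lit 18692246614) (nat_lit 836) (nat_lit 12011714867) (nat_lit 105) (nat_lit 5) (nat_lit 115) (nat_lit 5) (nat_lit 116) (nat_lit 5) (nat_lit 389) (nat_lit 378) (nat_lit 253)))) (XT.nd (nat_lit 156) (nat_lit 380) (nat_lit 0) (XT.nd (nat_lit 78) (nat_lit 380) (nat_lit 0) (XT.lf (nat_lit 0) (nat_lit 22524309153) (nat_lit 760) (nat_lit 3619546226) (nat_lit 836) (nat_lit 9286091258) (nat_lit 105) (nat_lit 5) (nat_lit 115) (nat_lit 5) (nat_lit 116) (nat_lit 5) (nat_lit 390) (nat_lit 378) (nat_lit 252)) (XT.lf (nat_lit 0) (nat_lit 5773253662) (nat_lit 380) (nat_lit 24496901550) (nat_lit 456) (nat_lit 6133300086) (nat_lit 100) (nat_lit 5) (nat_lit 105) (nat_lit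 5) (nat_lit 106) (nat_lit 5) (nat_lit 391) (nat_lit 378) (nat_lit 251))) (XT.nd (nat_lit 78) (nat_lit 380) (nat_lit 0) (XT.lf (nat_lit 0) (nat_lit 25769355373) (nat_lit 380) (nat_lit 9106796663) (nat_lit 456) (nat_lit 2535820629) (nat_lit 100) (nat_lit 5) (nat_lit 105) (nat_lit 5) (nat_lit 106) (nat_lit 5) (nat_lit 392) (nat_lit 378) (nat_lit 250)) (XT.lf (nat_lit 0) (nat_lit 1444377618) (nat_lit 380) (nat_lit 30031053396) (nat_lit 76) (nat_lit 6982388767) (nat_lit 95) (nat_lit 5) (nat_lit 100) (nat_lit 5) (nat_lit 96) (nat_lit 5) (nat_lit 393) (nat_lit 378) (nat_lit 249))))))))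
noncomputable def xc185 : XT := (XT.nd (nat_lit 1950) (nat_lit 1976) (nat_lit 0) (XT.nd (nat_lit 936) (nat_lit 1596) (nat_lit 0) (XT.nd (nat_lit 468) (nat_lit 836) (nat_lit 0) (XT.nd (nat_lit 234) (nat_lit 608) (nat_lit 0) (XT.nd (nat_lit 78) (nat_lit 380) (nat_lit 0) (XT.lf (nat_lit 0) (nat_lit 5884724506) (nat_lit 380) (nat_lit 9839923451) (nat_lit 76) (nat_lit 23811916856) (nat_lit 95) (nat_lit 5) (nat_lit 100) (nat_lit 5) (nat_lit 96) (nat_lit 5) (nat_lit 394) (nat_lit 378) (nat_lit 248)) (XT.nd (nat_lit 78) (nat_lit 0) (nat_lit 0) (XT.lf (nat_lit 0) (nat_lit 10742796294) (nat_lit 456) (nat_lit 28943046561) (nat_lit 76) (nat_lit 973620818) (nat_lit 90) (nat_lit 5) (nat_lit 96) (nat_lit 5) (nat_lit 91) (nat_lit 5) (nat_lit 395) (nat_lit 378) (nat_lit 247)) (XT.lf (nat_lit 0) (nat_lit 16267844521) (nat_lit 456) (nat_lit 7401974443) (nat_lit 76) (nat_lit 18147486728) (nat_lit 90) (nat_lit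 5) (nat_lit 96) (nat_lit 5) (nat_lit 91) (nat_lit 5) (nat_lit 396) (nat_lit 378) (nat_lit 246)))) (XT.nd (nat_lit 78) (nat_lit 304) (nat_lit 0) (XT.lf (nat_lit 0) (nat_lit 15715841292) (nat_lit 304) (nat_lit 6595735052) (nat_lit 380) (nat_lit 20709343678) (nat_lit 86) (nat_lit 5) (nat_lit 90) (nat_lit 5) (nat_lit 91) (nat_lit 5) (nat_lit 397) (nat_lit 378) (nat_lit 245)) (XT.nd (nat_lit 78) (nat_lit 304) (nat_lit 0) (XT.lf (nat_lit 0) (nat_lit 28958976248) (nat_lit 380) (nat_lit 4214298968) (nat_lit 76) (nat_lit 11096367464) (nat_lit 86) (nat_lit 5) (nat_lit 91) (nat_lit 5) (nat_lit 87) (nat_lit 5) (nat_lit 398) (nat_lit 378) (nat_lit 244)) (XT.lf (nat_lit 0) (nat_lit 20578289390) (nat_lit 304) (nat_lit 15787149613) (nat_lit 380) (nat_lit 9194029434) (nat_lit 82) (nat_lit 5) (nat_lit 86) (nat_lit 5) (nat_lit 87) (nat_lit 5) (nat_lit 399) (nat_lit 378) (nat_lit 243))))) (XT.nd (nat_lit 234)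 (nat_lit 228) (nat_lit 0) (XT.nd (nat_lit 78) (nat_lit 608) (nat_lit 0) (XT.lf (nat_lit 0) (nat_lit 44250655400) (nat_lit 380) (nat_lit 196415730) (nat_lit 76) (nat_lit 2461294354) (nat_lit 82) (nat_lit 5) (nat_lit 87) (nat_lit 5) (nat_lit 83) (nat_lit 5) (nat_lit 400) (nat_lit 378) (nat_lit 242)) (XT.nd (nat_lit 78) (nat_lit 304) (nat_lit 0) (XT.lf (nat_lit 0) (nat_lit 4750418275) (nat_lit 304) (nat_lit 21956954183) (nat_lit 76) (nat_lit 21580073744) (nat_lit 78) (nat_lit 5) (nat_lit 82) (nat_lit 5) (nat_lit 79) (nat_lit 5) (nat_lit 401) (nat_lit 378) (nat_lit 241)) (XT.lf (nat_lit 0) (nat_lit 4554203720) (nat_lit 304) (nat_lit 7957426356) (nat_lit 380) (nat_lit 37218074073) (nat_lit 74) (nat_lit 5) (nat_lit 78) (nat_lit 5) (nat_lit 79) (nat_lit 5) (nat_lit 402) (nat_lit 378) (nat_lit 240)))) (XT.nd (nat_lit 78) (nat_lit 228) (nat_lit 0) (XT.lf (nat_lit 0) (nat_lit 21219555764) (nat_lit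 380) (nat_lit 18264746555) (nat_lit 76) (nat_lit 11731841269) (nat_lit 74) (nat_lit 5) (nat_lit 79) (nat_lit 5) (nat_lit 75) (nat_lit 5) (nat_lit 403) (nat_lit 378) (nat_lit 239)) (XT.nd (nat_lit 78) (nat_lit 0) (nat_lit 0) (XT.lf (nat_lit 0) (nat_lit 10183954926) (nat_lit 228) (nat_lit 20466055625) (nat_lit 304) (nat_lit 22112539006) (nat_lit 71) (nat_lit 5) (nat_lit 74) (nat_lit 5) (nat_lit 75) (nat_lit 5) (nat_lit 404) (nat_lit 378) (nat_lit 238)) (XT.lf (nat_lit 0) (nat_lit 40686161458) (nat_lit 228) (nat_lit 172894920) (nat_lit 304) (nat_lit 13511867173) (nat_lit 71) (nat_lit 5) (nat_lit 74) (nat_lit 5) (nat_lit 75) (nat_lit 5) (nat_lit 405) (nat_lit 378) (nat_lit 237)))))) (XT.nd (nat_lit 468) (nat_lit 684) (nat_lit 0) (XT.nd (nat_lit 234) (nat_lit 380) (nat_lit 0) (XT.nd (nat_lit 78) (nat_lit 304) (nat_lit 0) (XT.lf (nat_lit 0) (nat_lit 16860433130) (nat_lit 228) (nat_lit 35309176985)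 (nat_lit 304) (nat_lit 3860554435) (nat_lit 68) (nat_lit 5) (nat_lit 71) (nat_lit 5) (nat_lit 72) (nat_lit 5) (nat_lit 406) (nat_lit 378) (nat_lit 236)) (XT.nd (nat_lit 78) (nat_lit 228) (nat_lit 0) (XT.lf (nat_lit 0) (nat_lit 6308793088) (nat_lit 304) (nat_lit 8460381447) (nat_lit 76) (nat_lit 42986484106) (nat_lit 67) (nat_lit 5) (nat_lit 71) (nat_lit 5) (nat_lit 68) (nat_lit 5) (nat_lit 407) (nat_lit 378) (nat_lit 235)) (XT.lf (nat_lit 0) (nat_lit 17350814551) (nat_lit 304) (nat_lit 35156157949) (nat_lit 76) (nat_lit 7032594163) (nat_lit 64) (nat_lit 5) (nat_lit 68) (nat_lit 5) (nat_lit 65) (nat_lit 5) (nat_lit 408) (nat_lit 378) (nat_lit 234)))) (XT.nd (nat_lit 78) (nat_lit 380) (nat_lit 0) (XT.lf (nat_lit 0) (nat_lit 29330688574) (nat_lit 304) (nat_lit 2489771782) (nat_lit 76) (nat_lit 29572923049) (nat_lit 64) (nat_lit 5) (nat_lit 68) (nat_lit 5) (nat_lit 65) (nat_lit 5) (nat_lit 409)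 (nat_lit 378) (nat_lit 233)) (XT.nd (nat_lit 78) (nat_lit 152) (nat_lit 0) (XT.lf (nat_lit 0) (nat_lit 32858847766) (nat_lit 228) (nat_lit 9561826618) (nat_lit 304) (nat_lit 20893661548) (nat_lit 61) (nat_lit 5) (nat_lit 64) (nat_lit 5) (nat_lit 65) (nat_lit 5) (nat_lit 410) (nat_lit 378) (nat_lit 232)) (XT.lf (nat_lit 0) (nat_lit 4662220677) (nat_lit 152) (nat_lit 51832328177) (nat_lit 228) (nat_lit 8820318573) (nat_lit 59) (nat_lit 5) (nat_lit 61) (nat_lit 5) (nat_lit 62) (nat_lit 5) (nat_lit 411) (nat_lit 378) (nat_lit 231))))) (XT.nd (nat_lit 234) (nat_lit 380) (nat_lit 0) (XT.nd (nat_lit 78) (nat_lit 228) (nat_lit 0) (XT.lf (nat_lit 0) (nat_lit 4412387119) (nat_lit 228) (nat_lit 25024722149) (nat_lit 76) (nat_lit 37941349589) (nat_lit 58) (nat_lit 5) (nat_lit 61) (nat_lit 5) (nat_lit 59) (nat_lit 5) (nat_lit 412) (nat_lit 378) (nat_lit 230)) (XT.nd (nat_lit 78) (nat_lit 0) (nat_lit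 0) (XT.lf (nat_lit 0) (nat_lit 12641932751) (nat_lit 228) (nat_lit 5563987673) (nat_lit 304) (nat_lit 51322299721) (nat_lit 55) (nat_lit 5) (nat_lit 58) (nat_lit 5) (nat_lit 59) (nat_lit 5) (nat_lit 413) (nat_lit 378) (nat_lit 229)) (XT.lf (nat_lit 0) (nat_lit 33422642026) (nat_lit 304) (nat_lit 19017717958) (nat_lit 76) (nat_lit 19308434598) (nat_lit 55) (nat_lit 5) (nat_lit 59) (nat_lit 5) (nat_lit 56) (nat_lit 5) (nat_lit 414) (nat_lit 378) (nat_lit 228)))) (XT.nd (nat_lit 156) (nat_lit 228) (nat_lit 0) (XT.nd (nat_lit 78) (nat_lit 0) (nat_lit 0) (XT.lf (nat_lit 0) (nat_lit 21333274429) (nat_lit 152) (nat_lit 28489558019) (nat_lit 228) (nat_lit 24236434293) (nat_lit 53) (nat_lit 5) (nat_lit 55) (nat_lit 5) (nat_lit 56) (nat_lit 5) (nat_lit 415) (nat_lit 378) (nat_lit 227)) (XT.lf (nat_lit 0) (nat_lit 64359519829) (nat_lit 152) (nat_lit 3003973337) (nat_lit 228) (nat_lit 9105746909) (nat_lit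 53) (nat_lit 5) (nat_lit 55) (nat_lit 5) (nat_lit 56) (nat_lit 5) (nat_lit 416) (nat_lit 378) (nat_lit 226))) (XT.nd (nat_lit 78) (nat_lit 0) (nat_lit 0) (XT.lf (nat_lit 0) (nat_lit 7434316502) (nat_lit 228) (nat_lit 47915492135) (nat_lit 76) (nat_lit 23601115535) (nat_lit 50) (nat_lit 5) (nat_lit 53) (nat_lit 5) (nat_lit 51) (nat_lit 5) (nat_lit 417) (nat_lit 378) (nat_lit 225)) (XT.lf (nat_lit 0) (nat_lit 24751521394) (nat_lit 228) (nat_lit 4992558471) (nat_lit 76) (nat_lit 51792341849) (nat_lit 50) (nat_lit 5) (nat_lit 53) (nat_lit 5) (nat_lit 51) (nat_lit 5) (nat_lit 418) (nat_lit 378) (nat_lit 224))))))) (XT.nd (nat_lit 1014) (nat_lit 836) (nat_lit 0) (XT.nd (nat_lit 468) (nat_lit 456) (nat_lit 0) (XT.nd (nat_lit 234) (nat_lit 380) (nat_lit 0) (XT.nd (nat_lit 78) (nat_lit 152) (nat_lit 0) (XT.lf (nat_lit 0) (nat_lit 41399170800) (nat_lit 152) (nat_lit 2180305805) (nat_lit 228) (nat_lit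 40639473522) (nat_lit 48) (nat_lit 5) (nat_lit 50) (nat_lit 5) (nat_lit 51) (nat_lit 5) (nat_lit 419) (nat_lit 378) (nat_lit 223)) (XT.nd (nat_lit 78) (nat_lit 0) (nat_lit 0) (XT.lf (nat_lit 0) (nat_lit 2924426263) (nat_lit 152) (nat_lit 60972375777) (nat_lit 228) (nat_lit 23111404773) (nat_lit 46) (nat_lit 5) (nat_lit 48) (nat_lit 5) (nat_lit 49) (nat_lit 5) (nat_lit 420) (nat_lit 378) (nat_lit 222)) (XT.lf (nat_lit 0) (nat_lit 52403159812) (nat_lit 152) (nat_lit 33585757910) (nat_lit 228) (nat_lit 3910062863) (nat_lit 46) (nat_lit 5) (nat_lit 48) (nat_lit 5) (nat_lit 49) (nat_lit 5) (nat_lit 421) (nat_lit 378) (nat_lit 221)))) (XT.nd (nat_lit 78) (nat_lit 152) (nat_lit 0) (XT.lf (nat_lit 0) (nat_lit 11534693136) (nat_lit 152) (nat_lit 4375226296) (nat_lit 228) (nat_lit 77002751677) (nat_lit 43) (nat_lit 5) (nat_lit 45) (nat_lit 5) (nat_lit 46) (nat_lit 5) (nat_lit 422) (nat_lit 378) (nat_lit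 220)) (XT.nd (nat_lit 78) (nat_lit 152) (nat_lit 0) (XT.lf (nat_lit 0) (nat_lit 37644113218) (nat_lit 228) (nat_lit 32214166775) (nat_lit 76) (nat_lit 26162830783) (nat_lit 43) (nat_lit 5) (nat_lit 46) (nat_lit 5) (nat_lit 44) (nat_lit 5) (nat_lit 423) (nat_lit 378) (nat_lit 219)) (XT.lf (nat_lit 0) (nat_lit 19973173329) (nat_lit 152) (nat_lit 40874114764) (nat_lit 228) (nat_lit 38418571133) (nat_lit 41) (nat_lit 5) (nat_lit 43) (nat_lit 5) (nat_lit 44) (nat_lit 5) (nat_lit 424) (nat_lit 378) (nat_lit 218))))) (XT.nd (nat_lit 234) (nat_lit 304) (nat_lit 0) (XT.nd (nat_lit 78) (nat_lit 152) (nat_lit 0) (XT.lf (nat_lit 0) (nat_lit 75886116186) (nat_lit 152) (nat_lit 9868804828) (nat_lit 228) (nat_lit 16890709474) (nat_lit 41) (nat_lit 5) (nat_lit 43) (nat_lit 5) (nat_lit 44) (nat_lit 5) (nat_lit 425) (nat_lit 378) (nat_lit 217)) (XT.nd (nat_lit 78) (nat_lit 0) (nat_lit 0) (XT.lf (nat_lit 0)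 (nat_lit 6349187783) (nat_lit 152) (nat_lit 77285269503) (nat_lit 76) (nat_lit 22514547542) (nat_lit 39) (nat_lit 5) (nat_lit 41) (nat_lit 5) (nat_lit 40) (nat_lit 5) (nat_lit 426) (nat_lit 378) (nat_lit 216)) (XT.lf (nat_lit 0) (nat_lit 30804628753) (nat_lit 152) (nat_lit 22055938610) (nat_lit 76) (nat_lit 56922076612) (nat_lit 39) (nat_lit 5) (nat_lit 41) (nat_lit 5) (nat_lit 40) (nat_lit 5) (nat_lit 427) (nat_lit 378) (nat_lit 215)))) (XT.nd (nat_lit 156) (nat_lit 152) (nat_lit 0) (XT.nd (nat_lit 78) (nat_lit 0) (nat_lit 0) (XT.lf (nat_lit 0) (nat_lit 37120944190) (nat_lit 152) (nat_lit 19940306379) (nat_lit 228) (nat_lit 56507794362) (nat_lit 37) (nat_lit 5) (nat_lit 39) (nat_lit 5) (nat_lit 40) (nat_lit 5) (nat_lit 428) (nat_lit 378) (nat_lit 214)) (XT.lf (nat_lit 0) (nat_lit 85237564640) (nat_lit 228) (nat_lit 17740189312) (nat_lit 76) (nat_lit 14536669202) (nat_lit 37) (nat_lit 5)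 (nat_lit 40) (nat_lit 5) (nat_lit 38) (nat_lit 4) (nat_lit 429) (nat_lit 378) (nat_lit 213))) (XT.nd (nat_lit 78) (nat_lit 76) (nat_lit 0) (XT.lf (nat_lit 0) (nat_lit 45015059456) (nat_lit 76) (nat_lit 70836248283) (nat_lit 152) (nat_lit 5754332146) (nat_lit 36) (nat_lit 5) (nat_lit 37) (nat_lit 5) (nat_lit 38) (nat_lit 4) (nat_lit 430) (nat_lit 378) (nat_lit 212)) (XT.lf (nat_lit 0) (nat_lit 21691444476) (nat_lit 152) (nat_lit 14714240946) (nat_lit 76) (nat_lit 89463270550) (nat_lit 35) (nat_lit 5) (nat_lit 37) (nat_lit 5) (nat_lit 36) (nat_lit 5) (nat_lit 431) (nat_lit 378) (nat_lit 211)))))) (XT.nd (nat_lit 468) (nat_lit 380) (nat_lit 0) (XT.nd (nat_lit 234) (nat_lit 228) (nat_lit 0) (XT.nd (nat_lit 78) (nat_lit 76) (nat_lit 0) (XT.lf (nat_lit 0) (nat_lit 51134959756) (nat_lit 228) (nat_lit 78492912893) (nat_lit 76) (nat_lit 671907119) (nat_lit 33) (nat_lit 5) (nat_lit 36) (nat_lit 5)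 (nat_lit 34) (nat_lit 4) (nat_lit 432) (nat_lit 378) (nat_lit 210)) (XT.nd (nat_lit 78) (nat_lit 76) (nat_lit 0) (XT.lf (nat_lit 0) (nat_lit 82899719396) (nat_lit 228) (nat_lit 13377561693) (nat_lit 76) (nat_lit 38632410452) (nat_lit 33) (nat_lit 5) (nat_lit 36) (nat_lit 5) (nat_lit 34) (nat_lit 4) (nat_lit 433) (nat_lit 378) (nat_lit 209)) (XT.lf (nat_lit 0) (nat_lit 56810070052) (nat_lit 76) (nat_lit 60328636288) (nat_lit 152) (nat_lit 22567093306) (nat_lit 32) (nat_lit 5) (nat_lit 33) (nat_lit 5) (nat_lit 34) (nat_lit 4) (nat_lit 434) (nat_lit 378) (nat_lit 208)))) (XT.nd (nat_lit 78) (nat_lit 152) (nat_lit 0) (XT.lf (nat_lit 0) (nat_lit 8310041497) (nat_lit 152) (nat_lit 13894679762) (nat_lit 76) (nat_lit 122519010459) (nat_lit 31) (nat_lit 5) (nat_lit 33) (nat_lit 5) (nat_lit 32) (nat_lit 5) (nat_lit 435) (nat_lit 378) (nat_lit 207)) (XT.nd (nat_lit 78) (nat_lit 0) (nat_lit 0) (XT.lf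 (nat_lit 0) (nat_lit 41209911582) (nat_lit 228) (nat_lit 90118289601) (nat_lit 76) (nat_lit 18583997729) (nat_lit 29) (nat_lit 5) (nat_lit 32) (nat_lit 5) (nat_lit 30) (nat_lit 4) (nat_lit 436) (nat_lit 378) (nat_lit 206)) (XT.lf (nat_lit 0) (nat_lit 76357038874) (nat_lit 228) (nat_lit 18068563866) (nat_lit 76) (nat_lit 60904373712) (nat_lit 29) (nat_lit 5) (nat_lit 32) (nat_lit 5) (nat_lit 30) (nat_lit 4) (nat_lit 437) (nat_lit 378) (nat_lit 205))))) (XT.nd (nat_lit 234) (nat_lit 152) (nat_lit 0) (XT.nd (nat_lit 78) (nat_lit 152) (nat_lit 0) (XT.lf (nat_lit 0) (nat_lit 59485960495) (nat_lit 76) (nat_lit 54703429502) (nat_lit 152) (nat_lit 46782859660) (nat_lit 28) (nat_lit 5) (nat_lit 29) (nat_lit 5) (nat_lit 30) (nat_lit 4) (nat_lit 438) (nat_lit 378) (nat_lit 204)) (XT.nd (nat_lit 78) (nat_lit 152) (nat_lit 0) (XT.lf (nat_lit 0) (nat_lit 141543926886) (nat_lit 76) (nat_lit 12674573519)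 (nat_lit 152) (nat_lit 12662879186) (nat_lit 28) (nat_lit 5) (nat_lit 29) (nat_lit 5) (nat_lit 30) (nat_lit 4) (nat_lit 439) (nat_lit 378) (nat_lit 203)) (XT.lf (nat_lit 0) (nat_lit 23807372039) (nat_lit 152) (nat_lit 117485961092) (nat_lit 76) (nat_lit 31705269204) (nat_lit 26) (nat_lit 5) (nat_lit 28) (nat_lit 5) (nat_lit 27) (nat_lit 4) (nat_lit 440) (nat_lit 378) (nat_lit 202)))) (XT.nd (nat_lit 156) (nat_lit 76) (nat_lit 0) (XT.nd (nat_lit 78) (nat_lit 76) (nat_lit 0) (XT.lf (nat_lit 0) (nat_lit 62318670698) (nat_lit 152) (nat_lit 38539275956) (nat_lit 76) (nat_lit 78521205756) (nat_lit 26) (nat_lit 5) (nat_lit 28) (nat_lit 5) (nat_lit 27) (nat_lit 4) (nat_lit 441) (nat_lit 378) (nat_lit 201)) (XT.lf (nat_lit 0) (nat_lit 45819795089) (nat_lit 76) (nat_lit 57650328204) (nat_lit 152) (nat_lit 82572877371) (nat_lit 25) (nat_lit 5) (nat_lit 26) (nat_lit 5) (nat_lit 27) (nat_lit 4) (nat_lit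 442) (nat_lit 378) (nat_lit 200))) (XT.nd (nat_lit 78) (nat_lit 76) (nat_lit 0) (XT.lf (nat_lit 0) (nat_lit 135733372059) (nat_lit 76) (nat_lit 11597686237) (nat_lit 152) (nat_lit 45676387668) (nat_lit 25) (nat_lit 5) (nat_lit 26) (nat_lit 5) (nat_lit 27) (nat_lit 4) (nat_lit 443) (nat_lit 378) (nat_lit 199)) (XT.lf (nat_lit 0) (nat_lit 30214268328) (nat_lit 76) (nat_lit 164215645312) (nat_lit 76) (nat_lit 5837956325) (nat_lit 24) (nat_lit 4) (nat_lit 25) (nat_lit 5) (nat_lit 25) (nat_lit 4) (nat_lit 444) (nat_lit 378) (nat_lit 198))))))))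
noncomputable def xc186 : XT := (XT.nd (nat_lit 1950) (nat_lit 76) (nat_lit 0) (XT.nd (nat_lit 936) (nat_lit 532) (nat_lit 0) (XT.nd (nat_lit 468) (nat_lit 228) (nat_lit 0) (XT.nd (nat_lit 234) (nat_lit 152) (nat_lit 0) (XT.nd (nat_lit 78) (nat_lit 76) (nat_lit 0) (XT.lf (nat_lit 0) (nat_lit 36015663390) (nat_lit 152) (nat_lit 84546736392) (nat_lit 76) (nat_lit 87242055963) (nat_lit 23) (nat_lit 5) (nat_lit 25) (nat_lit 5) (nat_lit 24) (nat_lit 4) (nat_lit 445) (nat_lit 378) (nat_lit 197)) (XT.nd (nat_lit 78) (nat_lit 0) (nat_lit 0) (XT.lf (nat_lit 0) (nat_lit 5308330111) (nat_lit 76) (nat_lit 74539610718) (nat_lit 152) (nat_lit 135861036360) (nat_lit 22) (nat_lit 5) (nat_lit 23) (nat_lit 5) (nat_lit 24) (nat_lit 4) (nat_lit 446) (nat_lit 378) (nat_lit 196)) (XT.lf (nat_lit 0) (nat_lit 102590105773) (nat_lit 76) (nat_lit 24712871845) (nat_lit 152) (nat_lit 96634189906) (nat_lit 22) (nat_lit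 5) (nat_lit 23) (nat_lit 5) (nat_lit 24) (nat_lit 4) (nat_lit 447) (nat_lit 378) (nat_lit 195)))) (XT.nd (nat_lit 78) (nat_lit 152) (nat_lit 0) (XT.lf (nat_lit 0) (nat_lit 177561090261) (nat_lit 152) (nat_lit 28273068951) (nat_lit 0) (nat_lit 26721092056) (nat_lit 22) (nat_lit 5) (nat_lit 24) (nat_lit 4) (nat_lit 22) (nat_lit 4) (nat_lit 448) (nat_lit 378) (nat_lit 194)) (XT.nd (nat_lit 78) (nat_lit 76) (nat_lit 0) (XT.lf (nat_lit 0) (nat_lit 71331325971) (nat_lit 76) (nat_lit 160518954861) (nat_lit 76) (nat_lit 9678049836) (nat_lit 21) (nat_lit 4) (nat_lit 22) (nat_lit 5) (nat_lit 22) (nat_lit 4) (nat_lit 449) (nat_lit 378) (nat_lit 193)) (XT.lf (nat_lit 0) (nat_lit 37176736736) (nat_lit 152) (nat_lit 74629458352) (nat_lit 76) (nat_lit 139089978233) (nat_lit 20) (nat_lit 5) (nat_lit 22) (nat_lit 5) (nat_lit 21) (nat_lit 4) (nat_lit 450) (nat_lit 378) (nat_lit 192))))) (XT.nd (nat_lit 234)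 (nat_lit 152) (nat_lit 0) (XT.nd (nat_lit 78) (nat_lit 0) (nat_lit 0) (XT.lf (nat_lit 0) (nat_lit 26401667071) (nat_lit 76) (nat_lit 60058946707) (nat_lit 152) (nat_lit 174243281723) (nat_lit 19) (nat_lit 5) (nat_lit 20) (nat_lit 5) (nat_lit 21) (nat_lit 4) (nat_lit 451) (nat_lit 378) (nat_lit 191)) (XT.nd (nat_lit 78) (nat_lit 0) (nat_lit 0) (XT.lf (nat_lit 0) (nat_lit 135074173841) (nat_lit 76) (nat_lit 4397800969) (nat_lit 152) (nat_lit 131466864544) (nat_lit 19) (nat_lit 5) (nat_lit 20) (nat_lit 5) (nat_lit 21) (nat_lit 4) (nat_lit 452) (nat_lit 378) (nat_lit 190)) (XT.lf (nat_lit 0) (nat_lit 195977144108) (nat_lit 152) (nat_lit 33350147443) (nat_lit 0) (nat_lit 52316076905) (nat_lit 19) (nat_lit 5) (nat_lit 21) (nat_lit 4) (nat_lit 19) (nat_lit 4) (nat_lit 453) (nat_lit 378) (nat_lit 189)))) (XT.nd (nat_lit 78) (nat_lit 76) (nat_lit 0) (XT.lf (nat_lit 0) (nat_lit 76670894404) (nat_lit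 76) (nat_lit 179905271919) (nat_lit 76) (nat_lit 36243528032) (nat_lit 18) (nat_lit 4) (nat_lit 19) (nat_lit 5) (nat_lit 19) (nat_lit 4) (nat_lit 454) (nat_lit 378) (nat_lit 188)) (XT.nd (nat_lit 78) (nat_lit 0) (nat_lit 0) (XT.lf (nat_lit 0) (nat_lit 15722908422) (nat_lit 152) (nat_lit 111430426080) (nat_lit 76) (nat_lit 177360609212) (nat_lit 17) (nat_lit 5) (nat_lit 19) (nat_lit 5) (nat_lit 18) (nat_lit 4) (nat_lit 455) (nat_lit 378) (nat_lit 187)) (XT.lf (nat_lit 0) (nat_lit 69069125396) (nat_lit 152) (nat_lit 2071295055) (nat_lit 76) (nat_lit 245622803390) (nat_lit 17) (nat_lit 5) (nat_lit 19) (nat_lit 5) (nat_lit 18) (nat_lit 4) (nat_lit 456) (nat_lit 378) (nat_lit 186)))))) (XT.nd (nat_lit 468) (nat_lit 228) (nat_lit 0) (XT.nd (nat_lit 234) (nat_lit 152) (nat_lit 0) (XT.nd (nat_lit 78) (nat_lit 76) (nat_lit 0) (XT.lf (nat_lit 0) (nat_lit 116483019113) (nat_lit 76) (nat_lit 10417764191)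 (nat_lit 152) (nat_lit 202633278219) (nat_lit 16) (nat_lit 5) (nat_lit 17) (nat_lit 5) (nat_lit 18) (nat_lit 4) (nat_lit 457) (nat_lit 378) (nat_lit 185)) (XT.nd (nat_lit 78) (nat_lit 76) (nat_lit 0) (XT.lf (nat_lit 0) (nat_lit 188491985975) (nat_lit 152) (nat_lit 102739064782) (nat_lit 0) (nat_lit 51668992289) (nat_lit 16) (nat_lit 5) (nat_lit 18) (nat_lit 4) (nat_lit 16) (nat_lit 4) (nat_lit 458) (nat_lit 378) (nat_lit 184)) (XT.lf (nat_lit 0) (nat_lit 13343903285) (nat_lit 76) (nat_lit 240197493327) (nat_lit 76) (nat_lit 103373994690) (nat_lit 15) (nat_lit 4) (nat_lit 16) (nat_lit 5) (nat_lit 16) (nat_lit 4) (nat_lit 459) (nat_lit 378) (nat_lit 183)))) (XT.nd (nat_lit 78) (nat_lit 152) (nat_lit 0) (XT.lf (nat_lit 0) (nat_lit 138796989167) (nat_lit 76) (nat_lit 184785761865) (nat_lit 76) (nat_lit 47961782322) (nat_lit 15) (nat_lit 4) (nat_lit 16) (nat_lit 5) (nat_lit 16) (nat_lit 4) (nat_lit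 460) (nat_lit 378) (nat_lit 182)) (XT.nd (nat_lit 78) (nat_lit 76) (nat_lit 0) (XT.lf (nat_lit 0) (nat_lit 9893455769) (nat_lit 152) (nat_lit 116542853221) (nat_lit 76) (nat_lit 260460866993) (nat_lit 14) (nat_lit 5) (nat_lit 16) (nat_lit 5) (nat_lit 15) (nat_lit 4) (nat_lit 461) (nat_lit 378) (nat_lit 181)) (XT.lf (nat_lit 0) (nat_lit 4839890805) (nat_lit 76) (nat_lit 64264872389) (nat_lit 152) (nat_lit 333869617761) (nat_lit 13) (nat_lit 5) (nat_lit 14) (nat_lit 5) (nat_lit 15) (nat_lit 4) (nat_lit 462) (nat_lit 378) (nat_lit 180))))) (XT.nd (nat_lit 234) (nat_lit 228) (nat_lit 0) (XT.nd (nat_lit 78) (nat_lit 0) (nat_lit 0) (XT.lf (nat_lit 0) (nat_lit 133298125540) (nat_lit 152) (nat_lit 283467919867) (nat_lit 0) (nat_lit 2988326331) (nat_lit 13) (nat_lit 5) (nat_lit 15) (nat_lit 4) (nat_lit 13) (nat_lit 4) (nat_lit 463) (nat_lit 378) (nat_lit 179)) (XT.nd (nat_lit 78) (nat_lit 0) (nat_lit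 0) (XT.lf (nat_lit 0) (nat_lit 201754273664) (nat_lit 152) (nat_lit 164122334893) (nat_lit 0) (nat_lit 71444097653) (nat_lit 13) (nat_lit 5) (nat_lit 15) (nat_lit 4) (nat_lit 13) (nat_lit 4) (nat_lit 464) (nat_lit 378) (nat_lit 178)) (XT.lf (nat_lit 0) (nat_lit 273632843638) (nat_lit 152) (nat_lit 38810224314) (nat_lit 0) (nat_lit 143322308767) (nat_lit 13) (nat_lit 5) (nat_lit 15) (nat_lit 4) (nat_lit 13) (nat_lit 4) (nat_lit 465) (nat_lit 378) (nat_lit 177)))) (XT.nd (nat_lit 156) (nat_lit 152) (nat_lit 0) (XT.nd (nat_lit 78) (nat_lit 0) (nat_lit 0) (XT.lf (nat_lit 0) (nat_lit 95834062532) (nat_lit 76) (nat_lit 254767150670) (nat_lit 76) (nat_lit 124456274028) (nat_lit 12) (nat_lit 4) (nat_lit 13) (nat_lit 5) (nat_lit 13) (nat_lit 4) (nat_lit 466) (nat_lit 378) (nat_lit 176)) (XT.lf (nat_lit 0) (nat_lit 238557260894) (nat_lit 76) (nat_lit 193517649541) (nat_lit 76) (nat_lit 63206447404)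 (nat_lit 12) (nat_lit 4) (nat_lit 13) (nat_lit 5) (nat_lit 13) (nat_lit 4) (nat_lit 467) (nat_lit 378) (nat_lit 175))) (XT.nd (nat_lit 78) (nat_lit 76) (nat_lit 0) (XT.lf (nat_lit 0) (nat_lit 1070126567) (nat_lit 152) (nat_lit 128117752669) (nat_lit 76) (nat_lit 387327696944) (nat_lit 11) (nat_lit 5) (nat_lit 13) (nat_lit 5) (nat_lit 12) (nat_lit 4) (nat_lit 468) (nat_lit 378) (nat_lit 174)) (XT.lf (nat_lit 0) (nat_lit 6076574329) (nat_lit 76) (nat_lit 60454343572) (nat_lit 152) (nat_lit 472224052014) (nat_lit 10) (nat_lit 5) (nat_lit 11) (nat_lit 5) (nat_lit 12) (nat_lit 4) (nat_lit 469) (nat_lit 378) (nat_lit 173))))))) (XT.nd (nat_lit 46644) (nat_lit 0) (nat_lit 5852) (XT.nd (nat_lit 46098) (nat_lit 0) (nat_lit 7676) (XT.nd (nat_lit 234) (nat_lit 76) (nat_lit 0) (XT.nd (nat_lit 78) (nat_lit 0) (nat_lit 0) (XT.lf (nat_lit 0) (nat_lit 137652640258) (nat_lit 152) (nat_lit 410788409264) (nat_lit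 0) (nat_lit 13545889264) (nat_lit 10) (nat_lit 5) (nat_lit 12) (nat_lit 4) (nat_lit 10) (nat_lit 4) (nat_lit 470) (nat_lit 378) (nat_lit 172)) (XT.nd (nat_lit 78) (nat_lit 0) (nat_lit 0) (XT.lf (nat_lit 0) (nat_lit 213321187672) (nat_lit 152) (nat_lit 283795599865) (nat_lit 0) (nat_lit 89214181643) (nat_lit 10) (nat_lit 5) (nat_lit 12) (nat_lit 4) (nat_lit 10) (nat_lit 4) (nat_lit 471) (nat_lit 378) (nat_lit 171)) (XT.lf (nat_lit 0) (nat_lit 292772861624) (nat_lit 152) (nat_lit 150453741830) (nat_lit 0) (nat_lit 168665612704) (nat_lit 10) (nat_lit 5) (nat_lit 12) (nat_lit 4) (nat_lit 10) (nat_lit 4) (nat_lit 472) (nat_lit 378) (nat_lit 170)))) (XT.nd (nat_lit 78) (nat_lit 76) (nat_lit 0) (XT.lf (nat_lit 0) (nat_lit 376196832765) (nat_lit 152) (nat_lit 10445354545) (nat_lit 0) (nat_lit 252089352522) (nat_lit 10) (nat_lit 5) (nat_lit 12) (nat_lit 4) (nat_lit 10) (nat_lit 4) (nat_lit 473) (nat_lit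 378) (nat_lit 169)) (XT.nd (nat_lit 45708) (nat_lit 0) (nat_lit 7676) (XT.lf (nat_lit 0) (nat_lit 141078302008) (nat_lit 76) (nat_lit 324916055257) (nat_lit 76) (nat_lit 200808354705) (nat_lit 9) (nat_lit 4) (nat_lit 10) (nat_lit 5) (nat_lit 10) (nat_lit 4) (nat_lit 474) (nat_lit 378) (nat_lit 168)) (XT.lf (nat_lit 0) (nat_lit 2496850020) (nat_lit 836) (nat_lit 5587688250) (nat_lit 836) (nat_lit 5587688250) (nat_lit 110) (nat_lit 3) (nat_lit 121) (nat_lit 3) (nat_lit 121) (nat_lit 5) (nat_lit 379) (nat_lit 379) (nat_lit 262))))) (XT.nd (nat_lit 234) (nat_lit 0) (nat_lit 152) (XT.nd (nat_lit 78) (nat_lit 0) (nat_lit 76) (XT.lf (nat_lit 76) (nat_lit 2066431632) (nat_lit 0) (nat_lit 3169877141) (nat_lit 836) (nat_lit 22785806907) (nat_lit 111) (nat_lit 5) (nat_lit 110) (nat_lit 3) (nat_lit 121) (nat_lit 5) (nat_lit 380) (nat_lit 379) (nat_lit 261)) (XT.nd (nat_lit 78) (nat_lit 0) (nat_lit 0)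 (XT.lf (nat_lit 0) (nat_lit 5841542078) (nat_lit 760) (nat_lit 12535888144) (nat_lit 836) (nat_lit 10338710385) (nat_lit 111) (nat_lit 5) (nat_lit 121) (nat_lit 5) (nat_lit 122) (nat_lit 5) (nat_lit 381) (nat_lit 379) (nat_lit 260)) (XT.lf (nat_lit 76) (nat_lit 1549389023) (nat_lit 0) (nat_lit 4998584609) (nat_lit 836) (nat_lit 22893350001) (nat_lit 112) (nat_lit 5) (nat_lit 111) (nat_lit 5) (nat_lit 122) (nat_lit 5) (nat_lit 382) (nat_lit 379) (nat_lit 259)))) (XT.nd (nat_lit 156) (nat_lit 0) (nat_lit 76) (XT.nd (nat_lit 78) (nat_lit 0) (nat_lit 0) (XT.lf (nat_lit 0) (nat_lit 7641803556) (nat_lit 760) (nat_lit 13566134308) (nat_lit 836) (nat_lit 8977227610) (nat_lit 112) (nat_lit 5) (nat_lit 122) (nat_lit 5) (nat_lit 123) (nat_lit 5) (nat_lit 383) (nat_lit 379) (nat_lit 258)) (XT.lf (nat_lit 76) (nat_lit 1436791075) (nat_lit 0) (nat_lit 7453159472) (nat_lit 836) (nat_lit 22071270922) (nat_lit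 113) (nat_lit 5) (nat_lit 112) (nat_lit 5) (nat_lit 123) (nat_lit 5) (nat_lit 384) (nat_lit 379) (nat_lit 257))) (XT.nd (nat_lit 78) (nat_lit 0) (nat_lit 0) (XT.lf (nat_lit 0) (nat_lit 10538592110) (nat_lit 760) (nat_lit 14220043871) (nat_lit 836) (nat_lit 7000543101) (nat_lit 113) (nat_lit 5) (nat_lit 123) (nat_lit 5) (nat_lit 124) (nat_lit 5) (nat_lit 385) (nat_lit 379) (nat_lit 256)) (XT.lf (nat_lit 76) (nat_lit 1781139485) (nat_lit 0) (nat_lit 10634182865) (nat_lit 836) (nat_lit 20174432424) (nat_lit 114) (nat_lit 5) (nat_lit 113) (nat_lit 5) (nat_lit 124) (nat_lit 5) (nat_lit 386) (nat_lit 379) (nat_lit 255)))))) (XT.nd (nat_lit 468) (nat_lit 1064) (nat_lit 0) (XT.nd (nat_lit 234) (nat_lit 1064) (nat_lit 0) (XT.nd (nat_lit 78) (nat_lit 0) (nat_lit 0) (XT.lf (nat_lit 0) (nat_lit 14692016344) (nat_lit 760) (nat_lit 14446637125) (nat_lit 836) (nat_lit 4307902302) (nat_lit 114) (nat_lit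 5) (nat_lit 124) (nat_lit 5) (nat_lit 125) (nat_lit 5) (nat_lit 387) (nat_lit 379) (nat_lit 254)) (XT.nd (nat_lit 78) (nat_lit 0) (nat_lit 76) (XT.lf (nat_lit 76) (nat_lit 2640358050) (nat_lit 0) (nat_lit 14653776463) (nat_lit 836) (nat_lit 17041485580) (nat_lit 115) (nat_lit 5) (nat_lit 114) (nat_lit 5) (nat_lit 125) (nat_lit 5) (nat_lit 388) (nat_lit 379) (nat_lit 253)) (XT.lf (nat_lit 0) (nat_lit 20279884327) (nat_lit 760) (nat_lit 14189738307) (nat_lit 76) (nat_lit 786841326) (nat_lit 115) (nat_lit 5) (nat_lit 125) (nat_lit 5) (nat_lit 116) (nat_lit 5) (nat_lit 389) (nat_lit 379) (nat_lit 252)))) (XT.nd (nat_lit 78) (nat_lit 380) (nat_lit 0) (XT.lf (nat_lit 0) (nat_lit 4078113241) (nat_lit 760) (nat_lit 19637070373) (nat_lit 836) (nat_lit 12493155797) (nat_lit 105) (nat_lit 5) (nat_lit 115) (nat_lit 5) (nat_lit 116) (nat_lit 5) (nat_lit 390) (nat_lit 379) (nat_lit 251)) (XT.nd (nat_lit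 78) (nat_lit 380) (nat_lit 0) (XT.lf (nat_lit 0) (nat_lit 23748797798) (nat_lit 760) (nat_lit 3810248708) (nat_lit 836) (nat_lit 9636924571) (nat_lit 105) (nat_lit 5) (nat_lit 115) (nat_lit 5) (nat_lit 116) (nat_lit 5) (nat_lit 391) (nat_lit 379) (nat_lit 250)) (XT.lf (nat_lit 0) (nat_lit 6164138490) (nat_lit 380) (nat_lit 25723831429) (nat_lit 456) (nat_lit 6330373297) (nat_lit 100) (nat_lit 5) (nat_lit 105) (nat_lit 5) (nat_lit 106) (nat_lit 5) (nat_lit 392) (nat_lit 379) (nat_lit 249))))) (XT.nd (nat_lit 234) (nat_lit 684) (nat_lit 0) (XT.nd (nat_lit 78) (nat_lit 380) (nat_lit 0) (XT.lf (nat_lit 0) (nat_lit 27155177565) (nat_lit 380) (nat_lit 9564122021) (nat_lit 456) (nat_lit 2558238524) (nat_lit 100) (nat_lit 5) (nat_lit 105) (nat_lit 5) (nat_lit 106) (nat_lit 5) (nat_lit 393) (nat_lit 379) (nat_lit 248)) (XT.nd (nat_lit 78) (nat_lit 0) (nat_lit 0) (XT.lf (nat_lit 0) (nat_lit 1614387003)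 (nat_lit 380) (nat_lit 31428545935) (nat_lit 76) (nat_lit 7332828269) (nat_lit 95) (nat_lit 5) (nat_lit 100) (nat_lit 5) (nat_lit 96) (nat_lit 5) (nat_lit 394) (nat_lit 379) (nat_lit 247)) (XT.lf (nat_lit 0) (nat_lit 6272094546) (nat_lit 380) (nat_lit 10232814737) (nat_lit 76) (nat_lit 25003769903) (nat_lit 95) (nat_lit 5) (nat_lit 100) (nat_lit 5) (nat_lit 96) (nat_lit 5) (nat_lit 395) (nat_lit 379) (nat_lit 246)))) (XT.nd (nat_lit 156) (nat_lit 304) (nat_lit 0) (XT.nd (nat_lit 78) (nat_lit 0) (nat_lit 0) (XT.lf (nat_lit 0) (nat_lit 11370271071) (nat_lit 456) (nat_lit 30288240694) (nat_lit 76) (nat_lit 1029353888) (nat_lit 90) (nat_lit 5) (nat_lit 96) (nat_lit 5) (nat_lit 91) (nat_lit 5) (nat_lit 396) (nat_lit 379) (nat_lit 245)) (XT.lf (nat_lit 0) (nat_lit 17167270043) (nat_lit 456) (nat_lit 7674970122) (nat_lit 76) (nat_lit 19061577283) (nat_lit 90) (nat_lit 5) (nat_lit 96) (nat_lit 5)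 (nat_lit 91) (nat_lit 5) (nat_lit 397) (nat_lit 379) (nat_lit 244))) (XT.nd (nat_lit 78) (nat_lit 0) (nat_lit 0) (XT.lf (nat_lit 0) (nat_lit 16597170221) (nat_lit 304) (nat_lit 6913413011) (nat_lit 380) (nat_lit 21657161994) (nat_lit 86) (nat_lit 5) (nat_lit 90) (nat_lit 5) (nat_lit 91) (nat_lit 5) (nat_lit 398) (nat_lit 379) (nat_lit 243)) (XT.lf (nat_lit 0) (nat_lit 30486560417) (nat_lit 380) (nat_lit 4330186670) (nat_lit 76) (nat_lit 11662348920) (nat_lit 86) (nat_lit 5) (nat_lit 91) (nat_lit 5) (nat_lit 87) (nat_lit 5) (nat_lit 399) (nat_lit 379) (nat_lit 242))))))))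
noncomputable def xc187 : XT := (XT.nd (nat_lit 1950) (nat_lit 1672) (nat_lit 0) (XT.nd (nat_lit 936) (nat_lit 1368) (nat_lit 0) (XT.nd (nat_lit 468) (nat_lit 760) (nat_lit 0) (XT.nd (nat_lit 234) (nat_lit 532) (nat_lit 0) (XT.nd (nat_lit 78) (nat_lit 304) (nat_lit 0) (XT.lf (nat_lit 0) (nat_lit 21700501634) (nat_lit 304) (nat_lit 16560509154) (nat_lit 380) (nat_lit 9572521277) (nat_lit 82) (nat_lit 5) (nat_lit 86) (nat_lit 5) (nat_lit 87) (nat_lit 5) (nat_lit 400) (nat_lit 379) (nat_lit 241)) (XT.nd (nat_lit 78) (nat_lit 304) (nat_lit 0) (XT.lf (nat_lit 0) (nat_lit 46537044940) (nat_lit 380) (nat_lit 113895759) (nat_lit 76) (nat_lit 2599107553) (nat_lit 82) (nat_lit 5) (nat_lit 87) (nat_lit 5) (nat_lit 83) (nat_lit 5) (nat_lit 401) (nat_lit 379) (nat_lit 240)) (XT.lf (nat_lit 0) (nat_lit 5060913113) (nat_lit 304) (nat_lit 22961498954) (nat_lit 76) (nat_lit 22675719047) (nat_lit 78) (nat_lit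 5) (nat_lit 82) (nat_lit 5) (nat_lit 79) (nat_lit 5) (nat_lit 402) (nat_lit 379) (nat_lit 239)))) (XT.nd (nat_lit 78) (nat_lit 228) (nat_lit 0) (XT.lf (nat_lit 0) (nat_lit 4873711958) (nat_lit 304) (nat_lit 8334431823) (nat_lit 380) (nat_lit 39004462108) (nat_lit 74) (nat_lit 5) (nat_lit 78) (nat_lit 5) (nat_lit 79) (nat_lit 5) (nat_lit 403) (nat_lit 379) (nat_lit 238)) (XT.nd (nat_lit 78) (nat_lit 228) (nat_lit 0) (XT.lf (nat_lit 0) (nat_lit 22348398290) (nat_lit 380) (nat_lit 19087454602) (nat_lit 76) (nat_lit 12337669536) (nat_lit 74) (nat_lit 5) (nat_lit 79) (nat_lit 5) (nat_lit 75) (nat_lit 5) (nat_lit 404) (nat_lit 379) (nat_lit 237)) (XT.lf (nat_lit 0) (nat_lit 10782221804) (nat_lit 228) (nat_lit 21466312978) (nat_lit 304) (nat_lit 23148807637) (nat_lit 71) (nat_lit 5) (nat_lit 74) (nat_lit 5) (nat_lit 75) (nat_lit 5) (nat_lit 405) (nat_lit 379) (nat_lit 236))))) (XT.nd (nat_lit 234)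 (nat_lit 456) (nat_lit 0) (XT.nd (nat_lit 78) (nat_lit 304) (nat_lit 0) (XT.lf (nat_lit 0) (nat_lit 42805297275) (nat_lit 228) (nat_lit 159591639) (nat_lit 304) (nat_lit 14121404989) (nat_lit 71) (nat_lit 5) (nat_lit 74) (nat_lit 5) (nat_lit 75) (nat_lit 5) (nat_lit 406) (nat_lit 379) (nat_lit 235)) (XT.nd (nat_lit 78) (nat_lit 76) (nat_lit 0) (XT.lf (nat_lit 0) (nat_lit 17789701800) (nat_lit 228) (nat_lit 37049947176) (nat_lit 304) (nat_lit 3988915561) (nat_lit 68) (nat_lit 5) (nat_lit 71) (nat_lit 5) (nat_lit 72) (nat_lit 5) (nat_lit 407) (nat_lit 379) (nat_lit 234)) (XT.lf (nat_lit 0) (nat_lit 6683848800) (nat_lit 304) (nat_lit 8799261827) (nat_lit 76) (nat_lit 45157322639) (nat_lit 67) (nat_lit 5) (nat_lit 71) (nat_lit 5) (nat_lit 68) (nat_lit 5) (nat_lit 408) (nat_lit 379) (nat_lit 233)))) (XT.nd (nat_lit 78) (nat_lit 228) (nat_lit 0) (XT.lf (nat_lit 0) (nat_lit 18276810753) (nat_lit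 304) (nat_lit 36828640376) (nat_lit 76) (nat_lit 7408144899) (nat_lit 64) (nat_lit 5) (nat_lit 68) (nat_lit 5) (nat_lit 65) (nat_lit 5) (nat_lit 409) (nat_lit 379) (nat_lit 232)) (XT.nd (nat_lit 78) (nat_lit 228) (nat_lit 0) (XT.lf (nat_lit 0) (nat_lit 30852894883) (nat_lit 304) (nat_lit 2532998018) (nat_lit 76) (nat_lit 31074351133) (nat_lit 64) (nat_lit 5) (nat_lit 68) (nat_lit 5) (nat_lit 65) (nat_lit 5) (nat_lit 410) (nat_lit 379) (nat_lit 231)) (XT.lf (nat_lit 0) (nat_lit 34581741824) (nat_lit 228) (nat_lit 10014235387) (nat_lit 304) (nat_lit 21881338303) (nat_lit 61) (nat_lit 5) (nat_lit 64) (nat_lit 5) (nat_lit 65) (nat_lit 5) (nat_lit 411) (nat_lit 379) (nat_lit 230)))))) (XT.nd (nat_lit 468) (nat_lit 760) (nat_lit 0) (XT.nd (nat_lit 234) (nat_lit 152) (nat_lit 0) (XT.nd (nat_lit 78) (nat_lit 304) (nat_lit 0) (XT.lf (nat_lit 0) (nat_lit 4976292394) (nat_lit 152) (nat_lit 54396314674)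 (nat_lit 228) (nat_lit 9205314565) (nat_lit 59) (nat_lit 5) (nat_lit 61) (nat_lit 5) (nat_lit 62) (nat_lit 5) (nat_lit 412) (nat_lit 379) (nat_lit 229)) (XT.nd (nat_lit 78) (nat_lit 228) (nat_lit 0) (XT.lf (nat_lit 0) (nat_lit 4684651187) (nat_lit 228) (nat_lit 26197124713) (nat_lit 76) (nat_lit 39863003140) (nat_lit 58) (nat_lit 5) (nat_lit 61) (nat_lit 5) (nat_lit 59) (nat_lit 5) (nat_lit 413) (nat_lit 379) (nat_lit 228)) (XT.lf (nat_lit 0) (nat_lit 13351591423) (nat_lit 228) (nat_lit 5815021423) (nat_lit 304) (nat_lit 53835478939) (nat_lit 55) (nat_lit 5) (nat_lit 58) (nat_lit 5) (nat_lit 59) (nat_lit 5) (nat_lit 414) (nat_lit 379) (nat_lit 227)))) (XT.nd (nat_lit 78) (nat_lit 152) (nat_lit 0) (XT.lf (nat_lit 0) (nat_lit 35142174636) (nat_lit 304) (nat_lit 19892720742) (nat_lit 76) (nat_lit 20298900293) (nat_lit 55) (nat_lit 5) (nat_lit 59) (nat_lit 5) (nat_lit 56) (nat_lit 5) (nat_lit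 415) (nat_lit 379) (nat_lit 226)) (XT.nd (nat_lit 78) (nat_lit 0) (nat_lit 0) (XT.lf (nat_lit 0) (nat_lit 22474597343) (nat_lit 152) (nat_lit 29886638089) (nat_lit 228) (nat_lit 25398613849) (nat_lit 53) (nat_lit 5) (nat_lit 55) (nat_lit 5) (nat_lit 56) (nat_lit 5) (nat_lit 416) (nat_lit 379) (nat_lit 225)) (XT.lf (nat_lit 0) (nat_lit 67648599813) (nat_lit 152) (nat_lit 3128078831) (nat_lit 228) (nat_lit 9513756009) (nat_lit 53) (nat_lit 5) (nat_lit 55) (nat_lit 5) (nat_lit 56) (nat_lit 5) (nat_lit 417) (nat_lit 379) (nat_lit 224))))) (XT.nd (nat_lit 234) (nat_lit 380) (nat_lit 0) (XT.nd (nat_lit 78) (nat_lit 152) (nat_lit 0) (XT.lf (nat_lit 0) (nat_lit 7851151607) (nat_lit 228) (nat_lit 50237972387) (nat_lit 76) (nat_lit 24807075107) (nat_lit 50) (nat_lit 5) (nat_lit 53) (nat_lit 5) (nat_lit 51) (nat_lit 5) (nat_lit 418) (nat_lit 379) (nat_lit 223)) (XT.nd (nat_lit 78) (nat_lit 152) (nat_lit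 0) (XT.lf (nat_lit 0) (nat_lit 26032068207) (nat_lit 228) (nat_lit 5172382247) (nat_lit 76) (nat_lit 54406629222) (nat_lit 50) (nat_lit 5) (nat_lit 53) (nat_lit 5) (nat_lit 51) (nat_lit 5) (nat_lit 419) (nat_lit 379) (nat_lit 222)) (XT.lf (nat_lit 0) (nat_lit 43537807614) (nat_lit 152) (nat_lit 2262639599) (nat_lit 228) (nat_lit 42627336691) (nat_lit 48) (nat_lit 5) (nat_lit 50) (nat_lit 5) (nat_lit 51) (nat_lit 5) (nat_lit 420) (nat_lit 379) (nat_lit 221)))) (XT.nd (nat_lit 156) (nat_lit 228) (nat_lit 0) (XT.nd (nat_lit 78) (nat_lit 0) (nat_lit 0) (XT.lf (nat_lit 0) (nat_lit 3139887919) (nat_lit 152) (nat_lit 63993228926) (nat_lit 228) (nat_lit 24223413344) (nat_lit 46) (nat_lit 5) (nat_lit 48) (nat_lit 5) (nat_lit 49) (nat_lit 5) (nat_lit 421) (nat_lit 379) (nat_lit 220)) (XT.lf (nat_lit 0) (nat_lit 55089260987) (nat_lit 152) (nat_lit 35238602339) (nat_lit 228) (nat_lit 4064078703) (nat_lit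 46) (nat_lit 5) (nat_lit 48) (nat_lit 5) (nat_lit 49) (nat_lit 5) (nat_lit 422) (nat_lit 379) (nat_lit 219))) (XT.nd (nat_lit 78) (nat_lit 0) (nat_lit 0) (XT.lf (nat_lit 0) (nat_lit 12177625620) (nat_lit 152) (nat_lit 4567070414) (nat_lit 228) (nat_lit 80811633173) (nat_lit 43) (nat_lit 5) (nat_lit 45) (nat_lit 5) (nat_lit 46) (nat_lit 5) (nat_lit 423) (nat_lit 379) (nat_lit 218)) (XT.lf (nat_lit 0) (nat_lit 39564129242) (nat_lit 228) (nat_lit 33760348416) (nat_lit 76) (nat_lit 27495787254) (nat_lit 43) (nat_lit 5) (nat_lit 46) (nat_lit 5) (nat_lit 44) (nat_lit 5) (nat_lit 424) (nat_lit 379) (nat_lit 217))))))) (XT.nd (nat_lit 1014) (nat_lit 608) (nat_lit 0) (XT.nd (nat_lit 468) (nat_lit 608) (nat_lit 0) (XT.nd (nat_lit 234) (nat_lit 152) (nat_lit 0) (XT.nd (nat_lit 78) (nat_lit 152) (nat_lit 0) (XT.lf (nat_lit 0) (nat_lit 21035317941) (nat_lit 152) (nat_lit 42891335620) (nat_lit 228) (nat_lit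 40300638207) (nat_lit 41) (nat_lit 5) (nat_lit 43) (nat_lit 5) (nat_lit 44) (nat_lit 5) (nat_lit 425) (nat_lit 379) (nat_lit 216)) (XT.nd (nat_lit 78) (nat_lit 152) (nat_lit 0) (XT.lf (nat_lit 0) (nat_lit 79740884800) (nat_lit 152) (nat_lit 10337021373) (nat_lit 228) (nat_lit 17698234012) (nat_lit 41) (nat_lit 5) (nat_lit 43) (nat_lit 5) (nat_lit 44) (nat_lit 5) (nat_lit 426) (nat_lit 379) (nat_lit 215)) (XT.lf (nat_lit 0) (nat_lit 6702114227) (nat_lit 152) (nat_lit 81087507935) (nat_lit 76) (nat_lit 23665050601) (nat_lit 39) (nat_lit 5) (nat_lit 41) (nat_lit 5) (nat_lit 40) (nat_lit 5) (nat_lit 427) (nat_lit 379) (nat_lit 214)))) (XT.nd (nat_lit 78) (nat_lit 152) (nat_lit 0) (XT.lf (nat_lit 0) (nat_lit 32378638338) (nat_lit 152) (nat_lit 23099664071) (nat_lit 76) (nat_lit 59791776330) (nat_lit 39) (nat_lit 5) (nat_lit 41) (nat_lit 5) (nat_lit 40) (nat_lit 5) (nat_lit 428) (nat_lit 379)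 (nat_lit 213)) (XT.nd (nat_lit 78) (nat_lit 0) (nat_lit 0) (XT.lf (nat_lit 0) (nat_lit 39035110104) (nat_lit 152) (nat_lit 20912280054) (nat_lit 228) (nat_lit 59298445045) (nat_lit 37) (nat_lit 5) (nat_lit 39) (nat_lit 5) (nat_lit 40) (nat_lit 5) (nat_lit 429) (nat_lit 379) (nat_lit 212)) (XT.lf (nat_lit 0) (nat_lit 89531317186) (nat_lit 228) (nat_lit 18570637151) (nat_lit 76) (nat_lit 15286588524) (nat_lit 37) (nat_lit 5) (nat_lit 40) (nat_lit 5) (nat_lit 38) (nat_lit 4) (nat_lit 430) (nat_lit 379) (nat_lit 211))))) (XT.nd (nat_lit 234) (nat_lit 304) (nat_lit 0) (XT.nd (nat_lit 78) (nat_lit 228) (nat_lit 0) (XT.lf (nat_lit 0) (nat_lit 47321461772) (nat_lit 76) (nat_lit 74353636686) (nat_lit 152) (nat_lit 6009254788) (nat_lit 36) (nat_lit 5) (nat_lit 37) (nat_lit 5) (nat_lit 38) (nat_lit 4) (nat_lit 431) (nat_lit 379) (nat_lit 210)) (XT.nd (nat_lit 78) (nat_lit 152) (nat_lit 0) (XT.lf (nat_lit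 0) (nat_lit 22806249417) (nat_lit 152) (nat_lit 15395947307) (nat_lit 76) (nat_lit 93958688728) (nat_lit 35) (nat_lit 5) (nat_lit 37) (nat_lit 5) (nat_lit 36) (nat_lit 5) (nat_lit 432) (nat_lit 379) (nat_lit 209)) (XT.lf (nat_lit 0) (nat_lit 53721697477) (nat_lit 228) (nat_lit 82363303503) (nat_lit 76) (nat_lit 728261926) (nat_lit 33) (nat_lit 5) (nat_lit 36) (nat_lit 5) (nat_lit 34) (nat_lit 4) (nat_lit 433) (nat_lit 379) (nat_lit 208)))) (XT.nd (nat_lit 156) (nat_lit 228) (nat_lit 0) (XT.nd (nat_lit 78) (nat_lit 76) (nat_lit 0) (XT.lf (nat_lit 0) (nat_lit 87073267017) (nat_lit 228) (nat_lit 13994768316) (nat_lit 76) (nat_lit 40585706643) (nat_lit 33) (nat_lit 5) (nat_lit 36) (nat_lit 5) (nat_lit 34) (nat_lit 4) (nat_lit 434) (nat_lit 379) (nat_lit 207)) (XT.lf (nat_lit 0) (nat_lit 59701411605) (nat_lit 76) (nat_lit 63322225347) (nat_lit 152) (nat_lit 23666047138) (nat_lit 32) (nat_lit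 5) (nat_lit 33) (nat_lit 5) (nat_lit 34) (nat_lit 4) (nat_lit 435) (nat_lit 379) (nat_lit 206))) (XT.nd (nat_lit 78) (nat_lit 152) (nat_lit 0) (XT.lf (nat_lit 0) (nat_lit 8752648165) (nat_lit 152) (nat_lit 14540095123) (nat_lit 76) (nat_lit 128665814551) (nat_lit 31) (nat_lit 5) (nat_lit 33) (nat_lit 5) (nat_lit 32) (nat_lit 5) (nat_lit 436) (nat_lit 379) (nat_lit 205)) (XT.lf (nat_lit 0) (nat_lit 43297321370) (nat_lit 228) (nat_lit 94574690082) (nat_lit 76) (nat_lit 19534446709) (nat_lit 29) (nat_lit 5) (nat_lit 32) (nat_lit 5) (nat_lit 30) (nat_lit 4) (nat_lit 437) (nat_lit 379) (nat_lit 204)))))) (XT.nd (nat_lit 468) (nat_lit 304) (nat_lit 0) (XT.nd (nat_lit 234) (nat_lit 228) (nat_lit 0) (XT.nd (nat_lit 78) (nat_lit 76) (nat_lit 0) (XT.lf (nat_lit 0) (nat_lit 80200523397) (nat_lit 228) (nat_lit 18924835870) (nat_lit 76) (nat_lit 63969829629) (nat_lit 29) (nat_lit 5) (nat_lit 32) (nat_lit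 5) (nat_lit 30) (nat_lit 4) (nat_lit 438) (nat_lit 379) (nat_lit 203)) (XT.nd (nat_lit 78) (nat_lit 0) (nat_lit 0) (XT.lf (nat_lit 0) (nat_lit 62506654125) (nat_lit 76) (nat_lit 57417341718) (nat_lit 152) (nat_lit 49095604957) (nat_lit 28) (nat_lit 5) (nat_lit 29) (nat_lit 5) (nat_lit 30) (nat_lit 4) (nat_lit 439) (nat_lit 379) (nat_lit 202)) (XT.lf (nat_lit 0) (nat_lit 148665309521) (nat_lit 76) (nat_lit 13288055281) (nat_lit 152) (nat_lit 13270882492) (nat_lit 28) (nat_lit 5) (nat_lit 29) (nat_lit 5) (nat_lit 30) (nat_lit 4) (nat_lit 440) (nat_lit 379) (nat_lit 201)))) (XT.nd (nat_lit 78) (nat_lit 76) (nat_lit 0) (XT.lf (nat_lit 0) (nat_lit 25021927465) (nat_lit 152) (nat_lit 123315111018) (nat_lit 76) (nat_lit 33310280722) (nat_lit 26) (nat_lit 5) (nat_lit 28) (nat_lit 5) (nat_lit 27) (nat_lit 4) (nat_lit 441) (nat_lit 379) (nat_lit 200)) (XT.nd (nat_lit 78) (nat_lit 76) (nat_lit 0) (XT.lf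 (nat_lit 0) (nat_lit 65457639303) (nat_lit 152) (nat_lit 40423241535) (nat_lit 76) (nat_lit 82466073718) (nat_lit 26) (nat_lit 5) (nat_lit 28) (nat_lit 5) (nat_lit 27) (nat_lit 4) (nat_lit 442) (nat_lit 379) (nat_lit 199)) (XT.lf (nat_lit 0) (nat_lit 48153089542) (nat_lit 76) (nat_lit 60513138573) (nat_lit 152) (nat_lit 86677789107) (nat_lit 25) (nat_lit 5) (nat_lit 26) (nat_lit 5) (nat_lit 27) (nat_lit 4) (nat_lit 443) (nat_lit 379) (nat_lit 198))))) (XT.nd (nat_lit 234) (nat_lit 152) (nat_lit 0) (XT.nd (nat_lit 78) (nat_lit 152) (nat_lit 0) (XT.lf (nat_lit 0) (nat_lit 142560330851) (nat_lit 76) (nat_lit 12158802890) (nat_lit 152) (nat_lit 47937605019) (nat_lit 25) (nat_lit 5) (nat_lit 26) (nat_lit 5) (nat_lit 27) (nat_lit 4) (nat_lit 444) (nat_lit 379) (nat_lit 197)) (XT.nd (nat_lit 78) (nat_lit 76) (nat_lit 0) (XT.lf (nat_lit 0) (nat_lit 31765395892) (nat_lit 76) (nat_lit 172407421118)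 (nat_lit 76) (nat_lit 6107372854) (nat_lit 24) (nat_lit 4) (nat_lit 25) (nat_lit 5) (nat_lit 25) (nat_lit 4) (nat_lit 445) (nat_lit 379) (nat_lit 196)) (XT.lf (nat_lit 0) (nat_lit 37837172032) (nat_lit 152) (nat_lit 88734895354) (nat_lit 76) (nat_lit 91621571958) (nat_lit 23) (nat_lit 5) (nat_lit 25) (nat_lit 5) (nat_lit 24) (nat_lit 4) (nat_lit 446) (nat_lit 379) (nat_lit 195)))) (XT.nd (nat_lit 156) (nat_lit 76) (nat_lit 0) (XT.nd (nat_lit 78) (nat_lit 0) (nat_lit 0) (XT.lf (nat_lit 0) (nat_lit 5612292573) (nat_lit 76) (nat_lit 78248385652) (nat_lit 152) (nat_lit 142632728029) (nat_lit 22) (nat_lit 5) (nat_lit 23) (nat_lit 5) (nat_lit 24) (nat_lit 4) (nat_lit 447) (nat_lit 379) (nat_lit 194)) (XT.lf (nat_lit 0) (nat_lit 107756321497) (nat_lit 76) (nat_lit 25931176770) (nat_lit 152) (nat_lit 101445556402) (nat_lit 22) (nat_lit 5) (nat_lit 23) (nat_lit 5) (nat_lit 24) (nat_lit 4) (nat_lit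 448) (nat_lit 379) (nat_lit 193))) (XT.nd (nat_lit 78) (nat_lit 76) (nat_lit 0) (XT.lf (nat_lit 0) (nat_lit 186457851890) (nat_lit 152) (nat_lit 29651092910) (nat_lit 0) (nat_lit 28073131156) (nat_lit 22) (nat_lit 5) (nat_lit 24) (nat_lit 4) (nat_lit 22) (nat_lit 4) (nat_lit 449) (nat_lit 379) (nat_lit 192)) (XT.lf (nat_lit 0) (nat_lit 74932947089) (nat_lit 76) (nat_lit 168528211390) (nat_lit 76) (nat_lit 10142668144) (nat_lit 21) (nat_lit 4) (nat_lit 22) (nat_lit 5) (nat_lit 22) (nat_lit 4) (nat_lit 450) (nat_lit 379) (nat_lit 191))))))))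
noncomputable def xc188 : XT := (XT.nd (nat_lit 47736) (nat_lit 0) (nat_lit 4636) (XT.nd (nat_lit 936) (nat_lit 304) (nat_lit 0) (XT.nd (nat_lit 468) (nat_lit 228) (nat_lit 0) (XT.nd (nat_lit 234) (nat_lit 152) (nat_lit 0) (XT.nd (nat_lit 78) (nat_lit 76) (nat_lit 0) (XT.lf (nat_lit 0) (nat_lit 39053351639) (nat_lit 152) (nat_lit 78326955730) (nat_lit 76) (nat_lit 146059783540) (nat_lit 20) (nat_lit 5) (nat_lit 22) (nat_lit 5) (nat_lit 21) (nat_lit 4) (nat_lit 451) (nat_lit 379) (nat_lit 190)) (XT.nd (nat_lit 78) (nat_lit 0) (nat_lit 0) (XT.lf (nat_lit 0) (nat_lit 27755177973) (nat_lit 76) (nat_lit 63045919884) (nat_lit 152) (nat_lit 182937117679) (nat_lit 19) (nat_lit 5) (nat_lit 20) (nat_lit 5) (nat_lit 21) (nat_lit 4) (nat_lit 452) (nat_lit 379) (nat_lit 189)) (XT.lf (nat_lit 0) (nat_lit 141859718293) (nat_lit 76) (nat_lit 4602477533) (nat_lit 152) (nat_lit 138022752409) (nat_lit 19)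 (nat_lit 5) (nat_lit 20) (nat_lit 5) (nat_lit 21) (nat_lit 4) (nat_lit 453) (nat_lit 379) (nat_lit 188)))) (XT.nd (nat_lit 78) (nat_lit 152) (nat_lit 0) (XT.lf (nat_lit 0) (nat_lit 205792058266) (nat_lit 152) (nat_lit 34986767843) (nat_lit 0) (nat_lit 54945906043) (nat_lit 19) (nat_lit 5) (nat_lit 21) (nat_lit 4) (nat_lit 19) (nat_lit 4) (nat_lit 454) (nat_lit 379) (nat_lit 187)) (XT.nd (nat_lit 78) (nat_lit 76) (nat_lit 0) (XT.lf (nat_lit 0) (nat_lit 80534827920) (nat_lit 76) (nat_lit 188885913509) (nat_lit 76) (nat_lit 38039147514) (nat_lit 18) (nat_lit 4) (nat_lit 19) (nat_lit 5) (nat_lit 19) (nat_lit 4) (nat_lit 455) (nat_lit 379) (nat_lit 186)) (XT.lf (nat_lit 0) (nat_lit 16524317648) (nat_lit 152) (nat_lit 116972499360) (nat_lit 76) (nat_lit 186242059078) (nat_lit 17) (nat_lit 5) (nat_lit 19) (nat_lit 5) (nat_lit 18) (nat_lit 4) (nat_lit 456) (nat_lit 379) (nat_lit 185))))) (XT.nd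 (nat_lit 234) (nat_lit 152) (nat_lit 0) (XT.nd (nat_lit 78) (nat_lit 76) (nat_lit 0) (XT.lf (nat_lit 0) (nat_lit 72537118622) (nat_lit 152) (nat_lit 2146814071) (nat_lit 76) (nat_lit 257916723946) (nat_lit 17) (nat_lit 5) (nat_lit 19) (nat_lit 5) (nat_lit 18) (nat_lit 4) (nat_lit 457) (nat_lit 379) (nat_lit 184)) (XT.nd (nat_lit 78) (nat_lit 0) (nat_lit 0) (XT.lf (nat_lit 0) (nat_lit 122334763455) (nat_lit 76) (nat_lit 10925334545) (nat_lit 152) (nat_lit 212749951350) (nat_lit 16) (nat_lit 5) (nat_lit 17) (nat_lit 5) (nat_lit 18) (nat_lit 4) (nat_lit 458) (nat_lit 379) (nat_lit 183)) (XT.lf (nat_lit 0) (nat_lit 197930379046) (nat_lit 152) (nat_lit 107849255443) (nat_lit 0) (nat_lit 54264719619) (nat_lit 16) (nat_lit 5) (nat_lit 18) (nat_lit 4) (nat_lit 16) (nat_lit 4) (nat_lit 459) (nat_lit 379) (nat_lit 182)))) (XT.nd (nat_lit 78) (nat_lit 76) (nat_lit 0) (XT.lf (nat_lit 0) (nat_lit 14037429372)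 (nat_lit 76) (nat_lit 252194585095) (nat_lit 76) (nat_lit 108528467663) (nat_lit 15) (nat_lit 4) (nat_lit 16) (nat_lit 5) (nat_lit 16) (nat_lit 4) (nat_lit 460) (nat_lit 379) (nat_lit 181)) (XT.nd (nat_lit 78) (nat_lit 76) (nat_lit 0) (XT.lf (nat_lit 0) (nat_lit 145761915695) (nat_lit 76) (nat_lit 194012875769) (nat_lit 76) (nat_lit 50346322141) (nat_lit 15) (nat_lit 4) (nat_lit 16) (nat_lit 5) (nat_lit 16) (nat_lit 4) (nat_lit 461) (nat_lit 379) (nat_lit 180)) (XT.lf (nat_lit 0) (nat_lit 10400619638) (nat_lit 152) (nat_lit 122345698793) (nat_lit 76) (nat_lit 273495090643) (nat_lit 14) (nat_lit 5) (nat_lit 16) (nat_lit 5) (nat_lit 15) (nat_lit 4) (nat_lit 462) (nat_lit 379) (nat_lit 179)))))) (XT.nd (nat_lit 468) (nat_lit 152) (nat_lit 0) (XT.nd (nat_lit 234) (nat_lit 76) (nat_lit 0) (XT.nd (nat_lit 78) (nat_lit 0) (nat_lit 0) (XT.lf (nat_lit 0) (nat_lit 5105790546) (nat_lit 76) (nat_lit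 67466480303) (nat_lit 152) (nat_lit 350550214581) (nat_lit 13) (nat_lit 5) (nat_lit 14) (nat_lit 5) (nat_lit 15) (nat_lit 4) (nat_lit 463) (nat_lit 379) (nat_lit 178)) (XT.nd (nat_lit 78) (nat_lit 0) (nat_lit 0) (XT.lf (nat_lit 0) (nat_lit 139974890065) (nat_lit 152) (nat_lit 297618136710) (nat_lit 0) (nat_lit 3148469591) (nat_lit 13) (nat_lit 5) (nat_lit 15) (nat_lit 4) (nat_lit 13) (nat_lit 4) (nat_lit 464) (nat_lit 379) (nat_lit 177)) (XT.lf (nat_lit 0) (nat_lit 211853280917) (nat_lit 152) (nat_lit 172306376256) (nat_lit 0) (nat_lit 75026518672) (nat_lit 13) (nat_lit 5) (nat_lit 15) (nat_lit 4) (nat_lit 13) (nat_lit 4) (nat_lit 465) (nat_lit 379) (nat_lit 176)))) (XT.nd (nat_lit 78) (nat_lit 76) (nat_lit 0) (XT.lf (nat_lit 0) (nat_lit 287325241600) (nat_lit 152) (nat_lit 40729711358) (nat_lit 0) (nat_lit 150498153859) (nat_lit 13) (nat_lit 5) (nat_lit 15) (nat_lit 4) (nat_lit 13) (nat_lit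 4) (nat_lit 466) (nat_lit 379) (nat_lit 175)) (XT.nd (nat_lit 78) (nat_lit 0) (nat_lit 0) (XT.lf (nat_lit 0) (nat_lit 100646450732) (nat_lit 76) (nat_lit 267495389683) (nat_lit 76) (nat_lit 130667991946) (nat_lit 12) (nat_lit 4) (nat_lit 13) (nat_lit 5) (nat_lit 13) (nat_lit 4) (nat_lit 467) (nat_lit 379) (nat_lit 174)) (XT.lf (nat_lit 0) (nat_lit 250504824009) (nat_lit 76) (nat_lit 203183895332) (nat_lit 76) (nat_lit 66356202361) (nat_lit 12) (nat_lit 4) (nat_lit 13) (nat_lit 5) (nat_lit 13) (nat_lit 4) (nat_lit 468) (nat_lit 379) (nat_lit 173))))) (XT.nd (nat_lit 234) (nat_lit 0) (nat_lit 0) (XT.nd (nat_lit 78) (nat_lit 76) (nat_lit 0) (XT.lf (nat_lit 0) (nat_lit 1133374981) (nat_lit 152) (nat_lit 134504555434) (nat_lit 76) (nat_lit 406702936689) (nat_lit 11) (nat_lit 5) (nat_lit 13) (nat_lit 5) (nat_lit 12) (nat_lit 4) (nat_lit 469) (nat_lit 379) (nat_lit 172)) (XT.nd (nat_lit 78) (nat_lit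 0) (nat_lit 0) (XT.lf (nat_lit 0) (nat_lit 6399180094) (nat_lit 76) (nat_lit 63467855041) (nat_lit 152) (nat_lit 495825203965) (nat_lit 10) (nat_lit 5) (nat_lit 11) (nat_lit 5) (nat_lit 12) (nat_lit 4) (nat_lit 470) (nat_lit 379) (nat_lit 171)) (XT.lf (nat_lit 0) (nat_lit 144544524715) (nat_lit 152) (nat_lit 431309627221) (nat_lit 0) (nat_lit 14231670460) (nat_lit 10) (nat_lit 5) (nat_lit 12) (nat_lit 4) (nat_lit 10) (nat_lit 4) (nat_lit 471) (nat_lit 379) (nat_lit 170)))) (XT.nd (nat_lit 45942) (nat_lit 0) (nat_lit 7600) (XT.nd (nat_lit 78) (nat_lit 0) (nat_lit 0) (XT.lf (nat_lit 0) (nat_lit 223996058907) (nat_lit 152) (nat_lit 297968044138) (nat_lit 0) (nat_lit 93682973328) (nat_lit 10) (nat_lit 5) (nat_lit 12) (nat_lit 4) (nat_lit 10) (nat_lit 4) (nat_lit 472) (nat_lit 379) (nat_lit 169)) (XT.lf (nat_lit 0) (nat_lit 307419896944) (nat_lit 152) (nat_lit 157959918711) (nat_lit 0) (nat_lit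 177106591056) (nat_lit 10) (nat_lit 5) (nat_lit 12) (nat_lit 4) (nat_lit 10) (nat_lit 4) (nat_lit 473) (nat_lit 379) (nat_lit 168))) (XT.nd (nat_lit 78) (nat_lit 0) (nat_lit 0) (XT.lf (nat_lit 0) (nat_lit 2705861015) (nat_lit 836) (nat_lit 5822854486) (nat_lit 836) (nat_lit 5822854486) (nat_lit 110) (nat_lit 3) (nat_lit 121) (nat_lit 3) (nat_lit 121) (nat_lit 5) (nat_lit 380) (nat_lit 380) (nat_lit 260)) (XT.lf (nat_lit 76) (nat_lit 2256763174) (nat_lit 0) (nat_lit 3403040448) (nat_lit 836) (nat_lit 23755220663) (nat_lit 111) (nat_lit 5) (nat_lit 110) (nat_lit 3) (nat_lit 121) (nat_lit 5) (nat_lit 381) (nat_lit 380) (nat_lit 259))))))) (XT.nd (nat_lit 1014) (nat_lit 2204) (nat_lit 0) (XT.nd (nat_lit 468) (nat_lit 836) (nat_lit 0) (XT.nd (nat_lit 234) (nat_lit 0) (nat_lit 76) (XT.nd (nat_lit 78) (nat_lit 0) (nat_lit 0) (XT.lf (nat_lit 0) (nat_lit 6286489287) (nat_lit 760) (nat_lit 13070898799)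 (nat_lit 836) (nat_lit 10786808227) (nat_lit 111) (nat_lit 5) (nat_lit 121) (nat_lit 5) (nat_lit 122) (nat_lit 5) (nat_lit 382) (nat_lit 380) (nat_lit 258)) (XT.nd (nat_lit 78) (nat_lit 0) (nat_lit 76) (XT.lf (nat_lit 76) (nat_lit 1717161843) (nat_lit 0) (nat_lit 5305210936) (nat_lit 836) (nat_lit 23883564328) (nat_lit 112) (nat_lit 5) (nat_lit 111) (nat_lit 5) (nat_lit 122) (nat_lit 5) (nat_lit 383) (nat_lit 380) (nat_lit 257)) (XT.lf (nat_lit 0) (nat_lit 8163051128) (nat_lit 760) (nat_lit 14150496951) (nat_lit 836) (nat_lit 9373820005) (nat_lit 112) (nat_lit 5) (nat_lit 122) (nat_lit 5) (nat_lit 123) (nat_lit 5) (nat_lit 384) (nat_lit 380) (nat_lit 256)))) (XT.nd (nat_lit 78) (nat_lit 0) (nat_lit 76) (XT.lf (nat_lit 76) (nat_lit 1601059474) (nat_lit 0) (nat_lit 7867362525) (nat_lit 836) (nat_lit 23034068709) (nat_lit 113) (nat_lit 5) (nat_lit 112) (nat_lit 5) (nat_lit 123) (nat_lit 5)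 (nat_lit 385) (nat_lit 380) (nat_lit 255)) (XT.nd (nat_lit 78) (nat_lit 0) (nat_lit 0) (XT.lf (nat_lit 0) (nat_lit 11192498183) (nat_lit 760) (nat_lit 14835932431) (nat_lit 836) (nat_lit 7312269897) (nat_lit 113) (nat_lit 5) (nat_lit 123) (nat_lit 5) (nat_lit 124) (nat_lit 5) (nat_lit 386) (nat_lit 380) (nat_lit 254)) (XT.lf (nat_lit 76) (nat_lit 1963776001) (nat_lit 0) (nat_lit 11194703473) (nat_lit 836) (nat_lit 21054559009) (nat_lit 114) (nat_lit 5) (nat_lit 113) (nat_lit 5) (nat_lit 124) (nat_lit 5) (nat_lit 387) (nat_lit 380) (nat_lit 253))))) (XT.nd (nat_lit 234) (nat_lit 1064) (nat_lit 0) (XT.nd (nat_lit 78) (nat_lit 0) (nat_lit 0) (XT.lf (nat_lit 0) (nat_lit 15542751619) (nat_lit 760) (nat_lit 15073508602) (nat_lit 836) (nat_lit 4496736162) (nat_lit 114) (nat_lit 5) (nat_lit 124) (nat_lit 5) (nat_lit 125) (nat_lit 5) (nat_lit 388) (nat_lit 380) (nat_lit 252)) (XT.nd (nat_lit 78)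 (nat_lit 0) (nat_lit 76) (XT.lf (nat_lit 76) (nat_lit 2866296649) (nat_lit 0) (nat_lit 15404615200) (nat_lit 836) (nat_lit 17775809095) (nat_lit 115) (nat_lit 5) (nat_lit 114) (nat_lit 5) (nat_lit 125) (nat_lit 5) (nat_lit 389) (nat_lit 380) (nat_lit 251)) (XT.lf (nat_lit 0) (nat_lit 21400342580) (nat_lit 760) (nat_lit 14804097391) (nat_lit 76) (nat_lit 809451008) (nat_lit 115) (nat_lit 5) (nat_lit 125) (nat_lit 5) (nat_lit 116) (nat_lit 5) (nat_lit 390) (nat_lit 380) (nat_lit 250)))) (XT.nd (nat_lit 156) (nat_lit 380) (nat_lit 0) (XT.nd (nat_lit 78) (nat_lit 0) (nat_lit 0) (XT.lf (nat_lit 0) (nat_lit 4375612414) (nat_lit 760) (nat_lit 20628185959) (nat_lit 836) (nat_lit 13009745729) (nat_lit 105) (nat_lit 5) (nat_lit 115) (nat_lit 5) (nat_lit 116) (nat_lit 5) (nat_lit 391) (nat_lit 380) (nat_lit 249)) (XT.lf (nat_lit 0) (nat_lit 25025374365) (nat_lit 760) (nat_lit 4009582159) (nat_lit 836)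 (nat_lit 10015849030) (nat_lit 105) (nat_lit 5) (nat_lit 115) (nat_lit 5) (nat_lit 116) (nat_lit 5) (nat_lit 392) (nat_lit 380) (nat_lit 248))) (XT.nd (nat_lit 78) (nat_lit 0) (nat_lit 0) (XT.lf (nat_lit 0) (nat_lit 6565063913) (nat_lit 380) (nat_lit 27011913976) (nat_lit 456) (nat_lit 6547488975) (nat_lit 100) (nat_lit 5) (nat_lit 105) (nat_lit 5) (nat_lit 106) (nat_lit 5) (nat_lit 393) (nat_lit 380) (nat_lit 247)) (XT.lf (nat_lit 0) (nat_lit 28601239775) (nat_lit 380) (nat_lit 10044129052) (nat_lit 456) (nat_lit 2591480939) (nat_lit 100) (nat_lit 5) (nat_lit 105) (nat_lit 5) (nat_lit 106) (nat_lit 5) (nat_lit 394) (nat_lit 380) (nat_lit 246)))))) (XT.nd (nat_lit 468) (nat_lit 1140) (nat_lit 0) (XT.nd (nat_lit 234) (nat_lit 304) (nat_lit 0) (XT.nd (nat_lit 78) (nat_lit 380) (nat_lit 0) (XT.lf (nat_lit 0) (nat_lit 1783805224) (nat_lit 380) (nat_lit 32905587625) (nat_lit 76) (nat_lit 7700667020)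 (nat_lit 95) (nat_lit 5) (nat_lit 100) (nat_lit 5) (nat_lit 96) (nat_lit 5) (nat_lit 395) (nat_lit 380) (nat_lit 245)) (XT.nd (nat_lit 78) (nat_lit 380) (nat_lit 0) (XT.lf (nat_lit 0) (nat_lit 6670174388) (nat_lit 380) (nat_lit 10654564420) (nat_lit 76) (nat_lit 26255098719) (nat_lit 95) (nat_lit 5) (nat_lit 100) (nat_lit 5) (nat_lit 96) (nat_lit 5) (nat_lit 396) (nat_lit 380) (nat_lit 244)) (XT.lf (nat_lit 0) (nat_lit 12020721097) (nat_lit 456) (nat_lit 31710173640) (nat_lit 76) (nat_lit 1087217982) (nat_lit 90) (nat_lit 5) (nat_lit 96) (nat_lit 5) (nat_lit 91) (nat_lit 5) (nat_lit 397) (nat_lit 380) (nat_lit 243)))) (XT.nd (nat_lit 78) (nat_lit 304) (nat_lit 0) (XT.lf (nat_lit 0) (nat_lit 18103668282) (nat_lit 456) (nat_lit 7970643306) (nat_lit 76) (nat_lit 20020747956) (nat_lit 90) (nat_lit 5) (nat_lit 96) (nat_lit 5) (nat_lit 91) (nat_lit 5) (nat_lit 398) (nat_lit 380) (nat_lit 242))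 (XT.nd (nat_lit 78) (nat_lit 0) (nat_lit 0) (XT.lf (nat_lit 0) (nat_lit 17513683485) (nat_lit 304) (nat_lit 7248100629) (nat_lit 380) (nat_lit 22660519987) (nat_lit 86) (nat_lit 5) (nat_lit 90) (nat_lit 5) (nat_lit 91) (nat_lit 5) (nat_lit 399) (nat_lit 380) (nat_lit 241)) (XT.lf (nat_lit 0) (nat_lit 32083120053) (nat_lit 380) (nat_lit 4460684895) (nat_lit 76) (nat_lit 12255591611) (nat_lit 86) (nat_lit 5) (nat_lit 91) (nat_lit 5) (nat_lit 87) (nat_lit 5) (nat_lit 400) (nat_lit 380) (nat_lit 240))))) (XT.nd (nat_lit 234) (nat_lit 532) (nat_lit 0) (XT.nd (nat_lit 78) (nat_lit 304) (nat_lit 0) (XT.lf (nat_lit 0) (nat_lit 22870150548) (nat_lit 304) (nat_lit 17374024009) (nat_lit 380) (nat_lit 9977487815) (nat_lit 82) (nat_lit 5) (nat_lit 86) (nat_lit 5) (nat_lit 87) (nat_lit 5) (nat_lit 401) (nat_lit 380) (nat_lit 239)) (XT.nd (nat_lit 78) (nat_lit 304) (nat_lit 0) (XT.lf (nat_lit 0) (nat_lit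 48930887454) (nat_lit 380) (nat_lit 35834759) (nat_lit 76) (nat_lit 2742440238) (nat_lit 82) (nat_lit 5) (nat_lit 87) (nat_lit 5) (nat_lit 83) (nat_lit 5) (nat_lit 402) (nat_lit 380) (nat_lit 238)) (XT.lf (nat_lit 0) (nat_lit 5380148270) (nat_lit 304) (nat_lit 24024945386) (nat_lit 76) (nat_lit 23824599436) (nat_lit 78) (nat_lit 5) (nat_lit 82) (nat_lit 5) (nat_lit 79) (nat_lit 5) (nat_lit 403) (nat_lit 380) (nat_lit 237)))) (XT.nd (nat_lit 156) (nat_lit 228) (nat_lit 0) (XT.nd (nat_lit 78) (nat_lit 0) (nat_lit 0) (XT.lf (nat_lit 0) (nat_lit 5200661095) (nat_lit 304) (nat_lit 8732227472) (nat_lit 380) (nat_lit 40887097305) (nat_lit 74) (nat_lit 5) (nat_lit 78) (nat_lit 5) (nat_lit 79) (nat_lit 5) (nat_lit 404) (nat_lit 380) (nat_lit 236)) (XT.lf (nat_lit 0) (nat_lit 23527373523) (nat_lit 380) (nat_lit 19959714605) (nat_lit 76) (nat_lit 12972000816) (nat_lit 74) (nat_lit 5) (nat_lit 79) (nat_lit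 5) (nat_lit 75) (nat_lit 5) (nat_lit 405) (nat_lit 380) (nat_lit 235))) (XT.nd (nat_lit 78) (nat_lit 0) (nat_lit 0) (XT.lf (nat_lit 0) (nat_lit 11402121222) (nat_lit 228) (nat_lit 22518725744) (nat_lit 304) (nat_lit 24243337979) (nat_lit 71) (nat_lit 5) (nat_lit 74) (nat_lit 5) (nat_lit 75) (nat_lit 5) (nat_lit 406) (nat_lit 380) (nat_lit 234)) (XT.lf (nat_lit 0) (nat_lit 45022503403) (nat_lit 228) (nat_lit 147663713) (nat_lit 304) (nat_lit 14767560915) (nat_lit 71) (nat_lit 5) (nat_lit 74) (nat_lit 5) (nat_lit 75) (nat_lit 5) (nat_lit 407) (nat_lit 380) (nat_lit 233))))))))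
noncomputable def xc189 : XT := (XT.nd (nat_lit 1950) (nat_lit 1444) (nat_lit 0) (XT.nd (nat_lit 936) (nat_lit 1064) (nat_lit 0) (XT.nd (nat_lit 468) (nat_lit 684) (nat_lit 0) (XT.nd (nat_lit 234) (nat_lit 380) (nat_lit 0) (XT.nd (nat_lit 78) (nat_lit 304) (nat_lit 0) (XT.lf (nat_lit 0) (nat_lit 18757415473) (nat_lit 228) (nat_lit 38880051194) (nat_lit 304) (nat_lit 4129706831) (nat_lit 68) (nat_lit 5) (nat_lit 71) (nat_lit 5) (nat_lit 72) (nat_lit 5) (nat_lit 408) (nat_lit 380) (nat_lit 232)) (XT.nd (nat_lit 78) (nat_lit 228) (nat_lit 0) (XT.lf (nat_lit 0) (nat_lit 7072114762) (nat_lit 304) (nat_lit 9162908644) (nat_lit 76) (nat_lit 47434702901) (nat_lit 67) (nat_lit 5) (nat_lit 71) (nat_lit 5) (nat_lit 68) (nat_lit 5) (nat_lit 409) (nat_lit 380) (nat_lit 231)) (XT.lf (nat_lit 0) (nat_lit 19243672128) (nat_lit 304) (nat_lit 38592679678) (nat_lit 76) (nat_lit 7800249223) (nat_lit 64) (nat_lit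 5) (nat_lit 68) (nat_lit 5) (nat_lit 65) (nat_lit 5) (nat_lit 410) (nat_lit 380) (nat_lit 230)))) (XT.nd (nat_lit 78) (nat_lit 380) (nat_lit 0) (XT.lf (nat_lit 0) (nat_lit 32446035663) (nat_lit 304) (nat_lit 2585940570) (nat_lit 76) (nat_lit 32648732574) (nat_lit 64) (nat_lit 5) (nat_lit 68) (nat_lit 5) (nat_lit 65) (nat_lit 5) (nat_lit 411) (nat_lit 380) (nat_lit 229)) (XT.nd (nat_lit 78) (nat_lit 152) (nat_lit 0) (XT.lf (nat_lit 0) (nat_lit 36383347437) (nat_lit 228) (nat_lit 10491652315) (nat_lit 304) (nat_lit 22923698804) (nat_lit 61) (nat_lit 5) (nat_lit 64) (nat_lit 5) (nat_lit 65) (nat_lit 5) (nat_lit 412) (nat_lit 380) (nat_lit 228)) (XT.lf (nat_lit 0) (nat_lit 5298540740) (nat_lit 152) (nat_lit 57091069262) (nat_lit 228) (nat_lit 9614768560) (nat_lit 59) (nat_lit 5) (nat_lit 61) (nat_lit 5) (nat_lit 62) (nat_lit 5) (nat_lit 413) (nat_lit 380) (nat_lit 227))))) (XT.nd (nat_lit 234)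 (nat_lit 380) (nat_lit 0) (XT.nd (nat_lit 78) (nat_lit 228) (nat_lit 0) (XT.lf (nat_lit 0) (nat_lit 4965727024) (nat_lit 228) (nat_lit 27435476600) (nat_lit 76) (nat_lit 41878453588) (nat_lit 58) (nat_lit 5) (nat_lit 61) (nat_lit 5) (nat_lit 59) (nat_lit 5) (nat_lit 414) (nat_lit 380) (nat_lit 226)) (XT.nd (nat_lit 78) (nat_lit 0) (nat_lit 0) (XT.lf (nat_lit 0) (nat_lit 14089522046) (nat_lit 228) (nat_lit 6081132464) (nat_lit 304) (nat_lit 56479238584) (nat_lit 55) (nat_lit 5) (nat_lit 58) (nat_lit 5) (nat_lit 59) (nat_lit 5) (nat_lit 415) (nat_lit 380) (nat_lit 225)) (XT.lf (nat_lit 0) (nat_lit 36943184055) (nat_lit 304) (nat_lit 20818528558) (nat_lit 76) (nat_lit 21336560922) (nat_lit 55) (nat_lit 5) (nat_lit 59) (nat_lit 5) (nat_lit 56) (nat_lit 5) (nat_lit 416) (nat_lit 380) (nat_lit 224)))) (XT.nd (nat_lit 78) (nat_lit 228) (nat_lit 0) (XT.lf (nat_lit 0) (nat_lit 23666045299) (nat_lit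 152) (nat_lit 31356119352) (nat_lit 228) (nat_lit 26623517641) (nat_lit 53) (nat_lit 5) (nat_lit 55) (nat_lit 5) (nat_lit 56) (nat_lit 5) (nat_lit 417) (nat_lit 380) (nat_lit 223)) (XT.nd (nat_lit 78) (nat_lit 228) (nat_lit 0) (XT.lf (nat_lit 0) (nat_lit 71095523221) (nat_lit 152) (nat_lit 3260815495) (nat_lit 228) (nat_lit 9946561046) (nat_lit 53) (nat_lit 5) (nat_lit 55) (nat_lit 5) (nat_lit 56) (nat_lit 5) (nat_lit 418) (nat_lit 380) (nat_lit 222)) (XT.lf (nat_lit 0) (nat_lit 8284633705) (nat_lit 228) (nat_lit 52683390866) (nat_lit 76) (nat_lit 26070924368) (nat_lit 50) (nat_lit 5) (nat_lit 53) (nat_lit 5) (nat_lit 51) (nat_lit 5) (nat_lit 419) (nat_lit 380) (nat_lit 221)))))) (XT.nd (nat_lit 468) (nat_lit 532) (nat_lit 0) (XT.nd (nat_lit 234) (nat_lit 228) (nat_lit 0) (XT.nd (nat_lit 78) (nat_lit 304) (nat_lit 0) (XT.lf (nat_lit 0) (nat_lit 27372647348) (nat_lit 228) (nat_lit 5367686940)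 (nat_lit 76) (nat_lit 57149337355) (nat_lit 50) (nat_lit 5) (nat_lit 53) (nat_lit 5) (nat_lit 51) (nat_lit 5) (nat_lit 420) (nat_lit 380) (nat_lit 220)) (XT.nd (nat_lit 78) (nat_lit 152) (nat_lit 0) (XT.lf (nat_lit 0) (nat_lit 45776991214) (nat_lit 152) (nat_lit 2351570676) (nat_lit 228) (nat_lit 44718693994) (nat_lit 48) (nat_lit 5) (nat_lit 50) (nat_lit 5) (nat_lit 51) (nat_lit 5) (nat_lit 421) (nat_lit 380) (nat_lit 219)) (XT.lf (nat_lit 0) (nat_lit 3359685348) (nat_lit 152) (nat_lit 67167706118) (nat_lit 228) (nat_lit 25395072294) (nat_lit 46) (nat_lit 5) (nat_lit 48) (nat_lit 5) (nat_lit 49) (nat_lit 5) (nat_lit 422) (nat_lit 380) (nat_lit 218)))) (XT.nd (nat_lit 78) (nat_lit 228) (nat_lit 0) (XT.lf (nat_lit 0) (nat_lit 57903536449) (nat_lit 152) (nat_lit 36976547452) (nat_lit 228) (nat_lit 4229652431) (nat_lit 46) (nat_lit 5) (nat_lit 48) (nat_lit 5) (nat_lit 49) (nat_lit 5) (nat_lit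 423) (nat_lit 380) (nat_lit 217)) (XT.nd (nat_lit 78) (nat_lit 0) (nat_lit 0) (XT.lf (nat_lit 0) (nat_lit 12846550281) (nat_lit 152) (nat_lit 4771009243) (nat_lit 228) (nat_lit 84814794343) (nat_lit 43) (nat_lit 5) (nat_lit 45) (nat_lit 5) (nat_lit 46) (nat_lit 5) (nat_lit 424) (nat_lit 380) (nat_lit 216)) (XT.lf (nat_lit 0) (nat_lit 41576630819) (nat_lit 228) (nat_lit 35389838219) (nat_lit 76) (nat_lit 28893084493) (nat_lit 43) (nat_lit 5) (nat_lit 46) (nat_lit 5) (nat_lit 44) (nat_lit 5) (nat_lit 425) (nat_lit 380) (nat_lit 215))))) (XT.nd (nat_lit 234) (nat_lit 228) (nat_lit 0) (XT.nd (nat_lit 78) (nat_lit 152) (nat_lit 0) (XT.lf (nat_lit 0) (nat_lit 22144667462) (nat_lit 152) (nat_lit 45011879833) (nat_lit 228) (nat_lit 42280421607) (nat_lit 41) (nat_lit 5) (nat_lit 43) (nat_lit 5) (nat_lit 44) (nat_lit 5) (nat_lit 426) (nat_lit 380) (nat_lit 214)) (XT.nd (nat_lit 78) (nat_lit 152) (nat_lit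 0) (XT.lf (nat_lit 0) (nat_lit 83782770587) (nat_lit 152) (nat_lit 10830993805) (nat_lit 228) (nat_lit 18549575702) (nat_lit 41) (nat_lit 5) (nat_lit 43) (nat_lit 5) (nat_lit 44) (nat_lit 5) (nat_lit 427) (nat_lit 380) (nat_lit 213)) (XT.lf (nat_lit 0) (nat_lit 7069389602) (nat_lit 152) (nat_lit 85085624789) (nat_lit 76) (nat_lit 24870775404) (nat_lit 39) (nat_lit 5) (nat_lit 41) (nat_lit 5) (nat_lit 40) (nat_lit 5) (nat_lit 428) (nat_lit 380) (nat_lit 212)))) (XT.nd (nat_lit 156) (nat_lit 76) (nat_lit 0) (XT.nd (nat_lit 78) (nat_lit 152) (nat_lit 0) (XT.lf (nat_lit 0) (nat_lit 34028208030) (nat_lit 152) (nat_lit 24201067711) (nat_lit 76) (nat_lit 62802767311) (nat_lit 39) (nat_lit 5) (nat_lit 41) (nat_lit 5) (nat_lit 40) (nat_lit 5) (nat_lit 429) (nat_lit 380) (nat_lit 211)) (XT.lf (nat_lit 0) (nat_lit 41039580987) (nat_lit 152) (nat_lit 21935180547) (nat_lit 228) (nat_lit 62231857969)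 (nat_lit 37) (nat_lit 5) (nat_lit 39) (nat_lit 5) (nat_lit 40) (nat_lit 5) (nat_lit 430) (nat_lit 380) (nat_lit 210))) (XT.nd (nat_lit 78) (nat_lit 76) (nat_lit 0) (XT.lf (nat_lit 0) (nat_lit 94036793989) (nat_lit 228) (nat_lit 19447865945) (nat_lit 76) (nat_lit 16071857507) (nat_lit 37) (nat_lit 5) (nat_lit 40) (nat_lit 5) (nat_lit 38) (nat_lit 4) (nat_lit 431) (nat_lit 380) (nat_lit 209)) (XT.lf (nat_lit 0) (nat_lit 49738010455) (nat_lit 76) (nat_lit 78049165223) (nat_lit 152) (nat_lit 6279972434) (nat_lit 36) (nat_lit 5) (nat_lit 37) (nat_lit 5) (nat_lit 38) (nat_lit 4) (nat_lit 432) (nat_lit 380) (nat_lit 208))))))) (XT.nd (nat_lit 1014) (nat_lit 608) (nat_lit 0) (XT.nd (nat_lit 468) (nat_lit 304) (nat_lit 0) (XT.nd (nat_lit 234) (nat_lit 304) (nat_lit 0) (XT.nd (nat_lit 78) (nat_lit 152) (nat_lit 0) (XT.lf (nat_lit 0) (nat_lit 23973983855) (nat_lit 152) (nat_lit 16116759923) (nat_lit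 76) (nat_lit 98676808788) (nat_lit 35) (nat_lit 5) (nat_lit 37) (nat_lit 5) (nat_lit 36) (nat_lit 5) (nat_lit 433) (nat_lit 380) (nat_lit 207)) (XT.nd (nat_lit 78) (nat_lit 0) (nat_lit 0) (XT.lf (nat_lit 0) (nat_lit 56434983922) (nat_lit 228) (nat_lit 86432257762) (nat_lit 76) (nat_lit 785318516) (nat_lit 33) (nat_lit 5) (nat_lit 36) (nat_lit 5) (nat_lit 34) (nat_lit 4) (nat_lit 434) (nat_lit 380) (nat_lit 206)) (XT.lf (nat_lit 0) (nat_lit 91452836627) (nat_lit 228) (nat_lit 14647639193) (nat_lit 76) (nat_lit 42634652445) (nat_lit 33) (nat_lit 5) (nat_lit 36) (nat_lit 5) (nat_lit 34) (nat_lit 4) (nat_lit 435) (nat_lit 380) (nat_lit 205)))) (XT.nd (nat_lit 78) (nat_lit 228) (nat_lit 0) (XT.lf (nat_lit 0) (nat_lit 62732593797) (nat_lit 76) (nat_lit 66467617563) (nat_lit 152) (nat_lit 24822682072) (nat_lit 32) (nat_lit 5) (nat_lit 33) (nat_lit 5) (nat_lit 34) (nat_lit 4) (nat_lit 436) (nat_lit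 380) (nat_lit 204)) (XT.nd (nat_lit 78) (nat_lit 152) (nat_lit 0) (XT.lf (nat_lit 0) (nat_lit 9214865238) (nat_lit 152) (nat_lit 15222366430) (nat_lit 76) (nat_lit 135118020080) (nat_lit 31) (nat_lit 5) (nat_lit 33) (nat_lit 5) (nat_lit 32) (nat_lit 5) (nat_lit 437) (nat_lit 380) (nat_lit 203)) (XT.lf (nat_lit 0) (nat_lit 45486599419) (nat_lit 228) (nat_lit 99258513930) (nat_lit 76) (nat_lit 20530442599) (nat_lit 29) (nat_lit 5) (nat_lit 32) (nat_lit 5) (nat_lit 30) (nat_lit 4) (nat_lit 438) (nat_lit 380) (nat_lit 202))))) (XT.nd (nat_lit 234) (nat_lit 228) (nat_lit 0) (XT.nd (nat_lit 78) (nat_lit 76) (nat_lit 0) (XT.lf (nat_lit 0) (nat_lit 84233799072) (nat_lit 228) (nat_lit 19828305610) (nat_lit 76) (nat_lit 67186676877) (nat_lit 29) (nat_lit 5) (nat_lit 32) (nat_lit 5) (nat_lit 30) (nat_lit 4) (nat_lit 439) (nat_lit 380) (nat_lit 201)) (XT.nd (nat_lit 78) (nat_lit 0) (nat_lit 0) (XT.lf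 (nat_lit 0) (nat_lit 65674069013) (nat_lit 76) (nat_lit 60268926029) (nat_lit 152) (nat_lit 51526441726) (nat_lit 28) (nat_lit 5) (nat_lit 29) (nat_lit 5) (nat_lit 30) (nat_lit 4) (nat_lit 440) (nat_lit 380) (nat_lit 200)) (XT.lf (nat_lit 0) (nat_lit 156138653266) (nat_lit 76) (nat_lit 13934093497) (nat_lit 152) (nat_lit 13911623304) (nat_lit 28) (nat_lit 5) (nat_lit 29) (nat_lit 5) (nat_lit 30) (nat_lit 4) (nat_lit 441) (nat_lit 380) (nat_lit 199)))) (XT.nd (nat_lit 156) (nat_lit 76) (nat_lit 0) (XT.nd (nat_lit 78) (nat_lit 0) (nat_lit 0) (XT.lf (nat_lit 0) (nat_lit 26294962000) (nat_lit 152) (nat_lit 129439915884) (nat_lit 76) (nat_lit 34993706829) (nat_lit 26) (nat_lit 5) (nat_lit 28) (nat_lit 5) (nat_lit 27) (nat_lit 4) (nat_lit 442) (nat_lit 380) (nat_lit 198)) (XT.lf (nat_lit 0) (nat_lit 68751414756) (nat_lit 152) (nat_lit 42405402961) (nat_lit 76) (nat_lit 86606436519) (nat_lit 26)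 (nat_lit 5) (nat_lit 28) (nat_lit 5) (nat_lit 27) (nat_lit 4) (nat_lit 443) (nat_lit 380) (nat_lit 197))) (XT.nd (nat_lit 78) (nat_lit 0) (nat_lit 0) (XT.lf (nat_lit 0) (nat_lit 50599115628) (nat_lit 76) (nat_lit 63520921540) (nat_lit 152) (nat_lit 90990152818) (nat_lit 25) (nat_lit 5) (nat_lit 26) (nat_lit 5) (nat_lit 27) (nat_lit 4) (nat_lit 444) (nat_lit 380) (nat_lit 196)) (XT.lf (nat_lit 0) (nat_lit 149724891783) (nat_lit 76) (nat_lit 12749720215) (nat_lit 152) (nat_lit 50313984561) (nat_lit 25) (nat_lit 5) (nat_lit 26) (nat_lit 5) (nat_lit 27) (nat_lit 4) (nat_lit 445) (nat_lit 380) (nat_lit 195)))))) (XT.nd (nat_lit 468) (nat_lit 304) (nat_lit 0) (XT.nd (nat_lit 234) (nat_lit 76) (nat_lit 0) (XT.nd (nat_lit 78) (nat_lit 152) (nat_lit 0) (XT.lf (nat_lit 0) (nat_lit 33390322510) (nat_lit 76) (nat_lit 181010552755) (nat_lit 76) (nat_lit 6392350306) (nat_lit 24) (nat_lit 4) (nat_lit 25)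 (nat_lit 5) (nat_lit 25) (nat_lit 4) (nat_lit 446) (nat_lit 380) (nat_lit 194)) (XT.nd (nat_lit 78) (nat_lit 76) (nat_lit 0) (XT.lf (nat_lit 0) (nat_lit 39747829248) (nat_lit 152) (nat_lit 93136104650) (nat_lit 76) (nat_lit 96218444839) (nat_lit 23) (nat_lit 5) (nat_lit 25) (nat_lit 5) (nat_lit 24) (nat_lit 4) (nat_lit 447) (nat_lit 380) (nat_lit 193)) (XT.lf (nat_lit 0) (nat_lit 5927869521) (nat_lit 76) (nat_lit 82144291918) (nat_lit 152) (nat_lit 149744990145) (nat_lit 22) (nat_lit 5) (nat_lit 23) (nat_lit 5) (nat_lit 24) (nat_lit 4) (nat_lit 448) (nat_lit 380) (nat_lit 192)))) (XT.nd (nat_lit 78) (nat_lit 76) (nat_lit 0) (XT.lf (nat_lit 0) (nat_lit 113177435019) (nat_lit 76) (nat_lit 27212008925) (nat_lit 152) (nat_lit 106499382522) (nat_lit 22) (nat_lit 5) (nat_lit 23) (nat_lit 5) (nat_lit 24) (nat_lit 4) (nat_lit 449) (nat_lit 380) (nat_lit 191)) (XT.nd (nat_lit 78) (nat_lit 76) (nat_lit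 0) (XT.lf (nat_lit 0) (nat_lit 195797712391) (nat_lit 152) (nat_lit 31101330560) (nat_lit 0) (nat_lit 29491286124) (nat_lit 22) (nat_lit 5) (nat_lit 24) (nat_lit 4) (nat_lit 22) (nat_lit 4) (nat_lit 450) (nat_lit 380) (nat_lit 190)) (XT.lf (nat_lit 0) (nat_lit 78711390197) (nat_lit 76) (nat_lit 176939482537) (nat_lit 76) (nat_lit 10632310228) (nat_lit 21) (nat_lit 4) (nat_lit 22) (nat_lit 5) (nat_lit 22) (nat_lit 4) (nat_lit 451) (nat_lit 380) (nat_lit 189))))) (XT.nd (nat_lit 234) (nat_lit 152) (nat_lit 0) (XT.nd (nat_lit 78) (nat_lit 76) (nat_lit 0) (XT.lf (nat_lit 0) (nat_lit 41022144451) (nat_lit 152) (nat_lit 82212486699) (nat_lit 76) (nat_lit 153376656069) (nat_lit 20) (nat_lit 5) (nat_lit 22) (nat_lit 5) (nat_lit 21) (nat_lit 4) (nat_lit 452) (nat_lit 380) (nat_lit 188)) (XT.nd (nat_lit 78) (nat_lit 0) (nat_lit 0) (XT.lf (nat_lit 0) (nat_lit 29173256642) (nat_lit 76) (nat_lit 66183726845)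 (nat_lit 152) (nat_lit 192067349408) (nat_lit 19) (nat_lit 5) (nat_lit 20) (nat_lit 5) (nat_lit 21) (nat_lit 4) (nat_lit 453) (nat_lit 380) (nat_lit 187)) (XT.lf (nat_lit 0) (nat_lit 148981580180) (nat_lit 76) (nat_lit 4818802331) (nat_lit 152) (nat_lit 144908057501) (nat_lit 19) (nat_lit 5) (nat_lit 20) (nat_lit 5) (nat_lit 21) (nat_lit 4) (nat_lit 454) (nat_lit 380) (nat_lit 186)))) (XT.nd (nat_lit 156) (nat_lit 76) (nat_lit 0) (XT.nd (nat_lit 78) (nat_lit 76) (nat_lit 0) (XT.lf (nat_lit 0) (nat_lit 216096225309) (nat_lit 152) (nat_lit 36708090840) (nat_lit 0) (nat_lit 57705922699) (nat_lit 19) (nat_lit 5) (nat_lit 21) (nat_lit 4) (nat_lit 19) (nat_lit 4) (nat_lit 455) (nat_lit 380) (nat_lit 185)) (XT.lf (nat_lit 0) (nat_lit 84589132849) (nat_lit 76) (nat_lit 198316946594) (nat_lit 76) (nat_lit 39926087276) (nat_lit 18) (nat_lit 4) (nat_lit 19) (nat_lit 5) (nat_lit 19) (nat_lit 4) (nat_lit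 456) (nat_lit 380) (nat_lit 184))) (XT.nd (nat_lit 78) (nat_lit 0) (nat_lit 0) (XT.lf (nat_lit 0) (nat_lit 17364378251) (nat_lit 152) (nat_lit 122794414102) (nat_lit 76) (nat_lit 195566333829) (nat_lit 17) (nat_lit 5) (nat_lit 19) (nat_lit 5) (nat_lit 18) (nat_lit 4) (nat_lit 457) (nat_lit 380) (nat_lit 183)) (XT.lf (nat_lit 0) (nat_lit 76177160002) (nat_lit 152) (nat_lit 2228716464) (nat_lit 76) (nat_lit 270824152331) (nat_lit 17) (nat_lit 5) (nat_lit 19) (nat_lit 5) (nat_lit 18) (nat_lit 4) (nat_lit 458) (nat_lit 380) (nat_lit 182))))))))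
noncomputable def xc190 : XT := (XT.nd (nat_lit 47814) (nat_lit 0) (nat_lit 3420) (XT.nd (nat_lit 936) (nat_lit 76) (nat_lit 0) (XT.nd (nat_lit 468) (nat_lit 152) (nat_lit 0) (XT.nd (nat_lit 234) (nat_lit 152) (nat_lit 0) (XT.nd (nat_lit 78) (nat_lit 76) (nat_lit 0) (XT.lf (nat_lit 0) (nat_lit 128476529643) (nat_lit 76) (nat_lit 11459521585) (nat_lit 152) (nat_lit 223373851839) (nat_lit 16) (nat_lit 5) (nat_lit 17) (nat_lit 5) (nat_lit 18) (nat_lit 4) (nat_lit 459) (nat_lit 380) (nat_lit 181)) (XT.nd (nat_lit 78) (nat_lit 76) (nat_lit 0) (XT.lf (nat_lit 0) (nat_lit 207839409355) (nat_lit 152) (nat_lit 113217443768) (nat_lit 0) (nat_lit 56989091850) (nat_lit 16) (nat_lit 5) (nat_lit 18) (nat_lit 4) (nat_lit 16) (nat_lit 4) (nat_lit 460) (nat_lit 380) (nat_lit 180)) (XT.lf (nat_lit 0) (nat_lit 14763183765) (nat_lit 76) (nat_lit 264792719884) (nat_lit 76) (nat_lit 113941986954) (nat_lit 15)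 (nat_lit 4) (nat_lit 16) (nat_lit 5) (nat_lit 16) (nat_lit 4) (nat_lit 461) (nat_lit 380) (nat_lit 179)))) (XT.nd (nat_lit 78) (nat_lit 152) (nat_lit 0) (XT.lf (nat_lit 0) (nat_lit 153072757121) (nat_lit 76) (nat_lit 203702477209) (nat_lit 76) (nat_lit 52851348637) (nat_lit 15) (nat_lit 4) (nat_lit 16) (nat_lit 5) (nat_lit 16) (nat_lit 4) (nat_lit 462) (nat_lit 380) (nat_lit 178)) (XT.nd (nat_lit 78) (nat_lit 76) (nat_lit 0) (XT.lf (nat_lit 0) (nat_lit 10931980398) (nat_lit 152) (nat_lit 128440945557) (nat_lit 76) (nat_lit 287179986038) (nat_lit 14) (nat_lit 5) (nat_lit 16) (nat_lit 5) (nat_lit 15) (nat_lit 4) (nat_lit 463) (nat_lit 380) (nat_lit 177)) (XT.lf (nat_lit 0) (nat_lit 5382762795) (nat_lit 76) (nat_lit 70829250389) (nat_lit 152) (nat_lit 368066039081) (nat_lit 13) (nat_lit 5) (nat_lit 14) (nat_lit 5) (nat_lit 15) (nat_lit 4) (nat_lit 464) (nat_lit 380) (nat_lit 176))))) (XT.nd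 (nat_lit 234) (nat_lit 152) (nat_lit 0) (XT.nd (nat_lit 78) (nat_lit 0) (nat_lit 0) (XT.lf (nat_lit 0) (nat_lit 146984390348) (nat_lit 152) (nat_lit 312478019373) (nat_lit 0) (nat_lit 3315622724) (nat_lit 13) (nat_lit 5) (nat_lit 15) (nat_lit 4) (nat_lit 13) (nat_lit 4) (nat_lit 465) (nat_lit 380) (nat_lit 175)) (XT.nd (nat_lit 78) (nat_lit 0) (nat_lit 0) (XT.lf (nat_lit 0) (nat_lit 222456188563) (nat_lit 152) (nat_lit 180901672048) (nat_lit 0) (nat_lit 78787110943) (nat_lit 13) (nat_lit 5) (nat_lit 15) (nat_lit 4) (nat_lit 13) (nat_lit 4) (nat_lit 466) (nat_lit 380) (nat_lit 174)) (XT.lf (nat_lit 0) (nat_lit 301701259490) (nat_lit 152) (nat_lit 42747127381) (nat_lit 0) (nat_lit 158031886635) (nat_lit 13) (nat_lit 5) (nat_lit 15) (nat_lit 4) (nat_lit 13) (nat_lit 4) (nat_lit 467) (nat_lit 380) (nat_lit 173)))) (XT.nd (nat_lit 78) (nat_lit 76) (nat_lit 0) (XT.lf (nat_lit 0) (nat_lit 105697535239)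 (nat_lit 76) (nat_lit 280860981371) (nat_lit 76) (nat_lit 137191327340) (nat_lit 12) (nat_lit 4) (nat_lit 13) (nat_lit 5) (nat_lit 13) (nat_lit 4) (nat_lit 468) (nat_lit 380) (nat_lit 172)) (XT.nd (nat_lit 78) (nat_lit 76) (nat_lit 0) (XT.lf (nat_lit 0) (nat_lit 263047933753) (nat_lit 76) (nat_lit 213334349340) (nat_lit 76) (nat_lit 69664427523) (nat_lit 12) (nat_lit 4) (nat_lit 13) (nat_lit 5) (nat_lit 13) (nat_lit 4) (nat_lit 469) (nat_lit 380) (nat_lit 171)) (XT.lf (nat_lit 0) (nat_lit 1198880089) (nat_lit 152) (nat_lit 141212472667) (nat_lit 76) (nat_lit 427046115178) (nat_lit 11) (nat_lit 5) (nat_lit 13) (nat_lit 5) (nat_lit 12) (nat_lit 4) (nat_lit 470) (nat_lit 380) (nat_lit 170)))))) (XT.nd (nat_lit 46332) (nat_lit 0) (nat_lit 7676) (XT.nd (nat_lit 46098) (nat_lit 0) (nat_lit 7600) (XT.nd (nat_lit 78) (nat_lit 0) (nat_lit 0) (XT.lf (nat_lit 0) (nat_lit 6736170435) (nat_lit 76) (nat_lit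 66632897943) (nat_lit 152) (nat_lit 520607347927) (nat_lit 10) (nat_lit 5) (nat_lit 11) (nat_lit 5) (nat_lit 12) (nat_lit 4) (nat_lit 471) (nat_lit 380) (nat_lit 169)) (XT.nd (nat_lit 78) (nat_lit 0) (nat_lit 0) (XT.lf (nat_lit 0) (nat_lit 151780143190) (nat_lit 152) (nat_lit 452858598371) (nat_lit 0) (nat_lit 14950951699) (nat_lit 10) (nat_lit 5) (nat_lit 12) (nat_lit 4) (nat_lit 10) (nat_lit 4) (nat_lit 472) (nat_lit 380) (nat_lit 168)) (XT.lf (nat_lit 0) (nat_lit 235203854461) (nat_lit 152) (nat_lit 312850722335) (nat_lit 0) (nat_lit 98374453153) (nat_lit 10) (nat_lit 5) (nat_lit 12) (nat_lit 4) (nat_lit 10) (nat_lit 4) (nat_lit 473) (nat_lit 380) (nat_lit 167)))) (XT.nd (nat_lit 78) (nat_lit 0) (nat_lit 0) (XT.lf (nat_lit 0) (nat_lit 2917497371) (nat_lit 836) (nat_lit 6073890021) (nat_lit 836) (nat_lit 6073890021) (nat_lit 110) (nat_lit 3) (nat_lit 121) (nat_lit 3) (nat_lit 121) (nat_lit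 5) (nat_lit 381) (nat_lit 381) (nat_lit 258)) (XT.nd (nat_lit 78) (nat_lit 0) (nat_lit 76) (XT.lf (nat_lit 76) (nat_lit 2448521932) (nat_lit 0) (nat_lit 3640919862) (nat_lit 836) (nat_lit 24788898622) (nat_lit 111) (nat_lit 5) (nat_lit 110) (nat_lit 3) (nat_lit 121) (nat_lit 5) (nat_lit 382) (nat_lit 381) (nat_lit 257)) (XT.lf (nat_lit 0) (nat_lit 6739471444) (nat_lit 760) (nat_lit 13641193171) (nat_lit 836) (nat_lit 11263710837) (nat_lit 111) (nat_lit 5) (nat_lit 121) (nat_lit 5) (nat_lit 122) (nat_lit 5) (nat_lit 383) (nat_lit 381) (nat_lit 256))))) (XT.nd (nat_lit 234) (nat_lit 0) (nat_lit 152) (XT.nd (nat_lit 78) (nat_lit 0) (nat_lit 76) (XT.lf (nat_lit 76) (nat_lit 1884927752) (nat_lit 0) (nat_lit 5621897420) (nat_lit 836) (nat_lit 24937648964) (nat_lit 112) (nat_lit 5) (nat_lit 111) (nat_lit 5) (nat_lit 122) (nat_lit 5) (nat_lit 384) (nat_lit 381) (nat_lit 255)) (XT.nd (nat_lit 78)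 (nat_lit 0) (nat_lit 0) (XT.lf (nat_lit 0) (nat_lit 8697423544) (nat_lit 760) (nat_lit 14772811754) (nat_lit 836) (nat_lit 9795101495) (nat_lit 112) (nat_lit 5) (nat_lit 122) (nat_lit 5) (nat_lit 123) (nat_lit 5) (nat_lit 385) (nat_lit 381) (nat_lit 254)) (XT.lf (nat_lit 76) (nat_lit 1764948136) (nat_lit 0) (nat_lit 8298413263) (nat_lit 836) (nat_lit 24058093451) (nat_lit 113) (nat_lit 5) (nat_lit 112) (nat_lit 5) (nat_lit 123) (nat_lit 5) (nat_lit 386) (nat_lit 381) (nat_lit 253)))) (XT.nd (nat_lit 156) (nat_lit 0) (nat_lit 76) (XT.nd (nat_lit 78) (nat_lit 0) (nat_lit 0) (XT.lf (nat_lit 0) (nat_lit 11867294491) (nat_lit 760) (nat_lit 15491458183) (nat_lit 836) (nat_lit 7643143836) (nat_lit 113) (nat_lit 5) (nat_lit 123) (nat_lit 5) (nat_lit 124) (nat_lit 5) (nat_lit 387) (nat_lit 381) (nat_lit 252)) (XT.lf (nat_lit 76) (nat_lit 2146844205) (nat_lit 0) (nat_lit 11780571495) (nat_lit 836)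 (nat_lit 21990647471) (nat_lit 114) (nat_lit 5) (nat_lit 113) (nat_lit 5) (nat_lit 124) (nat_lit 5) (nat_lit 388) (nat_lit 381) (nat_lit 251))) (XT.nd (nat_lit 78) (nat_lit 0) (nat_lit 0) (XT.lf (nat_lit 0) (nat_lit 16425226575) (nat_lit 760) (nat_lit 15740598653) (nat_lit 836) (nat_lit 4697481128) (nat_lit 114) (nat_lit 5) (nat_lit 124) (nat_lit 5) (nat_lit 125) (nat_lit 5) (nat_lit 389) (nat_lit 381) (nat_lit 250)) (XT.lf (nat_lit 76) (nat_lit 3094800321) (nat_lit 0) (nat_lit 16191308466) (nat_lit 836) (nat_lit 18557796134) (nat_lit 115) (nat_lit 5) (nat_lit 114) (nat_lit 5) (nat_lit 125) (nat_lit 5) (nat_lit 390) (nat_lit 381) (nat_lit 249))))))) (XT.nd (nat_lit 1014) (nat_lit 1824) (nat_lit 0) (XT.nd (nat_lit 468) (nat_lit 1216) (nat_lit 0) (XT.nd (nat_lit 234) (nat_lit 760) (nat_lit 0) (XT.nd (nat_lit 78) (nat_lit 760) (nat_lit 0) (XT.lf (nat_lit 0) (nat_lit 22566925729) (nat_lit 760)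 (nat_lit 15458018514) (nat_lit 76) (nat_lit 834746793) (nat_lit 115) (nat_lit 5) (nat_lit 125) (nat_lit 5) (nat_lit 116) (nat_lit 5) (nat_lit 391) (nat_lit 381) (nat_lit 248)) (XT.nd (nat_lit 78) (nat_lit 0) (nat_lit 0) (XT.lf (nat_lit 0) (nat_lit 4679285109) (nat_lit 760) (nat_lit 21667996225) (nat_lit 836) (nat_lit 13562212283) (nat_lit 105) (nat_lit 5) (nat_lit 115) (nat_lit 5) (nat_lit 116) (nat_lit 5) (nat_lit 392) (nat_lit 381) (nat_lit 247)) (XT.lf (nat_lit 0) (nat_lit 26357492677) (nat_lit 760) (nat_lit 4218062189) (nat_lit 836) (nat_lit 10423288403) (nat_lit 105) (nat_lit 5) (nat_lit 115) (nat_lit 5) (nat_lit 116) (nat_lit 5) (nat_lit 393) (nat_lit 381) (nat_lit 246)))) (XT.nd (nat_lit 78) (nat_lit 380) (nat_lit 0) (XT.lf (nat_lit 0) (nat_lit 6977415520) (nat_lit 380) (nat_lit 28364224846) (nat_lit 456) (nat_lit 6784701984) (nat_lit 100) (nat_lit 5) (nat_lit 105) (nat_lit 5) (nat_lit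 106) (nat_lit 5) (nat_lit 394) (nat_lit 381) (nat_lit 245)) (XT.nd (nat_lit 78) (nat_lit 380) (nat_lit 0) (XT.lf (nat_lit 0) (nat_lit 30111395489) (nat_lit 380) (nat_lit 10547969000) (nat_lit 456) (nat_lit 2635186948) (nat_lit 100) (nat_lit 5) (nat_lit 105) (nat_lit 5) (nat_lit 106) (nat_lit 5) (nat_lit 395) (nat_lit 381) (nat_lit 244)) (XT.lf (nat_lit 0) (nat_lit 1953447976) (nat_lit 380) (nat_lit 34465256479) (nat_lit 76) (nat_lit 8086786390) (nat_lit 95) (nat_lit 5) (nat_lit 100) (nat_lit 5) (nat_lit 96) (nat_lit 5) (nat_lit 396) (nat_lit 381) (nat_lit 243))))) (XT.nd (nat_lit 234) (nat_lit 836) (nat_lit 0) (XT.nd (nat_lit 78) (nat_lit 380) (nat_lit 0) (XT.lf (nat_lit 0) (nat_lit 7080304527) (nat_lit 380) (nat_lit 11105758805) (nat_lit 76) (nat_lit 27568887959) (nat_lit 95) (nat_lit 5) (nat_lit 100) (nat_lit 5) (nat_lit 96) (nat_lit 5) (nat_lit 397) (nat_lit 381) (nat_lit 242)) (XT.nd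 (nat_lit 78) (nat_lit 0) (nat_lit 0) (XT.lf (nat_lit 0) (nat_lit 12696075949) (nat_lit 456) (nat_lit 33211801062) (nat_lit 76) (nat_lit 1147380604) (nat_lit 90) (nat_lit 5) (nat_lit 96) (nat_lit 5) (nat_lit 91) (nat_lit 5) (nat_lit 398) (nat_lit 381) (nat_lit 241)) (XT.lf (nat_lit 0) (nat_lit 19079631502) (nat_lit 456) (nat_lit 8289288557) (nat_lit 76) (nat_lit 21027310804) (nat_lit 90) (nat_lit 5) (nat_lit 96) (nat_lit 5) (nat_lit 91) (nat_lit 5) (nat_lit 399) (nat_lit 381) (nat_lit 240)))) (XT.nd (nat_lit 156) (nat_lit 532) (nat_lit 0) (XT.nd (nat_lit 78) (nat_lit 0) (nat_lit 0) (XT.lf (nat_lit 0) (nat_lit 18467966075) (nat_lit 304) (nat_lit 7600543726) (nat_lit 380) (nat_lit 23721437046) (nat_lit 86) (nat_lit 5) (nat_lit 90) (nat_lit 5) (nat_lit 91) (nat_lit 5) (nat_lit 400) (nat_lit 381) (nat_lit 239)) (XT.lf (nat_lit 0) (nat_lit 33752792259) (nat_lit 380) (nat_lit 4605704530) (nat_lit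 76) (nat_lit 12877555087) (nat_lit 86) (nat_lit 5) (nat_lit 91) (nat_lit 5) (nat_lit 87) (nat_lit 5) (nat_lit 401) (nat_lit 381) (nat_lit 238))) (XT.nd (nat_lit 78) (nat_lit 228) (nat_lit 0) (XT.lf (nat_lit 0) (nat_lit 24090414386) (nat_lit 304) (nat_lit 18229563665) (nat_lit 380) (nat_lit 10409550843) (nat_lit 82) (nat_lit 5) (nat_lit 86) (nat_lit 5) (nat_lit 87) (nat_lit 5) (nat_lit 402) (nat_lit 381) (nat_lit 237)) (XT.lf (nat_lit 0) (nat_lit 39610247) (nat_lit 228) (nat_lit 51399202154) (nat_lit 304) (nat_lit 2852704041) (nat_lit 79) (nat_lit 5) (nat_lit 82) (nat_lit 5) (nat_lit 83) (nat_lit 5) (nat_lit 403) (nat_lit 381) (nat_lit 236)))))) (XT.nd (nat_lit 468) (nat_lit 988) (nat_lit 0) (XT.nd (nat_lit 234) (nat_lit 456) (nat_lit 0) (XT.nd (nat_lit 78) (nat_lit 304) (nat_lit 0) (XT.lf (nat_lit 0) (nat_lit 5709191512) (nat_lit 304) (nat_lit 25149432097) (nat_lit 76) (nat_lit 25029520507)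 (nat_lit 78) (nat_lit 5) (nat_lit 82) (nat_lit 5) (nat_lit 79) (nat_lit 5) (nat_lit 404) (nat_lit 381) (nat_lit 235)) (XT.nd (nat_lit 78) (nat_lit 0) (nat_lit 0) (XT.lf (nat_lit 0) (nat_lit 5536216635) (nat_lit 304) (nat_lit 9151672458) (nat_lit 380) (nat_lit 42870147945) (nat_lit 74) (nat_lit 5) (nat_lit 78) (nat_lit 5) (nat_lit 79) (nat_lit 5) (nat_lit 405) (nat_lit 381) (nat_lit 234)) (XT.lf (nat_lit 0) (nat_lit 24759574688) (nat_lit 380) (nat_lit 20883221672) (nat_lit 76) (nat_lit 13636426529) (nat_lit 74) (nat_lit 5) (nat_lit 79) (nat_lit 5) (nat_lit 75) (nat_lit 5) (nat_lit 406) (nat_lit 381) (nat_lit 233)))) (XT.nd (nat_lit 78) (nat_lit 228) (nat_lit 0) (XT.lf (nat_lit 0) (nat_lit 12045504678) (nat_lit 228) (nat_lit 23625702500) (nat_lit 304) (nat_lit 25398443617) (nat_lit 71) (nat_lit 5) (nat_lit 74) (nat_lit 5) (nat_lit 75) (nat_lit 5) (nat_lit 407) (nat_lit 381) (nat_lit 232))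 (XT.nd (nat_lit 78) (nat_lit 228) (nat_lit 0) (XT.lf (nat_lit 0) (nat_lit 47343416568) (nat_lit 228) (nat_lit 136990203) (nat_lit 304) (nat_lit 15451594903) (nat_lit 71) (nat_lit 5) (nat_lit 74) (nat_lit 5) (nat_lit 75) (nat_lit 5) (nat_lit 408) (nat_lit 381) (nat_lit 231)) (XT.lf (nat_lit 0) (nat_lit 19766241878) (nat_lit 228) (nat_lit 40803742333) (nat_lit 304) (nat_lit 4282990804) (nat_lit 68) (nat_lit 5) (nat_lit 71) (nat_lit 5) (nat_lit 72) (nat_lit 5) (nat_lit 409) (nat_lit 381) (nat_lit 230))))) (XT.nd (nat_lit 234) (nat_lit 684) (nat_lit 0) (XT.nd (nat_lit 78) (nat_lit 228) (nat_lit 0) (XT.lf (nat_lit 0) (nat_lit 7474766779) (nat_lit 304) (nat_lit 9551832965) (nat_lit 76) (nat_lit 49824137937) (nat_lit 67) (nat_lit 5) (nat_lit 71) (nat_lit 5) (nat_lit 68) (nat_lit 5) (nat_lit 410) (nat_lit 381) (nat_lit 229)) (XT.nd (nat_lit 78) (nat_lit 0) (nat_lit 0) (XT.lf (nat_lit 0) (nat_lit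 20253947198) (nat_lit 304) (nat_lit 40452116186) (nat_lit 76) (nat_lit 8209941573) (nat_lit 64) (nat_lit 5) (nat_lit 68) (nat_lit 5) (nat_lit 65) (nat_lit 5) (nat_lit 411) (nat_lit 381) (nat_lit 228)) (XT.lf (nat_lit 0) (nat_lit 34114138840) (nat_lit 304) (nat_lit 2648382859) (nat_lit 76) (nat_lit 34299911955) (nat_lit 64) (nat_lit 5) (nat_lit 68) (nat_lit 5) (nat_lit 65) (nat_lit 5) (nat_lit 412) (nat_lit 381) (nat_lit 227)))) (XT.nd (nat_lit 156) (nat_lit 304) (nat_lit 0) (XT.nd (nat_lit 78) (nat_lit 152) (nat_lit 0) (XT.lf (nat_lit 0) (nat_lit 38268291245) (nat_lit 228) (nat_lit 10995105824) (nat_lit 304) (nat_lit 24022984502) (nat_lit 61) (nat_lit 5) (nat_lit 64) (nat_lit 5) (nat_lit 65) (nat_lit 5) (nat_lit 413) (nat_lit 381) (nat_lit 226)) (XT.lf (nat_lit 0) (nat_lit 5630074331) (nat_lit 152) (nat_lit 59922891528) (nat_lit 228) (nat_lit 10049419248) (nat_lit 59) (nat_lit 5) (nat_lit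 61) (nat_lit 5) (nat_lit 62) (nat_lit 5) (nat_lit 414) (nat_lit 381) (nat_lit 225))) (XT.nd (nat_lit 78) (nat_lit 228) (nat_lit 0) (XT.lf (nat_lit 0) (nat_lit 5256501608) (nat_lit 228) (nat_lit 28742393879) (nat_lit 76) (nat_lit 43992603289) (nat_lit 58) (nat_lit 5) (nat_lit 61) (nat_lit 5) (nat_lit 59) (nat_lit 5) (nat_lit 415) (nat_lit 381) (nat_lit 224)) (XT.lf (nat_lit 0) (nat_lit 14857808627) (nat_lit 228) (nat_lit 6362839854) (nat_lit 304) (nat_lit 59259650125) (nat_lit 55) (nat_lit 5) (nat_lit 58) (nat_lit 5) (nat_lit 59) (nat_lit 5) (nat_lit 416) (nat_lit 381) (nat_lit 223))))))))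
noncomputable def xc191 : XT := (XT.nd (nat_lit 2028) (nat_lit 1140) (nat_lit 0) (XT.nd (nat_lit 1014) (nat_lit 836) (nat_lit 0) (XT.nd (nat_lit 468) (nat_lit 684) (nat_lit 0) (XT.nd (nat_lit 234) (nat_lit 380) (nat_lit 0) (XT.nd (nat_lit 78) (nat_lit 152) (nat_lit 0) (XT.lf (nat_lit 0) (nat_lit 38830162475) (nat_lit 304) (nat_lit 21797025761) (nat_lit 76) (nat_lit 22423992700) (nat_lit 55) (nat_lit 5) (nat_lit 59) (nat_lit 5) (nat_lit 56) (nat_lit 5) (nat_lit 417) (nat_lit 381) (nat_lit 222)) (XT.nd (nat_lit 78) (nat_lit 0) (nat_lit 0) (XT.lf (nat_lit 0) (nat_lit 24910769867) (nat_lit 152) (nat_lit 32901385056) (nat_lit 228) (nat_lit 27913852797) (nat_lit 53) (nat_lit 5) (nat_lit 55) (nat_lit 5) (nat_lit 56) (nat_lit 5) (nat_lit 418) (nat_lit 381) (nat_lit 221)) (XT.lf (nat_lit 0) (nat_lit 74708796814) (nat_lit 152) (nat_lit 3402389352) (nat_lit 228) (nat_lit 10404993169) (nat_lit 53) (nat_lit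 5) (nat_lit 55) (nat_lit 5) (nat_lit 56) (nat_lit 5) (nat_lit 419) (nat_lit 381) (nat_lit 220)))) (XT.nd (nat_lit 78) (nat_lit 152) (nat_lit 0) (XT.lf (nat_lit 0) (nat_lit 8735985134) (nat_lit 228) (nat_lit 55257260963) (nat_lit 76) (nat_lit 27395781702) (nat_lit 50) (nat_lit 5) (nat_lit 53) (nat_lit 5) (nat_lit 51) (nat_lit 5) (nat_lit 420) (nat_lit 381) (nat_lit 219)) (XT.nd (nat_lit 78) (nat_lit 152) (nat_lit 0) (XT.lf (nat_lit 0) (nat_lit 28776631853) (nat_lit 228) (nat_lit 5578643243) (nat_lit 76) (nat_lit 60027100524) (nat_lit 50) (nat_lit 5) (nat_lit 53) (nat_lit 5) (nat_lit 51) (nat_lit 5) (nat_lit 421) (nat_lit 381) (nat_lit 218)) (XT.lf (nat_lit 0) (nat_lit 48122342560) (nat_lit 152) (nat_lit 2447198277) (nat_lit 228) (nat_lit 46918338870) (nat_lit 48) (nat_lit 5) (nat_lit 50) (nat_lit 5) (nat_lit 51) (nat_lit 5) (nat_lit 422) (nat_lit 381) (nat_lit 217))))) (XT.nd (nat_lit 234)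 (nat_lit 304) (nat_lit 0) (XT.nd (nat_lit 78) (nat_lit 228) (nat_lit 0) (XT.lf (nat_lit 0) (nat_lit 3584633817) (nat_lit 152) (nat_lit 70503248563) (nat_lit 228) (nat_lit 26628987616) (nat_lit 46) (nat_lit 5) (nat_lit 48) (nat_lit 5) (nat_lit 49) (nat_lit 5) (nat_lit 423) (nat_lit 381) (nat_lit 216)) (XT.nd (nat_lit 78) (nat_lit 228) (nat_lit 0) (XT.lf (nat_lit 0) (nat_lit 60852964892) (nat_lit 152) (nat_lit 38803619718) (nat_lit 228) (nat_lit 4407003346) (nat_lit 46) (nat_lit 5) (nat_lit 48) (nat_lit 5) (nat_lit 49) (nat_lit 5) (nat_lit 424) (nat_lit 381) (nat_lit 215)) (XT.lf (nat_lit 0) (nat_lit 13543338910) (nat_lit 152) (nat_lit 4987414860) (nat_lit 228) (nat_lit 89021592573) (nat_lit 43) (nat_lit 5) (nat_lit 45) (nat_lit 5) (nat_lit 46) (nat_lit 5) (nat_lit 425) (nat_lit 381) (nat_lit 214)))) (XT.nd (nat_lit 156) (nat_lit 152) (nat_lit 0) (XT.nd (nat_lit 78) (nat_lit 152) (nat_lit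 0) (XT.lf (nat_lit 0) (nat_lit 43686569039) (nat_lit 228) (nat_lit 37106243855) (nat_lit 76) (nat_lit 30358154024) (nat_lit 43) (nat_lit 5) (nat_lit 46) (nat_lit 5) (nat_lit 44) (nat_lit 5) (nat_lit 426) (nat_lit 381) (nat_lit 213)) (XT.lf (nat_lit 0) (nat_lit 23304130879) (nat_lit 152) (nat_lit 47240684647) (nat_lit 228) (nat_lit 44362471249) (nat_lit 41) (nat_lit 5) (nat_lit 43) (nat_lit 5) (nat_lit 44) (nat_lit 5) (nat_lit 427) (nat_lit 381) (nat_lit 212))) (XT.nd (nat_lit 78) (nat_lit 152) (nat_lit 0) (XT.lf (nat_lit 0) (nat_lit 88021652015) (nat_lit 152) (nat_lit 11351791897) (nat_lit 228) (nat_lit 19446605499) (nat_lit 41) (nat_lit 5) (nat_lit 43) (nat_lit 5) (nat_lit 44) (nat_lit 5) (nat_lit 428) (nat_lit 381) (nat_lit 211)) (XT.lf (nat_lit 0) (nat_lit 7452037916) (nat_lit 152) (nat_lit 89288877872) (nat_lit 76) (nat_lit 26134697188) (nat_lit 39) (nat_lit 5) (nat_lit 41) (nat_lit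 5) (nat_lit 40) (nat_lit 5) (nat_lit 429) (nat_lit 381) (nat_lit 210)))))) (XT.nd (nat_lit 468) (nat_lit 380) (nat_lit 0) (XT.nd (nat_lit 234) (nat_lit 304) (nat_lit 0) (XT.nd (nat_lit 78) (nat_lit 152) (nat_lit 0) (XT.lf (nat_lit 0) (nat_lit 35757407797) (nat_lit 152) (nat_lit 25362522852) (nat_lit 76) (nat_lit 65962318071) (nat_lit 39) (nat_lit 5) (nat_lit 41) (nat_lit 5) (nat_lit 40) (nat_lit 5) (nat_lit 430) (nat_lit 381) (nat_lit 209)) (XT.nd (nat_lit 78) (nat_lit 0) (nat_lit 0) (XT.lf (nat_lit 0) (nat_lit 43139374437) (nat_lit 152) (nat_lit 23011337752) (nat_lit 228) (nat_lit 65314870977) (nat_lit 37) (nat_lit 5) (nat_lit 39) (nat_lit 5) (nat_lit 40) (nat_lit 5) (nat_lit 431) (nat_lit 381) (nat_lit 208)) (XT.lf (nat_lit 0) (nat_lit 98764856765) (nat_lit 228) (nat_lit 20373725852) (nat_lit 76) (nat_lit 16894443178) (nat_lit 37) (nat_lit 5) (nat_lit 40) (nat_lit 5) (nat_lit 38) (nat_lit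 4) (nat_lit 432) (nat_lit 381) (nat_lit 207)))) (XT.nd (nat_lit 78) (nat_lit 228) (nat_lit 0) (XT.lf (nat_lit 0) (nat_lit 52270693830) (nat_lit 76) (nat_lit 81931529790) (nat_lit 152) (nat_lit 6566991379) (nat_lit 36) (nat_lit 5) (nat_lit 37) (nat_lit 5) (nat_lit 38) (nat_lit 4) (nat_lit 433) (nat_lit 381) (nat_lit 206)) (XT.nd (nat_lit 78) (nat_lit 152) (nat_lit 0) (XT.lf (nat_lit 0) (nat_lit 25197555579) (nat_lit 152) (nat_lit 16878167307) (nat_lit 76) (nat_lit 103628958184) (nat_lit 35) (nat_lit 5) (nat_lit 37) (nat_lit 5) (nat_lit 36) (nat_lit 5) (nat_lit 434) (nat_lit 381) (nat_lit 205)) (XT.lf (nat_lit 0) (nat_lit 59281405746) (nat_lit 228) (nat_lit 90709234899) (nat_lit 76) (nat_lit 843308699) (nat_lit 33) (nat_lit 5) (nat_lit 36) (nat_lit 5) (nat_lit 34) (nat_lit 4) (nat_lit 435) (nat_lit 381) (nat_lit 204))))) (XT.nd (nat_lit 234) (nat_lit 228) (nat_lit 0) (XT.nd (nat_lit 78) (nat_lit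 152) (nat_lit 0) (XT.lf (nat_lit 0) (nat_lit 96048976198) (nat_lit 228) (nat_lit 15337510913) (nat_lit 76) (nat_lit 44784217693) (nat_lit 33) (nat_lit 5) (nat_lit 36) (nat_lit 5) (nat_lit 34) (nat_lit 4) (nat_lit 436) (nat_lit 381) (nat_lit 203)) (XT.nd (nat_lit 78) (nat_lit 76) (nat_lit 0) (XT.lf (nat_lit 0) (nat_lit 65911048077) (nat_lit 76) (nat_lit 69772205650) (nat_lit 152) (nat_lit 26039628037) (nat_lit 32) (nat_lit 5) (nat_lit 33) (nat_lit 5) (nat_lit 34) (nat_lit 4) (nat_lit 437) (nat_lit 381) (nat_lit 202)) (XT.lf (nat_lit 0) (nat_lit 9697907516) (nat_lit 152) (nat_lit 15942910195) (nat_lit 76) (nat_lit 141891077367) (nat_lit 31) (nat_lit 5) (nat_lit 33) (nat_lit 5) (nat_lit 32) (nat_lit 5) (nat_lit 438) (nat_lit 381) (nat_lit 201)))) (XT.nd (nat_lit 156) (nat_lit 76) (nat_lit 0) (XT.nd (nat_lit 78) (nat_lit 0) (nat_lit 0) (XT.lf (nat_lit 0) (nat_lit 47783071776) (nat_lit 228) (nat_lit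 104180704337) (nat_lit 76) (nat_lit 21574446411) (nat_lit 29) (nat_lit 5) (nat_lit 32) (nat_lit 5) (nat_lit 30) (nat_lit 4) (nat_lit 439) (nat_lit 381) (nat_lit 200)) (XT.lf (nat_lit 0) (nat_lit 88466577012) (nat_lit 228) (nat_lit 20780925378) (nat_lit 76) (nat_lit 70562659941) (nat_lit 29) (nat_lit 5) (nat_lit 32) (nat_lit 5) (nat_lit 30) (nat_lit 4) (nat_lit 440) (nat_lit 381) (nat_lit 199))) (XT.nd (nat_lit 78) (nat_lit 0) (nat_lit 0) (XT.lf (nat_lit 0) (nat_lit 68995942243) (nat_lit 76) (nat_lit 63264882285) (nat_lit 152) (nat_lit 54081046371) (nat_lit 28) (nat_lit 5) (nat_lit 29) (nat_lit 5) (nat_lit 30) (nat_lit 4) (nat_lit 441) (nat_lit 381) (nat_lit 198)) (XT.lf (nat_lit 0) (nat_lit 163981938100) (nat_lit 76) (nat_lit 14614140986) (nat_lit 152) (nat_lit 14586521191) (nat_lit 28) (nat_lit 5) (nat_lit 29) (nat_lit 5) (nat_lit 30) (nat_lit 4) (nat_lit 442) (nat_lit 381) (nat_lit 197)))))))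 (XT.nd (nat_lit 1014) (nat_lit 456) (nat_lit 0) (XT.nd (nat_lit 468) (nat_lit 304) (nat_lit 0) (XT.nd (nat_lit 234) (nat_lit 152) (nat_lit 0) (XT.nd (nat_lit 78) (nat_lit 76) (nat_lit 0) (XT.lf (nat_lit 0) (nat_lit 27629608660) (nat_lit 152) (nat_lit 135874768201) (nat_lit 76) (nat_lit 36759638946) (nat_lit 26) (nat_lit 5) (nat_lit 28) (nat_lit 5) (nat_lit 27) (nat_lit 4) (nat_lit 443) (nat_lit 381) (nat_lit 196)) (XT.nd (nat_lit 78) (nat_lit 76) (nat_lit 0) (XT.lf (nat_lit 0) (nat_lit 72207936503) (nat_lit 152) (nat_lit 44490298368) (nat_lit 76) (nat_lit 90952231465) (nat_lit 26) (nat_lit 5) (nat_lit 28) (nat_lit 5) (nat_lit 27) (nat_lit 4) (nat_lit 444) (nat_lit 381) (nat_lit 195)) (XT.lf (nat_lit 0) (nat_lit 53163875589) (nat_lit 76) (nat_lit 66680755408) (nat_lit 152) (nat_lit 95520135974) (nat_lit 25) (nat_lit 5) (nat_lit 26) (nat_lit 5) (nat_lit 27) (nat_lit 4) (nat_lit 445) (nat_lit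 381) (nat_lit 194)))) (XT.nd (nat_lit 78) (nat_lit 152) (nat_lit 0) (XT.lf (nat_lit 0) (nat_lit 157244283211) (nat_lit 76) (nat_lit 13371766026) (nat_lit 152) (nat_lit 52811089042) (nat_lit 25) (nat_lit 5) (nat_lit 26) (nat_lit 5) (nat_lit 27) (nat_lit 4) (nat_lit 446) (nat_lit 381) (nat_lit 193)) (XT.nd (nat_lit 78) (nat_lit 76) (nat_lit 0) (XT.lf (nat_lit 0) (nat_lit 35093087455) (nat_lit 76) (nat_lit 190045443732) (nat_lit 76) (nat_lit 6693472411) (nat_lit 24) (nat_lit 4) (nat_lit 25) (nat_lit 5) (nat_lit 25) (nat_lit 4) (nat_lit 447) (nat_lit 381) (nat_lit 192)) (XT.lf (nat_lit 0) (nat_lit 41752271607) (nat_lit 152) (nat_lit 97760678162) (nat_lit 76) (nat_lit 101043692961) (nat_lit 23) (nat_lit 5) (nat_lit 25) (nat_lit 5) (nat_lit 24) (nat_lit 4) (nat_lit 448) (nat_lit 381) (nat_lit 191))))) (XT.nd (nat_lit 234) (nat_lit 228) (nat_lit 0) (XT.nd (nat_lit 78) (nat_lit 0) (nat_lit 0) (XT.lf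 (nat_lit 0) (nat_lit 6255974851) (nat_lit 76) (nat_lit 86236528720) (nat_lit 152) (nat_lit 157214666604) (nat_lit 22) (nat_lit 5) (nat_lit 23) (nat_lit 5) (nat_lit 24) (nat_lit 4) (nat_lit 449) (nat_lit 381) (nat_lit 190)) (XT.nd (nat_lit 78) (nat_lit 0) (nat_lit 0) (XT.lf (nat_lit 0) (nat_lit 118866508535) (nat_lit 76) (nat_lit 28558344806) (nat_lit 152) (nat_lit 111807615412) (nat_lit 22) (nat_lit 5) (nat_lit 23) (nat_lit 5) (nat_lit 24) (nat_lit 4) (nat_lit 450) (nat_lit 381) (nat_lit 189)) (XT.lf (nat_lit 0) (nat_lit 205602988401) (nat_lit 152) (nat_lit 32627084620) (nat_lit 0) (nat_lit 30979000916) (nat_lit 22) (nat_lit 5) (nat_lit 24) (nat_lit 4) (nat_lit 22) (nat_lit 4) (nat_lit 451) (nat_lit 381) (nat_lit 188)))) (XT.nd (nat_lit 156) (nat_lit 76) (nat_lit 0) (XT.nd (nat_lit 78) (nat_lit 76) (nat_lit 0) (XT.lf (nat_lit 0) (nat_lit 82675799393) (nat_lit 76) (nat_lit 185772724761) (nat_lit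 76) (nat_lit 11148060593) (nat_lit 21) (nat_lit 4) (nat_lit 22) (nat_lit 5) (nat_lit 22) (nat_lit 4) (nat_lit 452) (nat_lit 381) (nat_lit 187)) (XT.lf (nat_lit 0) (nat_lit 43087877733) (nat_lit 152) (nat_lit 86295159273) (nat_lit 76) (nat_lit 161058081482) (nat_lit 20) (nat_lit 5) (nat_lit 22) (nat_lit 5) (nat_lit 21) (nat_lit 4) (nat_lit 453) (nat_lit 381) (nat_lit 186))) (XT.nd (nat_lit 78) (nat_lit 0) (nat_lit 0) (XT.lf (nat_lit 0) (nat_lit 30659420401) (nat_lit 76) (nat_lit 69479771208) (nat_lit 152) (nat_lit 201655638280) (nat_lit 19) (nat_lit 5) (nat_lit 20) (nat_lit 5) (nat_lit 21) (nat_lit 4) (nat_lit 454) (nat_lit 381) (nat_lit 185)) (XT.lf (nat_lit 0) (nat_lit 156456850547) (nat_lit 76) (nat_lit 5047226277) (nat_lit 152) (nat_lit 152139099806) (nat_lit 19) (nat_lit 5) (nat_lit 20) (nat_lit 5) (nat_lit 21) (nat_lit 4) (nat_lit 455) (nat_lit 381) (nat_lit 184)))))) (XT.nd (nat_lit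 468) (nat_lit 228) (nat_lit 0) (XT.nd (nat_lit 234) (nat_lit 76) (nat_lit 0) (XT.nd (nat_lit 78) (nat_lit 152) (nat_lit 0) (XT.lf (nat_lit 0) (nat_lit 226914246670) (nat_lit 152) (nat_lit 38518084593) (nat_lit 0) (nat_lit 60602757478) (nat_lit 19) (nat_lit 5) (nat_lit 21) (nat_lit 4) (nat_lit 19) (nat_lit 4) (nat_lit 456) (nat_lit 381) (nat_lit 183)) (XT.nd (nat_lit 78) (nat_lit 76) (nat_lit 0) (XT.lf (nat_lit 0) (nat_lit 88843590430) (nat_lit 76) (nat_lit 208220764364) (nat_lit 76) (nat_lit 41908770221) (nat_lit 18) (nat_lit 4) (nat_lit 19) (nat_lit 5) (nat_lit 19) (nat_lit 4) (nat_lit 457) (nat_lit 381) (nat_lit 182)) (XT.lf (nat_lit 0) (nat_lit 18245154733) (nat_lit 152) (nat_lit 128909907845) (nat_lit 76) (nat_lit 205355690698) (nat_lit 17) (nat_lit 5) (nat_lit 19) (nat_lit 5) (nat_lit 18) (nat_lit 4) (nat_lit 458) (nat_lit 381) (nat_lit 181)))) (XT.nd (nat_lit 78) (nat_lit 76) (nat_lit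 0) (XT.lf (nat_lit 0) (nat_lit 79997977592) (nat_lit 152) (nat_lit 2317078990) (nat_lit 76) (nat_lit 284375874403) (nat_lit 17) (nat_lit 5) (nat_lit 19) (nat_lit 5) (nat_lit 18) (nat_lit 4) (nat_lit 459) (nat_lit 381) (nat_lit 180)) (XT.nd (nat_lit 78) (nat_lit 0) (nat_lit 0) (XT.lf (nat_lit 0) (nat_lit 134923057272) (nat_lit 76) (nat_lit 12021541031) (nat_lit 152) (nat_lit 234530211479) (nat_lit 16) (nat_lit 5) (nat_lit 17) (nat_lit 5) (nat_lit 18) (nat_lit 4) (nat_lit 460) (nat_lit 381) (nat_lit 179)) (XT.lf (nat_lit 0) (nat_lit 218242727993) (nat_lit 152) (nat_lit 118856298318) (nat_lit 0) (nat_lit 59848647349) (nat_lit 16) (nat_lit 5) (nat_lit 18) (nat_lit 4) (nat_lit 16) (nat_lit 4) (nat_lit 461) (nat_lit 381) (nat_lit 178))))) (XT.nd (nat_lit 234) (nat_lit 76) (nat_lit 0) (XT.nd (nat_lit 78) (nat_lit 76) (nat_lit 0) (XT.lf (nat_lit 0) (nat_lit 15523005468) (nat_lit 76) (nat_lit 278021839356)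 (nat_lit 76) (nat_lit 119627381910) (nat_lit 15) (nat_lit 4) (nat_lit 16) (nat_lit 5) (nat_lit 16) (nat_lit 4) (nat_lit 462) (nat_lit 381) (nat_lit 177)) (XT.nd (nat_lit 78) (nat_lit 76) (nat_lit 0) (XT.lf (nat_lit 0) (nat_lit 160747025945) (nat_lit 76) (nat_lit 213877585334) (nat_lit 76) (nat_lit 55482769029) (nat_lit 15) (nat_lit 4) (nat_lit 16) (nat_lit 5) (nat_lit 16) (nat_lit 4) (nat_lit 463) (nat_lit 381) (nat_lit 176)) (XT.lf (nat_lit 0) (nat_lit 11488855861) (nat_lit 152) (nat_lit 134843003560) (nat_lit 76) (nat_lit 301548183400) (nat_lit 14) (nat_lit 5) (nat_lit 16) (nat_lit 5) (nat_lit 15) (nat_lit 4) (nat_lit 464) (nat_lit 381) (nat_lit 175)))) (XT.nd (nat_lit 156) (nat_lit 0) (nat_lit 0) (XT.nd (nat_lit 78) (nat_lit 0) (nat_lit 0) (XT.lf (nat_lit 0) (nat_lit 5671567802) (nat_lit 76) (nat_lit 74361140185) (nat_lit 152) (nat_lit 386458741281) (nat_lit 13) (nat_lit 5) (nat_lit 14)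 (nat_lit 5) (nat_lit 15) (nat_lit 4) (nat_lit 465) (nat_lit 381) (nat_lit 174)) (XT.lf (nat_lit 0) (nat_lit 154343365675) (nat_lit 152) (nat_lit 328082850797) (nat_lit 0) (nat_lit 3490228944) (nat_lit 13) (nat_lit 5) (nat_lit 15) (nat_lit 4) (nat_lit 13) (nat_lit 4) (nat_lit 466) (nat_lit 381) (nat_lit 173))) (XT.nd (nat_lit 78) (nat_lit 0) (nat_lit 0) (XT.lf (nat_lit 0) (nat_lit 233588289239) (nat_lit 152) (nat_lit 189928594179) (nat_lit 0) (nat_lit 82734871331) (nat_lit 13) (nat_lit 5) (nat_lit 15) (nat_lit 4) (nat_lit 13) (nat_lit 4) (nat_lit 467) (nat_lit 381) (nat_lit 172)) (XT.lf (nat_lit 0) (nat_lit 316795171271) (nat_lit 152) (nat_lit 44867187112) (nat_lit 0) (nat_lit 165941485577) (nat_lit 13) (nat_lit 5) (nat_lit 15) (nat_lit 4) (nat_lit 13) (nat_lit 4) (nat_lit 468) (nat_lit 381) (nat_lit 171))))))))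
noncomputable def xc192 : XT := (XT.nd (nat_lit 47892) (nat_lit 0) (nat_lit 2508) (XT.nd (nat_lit 46878) (nat_lit 0) (nat_lit 5776) (XT.nd (nat_lit 46410) (nat_lit 0) (nat_lit 7600) (XT.nd (nat_lit 234) (nat_lit 76) (nat_lit 0) (XT.nd (nat_lit 78) (nat_lit 76) (nat_lit 0) (XT.lf (nat_lit 0) (nat_lit 110999429662) (nat_lit 76) (nat_lit 294895705907) (nat_lit 76) (nat_lit 144041765179) (nat_lit 12) (nat_lit 4) (nat_lit 13) (nat_lit 5) (nat_lit 13) (nat_lit 4) (nat_lit 469) (nat_lit 381) (nat_lit 170)) (XT.nd (nat_lit 78) (nat_lit 76) (nat_lit 0) (XT.lf (nat_lit 0) (nat_lit 276216537736) (nat_lit 76) (nat_lit 223993138682) (nat_lit 76) (nat_lit 73138955063) (nat_lit 12) (nat_lit 4) (nat_lit 13) (nat_lit 5) (nat_lit 13) (nat_lit 4) (nat_lit 470) (nat_lit 381) (nat_lit 169)) (XT.lf (nat_lit 0) (nat_lit 1266838932) (nat_lit 152) (nat_lit 148257395131) (nat_lit 76) (nat_lit 448405705883) (nat_lit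 11) (nat_lit 5) (nat_lit 13) (nat_lit 5) (nat_lit 12) (nat_lit 4) (nat_lit 471) (nat_lit 381) (nat_lit 168)))) (XT.nd (nat_lit 78) (nat_lit 0) (nat_lit 0) (XT.lf (nat_lit 0) (nat_lit 7088426881) (nat_lit 76) (nat_lit 69956969280) (nat_lit 152) (nat_lit 546629446629) (nat_lit 10) (nat_lit 5) (nat_lit 11) (nat_lit 5) (nat_lit 12) (nat_lit 4) (nat_lit 472) (nat_lit 381) (nat_lit 167)) (XT.nd (nat_lit 46020) (nat_lit 0) (nat_lit 7600) (XT.lf (nat_lit 0) (nat_lit 159376762359) (nat_lit 152) (nat_lit 475486553042) (nat_lit 0) (nat_lit 15705481340) (nat_lit 10) (nat_lit 5) (nat_lit 12) (nat_lit 4) (nat_lit 10) (nat_lit 4) (nat_lit 473) (nat_lit 381) (nat_lit 166)) (XT.lf (nat_lit 0) (nat_lit 3132617868) (nat_lit 836) (nat_lit 6341206118) (nat_lit 836) (nat_lit 6341206118) (nat_lit 110) (nat_lit 3) (nat_lit 121) (nat_lit 3) (nat_lit 121) (nat_lit 5) (nat_lit 382) (nat_lit 382) (nat_lit 256)))))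 (XT.nd (nat_lit 234) (nat_lit 0) (nat_lit 152) (XT.nd (nat_lit 78) (nat_lit 0) (nat_lit 76) (XT.lf (nat_lit 76) (nat_lit 2642531338) (nat_lit 0) (nat_lit 3884396596) (nat_lit 836) (nat_lit 25888585662) (nat_lit 111) (nat_lit 5) (nat_lit 110) (nat_lit 3) (nat_lit 121) (nat_lit 5) (nat_lit 383) (nat_lit 382) (nat_lit 255)) (XT.nd (nat_lit 78) (nat_lit 0) (nat_lit 0) (XT.lf (nat_lit 0) (nat_lit 7202211630) (nat_lit 760) (nat_lit 14247742109) (nat_lit 836) (nat_lit 11770263451) (nat_lit 111) (nat_lit 5) (nat_lit 121) (nat_lit 5) (nat_lit 122) (nat_lit 5) (nat_lit 384) (nat_lit 382) (nat_lit 254)) (XT.lf (nat_lit 76) (nat_lit 2053466945) (nat_lit 0) (nat_lit 5949637132) (nat_lit 836) (nat_lit 26057462405) (nat_lit 112) (nat_lit 5) (nat_lit 111) (nat_lit 5) (nat_lit 122) (nat_lit 5) (nat_lit 385) (nat_lit 382) (nat_lit 253)))) (XT.nd (nat_lit 78) (nat_lit 0) (nat_lit 0) (XT.lf (nat_lit 0) (nat_lit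 9246779854) (nat_lit 760) (nat_lit 15434164321) (nat_lit 836) (nat_lit 10241854745) (nat_lit 112) (nat_lit 5) (nat_lit 122) (nat_lit 5) (nat_lit 123) (nat_lit 5) (nat_lit 386) (nat_lit 382) (nat_lit 252)) (XT.nd (nat_lit 78) (nat_lit 0) (nat_lit 76) (XT.lf (nat_lit 76) (nat_lit 1929236984) (nat_lit 0) (nat_lit 8747513166) (nat_lit 836) (nat_lit 25145189785) (nat_lit 113) (nat_lit 5) (nat_lit 112) (nat_lit 5) (nat_lit 123) (nat_lit 5) (nat_lit 387) (nat_lit 382) (nat_lit 251)) (XT.lf (nat_lit 0) (nat_lit 12565123069) (nat_lit 760) (nat_lit 16187780871) (nat_lit 836) (nat_lit 7993791228) (nat_lit 113) (nat_lit 5) (nat_lit 123) (nat_lit 5) (nat_lit 124) (nat_lit 5) (nat_lit 388) (nat_lit 382) (nat_lit 250)))))) (XT.nd (nat_lit 468) (nat_lit 1444) (nat_lit 0) (XT.nd (nat_lit 234) (nat_lit 608) (nat_lit 0) (XT.nd (nat_lit 78) (nat_lit 0) (nat_lit 76) (XT.lf (nat_lit 76) (nat_lit 2331174537) (nat_lit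 0) (nat_lit 12393303333) (nat_lit 836) (nat_lit 22984384389) (nat_lit 114) (nat_lit 5) (nat_lit 113) (nat_lit 5) (nat_lit 124) (nat_lit 5) (nat_lit 389) (nat_lit 382) (nat_lit 249)) (XT.nd (nat_lit 78) (nat_lit 0) (nat_lit 0) (XT.lf (nat_lit 0) (nat_lit 17342032009) (nat_lit 760) (nat_lit 16449093095) (nat_lit 836) (nat_lit 4910503174) (nat_lit 114) (nat_lit 5) (nat_lit 124) (nat_lit 5) (nat_lit 125) (nat_lit 5) (nat_lit 390) (nat_lit 382) (nat_lit 248)) (XT.lf (nat_lit 76) (nat_lit 3326809127) (nat_lit 0) (nat_lit 17015805868) (nat_lit 836) (nat_lit 19388812095) (nat_lit 115) (nat_lit 5) (nat_lit 114) (nat_lit 5) (nat_lit 125) (nat_lit 5) (nat_lit 391) (nat_lit 382) (nat_lit 247)))) (XT.nd (nat_lit 78) (nat_lit 760) (nat_lit 0) (XT.lf (nat_lit 0) (nat_lit 23782860243) (nat_lit 760) (nat_lit 16152657538) (nat_lit 76) (nat_lit 862718360) (nat_lit 115) (nat_lit 5) (nat_lit 125) (nat_lit 5)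 (nat_lit 116) (nat_lit 5) (nat_lit 392) (nat_lit 382) (nat_lit 246)) (XT.nd (nat_lit 78) (nat_lit 0) (nat_lit 0) (XT.lf (nat_lit 0) (nat_lit 4990248977) (nat_lit 760) (nat_lit 22759015961) (nat_lit 836) (nat_lit 14151415203) (nat_lit 105) (nat_lit 5) (nat_lit 115) (nat_lit 5) (nat_lit 116) (nat_lit 5) (nat_lit 393) (nat_lit 382) (nat_lit 245)) (XT.lf (nat_lit 0) (nat_lit 27748700276) (nat_lit 760) (nat_lit 4436222370) (nat_lit 836) (nat_lit 10859778829) (nat_lit 105) (nat_lit 5) (nat_lit 115) (nat_lit 5) (nat_lit 116) (nat_lit 5) (nat_lit 394) (nat_lit 382) (nat_lit 244))))) (XT.nd (nat_lit 234) (nat_lit 684) (nat_lit 0) (XT.nd (nat_lit 78) (nat_lit 380) (nat_lit 0) (XT.lf (nat_lit 0) (nat_lit 7402566034) (nat_lit 380) (nat_lit 29783991799) (nat_lit 456) (nat_lit 7042158000) (nat_lit 100) (nat_lit 5) (nat_lit 105) (nat_lit 5) (nat_lit 106) (nat_lit 5) (nat_lit 395) (nat_lit 382) (nat_lit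 243)) (XT.nd (nat_lit 78) (nat_lit 380) (nat_lit 0) (XT.lf (nat_lit 0) (nat_lit 31689612633) (nat_lit 380) (nat_lit 11076849079) (nat_lit 456) (nat_lit 2689061454) (nat_lit 100) (nat_lit 5) (nat_lit 105) (nat_lit 5) (nat_lit 106) (nat_lit 5) (nat_lit 396) (nat_lit 382) (nat_lit 242)) (XT.lf (nat_lit 0) (nat_lit 2124093155) (nat_lit 380) (nat_lit 36110868030) (nat_lit 76) (nat_lit 8492110762) (nat_lit 95) (nat_lit 5) (nat_lit 100) (nat_lit 5) (nat_lit 96) (nat_lit 5) (nat_lit 397) (nat_lit 382) (nat_lit 241)))) (XT.nd (nat_lit 156) (nat_lit 304) (nat_lit 0) (XT.nd (nat_lit 78) (nat_lit 380) (nat_lit 0) (XT.lf (nat_lit 0) (nat_lit 7503817639) (nat_lit 380) (nat_lit 11587093153) (nat_lit 76) (nat_lit 28948270502) (nat_lit 95) (nat_lit 5) (nat_lit 100) (nat_lit 5) (nat_lit 96) (nat_lit 5) (nat_lit 398) (nat_lit 382) (nat_lit 240)) (XT.lf (nat_lit 0) (nat_lit 13398289085) (nat_lit 456) (nat_lit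 34796308340) (nat_lit 76) (nat_lit 1210011967) (nat_lit 90) (nat_lit 5) (nat_lit 96) (nat_lit 5) (nat_lit 91) (nat_lit 5) (nat_lit 399) (nat_lit 382) (nat_lit 239))) (XT.nd (nat_lit 78) (nat_lit 304) (nat_lit 0) (XT.lf (nat_lit 0) (nat_lit 20097812448) (nat_lit 456) (nat_lit 8631293199) (nat_lit 76) (nat_lit 22083688090) (nat_lit 90) (nat_lit 5) (nat_lit 96) (nat_lit 5) (nat_lit 91) (nat_lit 5) (nat_lit 400) (nat_lit 382) (nat_lit 238)) (XT.lf (nat_lit 0) (nat_lit 19462655458) (nat_lit 304) (nat_lit 7971535144) (nat_lit 380) (nat_lit 24842103964) (nat_lit 86) (nat_lit 5) (nat_lit 90) (nat_lit 5) (nat_lit 91) (nat_lit 5) (nat_lit 401) (nat_lit 382) (nat_lit 237))))))) (XT.nd (nat_lit 1014) (nat_lit 1368) (nat_lit 0) (XT.nd (nat_lit 468) (nat_lit 988) (nat_lit 0) (XT.nd (nat_lit 234) (nat_lit 380) (nat_lit 0) (XT.nd (nat_lit 78) (nat_lit 532) (nat_lit 0) (XT.lf (nat_lit 0) (nat_lit 35499857001)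 (nat_lit 380) (nat_lit 4765228205) (nat_lit 76) (nat_lit 13529762905) (nat_lit 86) (nat_lit 5) (nat_lit 91) (nat_lit 5) (nat_lit 87) (nat_lit 5) (nat_lit 402) (nat_lit 382) (nat_lit 236)) (XT.nd (nat_lit 78) (nat_lit 228) (nat_lit 0) (XT.lf (nat_lit 0) (nat_lit 25364555342) (nat_lit 304) (nat_lit 19129103940) (nat_lit 380) (nat_lit 10869428511) (nat_lit 82) (nat_lit 5) (nat_lit 86) (nat_lit 5) (nat_lit 87) (nat_lit 5) (nat_lit 403) (nat_lit 382) (nat_lit 235)) (XT.lf (nat_lit 0) (nat_lit 112775201) (nat_lit 228) (nat_lit 53954202268) (nat_lit 304) (nat_lit 2936271735) (nat_lit 79) (nat_lit 5) (nat_lit 82) (nat_lit 5) (nat_lit 83) (nat_lit 5) (nat_lit 404) (nat_lit 382) (nat_lit 234)))) (XT.nd (nat_lit 78) (nat_lit 304) (nat_lit 0) (XT.lf (nat_lit 0) (nat_lit 6049105354) (nat_lit 304) (nat_lit 26337279613) (nat_lit 76) (nat_lit 26293414763) (nat_lit 78) (nat_lit 5) (nat_lit 82) (nat_lit 5)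 (nat_lit 79) (nat_lit 5) (nat_lit 405) (nat_lit 382) (nat_lit 233)) (XT.nd (nat_lit 78) (nat_lit 0) (nat_lit 0) (XT.lf (nat_lit 0) (nat_lit 5881528586) (nat_lit 304) (nat_lit 9593685662) (nat_lit 380) (nat_lit 44958050603) (nat_lit 74) (nat_lit 5) (nat_lit 78) (nat_lit 5) (nat_lit 79) (nat_lit 5) (nat_lit 406) (nat_lit 382) (nat_lit 232)) (XT.lf (nat_lit 0) (nat_lit 26048195135) (nat_lit 380) (nat_lit 21859828412) (nat_lit 76) (nat_lit 14332602206) (nat_lit 74) (nat_lit 5) (nat_lit 79) (nat_lit 5) (nat_lit 75) (nat_lit 5) (nat_lit 407) (nat_lit 382) (nat_lit 231))))) (XT.nd (nat_lit 234) (nat_lit 532) (nat_lit 0) (XT.nd (nat_lit 78) (nat_lit 228) (nat_lit 0) (XT.lf (nat_lit 0) (nat_lit 12714244669) (nat_lit 228) (nat_lit 24789790771) (nat_lit 304) (nat_lit 26616609552) (nat_lit 71) (nat_lit 5) (nat_lit 74) (nat_lit 5) (nat_lit 75) (nat_lit 5) (nat_lit 408) (nat_lit 382) (nat_lit 230)) (XT.nd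 (nat_lit 78) (nat_lit 228) (nat_lit 0) (XT.lf (nat_lit 0) (nat_lit 49773887166) (nat_lit 228) (nat_lit 127461757) (nat_lit 304) (nat_lit 16174882985) (nat_lit 71) (nat_lit 5) (nat_lit 74) (nat_lit 5) (nat_lit 75) (nat_lit 5) (nat_lit 409) (nat_lit 382) (nat_lit 229)) (XT.lf (nat_lit 0) (nat_lit 20818912822) (nat_lit 228) (nat_lit 42825506393) (nat_lit 304) (nat_lit 4448885135) (nat_lit 68) (nat_lit 5) (nat_lit 71) (nat_lit 5) (nat_lit 72) (nat_lit 5) (nat_lit 410) (nat_lit 382) (nat_lit 228)))) (XT.nd (nat_lit 156) (nat_lit 228) (nat_lit 0) (XT.nd (nat_lit 78) (nat_lit 228) (nat_lit 0) (XT.lf (nat_lit 0) (nat_lit 7892991538) (nat_lit 304) (nat_lit 9966639026) (nat_lit 76) (nat_lit 52331399157) (nat_lit 67) (nat_lit 5) (nat_lit 71) (nat_lit 5) (nat_lit 68) (nat_lit 5) (nat_lit 411) (nat_lit 382) (nat_lit 227)) (XT.lf (nat_lit 0) (nat_lit 21310264933) (nat_lit 304) (nat_lit 42411050815) (nat_lit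 76) (nat_lit 8638288892) (nat_lit 64) (nat_lit 5) (nat_lit 68) (nat_lit 5) (nat_lit 65) (nat_lit 5) (nat_lit 412) (nat_lit 382) (nat_lit 226))) (XT.nd (nat_lit 78) (nat_lit 228) (nat_lit 0) (XT.lf (nat_lit 0) (nat_lit 35861388996) (nat_lit 304) (nat_lit 2720162783) (nat_lit 76) (nat_lit 36031907781) (nat_lit 64) (nat_lit 5) (nat_lit 68) (nat_lit 5) (nat_lit 65) (nat_lit 5) (nat_lit 413) (nat_lit 382) (nat_lit 225)) (XT.lf (nat_lit 0) (nat_lit 40241366975) (nat_lit 228) (nat_lit 11525696392) (nat_lit 304) (nat_lit 25181594732) (nat_lit 61) (nat_lit 5) (nat_lit 64) (nat_lit 5) (nat_lit 65) (nat_lit 5) (nat_lit 414) (nat_lit 382) (nat_lit 224)))))) (XT.nd (nat_lit 468) (nat_lit 760) (nat_lit 0) (XT.nd (nat_lit 234) (nat_lit 152) (nat_lit 0) (XT.nd (nat_lit 78) (nat_lit 304) (nat_lit 0) (XT.lf (nat_lit 0) (nat_lit 5971992156) (nat_lit 152) (nat_lit 62898418238) (nat_lit 228) (nat_lit 10510087271)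 (nat_lit 59) (nat_lit 5) (nat_lit 61) (nat_lit 5) (nat_lit 62) (nat_lit 5) (nat_lit 415) (nat_lit 382) (nat_lit 223)) (XT.nd (nat_lit 78) (nat_lit 228) (nat_lit 0) (XT.lf (nat_lit 0) (nat_lit 5557864768) (nat_lit 228) (nat_lit 30120686769) (nat_lit 76) (nat_lit 46210579959) (nat_lit 58) (nat_lit 5) (nat_lit 61) (nat_lit 5) (nat_lit 59) (nat_lit 5) (nat_lit 416) (nat_lit 382) (nat_lit 222)) (XT.lf (nat_lit 0) (nat_lit 15658577043) (nat_lit 228) (nat_lit 6660710433) (nat_lit 304) (nat_lit 62183131147) (nat_lit 55) (nat_lit 5) (nat_lit 58) (nat_lit 5) (nat_lit 59) (nat_lit 5) (nat_lit 417) (nat_lit 382) (nat_lit 221)))) (XT.nd (nat_lit 78) (nat_lit 152) (nat_lit 0) (XT.lf (nat_lit 0) (nat_lit 40807787803) (nat_lit 304) (nat_lit 22830251901) (nat_lit 76) (nat_lit 23563880528) (nat_lit 55) (nat_lit 5) (nat_lit 59) (nat_lit 5) (nat_lit 56) (nat_lit 5) (nat_lit 418) (nat_lit 382) (nat_lit 220))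 (XT.nd (nat_lit 78) (nat_lit 0) (nat_lit 0) (XT.lf (nat_lit 0) (nat_lit 26212020199) (nat_lit 152) (nat_lit 34526009625) (nat_lit 228) (nat_lit 29272501694) (nat_lit 53) (nat_lit 5) (nat_lit 55) (nat_lit 5) (nat_lit 56) (nat_lit 5) (nat_lit 419) (nat_lit 382) (nat_lit 219)) (XT.lf (nat_lit 0) (nat_lit 78497295549) (nat_lit 152) (nat_lit 3553037692) (nat_lit 228) (nat_lit 10889963072) (nat_lit 53) (nat_lit 5) (nat_lit 55) (nat_lit 5) (nat_lit 56) (nat_lit 5) (nat_lit 420) (nat_lit 382) (nat_lit 218))))) (XT.nd (nat_lit 234) (nat_lit 380) (nat_lit 0) (XT.nd (nat_lit 78) (nat_lit 152) (nat_lit 0) (XT.lf (nat_lit 0) (nat_lit 9206453093) (nat_lit 228) (nat_lit 57965430635) (nat_lit 76) (nat_lit 28784900598) (nat_lit 50) (nat_lit 5) (nat_lit 53) (nat_lit 5) (nat_lit 51) (nat_lit 5) (nat_lit 421) (nat_lit 382) (nat_lit 217)) (XT.nd (nat_lit 78) (nat_lit 152) (nat_lit 0) (XT.lf (nat_lit 0) (nat_lit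 30247528876) (nat_lit 228) (nat_lit 5805486476) (nat_lit 76) (nat_lit 63046864894) (nat_lit 50) (nat_lit 5) (nat_lit 53) (nat_lit 5) (nat_lit 51) (nat_lit 5) (nat_lit 422) (nat_lit 382) (nat_lit 216)) (XT.lf (nat_lit 0) (nat_lit 50579708473) (nat_lit 152) (nat_lit 2549648048) (nat_lit 228) (nat_lit 49231339873) (nat_lit 48) (nat_lit 5) (nat_lit 50) (nat_lit 5) (nat_lit 51) (nat_lit 5) (nat_lit 423) (nat_lit 382) (nat_lit 215)))) (XT.nd (nat_lit 156) (nat_lit 228) (nat_lit 0) (XT.nd (nat_lit 78) (nat_lit 0) (nat_lit 0) (XT.lf (nat_lit 0) (nat_lit 3815533718) (nat_lit 152) (nat_lit 74007691843) (nat_lit 228) (nat_lit 27927930610) (nat_lit 46) (nat_lit 5) (nat_lit 48) (nat_lit 5) (nat_lit 49) (nat_lit 5) (nat_lit 424) (nat_lit 382) (nat_lit 214)) (XT.lf (nat_lit 0) (nat_lit 63944820956) (nat_lit 152) (nat_lit 40724068182) (nat_lit 228) (nat_lit 4596395049) (nat_lit 46) (nat_lit 5) (nat_lit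 48) (nat_lit 5) (nat_lit 49) (nat_lit 5) (nat_lit 425) (nat_lit 382) (nat_lit 213))) (XT.nd (nat_lit 78) (nat_lit 0) (nat_lit 0) (XT.lf (nat_lit 0) (nat_lit 14269903693) (nat_lit 152) (nat_lit 5216699576) (nat_lit 228) (nat_lit 93441886274) (nat_lit 43) (nat_lit 5) (nat_lit 45) (nat_lit 5) (nat_lit 46) (nat_lit 5) (nat_lit 426) (nat_lit 382) (nat_lit 212)) (XT.lf (nat_lit 0) (nat_lit 45899112167) (nat_lit 228) (nat_lit 38913405232) (nat_lit 76) (nat_lit 31894579009) (nat_lit 43) (nat_lit 5) (nat_lit 46) (nat_lit 5) (nat_lit 44) (nat_lit 5) (nat_lit 427) (nat_lit 382) (nat_lit 211))))))))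
noncomputable def xc193 : XT := (XT.nd (nat_lit 1950) (nat_lit 912) (nat_lit 0) (XT.nd (nat_lit 936) (nat_lit 684) (nat_lit 0) (XT.nd (nat_lit 468) (nat_lit 456) (nat_lit 0) (XT.nd (nat_lit 234) (nat_lit 152) (nat_lit 0) (XT.nd (nat_lit 78) (nat_lit 152) (nat_lit 0) (XT.lf (nat_lit 0) (nat_lit 24516711613) (nat_lit 152) (nat_lit 49582955453) (nat_lit 228) (nat_lit 46551595775) (nat_lit 41) (nat_lit 5) (nat_lit 43) (nat_lit 5) (nat_lit 44) (nat_lit 5) (nat_lit 428) (nat_lit 382) (nat_lit 210)) (XT.nd (nat_lit 78) (nat_lit 152) (nat_lit 0) (XT.lf (nat_lit 0) (nat_lit 92467852892) (nat_lit 152) (nat_lit 11900559181) (nat_lit 228) (nat_lit 20391317644) (nat_lit 41) (nat_lit 5) (nat_lit 43) (nat_lit 5) (nat_lit 44) (nat_lit 5) (nat_lit 429) (nat_lit 382) (nat_lit 209)) (XT.lf (nat_lit 0) (nat_lit 7851105874) (nat_lit 152) (nat_lit 93707037724) (nat_lit 76) (nat_lit 27459920043) (nat_lit 39) (nat_lit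 5) (nat_lit 41) (nat_lit 5) (nat_lit 40) (nat_lit 5) (nat_lit 430) (nat_lit 382) (nat_lit 208)))) (XT.nd (nat_lit 78) (nat_lit 152) (nat_lit 0) (XT.lf (nat_lit 0) (nat_lit 37570483960) (nat_lit 152) (nat_lit 26586568955) (nat_lit 76) (nat_lit 69278041589) (nat_lit 39) (nat_lit 5) (nat_lit 41) (nat_lit 5) (nat_lit 40) (nat_lit 5) (nat_lit 431) (nat_lit 382) (nat_lit 207)) (XT.nd (nat_lit 78) (nat_lit 0) (nat_lit 0) (XT.lf (nat_lit 0) (nat_lit 45339712231) (nat_lit 152) (nat_lit 24143218180) (nat_lit 228) (nat_lit 68554691724) (nat_lit 37) (nat_lit 5) (nat_lit 39) (nat_lit 5) (nat_lit 40) (nat_lit 5) (nat_lit 432) (nat_lit 382) (nat_lit 206)) (XT.lf (nat_lit 0) (nat_lit 103726884708) (nat_lit 228) (nat_lit 21350204987) (nat_lit 76) (nat_lit 17756392363) (nat_lit 37) (nat_lit 5) (nat_lit 40) (nat_lit 5) (nat_lit 38) (nat_lit 4) (nat_lit 433) (nat_lit 382) (nat_lit 205))))) (XT.nd (nat_lit 234)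 (nat_lit 152) (nat_lit 0) (XT.nd (nat_lit 78) (nat_lit 228) (nat_lit 0) (XT.lf (nat_lit 0) (nat_lit 54925754918) (nat_lit 76) (nat_lit 86009880706) (nat_lit 152) (nat_lit 6870869586) (nat_lit 36) (nat_lit 5) (nat_lit 37) (nat_lit 5) (nat_lit 38) (nat_lit 4) (nat_lit 434) (nat_lit 382) (nat_lit 204)) (XT.nd (nat_lit 78) (nat_lit 152) (nat_lit 0) (XT.lf (nat_lit 0) (nat_lit 26479993478) (nat_lit 152) (nat_lit 17681775798) (nat_lit 76) (nat_lit 108827012856) (nat_lit 35) (nat_lit 5) (nat_lit 37) (nat_lit 5) (nat_lit 36) (nat_lit 5) (nat_lit 435) (nat_lit 382) (nat_lit 203)) (XT.lf (nat_lit 0) (nat_lit 62267854834) (nat_lit 228) (nat_lit 95204210701) (nat_lit 76) (nat_lit 902457587) (nat_lit 33) (nat_lit 5) (nat_lit 36) (nat_lit 5) (nat_lit 34) (nat_lit 4) (nat_lit 436) (nat_lit 382) (nat_lit 202)))) (XT.nd (nat_lit 78) (nat_lit 152) (nat_lit 0) (XT.lf (nat_lit 0) (nat_lit 100872738152) (nat_lit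 228) (nat_lit 16065828418) (nat_lit 76) (nat_lit 47039603295) (nat_lit 33) (nat_lit 5) (nat_lit 36) (nat_lit 5) (nat_lit 34) (nat_lit 4) (nat_lit 437) (nat_lit 382) (nat_lit 201)) (XT.nd (nat_lit 78) (nat_lit 76) (nat_lit 0) (XT.lf (nat_lit 0) (nat_lit 69244536618) (nat_lit 76) (nat_lit 73243770317) (nat_lit 152) (nat_lit 27319670085) (nat_lit 32) (nat_lit 5) (nat_lit 33) (nat_lit 5) (nat_lit 34) (nat_lit 4) (nat_lit 438) (nat_lit 382) (nat_lit 200)) (XT.lf (nat_lit 0) (nat_lit 10203028757) (nat_lit 152) (nat_lit 16703253385) (nat_lit 76) (nat_lit 149001192489) (nat_lit 31) (nat_lit 5) (nat_lit 33) (nat_lit 5) (nat_lit 32) (nat_lit 5) (nat_lit 439) (nat_lit 382) (nat_lit 199)))))) (XT.nd (nat_lit 468) (nat_lit 304) (nat_lit 0) (XT.nd (nat_lit 234) (nat_lit 152) (nat_lit 0) (XT.nd (nat_lit 78) (nat_lit 76) (nat_lit 0) (XT.lf (nat_lit 0) (nat_lit 50192309161) (nat_lit 228) (nat_lit 109352791446)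 (nat_lit 76) (nat_lit 22669025132) (nat_lit 29) (nat_lit 5) (nat_lit 32) (nat_lit 5) (nat_lit 30) (nat_lit 4) (nat_lit 440) (nat_lit 382) (nat_lit 198)) (XT.nd (nat_lit 78) (nat_lit 76) (nat_lit 0) (XT.lf (nat_lit 0) (nat_lit 92909033288) (nat_lit 228) (nat_lit 21784782972) (nat_lit 76) (nat_lit 74105894273) (nat_lit 29) (nat_lit 5) (nat_lit 32) (nat_lit 5) (nat_lit 30) (nat_lit 4) (nat_lit 441) (nat_lit 382) (nat_lit 197)) (XT.lf (nat_lit 0) (nat_lit 72480360470) (nat_lit 76) (nat_lit 66412262412) (nat_lit 152) (nat_lit 56765400330) (nat_lit 28) (nat_lit 5) (nat_lit 29) (nat_lit 5) (nat_lit 30) (nat_lit 4) (nat_lit 442) (nat_lit 382) (nat_lit 196)))) (XT.nd (nat_lit 78) (nat_lit 152) (nat_lit 0) (XT.lf (nat_lit 0) (nat_lit 172214007495) (nat_lit 76) (nat_lit 15329739476) (nat_lit 152) (nat_lit 15297086909) (nat_lit 28) (nat_lit 5) (nat_lit 29) (nat_lit 5) (nat_lit 30) (nat_lit 4) (nat_lit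 443) (nat_lit 382) (nat_lit 195)) (XT.nd (nat_lit 78) (nat_lit 0) (nat_lit 0) (XT.lf (nat_lit 0) (nat_lit 29029137673) (nat_lit 152) (nat_lit 142634816382) (nat_lit 76) (nat_lit 38612357199) (nat_lit 26) (nat_lit 5) (nat_lit 28) (nat_lit 5) (nat_lit 27) (nat_lit 4) (nat_lit 444) (nat_lit 382) (nat_lit 194)) (XT.lf (nat_lit 0) (nat_lit 75835522452) (nat_lit 152) (nat_lit 46682727354) (nat_lit 76) (nat_lit 95513877614) (nat_lit 26) (nat_lit 5) (nat_lit 28) (nat_lit 5) (nat_lit 27) (nat_lit 4) (nat_lit 445) (nat_lit 382) (nat_lit 193))))) (XT.nd (nat_lit 234) (nat_lit 152) (nat_lit 0) (XT.nd (nat_lit 78) (nat_lit 76) (nat_lit 0) (XT.lf (nat_lit 0) (nat_lit 55853637786) (nat_lit 76) (nat_lit 70000088227) (nat_lit 152) (nat_lit 100278433489) (nat_lit 25) (nat_lit 5) (nat_lit 26) (nat_lit 5) (nat_lit 27) (nat_lit 4) (nat_lit 446) (nat_lit 382) (nat_lit 192)) (XT.nd (nat_lit 78) (nat_lit 76) (nat_lit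 0) (XT.lf (nat_lit 0) (nat_lit 165136562531) (nat_lit 76) (nat_lit 14026349611) (nat_lit 152) (nat_lit 55434777510) (nat_lit 25) (nat_lit 5) (nat_lit 26) (nat_lit 5) (nat_lit 27) (nat_lit 4) (nat_lit 447) (nat_lit 382) (nat_lit 191)) (XT.lf (nat_lit 0) (nat_lit 36877899487) (nat_lit 76) (nat_lit 199533533006) (nat_lit 76) (nat_lit 7011370149) (nat_lit 24) (nat_lit 4) (nat_lit 25) (nat_lit 5) (nat_lit 25) (nat_lit 4) (nat_lit 448) (nat_lit 382) (nat_lit 190)))) (XT.nd (nat_lit 156) (nat_lit 0) (nat_lit 0) (XT.nd (nat_lit 78) (nat_lit 76) (nat_lit 0) (XT.lf (nat_lit 0) (nat_lit 43855350854) (nat_lit 152) (nat_lit 102619476950) (nat_lit 76) (nat_lit 106108871604) (nat_lit 23) (nat_lit 5) (nat_lit 25) (nat_lit 5) (nat_lit 24) (nat_lit 4) (nat_lit 449) (nat_lit 382) (nat_lit 189)) (XT.lf (nat_lit 0) (nat_lit 6597537180) (nat_lit 76) (nat_lit 90534769856) (nat_lit 152) (nat_lit 165059460662) (nat_lit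 22) (nat_lit 5) (nat_lit 23) (nat_lit 5) (nat_lit 24) (nat_lit 4) (nat_lit 450) (nat_lit 382) (nat_lit 188))) (XT.nd (nat_lit 78) (nat_lit 0) (nat_lit 0) (XT.lf (nat_lit 0) (nat_lit 124837227854) (nat_lit 76) (nat_lit 29973323665) (nat_lit 152) (nat_lit 117382815923) (nat_lit 22) (nat_lit 5) (nat_lit 23) (nat_lit 5) (nat_lit 24) (nat_lit 4) (nat_lit 451) (nat_lit 382) (nat_lit 187)) (XT.lf (nat_lit 0) (nat_lit 215897097359) (nat_lit 152) (nat_lit 34231851579) (nat_lit 0) (nat_lit 32539878840) (nat_lit 22) (nat_lit 5) (nat_lit 24) (nat_lit 4) (nat_lit 22) (nat_lit 4) (nat_lit 452) (nat_lit 382) (nat_lit 186))))))) (XT.nd (nat_lit 1014) (nat_lit 304) (nat_lit 0) (XT.nd (nat_lit 468) (nat_lit 304) (nat_lit 0) (XT.nd (nat_lit 234) (nat_lit 76) (nat_lit 0) (XT.nd (nat_lit 78) (nat_lit 152) (nat_lit 0) (XT.lf (nat_lit 0) (nat_lit 86835747809) (nat_lit 76) (nat_lit 195048905758) (nat_lit 76) (nat_lit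 11691073468) (nat_lit 21) (nat_lit 4) (nat_lit 22) (nat_lit 5) (nat_lit 22) (nat_lit 4) (nat_lit 453) (nat_lit 382) (nat_lit 185)) (XT.nd (nat_lit 78) (nat_lit 76) (nat_lit 0) (XT.lf (nat_lit 0) (nat_lit 45255537886) (nat_lit 152) (nat_lit 90584564166) (nat_lit 76) (nat_lit 169122407424) (nat_lit 20) (nat_lit 5) (nat_lit 22) (nat_lit 5) (nat_lit 21) (nat_lit 4) (nat_lit 454) (nat_lit 382) (nat_lit 184)) (XT.lf (nat_lit 0) (nat_lit 32217335572) (nat_lit 76) (nat_lit 72941839606) (nat_lit 152) (nat_lit 211724743461) (nat_lit 19) (nat_lit 5) (nat_lit 20) (nat_lit 5) (nat_lit 21) (nat_lit 4) (nat_lit 455) (nat_lit 382) (nat_lit 183)))) (XT.nd (nat_lit 78) (nat_lit 76) (nat_lit 0) (XT.lf (nat_lit 0) (nat_lit 164303449409) (nat_lit 76) (nat_lit 5288235054) (nat_lit 152) (nat_lit 159733029337) (nat_lit 19) (nat_lit 5) (nat_lit 20) (nat_lit 5) (nat_lit 21) (nat_lit 4) (nat_lit 456) (nat_lit 382)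 (nat_lit 182)) (XT.nd (nat_lit 78) (nat_lit 76) (nat_lit 0) (XT.lf (nat_lit 0) (nat_lit 238271940949) (nat_lit 152) (nat_lit 40420940488) (nat_lit 0) (nat_lit 63643361241) (nat_lit 19) (nat_lit 5) (nat_lit 21) (nat_lit 4) (nat_lit 19) (nat_lit 4) (nat_lit 457) (nat_lit 382) (nat_lit 181)) (XT.lf (nat_lit 0) (nat_lit 93308446539) (nat_lit 76) (nat_lit 218620891417) (nat_lit 76) (nat_lit 43991853703) (nat_lit 18) (nat_lit 4) (nat_lit 19) (nat_lit 5) (nat_lit 19) (nat_lit 4) (nat_lit 458) (nat_lit 382) (nat_lit 180))))) (XT.nd (nat_lit 234) (nat_lit 152) (nat_lit 0) (XT.nd (nat_lit 78) (nat_lit 76) (nat_lit 0) (XT.lf (nat_lit 0) (nat_lit 19168802556) (nat_lit 152) (nat_lit 135333428668) (nat_lit 76) (nat_lit 215633489001) (nat_lit 17) (nat_lit 5) (nat_lit 19) (nat_lit 5) (nat_lit 18) (nat_lit 4) (nat_lit 459) (nat_lit 382) (nat_lit 179)) (XT.nd (nat_lit 78) (nat_lit 76) (nat_lit 0) (XT.lf (nat_lit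 0) (nat_lit 84008724173) (nat_lit 152) (nat_lit 2412004778) (nat_lit 76) (nat_lit 298604205044) (nat_lit 17) (nat_lit 5) (nat_lit 19) (nat_lit 5) (nat_lit 18) (nat_lit 4) (nat_lit 460) (nat_lit 382) (nat_lit 178)) (XT.lf (nat_lit 0) (nat_lit 141689800746) (nat_lit 76) (nat_lit 12612680093) (nat_lit 152) (nat_lit 246245535702) (nat_lit 16) (nat_lit 5) (nat_lit 17) (nat_lit 5) (nat_lit 18) (nat_lit 4) (nat_lit 461) (nat_lit 382) (nat_lit 177)))) (XT.nd (nat_lit 156) (nat_lit 76) (nat_lit 0) (XT.nd (nat_lit 78) (nat_lit 76) (nat_lit 0) (XT.lf (nat_lit 0) (nat_lit 229165157517) (nat_lit 152) (nat_lit 124779142586) (nat_lit 0) (nat_lit 62850241537) (nat_lit 16) (nat_lit 5) (nat_lit 18) (nat_lit 4) (nat_lit 16) (nat_lit 4) (nat_lit 462) (nat_lit 382) (nat_lit 176)) (XT.lf (nat_lit 0) (nat_lit 16318804282) (nat_lit 76) (nat_lit 291913392528) (nat_lit 76) (nat_lit 125598134777) (nat_lit 15) (nat_lit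 4) (nat_lit 16) (nat_lit 5) (nat_lit 16) (nat_lit 4) (nat_lit 463) (nat_lit 382) (nat_lit 175))) (XT.nd (nat_lit 78) (nat_lit 76) (nat_lit 0) (XT.lf (nat_lit 0) (nat_lit 168803090138) (nat_lit 76) (nat_lit 224562380033) (nat_lit 76) (nat_lit 58246796787) (nat_lit 15) (nat_lit 4) (nat_lit 16) (nat_lit 5) (nat_lit 16) (nat_lit 4) (nat_lit 464) (nat_lit 382) (nat_lit 174)) (XT.lf (nat_lit 0) (nat_lit 12072619690) (nat_lit 152) (nat_lit 141567022876) (nat_lit 76) (nat_lit 316633935483) (nat_lit 14) (nat_lit 5) (nat_lit 16) (nat_lit 5) (nat_lit 15) (nat_lit 4) (nat_lit 465) (nat_lit 382) (nat_lit 173)))))) (XT.nd (nat_lit 468) (nat_lit 152) (nat_lit 0) (XT.nd (nat_lit 234) (nat_lit 76) (nat_lit 0) (XT.nd (nat_lit 78) (nat_lit 0) (nat_lit 0) (XT.lf (nat_lit 0) (nat_lit 5972984620) (nat_lit 76) (nat_lit 78070514451) (nat_lit 152) (nat_lit 405772064055) (nat_lit 13) (nat_lit 5) (nat_lit 14) (nat_lit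 5) (nat_lit 15) (nat_lit 4) (nat_lit 466) (nat_lit 382) (nat_lit 172)) (XT.nd (nat_lit 78) (nat_lit 0) (nat_lit 0) (XT.lf (nat_lit 0) (nat_lit 162069382766) (nat_lit 152) (nat_lit 344469696698) (nat_lit 0) (nat_lit 3672745001) (nat_lit 13) (nat_lit 5) (nat_lit 15) (nat_lit 4) (nat_lit 13) (nat_lit 4) (nat_lit 467) (nat_lit 382) (nat_lit 171)) (XT.lf (nat_lit 0) (nat_lit 245276131136) (nat_lit 152) (nat_lit 199408550899) (nat_lit 0) (nat_lit 86879238336) (nat_lit 13) (nat_lit 5) (nat_lit 15) (nat_lit 4) (nat_lit 13) (nat_lit 4) (nat_lit 468) (nat_lit 382) (nat_lit 170)))) (XT.nd (nat_lit 78) (nat_lit 76) (nat_lit 0) (XT.lf (nat_lit 0) (nat_lit 332642955964) (nat_lit 152) (nat_lit 47094857906) (nat_lit 0) (nat_lit 174245820274) (nat_lit 13) (nat_lit 5) (nat_lit 15) (nat_lit 4) (nat_lit 13) (nat_lit 4) (nat_lit 469) (nat_lit 382) (nat_lit 169)) (XT.nd (nat_lit 78) (nat_lit 0) (nat_lit 0) (XT.lf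 (nat_lit 0) (nat_lit 116564836665) (nat_lit 76) (nat_lit 309632940607) (nat_lit 76) (nat_lit 151235573593) (nat_lit 12) (nat_lit 4) (nat_lit 13) (nat_lit 5) (nat_lit 13) (nat_lit 4) (nat_lit 470) (nat_lit 382) (nat_lit 168)) (XT.lf (nat_lit 0) (nat_lit 290042065118) (nat_lit 76) (nat_lit 235185604572) (nat_lit 76) (nat_lit 76788017249) (nat_lit 12) (nat_lit 4) (nat_lit 13) (nat_lit 5) (nat_lit 13) (nat_lit 4) (nat_lit 471) (nat_lit 382) (nat_lit 167))))) (XT.nd (nat_lit 46254) (nat_lit 0) (nat_lit 7600) (XT.nd (nat_lit 78) (nat_lit 76) (nat_lit 0) (XT.lf (nat_lit 0) (nat_lit 1337450573) (nat_lit 152) (nat_lit 155656023464) (nat_lit 76) (nat_lit 470832598839) (nat_lit 11) (nat_lit 5) (nat_lit 13) (nat_lit 5) (nat_lit 12) (nat_lit 4) (nat_lit 472) (nat_lit 382) (nat_lit 166)) (XT.nd (nat_lit 46098) (nat_lit 0) (nat_lit 7600) (XT.lf (nat_lit 0) (nat_lit 7456859948) (nat_lit 76) (nat_lit 73447948302)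 (nat_lit 152) (nat_lit 573953419011) (nat_lit 10) (nat_lit 5) (nat_lit 11) (nat_lit 5) (nat_lit 12) (nat_lit 4) (nat_lit 473) (nat_lit 382) (nat_lit 165)) (XT.lf (nat_lit 0) (nat_lit 3352056587) (nat_lit 836) (nat_lit 6625270140) (nat_lit 836) (nat_lit 6625270140) (nat_lit 110) (nat_lit 3) (nat_lit 121) (nat_lit 3) (nat_lit 121) (nat_lit 5) (nat_lit 383) (nat_lit 383) (nat_lit 254)))) (XT.nd (nat_lit 156) (nat_lit 0) (nat_lit 76) (XT.nd (nat_lit 78) (nat_lit 0) (nat_lit 76) (XT.lf (nat_lit 76) (nat_lit 2839586077) (nat_lit 0) (nat_lit 4134335918) (nat_lit 836) (nat_lit 27056250419) (nat_lit 111) (nat_lit 5) (nat_lit 110) (nat_lit 3) (nat_lit 121) (nat_lit 5) (nat_lit 384) (nat_lit 383) (nat_lit 253)) (XT.lf (nat_lit 0) (nat_lit 7676396237) (nat_lit 760) (nat_lit 14891638766) (nat_lit 836) (nat_lit 12307408890) (nat_lit 111) (nat_lit 5) (nat_lit 121) (nat_lit 5) (nat_lit 122) (nat_lit 5)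 (nat_lit 385) (nat_lit 383) (nat_lit 252))) (XT.nd (nat_lit 78) (nat_lit 0) (nat_lit 76) (XT.lf (nat_lit 76) (nat_lit 2223526057) (nat_lit 0) (nat_lit 6289427235) (nat_lit 836) (nat_lit 27245080190) (nat_lit 112) (nat_lit 5) (nat_lit 111) (nat_lit 5) (nat_lit 122) (nat_lit 5) (nat_lit 386) (nat_lit 383) (nat_lit 251)) (XT.lf (nat_lit 0) (nat_lit 9812960238) (nat_lit 760) (nat_lit 16135770023) (nat_lit 836) (nat_lit 10714943561) (nat_lit 112) (nat_lit 5) (nat_lit 122) (nat_lit 5) (nat_lit 123) (nat_lit 5) (nat_lit 387) (nat_lit 383) (nat_lit 250))))))))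
noncomputable def xc194 : XT := (XT.nd (nat_lit 1950) (nat_lit 2584) (nat_lit 0) (XT.nd (nat_lit 936) (nat_lit 2128) (nat_lit 0) (XT.nd (nat_lit 468) (nat_lit 1292) (nat_lit 0) (XT.nd (nat_lit 234) (nat_lit 0) (nat_lit 152) (XT.nd (nat_lit 78) (nat_lit 0) (nat_lit 76) (XT.lf (nat_lit 76) (nat_lit 2094670661) (nat_lit 0) (nat_lit 9215890402) (nat_lit 836) (nat_lit 26297407698) (nat_lit 113) (nat_lit 5) (nat_lit 112) (nat_lit 5) (nat_lit 123) (nat_lit 5) (nat_lit 388) (nat_lit 383) (nat_lit 249)) (XT.nd (nat_lit 78) (nat_lit 0) (nat_lit 0) (XT.lf (nat_lit 0) (nat_lit 13288131017) (nat_lit 760) (nat_lit 16926194657) (nat_lit 836) (nat_lit 8364900471) (nat_lit 113) (nat_lit 5) (nat_lit 123) (nat_lit 5) (nat_lit 124) (nat_lit 5) (nat_lit 389) (nat_lit 383) (nat_lit 248)) (XT.lf (nat_lit 76) (nat_lit 2517563759) (nat_lit 0) (nat_lit 13034468059) (nat_lit 836) (nat_lit 24037644013) (nat_lit 114)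 (nat_lit 5) (nat_lit 113) (nat_lit 5) (nat_lit 124) (nat_lit 5) (nat_lit 390) (nat_lit 383) (nat_lit 247)))) (XT.nd (nat_lit 78) (nat_lit 0) (nat_lit 0) (XT.lf (nat_lit 0) (nat_lit 18295794930) (nat_lit 760) (nat_lit 17200313744) (nat_lit 836) (nat_lit 5136207915) (nat_lit 114) (nat_lit 5) (nat_lit 124) (nat_lit 5) (nat_lit 125) (nat_lit 5) (nat_lit 391) (nat_lit 383) (nat_lit 246)) (XT.nd (nat_lit 78) (nat_lit 0) (nat_lit 76) (XT.lf (nat_lit 76) (nat_lit 3563234653) (nat_lit 0) (nat_lit 17880139907) (nat_lit 836) (nat_lit 20270385266) (nat_lit 115) (nat_lit 5) (nat_lit 114) (nat_lit 5) (nat_lit 125) (nat_lit 5) (nat_lit 392) (nat_lit 383) (nat_lit 245)) (XT.lf (nat_lit 0) (nat_lit 25051448359) (nat_lit 760) (nat_lit 16889304563) (nat_lit 76) (nat_lit 893368315) (nat_lit 115) (nat_lit 5) (nat_lit 125) (nat_lit 5) (nat_lit 116) (nat_lit 5) (nat_lit 393) (nat_lit 383) (nat_lit 244))))) (XT.nd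 (nat_lit 234) (nat_lit 380) (nat_lit 0) (XT.nd (nat_lit 78) (nat_lit 380) (nat_lit 0) (XT.lf (nat_lit 0) (nat_lit 5309602345) (nat_lit 760) (nat_lit 23903878256) (nat_lit 836) (nat_lit 14778344064) (nat_lit 105) (nat_lit 5) (nat_lit 115) (nat_lit 5) (nat_lit 116) (nat_lit 5) (nat_lit 394) (nat_lit 383) (nat_lit 243)) (XT.nd (nat_lit 78) (nat_lit 380) (nat_lit 0) (XT.lf (nat_lit 0) (nat_lit 29202650451) (nat_lit 760) (nat_lit 4664615867) (nat_lit 836) (nat_lit 11325965962) (nat_lit 105) (nat_lit 5) (nat_lit 115) (nat_lit 5) (nat_lit 116) (nat_lit 5) (nat_lit 395) (nat_lit 383) (nat_lit 242)) (XT.lf (nat_lit 0) (nat_lit 7841882307) (nat_lit 380) (nat_lit 31274602464) (nat_lit 456) (nat_lit 7320089860) (nat_lit 100) (nat_lit 5) (nat_lit 105) (nat_lit 5) (nat_lit 106) (nat_lit 5) (nat_lit 396) (nat_lit 383) (nat_lit 241)))) (XT.nd (nat_lit 78) (nat_lit 380) (nat_lit 0) (XT.lf (nat_lit 0) (nat_lit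 33339986570) (nat_lit 380) (nat_lit 11632035415) (nat_lit 456) (nat_lit 2752870680) (nat_lit 100) (nat_lit 5) (nat_lit 105) (nat_lit 5) (nat_lit 106) (nat_lit 5) (nat_lit 397) (nat_lit 383) (nat_lit 240)) (XT.nd (nat_lit 78) (nat_lit 0) (nat_lit 0) (XT.lf (nat_lit 0) (nat_lit 2296486276) (nat_lit 380) (nat_lit 37845979439) (nat_lit 76) (nat_lit 8917609771) (nat_lit 95) (nat_lit 5) (nat_lit 100) (nat_lit 5) (nat_lit 96) (nat_lit 5) (nat_lit 398) (nat_lit 383) (nat_lit 239)) (XT.lf (nat_lit 0) (nat_lit 7942045153) (nat_lit 380) (nat_lit 12099369722) (nat_lit 76) (nat_lit 30396534952) (nat_lit 95) (nat_lit 5) (nat_lit 100) (nat_lit 5) (nat_lit 96) (nat_lit 5) (nat_lit 399) (nat_lit 383) (nat_lit 238)))))) (XT.nd (nat_lit 468) (nat_lit 912) (nat_lit 0) (XT.nd (nat_lit 234) (nat_lit 532) (nat_lit 0) (XT.nd (nat_lit 78) (nat_lit 304) (nat_lit 0) (XT.lf (nat_lit 0) (nat_lit 14129345797) (nat_lit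 456) (nat_lit 36467114438) (nat_lit 76) (nat_lit 1275285657) (nat_lit 90) (nat_lit 5) (nat_lit 96) (nat_lit 5) (nat_lit 91) (nat_lit 5) (nat_lit 400) (nat_lit 383) (nat_lit 237)) (XT.nd (nat_lit 78) (nat_lit 304) (nat_lit 0) (XT.lf (nat_lit 0) (nat_lit 21160933792) (nat_lit 456) (nat_lit 8997134698) (nat_lit 76) (nat_lit 23192418296) (nat_lit 90) (nat_lit 5) (nat_lit 96) (nat_lit 5) (nat_lit 91) (nat_lit 5) (nat_lit 401) (nat_lit 383) (nat_lit 236)) (XT.lf (nat_lit 0) (nat_lit 20500451342) (nat_lit 304) (nat_lit 8361916193) (nat_lit 380) (nat_lit 26024884959) (nat_lit 86) (nat_lit 5) (nat_lit 90) (nat_lit 5) (nat_lit 91) (nat_lit 5) (nat_lit 402) (nat_lit 383) (nat_lit 235)))) (XT.nd (nat_lit 78) (nat_lit 532) (nat_lit 0) (XT.lf (nat_lit 0) (nat_lit 37328750194) (nat_lit 380) (nat_lit 4939306802) (nat_lit 76) (nat_lit 14213806664) (nat_lit 86) (nat_lit 5) (nat_lit 91) (nat_lit 5) (nat_lit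 87) (nat_lit 5) (nat_lit 403) (nat_lit 383) (nat_lit 234)) (XT.nd (nat_lit 78) (nat_lit 228) (nat_lit 0) (XT.lf (nat_lit 0) (nat_lit 26695930715) (nat_lit 304) (nat_lit 20074731102) (nat_lit 380) (nat_lit 11357934063) (nat_lit 82) (nat_lit 5) (nat_lit 86) (nat_lit 5) (nat_lit 87) (nat_lit 5) (nat_lit 404) (nat_lit 383) (nat_lit 233)) (XT.lf (nat_lit 0) (nat_lit 182980347) (nat_lit 228) (nat_lit 56638343226) (nat_lit 304) (nat_lit 3029509350) (nat_lit 79) (nat_lit 5) (nat_lit 82) (nat_lit 5) (nat_lit 83) (nat_lit 5) (nat_lit 405) (nat_lit 383) (nat_lit 232))))) (XT.nd (nat_lit 234) (nat_lit 532) (nat_lit 0) (XT.nd (nat_lit 78) (nat_lit 304) (nat_lit 0) (XT.lf (nat_lit 0) (nat_lit 6400952247) (nat_lit 304) (nat_lit 27590992493) (nat_lit 76) (nat_lit 27619349202) (nat_lit 78) (nat_lit 5) (nat_lit 82) (nat_lit 5) (nat_lit 79) (nat_lit 5) (nat_lit 406) (nat_lit 383) (nat_lit 231)) (XT.nd (nat_lit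 78) (nat_lit 0) (nat_lit 0) (XT.lf (nat_lit 0) (nat_lit 6237737550) (nat_lit 304) (nat_lit 10059247116) (nat_lit 380) (nat_lit 47155517996) (nat_lit 74) (nat_lit 5) (nat_lit 78) (nat_lit 5) (nat_lit 79) (nat_lit 5) (nat_lit 407) (nat_lit 383) (nat_lit 230)) (XT.lf (nat_lit 0) (nat_lit 27396538418) (nat_lit 380) (nat_lit 22891546052) (nat_lit 76) (nat_lit 15062252136) (nat_lit 74) (nat_lit 5) (nat_lit 79) (nat_lit 5) (nat_lit 75) (nat_lit 5) (nat_lit 408) (nat_lit 383) (nat_lit 229)))) (XT.nd (nat_lit 156) (nat_lit 304) (nat_lit 0) (XT.nd (nat_lit 78) (nat_lit 0) (nat_lit 0) (XT.lf (nat_lit 0) (nat_lit 13410242397) (nat_lit 228) (nat_lit 26013682257) (nat_lit 304) (nat_lit 27900495590) (nat_lit 71) (nat_lit 5) (nat_lit 74) (nat_lit 5) (nat_lit 75) (nat_lit 5) (nat_lit 409) (nat_lit 383) (nat_lit 228)) (XT.lf (nat_lit 0) (nat_lit 52319996280) (nat_lit 228) (nat_lit 118979557) (nat_lit 304)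 (nat_lit 16938918144) (nat_lit 71) (nat_lit 5) (nat_lit 74) (nat_lit 5) (nat_lit 75) (nat_lit 5) (nat_lit 410) (nat_lit 383) (nat_lit 227))) (XT.nd (nat_lit 78) (nat_lit 76) (nat_lit 0) (XT.lf (nat_lit 0) (nat_lit 21918233836) (nat_lit 228) (nat_lit 44950071456) (nat_lit 304) (nat_lit 4627560494) (nat_lit 68) (nat_lit 5) (nat_lit 71) (nat_lit 5) (nat_lit 72) (nat_lit 5) (nat_lit 411) (nat_lit 383) (nat_lit 226)) (XT.lf (nat_lit 0) (nat_lit 8327991610) (nat_lit 304) (nat_lit 10408022598) (nat_lit 76) (nat_lit 54962530859) (nat_lit 67) (nat_lit 5) (nat_lit 71) (nat_lit 5) (nat_lit 68) (nat_lit 5) (nat_lit 412) (nat_lit 383) (nat_lit 225))))))) (XT.nd (nat_lit 1014) (nat_lit 988) (nat_lit 0) (XT.nd (nat_lit 468) (nat_lit 684) (nat_lit 0) (XT.nd (nat_lit 234) (nat_lit 456) (nat_lit 0) (XT.nd (nat_lit 78) (nat_lit 228) (nat_lit 0) (XT.lf (nat_lit 0) (nat_lit 22415343145) (nat_lit 304) (nat_lit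 44473851719) (nat_lit 76) (nat_lit 9086394031) (nat_lit 64) (nat_lit 5) (nat_lit 68) (nat_lit 5) (nat_lit 65) (nat_lit 5) (nat_lit 413) (nat_lit 383) (nat_lit 224)) (XT.nd (nat_lit 78) (nat_lit 228) (nat_lit 0) (XT.lf (nat_lit 0) (nat_lit 37692139366) (nat_lit 304) (nat_lit 2801169364) (nat_lit 76) (nat_lit 37848922878) (nat_lit 64) (nat_lit 5) (nat_lit 68) (nat_lit 5) (nat_lit 65) (nat_lit 5) (nat_lit 414) (nat_lit 383) (nat_lit 223)) (XT.lf (nat_lit 0) (nat_lit 42307549761) (nat_lit 228) (nat_lit 12084598243) (nat_lit 304) (nat_lit 26402090346) (nat_lit 61) (nat_lit 5) (nat_lit 64) (nat_lit 5) (nat_lit 65) (nat_lit 5) (nat_lit 415) (nat_lit 383) (nat_lit 222)))) (XT.nd (nat_lit 78) (nat_lit 304) (nat_lit 0) (XT.lf (nat_lit 0) (nat_lit 6325389141) (nat_lit 152) (nat_lit 66024638138) (nat_lit 228) (nat_lit 10997675137) (nat_lit 59) (nat_lit 5) (nat_lit 61) (nat_lit 5) (nat_lit 62) (nat_lit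 5) (nat_lit 416) (nat_lit 383) (nat_lit 221)) (XT.nd (nat_lit 78) (nat_lit 228) (nat_lit 0) (XT.lf (nat_lit 0) (nat_lit 5870713181) (nat_lit 228) (nat_lit 31573363462) (nat_lit 76) (nat_lit 48537749778) (nat_lit 58) (nat_lit 5) (nat_lit 61) (nat_lit 5) (nat_lit 59) (nat_lit 5) (nat_lit 417) (nat_lit 383) (nat_lit 220)) (XT.lf (nat_lit 0) (nat_lit 16494002933) (nat_lit 228) (nat_lit 6975359185) (nat_lit 304) (nat_lit 65256458693) (nat_lit 55) (nat_lit 5) (nat_lit 58) (nat_lit 5) (nat_lit 59) (nat_lit 5) (nat_lit 418) (nat_lit 383) (nat_lit 219))))) (XT.nd (nat_lit 234) (nat_lit 532) (nat_lit 0) (XT.nd (nat_lit 78) (nat_lit 152) (nat_lit 0) (XT.lf (nat_lit 0) (nat_lit 42880936562) (nat_lit 304) (nat_lit 23920403817) (nat_lit 76) (nat_lit 24759025295) (nat_lit 55) (nat_lit 5) (nat_lit 59) (nat_lit 5) (nat_lit 56) (nat_lit 5) (nat_lit 419) (nat_lit 383) (nat_lit 218)) (XT.nd (nat_lit 78) (nat_lit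 0) (nat_lit 0) (XT.lf (nat_lit 0) (nat_lit 27573153490) (nat_lit 152) (nat_lit 36233766175) (nat_lit 228) (nat_lit 30702527012) (nat_lit 53) (nat_lit 5) (nat_lit 55) (nat_lit 5) (nat_lit 56) (nat_lit 5) (nat_lit 420) (nat_lit 383) (nat_lit 217)) (XT.lf (nat_lit 0) (nat_lit 82470286307) (nat_lit 152) (nat_lit 3713028690) (nat_lit 228) (nat_lit 11402461448) (nat_lit 53) (nat_lit 5) (nat_lit 55) (nat_lit 5) (nat_lit 56) (nat_lit 5) (nat_lit 421) (nat_lit 383) (nat_lit 216)))) (XT.nd (nat_lit 156) (nat_lit 304) (nat_lit 0) (XT.nd (nat_lit 78) (nat_lit 0) (nat_lit 0) (XT.lf (nat_lit 0) (nat_lit 9697314252) (nat_lit 228) (nat_lit 60814093663) (nat_lit 76) (nat_lit 30241678336) (nat_lit 50) (nat_lit 5) (nat_lit 53) (nat_lit 5) (nat_lit 51) (nat_lit 5) (nat_lit 422) (nat_lit 383) (nat_lit 215)) (XT.lf (nat_lit 0) (nat_lit 31788989610) (nat_lit 228) (nat_lit 6048514605) (nat_lit 76) (nat_lit 66215905956)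 (nat_lit 50) (nat_lit 5) (nat_lit 53) (nat_lit 5) (nat_lit 51) (nat_lit 5) (nat_lit 423) (nat_lit 383) (nat_lit 214))) (XT.nd (nat_lit 78) (nat_lit 152) (nat_lit 0) (XT.lf (nat_lit 0) (nat_lit 53155178056) (nat_lit 152) (nat_lit 2659071363) (nat_lit 228) (nat_lit 51663051139) (nat_lit 48) (nat_lit 5) (nat_lit 50) (nat_lit 5) (nat_lit 51) (nat_lit 5) (nat_lit 424) (nat_lit 383) (nat_lit 213)) (XT.lf (nat_lit 0) (nat_lit 4053174994) (nat_lit 152) (nat_lit 77689283557) (nat_lit 228) (nat_lit 29294842889) (nat_lit 46) (nat_lit 5) (nat_lit 48) (nat_lit 5) (nat_lit 49) (nat_lit 5) (nat_lit 425) (nat_lit 383) (nat_lit 212)))))) (XT.nd (nat_lit 468) (nat_lit 456) (nat_lit 0) (XT.nd (nat_lit 234) (nat_lit 304) (nat_lit 0) (XT.nd (nat_lit 78) (nat_lit 228) (nat_lit 0) (XT.lf (nat_lit 0) (nat_lit 67186694946) (nat_lit 152) (nat_lit 42742373612) (nat_lit 228) (nat_lit 4798134562) (nat_lit 46) (nat_lit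 5) (nat_lit 48) (nat_lit 5) (nat_lit 49) (nat_lit 5) (nat_lit 426) (nat_lit 383) (nat_lit 211)) (XT.nd (nat_lit 78) (nat_lit 0) (nat_lit 0) (XT.lf (nat_lit 0) (nat_lit 15028204173) (nat_lit 152) (nat_lit 5459315936) (nat_lit 228) (nat_lit 98086056842) (nat_lit 43) (nat_lit 5) (nat_lit 45) (nat_lit 5) (nat_lit 46) (nat_lit 5) (nat_lit 427) (nat_lit 383) (nat_lit 210)) (XT.lf (nat_lit 0) (nat_lit 48219659318) (nat_lit 228) (nat_lit 40815401284) (nat_lit 76) (nat_lit 33506103683) (nat_lit 43) (nat_lit 5) (nat_lit 46) (nat_lit 5) (nat_lit 44) (nat_lit 5) (nat_lit 428) (nat_lit 383) (nat_lit 209)))) (XT.nd (nat_lit 78) (nat_lit 152) (nat_lit 0) (XT.lf (nat_lit 0) (nat_lit 25785516981) (nat_lit 152) (nat_lit 52044177215) (nat_lit 228) (nat_lit 48852872583) (nat_lit 41) (nat_lit 5) (nat_lit 43) (nat_lit 5) (nat_lit 44) (nat_lit 5) (nat_lit 429) (nat_lit 383) (nat_lit 208)) (XT.nd (nat_lit 78) (nat_lit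 152) (nat_lit 0) (XT.lf (nat_lit 0) (nat_lit 97132169143) (nat_lit 152) (nat_lit 12478514749) (nat_lit 228) (nat_lit 21385833067) (nat_lit 41) (nat_lit 5) (nat_lit 43) (nat_lit 5) (nat_lit 44) (nat_lit 5) (nat_lit 430) (nat_lit 383) (nat_lit 207)) (XT.lf (nat_lit 0) (nat_lit 8267666666) (nat_lit 152) (nat_lit 98350408620) (nat_lit 76) (nat_lit 28849685201) (nat_lit 39) (nat_lit 5) (nat_lit 41) (nat_lit 5) (nat_lit 40) (nat_lit 5) (nat_lit 431) (nat_lit 383) (nat_lit 206))))) (XT.nd (nat_lit 234) (nat_lit 304) (nat_lit 0) (XT.nd (nat_lit 78) (nat_lit 152) (nat_lit 0) (XT.lf (nat_lit 0) (nat_lit 39471870538) (nat_lit 152) (nat_lit 27875915507) (nat_lit 76) (nat_lit 72757914294) (nat_lit 39) (nat_lit 5) (nat_lit 41) (nat_lit 5) (nat_lit 40) (nat_lit 5) (nat_lit 432) (nat_lit 383) (nat_lit 205)) (XT.nd (nat_lit 78) (nat_lit 0) (nat_lit 0) (XT.lf (nat_lit 0) (nat_lit 47646034869) (nat_lit 152)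 (nat_lit 25333429918) (nat_lit 228) (nat_lit 71958913564) (nat_lit 37) (nat_lit 5) (nat_lit 39) (nat_lit 5) (nat_lit 40) (nat_lit 5) (nat_lit 433) (nat_lit 383) (nat_lit 204)) (XT.lf (nat_lit 0) (nat_lit 108934802734) (nat_lit 228) (nat_lit 22379432101) (nat_lit 76) (nat_lit 18659837401) (nat_lit 37) (nat_lit 5) (nat_lit 40) (nat_lit 5) (nat_lit 38) (nat_lit 4) (nat_lit 434) (nat_lit 383) (nat_lit 203)))) (XT.nd (nat_lit 156) (nat_lit 152) (nat_lit 0) (XT.nd (nat_lit 78) (nat_lit 76) (nat_lit 0) (XT.lf (nat_lit 0) (nat_lit 57709708330) (nat_lit 76) (nat_lit 90293843610) (nat_lit 152) (nat_lit 7192216819) (nat_lit 36) (nat_lit 5) (nat_lit 37) (nat_lit 5) (nat_lit 38) (nat_lit 4) (nat_lit 435) (nat_lit 383) (nat_lit 202)) (XT.lf (nat_lit 0) (nat_lit 27824455845) (nat_lit 152) (nat_lit 18529311414) (nat_lit 76) (nat_lit 114283426322) (nat_lit 35) (nat_lit 5) (nat_lit 37) (nat_lit 5) (nat_lit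 36) (nat_lit 5) (nat_lit 436) (nat_lit 383) (nat_lit 201))) (XT.nd (nat_lit 78) (nat_lit 0) (nat_lit 0) (XT.lf (nat_lit 0) (nat_lit 65401545808) (nat_lit 228) (nat_lit 99927699293) (nat_lit 76) (nat_lit 962984959) (nat_lit 33) (nat_lit 5) (nat_lit 36) (nat_lit 5) (nat_lit 34) (nat_lit 4) (nat_lit 437) (nat_lit 383) (nat_lit 200)) (XT.lf (nat_lit 0) (nat_lit 105935706709) (nat_lit 228) (nat_lit 16834146560) (nat_lit 76) (nat_lit 49406254405) (nat_lit 33) (nat_lit 5) (nat_lit 36) (nat_lit 5) (nat_lit 34) (nat_lit 4) (nat_lit 438) (nat_lit 383) (nat_lit 199))))))))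
noncomputable def xc195 : XT := (XT.nd (nat_lit 1950) (nat_lit 380) (nat_lit 0) (XT.nd (nat_lit 936) (nat_lit 532) (nat_lit 0) (XT.nd (nat_lit 468) (nat_lit 380) (nat_lit 0) (XT.nd (nat_lit 234) (nat_lit 76) (nat_lit 0) (XT.nd (nat_lit 78) (nat_lit 228) (nat_lit 0) (XT.lf (nat_lit 0) (nat_lit 72741172643) (nat_lit 76) (nat_lit 76890497958) (nat_lit 152) (nat_lit 28665753948) (nat_lit 32) (nat_lit 5) (nat_lit 33) (nat_lit 5) (nat_lit 34) (nat_lit 4) (nat_lit 439) (nat_lit 383) (nat_lit 198)) (XT.nd (nat_lit 78) (nat_lit 152) (nat_lit 0) (XT.lf (nat_lit 0) (nat_lit 10731525651) (nat_lit 152) (nat_lit 17505035267) (nat_lit 76) (nat_lit 156465366630) (nat_lit 31) (nat_lit 5) (nat_lit 33) (nat_lit 5) (nat_lit 32) (nat_lit 5) (nat_lit 440) (nat_lit 383) (nat_lit 197)) (XT.lf (nat_lit 0) (nat_lit 52720141215) (nat_lit 228) (nat_lit 114786917995) (nat_lit 76) (nat_lit 23816858612) (nat_lit 29) (nat_lit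 5) (nat_lit 32) (nat_lit 5) (nat_lit 30) (nat_lit 4) (nat_lit 441) (nat_lit 383) (nat_lit 196)))) (XT.nd (nat_lit 78) (nat_lit 76) (nat_lit 0) (XT.lf (nat_lit 0) (nat_lit 97571834092) (nat_lit 228) (nat_lit 22842104956) (nat_lit 76) (nat_lit 77824886341) (nat_lit 29) (nat_lit 5) (nat_lit 32) (nat_lit 5) (nat_lit 30) (nat_lit 4) (nat_lit 442) (nat_lit 383) (nat_lit 195)) (XT.nd (nat_lit 78) (nat_lit 0) (nat_lit 0) (XT.lf (nat_lit 0) (nat_lit 76135780866) (nat_lit 76) (nat_lit 69718486429) (nat_lit 152) (nat_lit 59585803354) (nat_lit 28) (nat_lit 5) (nat_lit 29) (nat_lit 5) (nat_lit 30) (nat_lit 4) (nat_lit 443) (nat_lit 383) (nat_lit 194)) (XT.lf (nat_lit 0) (nat_lit 180854614891) (nat_lit 76) (nat_lit 16082522542) (nat_lit 152) (nat_lit 16044925070) (nat_lit 28) (nat_lit 5) (nat_lit 29) (nat_lit 5) (nat_lit 30) (nat_lit 4) (nat_lit 444) (nat_lit 383) (nat_lit 193))))) (XT.nd (nat_lit 234)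 (nat_lit 152) (nat_lit 0) (XT.nd (nat_lit 78) (nat_lit 76) (nat_lit 0) (XT.lf (nat_lit 0) (nat_lit 30496965150) (nat_lit 152) (nat_lit 149735999170) (nat_lit 76) (nat_lit 40556341321) (nat_lit 26) (nat_lit 5) (nat_lit 28) (nat_lit 5) (nat_lit 27) (nat_lit 4) (nat_lit 445) (nat_lit 383) (nat_lit 192)) (XT.nd (nat_lit 78) (nat_lit 76) (nat_lit 0) (XT.lf (nat_lit 0) (nat_lit 79642889616) (nat_lit 152) (nat_lit 48987760835) (nat_lit 76) (nat_lit 100302301269) (nat_lit 26) (nat_lit 5) (nat_lit 28) (nat_lit 5) (nat_lit 27) (nat_lit 4) (nat_lit 446) (nat_lit 383) (nat_lit 191)) (XT.lf (nat_lit 0) (nat_lit 58674953161) (nat_lit 76) (nat_lit 73486754813) (nat_lit 152) (nat_lit 105276292322) (nat_lit 25) (nat_lit 5) (nat_lit 26) (nat_lit 5) (nat_lit 27) (nat_lit 4) (nat_lit 447) (nat_lit 383) (nat_lit 190)))) (XT.nd (nat_lit 78) (nat_lit 152) (nat_lit 0) (XT.lf (nat_lit 0) (nat_lit 173420660644) (nat_lit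 76) (nat_lit 14714964401) (nat_lit 152) (nat_lit 58191218441) (nat_lit 25) (nat_lit 5) (nat_lit 26) (nat_lit 5) (nat_lit 27) (nat_lit 4) (nat_lit 448) (nat_lit 383) (nat_lit 189)) (XT.nd (nat_lit 78) (nat_lit 76) (nat_lit 0) (XT.lf (nat_lit 0) (nat_lit 38749148347) (nat_lit 76) (nat_lit 209497345337) (nat_lit 76) (nat_lit 7346722436) (nat_lit 24) (nat_lit 4) (nat_lit 25) (nat_lit 5) (nat_lit 25) (nat_lit 4) (nat_lit 449) (nat_lit 383) (nat_lit 188)) (XT.lf (nat_lit 0) (nat_lit 46062146212) (nat_lit 152) (nat_lit 107723933681) (nat_lit 76) (nat_lit 111426101121) (nat_lit 23) (nat_lit 5) (nat_lit 25) (nat_lit 5) (nat_lit 24) (nat_lit 4) (nat_lit 450) (nat_lit 383) (nat_lit 187)))))) (XT.nd (nat_lit 468) (nat_lit 228) (nat_lit 0) (XT.nd (nat_lit 234) (nat_lit 228) (nat_lit 0) (XT.nd (nat_lit 78) (nat_lit 0) (nat_lit 0) (XT.lf (nat_lit 0) (nat_lit 6953503460) (nat_lit 76) (nat_lit 95049186081)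 (nat_lit 152) (nat_lit 173297976306) (nat_lit 22) (nat_lit 5) (nat_lit 23) (nat_lit 5) (nat_lit 24) (nat_lit 4) (nat_lit 451) (nat_lit 383) (nat_lit 186)) (XT.nd (nat_lit 78) (nat_lit 0) (nat_lit 0) (XT.lf (nat_lit 0) (nat_lit 131103936314) (nat_lit 76) (nat_lit 31460254356) (nat_lit 152) (nat_lit 123238187776) (nat_lit 22) (nat_lit 5) (nat_lit 23) (nat_lit 5) (nat_lit 24) (nat_lit 4) (nat_lit 452) (nat_lit 383) (nat_lit 185)) (XT.lf (nat_lit 0) (nat_lit 226704613940) (nat_lit 152) (nat_lit 35919328718) (nat_lit 0) (nat_lit 34177691719) (nat_lit 22) (nat_lit 5) (nat_lit 24) (nat_lit 4) (nat_lit 22) (nat_lit 4) (nat_lit 453) (nat_lit 383) (nat_lit 184)))) (XT.nd (nat_lit 78) (nat_lit 152) (nat_lit 0) (XT.lf (nat_lit 0) (nat_lit 91201261680) (nat_lit 76) (nat_lit 204790053776) (nat_lit 76) (nat_lit 12262574847) (nat_lit 21) (nat_lit 4) (nat_lit 22) (nat_lit 5) (nat_lit 22) (nat_lit 4) (nat_lit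 454) (nat_lit 383) (nat_lit 183)) (XT.nd (nat_lit 78) (nat_lit 76) (nat_lit 0) (XT.lf (nat_lit 0) (nat_lit 47530347676) (nat_lit 152) (nat_lit 95090796391) (nat_lit 76) (nat_lit 177588887766) (nat_lit 20) (nat_lit 5) (nat_lit 22) (nat_lit 5) (nat_lit 21) (nat_lit 4) (nat_lit 455) (nat_lit 383) (nat_lit 182)) (XT.lf (nat_lit 0) (nat_lit 33850827430) (nat_lit 76) (nat_lit 76578119647) (nat_lit 152) (nat_lit 222298575434) (nat_lit 19) (nat_lit 5) (nat_lit 20) (nat_lit 5) (nat_lit 21) (nat_lit 4) (nat_lit 456) (nat_lit 383) (nat_lit 181))))) (XT.nd (nat_lit 234) (nat_lit 152) (nat_lit 0) (XT.nd (nat_lit 78) (nat_lit 76) (nat_lit 0) (XT.lf (nat_lit 0) (nat_lit 172540169574) (nat_lit 76) (nat_lit 5542349722) (nat_lit 152) (nat_lit 167707866327) (nat_lit 19) (nat_lit 5) (nat_lit 20) (nat_lit 5) (nat_lit 21) (nat_lit 4) (nat_lit 457) (nat_lit 383) (nat_lit 180)) (XT.nd (nat_lit 78) (nat_lit 76)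 (nat_lit 0) (XT.lf (nat_lit 0) (nat_lit 250196405974) (nat_lit 152) (nat_lit 42421081993) (nat_lit 0) (nat_lit 66835022174) (nat_lit 19) (nat_lit 5) (nat_lit 21) (nat_lit 4) (nat_lit 19) (nat_lit 4) (nat_lit 458) (nat_lit 383) (nat_lit 179)) (XT.lf (nat_lit 0) (nat_lit 97994437199) (nat_lit 76) (nat_lit 229542039239) (nat_lit 76) (nat_lit 46180240013) (nat_lit 18) (nat_lit 4) (nat_lit 19) (nat_lit 5) (nat_lit 19) (nat_lit 4) (nat_lit 459) (nat_lit 383) (nat_lit 178)))) (XT.nd (nat_lit 156) (nat_lit 76) (nat_lit 0) (XT.nd (nat_lit 78) (nat_lit 0) (nat_lit 0) (XT.lf (nat_lit 0) (nat_lit 20137573828) (nat_lit 152) (nat_lit 142080168520) (nat_lit 76) (nat_lit 226424246233) (nat_lit 17) (nat_lit 5) (nat_lit 19) (nat_lit 5) (nat_lit 18) (nat_lit 4) (nat_lit 460) (nat_lit 383) (nat_lit 177)) (XT.lf (nat_lit 0) (nat_lit 88218999566) (nat_lit 152) (nat_lit 2513622558) (nat_lit 76) (nat_lit 313543065565)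 (nat_lit 17) (nat_lit 5) (nat_lit 19) (nat_lit 5) (nat_lit 18) (nat_lit 4) (nat_lit 461) (nat_lit 383) (nat_lit 176))) (XT.nd (nat_lit 78) (nat_lit 0) (nat_lit 0) (XT.lf (nat_lit 0) (nat_lit 148792967074) (nat_lit 76) (nat_lit 13234300049) (nat_lit 152) (nat_lit 258547666137) (nat_lit 16) (nat_lit 5) (nat_lit 17) (nat_lit 5) (nat_lit 18) (nat_lit 4) (nat_lit 462) (nat_lit 383) (nat_lit 175)) (XT.lf (nat_lit 0) (nat_lit 240632751560) (nat_lit 152) (nat_lit 130999985750) (nat_lit 0) (nat_lit 66001063655) (nat_lit 16) (nat_lit 5) (nat_lit 18) (nat_lit 4) (nat_lit 16) (nat_lit 4) (nat_lit 463) (nat_lit 383) (nat_lit 174))))))) (XT.nd (nat_lit 47112) (nat_lit 0) (nat_lit 6384) (XT.nd (nat_lit 468) (nat_lit 152) (nat_lit 0) (XT.nd (nat_lit 234) (nat_lit 76) (nat_lit 0) (XT.nd (nat_lit 78) (nat_lit 76) (nat_lit 0) (XT.lf (nat_lit 0) (nat_lit 17152566302) (nat_lit 76) (nat_lit 306500410186) (nat_lit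 76) (nat_lit 131868412284) (nat_lit 15) (nat_lit 4) (nat_lit 16) (nat_lit 5) (nat_lit 16) (nat_lit 4) (nat_lit 464) (nat_lit 383) (nat_lit 173)) (XT.nd (nat_lit 78) (nat_lit 76) (nat_lit 0) (XT.lf (nat_lit 0) (nat_lit 177260217792) (nat_lit 76) (nat_lit 235782259065) (nat_lit 76) (nat_lit 61149965929) (nat_lit 15) (nat_lit 4) (nat_lit 16) (nat_lit 5) (nat_lit 16) (nat_lit 4) (nat_lit 465) (nat_lit 383) (nat_lit 172)) (XT.lf (nat_lit 0) (nat_lit 12684705130) (nat_lit 152) (nat_lit 148628928794) (nat_lit 76) (nat_lit 332473199525) (nat_lit 14) (nat_lit 5) (nat_lit 16) (nat_lit 5) (nat_lit 15) (nat_lit 4) (nat_lit 466) (nat_lit 383) (nat_lit 171)))) (XT.nd (nat_lit 78) (nat_lit 0) (nat_lit 0) (XT.lf (nat_lit 0) (nat_lit 6287813832) (nat_lit 76) (nat_lit 81966164670) (nat_lit 152) (nat_lit 426051946814) (nat_lit 13) (nat_lit 5) (nat_lit 14) (nat_lit 5) (nat_lit 15) (nat_lit 4) (nat_lit 467)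 (nat_lit 383) (nat_lit 170)) (XT.nd (nat_lit 78) (nat_lit 0) (nat_lit 0) (XT.lf (nat_lit 0) (nat_lit 170180878034) (nat_lit 152) (nat_lit 361677492972) (nat_lit 0) (nat_lit 3863642669) (nat_lit 13) (nat_lit 5) (nat_lit 15) (nat_lit 4) (nat_lit 13) (nat_lit 4) (nat_lit 468) (nat_lit 383) (nat_lit 169)) (XT.lf (nat_lit 0) (nat_lit 257547581625) (nat_lit 152) (nat_lit 209364036957) (nat_lit 0) (nat_lit 91230114937) (nat_lit 13) (nat_lit 5) (nat_lit 15) (nat_lit 4) (nat_lit 13) (nat_lit 4) (nat_lit 469) (nat_lit 383) (nat_lit 168))))) (XT.nd (nat_lit 234) (nat_lit 76) (nat_lit 0) (XT.nd (nat_lit 78) (nat_lit 76) (nat_lit 0) (XT.lf (nat_lit 0) (nat_lit 349282383698) (nat_lit 152) (nat_lit 49435370814) (nat_lit 0) (nat_lit 182964696700) (nat_lit 13) (nat_lit 5) (nat_lit 15) (nat_lit 4) (nat_lit 13) (nat_lit 4) (nat_lit 470) (nat_lit 383) (nat_lit 167)) (XT.nd (nat_lit 78) (nat_lit 0) (nat_lit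 0) (XT.lf (nat_lit 0) (nat_lit 122407078970) (nat_lit 76) (nat_lit 325107739024) (nat_lit 76) (nat_lit 158789842209) (nat_lit 12) (nat_lit 4) (nat_lit 13) (nat_lit 5) (nat_lit 13) (nat_lit 4) (nat_lit 471) (nat_lit 383) (nat_lit 166)) (XT.lf (nat_lit 0) (nat_lit 304557502157) (nat_lit 76) (nat_lit 246938362312) (nat_lit 76) (nat_lit 80620265671) (nat_lit 12) (nat_lit 4) (nat_lit 13) (nat_lit 5) (nat_lit 13) (nat_lit 4) (nat_lit 472) (nat_lit 383) (nat_lit 165)))) (XT.nd (nat_lit 46254) (nat_lit 0) (nat_lit 7524) (XT.nd (nat_lit 46176) (nat_lit 0) (nat_lit 7524) (XT.lf (nat_lit 0) (nat_lit 1410916929) (nat_lit 152) (nat_lit 163425907247) (nat_lit 76) (nat_lit 494380222125) (nat_lit 11) (nat_lit 5) (nat_lit 13) (nat_lit 5) (nat_lit 12) (nat_lit 4) (nat_lit 473) (nat_lit 383) (nat_lit 164)) (XT.lf (nat_lit 0) (nat_lit 3576627966) (nat_lit 836) (nat_lit 6926605045) (nat_lit 836) (nat_lit 6926605045)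 (nat_lit 110) (nat_lit 3) (nat_lit 121) (nat_lit 3) (nat_lit 121) (nat_lit 5) (nat_lit 384) (nat_lit 384) (nat_lit 252))) (XT.nd (nat_lit 78) (nat_lit 0) (nat_lit 76) (XT.lf (nat_lit 76) (nat_lit 3040457147) (nat_lit 0) (nat_lit 4391591937) (nat_lit 836) (nat_lit 28294083777) (nat_lit 111) (nat_lit 5) (nat_lit 110) (nat_lit 3) (nat_lit 121) (nat_lit 5) (nat_lit 385) (nat_lit 384) (nat_lit 251)) (XT.lf (nat_lit 0) (nat_lit 8163684554) (nat_lit 760) (nat_lit 15574097848) (nat_lit 836) (nat_lit 12876187285) (nat_lit 111) (nat_lit 5) (nat_lit 121) (nat_lit 5) (nat_lit 122) (nat_lit 5) (nat_lit 386) (nat_lit 384) (nat_lit 250)))))) (XT.nd (nat_lit 468) (nat_lit 1216) (nat_lit 0) (XT.nd (nat_lit 234) (nat_lit 0) (nat_lit 152) (XT.nd (nat_lit 78) (nat_lit 0) (nat_lit 76) (XT.lf (nat_lit 76) (nat_lit 2395823234) (nat_lit 0) (nat_lit 6642273423) (nat_lit 836) (nat_lit 28502794213) (nat_lit 112) (nat_lit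 5) (nat_lit 111) (nat_lit 5) (nat_lit 122) (nat_lit 5) (nat_lit 387) (nat_lit 384) (nat_lit 249)) (XT.nd (nat_lit 78) (nat_lit 0) (nat_lit 0) (XT.lf (nat_lit 0) (nat_lit 10397795452) (nat_lit 760) (nat_lit 16878973478) (nat_lit 836) (nat_lit 11215313032) (nat_lit 112) (nat_lit 5) (nat_lit 122) (nat_lit 5) (nat_lit 123) (nat_lit 5) (nat_lit 388) (nat_lit 384) (nat_lit 248)) (XT.lf (nat_lit 76) (nat_lit 2261963675) (nat_lit 0) (nat_lit 9704804267) (nat_lit 836) (nat_lit 27517002276) (nat_lit 113) (nat_lit 5) (nat_lit 112) (nat_lit 5) (nat_lit 123) (nat_lit 5) (nat_lit 389) (nat_lit 384) (nat_lit 247)))) (XT.nd (nat_lit 78) (nat_lit 0) (nat_lit 0) (XT.lf (nat_lit 0) (nat_lit 14038480239) (nat_lit 760) (nat_lit 17708127739) (nat_lit 836) (nat_lit 8757222304) (nat_lit 113) (nat_lit 5) (nat_lit 123) (nat_lit 5) (nat_lit 124) (nat_lit 5) (nat_lit 390) (nat_lit 384) (nat_lit 246)) (XT.nd (nat_lit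 78) (nat_lit 0) (nat_lit 76) (XT.lf (nat_lit 76) (nat_lit 2706780265) (nat_lit 0) (nat_lit 13705692195) (nat_lit 836) (nat_lit 25152488031) (nat_lit 114) (nat_lit 5) (nat_lit 113) (nat_lit 5) (nat_lit 124) (nat_lit 5) (nat_lit 391) (nat_lit 384) (nat_lit 245)) (XT.lf (nat_lit 0) (nat_lit 19289189048) (nat_lit 760) (nat_lit 17995718089) (nat_lit 836) (nat_lit 5375040608) (nat_lit 114) (nat_lit 5) (nat_lit 124) (nat_lit 5) (nat_lit 125) (nat_lit 5) (nat_lit 392) (nat_lit 384) (nat_lit 244))))) (XT.nd (nat_lit 234) (nat_lit 760) (nat_lit 0) (XT.nd (nat_lit 78) (nat_lit 684) (nat_lit 0) (XT.lf (nat_lit 76) (nat_lit 3804965610) (nat_lit 0) (nat_lit 18786431478) (nat_lit 836) (nat_lit 21204206177) (nat_lit 115) (nat_lit 5) (nat_lit 114) (nat_lit 5) (nat_lit 125) (nat_lit 5) (nat_lit 393) (nat_lit 384) (nat_lit 243)) (XT.nd (nat_lit 78) (nat_lit 760) (nat_lit 0) (XT.lf (nat_lit 0) (nat_lit 26376079827)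 (nat_lit 760) (nat_lit 17669383530) (nat_lit 76) (nat_lit 926711595) (nat_lit 115) (nat_lit 5) (nat_lit 125) (nat_lit 5) (nat_lit 116) (nat_lit 5) (nat_lit 394) (nat_lit 384) (nat_lit 242)) (XT.lf (nat_lit 0) (nat_lit 5638430235) (nat_lit 760) (nat_lit 25105341101) (nat_lit 836) (nat_lit 15444116688) (nat_lit 105) (nat_lit 5) (nat_lit 115) (nat_lit 5) (nat_lit 116) (nat_lit 5) (nat_lit 395) (nat_lit 384) (nat_lit 241)))) (XT.nd (nat_lit 156) (nat_lit 380) (nat_lit 0) (XT.nd (nat_lit 78) (nat_lit 380) (nat_lit 0) (XT.lf (nat_lit 0) (nat_lit 30723114185) (nat_lit 760) (nat_lit 4903817071) (nat_lit 836) (nat_lit 11822602755) (nat_lit 105) (nat_lit 5) (nat_lit 115) (nat_lit 5) (nat_lit 116) (nat_lit 5) (nat_lit 396) (nat_lit 384) (nat_lit 240)) (XT.lf (nat_lit 0) (nat_lit 8296731951) (nat_lit 380) (nat_lit 32839612474) (nat_lit 456) (nat_lit 7618814499) (nat_lit 100) (nat_lit 5) (nat_lit 105)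 (nat_lit 5) (nat_lit 106) (nat_lit 5) (nat_lit 397) (nat_lit 384) (nat_lit 239))) (XT.nd (nat_lit 78) (nat_lit 380) (nat_lit 0) (XT.lf (nat_lit 0) (nat_lit 35066753069) (nat_lit 380) (nat_lit 12214856125) (nat_lit 456) (nat_lit 2826438162) (nat_lit 100) (nat_lit 5) (nat_lit 105) (nat_lit 5) (nat_lit 106) (nat_lit 5) (nat_lit 398) (nat_lit 384) (nat_lit 238)) (XT.lf (nat_lit 0) (nat_lit 2471345477) (nat_lit 380) (nat_lit 39674394517) (nat_lit 76) (nat_lit 9364300665) (nat_lit 95) (nat_lit 5) (nat_lit 100) (nat_lit 5) (nat_lit 96) (nat_lit 5) (nat_lit 399) (nat_lit 384) (nat_lit 237))))))))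
noncomputable def xc196 : XT := (XT.nd (nat_lit 1950) (nat_lit 1976) (nat_lit 0) (XT.nd (nat_lit 936) (nat_lit 1596) (nat_lit 0) (XT.nd (nat_lit 468) (nat_lit 836) (nat_lit 0) (XT.nd (nat_lit 234) (nat_lit 608) (nat_lit 0) (XT.nd (nat_lit 78) (nat_lit 380) (nat_lit 0) (XT.lf (nat_lit 0) (nat_lit 8396323493) (nat_lit 380) (nat_lit 12643496405) (nat_lit 76) (nat_lit 31917133514) (nat_lit 95) (nat_lit 5) (nat_lit 100) (nat_lit 5) (nat_lit 96) (nat_lit 5) (nat_lit 400) (nat_lit 384) (nat_lit 236)) (XT.nd (nat_lit 78) (nat_lit 0) (nat_lit 0) (XT.lf (nat_lit 0) (nat_lit 14891270917) (nat_lit 456) (nat_lit 38227876672) (nat_lit 76) (nat_lit 1343379274) (nat_lit 90) (nat_lit 5) (nat_lit 96) (nat_lit 5) (nat_lit 91) (nat_lit 5) (nat_lit 401) (nat_lit 384) (nat_lit 235)) (XT.lf (nat_lit 0) (nat_lit 22271797463) (nat_lit 456) (nat_lit 9387378588) (nat_lit 76) (nat_lit 24356162386) (nat_lit 90) (nat_lit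 5) (nat_lit 96) (nat_lit 5) (nat_lit 91) (nat_lit 5) (nat_lit 402) (nat_lit 384) (nat_lit 234)))) (XT.nd (nat_lit 78) (nat_lit 304) (nat_lit 0) (XT.lf (nat_lit 0) (nat_lit 21584125256) (nat_lit 304) (nat_lit 8772578254) (nat_lit 380) (nat_lit 27272320405) (nat_lit 86) (nat_lit 5) (nat_lit 90) (nat_lit 5) (nat_lit 91) (nat_lit 5) (nat_lit 403) (nat_lit 384) (nat_lit 233)) (XT.nd (nat_lit 78) (nat_lit 304) (nat_lit 0) (XT.lf (nat_lit 0) (nat_lit 39244076904) (nat_lit 380) (nat_lit 5128056438) (nat_lit 76) (nat_lit 14931350162) (nat_lit 86) (nat_lit 5) (nat_lit 91) (nat_lit 5) (nat_lit 87) (nat_lit 5) (nat_lit 404) (nat_lit 384) (nat_lit 232)) (XT.lf (nat_lit 0) (nat_lit 28088003992) (nat_lit 304) (nat_lit 21068646310) (nat_lit 380) (nat_lit 11875975100) (nat_lit 82) (nat_lit 5) (nat_lit 86) (nat_lit 5) (nat_lit 87) (nat_lit 5) (nat_lit 405) (nat_lit 384) (nat_lit 231))))) (XT.nd (nat_lit 234)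 (nat_lit 228) (nat_lit 0) (XT.nd (nat_lit 78) (nat_lit 380) (nat_lit 0) (XT.lf (nat_lit 0) (nat_lit 250692981) (nat_lit 228) (nat_lit 59457952763) (nat_lit 304) (nat_lit 3132389831) (nat_lit 79) (nat_lit 5) (nat_lit 82) (nat_lit 5) (nat_lit 83) (nat_lit 5) (nat_lit 406) (nat_lit 384) (nat_lit 230)) (XT.nd (nat_lit 78) (nat_lit 304) (nat_lit 0) (XT.lf (nat_lit 0) (nat_lit 6765799519) (nat_lit 304) (nat_lit 28913262207) (nat_lit 76) (nat_lit 29010533171) (nat_lit 78) (nat_lit 5) (nat_lit 82) (nat_lit 5) (nat_lit 79) (nat_lit 5) (nat_lit 407) (nat_lit 384) (nat_lit 229)) (XT.lf (nat_lit 0) (nat_lit 6605980469) (nat_lit 304) (nat_lit 10549399649) (nat_lit 380) (nat_lit 49467547739) (nat_lit 74) (nat_lit 5) (nat_lit 78) (nat_lit 5) (nat_lit 79) (nat_lit 5) (nat_lit 408) (nat_lit 384) (nat_lit 228)))) (XT.nd (nat_lit 78) (nat_lit 228) (nat_lit 0) (XT.lf (nat_lit 0) (nat_lit 28808028401) (nat_lit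 380) (nat_lit 23980546229) (nat_lit 76) (nat_lit 15827174103) (nat_lit 74) (nat_lit 5) (nat_lit 79) (nat_lit 5) (nat_lit 75) (nat_lit 5) (nat_lit 409) (nat_lit 384) (nat_lit 227)) (XT.nd (nat_lit 78) (nat_lit 0) (nat_lit 0) (XT.lf (nat_lit 0) (nat_lit 14135435237) (nat_lit 228) (nat_lit 27300218476) (nat_lit 304) (nat_lit 29252940378) (nat_lit 71) (nat_lit 5) (nat_lit 74) (nat_lit 5) (nat_lit 75) (nat_lit 5) (nat_lit 410) (nat_lit 384) (nat_lit 226)) (XT.lf (nat_lit 0) (nat_lit 54988072971) (nat_lit 228) (nat_lit 111454350) (nat_lit 304) (nat_lit 17745311678) (nat_lit 71) (nat_lit 5) (nat_lit 74) (nat_lit 5) (nat_lit 75) (nat_lit 5) (nat_lit 411) (nat_lit 384) (nat_lit 225)))))) (XT.nd (nat_lit 468) (nat_lit 684) (nat_lit 0) (XT.nd (nat_lit 234) (nat_lit 380) (nat_lit 0) (XT.nd (nat_lit 78) (nat_lit 304) (nat_lit 0) (XT.lf (nat_lit 0) (nat_lit 23067093713) (nat_lit 228) (nat_lit 47182418335)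 (nat_lit 304) (nat_lit 4819238838) (nat_lit 68) (nat_lit 5) (nat_lit 71) (nat_lit 5) (nat_lit 72) (nat_lit 5) (nat_lit 412) (nat_lit 384) (nat_lit 224)) (XT.nd (nat_lit 78) (nat_lit 228) (nat_lit 0) (XT.lf (nat_lit 0) (nat_lit 8780990278) (nat_lit 304) (nat_lit 10876769869) (nat_lit 76) (nat_lit 57723865333) (nat_lit 67) (nat_lit 5) (nat_lit 71) (nat_lit 5) (nat_lit 68) (nat_lit 5) (nat_lit 413) (nat_lit 384) (nat_lit 223)) (XT.lf (nat_lit 0) (nat_lit 23571996893) (nat_lit 304) (nat_lit 46645161868) (nat_lit 76) (nat_lit 9555399169) (nat_lit 64) (nat_lit 5) (nat_lit 68) (nat_lit 5) (nat_lit 65) (nat_lit 5) (nat_lit 414) (nat_lit 384) (nat_lit 222)))) (XT.nd (nat_lit 78) (nat_lit 380) (nat_lit 0) (XT.lf (nat_lit 0) (nat_lit 39610924039) (nat_lit 304) (nat_lit 2891339796) (nat_lit 76) (nat_lit 39755355153) (nat_lit 64) (nat_lit 5) (nat_lit 68) (nat_lit 5) (nat_lit 65) (nat_lit 5) (nat_lit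 415) (nat_lit 384) (nat_lit 221)) (XT.nd (nat_lit 78) (nat_lit 152) (nat_lit 0) (XT.lf (nat_lit 0) (nat_lit 44472010639) (nat_lit 228) (nat_lit 12673061290) (nat_lit 304) (nat_lit 27687197926) (nat_lit 61) (nat_lit 5) (nat_lit 64) (nat_lit 5) (nat_lit 65) (nat_lit 5) (nat_lit 416) (nat_lit 384) (nat_lit 220)) (XT.lf (nat_lit 0) (nat_lit 6691361434) (nat_lit 152) (nat_lit 69308907675) (nat_lit 228) (nat_lit 11513167512) (nat_lit 59) (nat_lit 5) (nat_lit 61) (nat_lit 5) (nat_lit 62) (nat_lit 5) (nat_lit 417) (nat_lit 384) (nat_lit 219))))) (XT.nd (nat_lit 234) (nat_lit 380) (nat_lit 0) (XT.nd (nat_lit 78) (nat_lit 228) (nat_lit 0) (XT.lf (nat_lit 0) (nat_lit 6195954214) (nat_lit 228) (nat_lit 33103634678) (nat_lit 76) (nat_lit 50979730981) (nat_lit 58) (nat_lit 5) (nat_lit 61) (nat_lit 5) (nat_lit 59) (nat_lit 5) (nat_lit 418) (nat_lit 384) (nat_lit 218)) (XT.nd (nat_lit 78) (nat_lit 0) (nat_lit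 0) (XT.lf (nat_lit 0) (nat_lit 17366319441) (nat_lit 228) (nat_lit 7307449802) (nat_lit 304) (nat_lit 68486783658) (nat_lit 55) (nat_lit 5) (nat_lit 58) (nat_lit 5) (nat_lit 59) (nat_lit 5) (nat_lit 419) (nat_lit 384) (nat_lit 217)) (XT.lf (nat_lit 0) (nat_lit 45054697103) (nat_lit 304) (nat_lit 25069838359) (nat_lit 76) (nat_lit 26012351382) (nat_lit 55) (nat_lit 5) (nat_lit 59) (nat_lit 5) (nat_lit 56) (nat_lit 5) (nat_lit 420) (nat_lit 384) (nat_lit 216)))) (XT.nd (nat_lit 156) (nat_lit 228) (nat_lit 0) (XT.nd (nat_lit 78) (nat_lit 0) (nat_lit 0) (XT.lf (nat_lit 0) (nat_lit 28997645432) (nat_lit 152) (nat_lit 38028634592) (nat_lit 228) (nat_lit 32207177384) (nat_lit 53) (nat_lit 5) (nat_lit 55) (nat_lit 5) (nat_lit 56) (nat_lit 5) (nat_lit 421) (nat_lit 384) (nat_lit 215)) (XT.lf (nat_lit 0) (nat_lit 86637452306) (nat_lit 152) (nat_lit 3882661180) (nat_lit 228) (nat_lit 11943559779) (nat_lit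 53) (nat_lit 5) (nat_lit 55) (nat_lit 5) (nat_lit 56) (nat_lit 5) (nat_lit 422) (nat_lit 384) (nat_lit 214))) (XT.nd (nat_lit 78) (nat_lit 0) (nat_lit 0) (XT.lf (nat_lit 0) (nat_lit 10209879289) (nat_lit 228) (nat_lit 63809801970) (nat_lit 76) (nat_lit 31769664936) (nat_lit 50) (nat_lit 5) (nat_lit 53) (nat_lit 5) (nat_lit 51) (nat_lit 5) (nat_lit 423) (nat_lit 384) (nat_lit 213)) (XT.lf (nat_lit 0) (nat_lit 33404819399) (nat_lit 228) (nat_lit 6308086644) (nat_lit 76) (nat_lit 69541846666) (nat_lit 50) (nat_lit 5) (nat_lit 53) (nat_lit 5) (nat_lit 51) (nat_lit 5) (nat_lit 424) (nat_lit 384) (nat_lit 212))))))) (XT.nd (nat_lit 1014) (nat_lit 836) (nat_lit 0) (XT.nd (nat_lit 468) (nat_lit 456) (nat_lit 0) (XT.nd (nat_lit 234) (nat_lit 380) (nat_lit 0) (XT.nd (nat_lit 78) (nat_lit 152) (nat_lit 0) (XT.lf (nat_lit 0) (nat_lit 55855099461) (nat_lit 152) (nat_lit 2775644807) (nat_lit 228) (nat_lit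 54219123670) (nat_lit 48) (nat_lit 5) (nat_lit 50) (nat_lit 5) (nat_lit 51) (nat_lit 5) (nat_lit 425) (nat_lit 384) (nat_lit 211)) (XT.nd (nat_lit 78) (nat_lit 0) (nat_lit 0) (XT.lf (nat_lit 0) (nat_lit 4298341308) (nat_lit 152) (nat_lit 81556702040) (nat_lit 228) (nat_lit 30732841948) (nat_lit 46) (nat_lit 5) (nat_lit 48) (nat_lit 5) (nat_lit 49) (nat_lit 5) (nat_lit 426) (nat_lit 384) (nat_lit 210)) (XT.lf (nat_lit 0) (nat_lit 70586513089) (nat_lit 152) (nat_lit 44863258298) (nat_lit 228) (nat_lit 5012571685) (nat_lit 46) (nat_lit 5) (nat_lit 48) (nat_lit 5) (nat_lit 49) (nat_lit 5) (nat_lit 427) (nat_lit 384) (nat_lit 209)))) (XT.nd (nat_lit 78) (nat_lit 152) (nat_lit 0) (XT.lf (nat_lit 0) (nat_lit 15820254104) (nat_lit 152) (nat_lit 5715756908) (nat_lit 228) (nat_lit 102965032025) (nat_lit 43) (nat_lit 5) (nat_lit 45) (nat_lit 5) (nat_lit 46) (nat_lit 5) (nat_lit 428) (nat_lit 384) (nat_lit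 208)) (XT.nd (nat_lit 78) (nat_lit 152) (nat_lit 0) (XT.lf (nat_lit 0) (nat_lit 50653854567) (nat_lit 228) (nat_lit 42816557553) (nat_lit 76) (nat_lit 35196643083) (nat_lit 43) (nat_lit 5) (nat_lit 46) (nat_lit 5) (nat_lit 44) (nat_lit 5) (nat_lit 429) (nat_lit 384) (nat_lit 207)) (XT.lf (nat_lit 0) (nat_lit 27113767693) (nat_lit 152) (nat_lit 54630126656) (nat_lit 228) (nat_lit 51271658633) (nat_lit 41) (nat_lit 5) (nat_lit 43) (nat_lit 5) (nat_lit 44) (nat_lit 5) (nat_lit 430) (nat_lit 384) (nat_lit 206))))) (XT.nd (nat_lit 234) (nat_lit 304) (nat_lit 0) (XT.nd (nat_lit 78) (nat_lit 152) (nat_lit 0) (XT.lf (nat_lit 0) (nat_lit 102025896518) (nat_lit 152) (nat_lit 13086955325) (nat_lit 228) (nat_lit 22432403217) (nat_lit 41) (nat_lit 5) (nat_lit 43) (nat_lit 5) (nat_lit 44) (nat_lit 5) (nat_lit 431) (nat_lit 384) (nat_lit 205)) (XT.nd (nat_lit 78) (nat_lit 0) (nat_lit 0) (XT.lf (nat_lit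 0) (nat_lit 8702823695) (nat_lit 152) (nat_lit 103229851055) (nat_lit 76) (nat_lit 30307379580) (nat_lit 39) (nat_lit 5) (nat_lit 41) (nat_lit 5) (nat_lit 40) (nat_lit 5) (nat_lit 432) (nat_lit 384) (nat_lit 204)) (XT.lf (nat_lit 0) (nat_lit 41466200917) (nat_lit 152) (nat_lit 29233446524) (nat_lit 76) (nat_lit 76410295836) (nat_lit 39) (nat_lit 5) (nat_lit 41) (nat_lit 5) (nat_lit 40) (nat_lit 5) (nat_lit 433) (nat_lit 384) (nat_lit 203)))) (XT.nd (nat_lit 156) (nat_lit 152) (nat_lit 0) (XT.nd (nat_lit 78) (nat_lit 0) (nat_lit 0) (XT.lf (nat_lit 0) (nat_lit 50064016455) (nat_lit 152) (nat_lit 26584728017) (nat_lit 228) (nat_lit 75535532488) (nat_lit 37) (nat_lit 5) (nat_lit 39) (nat_lit 5) (nat_lit 40) (nat_lit 5) (nat_lit 434) (nat_lit 384) (nat_lit 202)) (XT.lf (nat_lit 0) (nat_lit 114401110935) (nat_lit 228) (nat_lit 23463679773) (nat_lit 76) (nat_lit 19607001988) (nat_lit 37) (nat_lit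 5) (nat_lit 40) (nat_lit 5) (nat_lit 38) (nat_lit 4) (nat_lit 435) (nat_lit 384) (nat_lit 201))) (XT.nd (nat_lit 78) (nat_lit 76) (nat_lit 0) (XT.lf (nat_lit 0) (nat_lit 60629357615) (nat_lit 76) (nat_lit 94793541566) (nat_lit 152) (nat_lit 7531695010) (nat_lit 36) (nat_lit 5) (nat_lit 37) (nat_lit 5) (nat_lit 38) (nat_lit 4) (nat_lit 436) (nat_lit 384) (nat_lit 200)) (XT.lf (nat_lit 0) (nat_lit 29234238904) (nat_lit 152) (nat_lit 19422622178) (nat_lit 76) (nat_lit 120011260063) (nat_lit 35) (nat_lit 5) (nat_lit 37) (nat_lit 5) (nat_lit 36) (nat_lit 5) (nat_lit 437) (nat_lit 384) (nat_lit 199)))))) (XT.nd (nat_lit 468) (nat_lit 380) (nat_lit 0) (XT.nd (nat_lit 234) (nat_lit 228) (nat_lit 0) (XT.nd (nat_lit 78) (nat_lit 76) (nat_lit 0) (XT.lf (nat_lit 0) (nat_lit 68690034193) (nat_lit 228) (nat_lit 104890776373) (nat_lit 76) (nat_lit 1025106536) (nat_lit 33) (nat_lit 5) (nat_lit 36) (nat_lit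 5) (nat_lit 34) (nat_lit 4) (nat_lit 438) (nat_lit 384) (nat_lit 198)) (XT.nd (nat_lit 78) (nat_lit 76) (nat_lit 0) (XT.lf (nat_lit 0) (nat_lit 111250026420) (nat_lit 228) (nat_lit 17644132093) (nat_lit 76) (nat_lit 51889874105) (nat_lit 33) (nat_lit 5) (nat_lit 36) (nat_lit 5) (nat_lit 34) (nat_lit 4) (nat_lit 439) (nat_lit 384) (nat_lit 197)) (XT.lf (nat_lit 0) (nat_lit 76409441428) (nat_lit 76) (nat_lit 80720999386) (nat_lit 152) (nat_lit 30080992084) (nat_lit 32) (nat_lit 5) (nat_lit 33) (nat_lit 5) (nat_lit 34) (nat_lit 4) (nat_lit 440) (nat_lit 384) (nat_lit 196)))) (XT.nd (nat_lit 78) (nat_lit 152) (nat_lit 0) (XT.lf (nat_lit 0) (nat_lit 11284741802) (nat_lit 152) (nat_lit 18350009671) (nat_lit 76) (nat_lit 164301437244) (nat_lit 31) (nat_lit 5) (nat_lit 33) (nat_lit 5) (nat_lit 32) (nat_lit 5) (nat_lit 441) (nat_lit 384) (nat_lit 195)) (XT.nd (nat_lit 78) (nat_lit 0) (nat_lit 0)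 (XT.lf (nat_lit 0) (nat_lit 55372671265) (nat_lit 228) (nat_lit 120495866595) (nat_lit 76) (nat_lit 25020746643) (nat_lit 29) (nat_lit 5) (nat_lit 32) (nat_lit 5) (nat_lit 30) (nat_lit 4) (nat_lit 442) (nat_lit 384) (nat_lit 194)) (XT.lf (nat_lit 0) (nat_lit 102466161976) (nat_lit 228) (nat_lit 23955260394) (nat_lit 76) (nat_lit 81728554563) (nat_lit 29) (nat_lit 5) (nat_lit 32) (nat_lit 5) (nat_lit 30) (nat_lit 4) (nat_lit 443) (nat_lit 384) (nat_lit 193))))) (XT.nd (nat_lit 234) (nat_lit 152) (nat_lit 0) (XT.nd (nat_lit 78) (nat_lit 152) (nat_lit 0) (XT.lf (nat_lit 0) (nat_lit 79971052786) (nat_lit 76) (nat_lit 73191359409) (nat_lit 152) (nat_lit 62548887633) (nat_lit 28) (nat_lit 5) (nat_lit 29) (nat_lit 5) (nat_lit 30) (nat_lit 4) (nat_lit 444) (nat_lit 384) (nat_lit 192)) (XT.nd (nat_lit 78) (nat_lit 152) (nat_lit 0) (XT.lf (nat_lit 0) (nat_lit 189924472185) (nat_lit 76) (nat_lit 16874218820)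 (nat_lit 152) (nat_lit 16831737144) (nat_lit 28) (nat_lit 5) (nat_lit 29) (nat_lit 5) (nat_lit 30) (nat_lit 4) (nat_lit 445) (nat_lit 384) (nat_lit 191)) (XT.lf (nat_lit 0) (nat_lit 32036662020) (nat_lit 152) (nat_lit 157195082094) (nat_lit 76) (nat_lit 42596281982) (nat_lit 26) (nat_lit 5) (nat_lit 28) (nat_lit 5) (nat_lit 27) (nat_lit 4) (nat_lit 446) (nat_lit 384) (nat_lit 190)))) (XT.nd (nat_lit 156) (nat_lit 76) (nat_lit 0) (XT.nd (nat_lit 78) (nat_lit 76) (nat_lit 0) (XT.lf (nat_lit 0) (nat_lit 83639175632) (nat_lit 152) (nat_lit 51410751700) (nat_lit 76) (nat_lit 105328962612) (nat_lit 26) (nat_lit 5) (nat_lit 28) (nat_lit 5) (nat_lit 27) (nat_lit 4) (nat_lit 447) (nat_lit 384) (nat_lit 189)) (XT.lf (nat_lit 0) (nat_lit 61634672234) (nat_lit 76) (nat_lit 77148994754) (nat_lit 152) (nat_lit 110525537467) (nat_lit 25) (nat_lit 5) (nat_lit 26) (nat_lit 5) (nat_lit 27) (nat_lit 4) (nat_lit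 448) (nat_lit 384) (nat_lit 188))) (XT.nd (nat_lit 78) (nat_lit 76) (nat_lit 0) (XT.lf (nat_lit 0) (nat_lit 182116428357) (nat_lit 76) (nat_lit 15439190907) (nat_lit 152) (nat_lit 61086903676) (nat_lit 25) (nat_lit 5) (nat_lit 26) (nat_lit 5) (nat_lit 27) (nat_lit 4) (nat_lit 449) (nat_lit 384) (nat_lit 187)) (XT.lf (nat_lit 0) (nat_lit 40711416546) (nat_lit 76) (nat_lit 219960544286) (nat_lit 76) (nat_lit 7700256998) (nat_lit 24) (nat_lit 4) (nat_lit 25) (nat_lit 5) (nat_lit 25) (nat_lit 4) (nat_lit 450) (nat_lit 384) (nat_lit 186))))))))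
noncomputable def xc197 : XT := (XT.nd (nat_lit 48126) (nat_lit 0) (nat_lit 4484) (XT.nd (nat_lit 936) (nat_lit 380) (nat_lit 0) (XT.nd (nat_lit 468) (nat_lit 228) (nat_lit 0) (XT.nd (nat_lit 234) (nat_lit 152) (nat_lit 0) (XT.nd (nat_lit 78) (nat_lit 76) (nat_lit 0) (XT.lf (nat_lit 0) (nat_lit 48377977164) (nat_lit 152) (nat_lit 113086078559) (nat_lit 76) (nat_lit 117008096370) (nat_lit 23) (nat_lit 5) (nat_lit 25) (nat_lit 5) (nat_lit 24) (nat_lit 4) (nat_lit 451) (nat_lit 384) (nat_lit 185)) (XT.nd (nat_lit 78) (nat_lit 0) (nat_lit 0) (XT.lf (nat_lit 0) (nat_lit 7324842506) (nat_lit 76) (nat_lit 99790468725) (nat_lit 152) (nat_lit 181949761842) (nat_lit 22) (nat_lit 5) (nat_lit 23) (nat_lit 5) (nat_lit 24) (nat_lit 4) (nat_lit 452) (nat_lit 384) (nat_lit 184)) (XT.lf (nat_lit 0) (nat_lit 137681670152) (nat_lit 76) (nat_lit 33022622635) (nat_lit 152) (nat_lit 129387608328) (nat_lit 22)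 (nat_lit 5) (nat_lit 23) (nat_lit 5) (nat_lit 24) (nat_lit 4) (nat_lit 453) (nat_lit 384) (nat_lit 183)))) (XT.nd (nat_lit 78) (nat_lit 152) (nat_lit 0) (XT.lf (nat_lit 0) (nat_lit 238051329183) (nat_lit 152) (nat_lit 37693421739) (nat_lit 0) (nat_lit 35896389400) (nat_lit 22) (nat_lit 5) (nat_lit 24) (nat_lit 4) (nat_lit 22) (nat_lit 4) (nat_lit 454) (nat_lit 384) (nat_lit 182)) (XT.nd (nat_lit 78) (nat_lit 76) (nat_lit 0) (XT.lf (nat_lit 0) (nat_lit 95782845382) (nat_lit 76) (nat_lit 215019309507) (nat_lit 76) (nat_lit 12863864773) (nat_lit 21) (nat_lit 4) (nat_lit 22) (nat_lit 5) (nat_lit 22) (nat_lit 4) (nat_lit 455) (nat_lit 384) (nat_lit 181)) (XT.lf (nat_lit 0) (nat_lit 49917779250) (nat_lit 152) (nat_lit 99824478176) (nat_lit 76) (nat_lit 186477728954) (nat_lit 20) (nat_lit 5) (nat_lit 22) (nat_lit 5) (nat_lit 21) (nat_lit 4) (nat_lit 456) (nat_lit 384) (nat_lit 180))))) (XT.nd (nat_lit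 234) (nat_lit 152) (nat_lit 0) (XT.nd (nat_lit 78) (nat_lit 0) (nat_lit 0) (XT.lf (nat_lit 0) (nat_lit 35563890417) (nat_lit 76) (nat_lit 80397218882) (nat_lit 152) (nat_lit 233402252323) (nat_lit 19) (nat_lit 5) (nat_lit 20) (nat_lit 5) (nat_lit 21) (nat_lit 4) (nat_lit 457) (nat_lit 384) (nat_lit 179)) (XT.nd (nat_lit 78) (nat_lit 0) (nat_lit 0) (XT.lf (nat_lit 0) (nat_lit 181186722448) (nat_lit 76) (nat_lit 5810127449) (nat_lit 152) (nat_lit 176082543565) (nat_lit 19) (nat_lit 5) (nat_lit 20) (nat_lit 5) (nat_lit 21) (nat_lit 4) (nat_lit 458) (nat_lit 384) (nat_lit 178)) (XT.lf (nat_lit 0) (nat_lit 262716083849) (nat_lit 152) (nat_lit 44523174171) (nat_lit 0) (nat_lit 70185383596) (nat_lit 19) (nat_lit 5) (nat_lit 21) (nat_lit 4) (nat_lit 19) (nat_lit 4) (nat_lit 459) (nat_lit 384) (nat_lit 177)))) (XT.nd (nat_lit 78) (nat_lit 76) (nat_lit 0) (XT.lf (nat_lit 0) (nat_lit 102912815143)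 (nat_lit 76) (nat_lit 241010164558) (nat_lit 76) (nat_lit 48479087502) (nat_lit 18) (nat_lit 4) (nat_lit 19) (nat_lit 5) (nat_lit 19) (nat_lit 4) (nat_lit 460) (nat_lit 384) (nat_lit 176)) (XT.nd (nat_lit 78) (nat_lit 0) (nat_lit 0) (XT.lf (nat_lit 0) (nat_lit 21153823171) (nat_lit 152) (nat_lit 149166098413) (nat_lit 76) (nat_lit 237753696896) (nat_lit 17) (nat_lit 5) (nat_lit 19) (nat_lit 5) (nat_lit 18) (nat_lit 4) (nat_lit 461) (nat_lit 384) (nat_lit 175)) (XT.lf (nat_lit 0) (nat_lit 92638873975) (nat_lit 152) (nat_lit 2622086036) (nat_lit 76) (nat_lit 329228064892) (nat_lit 17) (nat_lit 5) (nat_lit 19) (nat_lit 5) (nat_lit 18) (nat_lit 4) (nat_lit 462) (nat_lit 384) (nat_lit 174)))))) (XT.nd (nat_lit 468) (nat_lit 76) (nat_lit 0) (XT.nd (nat_lit 234) (nat_lit 152) (nat_lit 0) (XT.nd (nat_lit 78) (nat_lit 76) (nat_lit 0) (XT.lf (nat_lit 0) (nat_lit 156249555373) (nat_lit 76) (nat_lit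 13887839044) (nat_lit 152) (nat_lit 271465846406) (nat_lit 16) (nat_lit 5) (nat_lit 17) (nat_lit 5) (nat_lit 18) (nat_lit 4) (nat_lit 463) (nat_lit 384) (nat_lit 173)) (XT.nd (nat_lit 78) (nat_lit 76) (nat_lit 0) (XT.lf (nat_lit 0) (nat_lit 252672857317) (nat_lit 152) (nat_lit 137533555136) (nat_lit 0) (nat_lit 69308654290) (nat_lit 16) (nat_lit 5) (nat_lit 18) (nat_lit 4) (nat_lit 16) (nat_lit 4) (nat_lit 464) (nat_lit 384) (nat_lit 172)) (XT.lf (nat_lit 0) (nat_lit 18026359519) (nat_lit 76) (nat_lit 321817583104) (nat_lit 76) (nat_lit 138453098901) (nat_lit 15) (nat_lit 4) (nat_lit 16) (nat_lit 5) (nat_lit 16) (nat_lit 4) (nat_lit 465) (nat_lit 384) (nat_lit 171)))) (XT.nd (nat_lit 78) (nat_lit 152) (nat_lit 0) (XT.lf (nat_lit 0) (nat_lit 186138623828) (nat_lit 76) (nat_lit 247563898122) (nat_lit 76) (nat_lit 64199146132) (nat_lit 15) (nat_lit 4) (nat_lit 16) (nat_lit 5) (nat_lit 16) (nat_lit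 4) (nat_lit 466) (nat_lit 384) (nat_lit 170)) (XT.nd (nat_lit 78) (nat_lit 76) (nat_lit 0) (XT.lf (nat_lit 0) (nat_lit 13326608826) (nat_lit 152) (nat_lit 156045458929) (nat_lit 76) (nat_lit 349103723236) (nat_lit 14) (nat_lit 5) (nat_lit 16) (nat_lit 5) (nat_lit 15) (nat_lit 4) (nat_lit 467) (nat_lit 384) (nat_lit 169)) (XT.lf (nat_lit 0) (nat_lit 6616880243) (nat_lit 76) (nat_lit 86057329589) (nat_lit 152) (nat_lit 447346634455) (nat_lit 13) (nat_lit 5) (nat_lit 14) (nat_lit 5) (nat_lit 15) (nat_lit 4) (nat_lit 468) (nat_lit 384) (nat_lit 168))))) (XT.nd (nat_lit 234) (nat_lit 76) (nat_lit 0) (XT.nd (nat_lit 78) (nat_lit 0) (nat_lit 0) (XT.lf (nat_lit 0) (nat_lit 178697201871) (nat_lit 152) (nat_lit 379747137633) (nat_lit 0) (nat_lit 4063410215) (nat_lit 13) (nat_lit 5) (nat_lit 15) (nat_lit 4) (nat_lit 13) (nat_lit 4) (nat_lit 469) (nat_lit 384) (nat_lit 167)) (XT.nd (nat_lit 78) (nat_lit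 0) (nat_lit 0) (XT.lf (nat_lit 0) (nat_lit 270431893978) (nat_lit 152) (nat_lit 219818686436) (nat_lit 0) (nat_lit 95797892505) (nat_lit 13) (nat_lit 5) (nat_lit 15) (nat_lit 4) (nat_lit 13) (nat_lit 4) (nat_lit 470) (nat_lit 384) (nat_lit 166)) (XT.lf (nat_lit 0) (nat_lit 366753105999) (nat_lit 152) (nat_lit 51894232336) (nat_lit 0) (nat_lit 192118904699) (nat_lit 13) (nat_lit 5) (nat_lit 15) (nat_lit 4) (nat_lit 13) (nat_lit 4) (nat_lit 471) (nat_lit 384) (nat_lit 165)))) (XT.nd (nat_lit 46332) (nat_lit 0) (nat_lit 7448) (XT.nd (nat_lit 78) (nat_lit 0) (nat_lit 0) (XT.lf (nat_lit 0) (nat_lit 128540131759) (nat_lit 76) (nat_lit 341356914081) (nat_lit 76) (nat_lit 166722522471) (nat_lit 12) (nat_lit 4) (nat_lit 13) (nat_lit 5) (nat_lit 13) (nat_lit 4) (nat_lit 472) (nat_lit 384) (nat_lit 164)) (XT.lf (nat_lit 0) (nat_lit 319797471398) (nat_lit 76) (nat_lit 259279364338) (nat_lit 76) (nat_lit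 84644791479) (nat_lit 12) (nat_lit 4) (nat_lit 13) (nat_lit 5) (nat_lit 13) (nat_lit 4) (nat_lit 473) (nat_lit 384) (nat_lit 163))) (XT.nd (nat_lit 78) (nat_lit 0) (nat_lit 0) (XT.lf (nat_lit 0) (nat_lit 3807131518) (nat_lit 836) (nat_lit 7245789172) (nat_lit 836) (nat_lit 7245789172) (nat_lit 110) (nat_lit 3) (nat_lit 121) (nat_lit 3) (nat_lit 121) (nat_lit 5) (nat_lit 385) (nat_lit 385) (nat_lit 250)) (XT.lf (nat_lit 76) (nat_lit 3245896572) (nat_lit 0) (nat_lit 4657012098) (nat_lit 836) (nat_lit 29604498476) (nat_lit 111) (nat_lit 5) (nat_lit 110) (nat_lit 3) (nat_lit 121) (nat_lit 5) (nat_lit 386) (nat_lit 385) (nat_lit 249))))))) (XT.nd (nat_lit 1014) (nat_lit 2204) (nat_lit 0) (XT.nd (nat_lit 468) (nat_lit 836) (nat_lit 0) (XT.nd (nat_lit 234) (nat_lit 0) (nat_lit 76) (XT.nd (nat_lit 78) (nat_lit 0) (nat_lit 0) (XT.lf (nat_lit 0) (nat_lit 8665717765) (nat_lit 760) (nat_lit 16296455479)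 (nat_lit 836) (nat_lit 13477736287) (nat_lit 111) (nat_lit 5) (nat_lit 121) (nat_lit 5) (nat_lit 122) (nat_lit 5) (nat_lit 387) (nat_lit 385) (nat_lit 248)) (XT.nd (nat_lit 78) (nat_lit 0) (nat_lit 76) (XT.lf (nat_lit 76) (nat_lit 2571052831) (nat_lit 0) (nat_lit 7009194193) (nat_lit 836) (nat_lit 29833113074) (nat_lit 112) (nat_lit 5) (nat_lit 111) (nat_lit 5) (nat_lit 122) (nat_lit 5) (nat_lit 388) (nat_lit 385) (nat_lit 247)) (XT.lf (nat_lit 0) (nat_lit 11003115793) (nat_lit 760) (nat_lit 17665248640) (nat_lit 836) (nat_lit 11743990060) (nat_lit 112) (nat_lit 5) (nat_lit 122) (nat_lit 5) (nat_lit 123) (nat_lit 5) (nat_lit 389) (nat_lit 385) (nat_lit 246)))) (XT.nd (nat_lit 78) (nat_lit 0) (nat_lit 76) (XT.lf (nat_lit 76) (nat_lit 2431805153) (nat_lit 0) (nat_lit 10215549555) (nat_lit 836) (nat_lit 28806434425) (nat_lit 113) (nat_lit 5) (nat_lit 112) (nat_lit 5) (nat_lit 123) (nat_lit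 5) (nat_lit 390) (nat_lit 385) (nat_lit 245)) (XT.nd (nat_lit 78) (nat_lit 0) (nat_lit 0) (XT.lf (nat_lit 0) (nat_lit 14818356787) (nat_lit 760) (nat_lit 18535142606) (nat_lit 836) (nat_lit 9171570321) (nat_lit 113) (nat_lit 5) (nat_lit 123) (nat_lit 5) (nat_lit 124) (nat_lit 5) (nat_lit 391) (nat_lit 385) (nat_lit 244)) (XT.lf (nat_lit 76) (nat_lit 2899569000) (nat_lit 0) (nat_lit 14408664545) (nat_lit 836) (nat_lit 26331166236) (nat_lit 114) (nat_lit 5) (nat_lit 113) (nat_lit 5) (nat_lit 124) (nat_lit 5) (nat_lit 392) (nat_lit 385) (nat_lit 243))))) (XT.nd (nat_lit 234) (nat_lit 1064) (nat_lit 0) (XT.nd (nat_lit 78) (nat_lit 0) (nat_lit 0) (XT.lf (nat_lit 0) (nat_lit 20324944983) (nat_lit 760) (nat_lit 18836899601) (nat_lit 836) (nat_lit 5627486332) (nat_lit 114) (nat_lit 5) (nat_lit 124) (nat_lit 5) (nat_lit 125) (nat_lit 5) (nat_lit 393) (nat_lit 385) (nat_lit 242)) (XT.nd (nat_lit 78)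 (nat_lit 0) (nat_lit 76) (XT.lf (nat_lit 76) (nat_lit 4052873051) (nat_lit 0) (nat_lit 19736895524) (nat_lit 836) (nat_lit 22192127731) (nat_lit 115) (nat_lit 5) (nat_lit 114) (nat_lit 5) (nat_lit 125) (nat_lit 5) (nat_lit 394) (nat_lit 385) (nat_lit 241)) (XT.lf (nat_lit 0) (nat_lit 27760243502) (nat_lit 760) (nat_lit 18494452471) (nat_lit 76) (nat_lit 962774943) (nat_lit 115) (nat_lit 5) (nat_lit 125) (nat_lit 5) (nat_lit 116) (nat_lit 5) (nat_lit 395) (nat_lit 385) (nat_lit 240)))) (XT.nd (nat_lit 156) (nat_lit 380) (nat_lit 0) (XT.nd (nat_lit 78) (nat_lit 0) (nat_lit 0) (XT.lf (nat_lit 0) (nat_lit 5977810043) (nat_lit 760) (nat_lit 26366294261) (nat_lit 836) (nat_lit 16149978232) (nat_lit 105) (nat_lit 5) (nat_lit 115) (nat_lit 5) (nat_lit 116) (nat_lit 5) (nat_lit 396) (nat_lit 385) (nat_lit 239)) (XT.lf (nat_lit 0) (nat_lit 32313992082) (nat_lit 760) (nat_lit 5154423264) (nat_lit 836)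 (nat_lit 12350547855) (nat_lit 105) (nat_lit 5) (nat_lit 115) (nat_lit 5) (nat_lit 116) (nat_lit 5) (nat_lit 397) (nat_lit 385) (nat_lit 238))) (XT.nd (nat_lit 78) (nat_lit 0) (nat_lit 0) (XT.lf (nat_lit 0) (nat_lit 8768489664) (nat_lit 380) (nat_lit 34482753993) (nat_lit 456) (nat_lit 7938730413) (nat_lit 100) (nat_lit 5) (nat_lit 105) (nat_lit 5) (nat_lit 106) (nat_lit 5) (nat_lit 398) (nat_lit 385) (nat_lit 237)) (XT.lf (nat_lit 0) (nat_lit 36874301309) (nat_lit 380) (nat_lit 12826704546) (nat_lit 456) (nat_lit 2909641202) (nat_lit 100) (nat_lit 5) (nat_lit 105) (nat_lit 5) (nat_lit 106) (nat_lit 5) (nat_lit 399) (nat_lit 385) (nat_lit 236)))))) (XT.nd (nat_lit 468) (nat_lit 1140) (nat_lit 0) (XT.nd (nat_lit 234) (nat_lit 304) (nat_lit 0) (XT.nd (nat_lit 78) (nat_lit 380) (nat_lit 0) (XT.lf (nat_lit 0) (nat_lit 2649366163) (nat_lit 380) (nat_lit 41600169668) (nat_lit 76) (nat_lit 9833250759)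 (nat_lit 95) (nat_lit 5) (nat_lit 100) (nat_lit 5) (nat_lit 96) (nat_lit 5) (nat_lit 400) (nat_lit 385) (nat_lit 235)) (XT.nd (nat_lit 78) (nat_lit 380) (nat_lit 0) (XT.lf (nat_lit 0) (nat_lit 8868000061) (nat_lit 380) (nat_lit 13220485915) (nat_lit 76) (nat_lit 33513690248) (nat_lit 95) (nat_lit 5) (nat_lit 100) (nat_lit 5) (nat_lit 96) (nat_lit 5) (nat_lit 401) (nat_lit 385) (nat_lit 234)) (XT.lf (nat_lit 0) (nat_lit 15686136350) (nat_lit 456) (nat_lit 40082496368) (nat_lit 76) (nat_lit 1414475072) (nat_lit 90) (nat_lit 5) (nat_lit 96) (nat_lit 5) (nat_lit 91) (nat_lit 5) (nat_lit 402) (nat_lit 385) (nat_lit 233)))) (XT.nd (nat_lit 78) (nat_lit 304) (nat_lit 0) (XT.lf (nat_lit 0) (nat_lit 23433293895) (nat_lit 456) (nat_lit 9802676909) (nat_lit 76) (nat_lit 25577710348) (nat_lit 90) (nat_lit 5) (nat_lit 96) (nat_lit 5) (nat_lit 91) (nat_lit 5) (nat_lit 403) (nat_lit 385) (nat_lit 232))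 (XT.nd (nat_lit 78) (nat_lit 0) (nat_lit 0) (XT.lf (nat_lit 0) (nat_lit 22716530020) (nat_lit 304) (nat_lit 9204464537) (nat_lit 380) (nat_lit 28587130256) (nat_lit 86) (nat_lit 5) (nat_lit 90) (nat_lit 5) (nat_lit 91) (nat_lit 5) (nat_lit 404) (nat_lit 385) (nat_lit 231)) (XT.lf (nat_lit 0) (nat_lit 41250624696) (nat_lit 380) (nat_lit 5331655901) (nat_lit 76) (nat_lit 15684133692) (nat_lit 86) (nat_lit 5) (nat_lit 91) (nat_lit 5) (nat_lit 87) (nat_lit 5) (nat_lit 405) (nat_lit 385) (nat_lit 230))))) (XT.nd (nat_lit 234) (nat_lit 532) (nat_lit 0) (XT.nd (nat_lit 78) (nat_lit 304) (nat_lit 0) (XT.lf (nat_lit 0) (nat_lit 29544355883) (nat_lit 304) (nat_lit 22113170374) (nat_lit 380) (nat_lit 12424553295) (nat_lit 82) (nat_lit 5) (nat_lit 86) (nat_lit 5) (nat_lit 87) (nat_lit 5) (nat_lit 406) (nat_lit 385) (nat_lit 229)) (XT.nd (nat_lit 78) (nat_lit 76) (nat_lit 0) (XT.lf (nat_lit 0) (nat_lit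 316346556) (nat_lit 228) (nat_lit 62419687023) (nat_lit 304) (nat_lit 3244932238) (nat_lit 79) (nat_lit 5) (nat_lit 82) (nat_lit 5) (nat_lit 83) (nat_lit 5) (nat_lit 407) (nat_lit 385) (nat_lit 228)) (XT.lf (nat_lit 0) (nat_lit 7144724106) (nat_lit 304) (nat_lit 30306970751) (nat_lit 76) (nat_lit 30470326504) (nat_lit 78) (nat_lit 5) (nat_lit 82) (nat_lit 5) (nat_lit 79) (nat_lit 5) (nat_lit 408) (nat_lit 385) (nat_lit 227)))) (XT.nd (nat_lit 156) (nat_lit 228) (nat_lit 0) (XT.nd (nat_lit 78) (nat_lit 0) (nat_lit 0) (XT.lf (nat_lit 0) (nat_lit 6987396082) (nat_lit 304) (nat_lit 11065250745) (nat_lit 380) (nat_lit 51899432014) (nat_lit 74) (nat_lit 5) (nat_lit 78) (nat_lit 5) (nat_lit 79) (nat_lit 5) (nat_lit 409) (nat_lit 385) (nat_lit 226)) (XT.lf (nat_lit 0) (nat_lit 30286219447) (nat_lit 380) (nat_lit 25129163449) (nat_lit 76) (nat_lit 16629244246) (nat_lit 74) (nat_lit 5) (nat_lit 79)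 (nat_lit 5) (nat_lit 75) (nat_lit 5) (nat_lit 410) (nat_lit 385) (nat_lit 225))) (XT.nd (nat_lit 78) (nat_lit 0) (nat_lit 0) (XT.lf (nat_lit 0) (nat_lit 14891804024) (nat_lit 228) (nat_lit 28652396843) (nat_lit 304) (nat_lit 30676966089) (nat_lit 71) (nat_lit 5) (nat_lit 74) (nat_lit 5) (nat_lit 75) (nat_lit 5) (nat_lit 411) (nat_lit 385) (nat_lit 224)) (XT.lf (nat_lit 0) (nat_lit 57784711882) (nat_lit 228) (nat_lit 104805584) (nat_lit 304) (nat_lit 18595795065) (nat_lit 71) (nat_lit 5) (nat_lit 74) (nat_lit 5) (nat_lit 75) (nat_lit 5) (nat_lit 412) (nat_lit 385) (nat_lit 223))))))))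
noncomputable def xc198 : XT := (XT.nd (nat_lit 1950) (nat_lit 1444) (nat_lit 0) (XT.nd (nat_lit 936) (nat_lit 1064) (nat_lit 0) (XT.nd (nat_lit 468) (nat_lit 684) (nat_lit 0) (XT.nd (nat_lit 234) (nat_lit 380) (nat_lit 0) (XT.nd (nat_lit 78) (nat_lit 304) (nat_lit 0) (XT.lf (nat_lit 0) (nat_lit 24268473963) (nat_lit 228) (nat_lit 49527791683) (nat_lit 304) (nat_lit 5024192000) (nat_lit 68) (nat_lit 5) (nat_lit 71) (nat_lit 5) (nat_lit 72) (nat_lit 5) (nat_lit 413) (nat_lit 385) (nat_lit 222)) (XT.nd (nat_lit 78) (nat_lit 228) (nat_lit 0) (XT.lf (nat_lit 0) (nat_lit 9253236244) (nat_lit 304) (nat_lit 11373756790) (nat_lit 76) (nat_lit 60622038583) (nat_lit 67) (nat_lit 5) (nat_lit 71) (nat_lit 5) (nat_lit 68) (nat_lit 5) (nat_lit 414) (nat_lit 385) (nat_lit 221)) (XT.lf (nat_lit 0) (nat_lit 24783146933) (nat_lit 304) (nat_lit 48929907547) (nat_lit 76) (nat_lit 10046489251) (nat_lit 64) (nat_lit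 5) (nat_lit 68) (nat_lit 5) (nat_lit 65) (nat_lit 5) (nat_lit 415) (nat_lit 385) (nat_lit 220)))) (XT.nd (nat_lit 78) (nat_lit 380) (nat_lit 0) (XT.lf (nat_lit 0) (nat_lit 41622470427) (nat_lit 304) (nat_lit 2990656867) (nat_lit 76) (nat_lit 41755808742) (nat_lit 64) (nat_lit 5) (nat_lit 68) (nat_lit 5) (nat_lit 65) (nat_lit 5) (nat_lit 416) (nat_lit 385) (nat_lit 219)) (XT.nd (nat_lit 78) (nat_lit 152) (nat_lit 0) (XT.lf (nat_lit 0) (nat_lit 46740131252) (nat_lit 228) (nat_lit 13292413343) (nat_lit 304) (nat_lit 29039814570) (nat_lit 61) (nat_lit 5) (nat_lit 64) (nat_lit 5) (nat_lit 65) (nat_lit 5) (nat_lit 417) (nat_lit 385) (nat_lit 218)) (XT.lf (nat_lit 0) (nat_lit 7071011443) (nat_lit 152) (nat_lit 72758967690) (nat_lit 228) (nat_lit 12057631891) (nat_lit 59) (nat_lit 5) (nat_lit 61) (nat_lit 5) (nat_lit 62) (nat_lit 5) (nat_lit 418) (nat_lit 385) (nat_lit 217))))) (XT.nd (nat_lit 234)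 (nat_lit 380) (nat_lit 0) (XT.nd (nat_lit 78) (nat_lit 228) (nat_lit 0) (XT.lf (nat_lit 0) (nat_lit 6534509633) (nat_lit 228) (nat_lit 34714918945) (nat_lit 76) (nat_lit 53542407975) (nat_lit 58) (nat_lit 5) (nat_lit 61) (nat_lit 5) (nat_lit 59) (nat_lit 5) (nat_lit 419) (nat_lit 385) (nat_lit 216)) (XT.nd (nat_lit 78) (nat_lit 0) (nat_lit 0) (XT.lf (nat_lit 0) (nat_lit 18277824856) (nat_lit 228) (nat_lit 7657695451) (nat_lit 304) (nat_lit 71881646224) (nat_lit 55) (nat_lit 5) (nat_lit 58) (nat_lit 5) (nat_lit 59) (nat_lit 5) (nat_lit 420) (nat_lit 385) (nat_lit 215)) (XT.lf (nat_lit 0) (nat_lit 47334383172) (nat_lit 304) (nat_lit 26281075720) (nat_lit 76) (nat_lit 27326914368) (nat_lit 55) (nat_lit 5) (nat_lit 59) (nat_lit 5) (nat_lit 56) (nat_lit 5) (nat_lit 421) (nat_lit 385) (nat_lit 214)))) (XT.nd (nat_lit 78) (nat_lit 228) (nat_lit 0) (XT.lf (nat_lit 0) (nat_lit 30489100736) (nat_lit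 152) (nat_lit 39914810183) (nat_lit 228) (nat_lit 33789893642) (nat_lit 53) (nat_lit 5) (nat_lit 55) (nat_lit 5) (nat_lit 56) (nat_lit 5) (nat_lit 422) (nat_lit 385) (nat_lit 213)) (XT.nd (nat_lit 78) (nat_lit 228) (nat_lit 0) (XT.lf (nat_lit 0) (nat_lit 91008918286) (nat_lit 152) (nat_lit 4062264584) (nat_lit 228) (nat_lit 12514411471) (nat_lit 53) (nat_lit 5) (nat_lit 55) (nat_lit 5) (nat_lit 56) (nat_lit 5) (nat_lit 423) (nat_lit 385) (nat_lit 212)) (XT.lf (nat_lit 0) (nat_lit 10745497357) (nat_lit 228) (nat_lit 66959479030) (nat_lit 76) (nat_lit 33372572385) (nat_lit 50) (nat_lit 5) (nat_lit 53) (nat_lit 5) (nat_lit 51) (nat_lit 5) (nat_lit 424) (nat_lit 385) (nat_lit 211)))))) (XT.nd (nat_lit 468) (nat_lit 532) (nat_lit 0) (XT.nd (nat_lit 234) (nat_lit 228) (nat_lit 0) (XT.nd (nat_lit 78) (nat_lit 304) (nat_lit 0) (XT.lf (nat_lit 0) (nat_lit 35098988087) (nat_lit 228) (nat_lit 6584621416)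 (nat_lit 76) (nat_lit 73032676335) (nat_lit 50) (nat_lit 5) (nat_lit 53) (nat_lit 5) (nat_lit 51) (nat_lit 5) (nat_lit 425) (nat_lit 385) (nat_lit 210)) (XT.nd (nat_lit 78) (nat_lit 152) (nat_lit 0) (XT.lf (nat_lit 0) (nat_lit 58686097067) (nat_lit 152) (nat_lit 2899569792) (nat_lit 228) (nat_lit 56905517473) (nat_lit 48) (nat_lit 5) (nat_lit 50) (nat_lit 5) (nat_lit 51) (nat_lit 5) (nat_lit 426) (nat_lit 385) (nat_lit 209)) (XT.lf (nat_lit 0) (nat_lit 4551813988) (nat_lit 152) (nat_lit 85619076195) (nat_lit 228) (nat_lit 32245227278) (nat_lit 46) (nat_lit 5) (nat_lit 48) (nat_lit 5) (nat_lit 49) (nat_lit 5) (nat_lit 427) (nat_lit 385) (nat_lit 208)))) (XT.nd (nat_lit 78) (nat_lit 228) (nat_lit 0) (XT.lf (nat_lit 0) (nat_lit 74152558375) (nat_lit 152) (nat_lit 47091696501) (nat_lit 228) (nat_lit 5240098587) (nat_lit 46) (nat_lit 5) (nat_lit 48) (nat_lit 5) (nat_lit 49) (nat_lit 5) (nat_lit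 428) (nat_lit 385) (nat_lit 207)) (XT.nd (nat_lit 78) (nat_lit 0) (nat_lit 0) (XT.lf (nat_lit 0) (nat_lit 16648128236) (nat_lit 152) (nat_lit 5986556251) (nat_lit 228) (nat_lit 108090310692) (nat_lit 43) (nat_lit 5) (nat_lit 45) (nat_lit 5) (nat_lit 46) (nat_lit 5) (nat_lit 429) (nat_lit 385) (nat_lit 206)) (XT.lf (nat_lit 0) (nat_lit 53207601521) (nat_lit 228) (nat_lit 44921454550) (nat_lit 76) (nat_lit 36970293120) (nat_lit 43) (nat_lit 5) (nat_lit 46) (nat_lit 5) (nat_lit 44) (nat_lit 5) (nat_lit 430) (nat_lit 385) (nat_lit 205))))) (XT.nd (nat_lit 234) (nat_lit 228) (nat_lit 0) (XT.nd (nat_lit 78) (nat_lit 152) (nat_lit 0) (XT.lf (nat_lit 0) (nat_lit 28504807427) (nat_lit 152) (nat_lit 57346885216) (nat_lit 228) (nat_lit 53813602037) (nat_lit 41) (nat_lit 5) (nat_lit 43) (nat_lit 5) (nat_lit 44) (nat_lit 5) (nat_lit 431) (nat_lit 385) (nat_lit 204)) (XT.nd (nat_lit 78) (nat_lit 152)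 (nat_lit 0) (XT.lf (nat_lit 0) (nat_lit 107160859296) (nat_lit 152) (nat_lit 13727257593) (nat_lit 228) (nat_lit 23533414304) (nat_lit 41) (nat_lit 5) (nat_lit 43) (nat_lit 5) (nat_lit 44) (nat_lit 5) (nat_lit 432) (nat_lit 385) (nat_lit 203)) (XT.lf (nat_lit 0) (nat_lit 9157714262) (nat_lit 152) (nat_lit 108356805743) (nat_lit 76) (nat_lit 31836544586) (nat_lit 39) (nat_lit 5) (nat_lit 41) (nat_lit 5) (nat_lit 40) (nat_lit 5) (nat_lit 433) (nat_lit 385) (nat_lit 202)))) (XT.nd (nat_lit 156) (nat_lit 76) (nat_lit 0) (XT.nd (nat_lit 78) (nat_lit 152) (nat_lit 0) (XT.lf (nat_lit 0) (nat_lit 43558319899) (nat_lit 152) (nat_lit 30662225645) (nat_lit 76) (nat_lit 80243949701) (nat_lit 39) (nat_lit 5) (nat_lit 41) (nat_lit 5) (nat_lit 40) (nat_lit 5) (nat_lit 434) (nat_lit 385) (nat_lit 201)) (XT.lf (nat_lit 0) (nat_lit 52599579947) (nat_lit 152) (nat_lit 27900020294) (nat_lit 228) (nat_lit 79292965118)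 (nat_lit 37) (nat_lit 5) (nat_lit 39) (nat_lit 5) (nat_lit 40) (nat_lit 5) (nat_lit 435) (nat_lit 385) (nat_lit 200))) (XT.nd (nat_lit 78) (nat_lit 76) (nat_lit 0) (XT.lf (nat_lit 0) (nat_lit 120138915292) (nat_lit 228) (nat_lit 24605368131) (nat_lit 76) (nat_lit 20600207159) (nat_lit 37) (nat_lit 5) (nat_lit 40) (nat_lit 5) (nat_lit 38) (nat_lit 4) (nat_lit 436) (nat_lit 385) (nat_lit 199)) (XT.lf (nat_lit 0) (nat_lit 63691813133) (nat_lit 76) (nat_lit 99519618442) (nat_lit 152) (nat_lit 7890018853) (nat_lit 36) (nat_lit 5) (nat_lit 37) (nat_lit 5) (nat_lit 38) (nat_lit 4) (nat_lit 437) (nat_lit 385) (nat_lit 198))))))) (XT.nd (nat_lit 1014) (nat_lit 608) (nat_lit 0) (XT.nd (nat_lit 468) (nat_lit 304) (nat_lit 0) (XT.nd (nat_lit 234) (nat_lit 304) (nat_lit 0) (XT.nd (nat_lit 78) (nat_lit 152) (nat_lit 0) (XT.lf (nat_lit 0) (nat_lit 30712785558) (nat_lit 152) (nat_lit 20363680900) (nat_lit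 76) (nat_lit 126024215288) (nat_lit 35) (nat_lit 5) (nat_lit 37) (nat_lit 5) (nat_lit 36) (nat_lit 5) (nat_lit 438) (nat_lit 385) (nat_lit 197)) (XT.nd (nat_lit 78) (nat_lit 0) (nat_lit 0) (XT.lf (nat_lit 0) (nat_lit 72141235308) (nat_lit 228) (nat_lit 110105103958) (nat_lit 76) (nat_lit 1089035177) (nat_lit 33) (nat_lit 5) (nat_lit 36) (nat_lit 5) (nat_lit 34) (nat_lit 4) (nat_lit 439) (nat_lit 385) (nat_lit 196)) (XT.lf (nat_lit 0) (nat_lit 116828431937) (nat_lit 228) (nat_lit 18497566094) (nat_lit 76) (nat_lit 54496437634) (nat_lit 33) (nat_lit 5) (nat_lit 36) (nat_lit 5) (nat_lit 34) (nat_lit 4) (nat_lit 440) (nat_lit 385) (nat_lit 195)))) (XT.nd (nat_lit 78) (nat_lit 228) (nat_lit 0) (XT.lf (nat_lit 0) (nat_lit 80258222029) (nat_lit 76) (nat_lit 84744329654) (nat_lit 152) (nat_lit 31568670204) (nat_lit 32) (nat_lit 5) (nat_lit 33) (nat_lit 5) (nat_lit 34) (nat_lit 4) (nat_lit 441) (nat_lit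 385) (nat_lit 194)) (XT.nd (nat_lit 78) (nat_lit 152) (nat_lit 0) (XT.lf (nat_lit 0) (nat_lit 11864071744) (nat_lit 152) (nat_lit 19240047697) (nat_lit 76) (nat_lit 172528121154) (nat_lit 31) (nat_lit 5) (nat_lit 33) (nat_lit 5) (nat_lit 32) (nat_lit 5) (nat_lit 442) (nat_lit 385) (nat_lit 193)) (XT.lf (nat_lit 0) (nat_lit 58156291666) (nat_lit 228) (nat_lit 126493088678) (nat_lit 76) (nat_lit 26283616265) (nat_lit 29) (nat_lit 5) (nat_lit 32) (nat_lit 5) (nat_lit 30) (nat_lit 4) (nat_lit 443) (nat_lit 385) (nat_lit 192))))) (XT.nd (nat_lit 234) (nat_lit 228) (nat_lit 0) (XT.nd (nat_lit 78) (nat_lit 76) (nat_lit 0) (XT.lf (nat_lit 0) (nat_lit 107603743255) (nat_lit 228) (nat_lit 25126765083) (nat_lit 76) (nat_lit 85826251140) (nat_lit 29) (nat_lit 5) (nat_lit 32) (nat_lit 5) (nat_lit 30) (nat_lit 4) (nat_lit 444) (nat_lit 385) (nat_lit 191)) (XT.nd (nat_lit 78) (nat_lit 0) (nat_lit 0) (XT.lf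 (nat_lit 0) (nat_lit 83995440234) (nat_lit 76) (nat_lit 76839089429) (nat_lit 152) (nat_lit 65661632795) (nat_lit 28) (nat_lit 5) (nat_lit 29) (nat_lit 5) (nat_lit 30) (nat_lit 4) (nat_lit 445) (nat_lit 385) (nat_lit 190)) (XT.lf (nat_lit 0) (nat_lit 199445300375) (nat_lit 76) (nat_lit 17706655522) (nat_lit 152) (nat_lit 17659324745) (nat_lit 28) (nat_lit 5) (nat_lit 29) (nat_lit 5) (nat_lit 30) (nat_lit 4) (nat_lit 446) (nat_lit 385) (nat_lit 189)))) (XT.nd (nat_lit 156) (nat_lit 76) (nat_lit 0) (XT.nd (nat_lit 78) (nat_lit 0) (nat_lit 0) (XT.lf (nat_lit 0) (nat_lit 33651963249) (nat_lit 152) (nat_lit 165029696030) (nat_lit 76) (nat_lit 44737092538) (nat_lit 26) (nat_lit 5) (nat_lit 28) (nat_lit 5) (nat_lit 27) (nat_lit 4) (nat_lit 447) (nat_lit 385) (nat_lit 188)) (XT.lf (nat_lit 0) (nat_lit 87833961202) (nat_lit 152) (nat_lit 53957346269) (nat_lit 76) (nat_lit 110605883560) (nat_lit 26)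 (nat_lit 5) (nat_lit 28) (nat_lit 5) (nat_lit 27) (nat_lit 4) (nat_lit 448) (nat_lit 385) (nat_lit 187))) (XT.nd (nat_lit 78) (nat_lit 0) (nat_lit 0) (XT.lf (nat_lit 0) (nat_lit 64739962685) (nat_lit 76) (nat_lit 80995471430) (nat_lit 152) (nat_lit 116038599400) (nat_lit 25) (nat_lit 5) (nat_lit 26) (nat_lit 5) (nat_lit 27) (nat_lit 4) (nat_lit 449) (nat_lit 385) (nat_lit 186)) (XT.lf (nat_lit 0) (nat_lit 191244684860) (nat_lit 76) (nat_lit 16200699917) (nat_lit 152) (nat_lit 64128663203) (nat_lit 25) (nat_lit 5) (nat_lit 26) (nat_lit 5) (nat_lit 27) (nat_lit 4) (nat_lit 450) (nat_lit 385) (nat_lit 185)))))) (XT.nd (nat_lit 468) (nat_lit 304) (nat_lit 0) (XT.nd (nat_lit 234) (nat_lit 76) (nat_lit 0) (XT.nd (nat_lit 78) (nat_lit 152) (nat_lit 0) (XT.lf (nat_lit 0) (nat_lit 42769491483) (nat_lit 76) (nat_lit 230947987993) (nat_lit 76) (nat_lit 8072751426) (nat_lit 24) (nat_lit 4) (nat_lit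 25) (nat_lit 5) (nat_lit 25) (nat_lit 4) (nat_lit 451) (nat_lit 385) (nat_lit 184)) (XT.nd (nat_lit 78) (nat_lit 76) (nat_lit 0) (XT.lf (nat_lit 0) (nat_lit 50808416741) (nat_lit 152) (nat_lit 118718566790) (nat_lit 76) (nat_lit 122868197508) (nat_lit 23) (nat_lit 5) (nat_lit 25) (nat_lit 5) (nat_lit 24) (nat_lit 4) (nat_lit 452) (nat_lit 385) (nat_lit 183)) (XT.lf (nat_lit 0) (nat_lit 7712548463) (nat_lit 76) (nat_lit 104769854601) (nat_lit 152) (nat_lit 191035355804) (nat_lit 22) (nat_lit 5) (nat_lit 23) (nat_lit 5) (nat_lit 24) (nat_lit 4) (nat_lit 453) (nat_lit 385) (nat_lit 182)))) (XT.nd (nat_lit 78) (nat_lit 76) (nat_lit 0) (XT.lf (nat_lit 0) (nat_lit 144586195404) (nat_lit 76) (nat_lit 34664098948) (nat_lit 152) (nat_lit 135845661001) (nat_lit 22) (nat_lit 5) (nat_lit 23) (nat_lit 5) (nat_lit 24) (nat_lit 4) (nat_lit 454) (nat_lit 385) (nat_lit 181)) (XT.nd (nat_lit 78) (nat_lit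 76) (nat_lit 0) (XT.lf (nat_lit 0) (nat_lit 249964312465) (nat_lit 152) (nat_lit 39558252993) (nat_lit 0) (nat_lit 37700109637) (nat_lit 22) (nat_lit 5) (nat_lit 24) (nat_lit 4) (nat_lit 22) (nat_lit 4) (nat_lit 455) (nat_lit 385) (nat_lit 180)) (XT.lf (nat_lit 0) (nat_lit 100591507486) (nat_lit 76) (nat_lit 225760980691) (nat_lit 76) (nat_lit 13496319857) (nat_lit 21) (nat_lit 4) (nat_lit 22) (nat_lit 5) (nat_lit 22) (nat_lit 4) (nat_lit 456) (nat_lit 385) (nat_lit 179))))) (XT.nd (nat_lit 234) (nat_lit 152) (nat_lit 0) (XT.nd (nat_lit 78) (nat_lit 76) (nat_lit 0) (XT.lf (nat_lit 0) (nat_lit 52423567705) (nat_lit 152) (nat_lit 104796783233) (nat_lit 76) (nat_lit 195810138575) (nat_lit 20) (nat_lit 5) (nat_lit 22) (nat_lit 5) (nat_lit 21) (nat_lit 4) (nat_lit 457) (nat_lit 385) (nat_lit 178)) (XT.nd (nat_lit 78) (nat_lit 0) (nat_lit 0) (XT.lf (nat_lit 0) (nat_lit 37360698647) (nat_lit 76)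 (nat_lit 84408184816) (nat_lit 152) (nat_lit 245062159150) (nat_lit 19) (nat_lit 5) (nat_lit 20) (nat_lit 5) (nat_lit 21) (nat_lit 4) (nat_lit 458) (nat_lit 385) (nat_lit 177)) (XT.lf (nat_lit 0) (nat_lit 190263785913) (nat_lit 76) (nat_lit 6092162384) (nat_lit 152) (nat_lit 184876950944) (nat_lit 19) (nat_lit 5) (nat_lit 20) (nat_lit 5) (nat_lit 21) (nat_lit 4) (nat_lit 459) (nat_lit 385) (nat_lit 176)))) (XT.nd (nat_lit 156) (nat_lit 76) (nat_lit 0) (XT.nd (nat_lit 78) (nat_lit 76) (nat_lit 0) (XT.lf (nat_lit 0) (nat_lit 275860829154) (nat_lit 152) (nat_lit 46732133857) (nat_lit 0) (nat_lit 73702462583) (nat_lit 19) (nat_lit 5) (nat_lit 21) (nat_lit 4) (nat_lit 19) (nat_lit 4) (nat_lit 460) (nat_lit 385) (nat_lit 175)) (XT.lf (nat_lit 0) (nat_lit 108075377519) (nat_lit 76) (nat_lit 253052530706) (nat_lit 76) (nat_lit 50893822364) (nat_lit 18) (nat_lit 4) (nat_lit 19) (nat_lit 5) (nat_lit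 19) (nat_lit 4) (nat_lit 461) (nat_lit 385) (nat_lit 174))) (XT.nd (nat_lit 78) (nat_lit 0) (nat_lit 0) (XT.lf (nat_lit 0) (nat_lit 22220013787) (nat_lit 152) (nat_lit 156608005572) (nat_lit 76) (nat_lit 249648854168) (nat_lit 17) (nat_lit 5) (nat_lit 19) (nat_lit 5) (nat_lit 18) (nat_lit 4) (nat_lit 462) (nat_lit 385) (nat_lit 173)) (XT.lf (nat_lit 0) (nat_lit 97278912395) (nat_lit 152) (nat_lit 2737573422) (nat_lit 76) (nat_lit 345696584734) (nat_lit 17) (nat_lit 5) (nat_lit 19) (nat_lit 5) (nat_lit 18) (nat_lit 4) (nat_lit 463) (nat_lit 385) (nat_lit 172))))))))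
noncomputable def xc199 : XT := (XT.nd (nat_lit 48282) (nat_lit 0) (nat_lit 2660) (XT.nd (nat_lit 47268) (nat_lit 0) (nat_lit 6232) (XT.nd (nat_lit 468) (nat_lit 0) (nat_lit 0) (XT.nd (nat_lit 234) (nat_lit 152) (nat_lit 0) (XT.nd (nat_lit 78) (nat_lit 76) (nat_lit 0) (XT.lf (nat_lit 0) (nat_lit 164077398172) (nat_lit 76) (nat_lit 14574815115) (nat_lit 152) (nat_lit 285030791299) (nat_lit 16) (nat_lit 5) (nat_lit 17) (nat_lit 5) (nat_lit 18) (nat_lit 4) (nat_lit 464) (nat_lit 385) (nat_lit 171)) (XT.nd (nat_lit 78) (nat_lit 76) (nat_lit 0) (XT.lf (nat_lit 0) (nat_lit 265314181071) (nat_lit 152) (nat_lit 144395330488) (nat_lit 0) (nat_lit 72780923696) (nat_lit 16) (nat_lit 5) (nat_lit 18) (nat_lit 4) (nat_lit 16) (nat_lit 4) (nat_lit 465) (nat_lit 385) (nat_lit 170)) (XT.lf (nat_lit 0) (nat_lit 18942339539) (nat_lit 76) (nat_lit 337901344263) (nat_lit 76) (nat_lit 145367831853) (nat_lit 15)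 (nat_lit 4) (nat_lit 16) (nat_lit 5) (nat_lit 16) (nat_lit 4) (nat_lit 466) (nat_lit 385) (nat_lit 169)))) (XT.nd (nat_lit 78) (nat_lit 152) (nat_lit 0) (XT.lf (nat_lit 0) (nat_lit 195459518870) (nat_lit 76) (nat_lit 259935313984) (nat_lit 76) (nat_lit 67401558684) (nat_lit 15) (nat_lit 4) (nat_lit 16) (nat_lit 5) (nat_lit 16) (nat_lit 4) (nat_lit 467) (nat_lit 385) (nat_lit 168)) (XT.nd (nat_lit 78) (nat_lit 76) (nat_lit 0) (XT.lf (nat_lit 0) (nat_lit 13999894769) (nat_lit 152) (nat_lit 163834202347) (nat_lit 76) (nat_lit 366565135007) (nat_lit 14) (nat_lit 5) (nat_lit 16) (nat_lit 5) (nat_lit 15) (nat_lit 4) (nat_lit 468) (nat_lit 385) (nat_lit 167)) (XT.lf (nat_lit 0) (nat_lit 6961035565) (nat_lit 76) (nat_lit 90353716872) (nat_lit 152) (nat_lit 469706791846) (nat_lit 13) (nat_lit 5) (nat_lit 14) (nat_lit 5) (nat_lit 15) (nat_lit 4) (nat_lit 469) (nat_lit 385) (nat_lit 166))))) (XT.nd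 (nat_lit 46566) (nat_lit 0) (nat_lit 7372) (XT.nd (nat_lit 78) (nat_lit 0) (nat_lit 0) (XT.lf (nat_lit 0) (nat_lit 187638665080) (nat_lit 152) (nat_lit 398721587497) (nat_lit 0) (nat_lit 4272553890) (nat_lit 13) (nat_lit 5) (nat_lit 15) (nat_lit 4) (nat_lit 13) (nat_lit 4) (nat_lit 470) (nat_lit 385) (nat_lit 165)) (XT.nd (nat_lit 78) (nat_lit 0) (nat_lit 0) (XT.lf (nat_lit 0) (nat_lit 283959777359) (nat_lit 152) (nat_lit 230797328360) (nat_lit 0) (nat_lit 100593475858) (nat_lit 13) (nat_lit 5) (nat_lit 15) (nat_lit 4) (nat_lit 13) (nat_lit 4) (nat_lit 471) (nat_lit 385) (nat_lit 164)) (XT.lf (nat_lit 0) (nat_lit 385096750519) (nat_lit 152) (nat_lit 54477236907) (nat_lit 0) (nat_lit 201730267769) (nat_lit 13) (nat_lit 5) (nat_lit 15) (nat_lit 4) (nat_lit 13) (nat_lit 4) (nat_lit 472) (nat_lit 385) (nat_lit 163)))) (XT.nd (nat_lit 78) (nat_lit 0) (nat_lit 0) (XT.lf (nat_lit 0) (nat_lit 4044356261)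 (nat_lit 836) (nat_lit 7583456296) (nat_lit 836) (nat_lit 7583456296) (nat_lit 110) (nat_lit 3) (nat_lit 121) (nat_lit 3) (nat_lit 121) (nat_lit 5) (nat_lit 386) (nat_lit 386) (nat_lit 248)) (XT.nd (nat_lit 78) (nat_lit 0) (nat_lit 76) (XT.lf (nat_lit 76) (nat_lit 3456641803) (nat_lit 0) (nat_lit 4931441446) (nat_lit 836) (nat_lit 30990129759) (nat_lit 111) (nat_lit 5) (nat_lit 110) (nat_lit 3) (nat_lit 121) (nat_lit 5) (nat_lit 387) (nat_lit 386) (nat_lit 247)) (XT.lf (nat_lit 0) (nat_lit 9184127448) (nat_lit 760) (nat_lit 17060169625) (nat_lit 836) (nat_lit 14113291707) (nat_lit 111) (nat_lit 5) (nat_lit 121) (nat_lit 5) (nat_lit 122) (nat_lit 5) (nat_lit 388) (nat_lit 386) (nat_lit 246)))))) (XT.nd (nat_lit 468) (nat_lit 1216) (nat_lit 0) (XT.nd (nat_lit 234) (nat_lit 0) (nat_lit 152) (XT.nd (nat_lit 78) (nat_lit 0) (nat_lit 76) (XT.lf (nat_lit 76) (nat_lit 2749889767) (nat_lit 0) (nat_lit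 7391224967) (nat_lit 836) (nat_lit 31238763422) (nat_lit 112) (nat_lit 5) (nat_lit 111) (nat_lit 5) (nat_lit 122) (nat_lit 5) (nat_lit 389) (nat_lit 386) (nat_lit 245)) (XT.nd (nat_lit 78) (nat_lit 0) (nat_lit 0) (XT.lf (nat_lit 0) (nat_lit 11630759628) (nat_lit 760) (nat_lit 18496199497) (nat_lit 836) (nat_lit 12302084236) (nat_lit 112) (nat_lit 5) (nat_lit 122) (nat_lit 5) (nat_lit 123) (nat_lit 5) (nat_lit 390) (nat_lit 386) (nat_lit 244)) (XT.lf (nat_lit 76) (nat_lit 2604863250) (nat_lit 0) (nat_lit 10749460888) (nat_lit 836) (nat_lit 30168372504) (nat_lit 113) (nat_lit 5) (nat_lit 112) (nat_lit 5) (nat_lit 123) (nat_lit 5) (nat_lit 391) (nat_lit 386) (nat_lit 243)))) (XT.nd (nat_lit 78) (nat_lit 0) (nat_lit 0) (XT.lf (nat_lit 0) (nat_lit 15629979874) (nat_lit 760) (nat_lit 19408936906) (nat_lit 836) (nat_lit 9608821764) (nat_lit 113) (nat_lit 5) (nat_lit 123) (nat_lit 5) (nat_lit 124)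 (nat_lit 5) (nat_lit 392) (nat_lit 386) (nat_lit 242)) (XT.nd (nat_lit 78) (nat_lit 0) (nat_lit 76) (XT.lf (nat_lit 76) (nat_lit 3096656040) (nat_lit 0) (nat_lit 15145141074) (nat_lit 836) (nat_lit 27576118019) (nat_lit 114) (nat_lit 5) (nat_lit 113) (nat_lit 5) (nat_lit 124) (nat_lit 5) (nat_lit 393) (nat_lit 386) (nat_lit 241)) (XT.lf (nat_lit 0) (nat_lit 21405860243) (nat_lit 760) (nat_lit 19725588669) (nat_lit 836) (nat_lit 5894070347) (nat_lit 114) (nat_lit 5) (nat_lit 124) (nat_lit 5) (nat_lit 125) (nat_lit 5) (nat_lit 394) (nat_lit 386) (nat_lit 240))))) (XT.nd (nat_lit 234) (nat_lit 760) (nat_lit 0) (XT.nd (nat_lit 78) (nat_lit 684) (nat_lit 0) (XT.lf (nat_lit 76) (nat_lit 4307815262) (nat_lit 0) (nat_lit 20733846851) (nat_lit 836) (nat_lit 23236166085) (nat_lit 115) (nat_lit 5) (nat_lit 114) (nat_lit 5) (nat_lit 125) (nat_lit 5) (nat_lit 395) (nat_lit 386) (nat_lit 239)) (XT.nd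 (nat_lit 78) (nat_lit 760) (nat_lit 0) (XT.lf (nat_lit 0) (nat_lit 29207538837) (nat_lit 760) (nat_lit 19366204358) (nat_lit 76) (nat_lit 1001596473) (nat_lit 115) (nat_lit 5) (nat_lit 125) (nat_lit 5) (nat_lit 116) (nat_lit 5) (nat_lit 396) (nat_lit 386) (nat_lit 238)) (XT.lf (nat_lit 0) (nat_lit 6328816915) (nat_lit 760) (nat_lit 27689766440) (nat_lit 836) (nat_lit 16897300917) (nat_lit 105) (nat_lit 5) (nat_lit 115) (nat_lit 5) (nat_lit 116) (nat_lit 5) (nat_lit 397) (nat_lit 386) (nat_lit 237)))) (XT.nd (nat_lit 156) (nat_lit 380) (nat_lit 0) (XT.nd (nat_lit 78) (nat_lit 380) (nat_lit 0) (XT.lf (nat_lit 0) (nat_lit 33979326323) (nat_lit 760) (nat_lit 5417056299) (nat_lit 836) (nat_lit 12910764556) (nat_lit 105) (nat_lit 5) (nat_lit 115) (nat_lit 5) (nat_lit 116) (nat_lit 5) (nat_lit 398) (nat_lit 386) (nat_lit 236)) (XT.lf (nat_lit 0) (nat_lit 9258543276) (nat_lit 380) (nat_lit 36207944659)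 (nat_lit 456) (nat_lit 8280315631) (nat_lit 100) (nat_lit 5) (nat_lit 105) (nat_lit 5) (nat_lit 106) (nat_lit 5) (nat_lit 399) (nat_lit 386) (nat_lit 235))) (XT.nd (nat_lit 78) (nat_lit 380) (nat_lit 0) (XT.lf (nat_lit 0) (nat_lit 38767186973) (nat_lit 380) (nat_lit 13469042598) (nat_lit 456) (nat_lit 3002407736) (nat_lit 100) (nat_lit 5) (nat_lit 105) (nat_lit 5) (nat_lit 106) (nat_lit 5) (nat_lit 400) (nat_lit 386) (nat_lit 234)) (XT.lf (nat_lit 0) (nat_lit 2831225321) (nat_lit 380) (nat_lit 43627620714) (nat_lit 76) (nat_lit 10325580019) (nat_lit 95) (nat_lit 5) (nat_lit 100) (nat_lit 5) (nat_lit 96) (nat_lit 5) (nat_lit 401) (nat_lit 386) (nat_lit 233))))))) (XT.nd (nat_lit 1014) (nat_lit 1520) (nat_lit 0) (XT.nd (nat_lit 468) (nat_lit 1064) (nat_lit 0) (XT.nd (nat_lit 234) (nat_lit 608) (nat_lit 0) (XT.nd (nat_lit 78) (nat_lit 380) (nat_lit 0) (XT.lf (nat_lit 0) (nat_lit 9358438969)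 (nat_lit 380) (nat_lit 13831455509) (nat_lit 76) (nat_lit 35190009733) (nat_lit 95) (nat_lit 5) (nat_lit 100) (nat_lit 5) (nat_lit 96) (nat_lit 5) (nat_lit 402) (nat_lit 386) (nat_lit 232)) (XT.nd (nat_lit 78) (nat_lit 0) (nat_lit 0) (XT.lf (nat_lit 0) (nat_lit 16516068462) (nat_lit 456) (nat_lit 42035125369) (nat_lit 76) (nat_lit 1488760580) (nat_lit 90) (nat_lit 5) (nat_lit 96) (nat_lit 5) (nat_lit 91) (nat_lit 5) (nat_lit 403) (nat_lit 386) (nat_lit 231)) (XT.lf (nat_lit 0) (nat_lit 24648411251) (nat_lit 456) (nat_lit 10243767120) (nat_lit 76) (nat_lit 26859988012) (nat_lit 90) (nat_lit 5) (nat_lit 96) (nat_lit 5) (nat_lit 91) (nat_lit 5) (nat_lit 404) (nat_lit 386) (nat_lit 230)))) (XT.nd (nat_lit 78) (nat_lit 304) (nat_lit 0) (XT.lf (nat_lit 0) (nat_lit 23900609130) (nat_lit 304) (nat_lit 9658572000) (nat_lit 380) (nat_lit 29972218135) (nat_lit 86) (nat_lit 5) (nat_lit 90) (nat_lit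 5) (nat_lit 91) (nat_lit 5) (nat_lit 405) (nat_lit 386) (nat_lit 229)) (XT.nd (nat_lit 78) (nat_lit 304) (nat_lit 0) (XT.lf (nat_lit 0) (nat_lit 43353377196) (nat_lit 380) (nat_lit 5550344492) (nat_lit 76) (nat_lit 16473978492) (nat_lit 86) (nat_lit 5) (nat_lit 91) (nat_lit 5) (nat_lit 87) (nat_lit 5) (nat_lit 406) (nat_lit 386) (nat_lit 228)) (XT.lf (nat_lit 0) (nat_lit 31068695394) (nat_lit 304) (nat_lit 23210748846) (nat_lit 380) (nat_lit 13004764579) (nat_lit 82) (nat_lit 5) (nat_lit 86) (nat_lit 5) (nat_lit 87) (nat_lit 5) (nat_lit 407) (nat_lit 386) (nat_lit 227))))) (XT.nd (nat_lit 234) (nat_lit 456) (nat_lit 0) (XT.nd (nat_lit 78) (nat_lit 380) (nat_lit 0) (XT.lf (nat_lit 0) (nat_lit 380344315) (nat_lit 228) (nat_lit 65530545862) (nat_lit 304) (nat_lit 3367199635) (nat_lit 79) (nat_lit 5) (nat_lit 82) (nat_lit 5) (nat_lit 83) (nat_lit 5) (nat_lit 408) (nat_lit 386) (nat_lit 226))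 (XT.nd (nat_lit 78) (nat_lit 304) (nat_lit 0) (XT.lf (nat_lit 0) (nat_lit 7538817103) (nat_lit 304) (nat_lit 31775194964) (nat_lit 76) (nat_lit 32002247976) (nat_lit 78) (nat_lit 5) (nat_lit 82) (nat_lit 5) (nat_lit 79) (nat_lit 5) (nat_lit 409) (nat_lit 386) (nat_lit 225)) (XT.lf (nat_lit 0) (nat_lit 7383130141) (nat_lit 304) (nat_lit 11607974610) (nat_lit 380) (nat_lit 54456768138) (nat_lit 74) (nat_lit 5) (nat_lit 78) (nat_lit 5) (nat_lit 79) (nat_lit 5) (nat_lit 410) (nat_lit 386) (nat_lit 224)))) (XT.nd (nat_lit 156) (nat_lit 228) (nat_lit 0) (XT.nd (nat_lit 78) (nat_lit 228) (nat_lit 0) (XT.lf (nat_lit 0) (nat_lit 31834806724) (nat_lit 380) (nat_lit 26339898183) (nat_lit 76) (nat_lit 17470422048) (nat_lit 74) (nat_lit 5) (nat_lit 79) (nat_lit 5) (nat_lit 75) (nat_lit 5) (nat_lit 411) (nat_lit 386) (nat_lit 223)) (XT.lf (nat_lit 0) (nat_lit 15681380189) (nat_lit 228) (nat_lit 30073377177)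 (nat_lit 304) (nat_lit 32175783729) (nat_lit 71) (nat_lit 5) (nat_lit 74) (nat_lit 5) (nat_lit 75) (nat_lit 5) (nat_lit 412) (nat_lit 386) (nat_lit 222))) (XT.nd (nat_lit 78) (nat_lit 228) (nat_lit 0) (XT.lf (nat_lit 0) (nat_lit 60716791251) (nat_lit 228) (nat_lit 98960618) (nat_lit 304) (nat_lit 19492222281) (nat_lit 71) (nat_lit 5) (nat_lit 74) (nat_lit 5) (nat_lit 75) (nat_lit 5) (nat_lit 413) (nat_lit 386) (nat_lit 221)) (XT.lf (nat_lit 0) (nat_lit 25525458264) (nat_lit 228) (nat_lit 51991711817) (nat_lit 304) (nat_lit 5242740575) (nat_lit 68) (nat_lit 5) (nat_lit 71) (nat_lit 5) (nat_lit 72) (nat_lit 5) (nat_lit 414) (nat_lit 386) (nat_lit 220)))))) (XT.nd (nat_lit 468) (nat_lit 760) (nat_lit 0) (XT.nd (nat_lit 234) (nat_lit 456) (nat_lit 0) (XT.nd (nat_lit 78) (nat_lit 228) (nat_lit 0) (XT.lf (nat_lit 0) (nat_lit 9746008217) (nat_lit 304) (nat_lit 11899948873) (nat_lit 76) (nat_lit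 63664006710) (nat_lit 67) (nat_lit 5) (nat_lit 71) (nat_lit 5) (nat_lit 68) (nat_lit 5) (nat_lit 415) (nat_lit 386) (nat_lit 219)) (XT.nd (nat_lit 78) (nat_lit 0) (nat_lit 0) (XT.lf (nat_lit 0) (nat_lit 26051828266) (nat_lit 304) (nat_lit 51333307763) (nat_lit 76) (nat_lit 10560895459) (nat_lit 64) (nat_lit 5) (nat_lit 68) (nat_lit 5) (nat_lit 65) (nat_lit 5) (nat_lit 416) (nat_lit 386) (nat_lit 218)) (XT.lf (nat_lit 0) (nat_lit 43731712031) (nat_lit 304) (nat_lit 3099146700) (nat_lit 76) (nat_lit 43855105603) (nat_lit 64) (nat_lit 5) (nat_lit 68) (nat_lit 5) (nat_lit 65) (nat_lit 5) (nat_lit 417) (nat_lit 386) (nat_lit 217)))) (XT.nd (nat_lit 78) (nat_lit 228) (nat_lit 0) (XT.lf (nat_lit 0) (nat_lit 49117518841) (nat_lit 228) (nat_lit 13944062571) (nat_lit 304) (nat_lit 30463013232) (nat_lit 61) (nat_lit 5) (nat_lit 64) (nat_lit 5) (nat_lit 65) (nat_lit 5) (nat_lit 418) (nat_lit 386) (nat_lit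 216)) (XT.nd (nat_lit 78) (nat_lit 76) (nat_lit 0) (XT.lf (nat_lit 0) (nat_lit 7465452662) (nat_lit 152) (nat_lit 76382961091) (nat_lit 228) (nat_lit 12632219611) (nat_lit 59) (nat_lit 5) (nat_lit 61) (nat_lit 5) (nat_lit 62) (nat_lit 5) (nat_lit 419) (nat_lit 386) (nat_lit 215)) (XT.lf (nat_lit 0) (nat_lit 6887319204) (nat_lit 228) (nat_lit 36410848596) (nat_lit 76) (nat_lit 56231946010) (nat_lit 58) (nat_lit 5) (nat_lit 61) (nat_lit 5) (nat_lit 59) (nat_lit 5) (nat_lit 420) (nat_lit 386) (nat_lit 214))))) (XT.nd (nat_lit 234) (nat_lit 380) (nat_lit 0) (XT.nd (nat_lit 78) (nat_lit 152) (nat_lit 0) (XT.lf (nat_lit 0) (nat_lit 19230890197) (nat_lit 228) (nat_lit 8026859732) (nat_lit 304) (nat_lit 75448992375) (nat_lit 55) (nat_lit 5) (nat_lit 58) (nat_lit 5) (nat_lit 59) (nat_lit 5) (nat_lit 421) (nat_lit 386) (nat_lit 213)) (XT.nd (nat_lit 78) (nat_lit 152) (nat_lit 0) (XT.lf (nat_lit 0)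 (nat_lit 49725547876) (nat_lit 304) (nat_lit 27556803377) (nat_lit 76) (nat_lit 28705908991) (nat_lit 55) (nat_lit 5) (nat_lit 59) (nat_lit 5) (nat_lit 56) (nat_lit 5) (nat_lit 422) (nat_lit 386) (nat_lit 212)) (XT.lf (nat_lit 0) (nat_lit 32051263738) (nat_lit 152) (nat_lit 41896712926) (nat_lit 228) (nat_lit 35454315660) (nat_lit 53) (nat_lit 5) (nat_lit 55) (nat_lit 5) (nat_lit 56) (nat_lit 5) (nat_lit 423) (nat_lit 386) (nat_lit 211)))) (XT.nd (nat_lit 156) (nat_lit 152) (nat_lit 0) (XT.nd (nat_lit 78) (nat_lit 228) (nat_lit 0) (XT.lf (nat_lit 0) (nat_lit 95595276548) (nat_lit 152) (nat_lit 4252198987) (nat_lit 228) (nat_lit 13116253318) (nat_lit 53) (nat_lit 5) (nat_lit 55) (nat_lit 5) (nat_lit 56) (nat_lit 5) (nat_lit 424) (nat_lit 386) (nat_lit 210)) (XT.lf (nat_lit 0) (nat_lit 11305560528) (nat_lit 228) (nat_lit 70270434352) (nat_lit 76) (nat_lit 35054284181) (nat_lit 50) (nat_lit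 5) (nat_lit 53) (nat_lit 5) (nat_lit 51) (nat_lit 5) (nat_lit 425) (nat_lit 386) (nat_lit 209))) (XT.nd (nat_lit 78) (nat_lit 152) (nat_lit 0) (XT.lf (nat_lit 0) (nat_lit 36875640637) (nat_lit 228) (nat_lit 6878596649) (nat_lit 76) (nat_lit 76696770320) (nat_lit 50) (nat_lit 5) (nat_lit 53) (nat_lit 5) (nat_lit 51) (nat_lit 5) (nat_lit 426) (nat_lit 386) (nat_lit 208)) (XT.lf (nat_lit 0) (nat_lit 61655089116) (nat_lit 152) (nat_lit 3031072313) (nat_lit 228) (nat_lit 59728514542) (nat_lit 48) (nat_lit 5) (nat_lit 50) (nat_lit 5) (nat_lit 51) (nat_lit 5) (nat_lit 427) (nat_lit 386) (nat_lit 207))))))))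
noncomputable def xc200 : XT := (XT.nd (nat_lit 1950) (nat_lit 836) (nat_lit 0) (XT.nd (nat_lit 936) (nat_lit 836) (nat_lit 0) (XT.nd (nat_lit 468) (nat_lit 456) (nat_lit 0) (XT.nd (nat_lit 234) (nat_lit 152) (nat_lit 0) (XT.nd (nat_lit 78) (nat_lit 228) (nat_lit 0) (XT.lf (nat_lit 0) (nat_lit 4814375766) (nat_lit 152) (nat_lit 89886006469) (nat_lit 228) (nat_lit 33835487040) (nat_lit 46) (nat_lit 5) (nat_lit 48) (nat_lit 5) (nat_lit 49) (nat_lit 5) (nat_lit 428) (nat_lit 386) (nat_lit 206)) (XT.nd (nat_lit 78) (nat_lit 228) (nat_lit 0) (XT.lf (nat_lit 0) (nat_lit 77893492083) (nat_lit 152) (nat_lit 49432925578) (nat_lit 228) (nat_lit 5481149609) (nat_lit 46) (nat_lit 5) (nat_lit 48) (nat_lit 5) (nat_lit 49) (nat_lit 5) (nat_lit 429) (nat_lit 386) (nat_lit 205)) (XT.lf (nat_lit 0) (nat_lit 17513969049) (nat_lit 152) (nat_lit 6272289049) (nat_lit 228) (nat_lit 113473989099) (nat_lit 43) (nat_lit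 5) (nat_lit 45) (nat_lit 5) (nat_lit 46) (nat_lit 5) (nat_lit 430) (nat_lit 386) (nat_lit 204)))) (XT.nd (nat_lit 78) (nat_lit 152) (nat_lit 0) (XT.lf (nat_lit 0) (nat_lit 55887078400) (nat_lit 228) (nat_lit 47134936910) (nat_lit 76) (nat_lit 38831341004) (nat_lit 43) (nat_lit 5) (nat_lit 46) (nat_lit 5) (nat_lit 44) (nat_lit 5) (nat_lit 431) (nat_lit 386) (nat_lit 203)) (XT.nd (nat_lit 78) (nat_lit 0) (nat_lit 0) (XT.lf (nat_lit 0) (nat_lit 29962112515) (nat_lit 152) (nat_lit 60200852811) (nat_lit 228) (nat_lit 56484654449) (nat_lit 41) (nat_lit 5) (nat_lit 43) (nat_lit 5) (nat_lit 44) (nat_lit 5) (nat_lit 432) (nat_lit 386) (nat_lit 202)) (XT.lf (nat_lit 0) (nat_lit 112549440086) (nat_lit 152) (nat_lit 14400880792) (nat_lit 228) (nat_lit 24691391981) (nat_lit 41) (nat_lit 5) (nat_lit 43) (nat_lit 5) (nat_lit 44) (nat_lit 5) (nat_lit 433) (nat_lit 386) (nat_lit 201))))) (XT.nd (nat_lit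 234) (nat_lit 152) (nat_lit 0) (XT.nd (nat_lit 78) (nat_lit 152) (nat_lit 0) (XT.lf (nat_lit 0) (nat_lit 9633513248) (nat_lit 152) (nat_lit 113743319168) (nat_lit 76) (nat_lit 33440885218) (nat_lit 39) (nat_lit 5) (nat_lit 41) (nat_lit 5) (nat_lit 40) (nat_lit 5) (nat_lit 434) (nat_lit 386) (nat_lit 200)) (XT.nd (nat_lit 78) (nat_lit 152) (nat_lit 0) (XT.lf (nat_lit 0) (nat_lit 45753296154) (nat_lit 152) (nat_lit 32165501822) (nat_lit 76) (nat_lit 84268064712) (nat_lit 39) (nat_lit 5) (nat_lit 41) (nat_lit 5) (nat_lit 40) (nat_lit 5) (nat_lit 435) (nat_lit 386) (nat_lit 199)) (XT.lf (nat_lit 0) (nat_lit 55258912839) (nat_lit 152) (nat_lit 29282373576) (nat_lit 228) (nat_lit 83240067801) (nat_lit 37) (nat_lit 5) (nat_lit 39) (nat_lit 5) (nat_lit 40) (nat_lit 5) (nat_lit 436) (nat_lit 386) (nat_lit 198)))) (XT.nd (nat_lit 78) (nat_lit 152) (nat_lit 0) (XT.lf (nat_lit 0) (nat_lit 126161959752)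 (nat_lit 228) (nat_lit 25807069073) (nat_lit 76) (nat_lit 21641877446) (nat_lit 37) (nat_lit 5) (nat_lit 40) (nat_lit 5) (nat_lit 38) (nat_lit 4) (nat_lit 437) (nat_lit 386) (nat_lit 197)) (XT.nd (nat_lit 78) (nat_lit 76) (nat_lit 0) (XT.lf (nat_lit 0) (nat_lit 66904510489) (nat_lit 76) (nat_lit 104483263579) (nat_lit 152) (nat_lit 8267956615) (nat_lit 36) (nat_lit 5) (nat_lit 37) (nat_lit 5) (nat_lit 38) (nat_lit 4) (nat_lit 438) (nat_lit 386) (nat_lit 196)) (XT.lf (nat_lit 0) (nat_lit 32263694413) (nat_lit 152) (nat_lit 21354588403) (nat_lit 76) (nat_lit 132336666164) (nat_lit 35) (nat_lit 5) (nat_lit 37) (nat_lit 5) (nat_lit 36) (nat_lit 5) (nat_lit 439) (nat_lit 386) (nat_lit 195)))))) (XT.nd (nat_lit 468) (nat_lit 380) (nat_lit 0) (XT.nd (nat_lit 234) (nat_lit 228) (nat_lit 0) (XT.nd (nat_lit 78) (nat_lit 76) (nat_lit 0) (XT.lf (nat_lit 0) (nat_lit 75763443926) (nat_lit 228) (nat_lit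 115582956676) (nat_lit 76) (nat_lit 1154982006) (nat_lit 33) (nat_lit 5) (nat_lit 36) (nat_lit 5) (nat_lit 34) (nat_lit 4) (nat_lit 440) (nat_lit 386) (nat_lit 194)) (XT.nd (nat_lit 78) (nat_lit 76) (nat_lit 0) (XT.lf (nat_lit 0) (nat_lit 122684279108) (nat_lit 228) (nat_lit 19396346799) (nat_lit 76) (nat_lit 57232207201) (nat_lit 33) (nat_lit 5) (nat_lit 36) (nat_lit 5) (nat_lit 34) (nat_lit 4) (nat_lit 441) (nat_lit 386) (nat_lit 193)) (XT.lf (nat_lit 0) (nat_lit 84296809801) (nat_lit 76) (nat_lit 88970008994) (nat_lit 152) (nat_lit 33132254296) (nat_lit 32) (nat_lit 5) (nat_lit 33) (nat_lit 5) (nat_lit 34) (nat_lit 4) (nat_lit 442) (nat_lit 386) (nat_lit 192)))) (XT.nd (nat_lit 78) (nat_lit 152) (nat_lit 0) (XT.lf (nat_lit 0) (nat_lit 12470964993) (nat_lit 152) (nat_lit 20177140824) (nat_lit 76) (nat_lit 181165059681) (nat_lit 31) (nat_lit 5) (nat_lit 33) (nat_lit 5) (nat_lit 32) (nat_lit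 5) (nat_lit 443) (nat_lit 386) (nat_lit 191)) (XT.nd (nat_lit 78) (nat_lit 0) (nat_lit 0) (XT.lf (nat_lit 0) (nat_lit 61077699754) (nat_lit 228) (nat_lit 132792735178) (nat_lit 76) (nat_lit 27608529315) (nat_lit 29) (nat_lit 5) (nat_lit 32) (nat_lit 5) (nat_lit 30) (nat_lit 4) (nat_lit 444) (nat_lit 386) (nat_lit 190)) (XT.lf (nat_lit 0) (nat_lit 112996876612) (nat_lit 228) (nat_lit 26359286258) (nat_lit 76) (nat_lit 90127784874) (nat_lit 29) (nat_lit 5) (nat_lit 32) (nat_lit 5) (nat_lit 30) (nat_lit 4) (nat_lit 445) (nat_lit 386) (nat_lit 189))))) (XT.nd (nat_lit 234) (nat_lit 152) (nat_lit 0) (XT.nd (nat_lit 78) (nat_lit 152) (nat_lit 0) (XT.lf (nat_lit 0) (nat_lit 88218645180) (nat_lit 76) (nat_lit 80670306529) (nat_lit 152) (nat_lit 68931381810) (nat_lit 28) (nat_lit 5) (nat_lit 29) (nat_lit 5) (nat_lit 30) (nat_lit 4) (nat_lit 446) (nat_lit 386) (nat_lit 188)) (XT.nd (nat_lit 78) (nat_lit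 152) (nat_lit 0) (XT.lf (nat_lit 0) (nat_lit 209439882473) (nat_lit 76) (nat_lit 18581762231) (nat_lit 152) (nat_lit 18529593244) (nat_lit 28) (nat_lit 5) (nat_lit 29) (nat_lit 5) (nat_lit 30) (nat_lit 4) (nat_lit 447) (nat_lit 386) (nat_lit 187)) (XT.lf (nat_lit 0) (nat_lit 35346777401) (nat_lit 152) (nat_lit 173258377959) (nat_lit 76) (nat_lit 46983921277) (nat_lit 26) (nat_lit 5) (nat_lit 28) (nat_lit 5) (nat_lit 27) (nat_lit 4) (nat_lit 448) (nat_lit 386) (nat_lit 186)))) (XT.nd (nat_lit 156) (nat_lit 76) (nat_lit 0) (XT.nd (nat_lit 78) (nat_lit 76) (nat_lit 0) (XT.lf (nat_lit 0) (nat_lit 92237293538) (nat_lit 152) (nat_lit 56633496560) (nat_lit 76) (nat_lit 116145676891) (nat_lit 26) (nat_lit 5) (nat_lit 28) (nat_lit 5) (nat_lit 27) (nat_lit 4) (nat_lit 449) (nat_lit 386) (nat_lit 185)) (XT.lf (nat_lit 0) (nat_lit 67998327567) (nat_lit 76) (nat_lit 85035292111) (nat_lit 152) (nat_lit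 121828543031) (nat_lit 25) (nat_lit 5) (nat_lit 26) (nat_lit 5) (nat_lit 27) (nat_lit 4) (nat_lit 450) (nat_lit 386) (nat_lit 184))) (XT.nd (nat_lit 78) (nat_lit 76) (nat_lit 0) (XT.lf (nat_lit 0) (nat_lit 200827268386) (nat_lit 76) (nat_lit 17001255970) (nat_lit 152) (nat_lit 67323680802) (nat_lit 25) (nat_lit 5) (nat_lit 26) (nat_lit 5) (nat_lit 27) (nat_lit 4) (nat_lit 451) (nat_lit 386) (nat_lit 183)) (XT.lf (nat_lit 0) (nat_lit 44928377948) (nat_lit 76) (nat_lit 242485787839) (nat_lit 76) (nat_lit 8465034420) (nat_lit 24) (nat_lit 4) (nat_lit 25) (nat_lit 5) (nat_lit 25) (nat_lit 4) (nat_lit 452) (nat_lit 386) (nat_lit 182))))))) (XT.nd (nat_lit 1014) (nat_lit 228) (nat_lit 0) (XT.nd (nat_lit 468) (nat_lit 304) (nat_lit 0) (XT.nd (nat_lit 234) (nat_lit 152) (nat_lit 0) (XT.nd (nat_lit 78) (nat_lit 76) (nat_lit 0) (XT.lf (nat_lit 0) (nat_lit 53359305350) (nat_lit 152) (nat_lit 124634707649)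 (nat_lit 76) (nat_lit 129020402231) (nat_lit 23) (nat_lit 5) (nat_lit 25) (nat_lit 5) (nat_lit 24) (nat_lit 4) (nat_lit 453) (nat_lit 386) (nat_lit 181)) (XT.nd (nat_lit 78) (nat_lit 0) (nat_lit 0) (XT.lf (nat_lit 0) (nat_lit 8117644213) (nat_lit 76) (nat_lit 109999152265) (nat_lit 152) (nat_lit 200576335267) (nat_lit 22) (nat_lit 5) (nat_lit 23) (nat_lit 5) (nat_lit 24) (nat_lit 4) (nat_lit 454) (nat_lit 386) (nat_lit 180)) (XT.lf (nat_lit 0) (nat_lit 151834046438) (nat_lit 76) (nat_lit 36388546690) (nat_lit 152) (nat_lit 142627669454) (nat_lit 22) (nat_lit 5) (nat_lit 23) (nat_lit 5) (nat_lit 24) (nat_lit 4) (nat_lit 455) (nat_lit 386) (nat_lit 179)))) (XT.nd (nat_lit 78) (nat_lit 152) (nat_lit 0) (XT.lf (nat_lit 0) (nat_lit 262471976453) (nat_lit 152) (nat_lit 41518170331) (nat_lit 0) (nat_lit 39593188376) (nat_lit 22) (nat_lit 5) (nat_lit 24) (nat_lit 4) (nat_lit 22) (nat_lit 4) (nat_lit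 456) (nat_lit 386) (nat_lit 178)) (XT.nd (nat_lit 78) (nat_lit 76) (nat_lit 0) (XT.lf (nat_lit 0) (nat_lit 105638787926) (nat_lit 76) (nat_lit 237040599528) (nat_lit 76) (nat_lit 14161396026) (nat_lit 21) (nat_lit 4) (nat_lit 22) (nat_lit 5) (nat_lit 22) (nat_lit 4) (nat_lit 457) (nat_lit 386) (nat_lit 177)) (XT.lf (nat_lit 0) (nat_lit 55053725222) (nat_lit 152) (nat_lit 110019462438) (nat_lit 76) (nat_lit 205608376274) (nat_lit 20) (nat_lit 5) (nat_lit 22) (nat_lit 5) (nat_lit 21) (nat_lit 4) (nat_lit 458) (nat_lit 386) (nat_lit 176))))) (XT.nd (nat_lit 234) (nat_lit 228) (nat_lit 0) (XT.nd (nat_lit 78) (nat_lit 0) (nat_lit 0) (XT.lf (nat_lit 0) (nat_lit 39245616762) (nat_lit 76) (nat_lit 88620526022) (nat_lit 152) (nat_lit 257306010157) (nat_lit 19) (nat_lit 5) (nat_lit 20) (nat_lit 5) (nat_lit 21) (nat_lit 4) (nat_lit 459) (nat_lit 386) (nat_lit 175)) (XT.nd (nat_lit 78) (nat_lit 0) (nat_lit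 0) (XT.lf (nat_lit 0) (nat_lit 199793054430) (nat_lit 76) (nat_lit 6389086660) (nat_lit 152) (nat_lit 194111982347) (nat_lit 19) (nat_lit 5) (nat_lit 20) (nat_lit 5) (nat_lit 21) (nat_lit 4) (nat_lit 460) (nat_lit 386) (nat_lit 174)) (XT.lf (nat_lit 0) (nat_lit 289661980464) (nat_lit 152) (nat_lit 49053140530) (nat_lit 0) (nat_lit 77394669439) (nat_lit 19) (nat_lit 5) (nat_lit 21) (nat_lit 4) (nat_lit 19) (nat_lit 4) (nat_lit 461) (nat_lit 386) (nat_lit 173)))) (XT.nd (nat_lit 156) (nat_lit 76) (nat_lit 0) (XT.nd (nat_lit 78) (nat_lit 76) (nat_lit 0) (XT.lf (nat_lit 0) (nat_lit 113494494802) (nat_lit 76) (nat_lit 265697772135) (nat_lit 76) (nat_lit 53430151113) (nat_lit 18) (nat_lit 4) (nat_lit 19) (nat_lit 5) (nat_lit 19) (nat_lit 4) (nat_lit 462) (nat_lit 386) (nat_lit 172)) (XT.lf (nat_lit 0) (nat_lit 23338723735) (nat_lit 152) (nat_lit 164423532598) (nat_lit 76) (nat_lit 262138074588)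 (nat_lit 17) (nat_lit 5) (nat_lit 19) (nat_lit 5) (nat_lit 18) (nat_lit 4) (nat_lit 463) (nat_lit 386) (nat_lit 171))) (XT.nd (nat_lit 78) (nat_lit 76) (nat_lit 0) (XT.lf (nat_lit 0) (nat_lit 102150200166) (nat_lit 152) (nat_lit 2860287090) (nat_lit 76) (nat_lit 362987868935) (nat_lit 17) (nat_lit 5) (nat_lit 19) (nat_lit 5) (nat_lit 18) (nat_lit 4) (nat_lit 464) (nat_lit 386) (nat_lit 170)) (XT.lf (nat_lit 0) (nat_lit 172295204616) (nat_lit 76) (nat_lit 15296829449) (nat_lit 152) (nat_lit 299274759501) (nat_lit 16) (nat_lit 5) (nat_lit 17) (nat_lit 5) (nat_lit 18) (nat_lit 4) (nat_lit 465) (nat_lit 386) (nat_lit 169)))))) (XT.nd (nat_lit 468) (nat_lit 0) (nat_lit 0) (XT.nd (nat_lit 234) (nat_lit 152) (nat_lit 0) (XT.nd (nat_lit 78) (nat_lit 76) (nat_lit 0) (XT.lf (nat_lit 0) (nat_lit 278586856917) (nat_lit 152) (nat_lit 151601580092) (nat_lit 0) (nat_lit 76426170961) (nat_lit 16) (nat_lit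 5) (nat_lit 18) (nat_lit 4) (nat_lit 16) (nat_lit 4) (nat_lit 466) (nat_lit 386) (nat_lit 168)) (XT.nd (nat_lit 78) (nat_lit 0) (nat_lit 0) (XT.lf (nat_lit 0) (nat_lit 19902755421) (nat_lit 76) (nat_lit 354789955244) (nat_lit 76) (nat_lit 152629037964) (nat_lit 15) (nat_lit 4) (nat_lit 16) (nat_lit 5) (nat_lit 16) (nat_lit 4) (nat_lit 467) (nat_lit 386) (nat_lit 167)) (XT.lf (nat_lit 0) (nat_lit 205245160437) (nat_lit 76) (nat_lit 272925930891) (nat_lit 76) (nat_lit 70764793303) (nat_lit 15) (nat_lit 4) (nat_lit 16) (nat_lit 5) (nat_lit 16) (nat_lit 4) (nat_lit 468) (nat_lit 386) (nat_lit 166)))) (XT.nd (nat_lit 78) (nat_lit 76) (nat_lit 0) (XT.lf (nat_lit 0) (nat_lit 14706198351) (nat_lit 152) (nat_lit 172013640784) (nat_lit 76) (nat_lit 384899038569) (nat_lit 14) (nat_lit 5) (nat_lit 16) (nat_lit 5) (nat_lit 15) (nat_lit 4) (nat_lit 469) (nat_lit 386) (nat_lit 165)) (XT.nd (nat_lit 78)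 (nat_lit 0) (nat_lit 0) (XT.lf (nat_lit 0) (nat_lit 7321161094) (nat_lit 76) (nat_lit 94865525894) (nat_lit 152) (nat_lit 493185624109) (nat_lit 13) (nat_lit 5) (nat_lit 14) (nat_lit 5) (nat_lit 15) (nat_lit 4) (nat_lit 470) (nat_lit 386) (nat_lit 164)) (XT.lf (nat_lit 0) (nat_lit 197026587555) (nat_lit 152) (nat_lit 418645959825) (nat_lit 0) (nat_lit 4491599419) (nat_lit 13) (nat_lit 5) (nat_lit 15) (nat_lit 4) (nat_lit 13) (nat_lit 4) (nat_lit 471) (nat_lit 386) (nat_lit 163))))) (XT.nd (nat_lit 46644) (nat_lit 0) (nat_lit 7448) (XT.nd (nat_lit 46488) (nat_lit 0) (nat_lit 7372) (XT.lf (nat_lit 0) (nat_lit 298163470247) (nat_lit 152) (nat_lit 242326045210) (nat_lit 0) (nat_lit 105628309494) (nat_lit 13) (nat_lit 5) (nat_lit 15) (nat_lit 4) (nat_lit 13) (nat_lit 4) (nat_lit 472) (nat_lit 386) (nat_lit 162)) (XT.nd (nat_lit 78) (nat_lit 0) (nat_lit 0) (XT.lf (nat_lit 0) (nat_lit 4289084883)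 (nat_lit 836) (nat_lit 7940295926) (nat_lit 836) (nat_lit 7940295926) (nat_lit 110) (nat_lit 3) (nat_lit 121) (nat_lit 3) (nat_lit 121) (nat_lit 5) (nat_lit 387) (nat_lit 387) (nat_lit 246)) (XT.lf (nat_lit 76) (nat_lit 3673419836) (nat_lit 0) (nat_lit 5215726665) (nat_lit 836) (nat_lit 32453837025) (nat_lit 111) (nat_lit 5) (nat_lit 110) (nat_lit 3) (nat_lit 121) (nat_lit 5) (nat_lit 388) (nat_lit 387) (nat_lit 245)))) (XT.nd (nat_lit 156) (nat_lit 0) (nat_lit 76) (XT.nd (nat_lit 78) (nat_lit 0) (nat_lit 0) (XT.lf (nat_lit 0) (nat_lit 9720543612) (nat_lit 760) (nat_lit 17866821075) (nat_lit 836) (nat_lit 14784188588) (nat_lit 111) (nat_lit 5) (nat_lit 121) (nat_lit 5) (nat_lit 122) (nat_lit 5) (nat_lit 389) (nat_lit 387) (nat_lit 244)) (XT.lf (nat_lit 76) (nat_lit 2932993593) (nat_lit 0) (nat_lit 7789422102) (nat_lit 836) (nat_lit 32722692246) (nat_lit 112) (nat_lit 5) (nat_lit 111) (nat_lit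 5) (nat_lit 122) (nat_lit 5) (nat_lit 390) (nat_lit 387) (nat_lit 243))) (XT.nd (nat_lit 78) (nat_lit 0) (nat_lit 0) (XT.lf (nat_lit 0) (nat_lit 12282581549) (nat_lit 760) (nat_lit 19373561331) (nat_lit 836) (nat_lit 12890789059) (nat_lit 112) (nat_lit 5) (nat_lit 122) (nat_lit 5) (nat_lit 123) (nat_lit 5) (nat_lit 391) (nat_lit 387) (nat_lit 242)) (XT.lf (nat_lit 76) (nat_lit 2781789261) (nat_lit 0) (nat_lit 11307917020) (nat_lit 836) (nat_lit 31605694855) (nat_lit 113) (nat_lit 5) (nat_lit 112) (nat_lit 5) (nat_lit 123) (nat_lit 5) (nat_lit 392) (nat_lit 387) (nat_lit 241))))))))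
noncomputable def xc201 : XT := (XT.nd (nat_lit 1950) (nat_lit 2432) (nat_lit 0) (XT.nd (nat_lit 936) (nat_lit 1976) (nat_lit 0) (XT.nd (nat_lit 468) (nat_lit 1140) (nat_lit 0) (XT.nd (nat_lit 234) (nat_lit 608) (nat_lit 0) (XT.nd (nat_lit 78) (nat_lit 0) (nat_lit 0) (XT.lf (nat_lit 0) (nat_lit 16475610612) (nat_lit 760) (nat_lit 20331344903) (nat_lit 836) (nat_lit 10069918568) (nat_lit 113) (nat_lit 5) (nat_lit 123) (nat_lit 5) (nat_lit 124) (nat_lit 5) (nat_lit 393) (nat_lit 387) (nat_lit 240)) (XT.nd (nat_lit 78) (nat_lit 0) (nat_lit 76) (XT.lf (nat_lit 76) (nat_lit 3298752870) (nat_lit 0) (nat_lit 15916949876) (nat_lit 836) (nat_lit 28889974689) (nat_lit 114) (nat_lit 5) (nat_lit 113) (nat_lit 5) (nat_lit 124) (nat_lit 5) (nat_lit 394) (nat_lit 387) (nat_lit 239)) (XT.lf (nat_lit 0) (nat_lit 22534809048) (nat_lit 760) (nat_lit 20663654124) (nat_lit 836) (nat_lit 6175358626) (nat_lit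 114) (nat_lit 5) (nat_lit 124) (nat_lit 5) (nat_lit 125) (nat_lit 5) (nat_lit 395) (nat_lit 387) (nat_lit 238)))) (XT.nd (nat_lit 78) (nat_lit 684) (nat_lit 0) (XT.lf (nat_lit 76) (nat_lit 4570642359) (nat_lit 0) (nat_lit 21779706133) (nat_lit 836) (nat_lit 24338502252) (nat_lit 115) (nat_lit 5) (nat_lit 114) (nat_lit 5) (nat_lit 125) (nat_lit 5) (nat_lit 396) (nat_lit 387) (nat_lit 237)) (XT.nd (nat_lit 78) (nat_lit 760) (nat_lit 0) (XT.lf (nat_lit 0) (nat_lit 30721687352) (nat_lit 760) (nat_lit 20286468557) (nat_lit 76) (nat_lit 1043225306) (nat_lit 115) (nat_lit 5) (nat_lit 125) (nat_lit 5) (nat_lit 116) (nat_lit 5) (nat_lit 397) (nat_lit 387) (nat_lit 236)) (XT.lf (nat_lit 0) (nat_lit 6692528843) (nat_lit 760) (nat_lit 29078932735) (nat_lit 836) (nat_lit 17687584351) (nat_lit 105) (nat_lit 5) (nat_lit 115) (nat_lit 5) (nat_lit 116) (nat_lit 5) (nat_lit 398) (nat_lit 387) (nat_lit 235)))))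 (XT.nd (nat_lit 234) (nat_lit 760) (nat_lit 0) (XT.nd (nat_lit 78) (nat_lit 380) (nat_lit 0) (XT.lf (nat_lit 0) (nat_lit 35723312718) (nat_lit 760) (nat_lit 5692364326) (nat_lit 836) (nat_lit 13504320296) (nat_lit 105) (nat_lit 5) (nat_lit 115) (nat_lit 5) (nat_lit 116) (nat_lit 5) (nat_lit 399) (nat_lit 387) (nat_lit 234)) (XT.nd (nat_lit 78) (nat_lit 0) (nat_lit 0) (XT.lf (nat_lit 0) (nat_lit 9768299582) (nat_lit 380) (nat_lit 38019296963) (nat_lit 456) (nat_lit 8644126149) (nat_lit 100) (nat_lit 5) (nat_lit 105) (nat_lit 5) (nat_lit 106) (nat_lit 5) (nat_lit 400) (nat_lit 387) (nat_lit 233)) (XT.lf (nat_lit 0) (nat_lit 40750145505) (nat_lit 380) (nat_lit 14143404320) (nat_lit 456) (nat_lit 3104713586) (nat_lit 100) (nat_lit 5) (nat_lit 105) (nat_lit 5) (nat_lit 106) (nat_lit 5) (nat_lit 401) (nat_lit 387) (nat_lit 232)))) (XT.nd (nat_lit 78) (nat_lit 380) (nat_lit 0) (XT.lf (nat_lit 0)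 (nat_lit 3017585544) (nat_lit 380) (nat_lit 45761330605) (nat_lit 76) (nat_lit 10842463756) (nat_lit 95) (nat_lit 5) (nat_lit 100) (nat_lit 5) (nat_lit 96) (nat_lit 5) (nat_lit 402) (nat_lit 387) (nat_lit 231)) (XT.nd (nat_lit 78) (nat_lit 380) (nat_lit 0) (XT.lf (nat_lit 0) (nat_lit 9869026590) (nat_lit 380) (nat_lit 14477627194) (nat_lit 76) (nat_lit 36950086159) (nat_lit 95) (nat_lit 5) (nat_lit 100) (nat_lit 5) (nat_lit 96) (nat_lit 5) (nat_lit 403) (nat_lit 387) (nat_lit 230)) (XT.lf (nat_lit 0) (nat_lit 17383255372) (nat_lit 456) (nat_lit 44090173414) (nat_lit 76) (nat_lit 1566429226) (nat_lit 90) (nat_lit 5) (nat_lit 96) (nat_lit 5) (nat_lit 91) (nat_lit 5) (nat_lit 404) (nat_lit 387) (nat_lit 229)))))) (XT.nd (nat_lit 468) (nat_lit 1064) (nat_lit 0) (XT.nd (nat_lit 234) (nat_lit 608) (nat_lit 0) (XT.nd (nat_lit 78) (nat_lit 304) (nat_lit 0) (XT.lf (nat_lit 0) (nat_lit 25920244658)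 (nat_lit 456) (nat_lit 10711471453) (nat_lit 76) (nat_lit 28206064190) (nat_lit 90) (nat_lit 5) (nat_lit 96) (nat_lit 5) (nat_lit 91) (nat_lit 5) (nat_lit 405) (nat_lit 387) (nat_lit 228)) (XT.nd (nat_lit 78) (nat_lit 0) (nat_lit 0) (XT.lf (nat_lit 0) (nat_lit 25139406125) (nat_lit 304) (nat_lit 10135953423) (nat_lit 380) (nat_lit 31430676086) (nat_lit 86) (nat_lit 5) (nat_lit 90) (nat_lit 5) (nat_lit 91) (nat_lit 5) (nat_lit 406) (nat_lit 387) (nat_lit 227)) (XT.lf (nat_lit 0) (nat_lit 45557527930) (nat_lit 380) (nat_lit 5784420263) (nat_lit 76) (nat_lit 17302791353) (nat_lit 86) (nat_lit 5) (nat_lit 91) (nat_lit 5) (nat_lit 87) (nat_lit 5) (nat_lit 407) (nat_lit 387) (nat_lit 226)))) (XT.nd (nat_lit 78) (nat_lit 304) (nat_lit 0) (XT.lf (nat_lit 0) (nat_lit 32664870949) (nat_lit 304) (nat_lit 24363957448) (nat_lit 380) (nat_lit 13617799742) (nat_lit 82) (nat_lit 5) (nat_lit 86) (nat_lit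 5) (nat_lit 87) (nat_lit 5) (nat_lit 408) (nat_lit 387) (nat_lit 225)) (XT.nd (nat_lit 78) (nat_lit 76) (nat_lit 0) (XT.lf (nat_lit 0) (nat_lit 443062603) (nat_lit 228) (nat_lit 68797889016) (nat_lit 304) (nat_lit 3499297291) (nat_lit 79) (nat_lit 5) (nat_lit 82) (nat_lit 5) (nat_lit 83) (nat_lit 5) (nat_lit 409) (nat_lit 387) (nat_lit 224)) (XT.lf (nat_lit 0) (nat_lit 7949188154) (nat_lit 304) (nat_lit 33321211562) (nat_lit 76) (nat_lit 33609984091) (nat_lit 78) (nat_lit 5) (nat_lit 82) (nat_lit 5) (nat_lit 79) (nat_lit 5) (nat_lit 410) (nat_lit 387) (nat_lit 223))))) (XT.nd (nat_lit 234) (nat_lit 532) (nat_lit 0) (XT.nd (nat_lit 78) (nat_lit 228) (nat_lit 0) (XT.lf (nat_lit 0) (nat_lit 7794340393) (nat_lit 304) (nat_lit 12178814454) (nat_lit 380) (nat_lit 57145470059) (nat_lit 74) (nat_lit 5) (nat_lit 78) (nat_lit 5) (nat_lit 79) (nat_lit 5) (nat_lit 411) (nat_lit 387) (nat_lit 222)) (XT.nd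 (nat_lit 78) (nat_lit 228) (nat_lit 0) (XT.lf (nat_lit 0) (nat_lit 33457636679) (nat_lit 380) (nat_lit 27615420585) (nat_lit 76) (nat_lit 18352755477) (nat_lit 74) (nat_lit 5) (nat_lit 79) (nat_lit 5) (nat_lit 75) (nat_lit 5) (nat_lit 412) (nat_lit 387) (nat_lit 221)) (XT.lf (nat_lit 0) (nat_lit 16506252794) (nat_lit 228) (nat_lit 31566488660) (nat_lit 304) (nat_lit 33752799071) (nat_lit 71) (nat_lit 5) (nat_lit 74) (nat_lit 5) (nat_lit 75) (nat_lit 5) (nat_lit 413) (nat_lit 387) (nat_lit 220)))) (XT.nd (nat_lit 156) (nat_lit 304) (nat_lit 0) (XT.nd (nat_lit 78) (nat_lit 228) (nat_lit 0) (XT.lf (nat_lit 0) (nat_lit 63791491380) (nat_lit 228) (nat_lit 93854005) (nat_lit 304) (nat_lit 20436572590) (nat_lit 71) (nat_lit 5) (nat_lit 74) (nat_lit 5) (nat_lit 75) (nat_lit 5) (nat_lit 414) (nat_lit 387) (nat_lit 219)) (XT.lf (nat_lit 0) (nat_lit 26841241927) (nat_lit 228) (nat_lit 54579987249)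 (nat_lit 304) (nat_lit 5475253091) (nat_lit 68) (nat_lit 5) (nat_lit 71) (nat_lit 5) (nat_lit 72) (nat_lit 5) (nat_lit 415) (nat_lit 387) (nat_lit 218))) (XT.nd (nat_lit 78) (nat_lit 228) (nat_lit 0) (XT.lf (nat_lit 0) (nat_lit 10260619430) (nat_lit 304) (nat_lit 12456401412) (nat_lit 76) (nat_lit 66857063007) (nat_lit 67) (nat_lit 5) (nat_lit 71) (nat_lit 5) (nat_lit 68) (nat_lit 5) (nat_lit 416) (nat_lit 387) (nat_lit 217)) (XT.lf (nat_lit 0) (nat_lit 27381198805) (nat_lit 304) (nat_lit 53860884570) (nat_lit 76) (nat_lit 11099898730) (nat_lit 64) (nat_lit 5) (nat_lit 68) (nat_lit 5) (nat_lit 65) (nat_lit 5) (nat_lit 417) (nat_lit 387) (nat_lit 216))))))) (XT.nd (nat_lit 1014) (nat_lit 1064) (nat_lit 0) (XT.nd (nat_lit 468) (nat_lit 684) (nat_lit 0) (XT.nd (nat_lit 234) (nat_lit 304) (nat_lit 0) (XT.nd (nat_lit 78) (nat_lit 380) (nat_lit 0) (XT.lf (nat_lit 0) (nat_lit 45943801562) (nat_lit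 304) (nat_lit 3216876815) (nat_lit 76) (nat_lit 46058297549) (nat_lit 64) (nat_lit 5) (nat_lit 68) (nat_lit 5) (nat_lit 65) (nat_lit 5) (nat_lit 418) (nat_lit 387) (nat_lit 215)) (XT.nd (nat_lit 78) (nat_lit 152) (nat_lit 0) (XT.lf (nat_lit 0) (nat_lit 51610021564) (nat_lit 228) (nat_lit 14629500222) (nat_lit 304) (nat_lit 31960048640) (nat_lit 61) (nat_lit 5) (nat_lit 64) (nat_lit 5) (nat_lit 65) (nat_lit 5) (nat_lit 419) (nat_lit 387) (nat_lit 214)) (XT.lf (nat_lit 0) (nat_lit 7875814317) (nat_lit 152) (nat_lit 80189451564) (nat_lit 228) (nat_lit 13238167213) (nat_lit 59) (nat_lit 5) (nat_lit 61) (nat_lit 5) (nat_lit 62) (nat_lit 5) (nat_lit 420) (nat_lit 387) (nat_lit 213)))) (XT.nd (nat_lit 78) (nat_lit 228) (nat_lit 0) (XT.lf (nat_lit 0) (nat_lit 7255344203) (nat_lit 228) (nat_lit 38195276472) (nat_lit 76) (nat_lit 59054806474) (nat_lit 58) (nat_lit 5) (nat_lit 61) (nat_lit 5) (nat_lit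 59) (nat_lit 5) (nat_lit 421) (nat_lit 387) (nat_lit 212)) (XT.nd (nat_lit 78) (nat_lit 0) (nat_lit 0) (XT.lf (nat_lit 0) (nat_lit 20227966768) (nat_lit 228) (nat_lit 8415757830) (nat_lit 304) (nat_lit 79197191509) (nat_lit 55) (nat_lit 5) (nat_lit 58) (nat_lit 5) (nat_lit 59) (nat_lit 5) (nat_lit 422) (nat_lit 387) (nat_lit 211)) (XT.lf (nat_lit 0) (nat_lit 52233998101) (nat_lit 304) (nat_lit 28899880617) (nat_lit 76) (nat_lit 30152677369) (nat_lit 55) (nat_lit 5) (nat_lit 59) (nat_lit 5) (nat_lit 56) (nat_lit 5) (nat_lit 423) (nat_lit 387) (nat_lit 210))))) (XT.nd (nat_lit 234) (nat_lit 304) (nat_lit 0) (XT.nd (nat_lit 78) (nat_lit 228) (nat_lit 0) (XT.lf (nat_lit 0) (nat_lit 33688029161) (nat_lit 152) (nat_lit 43978997310) (nat_lit 228) (nat_lit 37204289799) (nat_lit 53) (nat_lit 5) (nat_lit 55) (nat_lit 5) (nat_lit 56) (nat_lit 5) (nat_lit 424) (nat_lit 387) (nat_lit 209)) (XT.nd (nat_lit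 78) (nat_lit 228) (nat_lit 0) (XT.lf (nat_lit 0) (nat_lit 100407613934) (nat_lit 152) (nat_lit 4452855354) (nat_lit 228) (nat_lit 13750407275) (nat_lit 53) (nat_lit 5) (nat_lit 55) (nat_lit 5) (nat_lit 56) (nat_lit 5) (nat_lit 425) (nat_lit 387) (nat_lit 208)) (XT.lf (nat_lit 0) (nat_lit 11891508216) (nat_lit 228) (nat_lit 73750379081) (nat_lit 76) (nat_lit 36818865217) (nat_lit 50) (nat_lit 5) (nat_lit 53) (nat_lit 5) (nat_lit 51) (nat_lit 5) (nat_lit 426) (nat_lit 387) (nat_lit 207)))) (XT.nd (nat_lit 156) (nat_lit 152) (nat_lit 0) (XT.nd (nat_lit 78) (nat_lit 152) (nat_lit 0) (XT.lf (nat_lit 0) (nat_lit 38739108061) (nat_lit 228) (nat_lit 7190548397) (nat_lit 76) (nat_lit 80542910576) (nat_lit 50) (nat_lit 5) (nat_lit 53) (nat_lit 5) (nat_lit 51) (nat_lit 5) (nat_lit 427) (nat_lit 387) (nat_lit 206)) (XT.lf (nat_lit 0) (nat_lit 64769305880) (nat_lit 152) (nat_lit 3170402828) (nat_lit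 228) (nat_lit 62694732738) (nat_lit 48) (nat_lit 5) (nat_lit 50) (nat_lit 5) (nat_lit 51) (nat_lit 5) (nat_lit 428) (nat_lit 387) (nat_lit 205))) (XT.nd (nat_lit 78) (nat_lit 0) (nat_lit 0) (XT.lf (nat_lit 0) (nat_lit 5086814353) (nat_lit 152) (nat_lit 94367587033) (nat_lit 228) (nat_lit 35507305290) (nat_lit 46) (nat_lit 5) (nat_lit 48) (nat_lit 5) (nat_lit 49) (nat_lit 5) (nat_lit 429) (nat_lit 387) (nat_lit 204)) (XT.lf (nat_lit 0) (nat_lit 81818376020) (nat_lit 152) (nat_lit 51892457800) (nat_lit 228) (nat_lit 5736201278) (nat_lit 46) (nat_lit 5) (nat_lit 48) (nat_lit 5) (nat_lit 49) (nat_lit 5) (nat_lit 430) (nat_lit 387) (nat_lit 203)))))) (XT.nd (nat_lit 468) (nat_lit 532) (nat_lit 0) (XT.nd (nat_lit 234) (nat_lit 152) (nat_lit 0) (XT.nd (nat_lit 78) (nat_lit 152) (nat_lit 0) (XT.lf (nat_lit 0) (nat_lit 18419993489) (nat_lit 152) (nat_lit 6573572423) (nat_lit 228) (nat_lit 119128788664)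 (nat_lit 43) (nat_lit 5) (nat_lit 45) (nat_lit 5) (nat_lit 46) (nat_lit 5) (nat_lit 431) (nat_lit 387) (nat_lit 202)) (XT.nd (nat_lit 78) (nat_lit 152) (nat_lit 0) (XT.lf (nat_lit 0) (nat_lit 58698753683) (nat_lit 228) (nat_lit 49462123332) (nat_lit 76) (nat_lit 40784276060) (nat_lit 43) (nat_lit 5) (nat_lit 46) (nat_lit 5) (nat_lit 44) (nat_lit 5) (nat_lit 432) (nat_lit 387) (nat_lit 201)) (XT.lf (nat_lit 0) (nat_lit 31489301784) (nat_lit 152) (nat_lit 63198762423) (nat_lit 228) (nat_lit 59291084278) (nat_lit 41) (nat_lit 5) (nat_lit 43) (nat_lit 5) (nat_lit 44) (nat_lit 5) (nat_lit 433) (nat_lit 387) (nat_lit 200)))) (XT.nd (nat_lit 78) (nat_lit 152) (nat_lit 0) (XT.lf (nat_lit 0) (nat_lit 118204610798) (nat_lit 152) (nat_lit 15109369565) (nat_lit 228) (nat_lit 25909006444) (nat_lit 41) (nat_lit 5) (nat_lit 43) (nat_lit 5) (nat_lit 44) (nat_lit 5) (nat_lit 434) (nat_lit 387) (nat_lit 199))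 (XT.nd (nat_lit 78) (nat_lit 0) (nat_lit 0) (XT.lf (nat_lit 0) (nat_lit 10131436777) (nat_lit 152) (nat_lit 119402070740) (nat_lit 76) (nat_lit 35124279504) (nat_lit 39) (nat_lit 5) (nat_lit 41) (nat_lit 5) (nat_lit 40) (nat_lit 5) (nat_lit 435) (nat_lit 387) (nat_lit 198)) (XT.lf (nat_lit 0) (nat_lit 48056435120) (nat_lit 152) (nat_lit 33746715592) (nat_lit 76) (nat_lit 88492277495) (nat_lit 39) (nat_lit 5) (nat_lit 41) (nat_lit 5) (nat_lit 40) (nat_lit 5) (nat_lit 436) (nat_lit 387) (nat_lit 197))))) (XT.nd (nat_lit 234) (nat_lit 304) (nat_lit 0) (XT.nd (nat_lit 78) (nat_lit 76) (nat_lit 0) (XT.lf (nat_lit 0) (nat_lit 58048483329) (nat_lit 152) (nat_lit 30735020390) (nat_lit 228) (nat_lit 87386156839) (nat_lit 37) (nat_lit 5) (nat_lit 39) (nat_lit 5) (nat_lit 40) (nat_lit 5) (nat_lit 437) (nat_lit 387) (nat_lit 196)) (XT.nd (nat_lit 78) (nat_lit 76) (nat_lit 0) (XT.lf (nat_lit 0) (nat_lit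 132484659730) (nat_lit 228) (nat_lit 27071510993) (nat_lit 76) (nat_lit 22734547218) (nat_lit 37) (nat_lit 5) (nat_lit 40) (nat_lit 5) (nat_lit 38) (nat_lit 4) (nat_lit 438) (nat_lit 387) (nat_lit 195)) (XT.lf (nat_lit 0) (nat_lit 70275229619) (nat_lit 76) (nat_lit 109696237837) (nat_lit 152) (nat_lit 8666331152) (nat_lit 36) (nat_lit 5) (nat_lit 37) (nat_lit 5) (nat_lit 38) (nat_lit 4) (nat_lit 439) (nat_lit 387) (nat_lit 194)))) (XT.nd (nat_lit 156) (nat_lit 76) (nat_lit 0) (XT.nd (nat_lit 78) (nat_lit 152) (nat_lit 0) (XT.lf (nat_lit 0) (nat_lit 33890729090) (nat_lit 152) (nat_lit 22397577197) (nat_lit 76) (nat_lit 138963694584) (nat_lit 35) (nat_lit 5) (nat_lit 37) (nat_lit 5) (nat_lit 36) (nat_lit 5) (nat_lit 440) (nat_lit 387) (nat_lit 193)) (XT.lf (nat_lit 0) (nat_lit 79565354765) (nat_lit 228) (nat_lit 121337249653) (nat_lit 76) (nat_lit 1223157473) (nat_lit 33) (nat_lit 5) (nat_lit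 36) (nat_lit 5) (nat_lit 34) (nat_lit 4) (nat_lit 441) (nat_lit 387) (nat_lit 192))) (XT.nd (nat_lit 78) (nat_lit 76) (nat_lit 0) (XT.lf (nat_lit 0) (nat_lit 128831577485) (nat_lit 228) (nat_lit 20342492847) (nat_lit 76) (nat_lit 60103747434) (nat_lit 33) (nat_lit 5) (nat_lit 36) (nat_lit 5) (nat_lit 34) (nat_lit 4) (nat_lit 442) (nat_lit 387) (nat_lit 191)) (XT.lf (nat_lit 0) (nat_lit 88534939788) (nat_lit 76) (nat_lit 93408044914) (nat_lit 152) (nat_lit 34775398150) (nat_lit 32) (nat_lit 5) (nat_lit 33) (nat_lit 5) (nat_lit 34) (nat_lit 4) (nat_lit 443) (nat_lit 387) (nat_lit 190))))))))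
noncomputable def xc202 : XT := (XT.nd (nat_lit 1950) (nat_lit 152) (nat_lit 0) (XT.nd (nat_lit 936) (nat_lit 532) (nat_lit 0) (XT.nd (nat_lit 468) (nat_lit 304) (nat_lit 0) (XT.nd (nat_lit 234) (nat_lit 228) (nat_lit 0) (XT.nd (nat_lit 78) (nat_lit 152) (nat_lit 0) (XT.lf (nat_lit 0) (nat_lit 13106930169) (nat_lit 152) (nat_lit 21163404434) (nat_lit 76) (nat_lit 190232865925) (nat_lit 31) (nat_lit 5) (nat_lit 33) (nat_lit 5) (nat_lit 32) (nat_lit 5) (nat_lit 444) (nat_lit 387) (nat_lit 189)) (XT.nd (nat_lit 78) (nat_lit 0) (nat_lit 0) (XT.lf (nat_lit 0) (nat_lit 64143914451) (nat_lit 228) (nat_lit 139409689004) (nat_lit 76) (nat_lit 28998690235) (nat_lit 29) (nat_lit 5) (nat_lit 32) (nat_lit 5) (nat_lit 30) (nat_lit 4) (nat_lit 445) (nat_lit 387) (nat_lit 188)) (XT.lf (nat_lit 0) (nat_lit 118658463022) (nat_lit 228) (nat_lit 27655647777) (nat_lit 76) (nat_lit 94643445027) (nat_lit 29) (nat_lit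 5) (nat_lit 32) (nat_lit 5) (nat_lit 30) (nat_lit 4) (nat_lit 446) (nat_lit 387) (nat_lit 187)))) (XT.nd (nat_lit 78) (nat_lit 152) (nat_lit 0) (XT.lf (nat_lit 0) (nat_lit 92650831800) (nat_lit 76) (nat_lit 84694082744) (nat_lit 152) (nat_lit 72365857817) (nat_lit 28) (nat_lit 5) (nat_lit 29) (nat_lit 5) (nat_lit 30) (nat_lit 4) (nat_lit 447) (nat_lit 387) (nat_lit 186)) (XT.nd (nat_lit 78) (nat_lit 152) (nat_lit 0) (XT.lf (nat_lit 0) (nat_lit 219932118845) (nat_lit 76) (nat_lit 19501574998) (nat_lit 152) (nat_lit 19444555683) (nat_lit 28) (nat_lit 5) (nat_lit 29) (nat_lit 5) (nat_lit 30) (nat_lit 4) (nat_lit 448) (nat_lit 387) (nat_lit 185)) (XT.lf (nat_lit 0) (nat_lit 37125196533) (nat_lit 152) (nat_lit 181900613979) (nat_lit 76) (nat_lit 49342164153) (nat_lit 26) (nat_lit 5) (nat_lit 28) (nat_lit 5) (nat_lit 27) (nat_lit 4) (nat_lit 449) (nat_lit 387) (nat_lit 184))))) (XT.nd (nat_lit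 234) (nat_lit 228) (nat_lit 0) (XT.nd (nat_lit 78) (nat_lit 76) (nat_lit 0) (XT.lf (nat_lit 0) (nat_lit 96859710846) (nat_lit 152) (nat_lit 59445473409) (nat_lit 76) (nat_lit 121961576748) (nat_lit 26) (nat_lit 5) (nat_lit 28) (nat_lit 5) (nat_lit 27) (nat_lit 4) (nat_lit 450) (nat_lit 387) (nat_lit 183)) (XT.nd (nat_lit 78) (nat_lit 0) (nat_lit 0) (XT.lf (nat_lit 0) (nat_lit 71417624216) (nat_lit 76) (nat_lit 89278029152) (nat_lit 152) (nat_lit 127909098218) (nat_lit 25) (nat_lit 5) (nat_lit 26) (nat_lit 5) (nat_lit 27) (nat_lit 4) (nat_lit 451) (nat_lit 387) (nat_lit 182)) (XT.lf (nat_lit 0) (nat_lit 210887089205) (nat_lit 76) (nat_lit 17842721088) (nat_lit 152) (nat_lit 70679510591) (nat_lit 25) (nat_lit 5) (nat_lit 26) (nat_lit 5) (nat_lit 27) (nat_lit 4) (nat_lit 452) (nat_lit 387) (nat_lit 181)))) (XT.nd (nat_lit 78) (nat_lit 152) (nat_lit 0) (XT.lf (nat_lit 0) (nat_lit 47193311032)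 (nat_lit 76) (nat_lit 254601370153) (nat_lit 76) (nat_lit 8877987204) (nat_lit 24) (nat_lit 4) (nat_lit 25) (nat_lit 5) (nat_lit 25) (nat_lit 4) (nat_lit 453) (nat_lit 387) (nat_lit 180)) (XT.nd (nat_lit 78) (nat_lit 76) (nat_lit 0) (XT.lf (nat_lit 0) (nat_lit 56036765195) (nat_lit 152) (nat_lit 130848495204) (nat_lit 76) (nat_lit 135479399528) (nat_lit 23) (nat_lit 5) (nat_lit 25) (nat_lit 5) (nat_lit 24) (nat_lit 4) (nat_lit 454) (nat_lit 387) (nat_lit 179)) (XT.lf (nat_lit 0) (nat_lit 8541184771) (nat_lit 76) (nat_lit 115490769683) (nat_lit 152) (nat_lit 210595366700) (nat_lit 22) (nat_lit 5) (nat_lit 23) (nat_lit 5) (nat_lit 24) (nat_lit 4) (nat_lit 455) (nat_lit 387) (nat_lit 178)))))) (XT.nd (nat_lit 468) (nat_lit 304) (nat_lit 0) (XT.nd (nat_lit 234) (nat_lit 152) (nat_lit 0) (XT.nd (nat_lit 78) (nat_lit 76) (nat_lit 0) (XT.lf (nat_lit 0) (nat_lit 159442566233) (nat_lit 76) (nat_lit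 38200030981) (nat_lit 152) (nat_lit 149749733565) (nat_lit 22) (nat_lit 5) (nat_lit 23) (nat_lit 5) (nat_lit 24) (nat_lit 4) (nat_lit 456) (nat_lit 387) (nat_lit 177)) (XT.nd (nat_lit 78) (nat_lit 76) (nat_lit 0) (XT.lf (nat_lit 0) (nat_lit 275604145221) (nat_lit 152) (nat_lit 43577756568) (nat_lit 0) (nat_lit 41580170477) (nat_lit 22) (nat_lit 5) (nat_lit 24) (nat_lit 4) (nat_lit 22) (nat_lit 4) (nat_lit 457) (nat_lit 387) (nat_lit 176)) (XT.lf (nat_lit 0) (nat_lit 110936786339) (nat_lit 76) (nat_lit 248884983067) (nat_lit 76) (nat_lit 14860631521) (nat_lit 21) (nat_lit 4) (nat_lit 22) (nat_lit 5) (nat_lit 22) (nat_lit 4) (nat_lit 458) (nat_lit 387) (nat_lit 175)))) (XT.nd (nat_lit 78) (nat_lit 76) (nat_lit 0) (XT.lf (nat_lit 0) (nat_lit 57814555820) (nat_lit 152) (nat_lit 115504870973) (nat_lit 76) (nat_lit 215895807123) (nat_lit 20) (nat_lit 5) (nat_lit 22) (nat_lit 5) (nat_lit 21) (nat_lit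 4) (nat_lit 459) (nat_lit 387) (nat_lit 174)) (XT.nd (nat_lit 78) (nat_lit 0) (nat_lit 0) (XT.lf (nat_lit 0) (nat_lit 41223211145) (nat_lit 76) (nat_lit 93044234377) (nat_lit 152) (nat_lit 270162914337) (nat_lit 19) (nat_lit 5) (nat_lit 20) (nat_lit 5) (nat_lit 21) (nat_lit 4) (nat_lit 460) (nat_lit 387) (nat_lit 173)) (XT.lf (nat_lit 0) (nat_lit 209797291480) (nat_lit 76) (nat_lit 6701571520) (nat_lit 152) (nat_lit 203809584962) (nat_lit 19) (nat_lit 5) (nat_lit 20) (nat_lit 5) (nat_lit 21) (nat_lit 4) (nat_lit 461) (nat_lit 387) (nat_lit 172))))) (XT.nd (nat_lit 234) (nat_lit 152) (nat_lit 0) (XT.nd (nat_lit 78) (nat_lit 152) (nat_lit 0) (XT.lf (nat_lit 0) (nat_lit 304152435363) (nat_lit 152) (nat_lit 51491647878) (nat_lit 0) (nat_lit 81270828059) (nat_lit 19) (nat_lit 5) (nat_lit 21) (nat_lit 4) (nat_lit 19) (nat_lit 4) (nat_lit 462) (nat_lit 387) (nat_lit 171)) (XT.nd (nat_lit 78) (nat_lit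 76) (nat_lit 0) (XT.lf (nat_lit 0) (nat_lit 119183141000) (nat_lit 76) (nat_lit 278975962232) (nat_lit 76) (nat_lit 56094073753) (nat_lit 18) (nat_lit 4) (nat_lit 19) (nat_lit 5) (nat_lit 19) (nat_lit 4) (nat_lit 463) (nat_lit 387) (nat_lit 170)) (XT.lf (nat_lit 0) (nat_lit 24512652447) (nat_lit 152) (nat_lit 172631218748) (nat_lit 76) (nat_lit 275251125902) (nat_lit 17) (nat_lit 5) (nat_lit 19) (nat_lit 5) (nat_lit 18) (nat_lit 4) (nat_lit 464) (nat_lit 387) (nat_lit 169)))) (XT.nd (nat_lit 156) (nat_lit 76) (nat_lit 0) (XT.nd (nat_lit 78) (nat_lit 76) (nat_lit 0) (XT.lf (nat_lit 0) (nat_lit 107264369722) (nat_lit 152) (nat_lit 2990453369) (nat_lit 76) (nat_lit 381143117224) (nat_lit 17) (nat_lit 5) (nat_lit 19) (nat_lit 5) (nat_lit 18) (nat_lit 4) (nat_lit 465) (nat_lit 387) (nat_lit 168)) (XT.lf (nat_lit 0) (nat_lit 180922605695) (nat_lit 76) (nat_lit 16055569858) (nat_lit 152) (nat_lit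 314231630027) (nat_lit 16) (nat_lit 5) (nat_lit 17) (nat_lit 5) (nat_lit 18) (nat_lit 4) (nat_lit 466) (nat_lit 387) (nat_lit 167))) (XT.nd (nat_lit 78) (nat_lit 76) (nat_lit 0) (XT.lf (nat_lit 0) (nat_lit 292522518848) (nat_lit 152) (nat_lit 159169398852) (nat_lit 0) (nat_lit 80253104072) (nat_lit 16) (nat_lit 5) (nat_lit 18) (nat_lit 4) (nat_lit 16) (nat_lit 4) (nat_lit 467) (nat_lit 387) (nat_lit 166)) (XT.lf (nat_lit 0) (nat_lit 20909955692) (nat_lit 76) (nat_lit 372523597013) (nat_lit 76) (nat_lit 160253972419) (nat_lit 15) (nat_lit 4) (nat_lit 16) (nat_lit 5) (nat_lit 16) (nat_lit 4) (nat_lit 468) (nat_lit 387) (nat_lit 165))))))) (XT.nd (nat_lit 47502) (nat_lit 0) (nat_lit 5244) (XT.nd (nat_lit 46956) (nat_lit 0) (nat_lit 7448) (XT.nd (nat_lit 234) (nat_lit 0) (nat_lit 0) (XT.nd (nat_lit 78) (nat_lit 152) (nat_lit 0) (XT.lf (nat_lit 0) (nat_lit 215518906554) (nat_lit 76) (nat_lit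 286566650299) (nat_lit 76) (nat_lit 74296825879) (nat_lit 15) (nat_lit 4) (nat_lit 16) (nat_lit 5) (nat_lit 16) (nat_lit 4) (nat_lit 469) (nat_lit 387) (nat_lit 164)) (XT.nd (nat_lit 78) (nat_lit 76) (nat_lit 0) (XT.lf (nat_lit 0) (nat_lit 15447230577) (nat_lit 152) (nat_lit 180603192047) (nat_lit 76) (nat_lit 404149112322) (nat_lit 14) (nat_lit 5) (nat_lit 16) (nat_lit 5) (nat_lit 15) (nat_lit 4) (nat_lit 470) (nat_lit 387) (nat_lit 163)) (XT.lf (nat_lit 0) (nat_lit 7698170396) (nat_lit 76) (nat_lit 99603471737) (nat_lit 152) (nat_lit 517839002975) (nat_lit 13) (nat_lit 5) (nat_lit 14) (nat_lit 5) (nat_lit 15) (nat_lit 4) (nat_lit 471) (nat_lit 387) (nat_lit 162)))) (XT.nd (nat_lit 46566) (nat_lit 0) (nat_lit 7372) (XT.lf (nat_lit 0) (nat_lit 206883349333) (nat_lit 152) (nat_lit 439567639181) (nat_lit 0) (nat_lit 4721093527) (nat_lit 13) (nat_lit 5) (nat_lit 15) (nat_lit 4) (nat_lit 13)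 (nat_lit 4) (nat_lit 472) (nat_lit 387) (nat_lit 161)) (XT.nd (nat_lit 78) (nat_lit 0) (nat_lit 0) (XT.lf (nat_lit 0) (nat_lit 4542097684) (nat_lit 836) (nat_lit 8317053867) (nat_lit 836) (nat_lit 8317053867) (nat_lit 110) (nat_lit 3) (nat_lit 121) (nat_lit 3) (nat_lit 121) (nat_lit 5) (nat_lit 388) (nat_lit 388) (nat_lit 244)) (XT.lf (nat_lit 76) (nat_lit 3896951093) (nat_lit 0) (nat_lit 5510719933) (nat_lit 836) (nat_lit 33998706454) (nat_lit 111) (nat_lit 5) (nat_lit 110) (nat_lit 3) (nat_lit 121) (nat_lit 5) (nat_lit 389) (nat_lit 388) (nat_lit 243))))) (XT.nd (nat_lit 234) (nat_lit 0) (nat_lit 76) (XT.nd (nat_lit 78) (nat_lit 0) (nat_lit 0) (XT.lf (nat_lit 0) (nat_lit 10276602349) (nat_lit 760) (nat_lit 18718114934) (nat_lit 836) (nat_lit 15491862685) (nat_lit 111) (nat_lit 5) (nat_lit 121) (nat_lit 5) (nat_lit 122) (nat_lit 5) (nat_lit 390) (nat_lit 388) (nat_lit 242)) (XT.nd (nat_lit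 78) (nat_lit 0) (nat_lit 76) (XT.lf (nat_lit 76) (nat_lit 3121012287) (nat_lit 0) (nat_lit 8204866800) (nat_lit 836) (nat_lit 34288070080) (nat_lit 112) (nat_lit 5) (nat_lit 111) (nat_lit 5) (nat_lit 122) (nat_lit 5) (nat_lit 391) (nat_lit 388) (nat_lit 241)) (XT.lf (nat_lit 0) (nat_lit 12960460233) (nat_lit 760) (nat_lit 20299202535) (nat_lit 836) (nat_lit 13511383487) (nat_lit 112) (nat_lit 5) (nat_lit 122) (nat_lit 5) (nat_lit 123) (nat_lit 5) (nat_lit 392) (nat_lit 388) (nat_lit 240)))) (XT.nd (nat_lit 156) (nat_lit 0) (nat_lit 76) (XT.nd (nat_lit 78) (nat_lit 0) (nat_lit 76) (XT.lf (nat_lit 76) (nat_lit 2963221444) (nat_lit 0) (nat_lit 11892345151) (nat_lit 836) (nat_lit 33121493182) (nat_lit 113) (nat_lit 5) (nat_lit 112) (nat_lit 5) (nat_lit 123) (nat_lit 5) (nat_lit 393) (nat_lit 388) (nat_lit 239)) (XT.lf (nat_lit 0) (nat_lit 17357560525) (nat_lit 760) (nat_lit 21304339497) (nat_lit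 836) (nat_lit 10555868661) (nat_lit 113) (nat_lit 5) (nat_lit 123) (nat_lit 5) (nat_lit 124) (nat_lit 5) (nat_lit 394) (nat_lit 388) (nat_lit 238))) (XT.nd (nat_lit 78) (nat_lit 0) (nat_lit 76) (XT.lf (nat_lit 76) (nat_lit 3506560381) (nat_lit 0) (nat_lit 16725996233) (nat_lit 836) (nat_lit 30275562555) (nat_lit 114) (nat_lit 5) (nat_lit 113) (nat_lit 5) (nat_lit 124) (nat_lit 5) (nat_lit 395) (nat_lit 388) (nat_lit 237)) (XT.lf (nat_lit 0) (nat_lit 23714752033) (nat_lit 760) (nat_lit 21653105330) (nat_lit 836) (nat_lit 6471958540) (nat_lit 114) (nat_lit 5) (nat_lit 124) (nat_lit 5) (nat_lit 125) (nat_lit 5) (nat_lit 396) (nat_lit 388) (nat_lit 236)))))) (XT.nd (nat_lit 468) (nat_lit 1368) (nat_lit 0) (XT.nd (nat_lit 234) (nat_lit 380) (nat_lit 0) (XT.nd (nat_lit 78) (nat_lit 684) (nat_lit 0) (XT.lf (nat_lit 76) (nat_lit 4842200630) (nat_lit 0) (nat_lit 22877006125) (nat_lit 836) (nat_lit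 25501484382) (nat_lit 115) (nat_lit 5) (nat_lit 114) (nat_lit 5) (nat_lit 125) (nat_lit 5) (nat_lit 397) (nat_lit 388) (nat_lit 235)) (XT.nd (nat_lit 78) (nat_lit 760) (nat_lit 0) (XT.lf (nat_lit 0) (nat_lit 32306544122) (nat_lit 760) (nat_lit 21257212830) (nat_lit 76) (nat_lit 1087721273) (nat_lit 115) (nat_lit 5) (nat_lit 125) (nat_lit 5) (nat_lit 116) (nat_lit 5) (nat_lit 398) (nat_lit 388) (nat_lit 234)) (XT.lf (nat_lit 0) (nat_lit 7070031551) (nat_lit 760) (nat_lit 30537122432) (nat_lit 836) (nat_lit 18522456438) (nat_lit 105) (nat_lit 5) (nat_lit 115) (nat_lit 5) (nat_lit 116) (nat_lit 5) (nat_lit 399) (nat_lit 388) (nat_lit 233)))) (XT.nd (nat_lit 78) (nat_lit 380) (nat_lit 0) (XT.lf (nat_lit 0) (nat_lit 37550312893) (nat_lit 760) (nat_lit 5981023552) (nat_lit 836) (nat_lit 14132386663) (nat_lit 105) (nat_lit 5) (nat_lit 115) (nat_lit 5) (nat_lit 116) (nat_lit 5) (nat_lit 400) (nat_lit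 388) (nat_lit 232)) (XT.nd (nat_lit 78) (nat_lit 0) (nat_lit 0) (XT.lf (nat_lit 0) (nat_lit 10299189974) (nat_lit 380) (nat_lit 39921128089) (nat_lit 456) (nat_lit 9030794803) (nat_lit 100) (nat_lit 5) (nat_lit 105) (nat_lit 5) (nat_lit 106) (nat_lit 5) (nat_lit 401) (nat_lit 388) (nat_lit 231)) (XT.lf (nat_lit 0) (nat_lit 42828105554) (nat_lit 380) (nat_lit 14851399562) (nat_lit 456) (nat_lit 3216580072) (nat_lit 100) (nat_lit 5) (nat_lit 105) (nat_lit 5) (nat_lit 106) (nat_lit 5) (nat_lit 402) (nat_lit 388) (nat_lit 230))))) (XT.nd (nat_lit 234) (nat_lit 608) (nat_lit 0) (XT.nd (nat_lit 78) (nat_lit 380) (nat_lit 0) (XT.lf (nat_lit 0) (nat_lit 3209098796) (nat_lit 380) (nat_lit 48006158001) (nat_lit 76) (nat_lit 11385135458) (nat_lit 95) (nat_lit 5) (nat_lit 100) (nat_lit 5) (nat_lit 96) (nat_lit 5) (nat_lit 403) (nat_lit 388) (nat_lit 229)) (XT.nd (nat_lit 78) (nat_lit 380) (nat_lit 0)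 (XT.lf (nat_lit 0) (nat_lit 10401176943) (nat_lit 380) (nat_lit 15160328426) (nat_lit 76) (nat_lit 38798112862) (nat_lit 95) (nat_lit 5) (nat_lit 100) (nat_lit 5) (nat_lit 96) (nat_lit 5) (nat_lit 404) (nat_lit 388) (nat_lit 228)) (XT.lf (nat_lit 0) (nat_lit 18289954183) (nat_lit 456) (nat_lit 46252316348) (nat_lit 76) (nat_lit 1647680951) (nat_lit 90) (nat_lit 5) (nat_lit 96) (nat_lit 5) (nat_lit 91) (nat_lit 5) (nat_lit 405) (nat_lit 388) (nat_lit 227)))) (XT.nd (nat_lit 156) (nat_lit 304) (nat_lit 0) (XT.nd (nat_lit 78) (nat_lit 304) (nat_lit 0) (XT.lf (nat_lit 0) (nat_lit 27252005502) (nat_lit 456) (nat_lit 11206696705) (nat_lit 76) (nat_lit 29619158127) (nat_lit 90) (nat_lit 5) (nat_lit 96) (nat_lit 5) (nat_lit 91) (nat_lit 5) (nat_lit 406) (nat_lit 388) (nat_lit 226)) (XT.lf (nat_lit 0) (nat_lit 26436073972) (nat_lit 304) (nat_lit 10637719640) (nat_lit 380) (nat_lit 32965789975) (nat_lit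 86) (nat_lit 5) (nat_lit 90) (nat_lit 5) (nat_lit 91) (nat_lit 5) (nat_lit 407) (nat_lit 388) (nat_lit 225))) (XT.nd (nat_lit 78) (nat_lit 304) (nat_lit 0) (XT.lf (nat_lit 0) (nat_lit 47868494462) (nat_lit 380) (nat_lit 6034238596) (nat_lit 76) (nat_lit 18172569412) (nat_lit 86) (nat_lit 5) (nat_lit 91) (nat_lit 5) (nat_lit 87) (nat_lit 5) (nat_lit 408) (nat_lit 388) (nat_lit 224)) (XT.lf (nat_lit 0) (nat_lit 34336881649) (nat_lit 304) (nat_lit 25575507846) (nat_lit 380) (nat_lit 14264945451) (nat_lit 82) (nat_lit 5) (nat_lit 86) (nat_lit 5) (nat_lit 87) (nat_lit 5) (nat_lit 409) (nat_lit 388) (nat_lit 223))))))))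
noncomputable def xc203 : XT := (XT.nd (nat_lit 1950) (nat_lit 1596) (nat_lit 0) (XT.nd (nat_lit 936) (nat_lit 1368) (nat_lit 0) (XT.nd (nat_lit 468) (nat_lit 912) (nat_lit 0) (XT.nd (nat_lit 234) (nat_lit 228) (nat_lit 0) (XT.nd (nat_lit 78) (nat_lit 380) (nat_lit 0) (XT.lf (nat_lit 0) (nat_lit 504853894) (nat_lit 228) (nat_lit 72229453183) (nat_lit 304) (nat_lit 3641371156) (nat_lit 79) (nat_lit 5) (nat_lit 82) (nat_lit 5) (nat_lit 83) (nat_lit 5) (nat_lit 410) (nat_lit 388) (nat_lit 222)) (XT.nd (nat_lit 78) (nat_lit 304) (nat_lit 0) (XT.lf (nat_lit 0) (nat_lit 8376969734) (nat_lit 304) (nat_lit 34948502842) (nat_lit 76) (nat_lit 35297398231) (nat_lit 78) (nat_lit 5) (nat_lit 82) (nat_lit 5) (nat_lit 79) (nat_lit 5) (nat_lit 411) (nat_lit 388) (nat_lit 221)) (XT.lf (nat_lit 0) (nat_lit 8222201399) (nat_lit 304) (nat_lit 12779084984) (nat_lit 380) (nat_lit 59971780762) (nat_lit 74) (nat_lit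 5) (nat_lit 78) (nat_lit 5) (nat_lit 79) (nat_lit 5) (nat_lit 412) (nat_lit 388) (nat_lit 220)))) (XT.nd (nat_lit 78) (nat_lit 228) (nat_lit 0) (XT.lf (nat_lit 0) (nat_lit 35158717713) (nat_lit 380) (nat_lit 28958574828) (nat_lit 76) (nat_lit 19278386291) (nat_lit 74) (nat_lit 5) (nat_lit 79) (nat_lit 5) (nat_lit 75) (nat_lit 5) (nat_lit 413) (nat_lit 388) (nat_lit 219)) (XT.nd (nat_lit 78) (nat_lit 0) (nat_lit 0) (XT.lf (nat_lit 0) (nat_lit 17368575497) (nat_lit 228) (nat_lit 33135237242) (nat_lit 304) (nat_lit 35411619210) (nat_lit 71) (nat_lit 5) (nat_lit 74) (nat_lit 5) (nat_lit 75) (nat_lit 5) (nat_lit 414) (nat_lit 388) (nat_lit 218)) (XT.lf (nat_lit 0) (nat_lit 67016313629) (nat_lit 228) (nat_lit 89426847) (nat_lit 304) (nat_lit 21430953777) (nat_lit 71) (nat_lit 5) (nat_lit 74) (nat_lit 5) (nat_lit 75) (nat_lit 5) (nat_lit 415) (nat_lit 388) (nat_lit 217))))) (XT.nd (nat_lit 234)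 (nat_lit 380) (nat_lit 0) (XT.nd (nat_lit 78) (nat_lit 304) (nat_lit 0) (XT.lf (nat_lit 0) (nat_lit 28219141439) (nat_lit 228) (nat_lit 57298727963) (nat_lit 304) (nat_lit 5722145440) (nat_lit 68) (nat_lit 5) (nat_lit 71) (nat_lit 5) (nat_lit 72) (nat_lit 5) (nat_lit 416) (nat_lit 388) (nat_lit 216)) (XT.nd (nat_lit 78) (nat_lit 228) (nat_lit 0) (XT.lf (nat_lit 0) (nat_lit 10798422105) (nat_lit 304) (nat_lit 13044260118) (nat_lit 76) (nat_lit 70208855805) (nat_lit 67) (nat_lit 5) (nat_lit 71) (nat_lit 5) (nat_lit 68) (nat_lit 5) (nat_lit 417) (nat_lit 388) (nat_lit 215)) (XT.lf (nat_lit 0) (nat_lit 28774548203) (nat_lit 304) (nat_lit 56518474303) (nat_lit 76) (nat_lit 11664833349) (nat_lit 64) (nat_lit 5) (nat_lit 68) (nat_lit 5) (nat_lit 65) (nat_lit 5) (nat_lit 418) (nat_lit 388) (nat_lit 214)))) (XT.nd (nat_lit 78) (nat_lit 380) (nat_lit 0) (XT.lf (nat_lit 0) (nat_lit 48264124457) (nat_lit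 304) (nat_lit 3343954470) (nat_lit 76) (nat_lit 48370678790) (nat_lit 64) (nat_lit 5) (nat_lit 68) (nat_lit 5) (nat_lit 65) (nat_lit 5) (nat_lit 419) (nat_lit 388) (nat_lit 213)) (XT.nd (nat_lit 78) (nat_lit 152) (nat_lit 0) (XT.lf (nat_lit 0) (nat_lit 54223744213) (nat_lit 228) (nat_lit 15350303598) (nat_lit 304) (nat_lit 33534363768) (nat_lit 61) (nat_lit 5) (nat_lit 64) (nat_lit 5) (nat_lit 65) (nat_lit 5) (nat_lit 420) (nat_lit 388) (nat_lit 212)) (XT.lf (nat_lit 0) (nat_lit 8303245869) (nat_lit 152) (nat_lit 84187443343) (nat_lit 228) (nat_lit 13876798133) (nat_lit 59) (nat_lit 5) (nat_lit 61) (nat_lit 5) (nat_lit 62) (nat_lit 5) (nat_lit 421) (nat_lit 388) (nat_lit 211)))))) (XT.nd (nat_lit 468) (nat_lit 684) (nat_lit 0) (XT.nd (nat_lit 234) (nat_lit 380) (nat_lit 0) (XT.nd (nat_lit 78) (nat_lit 228) (nat_lit 0) (XT.lf (nat_lit 0) (nat_lit 7639570858) (nat_lit 228) (nat_lit 40072283330)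 (nat_lit 76) (nat_lit 62017762818) (nat_lit 58) (nat_lit 5) (nat_lit 61) (nat_lit 5) (nat_lit 59) (nat_lit 5) (nat_lit 422) (nat_lit 388) (nat_lit 210)) (XT.nd (nat_lit 78) (nat_lit 0) (nat_lit 0) (XT.lf (nat_lit 0) (nat_lit 21271593734) (nat_lit 228) (nat_lit 8825257839) (nat_lit 304) (nat_lit 83135055179) (nat_lit 55) (nat_lit 5) (nat_lit 58) (nat_lit 5) (nat_lit 59) (nat_lit 5) (nat_lit 423) (nat_lit 388) (nat_lit 209)) (XT.lf (nat_lit 0) (nat_lit 54865809416) (nat_lit 304) (nat_lit 30313343647) (nat_lit 76) (nat_lit 31670717523) (nat_lit 55) (nat_lit 5) (nat_lit 59) (nat_lit 5) (nat_lit 56) (nat_lit 5) (nat_lit 424) (nat_lit 388) (nat_lit 208)))) (XT.nd (nat_lit 78) (nat_lit 228) (nat_lit 0) (XT.lf (nat_lit 0) (nat_lit 35403453056) (nat_lit 152) (nat_lit 46166562810) (nat_lit 228) (nat_lit 39043876947) (nat_lit 53) (nat_lit 5) (nat_lit 55) (nat_lit 5) (nat_lit 56) (nat_lit 5) (nat_lit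 425) (nat_lit 388) (nat_lit 207)) (XT.nd (nat_lit 78) (nat_lit 228) (nat_lit 0) (XT.lf (nat_lit 0) (nat_lit 105457539809) (nat_lit 152) (nat_lit 4664655869) (nat_lit 228) (nat_lit 14418282551) (nat_lit 53) (nat_lit 5) (nat_lit 55) (nat_lit 5) (nat_lit 56) (nat_lit 5) (nat_lit 426) (nat_lit 388) (nat_lit 206)) (XT.lf (nat_lit 0) (nat_lit 12504831620) (nat_lit 228) (nat_lit 77407442717) (nat_lit 76) (nat_lit 38670572040) (nat_lit 50) (nat_lit 5) (nat_lit 53) (nat_lit 5) (nat_lit 51) (nat_lit 5) (nat_lit 427) (nat_lit 388) (nat_lit 205))))) (XT.nd (nat_lit 234) (nat_lit 380) (nat_lit 0) (XT.nd (nat_lit 78) (nat_lit 304) (nat_lit 0) (XT.lf (nat_lit 0) (nat_lit 40693918696) (nat_lit 228) (nat_lit 7521070752) (nat_lit 76) (nat_lit 84580307116) (nat_lit 50) (nat_lit 5) (nat_lit 53) (nat_lit 5) (nat_lit 51) (nat_lit 5) (nat_lit 428) (nat_lit 388) (nat_lit 204)) (XT.nd (nat_lit 78) (nat_lit 152)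 (nat_lit 0) (XT.lf (nat_lit 0) (nat_lit 68036308415) (nat_lit 152) (nat_lit 3317836257) (nat_lit 228) (nat_lit 65811140547) (nat_lit 48) (nat_lit 5) (nat_lit 50) (nat_lit 5) (nat_lit 51) (nat_lit 5) (nat_lit 429) (nat_lit 388) (nat_lit 203)) (XT.lf (nat_lit 0) (nat_lit 5369925863) (nat_lit 152) (nat_lit 99074429188) (nat_lit 228) (nat_lit 37264569782) (nat_lit 46) (nat_lit 5) (nat_lit 48) (nat_lit 5) (nat_lit 49) (nat_lit 5) (nat_lit 430) (nat_lit 388) (nat_lit 202)))) (XT.nd (nat_lit 156) (nat_lit 152) (nat_lit 0) (XT.nd (nat_lit 78) (nat_lit 228) (nat_lit 0) (XT.lf (nat_lit 0) (nat_lit 85936695576) (nat_lit 152) (nat_lit 54476092884) (nat_lit 228) (nat_lit 6005772511) (nat_lit 46) (nat_lit 5) (nat_lit 48) (nat_lit 5) (nat_lit 49) (nat_lit 5) (nat_lit 431) (nat_lit 388) (nat_lit 201)) (XT.lf (nat_lit 0) (nat_lit 19368499727) (nat_lit 152) (nat_lit 6891066393) (nat_lit 228) (nat_lit 125068085340)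 (nat_lit 43) (nat_lit 5) (nat_lit 45) (nat_lit 5) (nat_lit 46) (nat_lit 5) (nat_lit 432) (nat_lit 388) (nat_lit 200))) (XT.nd (nat_lit 78) (nat_lit 152) (nat_lit 0) (XT.lf (nat_lit 0) (nat_lit 61649402354) (nat_lit 228) (nat_lit 51908417322) (nat_lit 76) (nat_lit 42833800980) (nat_lit 43) (nat_lit 5) (nat_lit 46) (nat_lit 5) (nat_lit 44) (nat_lit 5) (nat_lit 433) (nat_lit 388) (nat_lit 199)) (XT.lf (nat_lit 0) (nat_lit 33090146595) (nat_lit 152) (nat_lit 66347695528) (nat_lit 228) (nat_lit 62239490744) (nat_lit 41) (nat_lit 5) (nat_lit 43) (nat_lit 5) (nat_lit 44) (nat_lit 5) (nat_lit 434) (nat_lit 388) (nat_lit 198))))))) (XT.nd (nat_lit 1014) (nat_lit 684) (nat_lit 0) (XT.nd (nat_lit 468) (nat_lit 532) (nat_lit 0) (XT.nd (nat_lit 234) (nat_lit 228) (nat_lit 0) (XT.nd (nat_lit 78) (nat_lit 152) (nat_lit 0) (XT.lf (nat_lit 0) (nat_lit 124139964882) (nat_lit 152) (nat_lit 15854357077) (nat_lit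 228) (nat_lit 27189077958) (nat_lit 41) (nat_lit 5) (nat_lit 43) (nat_lit 5) (nat_lit 44) (nat_lit 5) (nat_lit 435) (nat_lit 388) (nat_lit 197)) (XT.nd (nat_lit 78) (nat_lit 0) (nat_lit 0) (XT.lf (nat_lit 0) (nat_lit 10652745910) (nat_lit 152) (nat_lit 125346401591) (nat_lit 76) (nat_lit 36890788286) (nat_lit 39) (nat_lit 5) (nat_lit 41) (nat_lit 5) (nat_lit 40) (nat_lit 5) (nat_lit 436) (nat_lit 388) (nat_lit 196)) (XT.lf (nat_lit 0) (nat_lit 50473292394) (nat_lit 152) (nat_lit 35409505956) (nat_lit 76) (nat_lit 92926695948) (nat_lit 39) (nat_lit 5) (nat_lit 41) (nat_lit 5) (nat_lit 40) (nat_lit 5) (nat_lit 437) (nat_lit 388) (nat_lit 195)))) (XT.nd (nat_lit 78) (nat_lit 76) (nat_lit 0) (XT.lf (nat_lit 0) (nat_lit 60975057017) (nat_lit 152) (nat_lit 32261366089) (nat_lit 228) (nat_lit 91741029894) (nat_lit 37) (nat_lit 5) (nat_lit 39) (nat_lit 5) (nat_lit 40) (nat_lit 5) (nat_lit 438) (nat_lit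 388) (nat_lit 194)) (XT.nd (nat_lit 78) (nat_lit 76) (nat_lit 0) (XT.lf (nat_lit 0) (nat_lit 139122137152) (nat_lit 228) (nat_lit 28401584019) (nat_lit 76) (nat_lit 23880867231) (nat_lit 37) (nat_lit 5) (nat_lit 40) (nat_lit 5) (nat_lit 38) (nat_lit 4) (nat_lit 439) (nat_lit 388) (nat_lit 193)) (XT.lf (nat_lit 0) (nat_lit 73812114551) (nat_lit 76) (nat_lit 115170901048) (nat_lit 152) (nat_lit 9086021140) (nat_lit 36) (nat_lit 5) (nat_lit 37) (nat_lit 5) (nat_lit 38) (nat_lit 4) (nat_lit 440) (nat_lit 388) (nat_lit 192))))) (XT.nd (nat_lit 234) (nat_lit 304) (nat_lit 0) (XT.nd (nat_lit 78) (nat_lit 152) (nat_lit 0) (XT.lf (nat_lit 0) (nat_lit 35597827863) (nat_lit 152) (nat_lit 23495015578) (nat_lit 76) (nat_lit 145921126580) (nat_lit 35) (nat_lit 5) (nat_lit 37) (nat_lit 5) (nat_lit 36) (nat_lit 5) (nat_lit 441) (nat_lit 388) (nat_lit 191)) (XT.nd (nat_lit 78) (nat_lit 0) (nat_lit 0) (XT.lf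 (nat_lit 0) (nat_lit 83556083857) (nat_lit 228) (nat_lit 127381568049) (nat_lit 76) (nat_lit 1293772369) (nat_lit 33) (nat_lit 5) (nat_lit 36) (nat_lit 5) (nat_lit 34) (nat_lit 4) (nat_lit 442) (nat_lit 388) (nat_lit 190)) (XT.lf (nat_lit 0) (nat_lit 135285024315) (nat_lit 228) (nat_lit 21338146930) (nat_lit 76) (nat_lit 63117941494) (nat_lit 33) (nat_lit 5) (nat_lit 36) (nat_lit 5) (nat_lit 34) (nat_lit 4) (nat_lit 443) (nat_lit 388) (nat_lit 189)))) (XT.nd (nat_lit 156) (nat_lit 152) (nat_lit 0) (XT.nd (nat_lit 78) (nat_lit 76) (nat_lit 0) (XT.lf (nat_lit 0) (nat_lit 92982811038) (nat_lit 76) (nat_lit 98068955523) (nat_lit 152) (nat_lit 36501951404) (nat_lit 32) (nat_lit 5) (nat_lit 33) (nat_lit 5) (nat_lit 34) (nat_lit 4) (nat_lit 444) (nat_lit 388) (nat_lit 188)) (XT.lf (nat_lit 0) (nat_lit 13773539196) (nat_lit 152) (nat_lit 22201081747) (nat_lit 76) (nat_lit 199753174310) (nat_lit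 31) (nat_lit 5) (nat_lit 33) (nat_lit 5) (nat_lit 32) (nat_lit 5) (nat_lit 445) (nat_lit 388) (nat_lit 187))) (XT.nd (nat_lit 78) (nat_lit 0) (nat_lit 0) (XT.lf (nat_lit 0) (nat_lit 67362293583) (nat_lit 228) (nat_lit 146359599365) (nat_lit 76) (nat_lit 30457454184) (nat_lit 29) (nat_lit 5) (nat_lit 32) (nat_lit 5) (nat_lit 30) (nat_lit 4) (nat_lit 446) (nat_lit 388) (nat_lit 186)) (XT.lf (nat_lit 0) (nat_lit 124602037040) (nat_lit 228) (nat_lit 29018835795) (nat_lit 76) (nat_lit 99384026266) (nat_lit 29) (nat_lit 5) (nat_lit 32) (nat_lit 5) (nat_lit 30) (nat_lit 4) (nat_lit 447) (nat_lit 388) (nat_lit 185)))))) (XT.nd (nat_lit 468) (nat_lit 380) (nat_lit 0) (XT.nd (nat_lit 234) (nat_lit 76) (nat_lit 0) (XT.nd (nat_lit 78) (nat_lit 152) (nat_lit 0) (XT.lf (nat_lit 0) (nat_lit 97302651722) (nat_lit 76) (nat_lit 88919953220) (nat_lit 152) (nat_lit 75973181924) (nat_lit 28) (nat_lit 5) (nat_lit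 29) (nat_lit 5) (nat_lit 30) (nat_lit 4) (nat_lit 448) (nat_lit 388) (nat_lit 184)) (XT.nd (nat_lit 78) (nat_lit 152) (nat_lit 0) (XT.lf (nat_lit 0) (nat_lit 230947085104) (nat_lit 76) (nat_lit 20468240737) (nat_lit 152) (nat_lit 20406337007) (nat_lit 28) (nat_lit 5) (nat_lit 29) (nat_lit 5) (nat_lit 30) (nat_lit 4) (nat_lit 449) (nat_lit 388) (nat_lit 183)) (XT.lf (nat_lit 0) (nat_lit 38991506485) (nat_lit 152) (nat_lit 190976884697) (nat_lit 76) (nat_lit 51817478087) (nat_lit 26) (nat_lit 5) (nat_lit 28) (nat_lit 5) (nat_lit 27) (nat_lit 4) (nat_lit 450) (nat_lit 388) (nat_lit 182)))) (XT.nd (nat_lit 78) (nat_lit 76) (nat_lit 0) (XT.lf (nat_lit 0) (nat_lit 101712267936) (nat_lit 152) (nat_lit 62399880431) (nat_lit 76) (nat_lit 128067470563) (nat_lit 26) (nat_lit 5) (nat_lit 28) (nat_lit 5) (nat_lit 27) (nat_lit 4) (nat_lit 451) (nat_lit 388) (nat_lit 181)) (XT.nd (nat_lit 78) (nat_lit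 0) (nat_lit 0) (XT.lf (nat_lit 0) (nat_lit 75006083902) (nat_lit 76) (nat_lit 93733742342) (nat_lit 152) (nat_lit 134294691938) (nat_lit 25) (nat_lit 5) (nat_lit 26) (nat_lit 5) (nat_lit 27) (nat_lit 4) (nat_lit 452) (nat_lit 388) (nat_lit 180)) (XT.lf (nat_lit 0) (nat_lit 221448185072) (nat_lit 76) (nat_lit 18727058793) (nat_lit 152) (nat_lit 74204094509) (nat_lit 25) (nat_lit 5) (nat_lit 26) (nat_lit 5) (nat_lit 27) (nat_lit 4) (nat_lit 453) (nat_lit 388) (nat_lit 179))))) (XT.nd (nat_lit 234) (nat_lit 152) (nat_lit 0) (XT.nd (nat_lit 78) (nat_lit 152) (nat_lit 0) (XT.lf (nat_lit 0) (nat_lit 49569769497) (nat_lit 76) (nat_lit 267323541084) (nat_lit 76) (nat_lit 9312545125) (nat_lit 24) (nat_lit 4) (nat_lit 25) (nat_lit 5) (nat_lit 25) (nat_lit 4) (nat_lit 454) (nat_lit 388) (nat_lit 178)) (XT.nd (nat_lit 78) (nat_lit 76) (nat_lit 0) (XT.lf (nat_lit 0) (nat_lit 58847215316) (nat_lit 152)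 (nat_lit 137374640755) (nat_lit 76) (nat_lit 142260605048) (nat_lit 23) (nat_lit 5) (nat_lit 25) (nat_lit 5) (nat_lit 24) (nat_lit 4) (nat_lit 455) (nat_lit 388) (nat_lit 177)) (XT.lf (nat_lit 0) (nat_lit 8984260650) (nat_lit 76) (nat_lit 121257743364) (nat_lit 152) (nat_lit 221116259452) (nat_lit 22) (nat_lit 5) (nat_lit 23) (nat_lit 5) (nat_lit 24) (nat_lit 4) (nat_lit 456) (nat_lit 388) (nat_lit 176)))) (XT.nd (nat_lit 156) (nat_lit 152) (nat_lit 0) (XT.nd (nat_lit 78) (nat_lit 0) (nat_lit 0) (XT.lf (nat_lit 0) (nat_lit 167429948489) (nat_lit 76) (nat_lit 40102827955) (nat_lit 152) (nat_lit 157228767307) (nat_lit 22) (nat_lit 5) (nat_lit 23) (nat_lit 5) (nat_lit 24) (nat_lit 4) (nat_lit 457) (nat_lit 388) (nat_lit 175)) (XT.lf (nat_lit 0) (nat_lit 289392125676) (nat_lit 152) (nat_lit 45741839608) (nat_lit 0) (nat_lit 43665820890) (nat_lit 22) (nat_lit 5) (nat_lit 24) (nat_lit 4) (nat_lit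 22) (nat_lit 4) (nat_lit 458) (nat_lit 388) (nat_lit 174))) (XT.nd (nat_lit 78) (nat_lit 76) (nat_lit 0) (XT.lf (nat_lit 0) (nat_lit 116498191657) (nat_lit 76) (nat_lit 261322296676) (nat_lit 76) (nat_lit 15595650120) (nat_lit 21) (nat_lit 4) (nat_lit 22) (nat_lit 5) (nat_lit 22) (nat_lit 4) (nat_lit 459) (nat_lit 388) (nat_lit 173)) (XT.lf (nat_lit 0) (nat_lit 60712670765) (nat_lit 152) (nat_lit 121265996983) (nat_lit 76) (nat_lit 226696957603) (nat_lit 20) (nat_lit 5) (nat_lit 22) (nat_lit 5) (nat_lit 21) (nat_lit 4) (nat_lit 460) (nat_lit 388) (nat_lit 172))))))))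
noncomputable def xc204 : XT := (XT.nd (nat_lit 48516) (nat_lit 0) (nat_lit 3040) (XT.nd (nat_lit 47502) (nat_lit 0) (nat_lit 6992) (XT.nd (nat_lit 468) (nat_lit 304) (nat_lit 0) (XT.nd (nat_lit 234) (nat_lit 152) (nat_lit 0) (XT.nd (nat_lit 78) (nat_lit 0) (nat_lit 0) (XT.lf (nat_lit 0) (nat_lit 43298261539) (nat_lit 76) (nat_lit 97689808503) (nat_lit 152) (nat_lit 283663444337) (nat_lit 19) (nat_lit 5) (nat_lit 20) (nat_lit 5) (nat_lit 21) (nat_lit 4) (nat_lit 461) (nat_lit 388) (nat_lit 171)) (XT.nd (nat_lit 78) (nat_lit 0) (nat_lit 0) (XT.lf (nat_lit 0) (nat_lit 220300384470) (nat_lit 76) (nat_lit 7030328580) (nat_lit 152) (nat_lit 213992811146) (nat_lit 19) (nat_lit 5) (nat_lit 20) (nat_lit 5) (nat_lit 21) (nat_lit 4) (nat_lit 462) (nat_lit 388) (nat_lit 170)) (XT.lf (nat_lit 0) (nat_lit 319366729126) (nat_lit 152) (nat_lit 54053396097) (nat_lit 0) (nat_lit 85340197261) (nat_lit 19)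 (nat_lit 5) (nat_lit 21) (nat_lit 4) (nat_lit 19) (nat_lit 4) (nat_lit 463) (nat_lit 388) (nat_lit 169)))) (XT.nd (nat_lit 78) (nat_lit 76) (nat_lit 0) (XT.lf (nat_lit 0) (nat_lit 125154925222) (nat_lit 76) (nat_lit 292918684599) (nat_lit 76) (nat_lit 58891897698) (nat_lit 18) (nat_lit 4) (nat_lit 19) (nat_lit 5) (nat_lit 19) (nat_lit 4) (nat_lit 464) (nat_lit 388) (nat_lit 168)) (XT.nd (nat_lit 78) (nat_lit 0) (nat_lit 0) (XT.lf (nat_lit 0) (nat_lit 25744627495) (nat_lit 152) (nat_lit 181250543424) (nat_lit 76) (nat_lit 289019258237) (nat_lit 17) (nat_lit 5) (nat_lit 19) (nat_lit 5) (nat_lit 18) (nat_lit 4) (nat_lit 465) (nat_lit 388) (nat_lit 167)) (XT.lf (nat_lit 0) (nat_lit 112633628614) (nat_lit 152) (nat_lit 3128322455) (nat_lit 76) (nat_lit 400205583599) (nat_lit 17) (nat_lit 5) (nat_lit 19) (nat_lit 5) (nat_lit 18) (nat_lit 4) (nat_lit 466) (nat_lit 388) (nat_lit 166))))) (XT.nd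 (nat_lit 234) (nat_lit 152) (nat_lit 0) (XT.nd (nat_lit 78) (nat_lit 76) (nat_lit 0) (XT.lf (nat_lit 0) (nat_lit 189980201602) (nat_lit 76) (nat_lit 16852814507) (nat_lit 152) (nat_lit 329936982550) (nat_lit 16) (nat_lit 5) (nat_lit 17) (nat_lit 5) (nat_lit 18) (nat_lit 4) (nat_lit 467) (nat_lit 388) (nat_lit 165)) (XT.nd (nat_lit 78) (nat_lit 76) (nat_lit 0) (XT.lf (nat_lit 0) (nat_lit 307154376388) (nat_lit 152) (nat_lit 167116748391) (nat_lit 0) (nat_lit 84270860920) (nat_lit 16) (nat_lit 5) (nat_lit 18) (nat_lit 4) (nat_lit 16) (nat_lit 4) (nat_lit 468) (nat_lit 388) (nat_lit 164)) (XT.lf (nat_lit 0) (nat_lit 21966394519) (nat_lit 76) (nat_lit 391144465305) (nat_lit 76) (nat_lit 168260759527) (nat_lit 15) (nat_lit 4) (nat_lit 16) (nat_lit 5) (nat_lit 16) (nat_lit 4) (nat_lit 469) (nat_lit 388) (nat_lit 163)))) (XT.nd (nat_lit 78) (nat_lit 152) (nat_lit 0) (XT.lf (nat_lit 0) (nat_lit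 226305271922) (nat_lit 76) (nat_lit 300889924187) (nat_lit 76) (nat_lit 78006037160) (nat_lit 15) (nat_lit 4) (nat_lit 16) (nat_lit 5) (nat_lit 16) (nat_lit 4) (nat_lit 470) (nat_lit 388) (nat_lit 162)) (XT.nd (nat_lit 78) (nat_lit 76) (nat_lit 0) (XT.lf (nat_lit 0) (nat_lit 16224782408) (nat_lit 152) (nat_lit 189623255707) (nat_lit 76) (nat_lit 424361213584) (nat_lit 14) (nat_lit 5) (nat_lit 16) (nat_lit 5) (nat_lit 15) (nat_lit 4) (nat_lit 471) (nat_lit 388) (nat_lit 161)) (XT.lf (nat_lit 0) (nat_lit 8093012020) (nat_lit 76) (nat_lit 104578810448) (nat_lit 152) (nat_lit 543725599527) (nat_lit 13) (nat_lit 5) (nat_lit 14) (nat_lit 5) (nat_lit 15) (nat_lit 4) (nat_lit 472) (nat_lit 388) (nat_lit 160)))))) (XT.nd (nat_lit 468) (nat_lit 380) (nat_lit 0) (XT.nd (nat_lit 234) (nat_lit 0) (nat_lit 76) (XT.nd (nat_lit 78) (nat_lit 0) (nat_lit 0) (XT.lf (nat_lit 0) (nat_lit 4804176316) (nat_lit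 836) (nat_lit 8714532994) (nat_lit 836) (nat_lit 8714532994) (nat_lit 110) (nat_lit 3) (nat_lit 121) (nat_lit 3) (nat_lit 121) (nat_lit 5) (nat_lit 389) (nat_lit 389) (nat_lit 242)) (XT.nd (nat_lit 78) (nat_lit 0) (nat_lit 76) (XT.lf (nat_lit 76) (nat_lit 4127953083) (nat_lit 0) (nat_lit 5817282628) (nat_lit 836) (nat_lit 35628054545) (nat_lit 111) (nat_lit 5) (nat_lit 110) (nat_lit 3) (nat_lit 121) (nat_lit 5) (nat_lit 390) (nat_lit 389) (nat_lit 241)) (XT.lf (nat_lit 0) (nat_lit 10853953152) (nat_lit 760) (nat_lit 19615882636) (nat_lit 836) (nat_lit 16237852342) (nat_lit 111) (nat_lit 5) (nat_lit 121) (nat_lit 5) (nat_lit 122) (nat_lit 5) (nat_lit 391) (nat_lit 389) (nat_lit 240)))) (XT.nd (nat_lit 78) (nat_lit 0) (nat_lit 76) (XT.lf (nat_lit 76) (nat_lit 3314585816) (nat_lit 0) (nat_lit 8638668955) (nat_lit 836) (nat_lit 35938295101) (nat_lit 112) (nat_lit 5) (nat_lit 111) (nat_lit 5)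 (nat_lit 122) (nat_lit 5) (nat_lit 392) (nat_lit 389) (nat_lit 239)) (XT.nd (nat_lit 78) (nat_lit 0) (nat_lit 0) (XT.lf (nat_lit 0) (nat_lit 13666306016) (nat_lit 760) (nat_lit 21275126959) (nat_lit 836) (nat_lit 14165233818) (nat_lit 112) (nat_lit 5) (nat_lit 122) (nat_lit 5) (nat_lit 123) (nat_lit 5) (nat_lit 393) (nat_lit 389) (nat_lit 238)) (XT.lf (nat_lit 76) (nat_lit 3149788611) (nat_lit 0) (nat_lit 12504225247) (nat_lit 836) (nat_lit 34719076761) (nat_lit 113) (nat_lit 5) (nat_lit 112) (nat_lit 5) (nat_lit 123) (nat_lit 5) (nat_lit 394) (nat_lit 389) (nat_lit 237))))) (XT.nd (nat_lit 234) (nat_lit 608) (nat_lit 0) (XT.nd (nat_lit 78) (nat_lit 0) (nat_lit 0) (XT.lf (nat_lit 0) (nat_lit 18278199896) (nat_lit 760) (nat_lit 22330034792) (nat_lit 836) (nat_lit 11067747503) (nat_lit 113) (nat_lit 5) (nat_lit 123) (nat_lit 5) (nat_lit 124) (nat_lit 5) (nat_lit 395) (nat_lit 389) (nat_lit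 236)) (XT.nd (nat_lit 78) (nat_lit 0) (nat_lit 76) (XT.lf (nat_lit 76) (nat_lit 3720772633) (nat_lit 0) (nat_lit 17574267804) (nat_lit 836) (nat_lit 31735906789) (nat_lit 114) (nat_lit 5) (nat_lit 113) (nat_lit 5) (nat_lit 124) (nat_lit 5) (nat_lit 396) (nat_lit 389) (nat_lit 235)) (XT.lf (nat_lit 0) (nat_lit 24948745900) (nat_lit 760) (nat_lit 22696094837) (nat_lit 836) (nat_lit 6784519717) (nat_lit 114) (nat_lit 5) (nat_lit 124) (nat_lit 5) (nat_lit 125) (nat_lit 5) (nat_lit 397) (nat_lit 389) (nat_lit 234)))) (XT.nd (nat_lit 156) (nat_lit 684) (nat_lit 0) (XT.nd (nat_lit 78) (nat_lit 0) (nat_lit 76) (XT.lf (nat_lit 76) (nat_lit 5123336651) (nat_lit 0) (nat_lit 24028398095) (nat_lit 836) (nat_lit 26727630727) (nat_lit 115) (nat_lit 5) (nat_lit 114) (nat_lit 5) (nat_lit 125) (nat_lit 5) (nat_lit 398) (nat_lit 389) (nat_lit 233)) (XT.lf (nat_lit 0) (nat_lit 33966109334) (nat_lit 760) (nat_lit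 22280545893) (nat_lit 76) (nat_lit 1135154686) (nat_lit 115) (nat_lit 5) (nat_lit 125) (nat_lit 5) (nat_lit 116) (nat_lit 5) (nat_lit 399) (nat_lit 389) (nat_lit 232))) (XT.nd (nat_lit 78) (nat_lit 0) (nat_lit 0) (XT.lf (nat_lit 0) (nat_lit 7462423166) (nat_lit 760) (nat_lit 32067827133) (nat_lit 836) (nat_lit 19403674833) (nat_lit 105) (nat_lit 5) (nat_lit 115) (nat_lit 5) (nat_lit 116) (nat_lit 5) (nat_lit 400) (nat_lit 389) (nat_lit 231)) (XT.lf (nat_lit 0) (nat_lit 39464866668) (nat_lit 760) (nat_lit 6283740044) (nat_lit 836) (nat_lit 14796239875) (nat_lit 105) (nat_lit 5) (nat_lit 115) (nat_lit 5) (nat_lit 116) (nat_lit 5) (nat_lit 401) (nat_lit 389) (nat_lit 230))))))) (XT.nd (nat_lit 1014) (nat_lit 1596) (nat_lit 0) (XT.nd (nat_lit 468) (nat_lit 1216) (nat_lit 0) (XT.nd (nat_lit 234) (nat_lit 380) (nat_lit 0) (XT.nd (nat_lit 78) (nat_lit 380) (nat_lit 0) (XT.lf (nat_lit 0) (nat_lit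 10852675924) (nat_lit 380) (nat_lit 41917970233) (nat_lit 456) (nat_lit 9441030549) (nat_lit 100) (nat_lit 5) (nat_lit 105) (nat_lit 5) (nat_lit 106) (nat_lit 5) (nat_lit 402) (nat_lit 389) (nat_lit 229)) (XT.nd (nat_lit 78) (nat_lit 380) (nat_lit 0) (XT.lf (nat_lit 0) (nat_lit 45006202690) (nat_lit 380) (nat_lit 15594717864) (nat_lit 456) (nat_lit 3338071938) (nat_lit 100) (nat_lit 5) (nat_lit 105) (nat_lit 5) (nat_lit 106) (nat_lit 5) (nat_lit 403) (nat_lit 389) (nat_lit 228)) (XT.lf (nat_lit 0) (nat_lit 3406409949) (nat_lit 380) (nat_lit 50367246732) (nat_lit 76) (nat_lit 11954889749) (nat_lit 95) (nat_lit 5) (nat_lit 100) (nat_lit 5) (nat_lit 96) (nat_lit 5) (nat_lit 404) (nat_lit 389) (nat_lit 227)))) (XT.nd (nat_lit 78) (nat_lit 380) (nat_lit 0) (XT.lf (nat_lit 0) (nat_lit 10956336946) (nat_lit 380) (nat_lit 15880993258) (nat_lit 76) (nat_lit 40738492332) (nat_lit 95) (nat_lit 5) (nat_lit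 100) (nat_lit 5) (nat_lit 96) (nat_lit 5) (nat_lit 405) (nat_lit 389) (nat_lit 226)) (XT.nd (nat_lit 78) (nat_lit 0) (nat_lit 0) (XT.lf (nat_lit 0) (nat_lit 19238498189) (nat_lit 456) (nat_lit 48526505194) (nat_lit 76) (nat_lit 1732722834) (nat_lit 90) (nat_lit 5) (nat_lit 96) (nat_lit 5) (nat_lit 91) (nat_lit 5) (nat_lit 406) (nat_lit 389) (nat_lit 225)) (XT.lf (nat_lit 0) (nat_lit 28647030822) (nat_lit 456) (nat_lit 11730434425) (nat_lit 76) (nat_lit 31102647306) (nat_lit 90) (nat_lit 5) (nat_lit 96) (nat_lit 5) (nat_lit 91) (nat_lit 5) (nat_lit 407) (nat_lit 389) (nat_lit 224))))) (XT.nd (nat_lit 234) (nat_lit 608) (nat_lit 0) (XT.nd (nat_lit 78) (nat_lit 304) (nat_lit 0) (XT.lf (nat_lit 0) (nat_lit 27793884510) (nat_lit 304) (nat_lit 11165041945) (nat_lit 380) (nat_lit 34581045537) (nat_lit 86) (nat_lit 5) (nat_lit 90) (nat_lit 5) (nat_lit 91) (nat_lit 5) (nat_lit 408) (nat_lit 389)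 (nat_lit 223)) (XT.nd (nat_lit 78) (nat_lit 304) (nat_lit 0) (XT.lf (nat_lit 0) (nat_lit 50291932913) (nat_lit 380) (nat_lit 6300211134) (nat_lit 76) (nat_lit 19085405131) (nat_lit 86) (nat_lit 5) (nat_lit 91) (nat_lit 5) (nat_lit 87) (nat_lit 5) (nat_lit 409) (nat_lit 389) (nat_lit 222)) (XT.lf (nat_lit 0) (nat_lit 36088888682) (nat_lit 304) (nat_lit 26848253783) (nat_lit 380) (nat_lit 14947585669) (nat_lit 82) (nat_lit 5) (nat_lit 86) (nat_lit 5) (nat_lit 87) (nat_lit 5) (nat_lit 410) (nat_lit 389) (nat_lit 221)))) (XT.nd (nat_lit 156) (nat_lit 304) (nat_lit 0) (XT.nd (nat_lit 78) (nat_lit 76) (nat_lit 0) (XT.lf (nat_lit 0) (nat_lit 566049569) (nat_lit 228) (nat_lit 75833370028) (nat_lit 304) (nat_lit 3793606608) (nat_lit 79) (nat_lit 5) (nat_lit 82) (nat_lit 5) (nat_lit 83) (nat_lit 5) (nat_lit 411) (nat_lit 389) (nat_lit 220)) (XT.lf (nat_lit 0) (nat_lit 8823321326) (nat_lit 304) (nat_lit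 36660763088) (nat_lit 76) (nat_lit 37068540193) (nat_lit 78) (nat_lit 5) (nat_lit 82) (nat_lit 5) (nat_lit 79) (nat_lit 5) (nat_lit 412) (nat_lit 389) (nat_lit 219))) (XT.nd (nat_lit 78) (nat_lit 0) (nat_lit 0) (XT.lf (nat_lit 0) (nat_lit 8667909190) (nat_lit 304) (nat_lit 13410175114) (nat_lit 380) (nat_lit 62942285628) (nat_lit 74) (nat_lit 5) (nat_lit 78) (nat_lit 5) (nat_lit 79) (nat_lit 5) (nat_lit 413) (nat_lit 389) (nat_lit 218)) (XT.lf (nat_lit 0) (nat_lit 36942231105) (nat_lit 380) (nat_lit 30372384036) (nat_lit 76) (nat_lit 20249555528) (nat_lit 74) (nat_lit 5) (nat_lit 79) (nat_lit 5) (nat_lit 75) (nat_lit 5) (nat_lit 414) (nat_lit 389) (nat_lit 217)))))) (XT.nd (nat_lit 468) (nat_lit 836) (nat_lit 0) (XT.nd (nat_lit 234) (nat_lit 304) (nat_lit 0) (XT.nd (nat_lit 78) (nat_lit 228) (nat_lit 0) (XT.lf (nat_lit 0) (nat_lit 18270573491) (nat_lit 228) (nat_lit 34783313524) (nat_lit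 304) (nat_lit 37156059750) (nat_lit 71) (nat_lit 5) (nat_lit 74) (nat_lit 5) (nat_lit 75) (nat_lit 5) (nat_lit 415) (nat_lit 389) (nat_lit 216)) (XT.nd (nat_lit 78) (nat_lit 228) (nat_lit 0) (XT.lf (nat_lit 0) (nat_lit 70399099995) (nat_lit 228) (nat_lit 85626209) (nat_lit 304) (nat_lit 22477605827) (nat_lit 71) (nat_lit 5) (nat_lit 74) (nat_lit 5) (nat_lit 75) (nat_lit 5) (nat_lit 416) (nat_lit 389) (nat_lit 215)) (XT.lf (nat_lit 0) (nat_lit 29662604104) (nat_lit 228) (nat_lit 60154359466) (nat_lit 304) (nat_lit 5983880552) (nat_lit 68) (nat_lit 5) (nat_lit 71) (nat_lit 5) (nat_lit 72) (nat_lit 5) (nat_lit 417) (nat_lit 389) (nat_lit 214)))) (XT.nd (nat_lit 78) (nat_lit 228) (nat_lit 0) (XT.lf (nat_lit 0) (nat_lit 11360811876) (nat_lit 304) (nat_lit 13664762135) (nat_lit 76) (nat_lit 73727407119) (nat_lit 67) (nat_lit 5) (nat_lit 71) (nat_lit 5) (nat_lit 68) (nat_lit 5) (nat_lit 418) (nat_lit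 389) (nat_lit 213)) (XT.nd (nat_lit 78) (nat_lit 0) (nat_lit 0) (XT.lf (nat_lit 0) (nat_lit 30235306866) (nat_lit 304) (nat_lit 59312239746) (nat_lit 76) (nat_lit 12257090600) (nat_lit 64) (nat_lit 5) (nat_lit 68) (nat_lit 5) (nat_lit 65) (nat_lit 5) (nat_lit 419) (nat_lit 389) (nat_lit 212)) (XT.lf (nat_lit 0) (nat_lit 50698312826) (nat_lit 304) (nat_lit 3480525267) (nat_lit 76) (nat_lit 50797799000) (nat_lit 64) (nat_lit 5) (nat_lit 68) (nat_lit 5) (nat_lit 65) (nat_lit 5) (nat_lit 420) (nat_lit 389) (nat_lit 211))))) (XT.nd (nat_lit 234) (nat_lit 380) (nat_lit 0) (XT.nd (nat_lit 78) (nat_lit 228) (nat_lit 0) (XT.lf (nat_lit 0) (nat_lit 56965064367) (nat_lit 228) (nat_lit 16108139290) (nat_lit 304) (nat_lit 35189596873) (nat_lit 61) (nat_lit 5) (nat_lit 64) (nat_lit 5) (nat_lit 65) (nat_lit 5) (nat_lit 421) (nat_lit 389) (nat_lit 210)) (XT.nd (nat_lit 78) (nat_lit 76) (nat_lit 0) (XT.lf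 (nat_lit 0) (nat_lit 8748921392) (nat_lit 152) (nat_lit 88386402087) (nat_lit 228) (nat_lit 14549524715) (nat_lit 59) (nat_lit 5) (nat_lit 61) (nat_lit 5) (nat_lit 62) (nat_lit 5) (nat_lit 422) (nat_lit 389) (nat_lit 209)) (XT.lf (nat_lit 0) (nat_lit 8041013750) (nat_lit 228) (nat_lit 42046185963) (nat_lit 76) (nat_lit 65127917190) (nat_lit 58) (nat_lit 5) (nat_lit 61) (nat_lit 5) (nat_lit 59) (nat_lit 5) (nat_lit 423) (nat_lit 389) (nat_lit 208)))) (XT.nd (nat_lit 156) (nat_lit 152) (nat_lit 0) (XT.nd (nat_lit 78) (nat_lit 0) (nat_lit 0) (XT.lf (nat_lit 0) (nat_lit 22364405736) (nat_lit 228) (nat_lit 9256282290) (nat_lit 304) (nat_lit 87271857004) (nat_lit 55) (nat_lit 5) (nat_lit 58) (nat_lit 5) (nat_lit 59) (nat_lit 5) (nat_lit 424) (nat_lit 389) (nat_lit 207)) (XT.lf (nat_lit 0) (nat_lit 57627341529) (nat_lit 304) (nat_lit 31800411281) (nat_lit 76) (nat_lit 33263692206) (nat_lit 55)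 (nat_lit 5) (nat_lit 59) (nat_lit 5) (nat_lit 56) (nat_lit 5) (nat_lit 425) (nat_lit 389) (nat_lit 206))) (XT.nd (nat_lit 78) (nat_lit 0) (nat_lit 0) (XT.lf (nat_lit 0) (nat_lit 37201763973) (nat_lit 152) (nat_lit 48464564996) (nat_lit 228) (nat_lit 40977361187) (nat_lit 53) (nat_lit 5) (nat_lit 55) (nat_lit 5) (nat_lit 56) (nat_lit 5) (nat_lit 426) (nat_lit 389) (nat_lit 205)) (XT.lf (nat_lit 0) (nat_lit 110757215146) (nat_lit 152) (nat_lit 4888054420) (nat_lit 228) (nat_lit 15121378005) (nat_lit 53) (nat_lit 5) (nat_lit 55) (nat_lit 5) (nat_lit 56) (nat_lit 5) (nat_lit 427) (nat_lit 389) (nat_lit 204))))))))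
noncomputable def xc205 : XT := (XT.nd (nat_lit 1950) (nat_lit 912) (nat_lit 0) (XT.nd (nat_lit 936) (nat_lit 836) (nat_lit 0) (XT.nd (nat_lit 468) (nat_lit 456) (nat_lit 0) (XT.nd (nat_lit 234) (nat_lit 380) (nat_lit 0) (XT.nd (nat_lit 78) (nat_lit 152) (nat_lit 0) (XT.lf (nat_lit 0) (nat_lit 13147078184) (nat_lit 228) (nat_lit 81250190982) (nat_lit 76) (nat_lit 40613863509) (nat_lit 50) (nat_lit 5) (nat_lit 53) (nat_lit 5) (nat_lit 51) (nat_lit 5) (nat_lit 428) (nat_lit 389) (nat_lit 203)) (XT.nd (nat_lit 78) (nat_lit 152) (nat_lit 0) (XT.lf (nat_lit 0) (nat_lit 42744809852) (nat_lit 228) (nat_lit 7870815841) (nat_lit 76) (nat_lit 88818620441) (nat_lit 50) (nat_lit 5) (nat_lit 53) (nat_lit 5) (nat_lit 51) (nat_lit 5) (nat_lit 429) (nat_lit 389) (nat_lit 202)) (XT.lf (nat_lit 0) (nat_lit 71464007955) (nat_lit 152) (nat_lit 3473672095) (nat_lit 228) (nat_lit 69085072788) (nat_lit 48) (nat_lit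 5) (nat_lit 50) (nat_lit 5) (nat_lit 51) (nat_lit 5) (nat_lit 430) (nat_lit 389) (nat_lit 201)))) (XT.nd (nat_lit 78) (nat_lit 228) (nat_lit 0) (XT.lf (nat_lit 0) (nat_lit 5664518114) (nat_lit 152) (nat_lit 104017686069) (nat_lit 228) (nat_lit 39111380336) (nat_lit 46) (nat_lit 5) (nat_lit 48) (nat_lit 5) (nat_lit 49) (nat_lit 5) (nat_lit 431) (nat_lit 389) (nat_lit 200)) (XT.nd (nat_lit 78) (nat_lit 228) (nat_lit 0) (XT.lf (nat_lit 0) (nat_lit 90258383647) (nat_lit 152) (nat_lit 57189931263) (nat_lit 228) (nat_lit 6290425008) (nat_lit 46) (nat_lit 5) (nat_lit 48) (nat_lit 5) (nat_lit 49) (nat_lit 5) (nat_lit 432) (nat_lit 389) (nat_lit 199)) (XT.lf (nat_lit 0) (nat_lit 20361873978) (nat_lit 152) (nat_lit 7225474904) (nat_lit 228) (nat_lit 131305940621) (nat_lit 43) (nat_lit 5) (nat_lit 45) (nat_lit 5) (nat_lit 46) (nat_lit 5) (nat_lit 433) (nat_lit 389) (nat_lit 198))))) (XT.nd (nat_lit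 234) (nat_lit 304) (nat_lit 0) (XT.nd (nat_lit 78) (nat_lit 152) (nat_lit 0) (XT.lf (nat_lit 0) (nat_lit 64746122800) (nat_lit 228) (nat_lit 54479518754) (nat_lit 76) (nat_lit 44984843517) (nat_lit 43) (nat_lit 5) (nat_lit 46) (nat_lit 5) (nat_lit 44) (nat_lit 5) (nat_lit 434) (nat_lit 389) (nat_lit 197)) (XT.nd (nat_lit 78) (nat_lit 0) (nat_lit 0) (XT.lf (nat_lit 0) (nat_lit 34768581110) (nat_lit 152) (nat_lit 69655098431) (nat_lit 228) (nat_lit 65336818797) (nat_lit 41) (nat_lit 5) (nat_lit 43) (nat_lit 5) (nat_lit 44) (nat_lit 5) (nat_lit 435) (nat_lit 389) (nat_lit 196)) (XT.lf (nat_lit 0) (nat_lit 130369750922) (nat_lit 152) (nat_lit 16637568385) (nat_lit 228) (nat_lit 28534582823) (nat_lit 41) (nat_lit 5) (nat_lit 43) (nat_lit 5) (nat_lit 44) (nat_lit 5) (nat_lit 436) (nat_lit 389) (nat_lit 195)))) (XT.nd (nat_lit 78) (nat_lit 152) (nat_lit 0) (XT.lf (nat_lit 0) (nat_lit 11198750365)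 (nat_lit 152) (nat_lit 131590345084) (nat_lit 76) (nat_lit 38744665394) (nat_lit 39) (nat_lit 5) (nat_lit 41) (nat_lit 5) (nat_lit 40) (nat_lit 5) (nat_lit 437) (nat_lit 389) (nat_lit 194)) (XT.nd (nat_lit 78) (nat_lit 152) (nat_lit 0) (XT.lf (nat_lit 0) (nat_lit 53009687642) (nat_lit 152) (nat_lit 37157717838) (nat_lit 76) (nat_lit 97581923788) (nat_lit 39) (nat_lit 5) (nat_lit 41) (nat_lit 5) (nat_lit 40) (nat_lit 5) (nat_lit 438) (nat_lit 389) (nat_lit 193)) (XT.lf (nat_lit 0) (nat_lit 64045714196) (nat_lit 152) (nat_lit 33864996461) (nat_lit 228) (nat_lit 96314988612) (nat_lit 37) (nat_lit 5) (nat_lit 39) (nat_lit 5) (nat_lit 40) (nat_lit 5) (nat_lit 439) (nat_lit 389) (nat_lit 192)))))) (XT.nd (nat_lit 468) (nat_lit 456) (nat_lit 0) (XT.nd (nat_lit 234) (nat_lit 228) (nat_lit 0) (XT.nd (nat_lit 78) (nat_lit 152) (nat_lit 0) (XT.lf (nat_lit 0) (nat_lit 146090257104) (nat_lit 228) (nat_lit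 29800345737) (nat_lit 76) (nat_lit 25083611411) (nat_lit 37) (nat_lit 5) (nat_lit 40) (nat_lit 5) (nat_lit 38) (nat_lit 4) (nat_lit 440) (nat_lit 389) (nat_lit 191)) (XT.nd (nat_lit 78) (nat_lit 76) (nat_lit 0) (XT.lf (nat_lit 0) (nat_lit 77523693931) (nat_lit 76) (nat_lit 120920240947) (nat_lit 152) (nat_lit 9527962496) (nat_lit 36) (nat_lit 5) (nat_lit 37) (nat_lit 5) (nat_lit 38) (nat_lit 4) (nat_lit 441) (nat_lit 389) (nat_lit 190)) (XT.lf (nat_lit 0) (nat_lit 37389113650) (nat_lit 152) (nat_lit 24649412182) (nat_lit 76) (nat_lit 153225570453) (nat_lit 35) (nat_lit 5) (nat_lit 37) (nat_lit 5) (nat_lit 36) (nat_lit 5) (nat_lit 442) (nat_lit 389) (nat_lit 189)))) (XT.nd (nat_lit 78) (nat_lit 76) (nat_lit 0) (XT.lf (nat_lit 0) (nat_lit 87745190865) (nat_lit 228) (nat_lit 133730198299) (nat_lit 76) (nat_lit 1367038785) (nat_lit 33) (nat_lit 5) (nat_lit 36) (nat_lit 5) (nat_lit 34) (nat_lit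 4) (nat_lit 443) (nat_lit 389) (nat_lit 188)) (XT.nd (nat_lit 78) (nat_lit 76) (nat_lit 0) (XT.lf (nat_lit 0) (nat_lit 142060040116) (nat_lit 228) (nat_lit 22385579846) (nat_lit 76) (nat_lit 66282007900) (nat_lit 33) (nat_lit 5) (nat_lit 36) (nat_lit 5) (nat_lit 34) (nat_lit 4) (nat_lit 444) (nat_lit 389) (nat_lit 187)) (XT.lf (nat_lit 0) (nat_lit 97651111916) (nat_lit 76) (nat_lit 102963794106) (nat_lit 152) (nat_lit 38315968109) (nat_lit 32) (nat_lit 5) (nat_lit 33) (nat_lit 5) (nat_lit 34) (nat_lit 4) (nat_lit 445) (nat_lit 389) (nat_lit 186))))) (XT.nd (nat_lit 234) (nat_lit 228) (nat_lit 0) (XT.nd (nat_lit 78) (nat_lit 152) (nat_lit 0) (XT.lf (nat_lit 0) (nat_lit 14472431592) (nat_lit 152) (nat_lit 23292548163) (nat_lit 76) (nat_lit 209748692516) (nat_lit 31) (nat_lit 5) (nat_lit 33) (nat_lit 5) (nat_lit 32) (nat_lit 5) (nat_lit 446) (nat_lit 389) (nat_lit 185)) (XT.nd (nat_lit 78)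 (nat_lit 0) (nat_lit 0) (XT.lf (nat_lit 0) (nat_lit 70740551944) (nat_lit 228) (nat_lit 153658918028) (nat_lit 76) (nat_lit 31988335453) (nat_lit 29) (nat_lit 5) (nat_lit 32) (nat_lit 5) (nat_lit 30) (nat_lit 4) (nat_lit 447) (nat_lit 389) (nat_lit 184)) (XT.lf (nat_lit 0) (nat_lit 130841799541) (nat_lit 228) (nat_lit 30452004913) (nat_lit 76) (nat_lit 104360854779) (nat_lit 29) (nat_lit 5) (nat_lit 32) (nat_lit 5) (nat_lit 30) (nat_lit 4) (nat_lit 448) (nat_lit 389) (nat_lit 183)))) (XT.nd (nat_lit 156) (nat_lit 152) (nat_lit 0) (XT.nd (nat_lit 78) (nat_lit 0) (nat_lit 0) (XT.lf (nat_lit 0) (nat_lit 102185270324) (nat_lit 76) (nat_lit 93357938490) (nat_lit 152) (nat_lit 79761892010) (nat_lit 28) (nat_lit 5) (nat_lit 29) (nat_lit 5) (nat_lit 30) (nat_lit 4) (nat_lit 449) (nat_lit 389) (nat_lit 182)) (XT.lf (nat_lit 0) (nat_lit 242511092708) (nat_lit 76) (nat_lit 21484021925) (nat_lit 152)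 (nat_lit 21417178609) (nat_lit 28) (nat_lit 5) (nat_lit 29) (nat_lit 5) (nat_lit 30) (nat_lit 4) (nat_lit 450) (nat_lit 389) (nat_lit 181))) (XT.nd (nat_lit 78) (nat_lit 0) (nat_lit 0) (XT.lf (nat_lit 0) (nat_lit 40950197569) (nat_lit 152) (nat_lit 200508713077) (nat_lit 76) (nat_lit 54415794826) (nat_lit 26) (nat_lit 5) (nat_lit 28) (nat_lit 5) (nat_lit 27) (nat_lit 4) (nat_lit 451) (nat_lit 389) (nat_lit 180)) (XT.lf (nat_lit 0) (nat_lit 106806563008) (nat_lit 152) (nat_lit 65503668877) (nat_lit 76) (nat_lit 134477932505) (nat_lit 26) (nat_lit 5) (nat_lit 28) (nat_lit 5) (nat_lit 27) (nat_lit 4) (nat_lit 452) (nat_lit 389) (nat_lit 179))))))) (XT.nd (nat_lit 1014) (nat_lit 304) (nat_lit 0) (XT.nd (nat_lit 468) (nat_lit 304) (nat_lit 0) (XT.nd (nat_lit 234) (nat_lit 152) (nat_lit 0) (XT.nd (nat_lit 78) (nat_lit 76) (nat_lit 0) (XT.lf (nat_lit 0) (nat_lit 78772332294) (nat_lit 76) (nat_lit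 98413002459) (nat_lit 152) (nat_lit 141000482143) (nat_lit 25) (nat_lit 5) (nat_lit 26) (nat_lit 5) (nat_lit 27) (nat_lit 4) (nat_lit 453) (nat_lit 389) (nat_lit 178)) (XT.nd (nat_lit 78) (nat_lit 76) (nat_lit 0) (XT.lf (nat_lit 0) (nat_lit 232535779274) (nat_lit 76) (nat_lit 19656338399) (nat_lit 152) (nat_lit 77905780767) (nat_lit 25) (nat_lit 5) (nat_lit 26) (nat_lit 5) (nat_lit 27) (nat_lit 4) (nat_lit 454) (nat_lit 389) (nat_lit 177)) (XT.lf (nat_lit 0) (nat_lit 52063489639) (nat_lit 76) (nat_lit 280682554804) (nat_lit 76) (nat_lit 9769699421) (nat_lit 24) (nat_lit 4) (nat_lit 25) (nat_lit 5) (nat_lit 25) (nat_lit 4) (nat_lit 455) (nat_lit 389) (nat_lit 176)))) (XT.nd (nat_lit 78) (nat_lit 76) (nat_lit 0) (XT.lf (nat_lit 0) (nat_lit 61797387295) (nat_lit 152) (nat_lit 144228607070) (nat_lit 76) (nat_lit 149380198151) (nat_lit 23) (nat_lit 5) (nat_lit 25) (nat_lit 5) (nat_lit 24) (nat_lit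 4) (nat_lit 456) (nat_lit 389) (nat_lit 175)) (XT.nd (nat_lit 78) (nat_lit 0) (nat_lit 0) (XT.lf (nat_lit 0) (nat_lit 9448001249) (nat_lit 76) (nat_lit 127313769032) (nat_lit 152) (nat_lit 232164022009) (nat_lit 22) (nat_lit 5) (nat_lit 23) (nat_lit 5) (nat_lit 24) (nat_lit 4) (nat_lit 457) (nat_lit 389) (nat_lit 174)) (XT.lf (nat_lit 0) (nat_lit 175815281690) (nat_lit 76) (nat_lit 42101434591) (nat_lit 152) (nat_lit 165082538609) (nat_lit 22) (nat_lit 5) (nat_lit 23) (nat_lit 5) (nat_lit 24) (nat_lit 4) (nat_lit 458) (nat_lit 389) (nat_lit 173))))) (XT.nd (nat_lit 234) (nat_lit 152) (nat_lit 0) (XT.nd (nat_lit 78) (nat_lit 152) (nat_lit 0) (XT.lf (nat_lit 0) (nat_lit 303868782475) (nat_lit 152) (nat_lit 48015503210) (nat_lit 0) (nat_lit 45855136324) (nat_lit 22) (nat_lit 5) (nat_lit 24) (nat_lit 4) (nat_lit 22) (nat_lit 4) (nat_lit 459) (nat_lit 389) (nat_lit 172)) (XT.nd (nat_lit 78) (nat_lit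 76) (nat_lit 0) (XT.lf (nat_lit 0) (nat_lit 122336313032) (nat_lit 76) (nat_lit 274382120767) (nat_lit 76) (nat_lit 16368164620) (nat_lit 21) (nat_lit 4) (nat_lit 22) (nat_lit 5) (nat_lit 22) (nat_lit 4) (nat_lit 460) (nat_lit 389) (nat_lit 171)) (XT.lf (nat_lit 0) (nat_lit 63755004669) (nat_lit 152) (nat_lit 127316491809) (nat_lit 76) (nat_lit 238037574303) (nat_lit 20) (nat_lit 5) (nat_lit 22) (nat_lit 5) (nat_lit 21) (nat_lit 4) (nat_lit 461) (nat_lit 389) (nat_lit 170)))) (XT.nd (nat_lit 156) (nat_lit 76) (nat_lit 0) (XT.nd (nat_lit 78) (nat_lit 0) (nat_lit 0) (XT.lf (nat_lit 0) (nat_lit 45475773107) (nat_lit 76) (nat_lit 102568278436) (nat_lit 152) (nat_lit 297839708874) (nat_lit 19) (nat_lit 5) (nat_lit 20) (nat_lit 5) (nat_lit 21) (nat_lit 4) (nat_lit 462) (nat_lit 389) (nat_lit 169)) (XT.lf (nat_lit 0) (nat_lit 231327402257) (nat_lit 76) (nat_lit 7376111206) (nat_lit 152) (nat_lit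 224685872961) (nat_lit 19) (nat_lit 5) (nat_lit 20) (nat_lit 5) (nat_lit 21) (nat_lit 4) (nat_lit 463) (nat_lit 389) (nat_lit 168))) (XT.nd (nat_lit 78) (nat_lit 76) (nat_lit 0) (XT.lf (nat_lit 0) (nat_lit 335341117279) (nat_lit 152) (nat_lit 56744424926) (nat_lit 0) (nat_lit 89612493109) (nat_lit 19) (nat_lit 5) (nat_lit 21) (nat_lit 4) (nat_lit 19) (nat_lit 4) (nat_lit 464) (nat_lit 389) (nat_lit 167)) (XT.lf (nat_lit 0) (nat_lit 131424124701) (nat_lit 76) (nat_lit 307559107949) (nat_lit 76) (nat_lit 61830252454) (nat_lit 18) (nat_lit 4) (nat_lit 19) (nat_lit 5) (nat_lit 19) (nat_lit 4) (nat_lit 465) (nat_lit 389) (nat_lit 166)))))) (XT.nd (nat_lit 468) (nat_lit 76) (nat_lit 0) (XT.nd (nat_lit 234) (nat_lit 76) (nat_lit 0) (XT.nd (nat_lit 78) (nat_lit 76) (nat_lit 0) (XT.lf (nat_lit 0) (nat_lit 27037611638) (nat_lit 152) (nat_lit 190301971944) (nat_lit 76) (nat_lit 303475278782) (nat_lit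 17) (nat_lit 5) (nat_lit 19) (nat_lit 5) (nat_lit 18) (nat_lit 4) (nat_lit 466) (nat_lit 389) (nat_lit 165)) (XT.nd (nat_lit 78) (nat_lit 76) (nat_lit 0) (XT.lf (nat_lit 0) (nat_lit 118270788871) (nat_lit 152) (nat_lit 3274168434) (nat_lit 76) (nat_lit 420220679573) (nat_lit 17) (nat_lit 5) (nat_lit 19) (nat_lit 5) (nat_lit 18) (nat_lit 4) (nat_lit 467) (nat_lit 389) (nat_lit 164)) (XT.lf (nat_lit 0) (nat_lit 199489611339) (nat_lit 76) (nat_lit 17690435873) (nat_lit 152) (nat_lit 346428181810) (nat_lit 16) (nat_lit 5) (nat_lit 17) (nat_lit 5) (nat_lit 18) (nat_lit 4) (nat_lit 468) (nat_lit 389) (nat_lit 163)))) (XT.nd (nat_lit 78) (nat_lit 76) (nat_lit 0) (XT.lf (nat_lit 0) (nat_lit 322517293934) (nat_lit 152) (nat_lit 175462499276) (nat_lit 0) (nat_lit 88489031308) (nat_lit 16) (nat_lit 5) (nat_lit 18) (nat_lit 4) (nat_lit 16) (nat_lit 4) (nat_lit 469) (nat_lit 389) (nat_lit 162)) (XT.nd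 (nat_lit 78) (nat_lit 0) (nat_lit 0) (XT.lf (nat_lit 0) (nat_lit 23074638093) (nat_lit 76) (nat_lit 410696870830) (nat_lit 76) (nat_lit 176668435587) (nat_lit 15) (nat_lit 4) (nat_lit 16) (nat_lit 5) (nat_lit 16) (nat_lit 4) (nat_lit 470) (nat_lit 389) (nat_lit 161)) (XT.lf (nat_lit 0) (nat_lit 237629986802) (nat_lit 76) (nat_lit 315929832072) (nat_lit 76) (nat_lit 81901232431) (nat_lit 15) (nat_lit 4) (nat_lit 16) (nat_lit 5) (nat_lit 16) (nat_lit 4) (nat_lit 471) (nat_lit 389) (nat_lit 160))))) (XT.nd (nat_lit 46878) (nat_lit 0) (nat_lit 7372) (XT.nd (nat_lit 46722) (nat_lit 0) (nat_lit 7296) (XT.lf (nat_lit 0) (nat_lit 17040729285) (nat_lit 152) (nat_lit 199095261175) (nat_lit 76) (nat_lit 445583488001) (nat_lit 14) (nat_lit 5) (nat_lit 16) (nat_lit 5) (nat_lit 15) (nat_lit 4) (nat_lit 472) (nat_lit 389) (nat_lit 159)) (XT.nd (nat_lit 78) (nat_lit 0) (nat_lit 0) (XT.lf (nat_lit 0) (nat_lit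 5076107352) (nat_lit 836) (nat_lit 9133594278) (nat_lit 836) (nat_lit 9133594278) (nat_lit 110) (nat_lit 3) (nat_lit 121) (nat_lit 3) (nat_lit 121) (nat_lit 5) (nat_lit 390) (nat_lit 390) (nat_lit 240)) (XT.lf (nat_lit 76) (nat_lit 4367143877) (nat_lit 0) (nat_lit 6136288890) (nat_lit 836) (nat_lit 37345432572) (nat_lit 111) (nat_lit 5) (nat_lit 110) (nat_lit 3) (nat_lit 121) (nat_lit 5) (nat_lit 391) (nat_lit 390) (nat_lit 239)))) (XT.nd (nat_lit 156) (nat_lit 0) (nat_lit 76) (XT.nd (nat_lit 78) (nat_lit 0) (nat_lit 0) (XT.lf (nat_lit 0) (nat_lit 11454265945) (nat_lit 760) (nat_lit 20562084437) (nat_lit 836) (nat_lit 17023800763) (nat_lit 111) (nat_lit 5) (nat_lit 121) (nat_lit 5) (nat_lit 122) (nat_lit 5) (nat_lit 392) (nat_lit 390) (nat_lit 238)) (XT.lf (nat_lit 76) (nat_lit 3514349497) (nat_lit 0) (nat_lit 9091970942) (nat_lit 836) (nat_lit 37676998080) (nat_lit 112) (nat_lit 5) (nat_lit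 111) (nat_lit 5) (nat_lit 122) (nat_lit 5) (nat_lit 393) (nat_lit 390) (nat_lit 237))) (XT.nd (nat_lit 78) (nat_lit 0) (nat_lit 0) (XT.lf (nat_lit 0) (nat_lit 14402068276) (nat_lit 760) (nat_lit 22303476774) (nat_lit 836) (nat_lit 14853795878) (nat_lit 112) (nat_lit 5) (nat_lit 122) (nat_lit 5) (nat_lit 123) (nat_lit 5) (nat_lit 394) (nat_lit 390) (nat_lit 236)) (XT.lf (nat_lit 76) (nat_lit 3342113501) (nat_lit 0) (nat_lit 13145094413) (nat_lit 836) (nat_lit 36401977464) (nat_lit 113) (nat_lit 5) (nat_lit 112) (nat_lit 5) (nat_lit 123) (nat_lit 5) (nat_lit 395) (nat_lit 390) (nat_lit 235))))))))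
noncomputable def xc206 : XT := (XT.nd (nat_lit 1950) (nat_lit 2432) (nat_lit 0) (XT.nd (nat_lit 936) (nat_lit 1976) (nat_lit 0) (XT.nd (nat_lit 468) (nat_lit 1140) (nat_lit 0) (XT.nd (nat_lit 234) (nat_lit 608) (nat_lit 0) (XT.nd (nat_lit 78) (nat_lit 0) (nat_lit 0) (XT.lf (nat_lit 0) (nat_lit 19239965986) (nat_lit 760) (nat_lit 23410689204) (nat_lit 836) (nat_lit 11606699876) (nat_lit 113) (nat_lit 5) (nat_lit 123) (nat_lit 5) (nat_lit 124) (nat_lit 5) (nat_lit 396) (nat_lit 390) (nat_lit 234)) (XT.nd (nat_lit 78) (nat_lit 0) (nat_lit 76) (XT.lf (nat_lit 76) (nat_lit 3942080410) (nat_lit 0) (nat_lit 18463839932) (nat_lit 836) (nat_lit 33274236012) (nat_lit 114) (nat_lit 5) (nat_lit 113) (nat_lit 5) (nat_lit 124) (nat_lit 5) (nat_lit 397) (nat_lit 390) (nat_lit 233)) (XT.lf (nat_lit 0) (nat_lit 26239953050) (nat_lit 760) (nat_lit 23794921565) (nat_lit 836) (nat_lit 7113735045) (nat_lit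 114) (nat_lit 5) (nat_lit 124) (nat_lit 5) (nat_lit 125) (nat_lit 5) (nat_lit 398) (nat_lit 390) (nat_lit 232)))) (XT.nd (nat_lit 78) (nat_lit 684) (nat_lit 0) (XT.lf (nat_lit 76) (nat_lit 5414901206) (nat_lit 0) (nat_lit 25236658511) (nat_lit 836) (nat_lit 28019633238) (nat_lit 115) (nat_lit 5) (nat_lit 114) (nat_lit 5) (nat_lit 125) (nat_lit 5) (nat_lit 399) (nat_lit 390) (nat_lit 231)) (XT.nd (nat_lit 78) (nat_lit 760) (nat_lit 0) (XT.lf (nat_lit 0) (nat_lit 35704539977) (nat_lit 760) (nat_lit 23358720509) (nat_lit 76) (nat_lit 1185606161) (nat_lit 115) (nat_lit 5) (nat_lit 125) (nat_lit 5) (nat_lit 116) (nat_lit 5) (nat_lit 400) (nat_lit 390) (nat_lit 230)) (XT.lf (nat_lit 0) (nat_lit 7870818734) (nat_lit 760) (nat_lit 33674709266) (nat_lit 836) (nat_lit 20333128936) (nat_lit 105) (nat_lit 5) (nat_lit 115) (nat_lit 5) (nat_lit 116) (nat_lit 5) (nat_lit 401) (nat_lit 390) (nat_lit 229)))))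 (XT.nd (nat_lit 234) (nat_lit 760) (nat_lit 0) (XT.nd (nat_lit 78) (nat_lit 380) (nat_lit 0) (XT.lf (nat_lit 0) (nat_lit 41471704678) (nat_lit 760) (nat_lit 6601251594) (nat_lit 836) (nat_lit 15497261736) (nat_lit 105) (nat_lit 5) (nat_lit 115) (nat_lit 5) (nat_lit 116) (nat_lit 5) (nat_lit 402) (nat_lit 390) (nat_lit 228)) (XT.nd (nat_lit 78) (nat_lit 0) (nat_lit 0) (XT.lf (nat_lit 0) (nat_lit 11430254347) (nat_lit 380) (nat_lit 44014581434) (nat_lit 456) (nat_lit 9875618136) (nat_lit 100) (nat_lit 5) (nat_lit 105) (nat_lit 5) (nat_lit 106) (nat_lit 5) (nat_lit 403) (nat_lit 390) (nat_lit 227)) (XT.lf (nat_lit 0) (nat_lit 47289793422) (nat_lit 380) (nat_lit 16375132508) (nat_lit 456) (nat_lit 3469295592) (nat_lit 100) (nat_lit 5) (nat_lit 105) (nat_lit 5) (nat_lit 106) (nat_lit 5) (nat_lit 404) (nat_lit 390) (nat_lit 226)))) (XT.nd (nat_lit 78) (nat_lit 380) (nat_lit 0) (XT.lf (nat_lit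 0) (nat_lit 3610160117) (nat_lit 380) (nat_lit 52850036126) (nat_lit 76) (nat_lit 12553085500) (nat_lit 95) (nat_lit 5) (nat_lit 100) (nat_lit 5) (nat_lit 96) (nat_lit 5) (nat_lit 405) (nat_lit 390) (nat_lit 225)) (XT.nd (nat_lit 78) (nat_lit 380) (nat_lit 0) (XT.lf (nat_lit 0) (nat_lit 11535991575) (nat_lit 380) (nat_lit 16641163928) (nat_lit 76) (nat_lit 42775846723) (nat_lit 95) (nat_lit 5) (nat_lit 100) (nat_lit 5) (nat_lit 96) (nat_lit 5) (nat_lit 406) (nat_lit 390) (nat_lit 224)) (XT.lf (nat_lit 0) (nat_lit 20231304093) (nat_lit 456) (nat_lit 50917976058) (nat_lit 76) (nat_lit 1821769712) (nat_lit 90) (nat_lit 5) (nat_lit 96) (nat_lit 5) (nat_lit 91) (nat_lit 5) (nat_lit 407) (nat_lit 390) (nat_lit 223)))))) (XT.nd (nat_lit 468) (nat_lit 1064) (nat_lit 0) (XT.nd (nat_lit 234) (nat_lit 608) (nat_lit 0) (XT.nd (nat_lit 78) (nat_lit 304) (nat_lit 0) (XT.lf (nat_lit 0) (nat_lit 30108792835)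 (nat_lit 456) (nat_lit 12283761484) (nat_lit 76) (nat_lit 32660075610) (nat_lit 90) (nat_lit 5) (nat_lit 96) (nat_lit 5) (nat_lit 91) (nat_lit 5) (nat_lit 408) (nat_lit 390) (nat_lit 222)) (XT.nd (nat_lit 78) (nat_lit 0) (nat_lit 0) (XT.lf (nat_lit 0) (nat_lit 29216238001) (nat_lit 304) (nat_lit 11719154653) (nat_lit 380) (nat_lit 36280135060) (nat_lit 86) (nat_lit 5) (nat_lit 90) (nat_lit 5) (nat_lit 91) (nat_lit 5) (nat_lit 409) (nat_lit 390) (nat_lit 221)) (XT.lf (nat_lit 0) (nat_lit 52833752895) (nat_lit 380) (nat_lit 6582805009) (nat_lit 76) (nat_lit 20043491486) (nat_lit 86) (nat_lit 5) (nat_lit 91) (nat_lit 5) (nat_lit 87) (nat_lit 5) (nat_lit 410) (nat_lit 390) (nat_lit 220)))) (XT.nd (nat_lit 78) (nat_lit 304) (nat_lit 0) (XT.lf (nat_lit 0) (nat_lit 37925226949) (nat_lit 304) (nat_lit 28185197579) (nat_lit 380) (nat_lit 15667203451) (nat_lit 82) (nat_lit 5) (nat_lit 86) (nat_lit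 5) (nat_lit 87) (nat_lit 5) (nat_lit 411) (nat_lit 390) (nat_lit 219)) (XT.nd (nat_lit 78) (nat_lit 76) (nat_lit 0) (XT.lf (nat_lit 0) (nat_lit 626962460) (nat_lit 228) (nat_lit 79618185184) (nat_lit 304) (nat_lit 3956227432) (nat_lit 79) (nat_lit 5) (nat_lit 82) (nat_lit 5) (nat_lit 83) (nat_lit 5) (nat_lit 412) (nat_lit 390) (nat_lit 218)) (XT.lf (nat_lit 0) (nat_lit 9289433519) (nat_lit 304) (nat_lit 38461905645) (nat_lit 76) (nat_lit 38927656137) (nat_lit 78) (nat_lit 5) (nat_lit 82) (nat_lit 5) (nat_lit 79) (nat_lit 5) (nat_lit 413) (nat_lit 390) (nat_lit 217))))) (XT.nd (nat_lit 234) (nat_lit 532) (nat_lit 0) (XT.nd (nat_lit 78) (nat_lit 228) (nat_lit 0) (XT.lf (nat_lit 0) (nat_lit 9132685801) (nat_lit 304) (nat_lit 14073550881) (nat_lit 380) (nat_lit 66063926738) (nat_lit 74) (nat_lit 5) (nat_lit 78) (nat_lit 5) (nat_lit 79) (nat_lit 5) (nat_lit 414) (nat_lit 390) (nat_lit 216)) (XT.nd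 (nat_lit 78) (nat_lit 228) (nat_lit 0) (XT.lf (nat_lit 0) (nat_lit 38812542213) (nat_lit 380) (nat_lit 31860055814) (nat_lit 76) (nat_lit 21268609198) (nat_lit 74) (nat_lit 5) (nat_lit 79) (nat_lit 5) (nat_lit 75) (nat_lit 5) (nat_lit 415) (nat_lit 390) (nat_lit 215)) (XT.lf (nat_lit 0) (nat_lit 19214550437) (nat_lit 228) (nat_lit 36514601123) (nat_lit 304) (nat_lit 38990152605) (nat_lit 71) (nat_lit 5) (nat_lit 74) (nat_lit 5) (nat_lit 75) (nat_lit 5) (nat_lit 416) (nat_lit 390) (nat_lit 214)))) (XT.nd (nat_lit 156) (nat_lit 304) (nat_lit 0) (XT.nd (nat_lit 78) (nat_lit 228) (nat_lit 0) (XT.lf (nat_lit 0) (nat_lit 73948053349) (nat_lit 228) (nat_lit 82404589) (nat_lit 304) (nat_lit 23578905040) (nat_lit 71) (nat_lit 5) (nat_lit 74) (nat_lit 5) (nat_lit 75) (nat_lit 5) (nat_lit 417) (nat_lit 390) (nat_lit 213)) (XT.lf (nat_lit 0) (nat_lit 31175217839) (nat_lit 228) (nat_lit 63153637625)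 (nat_lit 304) (nat_lit 6260968312) (nat_lit 68) (nat_lit 5) (nat_lit 71) (nat_lit 5) (nat_lit 72) (nat_lit 5) (nat_lit 418) (nat_lit 390) (nat_lit 212))) (XT.nd (nat_lit 78) (nat_lit 228) (nat_lit 0) (XT.lf (nat_lit 0) (nat_lit 11949232211) (nat_lit 304) (nat_lit 14319237441) (nat_lit 76) (nat_lit 77421132146) (nat_lit 67) (nat_lit 5) (nat_lit 71) (nat_lit 5) (nat_lit 68) (nat_lit 5) (nat_lit 419) (nat_lit 390) (nat_lit 211)) (XT.lf (nat_lit 0) (nat_lit 31767055206) (nat_lit 304) (nat_lit 62248683232) (nat_lit 76) (nat_lit 12878122531) (nat_lit 64) (nat_lit 5) (nat_lit 68) (nat_lit 5) (nat_lit 65) (nat_lit 5) (nat_lit 420) (nat_lit 390) (nat_lit 210))))))) (XT.nd (nat_lit 1014) (nat_lit 1064) (nat_lit 0) (XT.nd (nat_lit 468) (nat_lit 684) (nat_lit 0) (XT.nd (nat_lit 234) (nat_lit 304) (nat_lit 0) (XT.nd (nat_lit 78) (nat_lit 380) (nat_lit 0) (XT.lf (nat_lit 0) (nat_lit 53252259892) (nat_lit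 304) (nat_lit 3626772006) (nat_lit 76) (nat_lit 53345476951) (nat_lit 64) (nat_lit 5) (nat_lit 68) (nat_lit 5) (nat_lit 65) (nat_lit 5) (nat_lit 421) (nat_lit 390) (nat_lit 209)) (XT.nd (nat_lit 78) (nat_lit 152) (nat_lit 0) (XT.lf (nat_lit 0) (nat_lit 59840649053) (nat_lit 228) (nat_lit 16904766674) (nat_lit 304) (nat_lit 36929589113) (nat_lit 61) (nat_lit 5) (nat_lit 64) (nat_lit 5) (nat_lit 65) (nat_lit 5) (nat_lit 422) (nat_lit 390) (nat_lit 208)) (XT.lf (nat_lit 0) (nat_lit 9214043861) (nat_lit 152) (nat_lit 92796276909) (nat_lit 228) (nat_lit 15257850543) (nat_lit 59) (nat_lit 5) (nat_lit 61) (nat_lit 5) (nat_lit 62) (nat_lit 5) (nat_lit 423) (nat_lit 390) (nat_lit 207)))) (XT.nd (nat_lit 78) (nat_lit 228) (nat_lit 0) (XT.lf (nat_lit 0) (nat_lit 8460719176) (nat_lit 228) (nat_lit 44121546024) (nat_lit 76) (nat_lit 68392717795) (nat_lit 58) (nat_lit 5) (nat_lit 61) (nat_lit 5) (nat_lit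 59) (nat_lit 5) (nat_lit 424) (nat_lit 390) (nat_lit 206)) (XT.nd (nat_lit 78) (nat_lit 0) (nat_lit 0) (XT.lf (nat_lit 0) (nat_lit 23509140595) (nat_lit 228) (nat_lit 9709809836) (nat_lit 304) (nat_lit 91617353769) (nat_lit 55) (nat_lit 5) (nat_lit 58) (nat_lit 5) (nat_lit 59) (nat_lit 5) (nat_lit 425) (nat_lit 390) (nat_lit 205)) (XT.lf (nat_lit 0) (nat_lit 60525254313) (nat_lit 304) (nat_lit 33364491213) (nat_lit 76) (nat_lit 34935438092) (nat_lit 55) (nat_lit 5) (nat_lit 59) (nat_lit 5) (nat_lit 56) (nat_lit 5) (nat_lit 426) (nat_lit 390) (nat_lit 204))))) (XT.nd (nat_lit 234) (nat_lit 304) (nat_lit 0) (XT.nd (nat_lit 78) (nat_lit 228) (nat_lit 0) (XT.lf (nat_lit 0) (nat_lit 39087374408) (nat_lit 152) (nat_lit 50878427301) (nat_lit 228) (nat_lit 43009259081) (nat_lit 53) (nat_lit 5) (nat_lit 55) (nat_lit 5) (nat_lit 56) (nat_lit 5) (nat_lit 427) (nat_lit 390) (nat_lit 203)) (XT.nd (nat_lit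 78) (nat_lit 228) (nat_lit 0) (XT.lf (nat_lit 0) (nat_lit 116319382794) (nat_lit 152) (nat_lit 5123537193) (nat_lit 228) (nat_lit 15861284843) (nat_lit 53) (nat_lit 5) (nat_lit 55) (nat_lit 5) (nat_lit 56) (nat_lit 5) (nat_lit 428) (nat_lit 390) (nat_lit 202)) (XT.lf (nat_lit 0) (nat_lit 13819856113) (nat_lit 228) (nat_lit 85287644865) (nat_lit 76) (nat_lit 42653411894) (nat_lit 50) (nat_lit 5) (nat_lit 53) (nat_lit 5) (nat_lit 51) (nat_lit 5) (nat_lit 429) (nat_lit 390) (nat_lit 201)))) (XT.nd (nat_lit 156) (nat_lit 152) (nat_lit 0) (XT.nd (nat_lit 78) (nat_lit 152) (nat_lit 0) (XT.lf (nat_lit 0) (nat_lit 44896739887) (nat_lit 228) (nat_lit 8240494094) (nat_lit 76) (nat_lit 93267984996) (nat_lit 50) (nat_lit 5) (nat_lit 53) (nat_lit 5) (nat_lit 51) (nat_lit 5) (nat_lit 430) (nat_lit 390) (nat_lit 200)) (XT.lf (nat_lit 0) (nat_lit 75060686012) (nat_lit 152) (nat_lit 3638234633) (nat_lit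 228) (nat_lit 72524247256) (nat_lit 48) (nat_lit 5) (nat_lit 50) (nat_lit 5) (nat_lit 51) (nat_lit 5) (nat_lit 431) (nat_lit 390) (nat_lit 199))) (XT.nd (nat_lit 78) (nat_lit 0) (nat_lit 0) (XT.lf (nat_lit 0) (nat_lit 5971413822) (nat_lit 152) (nat_lit 109209078692) (nat_lit 228) (nat_lit 41052057802) (nat_lit 46) (nat_lit 5) (nat_lit 48) (nat_lit 5) (nat_lit 49) (nat_lit 5) (nat_lit 432) (nat_lit 390) (nat_lit 198)) (XT.lf (nat_lit 0) (nat_lit 94793845499) (nat_lit 152) (nat_lit 60040388131) (nat_lit 228) (nat_lit 6590763830) (nat_lit 46) (nat_lit 5) (nat_lit 48) (nat_lit 5) (nat_lit 49) (nat_lit 5) (nat_lit 433) (nat_lit 390) (nat_lit 197)))))) (XT.nd (nat_lit 468) (nat_lit 532) (nat_lit 0) (XT.nd (nat_lit 234) (nat_lit 152) (nat_lit 0) (XT.nd (nat_lit 78) (nat_lit 152) (nat_lit 0) (XT.lf (nat_lit 0) (nat_lit 21402597396) (nat_lit 152) (nat_lit 7577547009) (nat_lit 228) (nat_lit 137857134264)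 (nat_lit 43) (nat_lit 5) (nat_lit 45) (nat_lit 5) (nat_lit 46) (nat_lit 5) (nat_lit 434) (nat_lit 390) (nat_lit 196)) (XT.nd (nat_lit 78) (nat_lit 152) (nat_lit 0) (XT.lf (nat_lit 0) (nat_lit 67996354408) (nat_lit 228) (nat_lit 57181436249) (nat_lit 76) (nat_lit 47242568674) (nat_lit 43) (nat_lit 5) (nat_lit 46) (nat_lit 5) (nat_lit 44) (nat_lit 5) (nat_lit 435) (nat_lit 390) (nat_lit 195)) (XT.lf (nat_lit 0) (nat_lit 36528712828) (nat_lit 152) (nat_lit 73128799500) (nat_lit 228) (nat_lit 68590374944) (nat_lit 41) (nat_lit 5) (nat_lit 43) (nat_lit 5) (nat_lit 44) (nat_lit 5) (nat_lit 436) (nat_lit 390) (nat_lit 194)))) (XT.nd (nat_lit 78) (nat_lit 152) (nat_lit 0) (XT.lf (nat_lit 0) (nat_lit 136908907670) (nat_lit 152) (nat_lit 17460824086) (nat_lit 228) (nat_lit 29948659781) (nat_lit 41) (nat_lit 5) (nat_lit 43) (nat_lit 5) (nat_lit 44) (nat_lit 5) (nat_lit 437) (nat_lit 390) (nat_lit 193))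 (XT.nd (nat_lit 78) (nat_lit 0) (nat_lit 0) (XT.lf (nat_lit 0) (nat_lit 11770812291) (nat_lit 152) (nat_lit 138148659085) (nat_lit 76) (nat_lit 40690368227) (nat_lit 39) (nat_lit 5) (nat_lit 41) (nat_lit 5) (nat_lit 40) (nat_lit 5) (nat_lit 438) (nat_lit 390) (nat_lit 192)) (XT.lf (nat_lit 0) (nat_lit 55671719079) (nat_lit 152) (nat_lit 38995410156) (nat_lit 76) (nat_lit 102469086228) (nat_lit 39) (nat_lit 5) (nat_lit 41) (nat_lit 5) (nat_lit 40) (nat_lit 5) (nat_lit 439) (nat_lit 390) (nat_lit 191))))) (XT.nd (nat_lit 234) (nat_lit 304) (nat_lit 0) (XT.nd (nat_lit 78) (nat_lit 76) (nat_lit 0) (XT.lf (nat_lit 0) (nat_lit 67267867778) (nat_lit 152) (nat_lit 35549685801) (nat_lit 228) (nat_lit 101118862508) (nat_lit 37) (nat_lit 5) (nat_lit 39) (nat_lit 5) (nat_lit 40) (nat_lit 5) (nat_lit 440) (nat_lit 390) (nat_lit 190)) (XT.nd (nat_lit 78) (nat_lit 76) (nat_lit 0) (XT.lf (nat_lit 0) (nat_lit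 153405666189) (nat_lit 228) (nat_lit 31271027439) (nat_lit 76) (nat_lit 26345683881) (nat_lit 37) (nat_lit 5) (nat_lit 40) (nat_lit 5) (nat_lit 38) (nat_lit 4) (nat_lit 441) (nat_lit 390) (nat_lit 189)) (XT.lf (nat_lit 0) (nat_lit 81418902348) (nat_lit 76) (nat_lit 126957903650) (nat_lit 152) (nat_lit 9993150008) (nat_lit 36) (nat_lit 5) (nat_lit 37) (nat_lit 5) (nat_lit 38) (nat_lit 4) (nat_lit 442) (nat_lit 390) (nat_lit 188)))) (XT.nd (nat_lit 156) (nat_lit 76) (nat_lit 0) (XT.nd (nat_lit 78) (nat_lit 152) (nat_lit 0) (XT.lf (nat_lit 0) (nat_lit 39268904383) (nat_lit 152) (nat_lit 25863420954) (nat_lit 76) (nat_lit 160894456725) (nat_lit 35) (nat_lit 5) (nat_lit 37) (nat_lit 5) (nat_lit 36) (nat_lit 5) (nat_lit 443) (nat_lit 390) (nat_lit 187)) (XT.lf (nat_lit 0) (nat_lit 92142702394) (nat_lit 228) (nat_lit 140398161137) (nat_lit 76) (nat_lit 1443171040) (nat_lit 33) (nat_lit 5) (nat_lit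 36) (nat_lit 5) (nat_lit 34) (nat_lit 4) (nat_lit 444) (nat_lit 390) (nat_lit 186))) (XT.nd (nat_lit 78) (nat_lit 76) (nat_lit 0) (XT.lf (nat_lit 0) (nat_lit 149172805918) (nat_lit 228) (nat_lit 23487194955) (nat_lit 76) (nat_lit 69603518119) (nat_lit 33) (nat_lit 5) (nat_lit 36) (nat_lit 5) (nat_lit 34) (nat_lit 4) (nat_lit 445) (nat_lit 390) (nat_lit 185)) (XT.lf (nat_lit 0) (nat_lit 102551046493) (nat_lit 76) (nat_lit 108104175018) (nat_lit 152) (nat_lit 40221715844) (nat_lit 32) (nat_lit 5) (nat_lit 33) (nat_lit 5) (nat_lit 34) (nat_lit 4) (nat_lit 446) (nat_lit 390) (nat_lit 184))))))))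
noncomputable def xc207 : XT := (XT.nd (nat_lit 48828) (nat_lit 0) (nat_lit 4256) (XT.nd (nat_lit 1014) (nat_lit 532) (nat_lit 0) (XT.nd (nat_lit 468) (nat_lit 304) (nat_lit 0) (XT.nd (nat_lit 234) (nat_lit 228) (nat_lit 0) (XT.nd (nat_lit 78) (nat_lit 152) (nat_lit 0) (XT.lf (nat_lit 0) (nat_lit 15205318874) (nat_lit 152) (nat_lit 24440316004) (nat_lit 76) (nat_lit 220243255932) (nat_lit 31) (nat_lit 5) (nat_lit 33) (nat_lit 5) (nat_lit 32) (nat_lit 5) (nat_lit 447) (nat_lit 390) (nat_lit 183)) (XT.nd (nat_lit 78) (nat_lit 0) (nat_lit 0) (XT.lf (nat_lit 0) (nat_lit 74286780160) (nat_lit 228) (nat_lit 161324937575) (nat_lit 76) (nat_lit 33595016226) (nat_lit 29) (nat_lit 5) (nat_lit 32) (nat_lit 5) (nat_lit 30) (nat_lit 4) (nat_lit 448) (nat_lit 390) (nat_lit 182)) (XT.lf (nat_lit 0) (nat_lit 137392652012) (nat_lit 228) (nat_lit 31958484822) (nat_lit 76) (nat_lit 109585815613) (nat_lit 29)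 (nat_lit 5) (nat_lit 32) (nat_lit 5) (nat_lit 30) (nat_lit 4) (nat_lit 449) (nat_lit 390) (nat_lit 181)))) (XT.nd (nat_lit 78) (nat_lit 152) (nat_lit 0) (XT.lf (nat_lit 0) (nat_lit 107310394172) (nat_lit 76) (nat_lit 98018567939) (nat_lit 152) (nat_lit 83740962565) (nat_lit 28) (nat_lit 5) (nat_lit 29) (nat_lit 5) (nat_lit 30) (nat_lit 4) (nat_lit 450) (nat_lit 390) (nat_lit 180)) (XT.nd (nat_lit 78) (nat_lit 152) (nat_lit 0) (XT.lf (nat_lit 0) (nat_lit 254651752421) (nat_lit 76) (nat_lit 22551301616) (nat_lit 152) (nat_lit 22479443211) (nat_lit 28) (nat_lit 5) (nat_lit 29) (nat_lit 5) (nat_lit 30) (nat_lit 4) (nat_lit 451) (nat_lit 390) (nat_lit 179)) (XT.lf (nat_lit 0) (nat_lit 43005975709) (nat_lit 152) (nat_lit 210518714849) (nat_lit 76) (nat_lit 57143335439) (nat_lit 26) (nat_lit 5) (nat_lit 28) (nat_lit 5) (nat_lit 27) (nat_lit 4) (nat_lit 452) (nat_lit 390) (nat_lit 178))))) (XT.nd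 (nat_lit 234) (nat_lit 228) (nat_lit 0) (XT.nd (nat_lit 78) (nat_lit 76) (nat_lit 0) (XT.lf (nat_lit 0) (nat_lit 112154765694) (nat_lit 152) (nat_lit 68764153385) (nat_lit 76) (nat_lit 141208258532) (nat_lit 26) (nat_lit 5) (nat_lit 28) (nat_lit 5) (nat_lit 27) (nat_lit 4) (nat_lit 453) (nat_lit 390) (nat_lit 177)) (XT.nd (nat_lit 78) (nat_lit 0) (nat_lit 0) (XT.lf (nat_lit 0) (nat_lit 82725410764) (nat_lit 76) (nat_lit 103326916074) (nat_lit 152) (nat_lit 148042393424) (nat_lit 25) (nat_lit 5) (nat_lit 26) (nat_lit 5) (nat_lit 27) (nat_lit 4) (nat_lit 454) (nat_lit 390) (nat_lit 176)) (XT.lf (nat_lit 0) (nat_lit 244176341434) (nat_lit 76) (nat_lit 20632739597) (nat_lit 152) (nat_lit 81793343303) (nat_lit 25) (nat_lit 5) (nat_lit 26) (nat_lit 5) (nat_lit 27) (nat_lit 4) (nat_lit 455) (nat_lit 390) (nat_lit 175)))) (XT.nd (nat_lit 156) (nat_lit 76) (nat_lit 0) (XT.nd (nat_lit 78) (nat_lit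 76) (nat_lit 0) (XT.lf (nat_lit 0) (nat_lit 54680479692) (nat_lit 76) (nat_lit 294710185189) (nat_lit 76) (nat_lit 10250499167) (nat_lit 24) (nat_lit 4) (nat_lit 25) (nat_lit 5) (nat_lit 25) (nat_lit 4) (nat_lit 456) (nat_lit 390) (nat_lit 174)) (XT.lf (nat_lit 0) (nat_lit 64894341659) (nat_lit 152) (nat_lit 151426644478) (nat_lit 76) (nat_lit 156855160757) (nat_lit 23) (nat_lit 5) (nat_lit 25) (nat_lit 5) (nat_lit 24) (nat_lit 4) (nat_lit 457) (nat_lit 390) (nat_lit 173))) (XT.nd (nat_lit 78) (nat_lit 0) (nat_lit 0) (XT.lf (nat_lit 0) (nat_lit 9933578242) (nat_lit 76) (nat_lit 133673233901) (nat_lit 152) (nat_lit 243764921145) (nat_lit 22) (nat_lit 5) (nat_lit 23) (nat_lit 5) (nat_lit 24) (nat_lit 4) (nat_lit 458) (nat_lit 390) (nat_lit 172)) (XT.lf (nat_lit 0) (nat_lit 184618595232) (nat_lit 76) (nat_lit 44200579099) (nat_lit 152) (nat_lit 173329711288) (nat_lit 22) (nat_lit 5) (nat_lit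 23) (nat_lit 5) (nat_lit 24) (nat_lit 4) (nat_lit 459) (nat_lit 390) (nat_lit 171)))))) (XT.nd (nat_lit 468) (nat_lit 304) (nat_lit 0) (XT.nd (nat_lit 234) (nat_lit 76) (nat_lit 0) (XT.nd (nat_lit 78) (nat_lit 152) (nat_lit 0) (XT.lf (nat_lit 0) (nat_lit 319068616624) (nat_lit 152) (nat_lit 50404098434) (nat_lit 0) (nat_lit 48153357438) (nat_lit 22) (nat_lit 5) (nat_lit 24) (nat_lit 4) (nat_lit 22) (nat_lit 4) (nat_lit 460) (nat_lit 390) (nat_lit 170)) (XT.nd (nat_lit 78) (nat_lit 76) (nat_lit 0) (XT.lf (nat_lit 0) (nat_lit 128465112169) (nat_lit 76) (nat_lit 288095520917) (nat_lit 76) (nat_lit 17179980555) (nat_lit 21) (nat_lit 4) (nat_lit 22) (nat_lit 5) (nat_lit 22) (nat_lit 4) (nat_lit 461) (nat_lit 390) (nat_lit 169)) (XT.lf (nat_lit 0) (nat_lit 66948832332) (nat_lit 152) (nat_lit 133670701865) (nat_lit 76) (nat_lit 249944685507) (nat_lit 20) (nat_lit 5) (nat_lit 22) (nat_lit 5) (nat_lit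 21) (nat_lit 4) (nat_lit 462) (nat_lit 390) (nat_lit 168)))) (XT.nd (nat_lit 78) (nat_lit 0) (nat_lit 0) (XT.lf (nat_lit 0) (nat_lit 47760988965) (nat_lit 76) (nat_lit 107691231594) (nat_lit 152) (nat_lit 312725428848) (nat_lit 19) (nat_lit 5) (nat_lit 20) (nat_lit 5) (nat_lit 21) (nat_lit 4) (nat_lit 463) (nat_lit 390) (nat_lit 167)) (XT.nd (nat_lit 78) (nat_lit 0) (nat_lit 0) (XT.lf (nat_lit 0) (nat_lit 242904655420) (nat_lit 76) (nat_lit 7739716039) (nat_lit 152) (nat_lit 235914199496) (nat_lit 19) (nat_lit 5) (nat_lit 20) (nat_lit 5) (nat_lit 21) (nat_lit 4) (nat_lit 464) (nat_lit 390) (nat_lit 166)) (XT.lf (nat_lit 0) (nat_lit 352113662211) (nat_lit 152) (nat_lit 59571087465) (nat_lit 0) (nat_lit 94097912309) (nat_lit 19) (nat_lit 5) (nat_lit 21) (nat_lit 4) (nat_lit 19) (nat_lit 4) (nat_lit 465) (nat_lit 390) (nat_lit 165))))) (XT.nd (nat_lit 234) (nat_lit 152) (nat_lit 0) (XT.nd (nat_lit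 78) (nat_lit 76) (nat_lit 0) (XT.lf (nat_lit 0) (nat_lit 138005719342) (nat_lit 76) (nat_lit 322932064815) (nat_lit 76) (nat_lit 64916105096) (nat_lit 18) (nat_lit 4) (nat_lit 19) (nat_lit 5) (nat_lit 19) (nat_lit 4) (nat_lit 466) (nat_lit 390) (nat_lit 164)) (XT.nd (nat_lit 78) (nat_lit 0) (nat_lit 0) (XT.lf (nat_lit 0) (nat_lit 28394710149) (nat_lit 152) (nat_lit 199807003738) (nat_lit 76) (nat_lit 318653630143) (nat_lit 17) (nat_lit 5) (nat_lit 19) (nat_lit 5) (nat_lit 18) (nat_lit 4) (nat_lit 467) (nat_lit 390) (nat_lit 163)) (XT.lf (nat_lit 0) (nat_lit 124189297771) (nat_lit 152) (nat_lit 3428289424) (nat_lit 76) (nat_lit 441236082525) (nat_lit 17) (nat_lit 5) (nat_lit 19) (nat_lit 5) (nat_lit 18) (nat_lit 4) (nat_lit 468) (nat_lit 390) (nat_lit 162)))) (XT.nd (nat_lit 156) (nat_lit 76) (nat_lit 0) (XT.nd (nat_lit 78) (nat_lit 0) (nat_lit 0) (XT.lf (nat_lit 0) (nat_lit 209473524702)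 (nat_lit 76) (nat_lit 18570404959) (nat_lit 152) (nat_lit 363744466305) (nat_lit 16) (nat_lit 5) (nat_lit 17) (nat_lit 5) (nat_lit 18) (nat_lit 4) (nat_lit 469) (nat_lit 390) (nat_lit 161)) (XT.lf (nat_lit 0) (nat_lit 338647874030) (nat_lit 152) (nat_lit 184226475456) (nat_lit 0) (nat_lit 92917680009) (nat_lit 16) (nat_lit 5) (nat_lit 18) (nat_lit 4) (nat_lit 16) (nat_lit 4) (nat_lit 470) (nat_lit 390) (nat_lit 160))) (XT.nd (nat_lit 46878) (nat_lit 0) (nat_lit 7220) (XT.lf (nat_lit 0) (nat_lit 24237371220) (nat_lit 76) (nat_lit 431227344540) (nat_lit 76) (nat_lit 185496993950) (nat_lit 15) (nat_lit 4) (nat_lit 16) (nat_lit 5) (nat_lit 16) (nat_lit 4) (nat_lit 471) (nat_lit 390) (nat_lit 159)) (XT.lf (nat_lit 0) (nat_lit 5358685708) (nat_lit 836) (nat_lit 9575158014) (nat_lit 836) (nat_lit 9575158014) (nat_lit 110) (nat_lit 3) (nat_lit 121) (nat_lit 3) (nat_lit 121) (nat_lit 5) (nat_lit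 391) (nat_lit 391) (nat_lit 238))))))) (XT.nd (nat_lit 1014) (nat_lit 2204) (nat_lit 0) (XT.nd (nat_lit 468) (nat_lit 760) (nat_lit 0) (XT.nd (nat_lit 234) (nat_lit 0) (nat_lit 152) (XT.nd (nat_lit 78) (nat_lit 0) (nat_lit 76) (XT.lf (nat_lit 76) (nat_lit 4615245414) (nat_lit 0) (nat_lit 6468629076) (nat_lit 836) (nat_lit 39154631910) (nat_lit 111) (nat_lit 5) (nat_lit 110) (nat_lit 3) (nat_lit 121) (nat_lit 5) (nat_lit 392) (nat_lit 391) (nat_lit 237)) (XT.nd (nat_lit 78) (nat_lit 0) (nat_lit 0) (XT.lf (nat_lit 0) (nat_lit 12079237868) (nat_lit 760) (nat_lit 21558812396) (nat_lit 836) (nat_lit 17851458650) (nat_lit 111) (nat_lit 5) (nat_lit 121) (nat_lit 5) (nat_lit 122) (nat_lit 5) (nat_lit 393) (nat_lit 391) (nat_lit 236)) (XT.lf (nat_lit 76) (nat_lit 3720937167) (nat_lit 0) (nat_lit 9565951384) (nat_lit 836) (nat_lit 39508048187) (nat_lit 112) (nat_lit 5) (nat_lit 111) (nat_lit 5) (nat_lit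 122) (nat_lit 5) (nat_lit 394) (nat_lit 391) (nat_lit 235)))) (XT.nd (nat_lit 78) (nat_lit 0) (nat_lit 0) (XT.lf (nat_lit 0) (nat_lit 15169742627) (nat_lit 760) (nat_lit 23386535843) (nat_lit 836) (nat_lit 15578617526) (nat_lit 112) (nat_lit 5) (nat_lit 122) (nat_lit 5) (nat_lit 123) (nat_lit 5) (nat_lit 395) (nat_lit 391) (nat_lit 234)) (XT.nd (nat_lit 78) (nat_lit 0) (nat_lit 76) (XT.lf (nat_lit 76) (nat_lit 3540815965) (nat_lit 0) (nat_lit 13816551314) (nat_lit 836) (nat_lit 38173955581) (nat_lit 113) (nat_lit 5) (nat_lit 112) (nat_lit 5) (nat_lit 123) (nat_lit 5) (nat_lit 396) (nat_lit 391) (nat_lit 233)) (XT.lf (nat_lit 0) (nat_lit 20245371174) (nat_lit 760) (nat_lit 24548709081) (nat_lit 836) (nat_lit 12173941897) (nat_lit 113) (nat_lit 5) (nat_lit 123) (nat_lit 5) (nat_lit 124) (nat_lit 5) (nat_lit 397) (nat_lit 391) (nat_lit 232))))) (XT.nd (nat_lit 234) (nat_lit 988) (nat_lit 0)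 (XT.nd (nat_lit 78) (nat_lit 0) (nat_lit 76) (XT.lf (nat_lit 76) (nat_lit 4171174585) (nat_lit 0) (nat_lit 19396881125) (nat_lit 836) (nat_lit 34893987616) (nat_lit 114) (nat_lit 5) (nat_lit 113) (nat_lit 5) (nat_lit 124) (nat_lit 5) (nat_lit 398) (nat_lit 391) (nat_lit 231)) (XT.nd (nat_lit 78) (nat_lit 0) (nat_lit 0) (XT.lf (nat_lit 0) (nat_lit 27591651252) (nat_lit 760) (nat_lit 24952034525) (nat_lit 836) (nat_lit 7460341835) (nat_lit 114) (nat_lit 5) (nat_lit 124) (nat_lit 5) (nat_lit 125) (nat_lit 5) (nat_lit 399) (nat_lit 391) (nat_lit 230)) (XT.lf (nat_lit 76) (nat_lit 5717753045) (nat_lit 0) (nat_lit 26504695982) (nat_lit 836) (nat_lit 29380361816) (nat_lit 115) (nat_lit 5) (nat_lit 114) (nat_lit 5) (nat_lit 125) (nat_lit 5) (nat_lit 400) (nat_lit 391) (nat_lit 229)))) (XT.nd (nat_lit 156) (nat_lit 380) (nat_lit 0) (XT.nd (nat_lit 78) (nat_lit 760) (nat_lit 0) (XT.lf (nat_lit 0)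 (nat_lit 37526161693) (nat_lit 760) (nat_lit 24494137097) (nat_lit 76) (nat_lit 1239166506) (nat_lit 115) (nat_lit 5) (nat_lit 125) (nat_lit 5) (nat_lit 116) (nat_lit 5) (nat_lit 401) (nat_lit 391) (nat_lit 228)) (XT.lf (nat_lit 0) (nat_lit 8296354601) (nat_lit 760) (nat_lit 35361610965) (nat_lit 836) (nat_lit 21312842399) (nat_lit 105) (nat_lit 5) (nat_lit 115) (nat_lit 5) (nat_lit 116) (nat_lit 5) (nat_lit 402) (nat_lit 391) (nat_lit 227))) (XT.nd (nat_lit 78) (nat_lit 380) (nat_lit 0) (XT.lf (nat_lit 0) (nat_lit 43575761274) (nat_lit 760) (nat_lit 6934329637) (nat_lit 836) (nat_lit 16236941030) (nat_lit 105) (nat_lit 5) (nat_lit 115) (nat_lit 5) (nat_lit 116) (nat_lit 5) (nat_lit 403) (nat_lit 391) (nat_lit 226)) (XT.lf (nat_lit 0) (nat_lit 12033462871) (nat_lit 380) (nat_lit 46215956935) (nat_lit 456) (nat_lit 10335418144) (nat_lit 100) (nat_lit 5) (nat_lit 105) (nat_lit 5) (nat_lit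 106) (nat_lit 5) (nat_lit 404) (nat_lit 391) (nat_lit 225)))))) (XT.nd (nat_lit 468) (nat_lit 1140) (nat_lit 0) (XT.nd (nat_lit 234) (nat_lit 684) (nat_lit 0) (XT.nd (nat_lit 78) (nat_lit 380) (nat_lit 0) (XT.lf (nat_lit 0) (nat_lit 49684469575) (nat_lit 380) (nat_lit 17194504781) (nat_lit 456) (nat_lit 3610397611) (nat_lit 100) (nat_lit 5) (nat_lit 105) (nat_lit 5) (nat_lit 106) (nat_lit 5) (nat_lit 405) (nat_lit 391) (nat_lit 224)) (XT.nd (nat_lit 78) (nat_lit 0) (nat_lit 0) (XT.lf (nat_lit 0) (nat_lit 3820989821) (nat_lit 380) (nat_lit 55460272225) (nat_lit 76) (nat_lit 13181149085) (nat_lit 95) (nat_lit 5) (nat_lit 100) (nat_lit 5) (nat_lit 96) (nat_lit 5) (nat_lit 406) (nat_lit 391) (nat_lit 223)) (XT.lf (nat_lit 0) (nat_lit 12141668961) (nat_lit 380) (nat_lit 17442492879) (nat_lit 76) (nat_lit 44915028878) (nat_lit 95) (nat_lit 5) (nat_lit 100) (nat_lit 5) (nat_lit 96) (nat_lit 5)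 (nat_lit 407) (nat_lit 391) (nat_lit 222)))) (XT.nd (nat_lit 78) (nat_lit 304) (nat_lit 0) (XT.lf (nat_lit 0) (nat_lit 21270879271) (nat_lit 456) (nat_lit 53432260897) (nat_lit 76) (nat_lit 1915044806) (nat_lit 90) (nat_lit 5) (nat_lit 96) (nat_lit 5) (nat_lit 91) (nat_lit 5) (nat_lit 408) (nat_lit 391) (nat_lit 221)) (XT.nd (nat_lit 78) (nat_lit 304) (nat_lit 0) (XT.lf (nat_lit 0) (nat_lit 31640908641) (nat_lit 456) (nat_lit 12867841020) (nat_lit 76) (nat_lit 34295161874) (nat_lit 90) (nat_lit 5) (nat_lit 96) (nat_lit 5) (nat_lit 91) (nat_lit 5) (nat_lit 409) (nat_lit 391) (nat_lit 220)) (XT.lf (nat_lit 0) (nat_lit 30706672817) (nat_lit 304) (nat_lit 12301357837) (nat_lit 380) (nat_lit 38066964712) (nat_lit 86) (nat_lit 5) (nat_lit 90) (nat_lit 5) (nat_lit 91) (nat_lit 5) (nat_lit 410) (nat_lit 391) (nat_lit 219))))) (XT.nd (nat_lit 234) (nat_lit 608) (nat_lit 0) (XT.nd (nat_lit 78) (nat_lit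 532) (nat_lit 0) (XT.lf (nat_lit 0) (nat_lit 55500132908) (nat_lit 380) (nat_lit 6882542373) (nat_lit 76) (nat_lit 21049127374) (nat_lit 86) (nat_lit 5) (nat_lit 91) (nat_lit 5) (nat_lit 87) (nat_lit 5) (nat_lit 411) (nat_lit 391) (nat_lit 218)) (XT.nd (nat_lit 78) (nat_lit 228) (nat_lit 0) (XT.lf (nat_lit 0) (nat_lit 39850416942) (nat_lit 304) (nat_lit 29589497011) (nat_lit 380) (nat_lit 16425383124) (nat_lit 82) (nat_lit 5) (nat_lit 86) (nat_lit 5) (nat_lit 87) (nat_lit 5) (nat_lit 412) (nat_lit 391) (nat_lit 217)) (XT.lf (nat_lit 0) (nat_lit 687889188) (nat_lit 228) (nat_lit 83592878257) (nat_lit 304) (nat_lit 4129495034) (nat_lit 79) (nat_lit 5) (nat_lit 82) (nat_lit 5) (nat_lit 83) (nat_lit 5) (nat_lit 413) (nat_lit 391) (nat_lit 216)))) (XT.nd (nat_lit 156) (nat_lit 228) (nat_lit 0) (XT.nd (nat_lit 78) (nat_lit 304) (nat_lit 0) (XT.lf (nat_lit 0) (nat_lit 9776532068) (nat_lit 304)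 (nat_lit 40356070680) (nat_lit 76) (nat_lit 40879198975) (nat_lit 78) (nat_lit 5) (nat_lit 82) (nat_lit 5) (nat_lit 79) (nat_lit 5) (nat_lit 414) (nat_lit 391) (nat_lit 215)) (XT.lf (nat_lit 0) (nat_lit 9617783722) (nat_lit 304) (nat_lit 14770758594) (nat_lit 380) (nat_lit 69344018157) (nat_lit 74) (nat_lit 5) (nat_lit 78) (nat_lit 5) (nat_lit 79) (nat_lit 5) (nat_lit 415) (nat_lit 391) (nat_lit 214))) (XT.nd (nat_lit 78) (nat_lit 228) (nat_lit 0) (XT.lf (nat_lit 0) (nat_lit 40774212001) (nat_lit 380) (nat_lit 33424988380) (nat_lit 76) (nat_lit 22338004188) (nat_lit 74) (nat_lit 5) (nat_lit 79) (nat_lit 5) (nat_lit 75) (nat_lit 5) (nat_lit 416) (nat_lit 391) (nat_lit 213)) (XT.lf (nat_lit 0) (nat_lit 20202895438) (nat_lit 228) (nat_lit 38333185532) (nat_lit 304) (nat_lit 40918154446) (nat_lit 71) (nat_lit 5) (nat_lit 74) (nat_lit 5) (nat_lit 75) (nat_lit 5) (nat_lit 417) (nat_lit 391) (nat_lit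 212))))))))
noncomputable def xc208 : XT := (XT.nd (nat_lit 1950) (nat_lit 1520) (nat_lit 0) (XT.nd (nat_lit 936) (nat_lit 1216) (nat_lit 0) (XT.nd (nat_lit 468) (nat_lit 608) (nat_lit 0) (XT.nd (nat_lit 234) (nat_lit 456) (nat_lit 0) (XT.nd (nat_lit 78) (nat_lit 304) (nat_lit 0) (XT.lf (nat_lit 0) (nat_lit 77671758378) (nat_lit 228) (nat_lit 79719440) (nat_lit 304) (nat_lit 24737368588) (nat_lit 71) (nat_lit 5) (nat_lit 74) (nat_lit 5) (nat_lit 75) (nat_lit 5) (nat_lit 418) (nat_lit 391) (nat_lit 211)) (XT.nd (nat_lit 78) (nat_lit 76) (nat_lit 0) (XT.lf (nat_lit 0) (nat_lit 32760721162) (nat_lit 228) (nat_lit 66303664345) (nat_lit 304) (nat_lit 6553965692) (nat_lit 68) (nat_lit 5) (nat_lit 71) (nat_lit 5) (nat_lit 72) (nat_lit 5) (nat_lit 419) (nat_lit 391) (nat_lit 210)) (XT.lf (nat_lit 0) (nat_lit 12565178849) (nat_lit 304) (nat_lit 15009110604) (nat_lit 76) (nat_lit 81298859656) (nat_lit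 67) (nat_lit 5) (nat_lit 71) (nat_lit 5) (nat_lit 68) (nat_lit 5) (nat_lit 420) (nat_lit 391) (nat_lit 209)))) (XT.nd (nat_lit 78) (nat_lit 228) (nat_lit 0) (XT.lf (nat_lit 0) (nat_lit 33373533133) (nat_lit 304) (nat_lit 65334660703) (nat_lit 76) (nat_lit 13529445801) (nat_lit 64) (nat_lit 5) (nat_lit 68) (nat_lit 5) (nat_lit 65) (nat_lit 5) (nat_lit 421) (nat_lit 391) (nat_lit 208)) (XT.nd (nat_lit 78) (nat_lit 228) (nat_lit 0) (XT.lf (nat_lit 0) (nat_lit 55932134950) (nat_lit 304) (nat_lit 3782913758) (nat_lit 76) (nat_lit 56019814744) (nat_lit 64) (nat_lit 5) (nat_lit 68) (nat_lit 5) (nat_lit 65) (nat_lit 5) (nat_lit 422) (nat_lit 391) (nat_lit 207)) (XT.lf (nat_lit 0) (nat_lit 62857471953) (nat_lit 228) (nat_lit 17742041670) (nat_lit 304) (nat_lit 38758392738) (nat_lit 61) (nat_lit 5) (nat_lit 64) (nat_lit 5) (nat_lit 65) (nat_lit 5) (nat_lit 423) (nat_lit 391) (nat_lit 206))))) (XT.nd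 (nat_lit 234) (nat_lit 152) (nat_lit 0) (XT.nd (nat_lit 78) (nat_lit 304) (nat_lit 0) (XT.lf (nat_lit 0) (nat_lit 9699849363) (nat_lit 152) (nat_lit 97427523605) (nat_lit 228) (nat_lit 16003373086) (nat_lit 59) (nat_lit 5) (nat_lit 61) (nat_lit 5) (nat_lit 62) (nat_lit 5) (nat_lit 424) (nat_lit 391) (nat_lit 205)) (XT.nd (nat_lit 78) (nat_lit 228) (nat_lit 0) (XT.lf (nat_lit 0) (nat_lit 8899768503) (nat_lit 228) (nat_lit 46303179573) (nat_lit 76) (nat_lit 71819977037) (nat_lit 58) (nat_lit 5) (nat_lit 61) (nat_lit 5) (nat_lit 59) (nat_lit 5) (nat_lit 425) (nat_lit 391) (nat_lit 204)) (XT.lf (nat_lit 0) (nat_lit 24708647122) (nat_lit 228) (nat_lit 10186877137) (nat_lit 304) (nat_lit 96181807774) (nat_lit 55) (nat_lit 5) (nat_lit 58) (nat_lit 5) (nat_lit 59) (nat_lit 5) (nat_lit 426) (nat_lit 391) (nat_lit 203)))) (XT.nd (nat_lit 78) (nat_lit 152) (nat_lit 0) (XT.lf (nat_lit 0) (nat_lit 63566524473)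 (nat_lit 304) (nat_lit 35009186855) (nat_lit 76) (nat_lit 36689975327) (nat_lit 55) (nat_lit 5) (nat_lit 59) (nat_lit 5) (nat_lit 56) (nat_lit 5) (nat_lit 427) (nat_lit 391) (nat_lit 202)) (XT.nd (nat_lit 78) (nat_lit 0) (nat_lit 0) (XT.lf (nat_lit 0) (nat_lit 41064892548) (nat_lit 152) (nat_lit 53413853477) (nat_lit 228) (nat_lit 45144329595) (nat_lit 53) (nat_lit 5) (nat_lit 55) (nat_lit 5) (nat_lit 56) (nat_lit 5) (nat_lit 428) (nat_lit 391) (nat_lit 201)) (XT.lf (nat_lit 0) (nat_lit 122157399001) (nat_lit 152) (nat_lit 5371623397) (nat_lit 228) (nat_lit 16639689618) (nat_lit 53) (nat_lit 5) (nat_lit 55) (nat_lit 5) (nat_lit 56) (nat_lit 5) (nat_lit 429) (nat_lit 391) (nat_lit 200)))))) (XT.nd (nat_lit 468) (nat_lit 456) (nat_lit 0) (XT.nd (nat_lit 234) (nat_lit 380) (nat_lit 0) (XT.nd (nat_lit 78) (nat_lit 152) (nat_lit 0) (XT.lf (nat_lit 0) (nat_lit 14524838960) (nat_lit 228) (nat_lit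 89529300881) (nat_lit 76) (nat_lit 44794114424) (nat_lit 50) (nat_lit 5) (nat_lit 53) (nat_lit 5) (nat_lit 51) (nat_lit 5) (nat_lit 430) (nat_lit 391) (nat_lit 199)) (XT.nd (nat_lit 78) (nat_lit 152) (nat_lit 0) (XT.lf (nat_lit 0) (nat_lit 47154900730) (nat_lit 228) (nat_lit 8630874773) (nat_lit 76) (nat_lit 97939033708) (nat_lit 50) (nat_lit 5) (nat_lit 53) (nat_lit 5) (nat_lit 51) (nat_lit 5) (nat_lit 431) (nat_lit 391) (nat_lit 198)) (XT.lf (nat_lit 0) (nat_lit 78835015242) (nat_lit 152) (nat_lit 3811873289) (nat_lit 228) (nat_lit 76136782366) (nat_lit 48) (nat_lit 5) (nat_lit 50) (nat_lit 5) (nat_lit 51) (nat_lit 5) (nat_lit 432) (nat_lit 391) (nat_lit 197)))) (XT.nd (nat_lit 78) (nat_lit 228) (nat_lit 0) (XT.lf (nat_lit 0) (nat_lit 6291453722) (nat_lit 152) (nat_lit 114660923393) (nat_lit 228) (nat_lit 43091153617) (nat_lit 46) (nat_lit 5) (nat_lit 48) (nat_lit 5) (nat_lit 49) (nat_lit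 5) (nat_lit 433) (nat_lit 391) (nat_lit 196)) (XT.nd (nat_lit 78) (nat_lit 228) (nat_lit 0) (XT.lf (nat_lit 0) (nat_lit 99553984639) (nat_lit 152) (nat_lit 63034208267) (nat_lit 228) (nat_lit 6907438140) (nat_lit 46) (nat_lit 5) (nat_lit 48) (nat_lit 5) (nat_lit 49) (nat_lit 5) (nat_lit 434) (nat_lit 391) (nat_lit 195)) (XT.lf (nat_lit 0) (nat_lit 22493253087) (nat_lit 152) (nat_lit 7948078200) (nat_lit 228) (nat_lit 144737198788) (nat_lit 43) (nat_lit 5) (nat_lit 45) (nat_lit 5) (nat_lit 46) (nat_lit 5) (nat_lit 435) (nat_lit 391) (nat_lit 194))))) (XT.nd (nat_lit 234) (nat_lit 304) (nat_lit 0) (XT.nd (nat_lit 78) (nat_lit 152) (nat_lit 0) (XT.lf (nat_lit 0) (nat_lit 71407895909) (nat_lit 228) (nat_lit 60020500403) (nat_lit 76) (nat_lit 49612391422) (nat_lit 43) (nat_lit 5) (nat_lit 46) (nat_lit 5) (nat_lit 44) (nat_lit 5) (nat_lit 436) (nat_lit 391) (nat_lit 193)) (XT.nd (nat_lit 78) (nat_lit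 0) (nat_lit 0) (XT.lf (nat_lit 0) (nat_lit 38374833423) (nat_lit 152) (nat_lit 76777027363) (nat_lit 228) (nat_lit 72007843992) (nat_lit 41) (nat_lit 5) (nat_lit 43) (nat_lit 5) (nat_lit 44) (nat_lit 5) (nat_lit 437) (nat_lit 391) (nat_lit 192)) (XT.lf (nat_lit 0) (nat_lit 143773100629) (nat_lit 152) (nat_lit 18326044232) (nat_lit 228) (nat_lit 31434616866) (nat_lit 41) (nat_lit 5) (nat_lit 43) (nat_lit 5) (nat_lit 44) (nat_lit 5) (nat_lit 438) (nat_lit 391) (nat_lit 191)))) (XT.nd (nat_lit 156) (nat_lit 152) (nat_lit 0) (XT.nd (nat_lit 78) (nat_lit 0) (nat_lit 0) (XT.lf (nat_lit 0) (nat_lit 12370350101) (nat_lit 152) (nat_lit 145036860064) (nat_lit 76) (nat_lit 42732568782) (nat_lit 39) (nat_lit 5) (nat_lit 41) (nat_lit 5) (nat_lit 40) (nat_lit 5) (nat_lit 439) (nat_lit 391) (nat_lit 190)) (XT.lf (nat_lit 0) (nat_lit 58465778553) (nat_lit 152) (nat_lit 40926864496) (nat_lit 76) (nat_lit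 107599856867) (nat_lit 39) (nat_lit 5) (nat_lit 41) (nat_lit 5) (nat_lit 40) (nat_lit 5) (nat_lit 440) (nat_lit 391) (nat_lit 189))) (XT.nd (nat_lit 78) (nat_lit 0) (nat_lit 0) (XT.lf (nat_lit 0) (nat_lit 70649281912) (nat_lit 152) (nat_lit 37319405481) (nat_lit 228) (nat_lit 106164034174) (nat_lit 37) (nat_lit 5) (nat_lit 39) (nat_lit 5) (nat_lit 40) (nat_lit 5) (nat_lit 441) (nat_lit 391) (nat_lit 188)) (XT.lf (nat_lit 0) (nat_lit 161085832701) (nat_lit 228) (nat_lit 32817040865) (nat_lit 76) (nat_lit 27670126260) (nat_lit 37) (nat_lit 5) (nat_lit 40) (nat_lit 5) (nat_lit 38) (nat_lit 4) (nat_lit 442) (nat_lit 391) (nat_lit 187))))))) (XT.nd (nat_lit 1014) (nat_lit 608) (nat_lit 0) (XT.nd (nat_lit 468) (nat_lit 456) (nat_lit 0) (XT.nd (nat_lit 234) (nat_lit 152) (nat_lit 0) (XT.nd (nat_lit 78) (nat_lit 228) (nat_lit 0) (XT.lf (nat_lit 0) (nat_lit 85507102541) (nat_lit 76) (nat_lit 133298225730)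 (nat_lit 152) (nat_lit 10482639152) (nat_lit 36) (nat_lit 5) (nat_lit 37) (nat_lit 5) (nat_lit 38) (nat_lit 4) (nat_lit 443) (nat_lit 391) (nat_lit 186)) (XT.nd (nat_lit 78) (nat_lit 152) (nat_lit 0) (XT.lf (nat_lit 0) (nat_lit 41241723798) (nat_lit 152) (nat_lit 27139846572) (nat_lit 76) (nat_lit 168946080014) (nat_lit 35) (nat_lit 5) (nat_lit 37) (nat_lit 5) (nat_lit 36) (nat_lit 5) (nat_lit 444) (nat_lit 391) (nat_lit 185)) (XT.lf (nat_lit 0) (nat_lit 96759136368) (nat_lit 228) (nat_lit 147401246449) (nat_lit 76) (nat_lit 1522386567) (nat_lit 33) (nat_lit 5) (nat_lit 36) (nat_lit 5) (nat_lit 34) (nat_lit 4) (nat_lit 445) (nat_lit 391) (nat_lit 184)))) (XT.nd (nat_lit 78) (nat_lit 152) (nat_lit 0) (XT.lf (nat_lit 0) (nat_lit 156640302266) (nat_lit 228) (nat_lit 24645533041) (nat_lit 76) (nat_lit 73090414954) (nat_lit 33) (nat_lit 5) (nat_lit 36) (nat_lit 5) (nat_lit 34) (nat_lit 4) (nat_lit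 446) (nat_lit 391) (nat_lit 183)) (XT.nd (nat_lit 78) (nat_lit 76) (nat_lit 0) (XT.lf (nat_lit 0) (nat_lit 107694362066) (nat_lit 76) (nat_lit 113502300964) (nat_lit 152) (nat_lit 42223685381) (nat_lit 32) (nat_lit 5) (nat_lit 33) (nat_lit 5) (nat_lit 34) (nat_lit 4) (nat_lit 447) (nat_lit 391) (nat_lit 182)) (XT.lf (nat_lit 0) (nat_lit 15973989082) (nat_lit 152) (nat_lit 25647039681) (nat_lit 76) (nat_lit 231261884751) (nat_lit 31) (nat_lit 5) (nat_lit 33) (nat_lit 5) (nat_lit 32) (nat_lit 5) (nat_lit 448) (nat_lit 391) (nat_lit 181))))) (XT.nd (nat_lit 234) (nat_lit 228) (nat_lit 0) (XT.nd (nat_lit 78) (nat_lit 76) (nat_lit 0) (XT.lf (nat_lit 0) (nat_lit 78009464400) (nat_lit 228) (nat_lit 169375831752) (nat_lit 76) (nat_lit 35281355699) (nat_lit 29) (nat_lit 5) (nat_lit 32) (nat_lit 5) (nat_lit 30) (nat_lit 4) (nat_lit 449) (nat_lit 391) (nat_lit 180)) (XT.nd (nat_lit 78) (nat_lit 76)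 (nat_lit 0) (XT.lf (nat_lit 0) (nat_lit 144270232453) (nat_lit 228) (nat_lit 33541787442) (nat_lit 76) (nat_lit 115071381310) (nat_lit 29) (nat_lit 5) (nat_lit 32) (nat_lit 5) (nat_lit 30) (nat_lit 4) (nat_lit 450) (nat_lit 391) (nat_lit 179)) (XT.lf (nat_lit 0) (nat_lit 112690299669) (nat_lit 76) (nat_lit 102912904522) (nat_lit 152) (nat_lit 87919825618) (nat_lit 28) (nat_lit 5) (nat_lit 29) (nat_lit 5) (nat_lit 30) (nat_lit 4) (nat_lit 451) (nat_lit 391) (nat_lit 178)))) (XT.nd (nat_lit 156) (nat_lit 76) (nat_lit 0) (XT.nd (nat_lit 78) (nat_lit 152) (nat_lit 0) (XT.lf (nat_lit 0) (nat_lit 267398040793) (nat_lit 76) (nat_lit 23672588778) (nat_lit 152) (nat_lit 23595620062) (nat_lit 28) (nat_lit 5) (nat_lit 29) (nat_lit 5) (nat_lit 30) (nat_lit 4) (nat_lit 452) (nat_lit 391) (nat_lit 177)) (XT.lf (nat_lit 0) (nat_lit 45163774053) (nat_lit 152) (nat_lit 221030651605) (nat_lit 76) (nat_lit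 60006625450) (nat_lit 26) (nat_lit 5) (nat_lit 28) (nat_lit 5) (nat_lit 27) (nat_lit 4) (nat_lit 453) (nat_lit 391) (nat_lit 176))) (XT.nd (nat_lit 78) (nat_lit 76) (nat_lit 0) (XT.lf (nat_lit 0) (nat_lit 117769646415) (nat_lit 152) (nat_lit 72189028687) (nat_lit 76) (nat_lit 148274503114) (nat_lit 26) (nat_lit 5) (nat_lit 28) (nat_lit 5) (nat_lit 27) (nat_lit 4) (nat_lit 454) (nat_lit 391) (nat_lit 175)) (XT.lf (nat_lit 0) (nat_lit 86874798632) (nat_lit 76) (nat_lit 108487151667) (nat_lit 152) (nat_lit 155437154522) (nat_lit 25) (nat_lit 5) (nat_lit 26) (nat_lit 5) (nat_lit 27) (nat_lit 4) (nat_lit 455) (nat_lit 391) (nat_lit 174)))))) (XT.nd (nat_lit 468) (nat_lit 380) (nat_lit 0) (XT.nd (nat_lit 234) (nat_lit 76) (nat_lit 0) (XT.nd (nat_lit 78) (nat_lit 152) (nat_lit 0) (XT.lf (nat_lit 0) (nat_lit 256397651200) (nat_lit 76) (nat_lit 21658557328) (nat_lit 152) (nat_lit 85876002304) (nat_lit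 25) (nat_lit 5) (nat_lit 26) (nat_lit 5) (nat_lit 27) (nat_lit 4) (nat_lit 456) (nat_lit 391) (nat_lit 173)) (XT.nd (nat_lit 78) (nat_lit 76) (nat_lit 0) (XT.lf (nat_lit 0) (nat_lit 57427034807) (nat_lit 76) (nat_lit 309439801155) (nat_lit 76) (nat_lit 10756053399) (nat_lit 24) (nat_lit 4) (nat_lit 25) (nat_lit 5) (nat_lit 25) (nat_lit 4) (nat_lit 457) (nat_lit 391) (nat_lit 172)) (XT.lf (nat_lit 0) (nat_lit 68145485046) (nat_lit 152) (nat_lit 158985828906) (nat_lit 76) (nat_lit 164703318069) (nat_lit 23) (nat_lit 5) (nat_lit 25) (nat_lit 5) (nat_lit 24) (nat_lit 4) (nat_lit 458) (nat_lit 391) (nat_lit 171)))) (XT.nd (nat_lit 78) (nat_lit 0) (nat_lit 0) (XT.lf (nat_lit 0) (nat_lit 10442209018) (nat_lit 76) (nat_lit 140351250623) (nat_lit 152) (nat_lit 255946544105) (nat_lit 22) (nat_lit 5) (nat_lit 23) (nat_lit 5) (nat_lit 24) (nat_lit 4) (nat_lit 459) (nat_lit 391) (nat_lit 170)) (XT.nd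 (nat_lit 78) (nat_lit 0) (nat_lit 0) (XT.lf (nat_lit 0) (nat_lit 193860907722) (nat_lit 76) (nat_lit 46405231890) (nat_lit 152) (nat_lit 181989889141) (nat_lit 22) (nat_lit 5) (nat_lit 23) (nat_lit 5) (nat_lit 24) (nat_lit 4) (nat_lit 460) (nat_lit 391) (nat_lit 169)) (XT.lf (nat_lit 0) (nat_lit 335027847931) (nat_lit 152) (nat_lit 52913255795) (nat_lit 0) (nat_lit 50565981590) (nat_lit 22) (nat_lit 5) (nat_lit 24) (nat_lit 4) (nat_lit 22) (nat_lit 4) (nat_lit 461) (nat_lit 391) (nat_lit 168))))) (XT.nd (nat_lit 234) (nat_lit 152) (nat_lit 0) (XT.nd (nat_lit 78) (nat_lit 152) (nat_lit 0) (XT.lf (nat_lit 0) (nat_lit 134899237152) (nat_lit 76) (nat_lit 302495121553) (nat_lit 76) (nat_lit 18033000177) (nat_lit 21) (nat_lit 4) (nat_lit 22) (nat_lit 5) (nat_lit 22) (nat_lit 4) (nat_lit 462) (nat_lit 391) (nat_lit 167)) (XT.nd (nat_lit 78) (nat_lit 76) (nat_lit 0) (XT.lf (nat_lit 0) (nat_lit 70301786357)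 (nat_lit 152) (nat_lit 140343702234) (nat_lit 76) (nat_lit 262446665804) (nat_lit 20) (nat_lit 5) (nat_lit 22) (nat_lit 5) (nat_lit 21) (nat_lit 4) (nat_lit 463) (nat_lit 391) (nat_lit 166)) (XT.lf (nat_lit 0) (nat_lit 50159403223) (nat_lit 76) (nat_lit 113070840100) (nat_lit 152) (nat_lit 328356017326) (nat_lit 19) (nat_lit 5) (nat_lit 20) (nat_lit 5) (nat_lit 21) (nat_lit 4) (nat_lit 464) (nat_lit 391) (nat_lit 165)))) (XT.nd (nat_lit 156) (nat_lit 152) (nat_lit 0) (XT.nd (nat_lit 78) (nat_lit 0) (nat_lit 0) (XT.lf (nat_lit 0) (nat_lit 255059759438) (nat_lit 76) (nat_lit 8121984628) (nat_lit 152) (nat_lit 247704497123) (nat_lit 19) (nat_lit 5) (nat_lit 20) (nat_lit 5) (nat_lit 21) (nat_lit 4) (nat_lit 465) (nat_lit 391) (nat_lit 164)) (XT.lf (nat_lit 0) (nat_lit 369724324067) (nat_lit 152) (nat_lit 62540064779) (nat_lit 0) (nat_lit 98807156718) (nat_lit 19) (nat_lit 5) (nat_lit 21) (nat_lit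 4) (nat_lit 19) (nat_lit 4) (nat_lit 466) (nat_lit 391) (nat_lit 163))) (XT.nd (nat_lit 78) (nat_lit 76) (nat_lit 0) (XT.lf (nat_lit 0) (nat_lit 144915427900) (nat_lit 76) (nat_lit 339074134241) (nat_lit 76) (nat_lit 68156776582) (nat_lit 18) (nat_lit 4) (nat_lit 19) (nat_lit 5) (nat_lit 19) (nat_lit 4) (nat_lit 467) (nat_lit 391) (nat_lit 162)) (XT.lf (nat_lit 0) (nat_lit 29819178473) (nat_lit 152) (nat_lit 209788223038) (nat_lit 76) (nat_lit 334590472578) (nat_lit 17) (nat_lit 5) (nat_lit 19) (nat_lit 5) (nat_lit 18) (nat_lit 4) (nat_lit 468) (nat_lit 391) (nat_lit 161))))))))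
noncomputable def xc209 : XT := (XT.nd (nat_lit 48828) (nat_lit 0) (nat_lit 1900) (XT.nd (nat_lit 47814) (nat_lit 0) (nat_lit 5016) (XT.nd (nat_lit 47346) (nat_lit 0) (nat_lit 7220) (XT.nd (nat_lit 47112) (nat_lit 0) (nat_lit 7144) (XT.nd (nat_lit 78) (nat_lit 76) (nat_lit 0) (XT.lf (nat_lit 0) (nat_lit 130403270103) (nat_lit 152) (nat_lit 3591007812) (nat_lit 76) (nat_lit 463301849439) (nat_lit 17) (nat_lit 5) (nat_lit 19) (nat_lit 5) (nat_lit 18) (nat_lit 4) (nat_lit 469) (nat_lit 391) (nat_lit 160)) (XT.nd (nat_lit 78) (nat_lit 0) (nat_lit 0) (XT.lf (nat_lit 0) (nat_lit 219955756761) (nat_lit 76) (nat_lit 19494795767) (nat_lit 152) (nat_lit 381927041460) (nat_lit 16) (nat_lit 5) (nat_lit 17) (nat_lit 5) (nat_lit 18) (nat_lit 4) (nat_lit 470) (nat_lit 391) (nat_lit 159)) (XT.lf (nat_lit 0) (nat_lit 355584544737) (nat_lit 152) (nat_lit 193429501013) (nat_lit 0) (nat_lit 97567370935) (nat_lit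 16) (nat_lit 5) (nat_lit 18) (nat_lit 4) (nat_lit 16) (nat_lit 4) (nat_lit 471) (nat_lit 391) (nat_lit 158)))) (XT.nd (nat_lit 78) (nat_lit 0) (nat_lit 0) (XT.lf (nat_lit 0) (nat_lit 5652717942) (nat_lit 836) (nat_lit 10040205277) (nat_lit 836) (nat_lit 10040205277) (nat_lit 110) (nat_lit 3) (nat_lit 121) (nat_lit 3) (nat_lit 121) (nat_lit 5) (nat_lit 392) (nat_lit 392) (nat_lit 236)) (XT.nd (nat_lit 78) (nat_lit 0) (nat_lit 76) (XT.lf (nat_lit 76) (nat_lit 4872986682) (nat_lit 0) (nat_lit 6815213130) (nat_lit 836) (nat_lit 41059690227) (nat_lit 111) (nat_lit 5) (nat_lit 110) (nat_lit 3) (nat_lit 121) (nat_lit 5) (nat_lit 393) (nat_lit 392) (nat_lit 235)) (XT.lf (nat_lit 0) (nat_lit 12730599875) (nat_lit 760) (nat_lit 22608293819) (nat_lit 836) (nat_lit 18722687228) (nat_lit 111) (nat_lit 5) (nat_lit 121) (nat_lit 5) (nat_lit 122) (nat_lit 5) (nat_lit 394) (nat_lit 392) (nat_lit 234)))))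 (XT.nd (nat_lit 234) (nat_lit 0) (nat_lit 152) (XT.nd (nat_lit 78) (nat_lit 0) (nat_lit 76) (XT.lf (nat_lit 76) (nat_lit 3934984202) (nat_lit 0) (nat_lit 10061828903) (nat_lit 836) (nat_lit 41435559624) (nat_lit 112) (nat_lit 5) (nat_lit 111) (nat_lit 5) (nat_lit 122) (nat_lit 5) (nat_lit 395) (nat_lit 392) (nat_lit 233)) (XT.nd (nat_lit 78) (nat_lit 0) (nat_lit 0) (XT.lf (nat_lit 0) (nat_lit 15971378001) (nat_lit 760) (nat_lit 24526733593) (nat_lit 836) (nat_lit 16341341467) (nat_lit 112) (nat_lit 5) (nat_lit 122) (nat_lit 5) (nat_lit 123) (nat_lit 5) (nat_lit 396) (nat_lit 392) (nat_lit 232)) (XT.lf (nat_lit 76) (nat_lit 3746515983) (nat_lit 0) (nat_lit 14520260675) (nat_lit 836) (nat_lit 40039006415) (nat_lit 113) (nat_lit 5) (nat_lit 112) (nat_lit 5) (nat_lit 123) (nat_lit 5) (nat_lit 397) (nat_lit 392) (nat_lit 231)))) (XT.nd (nat_lit 78) (nat_lit 0) (nat_lit 0) (XT.lf (nat_lit 0) (nat_lit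 21297011061) (nat_lit 760) (nat_lit 25746652849) (nat_lit 836) (nat_lit 12770763279) (nat_lit 113) (nat_lit 5) (nat_lit 123) (nat_lit 5) (nat_lit 124) (nat_lit 5) (nat_lit 398) (nat_lit 392) (nat_lit 230)) (XT.nd (nat_lit 78) (nat_lit 0) (nat_lit 76) (XT.lf (nat_lit 76) (nat_lit 4408749327) (nat_lit 0) (nat_lit 20375658692) (nat_lit 836) (nat_lit 36598813803) (nat_lit 114) (nat_lit 5) (nat_lit 113) (nat_lit 5) (nat_lit 124) (nat_lit 5) (nat_lit 399) (nat_lit 392) (nat_lit 229)) (XT.lf (nat_lit 0) (nat_lit 29007243383) (nat_lit 760) (nat_lit 26170037051) (nat_lit 836) (nat_lit 7825123134) (nat_lit 114) (nat_lit 5) (nat_lit 124) (nat_lit 5) (nat_lit 125) (nat_lit 5) (nat_lit 400) (nat_lit 392) (nat_lit 228)))))) (XT.nd (nat_lit 468) (nat_lit 1368) (nat_lit 0) (XT.nd (nat_lit 234) (nat_lit 380) (nat_lit 0) (XT.nd (nat_lit 78) (nat_lit 684) (nat_lit 0) (XT.lf (nat_lit 76) (nat_lit 6032762491)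 (nat_lit 0) (nat_lit 27835558487) (nat_lit 836) (nat_lit 30812869173) (nat_lit 115) (nat_lit 5) (nat_lit 114) (nat_lit 5) (nat_lit 125) (nat_lit 5) (nat_lit 401) (nat_lit 392) (nat_lit 227)) (XT.nd (nat_lit 78) (nat_lit 760) (nat_lit 0) (XT.lf (nat_lit 0) (nat_lit 39435480859) (nat_lit 760) (nat_lit 25689347864) (nat_lit 76) (nat_lit 1295936656) (nat_lit 115) (nat_lit 5) (nat_lit 125) (nat_lit 5) (nat_lit 116) (nat_lit 5) (nat_lit 402) (nat_lit 392) (nat_lit 226)) (XT.lf (nat_lit 0) (nat_lit 8740192675) (nat_lit 760) (nat_lit 37132563383) (nat_lit 836) (nat_lit 22344976145) (nat_lit 105) (nat_lit 5) (nat_lit 115) (nat_lit 5) (nat_lit 116) (nat_lit 5) (nat_lit 403) (nat_lit 392) (nat_lit 225)))) (XT.nd (nat_lit 78) (nat_lit 380) (nat_lit 0) (XT.lf (nat_lit 0) (nat_lit 45782187760) (nat_lit 760) (nat_lit 7283781233) (nat_lit 836) (nat_lit 17016875343) (nat_lit 105) (nat_lit 5) (nat_lit 115)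 (nat_lit 5) (nat_lit 116) (nat_lit 5) (nat_lit 404) (nat_lit 392) (nat_lit 224)) (XT.nd (nat_lit 78) (nat_lit 0) (nat_lit 0) (XT.lf (nat_lit 0) (nat_lit 12663885046) (nat_lit 380) (nat_lit 48527341113) (nat_lit 456) (nat_lit 10821367375) (nat_lit 100) (nat_lit 5) (nat_lit 105) (nat_lit 5) (nat_lit 106) (nat_lit 5) (nat_lit 405) (nat_lit 392) (nat_lit 223)) (XT.lf (nat_lit 0) (nat_lit 52196073084) (nat_lit 380) (nat_lit 18054788431) (nat_lit 456) (nat_lit 3761563514) (nat_lit 100) (nat_lit 5) (nat_lit 105) (nat_lit 5) (nat_lit 106) (nat_lit 5) (nat_lit 406) (nat_lit 392) (nat_lit 222))))) (XT.nd (nat_lit 234) (nat_lit 608) (nat_lit 0) (XT.nd (nat_lit 78) (nat_lit 380) (nat_lit 0) (XT.lf (nat_lit 0) (nat_lit 4039541985) (nat_lit 380) (nat_lit 58204019889) (nat_lit 76) (nat_lit 13840577795) (nat_lit 95) (nat_lit 5) (nat_lit 100) (nat_lit 5) (nat_lit 96) (nat_lit 5) (nat_lit 407) (nat_lit 392)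 (nat_lit 221)) (XT.nd (nat_lit 78) (nat_lit 380) (nat_lit 0) (XT.lf (nat_lit 0) (nat_lit 12774945432) (nat_lit 380) (nat_lit 18286745192) (nat_lit 76) (nat_lit 47161133899) (nat_lit 95) (nat_lit 5) (nat_lit 100) (nat_lit 5) (nat_lit 96) (nat_lit 5) (nat_lit 408) (nat_lit 392) (nat_lit 220)) (XT.lf (nat_lit 0) (nat_lit 22359829105) (nat_lit 456) (nat_lit 56075199144) (nat_lit 76) (nat_lit 2012780364) (nat_lit 90) (nat_lit 5) (nat_lit 96) (nat_lit 5) (nat_lit 91) (nat_lit 5) (nat_lit 409) (nat_lit 392) (nat_lit 219)))) (XT.nd (nat_lit 156) (nat_lit 304) (nat_lit 0) (XT.nd (nat_lit 78) (nat_lit 304) (nat_lit 0) (XT.lf (nat_lit 0) (nat_lit 33247150141) (nat_lit 456) (nat_lit 13483923740) (nat_lit 76) (nat_lit 36011808843) (nat_lit 90) (nat_lit 5) (nat_lit 96) (nat_lit 5) (nat_lit 91) (nat_lit 5) (nat_lit 410) (nat_lit 392) (nat_lit 218)) (XT.lf (nat_lit 0) (nat_lit 32268875316) (nat_lit 304)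 (nat_lit 12913020243) (nat_lit 380) (nat_lit 39945662516) (nat_lit 86) (nat_lit 5) (nat_lit 90) (nat_lit 5) (nat_lit 91) (nat_lit 5) (nat_lit 411) (nat_lit 392) (nat_lit 217))) (XT.nd (nat_lit 78) (nat_lit 304) (nat_lit 0) (XT.lf (nat_lit 0) (nat_lit 58297536259) (nat_lit 380) (nat_lit 7200000207) (nat_lit 76) (nat_lit 22104723257) (nat_lit 86) (nat_lit 5) (nat_lit 91) (nat_lit 5) (nat_lit 87) (nat_lit 5) (nat_lit 412) (nat_lit 392) (nat_lit 216)) (XT.lf (nat_lit 0) (nat_lit 41869176924) (nat_lit 304) (nat_lit 31064472589) (nat_lit 380) (nat_lit 17223812825) (nat_lit 82) (nat_lit 5) (nat_lit 86) (nat_lit 5) (nat_lit 87) (nat_lit 5) (nat_lit 413) (nat_lit 392) (nat_lit 215))))))) (XT.nd (nat_lit 1014) (nat_lit 1292) (nat_lit 0) (XT.nd (nat_lit 468) (nat_lit 988) (nat_lit 0) (XT.nd (nat_lit 234) (nat_lit 228) (nat_lit 0) (XT.nd (nat_lit 78) (nat_lit 380) (nat_lit 0) (XT.lf (nat_lit 0) (nat_lit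 749112315) (nat_lit 228) (nat_lit 87766883906) (nat_lit 304) (nat_lit 4313707863) (nat_lit 79) (nat_lit 5) (nat_lit 82) (nat_lit 5) (nat_lit 83) (nat_lit 5) (nat_lit 414) (nat_lit 392) (nat_lit 214)) (XT.nd (nat_lit 78) (nat_lit 304) (nat_lit 0) (XT.lf (nat_lit 0) (nat_lit 10285881911) (nat_lit 304) (nat_lit 42347633627) (nat_lit 76) (nat_lit 42927839224) (nat_lit 78) (nat_lit 5) (nat_lit 82) (nat_lit 5) (nat_lit 79) (nat_lit 5) (nat_lit 415) (nat_lit 392) (nat_lit 213)) (XT.lf (nat_lit 0) (nat_lit 10124490259) (nat_lit 304) (nat_lit 15503428197) (nat_lit 380) (nat_lit 72790262224) (nat_lit 74) (nat_lit 5) (nat_lit 78) (nat_lit 5) (nat_lit 79) (nat_lit 5) (nat_lit 416) (nat_lit 392) (nat_lit 212)))) (XT.nd (nat_lit 78) (nat_lit 228) (nat_lit 0) (XT.lf (nat_lit 0) (nat_lit 42832008930) (nat_lit 380) (nat_lit 35070777278) (nat_lit 76) (nat_lit 23460314401) (nat_lit 74) (nat_lit 5) (nat_lit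 79) (nat_lit 5) (nat_lit 75) (nat_lit 5) (nat_lit 417) (nat_lit 392) (nat_lit 211)) (XT.nd (nat_lit 78) (nat_lit 0) (nat_lit 0) (XT.lf (nat_lit 0) (nat_lit 21238090078) (nat_lit 228) (nat_lit 40243363495) (nat_lit 304) (nat_lit 42944555784) (nat_lit 71) (nat_lit 5) (nat_lit 74) (nat_lit 5) (nat_lit 75) (nat_lit 5) (nat_lit 418) (nat_lit 392) (nat_lit 210)) (XT.lf (nat_lit 0) (nat_lit 81579203314) (nat_lit 228) (nat_lit 77532732) (nat_lit 304) (nat_lit 25955659508) (nat_lit 71) (nat_lit 5) (nat_lit 74) (nat_lit 5) (nat_lit 75) (nat_lit 5) (nat_lit 419) (nat_lit 392) (nat_lit 209))))) (XT.nd (nat_lit 234) (nat_lit 456) (nat_lit 0) (XT.nd (nat_lit 78) (nat_lit 304) (nat_lit 0) (XT.lf (nat_lit 0) (nat_lit 34423013394) (nat_lit 228) (nat_lit 69611904106) (nat_lit 304) (nat_lit 6863477095) (nat_lit 68) (nat_lit 5) (nat_lit 71) (nat_lit 5) (nat_lit 72) (nat_lit 5) (nat_lit 420) (nat_lit 392) (nat_lit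 208)) (XT.nd (nat_lit 78) (nat_lit 228) (nat_lit 0) (XT.lf (nat_lit 0) (nat_lit 13210204255) (nat_lit 304) (nat_lit 15735902906) (nat_lit 76) (nat_lit 85369853344) (nat_lit 67) (nat_lit 5) (nat_lit 71) (nat_lit 5) (nat_lit 68) (nat_lit 5) (nat_lit 421) (nat_lit 392) (nat_lit 207)) (XT.lf (nat_lit 0) (nat_lit 35058649850) (nat_lit 304) (nat_lit 68577396740) (nat_lit 76) (nat_lit 14212645658) (nat_lit 64) (nat_lit 5) (nat_lit 68) (nat_lit 5) (nat_lit 65) (nat_lit 5) (nat_lit 422) (nat_lit 392) (nat_lit 206)))) (XT.nd (nat_lit 156) (nat_lit 228) (nat_lit 0) (XT.nd (nat_lit 78) (nat_lit 228) (nat_lit 0) (XT.lf (nat_lit 0) (nat_lit 58744398898) (nat_lit 304) (nat_lit 3949205162) (nat_lit 76) (nat_lit 58827212689) (nat_lit 64) (nat_lit 5) (nat_lit 68) (nat_lit 5) (nat_lit 65) (nat_lit 5) (nat_lit 423) (nat_lit 392) (nat_lit 205)) (XT.lf (nat_lit 0) (nat_lit 66022831217) (nat_lit 228) (nat_lit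 18621920770) (nat_lit 304) (nat_lit 40680279875) (nat_lit 61) (nat_lit 5) (nat_lit 64) (nat_lit 5) (nat_lit 65) (nat_lit 5) (nat_lit 424) (nat_lit 392) (nat_lit 204))) (XT.nd (nat_lit 78) (nat_lit 76) (nat_lit 0) (XT.lf (nat_lit 0) (nat_lit 10207611274) (nat_lit 152) (nat_lit 102291129129) (nat_lit 228) (nat_lit 16787786652) (nat_lit 59) (nat_lit 5) (nat_lit 61) (nat_lit 5) (nat_lit 62) (nat_lit 5) (nat_lit 425) (nat_lit 392) (nat_lit 203)) (XT.lf (nat_lit 0) (nat_lit 9359281525) (nat_lit 228) (nat_lit 48596167348) (nat_lit 76) (nat_lit 75417890493) (nat_lit 58) (nat_lit 5) (nat_lit 61) (nat_lit 5) (nat_lit 59) (nat_lit 5) (nat_lit 426) (nat_lit 392) (nat_lit 202)))))) (XT.nd (nat_lit 468) (nat_lit 684) (nat_lit 0) (XT.nd (nat_lit 234) (nat_lit 228) (nat_lit 0) (XT.nd (nat_lit 78) (nat_lit 152) (nat_lit 0) (XT.lf (nat_lit 0) (nat_lit 25965893082) (nat_lit 228) (nat_lit 10688580911) (nat_lit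 304) (nat_lit 100976010469) (nat_lit 55) (nat_lit 5) (nat_lit 58) (nat_lit 5) (nat_lit 59) (nat_lit 5) (nat_lit 427) (nat_lit 392) (nat_lit 201)) (XT.nd (nat_lit 78) (nat_lit 152) (nat_lit 0) (XT.lf (nat_lit 0) (nat_lit 66758462891) (nat_lit 304) (nat_lit 36738304775) (nat_lit 76) (nat_lit 38531517476) (nat_lit 55) (nat_lit 5) (nat_lit 59) (nat_lit 5) (nat_lit 56) (nat_lit 5) (nat_lit 428) (nat_lit 392) (nat_lit 200)) (XT.lf (nat_lit 0) (nat_lit 43139134381) (nat_lit 152) (nat_lit 56076840765) (nat_lit 228) (nat_lit 47387584677) (nat_lit 53) (nat_lit 5) (nat_lit 55) (nat_lit 5) (nat_lit 56) (nat_lit 5) (nat_lit 429) (nat_lit 392) (nat_lit 199)))) (XT.nd (nat_lit 78) (nat_lit 228) (nat_lit 0) (XT.lf (nat_lit 0) (nat_lit 128285266290) (nat_lit 152) (nat_lit 5632866104) (nat_lit 228) (nat_lit 17458377531) (nat_lit 53) (nat_lit 5) (nat_lit 55) (nat_lit 5) (nat_lit 56) (nat_lit 5) (nat_lit 430)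 (nat_lit 392) (nat_lit 198)) (XT.nd (nat_lit 78) (nat_lit 0) (nat_lit 0) (XT.lf (nat_lit 0) (nat_lit 15263770287) (nat_lit 228) (nat_lit 93985152567) (nat_lit 76) (nat_lit 47041105348) (nat_lit 50) (nat_lit 5) (nat_lit 53) (nat_lit 5) (nat_lit 51) (nat_lit 5) (nat_lit 431) (nat_lit 392) (nat_lit 197)) (XT.lf (nat_lit 0) (nat_lit 49524730890) (nat_lit 228) (nat_lit 9042786742) (nat_lit 76) (nat_lit 102842923681) (nat_lit 50) (nat_lit 5) (nat_lit 53) (nat_lit 5) (nat_lit 51) (nat_lit 5) (nat_lit 432) (nat_lit 392) (nat_lit 196))))) (XT.nd (nat_lit 234) (nat_lit 380) (nat_lit 0) (XT.nd (nat_lit 78) (nat_lit 152) (nat_lit 0) (XT.lf (nat_lit 0) (nat_lit 82796081132) (nat_lit 152) (nat_lit 3994963030) (nat_lit 228) (nat_lit 79931215813) (nat_lit 48) (nat_lit 5) (nat_lit 50) (nat_lit 5) (nat_lit 51) (nat_lit 5) (nat_lit 433) (nat_lit 392) (nat_lit 195)) (XT.nd (nat_lit 78) (nat_lit 0) (nat_lit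 0) (XT.lf (nat_lit 0) (nat_lit 6625499613) (nat_lit 152) (nat_lit 120386160733) (nat_lit 228) (nat_lit 45233459982) (nat_lit 46) (nat_lit 5) (nat_lit 48) (nat_lit 5) (nat_lit 49) (nat_lit 5) (nat_lit 434) (nat_lit 392) (nat_lit 194)) (XT.lf (nat_lit 0) (nat_lit 104550229781) (nat_lit 152) (nat_lit 66178481700) (nat_lit 228) (nat_lit 7241142127) (nat_lit 46) (nat_lit 5) (nat_lit 48) (nat_lit 5) (nat_lit 49) (nat_lit 5) (nat_lit 435) (nat_lit 392) (nat_lit 193)))) (XT.nd (nat_lit 156) (nat_lit 152) (nat_lit 0) (XT.nd (nat_lit 78) (nat_lit 0) (nat_lit 0) (XT.lf (nat_lit 0) (nat_lit 23636533267) (nat_lit 152) (nat_lit 8337911898) (nat_lit 228) (nat_lit 151962455834) (nat_lit 43) (nat_lit 5) (nat_lit 45) (nat_lit 5) (nat_lit 46) (nat_lit 5) (nat_lit 436) (nat_lit 392) (nat_lit 192)) (XT.lf (nat_lit 0) (nat_lit 74988924519) (nat_lit 228) (nat_lit 63003377887) (nat_lit 76) (nat_lit 52099989963)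 (nat_lit 43) (nat_lit 5) (nat_lit 46) (nat_lit 5) (nat_lit 44) (nat_lit 5) (nat_lit 437) (nat_lit 392) (nat_lit 191))) (XT.nd (nat_lit 78) (nat_lit 0) (nat_lit 0) (XT.lf (nat_lit 0) (nat_lit 40311429928) (nat_lit 152) (nat_lit 80608430103) (nat_lit 228) (nat_lit 75597306760) (nat_lit 41) (nat_lit 5) (nat_lit 43) (nat_lit 5) (nat_lit 44) (nat_lit 5) (nat_lit 438) (nat_lit 392) (nat_lit 190)) (XT.lf (nat_lit 0) (nat_lit 150978760264) (nat_lit 152) (nat_lit 19235252512) (nat_lit 228) (nat_lit 32995938727) (nat_lit 41) (nat_lit 5) (nat_lit 43) (nat_lit 5) (nat_lit 44) (nat_lit 5) (nat_lit 439) (nat_lit 392) (nat_lit 189))))))))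
noncomputable def xc210 : XT := (XT.nd (nat_lit 1950) (nat_lit 304) (nat_lit 0) (XT.nd (nat_lit 936) (nat_lit 684) (nat_lit 0) (XT.nd (nat_lit 468) (nat_lit 456) (nat_lit 0) (XT.nd (nat_lit 234) (nat_lit 152) (nat_lit 0) (XT.nd (nat_lit 78) (nat_lit 152) (nat_lit 0) (XT.lf (nat_lit 0) (nat_lit 12998842387) (nat_lit 152) (nat_lit 152271259098) (nat_lit 76) (nat_lit 44876165152) (nat_lit 39) (nat_lit 5) (nat_lit 41) (nat_lit 5) (nat_lit 40) (nat_lit 5) (nat_lit 440) (nat_lit 392) (nat_lit 188)) (XT.nd (nat_lit 78) (nat_lit 152) (nat_lit 0) (XT.lf (nat_lit 0) (nat_lit 61398567271) (nat_lit 152) (nat_lit 42956594418) (nat_lit 76) (nat_lit 112986485835) (nat_lit 39) (nat_lit 5) (nat_lit 41) (nat_lit 5) (nat_lit 40) (nat_lit 5) (nat_lit 441) (nat_lit 392) (nat_lit 187)) (XT.lf (nat_lit 0) (nat_lit 74198091354) (nat_lit 152) (nat_lit 39178333025) (nat_lit 228) (nat_lit 111462465851) (nat_lit 37)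 (nat_lit 5) (nat_lit 39) (nat_lit 5) (nat_lit 40) (nat_lit 5) (nat_lit 442) (nat_lit 392) (nat_lit 186)))) (XT.nd (nat_lit 78) (nat_lit 152) (nat_lit 0) (XT.lf (nat_lit 0) (nat_lit 169149088692) (nat_lit 228) (nat_lit 34441985475) (nat_lit 76) (nat_lit 29060125257) (nat_lit 37) (nat_lit 5) (nat_lit 40) (nat_lit 5) (nat_lit 38) (nat_lit 4) (nat_lit 443) (nat_lit 392) (nat_lit 185)) (XT.nd (nat_lit 78) (nat_lit 76) (nat_lit 0) (XT.lf (nat_lit 0) (nat_lit 89798108530) (nat_lit 76) (nat_lit 139956267990) (nat_lit 152) (nat_lit 10997548111) (nat_lit 36) (nat_lit 5) (nat_lit 37) (nat_lit 5) (nat_lit 38) (nat_lit 4) (nat_lit 444) (nat_lit 392) (nat_lit 184)) (XT.lf (nat_lit 0) (nat_lit 43312312659) (nat_lit 152) (nat_lit 28481650301) (nat_lit 76) (nat_lit 177399642929) (nat_lit 35) (nat_lit 5) (nat_lit 37) (nat_lit 5) (nat_lit 36) (nat_lit 5) (nat_lit 445) (nat_lit 392) (nat_lit 183))))) (XT.nd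 (nat_lit 234) (nat_lit 228) (nat_lit 0) (XT.nd (nat_lit 78) (nat_lit 76) (nat_lit 0) (XT.lf (nat_lit 0) (nat_lit 101605527521) (nat_lit 228) (nat_lit 154756050045) (nat_lit 76) (nat_lit 1604906781) (nat_lit 33) (nat_lit 5) (nat_lit 36) (nat_lit 5) (nat_lit 34) (nat_lit 4) (nat_lit 446) (nat_lit 392) (nat_lit 182)) (XT.nd (nat_lit 78) (nat_lit 76) (nat_lit 0) (XT.lf (nat_lit 0) (nat_lit 164480350079) (nat_lit 228) (nat_lit 25863277573) (nat_lit 76) (nat_lit 76751031783) (nat_lit 33) (nat_lit 5) (nat_lit 36) (nat_lit 5) (nat_lit 34) (nat_lit 4) (nat_lit 447) (nat_lit 392) (nat_lit 181)) (XT.lf (nat_lit 0) (nat_lit 113093377901) (nat_lit 76) (nat_lit 119170991699) (nat_lit 152) (nat_lit 44326600938) (nat_lit 32) (nat_lit 5) (nat_lit 33) (nat_lit 5) (nat_lit 34) (nat_lit 4) (nat_lit 448) (nat_lit 392) (nat_lit 180)))) (XT.nd (nat_lit 78) (nat_lit 152) (nat_lit 0) (XT.lf (nat_lit 0) (nat_lit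 16780311452) (nat_lit 152) (nat_lit 26915521258) (nat_lit 76) (nat_lit 242830843861) (nat_lit 31) (nat_lit 5) (nat_lit 33) (nat_lit 5) (nat_lit 32) (nat_lit 5) (nat_lit 449) (nat_lit 392) (nat_lit 179)) (XT.nd (nat_lit 78) (nat_lit 0) (nat_lit 0) (XT.lf (nat_lit 0) (nat_lit 81917506992) (nat_lit 228) (nat_lit 177830697986) (nat_lit 76) (nat_lit 37051399595) (nat_lit 29) (nat_lit 5) (nat_lit 32) (nat_lit 5) (nat_lit 30) (nat_lit 4) (nat_lit 450) (nat_lit 392) (nat_lit 178)) (XT.lf (nat_lit 0) (nat_lit 151490953001) (nat_lit 228) (nat_lit 35205614573) (nat_lit 76) (nat_lit 120830641910) (nat_lit 29) (nat_lit 5) (nat_lit 32) (nat_lit 5) (nat_lit 30) (nat_lit 4) (nat_lit 451) (nat_lit 392) (nat_lit 177)))))) (XT.nd (nat_lit 468) (nat_lit 380) (nat_lit 0) (XT.nd (nat_lit 234) (nat_lit 76) (nat_lit 0) (XT.nd (nat_lit 78) (nat_lit 152) (nat_lit 0) (XT.lf (nat_lit 0) (nat_lit 118337862987) (nat_lit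 76) (nat_lit 108052570778) (nat_lit 152) (nat_lit 92308392794) (nat_lit 28) (nat_lit 5) (nat_lit 29) (nat_lit 5) (nat_lit 30) (nat_lit 4) (nat_lit 452) (nat_lit 392) (nat_lit 176)) (XT.nd (nat_lit 78) (nat_lit 152) (nat_lit 0) (XT.lf (nat_lit 0) (nat_lit 280780369817) (nat_lit 76) (nat_lit 24850523960) (nat_lit 152) (nat_lit 24768330489) (nat_lit 28) (nat_lit 5) (nat_lit 29) (nat_lit 5) (nat_lit 30) (nat_lit 4) (nat_lit 453) (nat_lit 392) (nat_lit 175)) (XT.lf (nat_lit 0) (nat_lit 47428765075) (nat_lit 152) (nat_lit 232069486692) (nat_lit 76) (nat_lit 63012510681) (nat_lit 26) (nat_lit 5) (nat_lit 28) (nat_lit 5) (nat_lit 27) (nat_lit 4) (nat_lit 454) (nat_lit 392) (nat_lit 174)))) (XT.nd (nat_lit 78) (nat_lit 76) (nat_lit 0) (XT.lf (nat_lit 0) (nat_lit 123664607136) (nat_lit 152) (nat_lit 75786387270) (nat_lit 76) (nat_lit 155693517754) (nat_lit 26) (nat_lit 5) (nat_lit 28) (nat_lit 5)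 (nat_lit 27) (nat_lit 4) (nat_lit 455) (nat_lit 392) (nat_lit 173)) (XT.nd (nat_lit 78) (nat_lit 0) (nat_lit 0) (XT.lf (nat_lit 0) (nat_lit 91230436368) (nat_lit 76) (nat_lit 113905967108) (nat_lit 152) (nat_lit 163202337806) (nat_lit 25) (nat_lit 5) (nat_lit 26) (nat_lit 5) (nat_lit 27) (nat_lit 4) (nat_lit 456) (nat_lit 392) (nat_lit 172)) (XT.lf (nat_lit 0) (nat_lit 269228865002) (nat_lit 76) (nat_lit 22736206964) (nat_lit 152) (nat_lit 90163445807) (nat_lit 25) (nat_lit 5) (nat_lit 26) (nat_lit 5) (nat_lit 27) (nat_lit 4) (nat_lit 457) (nat_lit 392) (nat_lit 171))))) (XT.nd (nat_lit 234) (nat_lit 152) (nat_lit 0) (XT.nd (nat_lit 78) (nat_lit 152) (nat_lit 0) (XT.lf (nat_lit 0) (nat_lit 60309752652) (nat_lit 76) (nat_lit 324906445822) (nat_lit 76) (nat_lit 11287533415) (nat_lit 24) (nat_lit 4) (nat_lit 25) (nat_lit 5) (nat_lit 25) (nat_lit 4) (nat_lit 458) (nat_lit 392) (nat_lit 170))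 (XT.nd (nat_lit 78) (nat_lit 76) (nat_lit 0) (XT.lf (nat_lit 0) (nat_lit 71558588145) (nat_lit 152) (nat_lit 166924101942) (nat_lit 76) (nat_lit 172943381273) (nat_lit 23) (nat_lit 5) (nat_lit 25) (nat_lit 5) (nat_lit 24) (nat_lit 4) (nat_lit 459) (nat_lit 392) (nat_lit 169)) (XT.lf (nat_lit 0) (nat_lit 10975160162) (nat_lit 76) (nat_lit 147363692998) (nat_lit 152) (nat_lit 268737863966) (nat_lit 22) (nat_lit 5) (nat_lit 23) (nat_lit 5) (nat_lit 24) (nat_lit 4) (nat_lit 460) (nat_lit 392) (nat_lit 168)))) (XT.nd (nat_lit 156) (nat_lit 152) (nat_lit 0) (XT.nd (nat_lit 78) (nat_lit 0) (nat_lit 0) (XT.lf (nat_lit 0) (nat_lit 203564277577) (nat_lit 76) (nat_lit 48720617144) (nat_lit 152) (nat_lit 191083662318) (nat_lit 22) (nat_lit 5) (nat_lit 23) (nat_lit 5) (nat_lit 24) (nat_lit 4) (nat_lit 461) (nat_lit 392) (nat_lit 167)) (XT.lf (nat_lit 0) (nat_lit 351784501531) (nat_lit 152) (nat_lit 55548898122)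 (nat_lit 0) (nat_lit 53098776161) (nat_lit 22) (nat_lit 5) (nat_lit 24) (nat_lit 4) (nat_lit 22) (nat_lit 4) (nat_lit 462) (nat_lit 392) (nat_lit 166))) (XT.nd (nat_lit 78) (nat_lit 76) (nat_lit 0) (XT.lf (nat_lit 0) (nat_lit 141654057853) (nat_lit 76) (nat_lit 317615183381) (nat_lit 76) (nat_lit 18929226687) (nat_lit 21) (nat_lit 4) (nat_lit 22) (nat_lit 5) (nat_lit 22) (nat_lit 4) (nat_lit 463) (nat_lit 392) (nat_lit 165)) (XT.lf (nat_lit 0) (nat_lit 73821875591) (nat_lit 152) (nat_lit 147351332039) (nat_lit 76) (nat_lit 275573303876) (nat_lit 20) (nat_lit 5) (nat_lit 22) (nat_lit 5) (nat_lit 21) (nat_lit 4) (nat_lit 464) (nat_lit 392) (nat_lit 164))))))) (XT.nd (nat_lit 47970) (nat_lit 0) (nat_lit 5624) (XT.nd (nat_lit 468) (nat_lit 76) (nat_lit 0) (XT.nd (nat_lit 234) (nat_lit 152) (nat_lit 0) (XT.nd (nat_lit 78) (nat_lit 0) (nat_lit 0) (XT.lf (nat_lit 0) (nat_lit 52676774573) (nat_lit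 76) (nat_lit 118719889520) (nat_lit 152) (nat_lit 344768663575) (nat_lit 19) (nat_lit 5) (nat_lit 20) (nat_lit 5) (nat_lit 21) (nat_lit 4) (nat_lit 465) (nat_lit 392) (nat_lit 163)) (XT.nd (nat_lit 78) (nat_lit 0) (nat_lit 0) (XT.lf (nat_lit 0) (nat_lit 267821700923) (nat_lit 76) (nat_lit 8523805208) (nat_lit 152) (nat_lit 260084812820) (nat_lit 19) (nat_lit 5) (nat_lit 20) (nat_lit 5) (nat_lit 21) (nat_lit 4) (nat_lit 466) (nat_lit 392) (nat_lit 162)) (XT.lf (nat_lit 0) (nat_lit 388215056140) (nat_lit 152) (nat_lit 65658381343) (nat_lit 0) (nat_lit 103751459038) (nat_lit 19) (nat_lit 5) (nat_lit 21) (nat_lit 4) (nat_lit 19) (nat_lit 4) (nat_lit 467) (nat_lit 392) (nat_lit 161)))) (XT.nd (nat_lit 78) (nat_lit 76) (nat_lit 0) (XT.lf (nat_lit 0) (nat_lit 152169745862) (nat_lit 76) (nat_lit 356023728650) (nat_lit 76) (nat_lit 71559958931) (nat_lit 18) (nat_lit 4) (nat_lit 19) (nat_lit 5) (nat_lit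 19) (nat_lit 4) (nat_lit 468) (nat_lit 392) (nat_lit 160)) (XT.nd (nat_lit 78) (nat_lit 0) (nat_lit 0) (XT.lf (nat_lit 0) (nat_lit 31314430200) (nat_lit 152) (nat_lit 220269352206) (nat_lit 76) (nat_lit 351323770290) (nat_lit 17) (nat_lit 5) (nat_lit 19) (nat_lit 5) (nat_lit 18) (nat_lit 4) (nat_lit 469) (nat_lit 392) (nat_lit 159)) (XT.lf (nat_lit 0) (nat_lit 136927521993) (nat_lit 152) (nat_lit 3762670599) (nat_lit 76) (nat_lit 486470536276) (nat_lit 17) (nat_lit 5) (nat_lit 19) (nat_lit 5) (nat_lit 18) (nat_lit 4) (nat_lit 470) (nat_lit 392) (nat_lit 158))))) (XT.nd (nat_lit 47190) (nat_lit 0) (nat_lit 7220) (XT.nd (nat_lit 47034) (nat_lit 0) (nat_lit 7144) (XT.lf (nat_lit 0) (nat_lit 230961304983) (nat_lit 76) (nat_lit 20465790032) (nat_lit 152) (nat_lit 401019177515) (nat_lit 16) (nat_lit 5) (nat_lit 17) (nat_lit 5) (nat_lit 18) (nat_lit 4) (nat_lit 471) (nat_lit 392) (nat_lit 157))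 (XT.nd (nat_lit 78) (nat_lit 0) (nat_lit 0) (XT.lf (nat_lit 0) (nat_lit 5959025449) (nat_lit 836) (nat_lit 10529779589) (nat_lit 836) (nat_lit 10529779589) (nat_lit 110) (nat_lit 3) (nat_lit 121) (nat_lit 3) (nat_lit 121) (nat_lit 5) (nat_lit 393) (nat_lit 393) (nat_lit 234)) (XT.lf (nat_lit 76) (nat_lit 5141106761) (nat_lit 0) (nat_lit 7176973877) (nat_lit 836) (nat_lit 43064898521) (nat_lit 111) (nat_lit 5) (nat_lit 110) (nat_lit 3) (nat_lit 121) (nat_lit 5) (nat_lit 394) (nat_lit 393) (nat_lit 233)))) (XT.nd (nat_lit 156) (nat_lit 0) (nat_lit 76) (XT.nd (nat_lit 78) (nat_lit 0) (nat_lit 0) (XT.lf (nat_lit 0) (nat_lit 13410123170) (nat_lit 760) (nat_lit 23712895180) (nat_lit 836) (nat_lit 19639461631) (nat_lit 111) (nat_lit 5) (nat_lit 121) (nat_lit 5) (nat_lit 122) (nat_lit 5) (nat_lit 395) (nat_lit 393) (nat_lit 232)) (XT.lf (nat_lit 76) (nat_lit 4157130398) (nat_lit 0) (nat_lit 10580865882)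 (nat_lit 836) (nat_lit 43463899081) (nat_lit 112) (nat_lit 5) (nat_lit 111) (nat_lit 5) (nat_lit 122) (nat_lit 5) (nat_lit 396) (nat_lit 393) (nat_lit 231))) (XT.nd (nat_lit 78) (nat_lit 0) (nat_lit 0) (XT.lf (nat_lit 0) (nat_lit 16809083629) (nat_lit 760) (nat_lit 25726649373) (nat_lit 836) (nat_lit 17143708373) (nat_lit 112) (nat_lit 5) (nat_lit 122) (nat_lit 5) (nat_lit 123) (nat_lit 5) (nat_lit 397) (nat_lit 393) (nat_lit 230)) (XT.lf (nat_lit 76) (nat_lit 3959836539) (nat_lit 0) (nat_lit 15257957878) (nat_lit 836) (nat_lit 42001367671) (nat_lit 113) (nat_lit 5) (nat_lit 112) (nat_lit 5) (nat_lit 123) (nat_lit 5) (nat_lit 398) (nat_lit 393) (nat_lit 229)))))) (XT.nd (nat_lit 468) (nat_lit 1140) (nat_lit 0) (XT.nd (nat_lit 234) (nat_lit 608) (nat_lit 0) (XT.nd (nat_lit 78) (nat_lit 0) (nat_lit 0) (XT.lf (nat_lit 0) (nat_lit 22397572569) (nat_lit 760) (nat_lit 27007235664) (nat_lit 836)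 (nat_lit 13398529822) (nat_lit 113) (nat_lit 5) (nat_lit 123) (nat_lit 5) (nat_lit 124) (nat_lit 5) (nat_lit 399) (nat_lit 393) (nat_lit 228)) (XT.nd (nat_lit 78) (nat_lit 0) (nat_lit 76) (XT.lf (nat_lit 76) (nat_lit 4655505173) (nat_lit 0) (nat_lit 21402544584) (nat_lit 836) (nat_lit 38392588331) (nat_lit 114) (nat_lit 5) (nat_lit 113) (nat_lit 5) (nat_lit 124) (nat_lit 5) (nat_lit 400) (nat_lit 393) (nat_lit 227)) (XT.lf (nat_lit 0) (nat_lit 30490267292) (nat_lit 760) (nat_lit 27451691556) (nat_lit 836) (nat_lit 8208909184) (nat_lit 114) (nat_lit 5) (nat_lit 124) (nat_lit 5) (nat_lit 125) (nat_lit 5) (nat_lit 401) (nat_lit 393) (nat_lit 226)))) (XT.nd (nat_lit 78) (nat_lit 684) (nat_lit 0) (XT.lf (nat_lit 76) (nat_lit 6360814941) (nat_lit 0) (nat_lit 29232440906) (nat_lit 836) (nat_lit 32320396320) (nat_lit 115) (nat_lit 5) (nat_lit 114) (nat_lit 5) (nat_lit 125) (nat_lit 5) (nat_lit 402)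 (nat_lit 393) (nat_lit 225)) (XT.nd (nat_lit 78) (nat_lit 760) (nat_lit 0) (XT.lf (nat_lit 0) (nat_lit 41437196926) (nat_lit 760) (nat_lit 26947061437) (nat_lit 76) (nat_lit 1356027661) (nat_lit 115) (nat_lit 5) (nat_lit 125) (nat_lit 5) (nat_lit 116) (nat_lit 5) (nat_lit 403) (nat_lit 393) (nat_lit 224)) (XT.lf (nat_lit 0) (nat_lit 9203524617) (nat_lit 760) (nat_lit 38991796423) (nat_lit 836) (nat_lit 23431831868) (nat_lit 105) (nat_lit 5) (nat_lit 115) (nat_lit 5) (nat_lit 116) (nat_lit 5) (nat_lit 404) (nat_lit 393) (nat_lit 223))))) (XT.nd (nat_lit 234) (nat_lit 760) (nat_lit 0) (XT.nd (nat_lit 78) (nat_lit 380) (nat_lit 0) (XT.lf (nat_lit 0) (nat_lit 48096366013) (nat_lit 760) (nat_lit 7650451124) (nat_lit 836) (nat_lit 17838773317) (nat_lit 105) (nat_lit 5) (nat_lit 115) (nat_lit 5) (nat_lit 116) (nat_lit 5) (nat_lit 405) (nat_lit 393) (nat_lit 222)) (XT.nd (nat_lit 78) (nat_lit 0)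 (nat_lit 0) (XT.lf (nat_lit 0) (nat_lit 13323155517) (nat_lit 380) (nat_lit 50954239988) (nat_lit 456) (nat_lit 11334479575) (nat_lit 100) (nat_lit 5) (nat_lit 105) (nat_lit 5) (nat_lit 106) (nat_lit 5) (nat_lit 406) (nat_lit 393) (nat_lit 221)) (XT.lf (nat_lit 0) (nat_lit 54830711232) (nat_lit 380) (nat_lit 18958034347) (nat_lit 456) (nat_lit 3923016767) (nat_lit 100) (nat_lit 5) (nat_lit 105) (nat_lit 5) (nat_lit 106) (nat_lit 5) (nat_lit 407) (nat_lit 393) (nat_lit 220)))) (XT.nd (nat_lit 156) (nat_lit 380) (nat_lit 0) (XT.nd (nat_lit 78) (nat_lit 0) (nat_lit 0) (XT.lf (nat_lit 0) (nat_lit 4266464820) (nat_lit 380) (nat_lit 61087675806) (nat_lit 76) (nat_lit 14532943425) (nat_lit 95) (nat_lit 5) (nat_lit 100) (nat_lit 5) (nat_lit 96) (nat_lit 5) (nat_lit 408) (nat_lit 393) (nat_lit 219)) (XT.lf (nat_lit 0) (nat_lit 13437450547) (nat_lit 380) (nat_lit 19175801425) (nat_lit 76) (nat_lit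 49519511298) (nat_lit 95) (nat_lit 5) (nat_lit 100) (nat_lit 5) (nat_lit 96) (nat_lit 5) (nat_lit 409) (nat_lit 393) (nat_lit 218))) (XT.nd (nat_lit 78) (nat_lit 0) (nat_lit 0) (XT.lf (nat_lit 0) (nat_lit 23500864434) (nat_lit 456) (nat_lit 58852950214) (nat_lit 76) (nat_lit 2115218310) (nat_lit 90) (nat_lit 5) (nat_lit 96) (nat_lit 5) (nat_lit 91) (nat_lit 5) (nat_lit 410) (nat_lit 393) (nat_lit 217)) (XT.lf (nat_lit 0) (nat_lit 34931454194) (nat_lit 456) (nat_lit 14133349559) (nat_lit 76) (nat_lit 37814112549) (nat_lit 90) (nat_lit 5) (nat_lit 96) (nat_lit 5) (nat_lit 91) (nat_lit 5) (nat_lit 411) (nat_lit 393) (nat_lit 216))))))))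
noncomputable def xc211 : XT := (XT.nd (nat_lit 1950) (nat_lit 1824) (nat_lit 0) (XT.nd (nat_lit 936) (nat_lit 1368) (nat_lit 0) (XT.nd (nat_lit 468) (nat_lit 760) (nat_lit 0) (XT.nd (nat_lit 234) (nat_lit 608) (nat_lit 0) (XT.nd (nat_lit 78) (nat_lit 304) (nat_lit 0) (XT.lf (nat_lit 0) (nat_lit 33906689928) (nat_lit 304) (nat_lit 13555582379) (nat_lit 380) (nat_lit 41920586973) (nat_lit 86) (nat_lit 5) (nat_lit 90) (nat_lit 5) (nat_lit 91) (nat_lit 5) (nat_lit 412) (nat_lit 393) (nat_lit 215)) (XT.nd (nat_lit 78) (nat_lit 304) (nat_lit 0) (XT.lf (nat_lit 0) (nat_lit 61232727545) (nat_lit 380) (nat_lit 7535810390) (nat_lit 76) (nat_lit 23212807051) (nat_lit 86) (nat_lit 5) (nat_lit 91) (nat_lit 5) (nat_lit 87) (nat_lit 5) (nat_lit 413) (nat_lit 393) (nat_lit 214)) (XT.lf (nat_lit 0) (nat_lit 43986435439) (nat_lit 304) (nat_lit 32613615246) (nat_lit 380) (nat_lit 18064287407) (nat_lit 82)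 (nat_lit 5) (nat_lit 86) (nat_lit 5) (nat_lit 87) (nat_lit 5) (nat_lit 414) (nat_lit 393) (nat_lit 213)))) (XT.nd (nat_lit 78) (nat_lit 380) (nat_lit 0) (XT.lf (nat_lit 0) (nat_lit 810902323) (nat_lit 228) (nat_lit 92150114029) (nat_lit 304) (nat_lit 4509201036) (nat_lit 79) (nat_lit 5) (nat_lit 82) (nat_lit 5) (nat_lit 83) (nat_lit 5) (nat_lit 415) (nat_lit 393) (nat_lit 212)) (XT.nd (nat_lit 78) (nat_lit 304) (nat_lit 0) (XT.lf (nat_lit 0) (nat_lit 10818791191) (nat_lit 304) (nat_lit 44441214323) (nat_lit 76) (nat_lit 45078476356) (nat_lit 78) (nat_lit 5) (nat_lit 82) (nat_lit 5) (nat_lit 79) (nat_lit 5) (nat_lit 416) (nat_lit 393) (nat_lit 211)) (XT.lf (nat_lit 0) (nat_lit 10654131871) (nat_lit 304) (nat_lit 16273276861) (nat_lit 380) (nat_lit 76410766862) (nat_lit 74) (nat_lit 5) (nat_lit 78) (nat_lit 5) (nat_lit 79) (nat_lit 5) (nat_lit 417) (nat_lit 393) (nat_lit 210))))) (XT.nd (nat_lit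 234) (nat_lit 532) (nat_lit 0) (XT.nd (nat_lit 78) (nat_lit 228) (nat_lit 0) (XT.lf (nat_lit 0) (nat_lit 44990921239) (nat_lit 380) (nat_lit 36801222698) (nat_lit 76) (nat_lit 24638237154) (nat_lit 74) (nat_lit 5) (nat_lit 79) (nat_lit 5) (nat_lit 75) (nat_lit 5) (nat_lit 418) (nat_lit 393) (nat_lit 209)) (XT.nd (nat_lit 78) (nat_lit 0) (nat_lit 0) (XT.lf (nat_lit 0) (nat_lit 22322715551) (nat_lit 228) (nat_lit 42249652928) (nat_lit 304) (nat_lit 45074090707) (nat_lit 71) (nat_lit 5) (nat_lit 74) (nat_lit 5) (nat_lit 75) (nat_lit 5) (nat_lit 419) (nat_lit 393) (nat_lit 208)) (XT.lf (nat_lit 0) (nat_lit 85679802497) (nat_lit 228) (nat_lit 75810567) (nat_lit 304) (nat_lit 27236592135) (nat_lit 71) (nat_lit 5) (nat_lit 74) (nat_lit 5) (nat_lit 75) (nat_lit 5) (nat_lit 420) (nat_lit 393) (nat_lit 207)))) (XT.nd (nat_lit 78) (nat_lit 304) (nat_lit 0) (XT.lf (nat_lit 0) (nat_lit 36166165128) (nat_lit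 228) (nat_lit 73086201392) (nat_lit 304) (nat_lit 7190154913) (nat_lit 68) (nat_lit 5) (nat_lit 71) (nat_lit 5) (nat_lit 72) (nat_lit 5) (nat_lit 421) (nat_lit 393) (nat_lit 206)) (XT.nd (nat_lit 78) (nat_lit 228) (nat_lit 0) (XT.lf (nat_lit 0) (nat_lit 13885922145) (nat_lit 304) (nat_lit 16501234807) (nat_lit 76) (nat_lit 89643834179) (nat_lit 67) (nat_lit 5) (nat_lit 71) (nat_lit 5) (nat_lit 68) (nat_lit 5) (nat_lit 422) (nat_lit 393) (nat_lit 205)) (XT.lf (nat_lit 0) (nat_lit 36826493962) (nat_lit 304) (nat_lit 71984500593) (nat_lit 76) (nat_lit 14929380044) (nat_lit 64) (nat_lit 5) (nat_lit 68) (nat_lit 5) (nat_lit 65) (nat_lit 5) (nat_lit 423) (nat_lit 393) (nat_lit 204)))))) (XT.nd (nat_lit 468) (nat_lit 684) (nat_lit 0) (XT.nd (nat_lit 234) (nat_lit 304) (nat_lit 0) (XT.nd (nat_lit 78) (nat_lit 380) (nat_lit 0) (XT.lf (nat_lit 0) (nat_lit 61695820385) (nat_lit 304) (nat_lit 4125935911)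 (nat_lit 76) (nat_lit 61774384849) (nat_lit 64) (nat_lit 5) (nat_lit 68) (nat_lit 5) (nat_lit 65) (nat_lit 5) (nat_lit 424) (nat_lit 393) (nat_lit 203)) (XT.nd (nat_lit 78) (nat_lit 152) (nat_lit 0) (XT.lf (nat_lit 0) (nat_lit 69344367940) (nat_lit 228) (nat_lit 19546465351) (nat_lit 304) (nat_lit 42699751919) (nat_lit 61) (nat_lit 5) (nat_lit 64) (nat_lit 5) (nat_lit 65) (nat_lit 5) (nat_lit 425) (nat_lit 393) (nat_lit 202)) (XT.lf (nat_lit 0) (nat_lit 10738644392) (nat_lit 152) (nat_lit 107398637370) (nat_lit 228) (nat_lit 17612885655) (nat_lit 59) (nat_lit 5) (nat_lit 61) (nat_lit 5) (nat_lit 62) (nat_lit 5) (nat_lit 426) (nat_lit 393) (nat_lit 201)))) (XT.nd (nat_lit 78) (nat_lit 228) (nat_lit 0) (XT.lf (nat_lit 0) (nat_lit 9840419839) (nat_lit 228) (nat_lit 51005865780) (nat_lit 76) (nat_lit 79195056768) (nat_lit 58) (nat_lit 5) (nat_lit 61) (nat_lit 5) (nat_lit 59) (nat_lit 5) (nat_lit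 427) (nat_lit 393) (nat_lit 200)) (XT.nd (nat_lit 78) (nat_lit 0) (nat_lit 0) (XT.lf (nat_lit 0) (nat_lit 27283973318) (nat_lit 228) (nat_lit 11216080177) (nat_lit 304) (nat_lit 106011307415) (nat_lit 55) (nat_lit 5) (nat_lit 58) (nat_lit 5) (nat_lit 59) (nat_lit 5) (nat_lit 428) (nat_lit 393) (nat_lit 199)) (XT.lf (nat_lit 0) (nat_lit 70108732698) (nat_lit 304) (nat_lit 38555862714) (nat_lit 76) (nat_lit 40464481906) (nat_lit 55) (nat_lit 5) (nat_lit 59) (nat_lit 5) (nat_lit 56) (nat_lit 5) (nat_lit 429) (nat_lit 393) (nat_lit 198))))) (XT.nd (nat_lit 234) (nat_lit 304) (nat_lit 0) (XT.nd (nat_lit 78) (nat_lit 228) (nat_lit 0) (XT.lf (nat_lit 0) (nat_lit 45315136186) (nat_lit 152) (nat_lit 58873693791) (nat_lit 228) (nat_lit 49744300512) (nat_lit 53) (nat_lit 5) (nat_lit 55) (nat_lit 5) (nat_lit 56) (nat_lit 5) (nat_lit 430) (nat_lit 393) (nat_lit 197)) (XT.nd (nat_lit 78) (nat_lit 228)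 (nat_lit 0) (XT.lf (nat_lit 0) (nat_lit 134717667781) (nat_lit 152) (nat_lit 5907853207) (nat_lit 228) (nat_lit 18319236027) (nat_lit 53) (nat_lit 5) (nat_lit 55) (nat_lit 5) (nat_lit 56) (nat_lit 5) (nat_lit 431) (nat_lit 393) (nat_lit 196)) (XT.lf (nat_lit 0) (nat_lit 16038468443) (nat_lit 228) (nat_lit 98665713272) (nat_lit 76) (nat_lit 49399768508) (nat_lit 50) (nat_lit 5) (nat_lit 53) (nat_lit 5) (nat_lit 51) (nat_lit 5) (nat_lit 432) (nat_lit 393) (nat_lit 195)))) (XT.nd (nat_lit 156) (nat_lit 152) (nat_lit 0) (XT.nd (nat_lit 78) (nat_lit 152) (nat_lit 0) (XT.lf (nat_lit 0) (nat_lit 52011928998) (nat_lit 228) (nat_lit 9477119485) (nat_lit 76) (nat_lit 107991363097) (nat_lit 50) (nat_lit 5) (nat_lit 53) (nat_lit 5) (nat_lit 51) (nat_lit 5) (nat_lit 433) (nat_lit 393) (nat_lit 194)) (XT.lf (nat_lit 0) (nat_lit 86953404579) (nat_lit 152) (nat_lit 4187904902) (nat_lit 228) (nat_lit 83916524294)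 (nat_lit 48) (nat_lit 5) (nat_lit 50) (nat_lit 5) (nat_lit 51) (nat_lit 5) (nat_lit 434) (nat_lit 393) (nat_lit 193))) (XT.nd (nat_lit 78) (nat_lit 0) (nat_lit 0) (XT.lf (nat_lit 0) (nat_lit 6974437365) (nat_lit 152) (nat_lit 126398385932) (nat_lit 228) (nat_lit 47484020677) (nat_lit 46) (nat_lit 5) (nat_lit 48) (nat_lit 5) (nat_lit 49) (nat_lit 5) (nat_lit 435) (nat_lit 393) (nat_lit 192)) (XT.lf (nat_lit 0) (nat_lit 109794562957) (nat_lit 152) (nat_lit 69480660225) (nat_lit 228) (nat_lit 7592616087) (nat_lit 46) (nat_lit 5) (nat_lit 48) (nat_lit 5) (nat_lit 49) (nat_lit 5) (nat_lit 436) (nat_lit 393) (nat_lit 191))))))) (XT.nd (nat_lit 1014) (nat_lit 760) (nat_lit 0) (XT.nd (nat_lit 468) (nat_lit 532) (nat_lit 0) (XT.nd (nat_lit 234) (nat_lit 152) (nat_lit 0) (XT.nd (nat_lit 78) (nat_lit 152) (nat_lit 0) (XT.lf (nat_lit 0) (nat_lit 24835246575) (nat_lit 152) (nat_lit 8747941087) (nat_lit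 228) (nat_lit 159550054460) (nat_lit 43) (nat_lit 5) (nat_lit 45) (nat_lit 5) (nat_lit 46) (nat_lit 5) (nat_lit 437) (nat_lit 393) (nat_lit 190)) (XT.nd (nat_lit 78) (nat_lit 152) (nat_lit 0) (XT.lf (nat_lit 0) (nat_lit 78748015928) (nat_lit 228) (nat_lit 66137086431) (nat_lit 76) (nat_lit 54711319592) (nat_lit 43) (nat_lit 5) (nat_lit 46) (nat_lit 5) (nat_lit 44) (nat_lit 5) (nat_lit 438) (nat_lit 393) (nat_lit 189)) (XT.lf (nat_lit 0) (nat_lit 42343196286) (nat_lit 152) (nat_lit 84632095484) (nat_lit 228) (nat_lit 79367258781) (nat_lit 41) (nat_lit 5) (nat_lit 43) (nat_lit 5) (nat_lit 44) (nat_lit 5) (nat_lit 439) (nat_lit 393) (nat_lit 188)))) (XT.nd (nat_lit 78) (nat_lit 152) (nat_lit 0) (XT.lf (nat_lit 0) (nat_lit 158543121954) (nat_lit 152) (nat_lit 20190580733) (nat_lit 228) (nat_lit 34636294409) (nat_lit 41) (nat_lit 5) (nat_lit 43) (nat_lit 5) (nat_lit 44) (nat_lit 5) (nat_lit 440)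 (nat_lit 393) (nat_lit 187)) (XT.nd (nat_lit 78) (nat_lit 0) (nat_lit 0) (XT.lf (nat_lit 0) (nat_lit 13657831926) (nat_lit 152) (nat_lit 159868999859) (nat_lit 76) (nat_lit 47126293529) (nat_lit 39) (nat_lit 5) (nat_lit 41) (nat_lit 5) (nat_lit 40) (nat_lit 5) (nat_lit 441) (nat_lit 393) (nat_lit 186)) (XT.lf (nat_lit 0) (nat_lit 64477112226) (nat_lit 152) (nat_lit 45089355383) (nat_lit 76) (nat_lit 118641829287) (nat_lit 39) (nat_lit 5) (nat_lit 41) (nat_lit 5) (nat_lit 40) (nat_lit 5) (nat_lit 442) (nat_lit 393) (nat_lit 185))))) (XT.nd (nat_lit 234) (nat_lit 304) (nat_lit 0) (XT.nd (nat_lit 78) (nat_lit 76) (nat_lit 0) (XT.lf (nat_lit 0) (nat_lit 77922821634) (nat_lit 152) (nat_lit 41130861712) (nat_lit 228) (nat_lit 117026727436) (nat_lit 37) (nat_lit 5) (nat_lit 39) (nat_lit 5) (nat_lit 40) (nat_lit 5) (nat_lit 443) (nat_lit 393) (nat_lit 184)) (XT.nd (nat_lit 78) (nat_lit 76) (nat_lit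 0) (XT.lf (nat_lit 0) (nat_lit 177614674061) (nat_lit 228) (nat_lit 36149656238) (nat_lit 76) (nat_lit 30519020577) (nat_lit 37) (nat_lit 5) (nat_lit 40) (nat_lit 5) (nat_lit 38) (nat_lit 4) (nat_lit 444) (nat_lit 393) (nat_lit 183)) (XT.lf (nat_lit 0) (nat_lit 94302209750) (nat_lit 76) (nat_lit 146947850980) (nat_lit 152) (nat_lit 11539059984) (nat_lit 36) (nat_lit 5) (nat_lit 37) (nat_lit 5) (nat_lit 38) (nat_lit 4) (nat_lit 445) (nat_lit 393) (nat_lit 182)))) (XT.nd (nat_lit 156) (nat_lit 76) (nat_lit 0) (XT.nd (nat_lit 78) (nat_lit 152) (nat_lit 0) (XT.lf (nat_lit 0) (nat_lit 45485640466) (nat_lit 152) (nat_lit 29891956309) (nat_lit 76) (nat_lit 186275302095) (nat_lit 35) (nat_lit 5) (nat_lit 37) (nat_lit 5) (nat_lit 36) (nat_lit 5) (nat_lit 446) (nat_lit 393) (nat_lit 181)) (XT.lf (nat_lit 0) (nat_lit 106693454087) (nat_lit 228) (nat_lit 162480012433) (nat_lit 76) (nat_lit 1690957911)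 (nat_lit 33) (nat_lit 5) (nat_lit 36) (nat_lit 5) (nat_lit 34) (nat_lit 4) (nat_lit 447) (nat_lit 393) (nat_lit 180))) (XT.nd (nat_lit 78) (nat_lit 76) (nat_lit 0) (XT.lf (nat_lit 0) (nat_lit 172711653478) (nat_lit 228) (nat_lit 27143260391) (nat_lit 76) (nat_lit 80594112697) (nat_lit 33) (nat_lit 5) (nat_lit 36) (nat_lit 5) (nat_lit 34) (nat_lit 4) (nat_lit 448) (nat_lit 393) (nat_lit 179)) (XT.lf (nat_lit 0) (nat_lit 118761015259) (nat_lit 76) (nat_lit 125123714242) (nat_lit 152) (nat_lit 46535431020) (nat_lit 32) (nat_lit 5) (nat_lit 33) (nat_lit 5) (nat_lit 34) (nat_lit 4) (nat_lit 449) (nat_lit 393) (nat_lit 178)))))) (XT.nd (nat_lit 468) (nat_lit 304) (nat_lit 0) (XT.nd (nat_lit 234) (nat_lit 228) (nat_lit 0) (XT.nd (nat_lit 78) (nat_lit 152) (nat_lit 0) (XT.lf (nat_lit 0) (nat_lit 17626241234) (nat_lit 152) (nat_lit 28248716453) (nat_lit 76) (nat_lit 254977705667) (nat_lit 31) (nat_lit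 5) (nat_lit 33) (nat_lit 5) (nat_lit 32) (nat_lit 5) (nat_lit 450) (nat_lit 393) (nat_lit 177)) (XT.nd (nat_lit 78) (nat_lit 0) (nat_lit 0) (XT.lf (nat_lit 0) (nat_lit 86020247985) (nat_lit 228) (nat_lit 186709602180) (nat_lit 76) (nat_lit 38909390083) (nat_lit 29) (nat_lit 5) (nat_lit 32) (nat_lit 5) (nat_lit 30) (nat_lit 4) (nat_lit 451) (nat_lit 393) (nat_lit 176)) (XT.lf (nat_lit 0) (nat_lit 159072039359) (nat_lit 228) (nat_lit 36953866058) (nat_lit 76) (nat_lit 126877336395) (nat_lit 29) (nat_lit 5) (nat_lit 32) (nat_lit 5) (nat_lit 30) (nat_lit 4) (nat_lit 452) (nat_lit 393) (nat_lit 175)))) (XT.nd (nat_lit 78) (nat_lit 152) (nat_lit 0) (XT.lf (nat_lit 0) (nat_lit 124266591360) (nat_lit 76) (nat_lit 113449776215) (nat_lit 152) (nat_lit 96917078552) (nat_lit 28) (nat_lit 5) (nat_lit 29) (nat_lit 5) (nat_lit 30) (nat_lit 4) (nat_lit 453) (nat_lit 393) (nat_lit 174)) (XT.nd (nat_lit 78)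 (nat_lit 152) (nat_lit 0) (XT.lf (nat_lit 0) (nat_lit 294830659950) (nat_lit 76) (nat_lit 26087885300) (nat_lit 152) (nat_lit 26000333793) (nat_lit 28) (nat_lit 5) (nat_lit 29) (nat_lit 5) (nat_lit 30) (nat_lit 4) (nat_lit 454) (nat_lit 393) (nat_lit 173)) (XT.lf (nat_lit 0) (nat_lit 49806373234) (nat_lit 152) (nat_lit 243661444026) (nat_lit 76) (nat_lit 66168173819) (nat_lit 26) (nat_lit 5) (nat_lit 28) (nat_lit 5) (nat_lit 27) (nat_lit 4) (nat_lit 455) (nat_lit 393) (nat_lit 172))))) (XT.nd (nat_lit 234) (nat_lit 228) (nat_lit 0) (XT.nd (nat_lit 78) (nat_lit 76) (nat_lit 0) (XT.lf (nat_lit 0) (nat_lit 129853713593) (nat_lit 152) (nat_lit 79564738062) (nat_lit 76) (nat_lit 163482991360) (nat_lit 26) (nat_lit 5) (nat_lit 28) (nat_lit 5) (nat_lit 27) (nat_lit 4) (nat_lit 456) (nat_lit 393) (nat_lit 171)) (XT.nd (nat_lit 78) (nat_lit 0) (nat_lit 0) (XT.lf (nat_lit 0) (nat_lit 95802749846)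 (nat_lit 76) (nat_lit 119596238578) (nat_lit 152) (nat_lit 171356400780) (nat_lit 25) (nat_lit 5) (nat_lit 26) (nat_lit 5) (nat_lit 27) (nat_lit 4) (nat_lit 457) (nat_lit 393) (nat_lit 170)) (XT.lf (nat_lit 0) (nat_lit 282700586024) (nat_lit 76) (nat_lit 23868229802) (nat_lit 152) (nat_lit 94665852463) (nat_lit 25) (nat_lit 5) (nat_lit 26) (nat_lit 5) (nat_lit 27) (nat_lit 4) (nat_lit 458) (nat_lit 393) (nat_lit 169)))) (XT.nd (nat_lit 156) (nat_lit 76) (nat_lit 0) (XT.nd (nat_lit 78) (nat_lit 76) (nat_lit 0) (XT.lf (nat_lit 0) (nat_lit 63335549677) (nat_lit 76) (nat_lit 341146919687) (nat_lit 76) (nat_lit 11846175253) (nat_lit 24) (nat_lit 4) (nat_lit 25) (nat_lit 5) (nat_lit 25) (nat_lit 4) (nat_lit 459) (nat_lit 393) (nat_lit 168)) (XT.lf (nat_lit 0) (nat_lit 75141804489) (nat_lit 152) (nat_lit 175260313017) (nat_lit 76) (nat_lit 181594992332) (nat_lit 23) (nat_lit 5) (nat_lit 25) (nat_lit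 5) (nat_lit 24) (nat_lit 4) (nat_lit 460) (nat_lit 393) (nat_lit 167))) (XT.nd (nat_lit 78) (nat_lit 0) (nat_lit 0) (XT.lf (nat_lit 0) (nat_lit 11533750998) (nat_lit 76) (nat_lit 154727233515) (nat_lit 152) (nat_lit 282169308326) (nat_lit 22) (nat_lit 5) (nat_lit 23) (nat_lit 5) (nat_lit 24) (nat_lit 4) (nat_lit 461) (nat_lit 393) (nat_lit 166)) (XT.lf (nat_lit 0) (nat_lit 213751856055) (nat_lit 76) (nat_lit 51152225018) (nat_lit 152) (nat_lit 200632656064) (nat_lit 22) (nat_lit 5) (nat_lit 23) (nat_lit 5) (nat_lit 24) (nat_lit 4) (nat_lit 462) (nat_lit 393) (nat_lit 165))))))))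
noncomputable def xc212 : XT := (XT.nd (nat_lit 48984) (nat_lit 0) (nat_lit 2356) (XT.nd (nat_lit 47970) (nat_lit 0) (nat_lit 5928) (XT.nd (nat_lit 468) (nat_lit 152) (nat_lit 0) (XT.nd (nat_lit 234) (nat_lit 76) (nat_lit 0) (XT.nd (nat_lit 78) (nat_lit 152) (nat_lit 0) (XT.lf (nat_lit 0) (nat_lit 369378498674) (nat_lit 152) (nat_lit 58317254172) (nat_lit 0) (nat_lit 55757792513) (nat_lit 22) (nat_lit 5) (nat_lit 24) (nat_lit 4) (nat_lit 22) (nat_lit 4) (nat_lit 463) (nat_lit 393) (nat_lit 164)) (XT.nd (nat_lit 78) (nat_lit 76) (nat_lit 0) (XT.lf (nat_lit 0) (nat_lit 148745703006) (nat_lit 76) (nat_lit 333491684728) (nat_lit 76) (nat_lit 19870768749) (nat_lit 21) (nat_lit 4) (nat_lit 22) (nat_lit 5) (nat_lit 22) (nat_lit 4) (nat_lit 464) (nat_lit 393) (nat_lit 163)) (XT.lf (nat_lit 0) (nat_lit 77517504442) (nat_lit 152) (nat_lit 154710231697) (nat_lit 76) (nat_lit 289355873634) (nat_lit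 20) (nat_lit 5) (nat_lit 22) (nat_lit 5) (nat_lit 21) (nat_lit 4) (nat_lit 465) (nat_lit 393) (nat_lit 162)))) (XT.nd (nat_lit 78) (nat_lit 0) (nat_lit 0) (XT.lf (nat_lit 0) (nat_lit 55319140456) (nat_lit 76) (nat_lit 124651809090) (nat_lit 152) (nat_lit 362002421364) (nat_lit 19) (nat_lit 5) (nat_lit 20) (nat_lit 5) (nat_lit 21) (nat_lit 4) (nat_lit 466) (nat_lit 393) (nat_lit 161)) (XT.nd (nat_lit 78) (nat_lit 0) (nat_lit 0) (XT.lf (nat_lit 0) (nat_lit 281220907069) (nat_lit 76) (nat_lit 8946114605) (nat_lit 152) (nat_lit 273084600709) (nat_lit 19) (nat_lit 5) (nat_lit 20) (nat_lit 5) (nat_lit 21) (nat_lit 4) (nat_lit 467) (nat_lit 393) (nat_lit 160)) (XT.lf (nat_lit 0) (nat_lit 407629904973) (nat_lit 152) (nat_lit 68933421340) (nat_lit 0) (nat_lit 108942609753) (nat_lit 19) (nat_lit 5) (nat_lit 21) (nat_lit 4) (nat_lit 19) (nat_lit 4) (nat_lit 468) (nat_lit 393) (nat_lit 159))))) (XT.nd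 (nat_lit 47268) (nat_lit 0) (nat_lit 7068) (XT.nd (nat_lit 78) (nat_lit 76) (nat_lit 0) (XT.lf (nat_lit 0) (nat_lit 159785985144) (nat_lit 76) (nat_lit 373821185102) (nat_lit 76) (nat_lit 75133733312) (nat_lit 18) (nat_lit 4) (nat_lit 19) (nat_lit 5) (nat_lit 19) (nat_lit 4) (nat_lit 469) (nat_lit 393) (nat_lit 158)) (XT.nd (nat_lit 78) (nat_lit 0) (nat_lit 0) (XT.lf (nat_lit 0) (nat_lit 32884045409) (nat_lit 152) (nat_lit 231275307812) (nat_lit 76) (nat_lit 368893382010) (nat_lit 17) (nat_lit 5) (nat_lit 19) (nat_lit 5) (nat_lit 18) (nat_lit 4) (nat_lit 470) (nat_lit 393) (nat_lit 157)) (XT.lf (nat_lit 0) (nat_lit 143777606378) (nat_lit 152) (nat_lit 3943649840) (nat_lit 76) (nat_lit 510797323285) (nat_lit 17) (nat_lit 5) (nat_lit 19) (nat_lit 5) (nat_lit 18) (nat_lit 4) (nat_lit 471) (nat_lit 393) (nat_lit 156)))) (XT.nd (nat_lit 78) (nat_lit 0) (nat_lit 0) (XT.lf (nat_lit 0) (nat_lit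 6278447568) (nat_lit 836) (nat_lit 11044988793) (nat_lit 836) (nat_lit 11044988793) (nat_lit 110) (nat_lit 3) (nat_lit 121) (nat_lit 3) (nat_lit 121) (nat_lit 5) (nat_lit 394) (nat_lit 394) (nat_lit 232)) (XT.nd (nat_lit 78) (nat_lit 0) (nat_lit 76) (XT.lf (nat_lit 76) (nat_lit 5420357786) (nat_lit 0) (nat_lit 7554870272) (nat_lit 836) (nat_lit 45174809010) (nat_lit 111) (nat_lit 5) (nat_lit 110) (nat_lit 3) (nat_lit 121) (nat_lit 5) (nat_lit 395) (nat_lit 394) (nat_lit 231)) (XT.lf (nat_lit 0) (nat_lit 14119625520) (nat_lit 760) (nat_lit 24875126488) (nat_lit 836) (nat_lit 20603874659) (nat_lit 111) (nat_lit 5) (nat_lit 121) (nat_lit 5) (nat_lit 122) (nat_lit 5) (nat_lit 396) (nat_lit 394) (nat_lit 230)))))) (XT.nd (nat_lit 468) (nat_lit 1216) (nat_lit 0) (XT.nd (nat_lit 234) (nat_lit 0) (nat_lit 152) (XT.nd (nat_lit 78) (nat_lit 0) (nat_lit 76) (XT.lf (nat_lit 76) (nat_lit 4388022733)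 (nat_lit 0) (nat_lit 11124372244) (nat_lit 836) (nat_lit 45597694014) (nat_lit 112) (nat_lit 5) (nat_lit 111) (nat_lit 5) (nat_lit 122) (nat_lit 5) (nat_lit 397) (nat_lit 394) (nat_lit 229)) (XT.nd (nat_lit 78) (nat_lit 0) (nat_lit 0) (XT.lf (nat_lit 0) (nat_lit 17685035976) (nat_lit 760) (nat_lit 26989017306) (nat_lit 836) (nat_lit 17987560306) (nat_lit 112) (nat_lit 5) (nat_lit 122) (nat_lit 5) (nat_lit 123) (nat_lit 5) (nat_lit 398) (nat_lit 394) (nat_lit 228)) (XT.lf (nat_lit 76) (nat_lit 4181406376) (nat_lit 0) (nat_lit 16031453657) (nat_lit 836) (nat_lit 44065527605) (nat_lit 113) (nat_lit 5) (nat_lit 112) (nat_lit 5) (nat_lit 123) (nat_lit 5) (nat_lit 399) (nat_lit 394) (nat_lit 227)))) (XT.nd (nat_lit 78) (nat_lit 0) (nat_lit 0) (XT.lf (nat_lit 0) (nat_lit 23549842086) (nat_lit 760) (nat_lit 28333334564) (nat_lit 836) (nat_lit 14058686135) (nat_lit 113) (nat_lit 5) (nat_lit 123)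 (nat_lit 5) (nat_lit 124) (nat_lit 5) (nat_lit 400) (nat_lit 394) (nat_lit 226)) (XT.nd (nat_lit 78) (nat_lit 0) (nat_lit 76) (XT.lf (nat_lit 76) (nat_lit 4912151977) (nat_lit 0) (nat_lit 22480021434) (nat_lit 836) (nat_lit 40279413972) (nat_lit 114) (nat_lit 5) (nat_lit 113) (nat_lit 5) (nat_lit 124) (nat_lit 5) (nat_lit 401) (nat_lit 394) (nat_lit 225)) (XT.lf (nat_lit 0) (nat_lit 32044405818) (nat_lit 760) (nat_lit 28799924798) (nat_lit 836) (nat_lit 8612579036) (nat_lit 114) (nat_lit 5) (nat_lit 124) (nat_lit 5) (nat_lit 125) (nat_lit 5) (nat_lit 402) (nat_lit 394) (nat_lit 224))))) (XT.nd (nat_lit 234) (nat_lit 760) (nat_lit 0) (XT.nd (nat_lit 78) (nat_lit 684) (nat_lit 0) (XT.lf (nat_lit 76) (nat_lit 6702814261) (nat_lit 0) (nat_lit 30698692879) (nat_lit 836) (nat_lit 33906378666) (nat_lit 115) (nat_lit 5) (nat_lit 114) (nat_lit 5) (nat_lit 125) (nat_lit 5) (nat_lit 403) (nat_lit 394)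 (nat_lit 223)) (XT.nd (nat_lit 78) (nat_lit 760) (nat_lit 0) (XT.lf (nat_lit 0) (nat_lit 43536215071) (nat_lit 760) (nat_lit 28270148004) (nat_lit 76) (nat_lit 1419560719) (nat_lit 115) (nat_lit 5) (nat_lit 125) (nat_lit 5) (nat_lit 116) (nat_lit 5) (nat_lit 404) (nat_lit 394) (nat_lit 222)) (XT.lf (nat_lit 0) (nat_lit 9687575957) (nat_lit 760) (nat_lit 40943748939) (nat_lit 836) (nat_lit 24575856039) (nat_lit 105) (nat_lit 5) (nat_lit 115) (nat_lit 5) (nat_lit 116) (nat_lit 5) (nat_lit 405) (nat_lit 394) (nat_lit 221)))) (XT.nd (nat_lit 156) (nat_lit 380) (nat_lit 0) (XT.nd (nat_lit 78) (nat_lit 380) (nat_lit 0) (XT.lf (nat_lit 0) (nat_lit 50523922513) (nat_lit 760) (nat_lit 8035223865) (nat_lit 836) (nat_lit 18704457294) (nat_lit 105) (nat_lit 5) (nat_lit 115) (nat_lit 5) (nat_lit 116) (nat_lit 5) (nat_lit 406) (nat_lit 394) (nat_lit 220)) (XT.lf (nat_lit 0) (nat_lit 14012965191) (nat_lit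 380) (nat_lit 53502434363) (nat_lit 456) (nat_lit 11875846484) (nat_lit 100) (nat_lit 5) (nat_lit 105) (nat_lit 5) (nat_lit 106) (nat_lit 5) (nat_lit 407) (nat_lit 394) (nat_lit 219))) (XT.nd (nat_lit 78) (nat_lit 380) (nat_lit 0) (XT.lf (nat_lit 0) (nat_lit 57594772412) (nat_lit 380) (nat_lit 19906395470) (nat_lit 456) (nat_lit 4095018015) (nat_lit 100) (nat_lit 5) (nat_lit 105) (nat_lit 5) (nat_lit 106) (nat_lit 5) (nat_lit 408) (nat_lit 394) (nat_lit 218)) (XT.lf (nat_lit 0) (nat_lit 4502414579) (nat_lit 380) (nat_lit 64117982428) (nat_lit 76) (nat_lit 15259896029) (nat_lit 95) (nat_lit 5) (nat_lit 100) (nat_lit 5) (nat_lit 96) (nat_lit 5) (nat_lit 409) (nat_lit 394) (nat_lit 217))))))) (XT.nd (nat_lit 1014) (nat_lit 1520) (nat_lit 0) (XT.nd (nat_lit 468) (nat_lit 1064) (nat_lit 0) (XT.nd (nat_lit 234) (nat_lit 608) (nat_lit 0) (XT.nd (nat_lit 78) (nat_lit 380) (nat_lit 0) (XT.lf (nat_lit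 0) (nat_lit 14130872138) (nat_lit 380) (nat_lit 20111660860) (nat_lit 76) (nat_lit 51995777752) (nat_lit 95) (nat_lit 5) (nat_lit 100) (nat_lit 5) (nat_lit 96) (nat_lit 5) (nat_lit 410) (nat_lit 394) (nat_lit 216)) (XT.nd (nat_lit 78) (nat_lit 0) (nat_lit 0) (XT.lf (nat_lit 0) (nat_lit 24696809129) (nat_lit 456) (nat_lit 61772006898) (nat_lit 76) (nat_lit 2222610906) (nat_lit 90) (nat_lit 5) (nat_lit 96) (nat_lit 5) (nat_lit 91) (nat_lit 5) (nat_lit 411) (nat_lit 394) (nat_lit 215)) (XT.lf (nat_lit 0) (nat_lit 36697933069) (nat_lit 456) (nat_lit 14817549582) (nat_lit 76) (nat_lit 39706372159) (nat_lit 90) (nat_lit 5) (nat_lit 96) (nat_lit 5) (nat_lit 91) (nat_lit 5) (nat_lit 412) (nat_lit 394) (nat_lit 214)))) (XT.nd (nat_lit 78) (nat_lit 304) (nat_lit 0) (XT.lf (nat_lit 0) (nat_lit 35624129501) (nat_lit 304) (nat_lit 14230559796) (nat_lit 380) (nat_lit 43996336350) (nat_lit 86) (nat_lit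 5) (nat_lit 90) (nat_lit 5) (nat_lit 91) (nat_lit 5) (nat_lit 413) (nat_lit 394) (nat_lit 213)) (XT.nd (nat_lit 78) (nat_lit 304) (nat_lit 0) (XT.lf (nat_lit 0) (nat_lit 64312789748) (nat_lit 380) (nat_lit 7890660023) (nat_lit 76) (nat_lit 24376030289) (nat_lit 86) (nat_lit 5) (nat_lit 91) (nat_lit 5) (nat_lit 87) (nat_lit 5) (nat_lit 414) (nat_lit 394) (nat_lit 212)) (XT.lf (nat_lit 0) (nat_lit 46207344212) (nat_lit 304) (nat_lit 34240594446) (nat_lit 380) (nat_lit 18948711700) (nat_lit 82) (nat_lit 5) (nat_lit 86) (nat_lit 5) (nat_lit 87) (nat_lit 5) (nat_lit 415) (nat_lit 394) (nat_lit 211))))) (XT.nd (nat_lit 234) (nat_lit 456) (nat_lit 0) (XT.nd (nat_lit 78) (nat_lit 380) (nat_lit 0) (XT.lf (nat_lit 0) (nat_lit 873519450) (nat_lit 228) (nat_lit 96752981116) (nat_lit 304) (nat_lit 4716346149) (nat_lit 79) (nat_lit 5) (nat_lit 82) (nat_lit 5) (nat_lit 83) (nat_lit 5) (nat_lit 416) (nat_lit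 394) (nat_lit 210)) (XT.nd (nat_lit 78) (nat_lit 304) (nat_lit 0) (XT.lf (nat_lit 0) (nat_lit 11376615271) (nat_lit 304) (nat_lit 46641686843) (nat_lit 76) (nat_lit 47336250669) (nat_lit 78) (nat_lit 5) (nat_lit 82) (nat_lit 5) (nat_lit 79) (nat_lit 5) (nat_lit 417) (nat_lit 394) (nat_lit 209)) (XT.lf (nat_lit 0) (nat_lit 11208078464) (nat_lit 304) (nat_lit 17082112817) (nat_lit 380) (nat_lit 80214063960) (nat_lit 74) (nat_lit 5) (nat_lit 78) (nat_lit 5) (nat_lit 79) (nat_lit 5) (nat_lit 418) (nat_lit 394) (nat_lit 208)))) (XT.nd (nat_lit 156) (nat_lit 228) (nat_lit 0) (XT.nd (nat_lit 78) (nat_lit 228) (nat_lit 0) (XT.lf (nat_lit 0) (nat_lit 47256169672) (nat_lit 380) (nat_lit 38620337399) (nat_lit 76) (nat_lit 25874599835) (nat_lit 74) (nat_lit 5) (nat_lit 79) (nat_lit 5) (nat_lit 75) (nat_lit 5) (nat_lit 419) (nat_lit 394) (nat_lit 207)) (XT.lf (nat_lit 0) (nat_lit 23459459917) (nat_lit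 228) (nat_lit 44356803382) (nat_lit 304) (nat_lit 47311747291) (nat_lit 71) (nat_lit 5) (nat_lit 74) (nat_lit 5) (nat_lit 75) (nat_lit 5) (nat_lit 420) (nat_lit 394) (nat_lit 206))) (XT.nd (nat_lit 78) (nat_lit 228) (nat_lit 0) (XT.lf (nat_lit 0) (nat_lit 89983419849) (nat_lit 228) (nat_lit 74522817) (nat_lit 304) (nat_lit 28583137979) (nat_lit 71) (nat_lit 5) (nat_lit 74) (nat_lit 5) (nat_lit 75) (nat_lit 5) (nat_lit 421) (nat_lit 394) (nat_lit 205)) (XT.lf (nat_lit 0) (nat_lit 37994428999) (nat_lit 228) (nat_lit 76734799062) (nat_lit 304) (nat_lit 7534700267) (nat_lit 68) (nat_lit 5) (nat_lit 71) (nat_lit 5) (nat_lit 72) (nat_lit 5) (nat_lit 422) (nat_lit 394) (nat_lit 204)))))) (XT.nd (nat_lit 468) (nat_lit 760) (nat_lit 0) (XT.nd (nat_lit 234) (nat_lit 456) (nat_lit 0) (XT.nd (nat_lit 78) (nat_lit 228) (nat_lit 0) (XT.lf (nat_lit 0) (nat_lit 14594012063) (nat_lit 304) (nat_lit 17306828751)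 (nat_lit 76) (nat_lit 94131003819) (nat_lit 67) (nat_lit 5) (nat_lit 71) (nat_lit 5) (nat_lit 68) (nat_lit 5) (nat_lit 423) (nat_lit 394) (nat_lit 203)) (XT.nd (nat_lit 78) (nat_lit 0) (nat_lit 0) (XT.lf (nat_lit 0) (nat_lit 38681343939) (nat_lit 304) (nat_lit 75563983233) (nat_lit 76) (nat_lit 15681383832) (nat_lit 64) (nat_lit 5) (nat_lit 68) (nat_lit 5) (nat_lit 65) (nat_lit 5) (nat_lit 424) (nat_lit 394) (nat_lit 202)) (XT.lf (nat_lit 0) (nat_lit 64793492622) (nat_lit 304) (nat_lit 4313430431) (nat_lit 76) (nat_lit 64868375317) (nat_lit 64) (nat_lit 5) (nat_lit 68) (nat_lit 5) (nat_lit 65) (nat_lit 5) (nat_lit 425) (nat_lit 394) (nat_lit 201)))) (XT.nd (nat_lit 78) (nat_lit 228) (nat_lit 0) (XT.lf (nat_lit 0) (nat_lit 72830085351) (nat_lit 228) (nat_lit 20517846253) (nat_lit 304) (nat_lit 44821549537) (nat_lit 61) (nat_lit 5) (nat_lit 64) (nat_lit 5) (nat_lit 65) (nat_lit 5) (nat_lit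 426) (nat_lit 394) (nat_lit 200)) (XT.nd (nat_lit 78) (nat_lit 76) (nat_lit 0) (XT.lf (nat_lit 0) (nat_lit 11294309088) (nat_lit 152) (nat_lit 112762176300) (nat_lit 228) (nat_lit 18480568188) (nat_lit 59) (nat_lit 5) (nat_lit 61) (nat_lit 5) (nat_lit 62) (nat_lit 5) (nat_lit 427) (nat_lit 394) (nat_lit 199)) (XT.lf (nat_lit 0) (nat_lit 10344390253) (nat_lit 228) (nat_lit 53537918765) (nat_lit 76) (nat_lit 83160498269) (nat_lit 58) (nat_lit 5) (nat_lit 61) (nat_lit 5) (nat_lit 59) (nat_lit 5) (nat_lit 428) (nat_lit 394) (nat_lit 198))))) (XT.nd (nat_lit 234) (nat_lit 380) (nat_lit 0) (XT.nd (nat_lit 78) (nat_lit 152) (nat_lit 0) (XT.lf (nat_lit 0) (nat_lit 28666118090) (nat_lit 228) (nat_lit 11770598670) (nat_lit 304) (nat_lit 111299624642) (nat_lit 55) (nat_lit 5) (nat_lit 58) (nat_lit 5) (nat_lit 59) (nat_lit 5) (nat_lit 429) (nat_lit 394) (nat_lit 197)) (XT.nd (nat_lit 78) (nat_lit 152)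 (nat_lit 0) (XT.lf (nat_lit 0) (nat_lit 73625368119) (nat_lit 304) (nat_lit 40466098209) (nat_lit 76) (nat_lit 42493500610) (nat_lit 55) (nat_lit 5) (nat_lit 59) (nat_lit 5) (nat_lit 56) (nat_lit 5) (nat_lit 430) (nat_lit 394) (nat_lit 196)) (XT.lf (nat_lit 0) (nat_lit 47598167448) (nat_lit 152) (nat_lit 61811039240) (nat_lit 228) (nat_lit 52220029462) (nat_lit 53) (nat_lit 5) (nat_lit 55) (nat_lit 5) (nat_lit 56) (nat_lit 5) (nat_lit 431) (nat_lit 394) (nat_lit 195)))) (XT.nd (nat_lit 156) (nat_lit 152) (nat_lit 0) (XT.nd (nat_lit 78) (nat_lit 228) (nat_lit 0) (XT.lf (nat_lit 0) (nat_lit 141470003030) (nat_lit 152) (nat_lit 6197208495) (nat_lit 228) (nat_lit 19224258709) (nat_lit 53) (nat_lit 5) (nat_lit 55) (nat_lit 5) (nat_lit 56) (nat_lit 5) (nat_lit 432) (nat_lit 394) (nat_lit 194)) (XT.lf (nat_lit 0) (nat_lit 16850831449) (nat_lit 228) (nat_lit 103582040275) (nat_lit 76) (nat_lit 51875750488)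 (nat_lit 50) (nat_lit 5) (nat_lit 53) (nat_lit 5) (nat_lit 51) (nat_lit 5) (nat_lit 433) (nat_lit 394) (nat_lit 193))) (XT.nd (nat_lit 78) (nat_lit 152) (nat_lit 0) (XT.lf (nat_lit 0) (nat_lit 54622467909) (nat_lit 228) (nat_lit 9934824354) (nat_lit 76) (nat_lit 113396639398) (nat_lit 50) (nat_lit 5) (nat_lit 53) (nat_lit 5) (nat_lit 51) (nat_lit 5) (nat_lit 434) (nat_lit 394) (nat_lit 192)) (XT.lf (nat_lit 0) (nat_lit 91316965412) (nat_lit 152) (nat_lit 4391126651) (nat_lit 228) (nat_lit 88102144332) (nat_lit 48) (nat_lit 5) (nat_lit 50) (nat_lit 5) (nat_lit 51) (nat_lit 5) (nat_lit 435) (nat_lit 394) (nat_lit 191))))))))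
noncomputable def xc213 : XT := (XT.nd (nat_lit 1950) (nat_lit 532) (nat_lit 0) (XT.nd (nat_lit 936) (nat_lit 836) (nat_lit 0) (XT.nd (nat_lit 468) (nat_lit 456) (nat_lit 0) (XT.nd (nat_lit 234) (nat_lit 152) (nat_lit 0) (XT.nd (nat_lit 78) (nat_lit 228) (nat_lit 0) (XT.lf (nat_lit 0) (nat_lit 7339179887) (nat_lit 152) (nat_lit 132711880885) (nat_lit 228) (nat_lit 49848142524) (nat_lit 46) (nat_lit 5) (nat_lit 48) (nat_lit 5) (nat_lit 49) (nat_lit 5) (nat_lit 436) (nat_lit 394) (nat_lit 190)) (XT.nd (nat_lit 78) (nat_lit 228) (nat_lit 0) (XT.lf (nat_lit 0) (nat_lit 115299548870) (nat_lit 152) (nat_lit 72948574814) (nat_lit 228) (nat_lit 7962647665) (nat_lit 46) (nat_lit 5) (nat_lit 48) (nat_lit 5) (nat_lit 49) (nat_lit 5) (nat_lit 437) (nat_lit 394) (nat_lit 189)) (XT.lf (nat_lit 0) (nat_lit 26092325588) (nat_lit 152) (nat_lit 9179110109) (nat_lit 228) (nat_lit 167518011455) (nat_lit 43)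 (nat_lit 5) (nat_lit 45) (nat_lit 5) (nat_lit 46) (nat_lit 5) (nat_lit 438) (nat_lit 394) (nat_lit 188)))) (XT.nd (nat_lit 78) (nat_lit 152) (nat_lit 0) (XT.lf (nat_lit 0) (nat_lit 82694165190) (nat_lit 228) (nat_lit 69429010729) (nat_lit 76) (nat_lit 57452627188) (nat_lit 43) (nat_lit 5) (nat_lit 46) (nat_lit 5) (nat_lit 44) (nat_lit 5) (nat_lit 439) (nat_lit 394) (nat_lit 187)) (XT.nd (nat_lit 78) (nat_lit 0) (nat_lit 0) (XT.lf (nat_lit 0) (nat_lit 44475045316) (nat_lit 152) (nat_lit 88857572254) (nat_lit 228) (nat_lit 83326630049) (nat_lit 41) (nat_lit 5) (nat_lit 43) (nat_lit 5) (nat_lit 44) (nat_lit 5) (nat_lit 440) (nat_lit 394) (nat_lit 186)) (XT.lf (nat_lit 0) (nat_lit 166484267782) (nat_lit 152) (nat_lit 21194273575) (nat_lit 228) (nat_lit 36359545634) (nat_lit 41) (nat_lit 5) (nat_lit 43) (nat_lit 5) (nat_lit 44) (nat_lit 5) (nat_lit 441) (nat_lit 394) (nat_lit 185))))) (XT.nd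 (nat_lit 234) (nat_lit 152) (nat_lit 0) (XT.nd (nat_lit 78) (nat_lit 152) (nat_lit 0) (XT.lf (nat_lit 0) (nat_lit 14348929799) (nat_lit 152) (nat_lit 167848098656) (nat_lit 76) (nat_lit 49488340739) (nat_lit 39) (nat_lit 5) (nat_lit 41) (nat_lit 5) (nat_lit 40) (nat_lit 5) (nat_lit 442) (nat_lit 394) (nat_lit 184)) (XT.nd (nat_lit 78) (nat_lit 152) (nat_lit 0) (XT.lf (nat_lit 0) (nat_lit 67708783338) (nat_lit 152) (nat_lit 47330155346) (nat_lit 76) (nat_lit 124579380307) (nat_lit 39) (nat_lit 5) (nat_lit 41) (nat_lit 5) (nat_lit 40) (nat_lit 5) (nat_lit 443) (nat_lit 394) (nat_lit 183)) (XT.lf (nat_lit 0) (nat_lit 81832410073) (nat_lit 152) (nat_lit 43181610726) (nat_lit 228) (nat_lit 122870025979) (nat_lit 37) (nat_lit 5) (nat_lit 39) (nat_lit 5) (nat_lit 40) (nat_lit 5) (nat_lit 444) (nat_lit 394) (nat_lit 182)))) (XT.nd (nat_lit 78) (nat_lit 152) (nat_lit 0) (XT.lf (nat_lit 0) (nat_lit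 186502782762) (nat_lit 228) (nat_lit 37944051965) (nat_lit 76) (nat_lit 32050313153) (nat_lit 37) (nat_lit 5) (nat_lit 40) (nat_lit 5) (nat_lit 38) (nat_lit 4) (nat_lit 445) (nat_lit 394) (nat_lit 181)) (XT.nd (nat_lit 78) (nat_lit 76) (nat_lit 0) (XT.lf (nat_lit 0) (nat_lit 99030196240) (nat_lit 76) (nat_lit 154289592364) (nat_lit 152) (nat_lit 12108425200) (nat_lit 36) (nat_lit 5) (nat_lit 37) (nat_lit 5) (nat_lit 38) (nat_lit 4) (nat_lit 446) (nat_lit 394) (nat_lit 180)) (XT.lf (nat_lit 0) (nat_lit 47766917659) (nat_lit 152) (nat_lit 31374058427) (nat_lit 76) (nat_lit 195594216424) (nat_lit 35) (nat_lit 5) (nat_lit 37) (nat_lit 5) (nat_lit 36) (nat_lit 5) (nat_lit 447) (nat_lit 394) (nat_lit 179)))))) (XT.nd (nat_lit 468) (nat_lit 380) (nat_lit 0) (XT.nd (nat_lit 234) (nat_lit 228) (nat_lit 0) (XT.nd (nat_lit 78) (nat_lit 76) (nat_lit 0) (XT.lf (nat_lit 0) (nat_lit 112035065739) (nat_lit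 228) (nat_lit 170591459664) (nat_lit 76) (nat_lit 1780771830) (nat_lit 33) (nat_lit 5) (nat_lit 36) (nat_lit 5) (nat_lit 34) (nat_lit 4) (nat_lit 448) (nat_lit 394) (nat_lit 178)) (XT.nd (nat_lit 78) (nat_lit 76) (nat_lit 0) (XT.lf (nat_lit 0) (nat_lit 181353844674) (nat_lit 228) (nat_lit 28488467799) (nat_lit 76) (nat_lit 84628833593) (nat_lit 33) (nat_lit 5) (nat_lit 36) (nat_lit 5) (nat_lit 34) (nat_lit 4) (nat_lit 449) (nat_lit 394) (nat_lit 177)) (XT.lf (nat_lit 0) (nat_lit 124710828801) (nat_lit 76) (nat_lit 131374614656) (nat_lit 152) (nat_lit 48855399881) (nat_lit 32) (nat_lit 5) (nat_lit 33) (nat_lit 5) (nat_lit 34) (nat_lit 4) (nat_lit 450) (nat_lit 394) (nat_lit 176)))) (XT.nd (nat_lit 78) (nat_lit 152) (nat_lit 0) (XT.lf (nat_lit 0) (nat_lit 18513824687) (nat_lit 152) (nat_lit 29649741057) (nat_lit 76) (nat_lit 267731415996) (nat_lit 31) (nat_lit 5) (nat_lit 33) (nat_lit 5) (nat_lit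 32) (nat_lit 5) (nat_lit 451) (nat_lit 394) (nat_lit 175)) (XT.nd (nat_lit 78) (nat_lit 0) (nat_lit 0) (XT.lf (nat_lit 0) (nat_lit 90327487725) (nat_lit 228) (nat_lit 196033625866) (nat_lit 76) (nat_lit 40859776149) (nat_lit 29) (nat_lit 5) (nat_lit 32) (nat_lit 5) (nat_lit 30) (nat_lit 4) (nat_lit 452) (nat_lit 394) (nat_lit 174)) (XT.lf (nat_lit 0) (nat_lit 167031572128) (nat_lit 228) (nat_lit 38790648482) (nat_lit 76) (nat_lit 133225885653) (nat_lit 29) (nat_lit 5) (nat_lit 32) (nat_lit 5) (nat_lit 30) (nat_lit 4) (nat_lit 453) (nat_lit 394) (nat_lit 173))))) (XT.nd (nat_lit 234) (nat_lit 152) (nat_lit 0) (XT.nd (nat_lit 78) (nat_lit 152) (nat_lit 0) (XT.lf (nat_lit 0) (nat_lit 130490655825) (nat_lit 76) (nat_lit 119117346113) (nat_lit 152) (nat_lit 101756824651) (nat_lit 28) (nat_lit 5) (nat_lit 29) (nat_lit 5) (nat_lit 30) (nat_lit 4) (nat_lit 454) (nat_lit 394) (nat_lit 172)) (XT.nd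 (nat_lit 78) (nat_lit 152) (nat_lit 0) (XT.lf (nat_lit 0) (nat_lit 309582416659) (nat_lit 76) (nat_lit 27387594885) (nat_lit 152) (nat_lit 27294533503) (nat_lit 28) (nat_lit 5) (nat_lit 29) (nat_lit 5) (nat_lit 30) (nat_lit 4) (nat_lit 455) (nat_lit 394) (nat_lit 171)) (XT.lf (nat_lit 0) (nat_lit 52302288181) (nat_lit 152) (nat_lit 255834069969) (nat_lit 76) (nat_lit 69481151765) (nat_lit 26) (nat_lit 5) (nat_lit 28) (nat_lit 5) (nat_lit 27) (nat_lit 4) (nat_lit 456) (nat_lit 394) (nat_lit 170)))) (XT.nd (nat_lit 156) (nat_lit 76) (nat_lit 0) (XT.nd (nat_lit 78) (nat_lit 76) (nat_lit 0) (XT.lf (nat_lit 0) (nat_lit 136351729068) (nat_lit 152) (nat_lit 83533026147) (nat_lit 76) (nat_lit 171661492600) (nat_lit 26) (nat_lit 5) (nat_lit 28) (nat_lit 5) (nat_lit 27) (nat_lit 4) (nat_lit 457) (nat_lit 394) (nat_lit 169)) (XT.lf (nat_lit 0) (nat_lit 100602675692) (nat_lit 76) (nat_lit 125571490973)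 (nat_lit 152) (nat_lit 179918729738) (nat_lit 25) (nat_lit 5) (nat_lit 26) (nat_lit 5) (nat_lit 27) (nat_lit 4) (nat_lit 458) (nat_lit 394) (nat_lit 168))) (XT.nd (nat_lit 78) (nat_lit 76) (nat_lit 0) (XT.lf (nat_lit 0) (nat_lit 296844937566) (nat_lit 76) (nat_lit 25057298879) (nat_lit 152) (nat_lit 99393915486) (nat_lit 25) (nat_lit 5) (nat_lit 26) (nat_lit 5) (nat_lit 27) (nat_lit 4) (nat_lit 459) (nat_lit 394) (nat_lit 167)) (XT.lf (nat_lit 0) (nat_lit 66511678083) (nat_lit 76) (nat_lit 358199868005) (nat_lit 76) (nat_lit 12433282353) (nat_lit 24) (nat_lit 4) (nat_lit 25) (nat_lit 5) (nat_lit 25) (nat_lit 4) (nat_lit 460) (nat_lit 394) (nat_lit 166))))))) (XT.nd (nat_lit 48126) (nat_lit 0) (nat_lit 6308) (XT.nd (nat_lit 468) (nat_lit 228) (nat_lit 0) (XT.nd (nat_lit 234) (nat_lit 152) (nat_lit 0) (XT.nd (nat_lit 78) (nat_lit 76) (nat_lit 0) (XT.lf (nat_lit 0) (nat_lit 78903690120) (nat_lit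 152) (nat_lit 184014263795) (nat_lit 76) (nat_lit 190678770970) (nat_lit 23) (nat_lit 5) (nat_lit 25) (nat_lit 5) (nat_lit 24) (nat_lit 4) (nat_lit 461) (nat_lit 394) (nat_lit 165)) (XT.nd (nat_lit 78) (nat_lit 0) (nat_lit 0) (XT.lf (nat_lit 0) (nat_lit 12119357213) (nat_lit 76) (nat_lit 162459382825) (nat_lit 152) (nat_lit 296272831486) (nat_lit 22) (nat_lit 5) (nat_lit 23) (nat_lit 5) (nat_lit 24) (nat_lit 4) (nat_lit 462) (nat_lit 394) (nat_lit 164)) (XT.lf (nat_lit 0) (nat_lit 224447942824) (nat_lit 76) (nat_lit 53705824492) (nat_lit 152) (nat_lit 210659581956) (nat_lit 22) (nat_lit 5) (nat_lit 23) (nat_lit 5) (nat_lit 24) (nat_lit 4) (nat_lit 463) (nat_lit 394) (nat_lit 163)))) (XT.nd (nat_lit 78) (nat_lit 152) (nat_lit 0) (XT.lf (nat_lit 0) (nat_lit 387851752013) (nat_lit 152) (nat_lit 61224873021) (nat_lit 0) (nat_lit 58549380591) (nat_lit 22) (nat_lit 5) (nat_lit 24) (nat_lit 4)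 (nat_lit 22) (nat_lit 4) (nat_lit 464) (nat_lit 394) (nat_lit 162)) (XT.nd (nat_lit 78) (nat_lit 76) (nat_lit 0) (XT.lf (nat_lit 0) (nat_lit 156191099051) (nat_lit 76) (nat_lit 350162406994) (nat_lit 76) (nat_lit 20859845261) (nat_lit 21) (nat_lit 4) (nat_lit 22) (nat_lit 5) (nat_lit 22) (nat_lit 4) (nat_lit 465) (nat_lit 394) (nat_lit 161)) (XT.lf (nat_lit 0) (nat_lit 81397493108) (nat_lit 152) (nat_lit 162437882108) (nat_lit 76) (nat_lit 303827208871) (nat_lit 20) (nat_lit 5) (nat_lit 22) (nat_lit 5) (nat_lit 21) (nat_lit 4) (nat_lit 466) (nat_lit 394) (nat_lit 160))))) (XT.nd (nat_lit 234) (nat_lit 152) (nat_lit 0) (XT.nd (nat_lit 78) (nat_lit 0) (nat_lit 0) (XT.lf (nat_lit 0) (nat_lit 58092831860) (nat_lit 76) (nat_lit 130880703485) (nat_lit 152) (nat_lit 380098301717) (nat_lit 19) (nat_lit 5) (nat_lit 20) (nat_lit 5) (nat_lit 21) (nat_lit 4) (nat_lit 467) (nat_lit 394) (nat_lit 159))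 (XT.nd (nat_lit 78) (nat_lit 0) (nat_lit 0) (XT.lf (nat_lit 0) (nat_lit 295289318499) (nat_lit 76) (nat_lit 9389900278) (nat_lit 152) (nat_lit 286734791968) (nat_lit 19) (nat_lit 5) (nat_lit 20) (nat_lit 5) (nat_lit 21) (nat_lit 4) (nat_lit 468) (nat_lit 394) (nat_lit 158)) (XT.lf (nat_lit 0) (nat_lit 428015115439) (nat_lit 152) (nat_lit 72372945858) (nat_lit 0) (nat_lit 114392985377) (nat_lit 19) (nat_lit 5) (nat_lit 21) (nat_lit 4) (nat_lit 19) (nat_lit 4) (nat_lit 469) (nat_lit 394) (nat_lit 157)))) (XT.nd (nat_lit 47268) (nat_lit 0) (nat_lit 7068) (XT.nd (nat_lit 78) (nat_lit 76) (nat_lit 0) (XT.lf (nat_lit 0) (nat_lit 167782315683) (nat_lit 76) (nat_lit 392508861155) (nat_lit 76) (nat_lit 78886589080) (nat_lit 18) (nat_lit 4) (nat_lit 19) (nat_lit 5) (nat_lit 19) (nat_lit 4) (nat_lit 470) (nat_lit 394) (nat_lit 156)) (XT.lf (nat_lit 0) (nat_lit 34531779380) (nat_lit 152) (nat_lit 242832259594)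 (nat_lit 76) (nat_lit 387341156058) (nat_lit 17) (nat_lit 5) (nat_lit 19) (nat_lit 5) (nat_lit 18) (nat_lit 4) (nat_lit 471) (nat_lit 394) (nat_lit 155))) (XT.nd (nat_lit 78) (nat_lit 0) (nat_lit 0) (XT.lf (nat_lit 0) (nat_lit 6611844638) (nat_lit 836) (nat_lit 11587007143) (nat_lit 836) (nat_lit 11587007143) (nat_lit 110) (nat_lit 3) (nat_lit 121) (nat_lit 3) (nat_lit 121) (nat_lit 5) (nat_lit 395) (nat_lit 395) (nat_lit 230)) (XT.lf (nat_lit 76) (nat_lit 5711507818) (nat_lit 0) (nat_lit 7949890613) (nat_lit 836) (nat_lit 47394243849) (nat_lit 111) (nat_lit 5) (nat_lit 110) (nat_lit 3) (nat_lit 121) (nat_lit 5) (nat_lit 396) (nat_lit 395) (nat_lit 229)))))) (XT.nd (nat_lit 468) (nat_lit 836) (nat_lit 0) (XT.nd (nat_lit 234) (nat_lit 0) (nat_lit 76) (XT.nd (nat_lit 78) (nat_lit 0) (nat_lit 0) (XT.lf (nat_lit 0) (nat_lit 14860977491) (nat_lit 760) (nat_lit 26097646122) (nat_lit 836) (nat_lit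 21618140906) (nat_lit 111) (nat_lit 5) (nat_lit 121) (nat_lit 5) (nat_lit 122) (nat_lit 5) (nat_lit 397) (nat_lit 395) (nat_lit 228)) (XT.nd (nat_lit 78) (nat_lit 0) (nat_lit 76) (XT.lf (nat_lit 76) (nat_lit 4628318033) (nat_lit 0) (nat_lit 11693709286) (nat_lit 836) (nat_lit 47841841734) (nat_lit 112) (nat_lit 5) (nat_lit 111) (nat_lit 5) (nat_lit 122) (nat_lit 5) (nat_lit 398) (nat_lit 395) (nat_lit 227)) (XT.lf (nat_lit 0) (nat_lit 18601485658) (nat_lit 760) (nat_lit 28316731631) (nat_lit 836) (nat_lit 18874844456) (nat_lit 112) (nat_lit 5) (nat_lit 122) (nat_lit 5) (nat_lit 123) (nat_lit 5) (nat_lit 399) (nat_lit 395) (nat_lit 226)))) (XT.nd (nat_lit 78) (nat_lit 0) (nat_lit 76) (XT.lf (nat_lit 76) (nat_lit 4411862646) (nat_lit 0) (nat_lit 16842638934) (nat_lit 836) (nat_lit 46236233963) (nat_lit 113) (nat_lit 5) (nat_lit 112) (nat_lit 5) (nat_lit 123) (nat_lit 5) (nat_lit 400) (nat_lit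 395) (nat_lit 225)) (XT.nd (nat_lit 78) (nat_lit 0) (nat_lit 0) (XT.lf (nat_lit 0) (nat_lit 24756713681) (nat_lit 760) (nat_lit 29727994143) (nat_lit 836) (nat_lit 14752758603) (nat_lit 113) (nat_lit 5) (nat_lit 123) (nat_lit 5) (nat_lit 124) (nat_lit 5) (nat_lit 401) (nat_lit 395) (nat_lit 224)) (XT.lf (nat_lit 76) (nat_lit 5179411772) (nat_lit 0) (nat_lit 23610688829) (nat_lit 836) (nat_lit 42263630679) (nat_lit 114) (nat_lit 5) (nat_lit 113) (nat_lit 5) (nat_lit 124) (nat_lit 5) (nat_lit 402) (nat_lit 395) (nat_lit 223))))) (XT.nd (nat_lit 234) (nat_lit 1064) (nat_lit 0) (XT.nd (nat_lit 78) (nat_lit 0) (nat_lit 0) (XT.lf (nat_lit 0) (nat_lit 33673497003) (nat_lit 760) (nat_lit 30217833659) (nat_lit 836) (nat_lit 9037062312) (nat_lit 114) (nat_lit 5) (nat_lit 124) (nat_lit 5) (nat_lit 125) (nat_lit 5) (nat_lit 403) (nat_lit 395) (nat_lit 222)) (XT.nd (nat_lit 78) (nat_lit 0) (nat_lit 76)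 (XT.lf (nat_lit 76) (nat_lit 7059686105) (nat_lit 0) (nat_lit 32237827004) (nat_lit 836) (nat_lit 35574452727) (nat_lit 115) (nat_lit 5) (nat_lit 114) (nat_lit 5) (nat_lit 125) (nat_lit 5) (nat_lit 404) (nat_lit 395) (nat_lit 221)) (XT.lf (nat_lit 0) (nat_lit 45737659202) (nat_lit 760) (nat_lit 29661644969) (nat_lit 76) (nat_lit 1486667259) (nat_lit 115) (nat_lit 5) (nat_lit 125) (nat_lit 5) (nat_lit 116) (nat_lit 5) (nat_lit 405) (nat_lit 395) (nat_lit 220)))) (XT.nd (nat_lit 156) (nat_lit 380) (nat_lit 0) (XT.nd (nat_lit 78) (nat_lit 0) (nat_lit 0) (XT.lf (nat_lit 0) (nat_lit 10193610183) (nat_lit 760) (nat_lit 42993079419) (nat_lit 836) (nat_lit 25779644376) (nat_lit 105) (nat_lit 5) (nat_lit 115) (nat_lit 5) (nat_lit 116) (nat_lit 5) (nat_lit 406) (nat_lit 395) (nat_lit 219)) (XT.lf (nat_lit 0) (nat_lit 53070742856) (nat_lit 760) (nat_lit 8439026043) (nat_lit 836) (nat_lit 19615866382)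 (nat_lit 105) (nat_lit 5) (nat_lit 115) (nat_lit 5) (nat_lit 116) (nat_lit 5) (nat_lit 407) (nat_lit 395) (nat_lit 218))) (XT.nd (nat_lit 78) (nat_lit 0) (nat_lit 0) (XT.lf (nat_lit 0) (nat_lit 14735066421) (nat_lit 380) (nat_lit 56177993611) (nat_lit 456) (nat_lit 12446639199) (nat_lit 100) (nat_lit 5) (nat_lit 105) (nat_lit 5) (nat_lit 106) (nat_lit 5) (nat_lit 408) (nat_lit 395) (nat_lit 217)) (XT.lf (nat_lit 0) (nat_lit 60494942432) (nat_lit 380) (nat_lit 20902131938) (nat_lit 456) (nat_lit 4277864526) (nat_lit 100) (nat_lit 5) (nat_lit 105) (nat_lit 5) (nat_lit 106) (nat_lit 5) (nat_lit 409) (nat_lit 395) (nat_lit 216))))))))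
noncomputable def xc214 : XT := (XT.nd (nat_lit 1950) (nat_lit 1900) (nat_lit 0) (XT.nd (nat_lit 936) (nat_lit 1596) (nat_lit 0) (XT.nd (nat_lit 468) (nat_lit 1140) (nat_lit 0) (XT.nd (nat_lit 234) (nat_lit 304) (nat_lit 0) (XT.nd (nat_lit 78) (nat_lit 380) (nat_lit 0) (XT.lf (nat_lit 0) (nat_lit 4748058226) (nat_lit 380) (nat_lit 67302042849) (nat_lit 76) (nat_lit 16023167867) (nat_lit 95) (nat_lit 5) (nat_lit 100) (nat_lit 5) (nat_lit 96) (nat_lit 5) (nat_lit 410) (nat_lit 395) (nat_lit 215)) (XT.nd (nat_lit 78) (nat_lit 380) (nat_lit 0) (XT.lf (nat_lit 0) (nat_lit 14856961382) (nat_lit 380) (nat_lit 21096445141) (nat_lit 76) (nat_lit 54595830484) (nat_lit 95) (nat_lit 5) (nat_lit 100) (nat_lit 5) (nat_lit 96) (nat_lit 5) (nat_lit 411) (nat_lit 395) (nat_lit 214)) (XT.lf (nat_lit 0) (nat_lit 25950607837) (nat_lit 456) (nat_lit 64839209667) (nat_lit 76) (nat_lit 2335221434) (nat_lit 90)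 (nat_lit 5) (nat_lit 96) (nat_lit 5) (nat_lit 91) (nat_lit 5) (nat_lit 412) (nat_lit 395) (nat_lit 213)))) (XT.nd (nat_lit 78) (nat_lit 304) (nat_lit 0) (XT.lf (nat_lit 0) (nat_lit 38550885200) (nat_lit 456) (nat_lit 15538048418) (nat_lit 76) (nat_lit 41693100274) (nat_lit 90) (nat_lit 5) (nat_lit 96) (nat_lit 5) (nat_lit 91) (nat_lit 5) (nat_lit 413) (nat_lit 395) (nat_lit 212)) (XT.nd (nat_lit 78) (nat_lit 0) (nat_lit 0) (XT.lf (nat_lit 0) (nat_lit 37425385931) (nat_lit 304) (nat_lit 14939546560) (nat_lit 380) (nat_lit 46177758636) (nat_lit 86) (nat_lit 5) (nat_lit 90) (nat_lit 5) (nat_lit 91) (nat_lit 5) (nat_lit 414) (nat_lit 395) (nat_lit 211)) (XT.lf (nat_lit 0) (nat_lit 67545142002) (nat_lit 380) (nat_lit 8265291994) (nat_lit 76) (nat_lit 25597174557) (nat_lit 86) (nat_lit 5) (nat_lit 91) (nat_lit 5) (nat_lit 87) (nat_lit 5) (nat_lit 415) (nat_lit 395) (nat_lit 210))))) (XT.nd (nat_lit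 234) (nat_lit 532) (nat_lit 0) (XT.nd (nat_lit 78) (nat_lit 304) (nat_lit 0) (XT.lf (nat_lit 0) (nat_lit 48537291469) (nat_lit 304) (nat_lit 35949266742) (nat_lit 380) (nat_lit 19879104132) (nat_lit 82) (nat_lit 5) (nat_lit 86) (nat_lit 5) (nat_lit 87) (nat_lit 5) (nat_lit 416) (nat_lit 395) (nat_lit 209)) (XT.nd (nat_lit 78) (nat_lit 76) (nat_lit 0) (XT.lf (nat_lit 0) (nat_lit 937215387) (nat_lit 228) (nat_lit 101586422812) (nat_lit 304) (nat_lit 4935551266) (nat_lit 79) (nat_lit 5) (nat_lit 82) (nat_lit 5) (nat_lit 83) (nat_lit 5) (nat_lit 417) (nat_lit 395) (nat_lit 208)) (XT.lf (nat_lit 0) (nat_lit 11960760792) (nat_lit 304) (nat_lit 48954190056) (nat_lit 76) (nat_lit 49706555714) (nat_lit 78) (nat_lit 5) (nat_lit 82) (nat_lit 5) (nat_lit 79) (nat_lit 5) (nat_lit 418) (nat_lit 395) (nat_lit 207)))) (XT.nd (nat_lit 78) (nat_lit 228) (nat_lit 0) (XT.lf (nat_lit 0) (nat_lit 11787747692)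 (nat_lit 304) (nat_lit 17931839421) (nat_lit 380) (nat_lit 84209128840) (nat_lit 74) (nat_lit 5) (nat_lit 78) (nat_lit 5) (nat_lit 79) (nat_lit 5) (nat_lit 419) (nat_lit 395) (nat_lit 206)) (XT.nd (nat_lit 78) (nat_lit 228) (nat_lit 0) (XT.lf (nat_lit 0) (nat_lit 49633220668) (nat_lit 380) (nat_lit 40532355236) (nat_lit 76) (nat_lit 27172366855) (nat_lit 74) (nat_lit 5) (nat_lit 79) (nat_lit 5) (nat_lit 75) (nat_lit 5) (nat_lit 420) (nat_lit 395) (nat_lit 205)) (XT.lf (nat_lit 0) (nat_lit 24651125510) (nat_lit 228) (nat_lit 46569807095) (nat_lit 304) (nat_lit 49662778691) (nat_lit 71) (nat_lit 5) (nat_lit 74) (nat_lit 5) (nat_lit 75) (nat_lit 5) (nat_lit 421) (nat_lit 395) (nat_lit 204)))))) (XT.nd (nat_lit 468) (nat_lit 836) (nat_lit 0) (XT.nd (nat_lit 234) (nat_lit 456) (nat_lit 0) (XT.nd (nat_lit 78) (nat_lit 304) (nat_lit 0) (XT.lf (nat_lit 0) (nat_lit 94500393315) (nat_lit 228) (nat_lit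 73642809) (nat_lit 304) (nat_lit 29998432055) (nat_lit 71) (nat_lit 5) (nat_lit 74) (nat_lit 5) (nat_lit 75) (nat_lit 5) (nat_lit 422) (nat_lit 395) (nat_lit 203)) (XT.nd (nat_lit 78) (nat_lit 76) (nat_lit 0) (XT.lf (nat_lit 0) (nat_lit 39912250779) (nat_lit 228) (nat_lit 80566357701) (nat_lit 304) (nat_lit 7897863949) (nat_lit 68) (nat_lit 5) (nat_lit 71) (nat_lit 5) (nat_lit 72) (nat_lit 5) (nat_lit 423) (nat_lit 395) (nat_lit 202)) (XT.lf (nat_lit 0) (nat_lit 15336224060) (nat_lit 304) (nat_lit 18154512324) (nat_lit 76) (nat_lit 98842069139) (nat_lit 67) (nat_lit 5) (nat_lit 71) (nat_lit 5) (nat_lit 68) (nat_lit 5) (nat_lit 424) (nat_lit 395) (nat_lit 201)))) (XT.nd (nat_lit 78) (nat_lit 228) (nat_lit 0) (XT.lf (nat_lit 0) (nat_lit 40627678962) (nat_lit 304) (nat_lit 79324275465) (nat_lit 76) (nat_lit 16470473239) (nat_lit 64) (nat_lit 5) (nat_lit 68) (nat_lit 5) (nat_lit 65) (nat_lit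 5) (nat_lit 425) (nat_lit 395) (nat_lit 200)) (XT.nd (nat_lit 78) (nat_lit 228) (nat_lit 0) (XT.lf (nat_lit 0) (nat_lit 68044850897) (nat_lit 304) (nat_lit 4512047734) (nat_lit 76) (nat_lit 68116575240) (nat_lit 64) (nat_lit 5) (nat_lit 68) (nat_lit 5) (nat_lit 65) (nat_lit 5) (nat_lit 426) (nat_lit 395) (nat_lit 199)) (XT.lf (nat_lit 0) (nat_lit 76488368769) (nat_lit 228) (nat_lit 21538348664) (nat_lit 304) (nat_lit 47050663316) (nat_lit 61) (nat_lit 5) (nat_lit 64) (nat_lit 5) (nat_lit 65) (nat_lit 5) (nat_lit 427) (nat_lit 395) (nat_lit 198))))) (XT.nd (nat_lit 234) (nat_lit 380) (nat_lit 0) (XT.nd (nat_lit 78) (nat_lit 304) (nat_lit 0) (XT.lf (nat_lit 0) (nat_lit 11876015451) (nat_lit 152) (nat_lit 118394486531) (nat_lit 228) (nat_lit 19392839908) (nat_lit 59) (nat_lit 5) (nat_lit 61) (nat_lit 5) (nat_lit 62) (nat_lit 5) (nat_lit 428) (nat_lit 395) (nat_lit 197)) (XT.nd (nat_lit 78)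 (nat_lit 228) (nat_lit 0) (XT.lf (nat_lit 0) (nat_lit 10872448243) (nat_lit 228) (nat_lit 56198270210) (nat_lit 76) (nat_lit 87323682967) (nat_lit 58) (nat_lit 5) (nat_lit 61) (nat_lit 5) (nat_lit 59) (nat_lit 5) (nat_lit 429) (nat_lit 395) (nat_lit 196)) (XT.lf (nat_lit 0) (nat_lit 30115701641) (nat_lit 228) (nat_lit 12353427457) (nat_lit 304) (nat_lit 116853496448) (nat_lit 55) (nat_lit 5) (nat_lit 58) (nat_lit 5) (nat_lit 59) (nat_lit 5) (nat_lit 430) (nat_lit 395) (nat_lit 195)))) (XT.nd (nat_lit 156) (nat_lit 228) (nat_lit 0) (XT.nd (nat_lit 78) (nat_lit 152) (nat_lit 0) (XT.lf (nat_lit 0) (nat_lit 77316794153) (nat_lit 304) (nat_lit 42473477821) (nat_lit 76) (nat_lit 44623431522) (nat_lit 55) (nat_lit 5) (nat_lit 59) (nat_lit 5) (nat_lit 56) (nat_lit 5) (nat_lit 431) (nat_lit 395) (nat_lit 194)) (XT.lf (nat_lit 0) (nat_lit 49993744259) (nat_lit 152) (nat_lit 64895841324) (nat_lit 228)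 (nat_lit 54820612726) (nat_lit 53) (nat_lit 5) (nat_lit 55) (nat_lit 5) (nat_lit 56) (nat_lit 5) (nat_lit 432) (nat_lit 395) (nat_lit 193))) (XT.nd (nat_lit 78) (nat_lit 228) (nat_lit 0) (XT.lf (nat_lit 0) (nat_lit 148558425504) (nat_lit 152) (nat_lit 6501592846) (nat_lit 228) (nat_lit 20175549540) (nat_lit 53) (nat_lit 5) (nat_lit 55) (nat_lit 5) (nat_lit 56) (nat_lit 5) (nat_lit 433) (nat_lit 395) (nat_lit 192)) (XT.lf (nat_lit 0) (nat_lit 17702842032) (nat_lit 228) (nat_lit 108745760283) (nat_lit 76) (nat_lit 54474974342) (nat_lit 50) (nat_lit 5) (nat_lit 53) (nat_lit 5) (nat_lit 51) (nat_lit 5) (nat_lit 434) (nat_lit 395) (nat_lit 191))))))) (XT.nd (nat_lit 1014) (nat_lit 836) (nat_lit 0) (XT.nd (nat_lit 468) (nat_lit 532) (nat_lit 0) (XT.nd (nat_lit 234) (nat_lit 228) (nat_lit 0) (XT.nd (nat_lit 78) (nat_lit 304) (nat_lit 0) (XT.lf (nat_lit 0) (nat_lit 57362609410) (nat_lit 228) (nat_lit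 10416916043) (nat_lit 76) (nat_lit 119071648826) (nat_lit 50) (nat_lit 5) (nat_lit 53) (nat_lit 5) (nat_lit 51) (nat_lit 5) (nat_lit 435) (nat_lit 395) (nat_lit 190)) (XT.nd (nat_lit 78) (nat_lit 152) (nat_lit 0) (XT.lf (nat_lit 0) (nat_lit 95897226929) (nat_lit 152) (nat_lit 4605083440) (nat_lit 228) (nat_lit 92497994245) (nat_lit 48) (nat_lit 5) (nat_lit 50) (nat_lit 5) (nat_lit 51) (nat_lit 5) (nat_lit 436) (nat_lit 395) (nat_lit 189)) (XT.lf (nat_lit 0) (nat_lit 7720670087) (nat_lit 152) (nat_lit 139341647861) (nat_lit 228) (nat_lit 52331407529) (nat_lit 46) (nat_lit 5) (nat_lit 48) (nat_lit 5) (nat_lit 49) (nat_lit 5) (nat_lit 437) (nat_lit 395) (nat_lit 188)))) (XT.nd (nat_lit 78) (nat_lit 228) (nat_lit 0) (XT.lf (nat_lit 0) (nat_lit 121078365557) (nat_lit 152) (nat_lit 76590453966) (nat_lit 228) (nat_lit 8352073267) (nat_lit 46) (nat_lit 5) (nat_lit 48) (nat_lit 5) (nat_lit 49) (nat_lit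 5) (nat_lit 438) (nat_lit 395) (nat_lit 187)) (XT.nd (nat_lit 78) (nat_lit 0) (nat_lit 0) (XT.lf (nat_lit 0) (nat_lit 27410834551) (nat_lit 152) (nat_lit 9632416605) (nat_lit 228) (nat_lit 175885253770) (nat_lit 43) (nat_lit 5) (nat_lit 45) (nat_lit 5) (nat_lit 46) (nat_lit 5) (nat_lit 439) (nat_lit 395) (nat_lit 186)) (XT.lf (nat_lit 0) (nat_lit 86836808566) (nat_lit 228) (nat_lit 72886919295) (nat_lit 76) (nat_lit 60330466362) (nat_lit 43) (nat_lit 5) (nat_lit 46) (nat_lit 5) (nat_lit 44) (nat_lit 5) (nat_lit 440) (nat_lit 395) (nat_lit 185))))) (XT.nd (nat_lit 234) (nat_lit 228) (nat_lit 0) (XT.nd (nat_lit 78) (nat_lit 152) (nat_lit 0) (XT.lf (nat_lit 0) (nat_lit 46712121134) (nat_lit 152) (nat_lit 93294892586) (nat_lit 228) (nat_lit 87484805841) (nat_lit 41) (nat_lit 5) (nat_lit 43) (nat_lit 5) (nat_lit 44) (nat_lit 5) (nat_lit 441) (nat_lit 395) (nat_lit 184)) (XT.nd (nat_lit 78) (nat_lit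 152) (nat_lit 0) (XT.lf (nat_lit 0) (nat_lit 174821170268) (nat_lit 152) (nat_lit 22248693654) (nat_lit 228) (nat_lit 38169755572) (nat_lit 41) (nat_lit 5) (nat_lit 43) (nat_lit 5) (nat_lit 44) (nat_lit 5) (nat_lit 442) (nat_lit 395) (nat_lit 183)) (XT.lf (nat_lit 0) (nat_lit 15073819624) (nat_lit 152) (nat_lit 176227486631) (nat_lit 76) (nat_lit 51967957353) (nat_lit 39) (nat_lit 5) (nat_lit 41) (nat_lit 5) (nat_lit 40) (nat_lit 5) (nat_lit 443) (nat_lit 395) (nat_lit 182)))) (XT.nd (nat_lit 156) (nat_lit 76) (nat_lit 0) (XT.nd (nat_lit 78) (nat_lit 152) (nat_lit 0) (XT.lf (nat_lit 0) (nat_lit 71101311396) (nat_lit 152) (nat_lit 49684266010) (nat_lit 76) (nat_lit 130813301301) (nat_lit 39) (nat_lit 5) (nat_lit 41) (nat_lit 5) (nat_lit 40) (nat_lit 5) (nat_lit 444) (nat_lit 395) (nat_lit 181)) (XT.lf (nat_lit 0) (nat_lit 85936227726) (nat_lit 152) (nat_lit 45335435868) (nat_lit 228) (nat_lit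 129006236730) (nat_lit 37) (nat_lit 5) (nat_lit 39) (nat_lit 5) (nat_lit 40) (nat_lit 5) (nat_lit 445) (nat_lit 395) (nat_lit 180))) (XT.nd (nat_lit 78) (nat_lit 76) (nat_lit 0) (XT.lf (nat_lit 0) (nat_lit 195834611240) (nat_lit 228) (nat_lit 39829384191) (nat_lit 76) (nat_lit 33657673752) (nat_lit 37) (nat_lit 5) (nat_lit 40) (nat_lit 5) (nat_lit 38) (nat_lit 4) (nat_lit 446) (nat_lit 395) (nat_lit 179)) (XT.lf (nat_lit 0) (nat_lit 103993384966) (nat_lit 76) (nat_lit 161998946208) (nat_lit 152) (nat_lit 12706964116) (nat_lit 36) (nat_lit 5) (nat_lit 37) (nat_lit 5) (nat_lit 38) (nat_lit 4) (nat_lit 447) (nat_lit 395) (nat_lit 178)))))) (XT.nd (nat_lit 468) (nat_lit 304) (nat_lit 0) (XT.nd (nat_lit 234) (nat_lit 304) (nat_lit 0) (XT.nd (nat_lit 78) (nat_lit 152) (nat_lit 0) (XT.lf (nat_lit 0) (nat_lit 50161608366) (nat_lit 152) (nat_lit 32931427382) (nat_lit 76) (nat_lit 205378597744) (nat_lit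 35) (nat_lit 5) (nat_lit 37) (nat_lit 5) (nat_lit 36) (nat_lit 5) (nat_lit 448) (nat_lit 395) (nat_lit 177)) (XT.nd (nat_lit 78) (nat_lit 0) (nat_lit 0) (XT.lf (nat_lit 0) (nat_lit 117643112857) (nat_lit 228) (nat_lit 179109646351) (nat_lit 76) (nat_lit 1874586861) (nat_lit 33) (nat_lit 5) (nat_lit 36) (nat_lit 5) (nat_lit 34) (nat_lit 4) (nat_lit 449) (nat_lit 395) (nat_lit 176)) (XT.lf (nat_lit 0) (nat_lit 190427531031) (nat_lit 228) (nat_lit 29902047098) (nat_lit 76) (nat_lit 88864824262) (nat_lit 33) (nat_lit 5) (nat_lit 36) (nat_lit 5) (nat_lit 34) (nat_lit 4) (nat_lit 450) (nat_lit 395) (nat_lit 175)))) (XT.nd (nat_lit 78) (nat_lit 228) (nat_lit 0) (XT.lf (nat_lit 0) (nat_lit 130957039428) (nat_lit 76) (nat_lit 137938551468) (nat_lit 152) (nat_lit 51291999635) (nat_lit 32) (nat_lit 5) (nat_lit 33) (nat_lit 5) (nat_lit 34) (nat_lit 4) (nat_lit 451) (nat_lit 395) (nat_lit 174)) (XT.nd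 (nat_lit 78) (nat_lit 152) (nat_lit 0) (XT.lf (nat_lit 0) (nat_lit 19445204259) (nat_lit 152) (nat_lit 31121877799) (nat_lit 76) (nat_lit 281122363254) (nat_lit 31) (nat_lit 5) (nat_lit 33) (nat_lit 5) (nat_lit 32) (nat_lit 5) (nat_lit 452) (nat_lit 395) (nat_lit 173)) (XT.lf (nat_lit 0) (nat_lit 94849510493) (nat_lit 228) (nat_lit 205824915846) (nat_lit 76) (nat_lit 42907224422) (nat_lit 29) (nat_lit 5) (nat_lit 32) (nat_lit 5) (nat_lit 30) (nat_lit 4) (nat_lit 453) (nat_lit 395) (nat_lit 172))))) (XT.nd (nat_lit 234) (nat_lit 228) (nat_lit 0) (XT.nd (nat_lit 78) (nat_lit 76) (nat_lit 0) (XT.lf (nat_lit 0) (nat_lit 175388530146) (nat_lit 228) (nat_lit 40720284418) (nat_lit 76) (nat_lit 139891427046) (nat_lit 29) (nat_lit 5) (nat_lit 32) (nat_lit 5) (nat_lit 30) (nat_lit 4) (nat_lit 454) (nat_lit 395) (nat_lit 171)) (XT.nd (nat_lit 78) (nat_lit 0) (nat_lit 0) (XT.lf (nat_lit 0) (nat_lit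 137024925484) (nat_lit 76) (nat_lit 125068751819) (nat_lit 152) (nat_lit 106839125902) (nat_lit 28) (nat_lit 5) (nat_lit 29) (nat_lit 5) (nat_lit 30) (nat_lit 4) (nat_lit 455) (nat_lit 395) (nat_lit 170)) (XT.lf (nat_lit 0) (nat_lit 325070810699) (nat_lit 76) (nat_lit 28752725487) (nat_lit 152) (nat_lit 28653984005) (nat_lit 28) (nat_lit 5) (nat_lit 29) (nat_lit 5) (nat_lit 30) (nat_lit 4) (nat_lit 456) (nat_lit 395) (nat_lit 169)))) (XT.nd (nat_lit 156) (nat_lit 76) (nat_lit 0) (XT.nd (nat_lit 78) (nat_lit 0) (nat_lit 0) (XT.lf (nat_lit 0) (nat_lit 54922478586) (nat_lit 152) (nat_lit 268616298402) (nat_lit 76) (nat_lit 72959353802) (nat_lit 26) (nat_lit 5) (nat_lit 28) (nat_lit 5) (nat_lit 27) (nat_lit 4) (nat_lit 457) (nat_lit 395) (nat_lit 168)) (XT.lf (nat_lit 0) (nat_lit 143174149803) (nat_lit 152) (nat_lit 87700653583) (nat_lit 76) (nat_lit 180248514324) (nat_lit 26) (nat_lit 5) (nat_lit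 28) (nat_lit 5) (nat_lit 27) (nat_lit 4) (nat_lit 458) (nat_lit 395) (nat_lit 167))) (XT.nd (nat_lit 78) (nat_lit 0) (nat_lit 0) (XT.lf (nat_lit 0) (nat_lit 105641687801) (nat_lit 76) (nat_lit 131845929890) (nat_lit 152) (nat_lit 188909685653) (nat_lit 25) (nat_lit 5) (nat_lit 26) (nat_lit 5) (nat_lit 27) (nat_lit 4) (nat_lit 459) (nat_lit 395) (nat_lit 166)) (XT.lf (nat_lit 0) (nat_lit 311695639992) (nat_lit 76) (nat_lit 26306225127) (nat_lit 152) (nat_lit 104358867858) (nat_lit 25) (nat_lit 5) (nat_lit 26) (nat_lit 5) (nat_lit 27) (nat_lit 4) (nat_lit 460) (nat_lit 395) (nat_lit 165))))))))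
noncomputable def xc215 : XT := (XT.nd (nat_lit 49218) (nat_lit 0) (nat_lit 2356) (XT.nd (nat_lit 48204) (nat_lit 0) (nat_lit 6156) (XT.nd (nat_lit 468) (nat_lit 152) (nat_lit 0) (XT.nd (nat_lit 234) (nat_lit 76) (nat_lit 0) (XT.nd (nat_lit 78) (nat_lit 152) (nat_lit 0) (XT.lf (nat_lit 0) (nat_lit 69845743550) (nat_lit 76) (nat_lit 376105872593) (nat_lit 76) (nat_lit 13050228409) (nat_lit 24) (nat_lit 4) (nat_lit 25) (nat_lit 5) (nat_lit 25) (nat_lit 4) (nat_lit 461) (nat_lit 395) (nat_lit 164)) (XT.nd (nat_lit 78) (nat_lit 76) (nat_lit 0) (XT.lf (nat_lit 0) (nat_lit 82853224201) (nat_lit 152) (nat_lit 193206754878) (nat_lit 76) (nat_lit 200216363959) (nat_lit 23) (nat_lit 5) (nat_lit 25) (nat_lit 5) (nat_lit 24) (nat_lit 4) (nat_lit 462) (nat_lit 395) (nat_lit 163)) (XT.lf (nat_lit 0) (nat_lit 12733414566) (nat_lit 76) (nat_lit 170578531226) (nat_lit 152) (nat_lit 311081990287) (nat_lit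 22) (nat_lit 5) (nat_lit 23) (nat_lit 5) (nat_lit 24) (nat_lit 4) (nat_lit 463) (nat_lit 395) (nat_lit 162)))) (XT.nd (nat_lit 78) (nat_lit 76) (nat_lit 0) (XT.lf (nat_lit 0) (nat_lit 235678044244) (nat_lit 76) (nat_lit 56387476917) (nat_lit 152) (nat_lit 221188291747) (nat_lit 22) (nat_lit 5) (nat_lit 23) (nat_lit 5) (nat_lit 24) (nat_lit 4) (nat_lit 464) (nat_lit 395) (nat_lit 161)) (XT.nd (nat_lit 78) (nat_lit 76) (nat_lit 0) (XT.lf (nat_lit 0) (nat_lit 407248265604) (nat_lit 152) (nat_lit 64278639248) (nat_lit 0) (nat_lit 61480204226) (nat_lit 22) (nat_lit 5) (nat_lit 24) (nat_lit 4) (nat_lit 22) (nat_lit 4) (nat_lit 465) (nat_lit 395) (nat_lit 160)) (XT.lf (nat_lit 0) (nat_lit 164008010824) (nat_lit 76) (nat_lit 367667024423) (nat_lit 76) (nat_lit 21898790427) (nat_lit 21) (nat_lit 4) (nat_lit 22) (nat_lit 5) (nat_lit 22) (nat_lit 4) (nat_lit 466) (nat_lit 395) (nat_lit 159))))) (XT.nd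 (nat_lit 234) (nat_lit 0) (nat_lit 0) (XT.nd (nat_lit 78) (nat_lit 76) (nat_lit 0) (XT.lf (nat_lit 0) (nat_lit 85471098778) (nat_lit 152) (nat_lit 170552645897) (nat_lit 76) (nat_lit 319021781609) (nat_lit 20) (nat_lit 5) (nat_lit 22) (nat_lit 5) (nat_lit 21) (nat_lit 4) (nat_lit 467) (nat_lit 395) (nat_lit 158)) (XT.nd (nat_lit 78) (nat_lit 0) (nat_lit 0) (XT.lf (nat_lit 0) (nat_lit 61004488764) (nat_lit 76) (nat_lit 137421386224) (nat_lit 152) (nat_lit 399099370348) (nat_lit 19) (nat_lit 5) (nat_lit 20) (nat_lit 5) (nat_lit 21) (nat_lit 4) (nat_lit 468) (nat_lit 395) (nat_lit 157)) (XT.lf (nat_lit 0) (nat_lit 310060465673) (nat_lit 76) (nat_lit 9856202497) (nat_lit 152) (nat_lit 301067868276) (nat_lit 19) (nat_lit 5) (nat_lit 20) (nat_lit 5) (nat_lit 21) (nat_lit 4) (nat_lit 469) (nat_lit 395) (nat_lit 156)))) (XT.nd (nat_lit 47346) (nat_lit 0) (nat_lit 6916) (XT.lf (nat_lit 0) (nat_lit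 449419241022) (nat_lit 152) (nat_lit 75985111020) (nat_lit 0) (nat_lit 120115578080) (nat_lit 19) (nat_lit 5) (nat_lit 21) (nat_lit 4) (nat_lit 19) (nat_lit 4) (nat_lit 470) (nat_lit 395) (nat_lit 155)) (XT.nd (nat_lit 78) (nat_lit 0) (nat_lit 0) (XT.lf (nat_lit 0) (nat_lit 6960100989) (nat_lit 836) (nat_lit 12157077601) (nat_lit 836) (nat_lit 12157077601) (nat_lit 110) (nat_lit 3) (nat_lit 121) (nat_lit 3) (nat_lit 121) (nat_lit 5) (nat_lit 396) (nat_lit 396) (nat_lit 228)) (XT.lf (nat_lit 76) (nat_lit 6015343656) (nat_lit 0) (nat_lit 8363055735) (nat_lit 836) (nat_lit 49728304693) (nat_lit 111) (nat_lit 5) (nat_lit 110) (nat_lit 3) (nat_lit 121) (nat_lit 5) (nat_lit 397) (nat_lit 396) (nat_lit 227)))))) (XT.nd (nat_lit 468) (nat_lit 836) (nat_lit 0) (XT.nd (nat_lit 234) (nat_lit 0) (nat_lit 76) (XT.nd (nat_lit 78) (nat_lit 0) (nat_lit 0) (XT.lf (nat_lit 0) (nat_lit 15636108628) (nat_lit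 760) (nat_lit 27383266124) (nat_lit 836) (nat_lit 22684601252) (nat_lit 111) (nat_lit 5) (nat_lit 121) (nat_lit 5) (nat_lit 122) (nat_lit 5) (nat_lit 398) (nat_lit 396) (nat_lit 226)) (XT.nd (nat_lit 78) (nat_lit 0) (nat_lit 76) (XT.lf (nat_lit 76) (nat_lit 4878685556) (nat_lit 0) (nat_lit 12290293552) (nat_lit 836) (nat_lit 50201519325) (nat_lit 112) (nat_lit 5) (nat_lit 111) (nat_lit 5) (nat_lit 122) (nat_lit 5) (nat_lit 399) (nat_lit 396) (nat_lit 225)) (XT.lf (nat_lit 0) (nat_lit 19560764370) (nat_lit 760) (nat_lit 29712852531) (nat_lit 836) (nat_lit 19807617188) (nat_lit 112) (nat_lit 5) (nat_lit 122) (nat_lit 5) (nat_lit 123) (nat_lit 5) (nat_lit 400) (nat_lit 396) (nat_lit 224)))) (XT.nd (nat_lit 78) (nat_lit 0) (nat_lit 76) (XT.lf (nat_lit 76) (nat_lit 4651853465) (nat_lit 0) (nat_lit 17693489788) (nat_lit 836) (nat_lit 48518503690) (nat_lit 113) (nat_lit 5) (nat_lit 112) (nat_lit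 5) (nat_lit 123) (nat_lit 5) (nat_lit 401) (nat_lit 396) (nat_lit 223)) (XT.nd (nat_lit 78) (nat_lit 0) (nat_lit 0) (XT.lf (nat_lit 0) (nat_lit 26021197430) (nat_lit 760) (nat_lit 31194432716) (nat_lit 836) (nat_lit 15482358583) (nat_lit 113) (nat_lit 5) (nat_lit 123) (nat_lit 5) (nat_lit 124) (nat_lit 5) (nat_lit 402) (nat_lit 396) (nat_lit 222)) (XT.lf (nat_lit 76) (nat_lit 5458021540) (nat_lit 0) (nat_lit 24797269822) (nat_lit 836) (nat_lit 44349824465) (nat_lit 114) (nat_lit 5) (nat_lit 113) (nat_lit 5) (nat_lit 124) (nat_lit 5) (nat_lit 403) (nat_lit 396) (nat_lit 221))))) (XT.nd (nat_lit 234) (nat_lit 1064) (nat_lit 0) (XT.nd (nat_lit 78) (nat_lit 0) (nat_lit 0) (XT.lf (nat_lit 0) (nat_lit 35381544547) (nat_lit 760) (nat_lit 31708691438) (nat_lit 836) (nat_lit 9483341119) (nat_lit 114) (nat_lit 5) (nat_lit 124) (nat_lit 5) (nat_lit 125) (nat_lit 5) (nat_lit 404) (nat_lit 396) (nat_lit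 220)) (XT.nd (nat_lit 78) (nat_lit 0) (nat_lit 76) (XT.lf (nat_lit 76) (nat_lit 7432381186) (nat_lit 0) (nat_lit 33853527407) (nat_lit 836) (nat_lit 37328463462) (nat_lit 115) (nat_lit 5) (nat_lit 114) (nat_lit 5) (nat_lit 125) (nat_lit 5) (nat_lit 405) (nat_lit 396) (nat_lit 219)) (XT.lf (nat_lit 0) (nat_lit 48046885362) (nat_lit 760) (nat_lit 31124763105) (nat_lit 76) (nat_lit 1557489061) (nat_lit 115) (nat_lit 5) (nat_lit 125) (nat_lit 5) (nat_lit 116) (nat_lit 5) (nat_lit 406) (nat_lit 396) (nat_lit 218)))) (XT.nd (nat_lit 156) (nat_lit 380) (nat_lit 0) (XT.nd (nat_lit 78) (nat_lit 0) (nat_lit 0) (XT.lf (nat_lit 0) (nat_lit 10722932803) (nat_lit 760) (nat_lit 45144677184) (nat_lit 836) (nat_lit 27045946807) (nat_lit 105) (nat_lit 5) (nat_lit 115) (nat_lit 5) (nat_lit 116) (nat_lit 5) (nat_lit 407) (nat_lit 396) (nat_lit 217)) (XT.lf (nat_lit 0) (nat_lit 55742986771) (nat_lit 760) (nat_lit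 8862828578) (nat_lit 836) (nat_lit 20575059904) (nat_lit 105) (nat_lit 5) (nat_lit 115) (nat_lit 5) (nat_lit 116) (nat_lit 5) (nat_lit 408) (nat_lit 396) (nat_lit 216))) (XT.nd (nat_lit 78) (nat_lit 0) (nat_lit 0) (XT.lf (nat_lit 0) (nat_lit 15491278217) (nat_lit 380) (nat_lit 58987290143) (nat_lit 456) (nat_lit 13048109835) (nat_lit 100) (nat_lit 5) (nat_lit 105) (nat_lit 5) (nat_lit 106) (nat_lit 5) (nat_lit 409) (nat_lit 396) (nat_lit 215)) (XT.lf (nat_lit 0) (nat_lit 63538221435) (nat_lit 380) (nat_lit 21947616489) (nat_lit 456) (nat_lit 4471889825) (nat_lit 100) (nat_lit 5) (nat_lit 105) (nat_lit 5) (nat_lit 106) (nat_lit 5) (nat_lit 410) (nat_lit 396) (nat_lit 214))))))) (XT.nd (nat_lit 1014) (nat_lit 1596) (nat_lit 0) (XT.nd (nat_lit 468) (nat_lit 1140) (nat_lit 0) (XT.nd (nat_lit 234) (nat_lit 304) (nat_lit 0) (XT.nd (nat_lit 78) (nat_lit 380) (nat_lit 0) (XT.lf (nat_lit 0) (nat_lit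 5004076029) (nat_lit 380) (nat_lit 70647336646) (nat_lit 76) (nat_lit 16824577541) (nat_lit 95) (nat_lit 5) (nat_lit 100) (nat_lit 5) (nat_lit 96) (nat_lit 5) (nat_lit 411) (nat_lit 396) (nat_lit 213)) (XT.nd (nat_lit 78) (nat_lit 380) (nat_lit 0) (XT.lf (nat_lit 0) (nat_lit 15617537919) (nat_lit 380) (nat_lit 22132402307) (nat_lit 76) (nat_lit 57325861323) (nat_lit 95) (nat_lit 5) (nat_lit 100) (nat_lit 5) (nat_lit 96) (nat_lit 5) (nat_lit 412) (nat_lit 396) (nat_lit 212)) (XT.lf (nat_lit 0) (nat_lit 27265333923) (nat_lit 456) (nat_lit 68061761919) (nat_lit 76) (nat_lit 2453324894) (nat_lit 90) (nat_lit 5) (nat_lit 96) (nat_lit 5) (nat_lit 91) (nat_lit 5) (nat_lit 413) (nat_lit 396) (nat_lit 211)))) (XT.nd (nat_lit 78) (nat_lit 304) (nat_lit 0) (XT.lf (nat_lit 0) (nat_lit 40494806311) (nat_lit 456) (nat_lit 16296466809) (nat_lit 76) (nat_lit 43779033752) (nat_lit 90) (nat_lit 5) (nat_lit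 96) (nat_lit 5) (nat_lit 91) (nat_lit 5) (nat_lit 414) (nat_lit 396) (nat_lit 210)) (XT.nd (nat_lit 78) (nat_lit 0) (nat_lit 0) (XT.lf (nat_lit 0) (nat_lit 39314841129) (nat_lit 304) (nat_lit 15684218921) (nat_lit 380) (nat_lit 48469962185) (nat_lit 86) (nat_lit 5) (nat_lit 90) (nat_lit 5) (nat_lit 91) (nat_lit 5) (nat_lit 415) (nat_lit 396) (nat_lit 209)) (XT.lf (nat_lit 0) (nat_lit 70937558074) (nat_lit 380) (nat_lit 8660505772) (nat_lit 76) (nat_lit 26879158231) (nat_lit 86) (nat_lit 5) (nat_lit 91) (nat_lit 5) (nat_lit 87) (nat_lit 5) (nat_lit 416) (nat_lit 396) (nat_lit 208))))) (XT.nd (nat_lit 234) (nat_lit 532) (nat_lit 0) (XT.nd (nat_lit 78) (nat_lit 304) (nat_lit 0) (XT.lf (nat_lit 0) (nat_lit 50981915722) (nat_lit 304) (nat_lit 37743684794) (nat_lit 380) (nat_lit 20857600696) (nat_lit 82) (nat_lit 5) (nat_lit 86) (nat_lit 5) (nat_lit 87) (nat_lit 5) (nat_lit 417) (nat_lit 396)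 (nat_lit 207)) (XT.nd (nat_lit 78) (nat_lit 76) (nat_lit 0) (XT.lf (nat_lit 0) (nat_lit 1002234855) (nat_lit 228) (nat_lit 106661927754) (nat_lit 304) (nat_lit 5167261084) (nat_lit 79) (nat_lit 5) (nat_lit 82) (nat_lit 5) (nat_lit 83) (nat_lit 5) (nat_lit 418) (nat_lit 396) (nat_lit 206)) (XT.lf (nat_lit 0) (nat_lit 12572689769) (nat_lit 304) (nat_lit 51384138896) (nat_lit 76) (nat_lit 52195051312) (nat_lit 78) (nat_lit 5) (nat_lit 82) (nat_lit 5) (nat_lit 79) (nat_lit 5) (nat_lit 419) (nat_lit 396) (nat_lit 205)))) (XT.nd (nat_lit 156) (nat_lit 228) (nat_lit 0) (XT.nd (nat_lit 78) (nat_lit 0) (nat_lit 0) (XT.lf (nat_lit 0) (nat_lit 12394609277) (nat_lit 304) (nat_lit 18824459478) (nat_lit 380) (nat_lit 88405400867) (nat_lit 74) (nat_lit 5) (nat_lit 78) (nat_lit 5) (nat_lit 79) (nat_lit 5) (nat_lit 420) (nat_lit 396) (nat_lit 204)) (XT.lf (nat_lit 0) (nat_lit 52127800080) (nat_lit 380) (nat_lit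 42541740314) (nat_lit 76) (nat_lit 28534646902) (nat_lit 74) (nat_lit 5) (nat_lit 79) (nat_lit 5) (nat_lit 75) (nat_lit 5) (nat_lit 421) (nat_lit 396) (nat_lit 203))) (XT.nd (nat_lit 78) (nat_lit 0) (nat_lit 0) (XT.lf (nat_lit 0) (nat_lit 25900636522) (nat_lit 228) (nat_lit 48893910642) (nat_lit 304) (nat_lit 52132714937) (nat_lit 71) (nat_lit 5) (nat_lit 74) (nat_lit 5) (nat_lit 75) (nat_lit 5) (nat_lit 422) (nat_lit 396) (nat_lit 202)) (XT.lf (nat_lit 0) (nat_lit 99241560349) (nat_lit 228) (nat_lit 73147037) (nat_lit 304) (nat_lit 31485779668) (nat_lit 71) (nat_lit 5) (nat_lit 74) (nat_lit 5) (nat_lit 75) (nat_lit 5) (nat_lit 423) (nat_lit 396) (nat_lit 201)))))) (XT.nd (nat_lit 468) (nat_lit 684) (nat_lit 0) (XT.nd (nat_lit 234) (nat_lit 380) (nat_lit 0) (XT.nd (nat_lit 78) (nat_lit 304) (nat_lit 0) (XT.lf (nat_lit 0) (nat_lit 41924280851) (nat_lit 228) (nat_lit 84589975982) (nat_lit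 304) (nat_lit 8280447550) (nat_lit 68) (nat_lit 5) (nat_lit 71) (nat_lit 5) (nat_lit 72) (nat_lit 5) (nat_lit 424) (nat_lit 396) (nat_lit 200)) (XT.nd (nat_lit 78) (nat_lit 228) (nat_lit 0) (XT.lf (nat_lit 0) (nat_lit 16114383466) (nat_lit 304) (nat_lit 19046221736) (nat_lit 76) (nat_lit 103788267952) (nat_lit 67) (nat_lit 5) (nat_lit 71) (nat_lit 5) (nat_lit 68) (nat_lit 5) (nat_lit 425) (nat_lit 396) (nat_lit 199)) (XT.lf (nat_lit 0) (nat_lit 42670190190) (nat_lit 304) (nat_lit 83274247126) (nat_lit 76) (nat_lit 17298550383) (nat_lit 64) (nat_lit 5) (nat_lit 68) (nat_lit 5) (nat_lit 65) (nat_lit 5) (nat_lit 426) (nat_lit 396) (nat_lit 198)))) (XT.nd (nat_lit 78) (nat_lit 380) (nat_lit 0) (XT.lf (nat_lit 0) (nat_lit 71457690852) (nat_lit 304) (nat_lit 4722181442) (nat_lit 76) (nat_lit 71526740652) (nat_lit 64) (nat_lit 5) (nat_lit 68) (nat_lit 5) (nat_lit 65) (nat_lit 5) (nat_lit 427) (nat_lit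 396) (nat_lit 197)) (XT.nd (nat_lit 78) (nat_lit 152) (nat_lit 0) (XT.lf (nat_lit 0) (nat_lit 80328006391) (nat_lit 228) (nat_lit 22610377299) (nat_lit 304) (nat_lit 49392345055) (nat_lit 61) (nat_lit 5) (nat_lit 64) (nat_lit 5) (nat_lit 65) (nat_lit 5) (nat_lit 428) (nat_lit 396) (nat_lit 196)) (XT.lf (nat_lit 0) (nat_lit 12485227478) (nat_lit 152) (nat_lit 124308951371) (nat_lit 228) (nat_lit 20351818240) (nat_lit 59) (nat_lit 5) (nat_lit 61) (nat_lit 5) (nat_lit 62) (nat_lit 5) (nat_lit 429) (nat_lit 396) (nat_lit 195))))) (XT.nd (nat_lit 234) (nat_lit 380) (nat_lit 0) (XT.nd (nat_lit 78) (nat_lit 228) (nat_lit 0) (XT.lf (nat_lit 0) (nat_lit 11425901474) (nat_lit 228) (nat_lit 58993177377) (nat_lit 76) (nat_lit 91694547192) (nat_lit 58) (nat_lit 5) (nat_lit 61) (nat_lit 5) (nat_lit 59) (nat_lit 5) (nat_lit 430) (nat_lit 396) (nat_lit 194)) (XT.nd (nat_lit 78) (nat_lit 0) (nat_lit 0) (XT.lf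 (nat_lit 0) (nat_lit 31636251029) (nat_lit 228) (nat_lit 12965927721) (nat_lit 304) (nat_lit 122686094693) (nat_lit 55) (nat_lit 5) (nat_lit 58) (nat_lit 5) (nat_lit 59) (nat_lit 5) (nat_lit 431) (nat_lit 396) (nat_lit 193)) (XT.lf (nat_lit 0) (nat_lit 81191847130) (nat_lit 304) (nat_lit 44582706997) (nat_lit 76) (nat_lit 46859370337) (nat_lit 55) (nat_lit 5) (nat_lit 59) (nat_lit 5) (nat_lit 56) (nat_lit 5) (nat_lit 432) (nat_lit 396) (nat_lit 192)))) (XT.nd (nat_lit 156) (nat_lit 228) (nat_lit 0) (XT.nd (nat_lit 78) (nat_lit 0) (nat_lit 0) (XT.lf (nat_lit 0) (nat_lit 52507643208) (nat_lit 152) (nat_lit 68135418082) (nat_lit 228) (nat_lit 57552193739) (nat_lit 53) (nat_lit 5) (nat_lit 55) (nat_lit 5) (nat_lit 56) (nat_lit 5) (nat_lit 433) (nat_lit 396) (nat_lit 191)) (XT.lf (nat_lit 0) (nat_lit 155999881766) (nat_lit 152) (nat_lit 6821705527) (nat_lit 228) (nat_lit 21175327376) (nat_lit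 53) (nat_lit 5) (nat_lit 55) (nat_lit 5) (nat_lit 56) (nat_lit 5) (nat_lit 434) (nat_lit 396) (nat_lit 190))) (XT.nd (nat_lit 78) (nat_lit 0) (nat_lit 0) (XT.lf (nat_lit 0) (nat_lit 18596572805) (nat_lit 228) (nat_lit 114169096365) (nat_lit 76) (nat_lit 57203653971) (nat_lit 50) (nat_lit 5) (nat_lit 53) (nat_lit 5) (nat_lit 51) (nat_lit 5) (nat_lit 435) (nat_lit 396) (nat_lit 189)) (XT.lf (nat_lit 0) (nat_lit 60238919567) (nat_lit 228) (nat_lit 10924474291) (nat_lit 76) (nat_lit 125029927373) (nat_lit 50) (nat_lit 5) (nat_lit 53) (nat_lit 5) (nat_lit 51) (nat_lit 5) (nat_lit 436) (nat_lit 396) (nat_lit 188))))))))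
noncomputable def xc216 : XT := (XT.nd (nat_lit 1950) (nat_lit 456) (nat_lit 0) (XT.nd (nat_lit 936) (nat_lit 836) (nat_lit 0) (XT.nd (nat_lit 468) (nat_lit 380) (nat_lit 0) (XT.nd (nat_lit 234) (nat_lit 380) (nat_lit 0) (XT.nd (nat_lit 78) (nat_lit 152) (nat_lit 0) (XT.lf (nat_lit 0) (nat_lit 100705161514) (nat_lit 152) (nat_lit 4830258661) (nat_lit 228) (nat_lit 97114497310) (nat_lit 48) (nat_lit 5) (nat_lit 50) (nat_lit 5) (nat_lit 51) (nat_lit 5) (nat_lit 437) (nat_lit 396) (nat_lit 187)) (XT.nd (nat_lit 78) (nat_lit 0) (nat_lit 0) (XT.lf (nat_lit 0) (nat_lit 8119883823) (nat_lit 152) (nat_lit 146303444931) (nat_lit 228) (nat_lit 54939685733) (nat_lit 46) (nat_lit 5) (nat_lit 48) (nat_lit 5) (nat_lit 49) (nat_lit 5) (nat_lit 438) (nat_lit 396) (nat_lit 186)) (XT.lf (nat_lit 0) (nat_lit 127144836436) (nat_lit 152) (nat_lit 80414943023) (nat_lit 228) (nat_lit 8761779623) (nat_lit 46) (nat_lit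 5) (nat_lit 48) (nat_lit 5) (nat_lit 49) (nat_lit 5) (nat_lit 439) (nat_lit 396) (nat_lit 185)))) (XT.nd (nat_lit 78) (nat_lit 152) (nat_lit 0) (XT.lf (nat_lit 0) (nat_lit 28793977353) (nat_lit 152) (nat_lit 10108913617) (nat_lit 228) (nat_lit 184671663164) (nat_lit 43) (nat_lit 5) (nat_lit 45) (nat_lit 5) (nat_lit 46) (nat_lit 5) (nat_lit 440) (nat_lit 396) (nat_lit 184)) (XT.nd (nat_lit 78) (nat_lit 152) (nat_lit 0) (XT.lf (nat_lit 0) (nat_lit 91185846378) (nat_lit 228) (nat_lit 76518982293) (nat_lit 76) (nat_lit 63351713322) (nat_lit 43) (nat_lit 5) (nat_lit 46) (nat_lit 5) (nat_lit 44) (nat_lit 5) (nat_lit 441) (nat_lit 396) (nat_lit 183)) (XT.lf (nat_lit 0) (nat_lit 49059812045) (nat_lit 152) (nat_lit 97954595691) (nat_lit 228) (nat_lit 91851648664) (nat_lit 41) (nat_lit 5) (nat_lit 43) (nat_lit 5) (nat_lit 44) (nat_lit 5) (nat_lit 442) (nat_lit 396) (nat_lit 182))))) (XT.nd (nat_lit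 234) (nat_lit 228) (nat_lit 0) (XT.nd (nat_lit 78) (nat_lit 152) (nat_lit 0) (XT.lf (nat_lit 0) (nat_lit 183573738166) (nat_lit 152) (nat_lit 23356326885) (nat_lit 228) (nat_lit 40071198141) (nat_lit 41) (nat_lit 5) (nat_lit 43) (nat_lit 5) (nat_lit 44) (nat_lit 5) (nat_lit 443) (nat_lit 396) (nat_lit 181)) (XT.nd (nat_lit 78) (nat_lit 0) (nat_lit 0) (XT.lf (nat_lit 0) (nat_lit 15834261929) (nat_lit 152) (nat_lit 185027054198) (nat_lit 76) (nat_lit 54571071391) (nat_lit 39) (nat_lit 5) (nat_lit 41) (nat_lit 5) (nat_lit 40) (nat_lit 5) (nat_lit 444) (nat_lit 396) (nat_lit 180)) (XT.lf (nat_lit 0) (nat_lit 74662806798) (nat_lit 152) (nat_lit 52157234773) (nat_lit 76) (nat_lit 137358457957) (nat_lit 39) (nat_lit 5) (nat_lit 41) (nat_lit 5) (nat_lit 40) (nat_lit 5) (nat_lit 445) (nat_lit 396) (nat_lit 179)))) (XT.nd (nat_lit 78) (nat_lit 76) (nat_lit 0) (XT.lf (nat_lit 0) (nat_lit 90244102287)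 (nat_lit 152) (nat_lit 47597440865) (nat_lit 228) (nat_lit 135449935824) (nat_lit 37) (nat_lit 5) (nat_lit 39) (nat_lit 5) (nat_lit 40) (nat_lit 5) (nat_lit 446) (nat_lit 396) (nat_lit 178)) (XT.nd (nat_lit 78) (nat_lit 76) (nat_lit 0) (XT.lf (nat_lit 0) (nat_lit 205632409231) (nat_lit 228) (nat_lit 41810086623) (nat_lit 76) (nat_lit 35344951945) (nat_lit 37) (nat_lit 5) (nat_lit 40) (nat_lit 5) (nat_lit 38) (nat_lit 4) (nat_lit 447) (nat_lit 396) (nat_lit 177)) (XT.lf (nat_lit 0) (nat_lit 109203647334) (nat_lit 76) (nat_lit 170094244291) (nat_lit 152) (nat_lit 13336069833) (nat_lit 36) (nat_lit 5) (nat_lit 37) (nat_lit 5) (nat_lit 38) (nat_lit 4) (nat_lit 448) (nat_lit 396) (nat_lit 176)))))) (XT.nd (nat_lit 468) (nat_lit 304) (nat_lit 0) (XT.nd (nat_lit 234) (nat_lit 304) (nat_lit 0) (XT.nd (nat_lit 78) (nat_lit 152) (nat_lit 0) (XT.lf (nat_lit 0) (nat_lit 52675443728) (nat_lit 152) (nat_lit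 34567718510) (nat_lit 76) (nat_lit 215651763910) (nat_lit 35) (nat_lit 5) (nat_lit 37) (nat_lit 5) (nat_lit 36) (nat_lit 5) (nat_lit 449) (nat_lit 396) (nat_lit 175)) (XT.nd (nat_lit 78) (nat_lit 0) (nat_lit 0) (XT.lf (nat_lit 0) (nat_lit 123530977189) (nat_lit 228) (nat_lit 188054800962) (nat_lit 76) (nat_lit 1972648575) (nat_lit 33) (nat_lit 5) (nat_lit 36) (nat_lit 5) (nat_lit 34) (nat_lit 4) (nat_lit 450) (nat_lit 396) (nat_lit 174)) (XT.lf (nat_lit 0) (nat_lit 199954344430) (nat_lit 228) (nat_lit 31387313542) (nat_lit 76) (nat_lit 93312191542) (nat_lit 33) (nat_lit 5) (nat_lit 36) (nat_lit 5) (nat_lit 34) (nat_lit 4) (nat_lit 451) (nat_lit 396) (nat_lit 173)))) (XT.nd (nat_lit 78) (nat_lit 228) (nat_lit 0) (XT.lf (nat_lit 0) (nat_lit 137514568666) (nat_lit 76) (nat_lit 144831130813) (nat_lit 152) (nat_lit 53851003027) (nat_lit 32) (nat_lit 5) (nat_lit 33) (nat_lit 5) (nat_lit 34) (nat_lit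 4) (nat_lit 452) (nat_lit 396) (nat_lit 172)) (XT.nd (nat_lit 78) (nat_lit 152) (nat_lit 0) (XT.lf (nat_lit 0) (nat_lit 20422623961) (nat_lit 152) (nat_lit 32668583652) (nat_lit 76) (nat_lit 295182450994) (nat_lit 31) (nat_lit 5) (nat_lit 33) (nat_lit 5) (nat_lit 32) (nat_lit 5) (nat_lit 453) (nat_lit 396) (nat_lit 171)) (XT.lf (nat_lit 0) (nat_lit 99597109266) (nat_lit 228) (nat_lit 216106736411) (nat_lit 76) (nat_lit 45056630510) (nat_lit 29) (nat_lit 5) (nat_lit 32) (nat_lit 5) (nat_lit 30) (nat_lit 4) (nat_lit 454) (nat_lit 396) (nat_lit 170))))) (XT.nd (nat_lit 234) (nat_lit 228) (nat_lit 0) (XT.nd (nat_lit 78) (nat_lit 76) (nat_lit 0) (XT.lf (nat_lit 0) (nat_lit 184162835938) (nat_lit 228) (nat_lit 42747322231) (nat_lit 76) (nat_lit 146889850653) (nat_lit 29) (nat_lit 5) (nat_lit 32) (nat_lit 5) (nat_lit 30) (nat_lit 4) (nat_lit 455) (nat_lit 396) (nat_lit 169)) (XT.nd (nat_lit 78)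 (nat_lit 0) (nat_lit 0) (XT.lf (nat_lit 0) (nat_lit 143885003384) (nat_lit 76) (nat_lit 131318142608) (nat_lit 152) (nat_lit 112176057271) (nat_lit 28) (nat_lit 5) (nat_lit 29) (nat_lit 5) (nat_lit 30) (nat_lit 4) (nat_lit 456) (nat_lit 396) (nat_lit 168)) (XT.lf (nat_lit 0) (nat_lit 341332762307) (nat_lit 76) (nat_lit 30186507665) (nat_lit 152) (nat_lit 30081897562) (nat_lit 28) (nat_lit 5) (nat_lit 29) (nat_lit 5) (nat_lit 30) (nat_lit 4) (nat_lit 457) (nat_lit 396) (nat_lit 167)))) (XT.nd (nat_lit 156) (nat_lit 76) (nat_lit 0) (XT.nd (nat_lit 78) (nat_lit 0) (nat_lit 0) (XT.lf (nat_lit 0) (nat_lit 57673206594) (nat_lit 152) (nat_lit 282038519160) (nat_lit 76) (nat_lit 76611080630) (nat_lit 26) (nat_lit 5) (nat_lit 28) (nat_lit 5) (nat_lit 27) (nat_lit 4) (nat_lit 458) (nat_lit 396) (nat_lit 166)) (XT.lf (nat_lit 0) (nat_lit 150337242130) (nat_lit 152) (nat_lit 92077501345) (nat_lit 76)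 (nat_lit 189264520171) (nat_lit 26) (nat_lit 5) (nat_lit 28) (nat_lit 5) (nat_lit 27) (nat_lit 4) (nat_lit 459) (nat_lit 396) (nat_lit 165))) (XT.nd (nat_lit 78) (nat_lit 0) (nat_lit 0) (XT.lf (nat_lit 0) (nat_lit 110931825094) (nat_lit 76) (nat_lit 138434475245) (nat_lit 152) (nat_lit 198350652411) (nat_lit 25) (nat_lit 5) (nat_lit 26) (nat_lit 5) (nat_lit 27) (nat_lit 4) (nat_lit 460) (nat_lit 396) (nat_lit 164)) (XT.lf (nat_lit 0) (nat_lit 327288091422) (nat_lit 76) (nat_lit 27617963869) (nat_lit 152) (nat_lit 109572508846) (nat_lit 25) (nat_lit 5) (nat_lit 26) (nat_lit 5) (nat_lit 27) (nat_lit 4) (nat_lit 461) (nat_lit 396) (nat_lit 163))))))) (XT.nd (nat_lit 48360) (nat_lit 0) (nat_lit 5776) (XT.nd (nat_lit 468) (nat_lit 152) (nat_lit 0) (XT.nd (nat_lit 234) (nat_lit 76) (nat_lit 0) (XT.nd (nat_lit 78) (nat_lit 152) (nat_lit 0) (XT.lf (nat_lit 0) (nat_lit 73345723754) (nat_lit 76) (nat_lit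 394907548251) (nat_lit 76) (nat_lit 13698460408) (nat_lit 24) (nat_lit 4) (nat_lit 25) (nat_lit 5) (nat_lit 25) (nat_lit 4) (nat_lit 462) (nat_lit 396) (nat_lit 162)) (XT.nd (nat_lit 78) (nat_lit 76) (nat_lit 0) (XT.lf (nat_lit 0) (nat_lit 86999830605) (nat_lit 152) (nat_lit 202859634928) (nat_lit 76) (nat_lit 210230496842) (nat_lit 23) (nat_lit 5) (nat_lit 25) (nat_lit 5) (nat_lit 24) (nat_lit 4) (nat_lit 463) (nat_lit 396) (nat_lit 161)) (XT.lf (nat_lit 0) (nat_lit 13377422702) (nat_lit 76) (nat_lit 179103992264) (nat_lit 152) (nat_lit 326632023795) (nat_lit 22) (nat_lit 5) (nat_lit 23) (nat_lit 5) (nat_lit 24) (nat_lit 4) (nat_lit 464) (nat_lit 396) (nat_lit 160)))) (XT.nd (nat_lit 78) (nat_lit 76) (nat_lit 0) (XT.lf (nat_lit 0) (nat_lit 247468934463) (nat_lit 76) (nat_lit 59203550264) (nat_lit 152) (nat_lit 232243833947) (nat_lit 22) (nat_lit 5) (nat_lit 23) (nat_lit 5) (nat_lit 24)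 (nat_lit 4) (nat_lit 465) (nat_lit 396) (nat_lit 159)) (XT.nd (nat_lit 78) (nat_lit 76) (nat_lit 0) (XT.lf (nat_lit 0) (nat_lit 427614239874) (nat_lit 152) (nat_lit 67485788966) (nat_lit 0) (nat_lit 64557257163) (nat_lit 22) (nat_lit 5) (nat_lit 24) (nat_lit 4) (nat_lit 22) (nat_lit 4) (nat_lit 466) (nat_lit 396) (nat_lit 158)) (XT.lf (nat_lit 0) (nat_lit 172215084219) (nat_lit 76) (nat_lit 386047198391) (nat_lit 76) (nat_lit 22990059111) (nat_lit 21) (nat_lit 4) (nat_lit 22) (nat_lit 5) (nat_lit 22) (nat_lit 4) (nat_lit 467) (nat_lit 396) (nat_lit 157))))) (XT.nd (nat_lit 47580) (nat_lit 0) (nat_lit 6916) (XT.nd (nat_lit 78) (nat_lit 76) (nat_lit 0) (XT.lf (nat_lit 0) (nat_lit 89748037857) (nat_lit 152) (nat_lit 179073810785) (nat_lit 76) (nat_lit 334975784335) (nat_lit 20) (nat_lit 5) (nat_lit 22) (nat_lit 5) (nat_lit 21) (nat_lit 4) (nat_lit 468) (nat_lit 396) (nat_lit 156)) (XT.nd (nat_lit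 78) (nat_lit 0) (nat_lit 0) (XT.lf (nat_lit 0) (nat_lit 64061076296) (nat_lit 76) (nat_lit 144289414777) (nat_lit 152) (nat_lit 419050850018) (nat_lit 19) (nat_lit 5) (nat_lit 20) (nat_lit 5) (nat_lit 21) (nat_lit 4) (nat_lit 469) (nat_lit 396) (nat_lit 155)) (XT.lf (nat_lit 0) (nat_lit 325569549046) (nat_lit 76) (nat_lit 10346116662) (nat_lit 152) (nat_lit 316117938978) (nat_lit 19) (nat_lit 5) (nat_lit 20) (nat_lit 5) (nat_lit 21) (nat_lit 4) (nat_lit 470) (nat_lit 396) (nat_lit 154)))) (XT.nd (nat_lit 156) (nat_lit 0) (nat_lit 76) (XT.nd (nat_lit 78) (nat_lit 0) (nat_lit 0) (XT.lf (nat_lit 0) (nat_lit 7324127915) (nat_lit 836) (nat_lit 12756514339) (nat_lit 836) (nat_lit 12756514339) (nat_lit 110) (nat_lit 3) (nat_lit 121) (nat_lit 3) (nat_lit 121) (nat_lit 5) (nat_lit 397) (nat_lit 397) (nat_lit 226)) (XT.lf (nat_lit 76) (nat_lit 6332673603) (nat_lit 0) (nat_lit 8795422209) (nat_lit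 836) (nat_lit 52182383103) (nat_lit 111) (nat_lit 5) (nat_lit 110) (nat_lit 3) (nat_lit 121) (nat_lit 5) (nat_lit 398) (nat_lit 397) (nat_lit 225))) (XT.nd (nat_lit 78) (nat_lit 0) (nat_lit 0) (XT.lf (nat_lit 0) (nat_lit 16447013618) (nat_lit 760) (nat_lit 28734957953) (nat_lit 836) (nat_lit 23805727733) (nat_lit 111) (nat_lit 5) (nat_lit 121) (nat_lit 5) (nat_lit 122) (nat_lit 5) (nat_lit 399) (nat_lit 397) (nat_lit 224)) (XT.lf (nat_lit 76) (nat_lit 5139809514) (nat_lit 0) (nat_lit 12915600794) (nat_lit 836) (nat_lit 52682194389) (nat_lit 112) (nat_lit 5) (nat_lit 111) (nat_lit 5) (nat_lit 122) (nat_lit 5) (nat_lit 400) (nat_lit 397) (nat_lit 223)))))) (XT.nd (nat_lit 468) (nat_lit 1292) (nat_lit 0) (XT.nd (nat_lit 234) (nat_lit 0) (nat_lit 76) (XT.nd (nat_lit 78) (nat_lit 0) (nat_lit 0) (XT.lf (nat_lit 0) (nat_lit 20565291867) (nat_lit 760) (nat_lit 31180612452) (nat_lit 836) (nat_lit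 20788048395) (nat_lit 112) (nat_lit 5) (nat_lit 122) (nat_lit 5) (nat_lit 123) (nat_lit 5) (nat_lit 401) (nat_lit 397) (nat_lit 222)) (XT.nd (nat_lit 78) (nat_lit 0) (nat_lit 76) (XT.lf (nat_lit 76) (nat_lit 4902040413) (nat_lit 0) (nat_lit 18586072582) (nat_lit 836) (nat_lit 50917633437) (nat_lit 113) (nat_lit 5) (nat_lit 112) (nat_lit 5) (nat_lit 123) (nat_lit 5) (nat_lit 402) (nat_lit 397) (nat_lit 221)) (XT.lf (nat_lit 0) (nat_lit 27346427881) (nat_lit 760) (nat_lit 32736049015) (nat_lit 836) (nat_lit 16249185855) (nat_lit 113) (nat_lit 5) (nat_lit 123) (nat_lit 5) (nat_lit 124) (nat_lit 5) (nat_lit 403) (nat_lit 397) (nat_lit 220)))) (XT.nd (nat_lit 78) (nat_lit 0) (nat_lit 76) (XT.lf (nat_lit 76) (nat_lit 5748735933) (nat_lit 0) (nat_lit 26042617714) (nat_lit 836) (nat_lit 46542837006) (nat_lit 114) (nat_lit 5) (nat_lit 113) (nat_lit 5) (nat_lit 124) (nat_lit 5) (nat_lit 404) (nat_lit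 397) (nat_lit 219)) (XT.nd (nat_lit 78) (nat_lit 0) (nat_lit 0) (XT.lf (nat_lit 0) (nat_lit 37172728525) (nat_lit 760) (nat_lit 33275954668) (nat_lit 836) (nat_lit 9952452113) (nat_lit 114) (nat_lit 5) (nat_lit 124) (nat_lit 5) (nat_lit 125) (nat_lit 5) (nat_lit 405) (nat_lit 397) (nat_lit 218)) (XT.lf (nat_lit 76) (nat_lit 7821878501) (nat_lit 0) (nat_lit 35549658700) (nat_lit 836) (nat_lit 39172472212) (nat_lit 115) (nat_lit 5) (nat_lit 114) (nat_lit 5) (nat_lit 125) (nat_lit 5) (nat_lit 406) (nat_lit 397) (nat_lit 217))))) (XT.nd (nat_lit 234) (nat_lit 760) (nat_lit 0) (XT.nd (nat_lit 78) (nat_lit 760) (nat_lit 0) (XT.lf (nat_lit 0) (nat_lit 50469495570) (nat_lit 760) (nat_lit 32662893221) (nat_lit 76) (nat_lit 1632178424) (nat_lit 115) (nat_lit 5) (nat_lit 125) (nat_lit 5) (nat_lit 116) (nat_lit 5) (nat_lit 407) (nat_lit 397) (nat_lit 216)) (XT.nd (nat_lit 78) (nat_lit 0) (nat_lit 0)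 (XT.lf (nat_lit 0) (nat_lit 11276895417) (nat_lit 760) (nat_lit 47403674123) (nat_lit 836) (nat_lit 28377672912) (nat_lit 105) (nat_lit 5) (nat_lit 115) (nat_lit 5) (nat_lit 116) (nat_lit 5) (nat_lit 408) (nat_lit 397) (nat_lit 215)) (XT.lf (nat_lit 0) (nat_lit 58547103704) (nat_lit 760) (nat_lit 9307649129) (nat_lit 836) (nat_lit 21584221247) (nat_lit 105) (nat_lit 5) (nat_lit 115) (nat_lit 5) (nat_lit 116) (nat_lit 5) (nat_lit 409) (nat_lit 397) (nat_lit 214)))) (XT.nd (nat_lit 156) (nat_lit 380) (nat_lit 0) (XT.nd (nat_lit 78) (nat_lit 0) (nat_lit 0) (XT.lf (nat_lit 0) (nat_lit 16283491540) (nat_lit 380) (nat_lit 61937014607) (nat_lit 456) (nat_lit 13681593491) (nat_lit 100) (nat_lit 5) (nat_lit 105) (nat_lit 5) (nat_lit 106) (nat_lit 5) (nat_lit 410) (nat_lit 397) (nat_lit 213)) (XT.lf (nat_lit 0) (nat_lit 66731941470) (nat_lit 380) (nat_lit 23045340129) (nat_lit 456) (nat_lit 4677463520)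 (nat_lit 100) (nat_lit 5) (nat_lit 105) (nat_lit 5) (nat_lit 106) (nat_lit 5) (nat_lit 411) (nat_lit 397) (nat_lit 212))) (XT.nd (nat_lit 78) (nat_lit 0) (nat_lit 0) (XT.lf (nat_lit 0) (nat_lit 5271164087) (nat_lit 380) (nat_lit 74161736725) (nat_lit 76) (nat_lit 17666034337) (nat_lit 95) (nat_lit 5) (nat_lit 100) (nat_lit 5) (nat_lit 96) (nat_lit 5) (nat_lit 412) (nat_lit 397) (nat_lit 211)) (XT.lf (nat_lit 0) (nat_lit 16414495059) (nat_lit 380) (nat_lit 23221911229) (nat_lit 76) (nat_lit 60192371455) (nat_lit 95) (nat_lit 5) (nat_lit 100) (nat_lit 5) (nat_lit 96) (nat_lit 5) (nat_lit 413) (nat_lit 397) (nat_lit 210))))))))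
noncomputable def xc217 : XT := (XT.nd (nat_lit 1950) (nat_lit 1900) (nat_lit 0) (XT.nd (nat_lit 936) (nat_lit 1520) (nat_lit 0) (XT.nd (nat_lit 468) (nat_lit 836) (nat_lit 0) (XT.nd (nat_lit 234) (nat_lit 532) (nat_lit 0) (XT.nd (nat_lit 78) (nat_lit 304) (nat_lit 0) (XT.lf (nat_lit 0) (nat_lit 28644197620) (nat_lit 456) (nat_lit 71447246176) (nat_lit 76) (nat_lit 2577208724) (nat_lit 90) (nat_lit 5) (nat_lit 96) (nat_lit 5) (nat_lit 91) (nat_lit 5) (nat_lit 414) (nat_lit 397) (nat_lit 209)) (XT.nd (nat_lit 78) (nat_lit 304) (nat_lit 0) (XT.lf (nat_lit 0) (nat_lit 42534400913) (nat_lit 456) (nat_lit 17094524589) (nat_lit 76) (nat_lit 45969145045) (nat_lit 90) (nat_lit 5) (nat_lit 96) (nat_lit 5) (nat_lit 91) (nat_lit 5) (nat_lit 415) (nat_lit 397) (nat_lit 208)) (XT.lf (nat_lit 0) (nat_lit 41297078333) (nat_lit 304) (nat_lit 16466339194) (nat_lit 380) (nat_lit 50878327068) (nat_lit 86)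 (nat_lit 5) (nat_lit 90) (nat_lit 5) (nat_lit 91) (nat_lit 5) (nat_lit 416) (nat_lit 397) (nat_lit 207)))) (XT.nd (nat_lit 78) (nat_lit 532) (nat_lit 0) (XT.lf (nat_lit 0) (nat_lit 74498185612) (nat_lit 380) (nat_lit 9077158433) (nat_lit 76) (nat_lit 28225043531) (nat_lit 86) (nat_lit 5) (nat_lit 91) (nat_lit 5) (nat_lit 87) (nat_lit 5) (nat_lit 417) (nat_lit 397) (nat_lit 206)) (XT.nd (nat_lit 78) (nat_lit 228) (nat_lit 0) (XT.lf (nat_lit 0) (nat_lit 53547120061) (nat_lit 304) (nat_lit 39628106871) (nat_lit 380) (nat_lit 21886459287) (nat_lit 82) (nat_lit 5) (nat_lit 86) (nat_lit 5) (nat_lit 87) (nat_lit 5) (nat_lit 418) (nat_lit 397) (nat_lit 205)) (XT.lf (nat_lit 0) (nat_lit 1068817072) (nat_lit 228) (nat_lit 111991562736) (nat_lit 304) (nat_lit 5411957249) (nat_lit 79) (nat_lit 5) (nat_lit 82) (nat_lit 5) (nat_lit 83) (nat_lit 5) (nat_lit 419) (nat_lit 397) (nat_lit 204))))) (XT.nd (nat_lit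 234) (nat_lit 456) (nat_lit 0) (XT.nd (nat_lit 78) (nat_lit 304) (nat_lit 0) (XT.lf (nat_lit 0) (nat_lit 13213923746) (nat_lit 304) (nat_lit 53937236397) (nat_lit 76) (nat_lit 54807677176) (nat_lit 78) (nat_lit 5) (nat_lit 82) (nat_lit 5) (nat_lit 79) (nat_lit 5) (nat_lit 420) (nat_lit 397) (nat_lit 203)) (XT.nd (nat_lit 78) (nat_lit 0) (nat_lit 0) (XT.lf (nat_lit 0) (nat_lit 13030189355) (nat_lit 304) (nat_lit 19762079808) (nat_lit 380) (nat_lit 92812805228) (nat_lit 74) (nat_lit 5) (nat_lit 78) (nat_lit 5) (nat_lit 79) (nat_lit 5) (nat_lit 421) (nat_lit 397) (nat_lit 202)) (XT.lf (nat_lit 0) (nat_lit 54745907434) (nat_lit 380) (nat_lit 44653196778) (nat_lit 76) (nat_lit 29964700520) (nat_lit 74) (nat_lit 5) (nat_lit 79) (nat_lit 5) (nat_lit 75) (nat_lit 5) (nat_lit 422) (nat_lit 397) (nat_lit 201)))) (XT.nd (nat_lit 78) (nat_lit 228) (nat_lit 0) (XT.lf (nat_lit 0) (nat_lit 27211046794)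 (nat_lit 228) (nat_lit 51334627210) (nat_lit 304) (nat_lit 54727375456) (nat_lit 71) (nat_lit 5) (nat_lit 74) (nat_lit 5) (nat_lit 75) (nat_lit 5) (nat_lit 423) (nat_lit 397) (nat_lit 200)) (XT.nd (nat_lit 78) (nat_lit 228) (nat_lit 0) (XT.lf (nat_lit 0) (nat_lit 104218284506) (nat_lit 228) (nat_lit 73014900) (nat_lit 304) (nat_lit 33048663672) (nat_lit 71) (nat_lit 5) (nat_lit 74) (nat_lit 5) (nat_lit 75) (nat_lit 5) (nat_lit 424) (nat_lit 397) (nat_lit 199)) (XT.lf (nat_lit 0) (nat_lit 44035386079) (nat_lit 228) (nat_lit 88815212101) (nat_lit 304) (nat_lit 8683304760) (nat_lit 68) (nat_lit 5) (nat_lit 71) (nat_lit 5) (nat_lit 72) (nat_lit 5) (nat_lit 425) (nat_lit 397) (nat_lit 198)))))) (XT.nd (nat_lit 468) (nat_lit 760) (nat_lit 0) (XT.nd (nat_lit 234) (nat_lit 456) (nat_lit 0) (XT.nd (nat_lit 78) (nat_lit 228) (nat_lit 0) (XT.lf (nat_lit 0) (nat_lit 16930395794) (nat_lit 304) (nat_lit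 19984005653) (nat_lit 76) (nat_lit 108981395958) (nat_lit 67) (nat_lit 5) (nat_lit 71) (nat_lit 5) (nat_lit 68) (nat_lit 5) (nat_lit 426) (nat_lit 397) (nat_lit 197)) (XT.nd (nat_lit 78) (nat_lit 0) (nat_lit 0) (XT.lf (nat_lit 0) (nat_lit 44813792471) (nat_lit 304) (nat_lit 87423227407) (nat_lit 76) (nat_lit 18167608045) (nat_lit 64) (nat_lit 5) (nat_lit 68) (nat_lit 5) (nat_lit 65) (nat_lit 5) (nat_lit 427) (nat_lit 397) (nat_lit 196)) (XT.lf (nat_lit 0) (nat_lit 75040187557) (nat_lit 304) (nat_lit 4944259966) (nat_lit 76) (nat_lit 75107011154) (nat_lit 64) (nat_lit 5) (nat_lit 68) (nat_lit 5) (nat_lit 65) (nat_lit 5) (nat_lit 428) (nat_lit 397) (nat_lit 195)))) (XT.nd (nat_lit 78) (nat_lit 228) (nat_lit 0) (XT.lf (nat_lit 0) (nat_lit 84358210959) (nat_lit 228) (nat_lit 23736461879) (nat_lit 304) (nat_lit 51852119743) (nat_lit 61) (nat_lit 5) (nat_lit 64) (nat_lit 5) (nat_lit 65) (nat_lit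 5) (nat_lit 429) (nat_lit 397) (nat_lit 194)) (XT.nd (nat_lit 78) (nat_lit 76) (nat_lit 0) (XT.lf (nat_lit 0) (nat_lit 13123467314) (nat_lit 152) (nat_lit 130519628431) (nat_lit 228) (nat_lit 21359736895) (nat_lit 59) (nat_lit 5) (nat_lit 61) (nat_lit 5) (nat_lit 62) (nat_lit 5) (nat_lit 430) (nat_lit 397) (nat_lit 193)) (XT.lf (nat_lit 0) (nat_lit 12006113391) (nat_lit 228) (nat_lit 61929225050) (nat_lit 76) (nat_lit 96283519519) (nat_lit 58) (nat_lit 5) (nat_lit 61) (nat_lit 5) (nat_lit 59) (nat_lit 5) (nat_lit 431) (nat_lit 397) (nat_lit 192))))) (XT.nd (nat_lit 234) (nat_lit 380) (nat_lit 0) (XT.nd (nat_lit 78) (nat_lit 152) (nat_lit 0) (XT.lf (nat_lit 0) (nat_lit 33231455240) (nat_lit 228) (nat_lit 13609533759) (nat_lit 304) (nat_lit 128811259675) (nat_lit 55) (nat_lit 5) (nat_lit 58) (nat_lit 5) (nat_lit 59) (nat_lit 5) (nat_lit 432) (nat_lit 397) (nat_lit 191)) (XT.nd (nat_lit 78)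 (nat_lit 152) (nat_lit 0) (XT.lf (nat_lit 0) (nat_lit 85259796193) (nat_lit 304) (nat_lit 46798740565) (nat_lit 76) (nat_lit 49206662880) (nat_lit 55) (nat_lit 5) (nat_lit 59) (nat_lit 5) (nat_lit 56) (nat_lit 5) (nat_lit 433) (nat_lit 397) (nat_lit 190)) (XT.lf (nat_lit 0) (nat_lit 55145915832) (nat_lit 152) (nat_lit 71537458547) (nat_lit 228) (nat_lit 60421232339) (nat_lit 53) (nat_lit 5) (nat_lit 55) (nat_lit 5) (nat_lit 56) (nat_lit 5) (nat_lit 434) (nat_lit 397) (nat_lit 189)))) (XT.nd (nat_lit 156) (nat_lit 152) (nat_lit 0) (XT.nd (nat_lit 78) (nat_lit 228) (nat_lit 0) (XT.lf (nat_lit 0) (nat_lit 163812152486) (nat_lit 152) (nat_lit 7158285624) (nat_lit 228) (nat_lit 22225930805) (nat_lit 53) (nat_lit 5) (nat_lit 55) (nat_lit 5) (nat_lit 56) (nat_lit 5) (nat_lit 435) (nat_lit 397) (nat_lit 188)) (XT.lf (nat_lit 0) (nat_lit 19534191624) (nat_lit 228) (nat_lit 119864896370) (nat_lit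 76) (nat_lit 60068309152) (nat_lit 50) (nat_lit 5) (nat_lit 53) (nat_lit 5) (nat_lit 51) (nat_lit 5) (nat_lit 436) (nat_lit 397) (nat_lit 187))) (XT.nd (nat_lit 78) (nat_lit 152) (nat_lit 0) (XT.lf (nat_lit 0) (nat_lit 63258284763) (nat_lit 228) (nat_lit 11458645802) (nat_lit 76) (nat_lit 131285683249) (nat_lit 50) (nat_lit 5) (nat_lit 53) (nat_lit 5) (nat_lit 51) (nat_lit 5) (nat_lit 437) (nat_lit 397) (nat_lit 186)) (XT.lf (nat_lit 0) (nat_lit 105752277403) (nat_lit 152) (nat_lit 5067164836) (nat_lit 228) (nat_lit 101962606170) (nat_lit 48) (nat_lit 5) (nat_lit 50) (nat_lit 5) (nat_lit 51) (nat_lit 5) (nat_lit 438) (nat_lit 397) (nat_lit 185))))))) (XT.nd (nat_lit 1014) (nat_lit 760) (nat_lit 0) (XT.nd (nat_lit 468) (nat_lit 608) (nat_lit 0) (XT.nd (nat_lit 234) (nat_lit 152) (nat_lit 0) (XT.nd (nat_lit 78) (nat_lit 228) (nat_lit 0) (XT.lf (nat_lit 0) (nat_lit 8537832873) (nat_lit 152)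 (nat_lit 153613823234) (nat_lit 228) (nat_lit 57679148775) (nat_lit 46) (nat_lit 5) (nat_lit 48) (nat_lit 5) (nat_lit 49) (nat_lit 5) (nat_lit 439) (nat_lit 397) (nat_lit 184)) (XT.nd (nat_lit 78) (nat_lit 228) (nat_lit 0) (XT.lf (nat_lit 0) (nat_lit 133513463838) (nat_lit 152) (nat_lit 84431124514) (nat_lit 228) (nat_lit 9192705514) (nat_lit 46) (nat_lit 5) (nat_lit 48) (nat_lit 5) (nat_lit 49) (nat_lit 5) (nat_lit 440) (nat_lit 397) (nat_lit 183)) (XT.lf (nat_lit 0) (nat_lit 30245105766) (nat_lit 152) (nat_lit 10609711845) (nat_lit 228) (nat_lit 193898123153) (nat_lit 43) (nat_lit 5) (nat_lit 45) (nat_lit 5) (nat_lit 46) (nat_lit 5) (nat_lit 441) (nat_lit 397) (nat_lit 182)))) (XT.nd (nat_lit 78) (nat_lit 152) (nat_lit 0) (XT.lf (nat_lit 0) (nat_lit 95751666937) (nat_lit 228) (nat_lit 80333790395) (nat_lit 76) (nat_lit 66523583470) (nat_lit 43) (nat_lit 5) (nat_lit 46) (nat_lit 5) (nat_lit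 44) (nat_lit 5) (nat_lit 442) (nat_lit 397) (nat_lit 181)) (XT.nd (nat_lit 78) (nat_lit 0) (nat_lit 0) (XT.lf (nat_lit 0) (nat_lit 51523763966) (nat_lit 152) (nat_lit 102847752664) (nat_lit 228) (nat_lit 96437521374) (nat_lit 41) (nat_lit 5) (nat_lit 43) (nat_lit 5) (nat_lit 44) (nat_lit 5) (nat_lit 443) (nat_lit 397) (nat_lit 180)) (XT.lf (nat_lit 0) (nat_lit 192762864426) (nat_lit 152) (nat_lit 24519788170) (nat_lit 228) (nat_lit 42068367836) (nat_lit 41) (nat_lit 5) (nat_lit 43) (nat_lit 5) (nat_lit 44) (nat_lit 5) (nat_lit 444) (nat_lit 397) (nat_lit 179))))) (XT.nd (nat_lit 234) (nat_lit 304) (nat_lit 0) (XT.nd (nat_lit 78) (nat_lit 152) (nat_lit 0) (XT.lf (nat_lit 0) (nat_lit 16632098676) (nat_lit 152) (nat_lit 194267697824) (nat_lit 76) (nat_lit 57303902665) (nat_lit 39) (nat_lit 5) (nat_lit 41) (nat_lit 5) (nat_lit 40) (nat_lit 5) (nat_lit 445) (nat_lit 397) (nat_lit 178)) (XT.nd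 (nat_lit 78) (nat_lit 152) (nat_lit 0) (XT.lf (nat_lit 0) (nat_lit 78401779185) (nat_lit 152) (nat_lit 54754897385) (nat_lit 76) (nat_lit 144230454859) (nat_lit 39) (nat_lit 5) (nat_lit 41) (nat_lit 5) (nat_lit 40) (nat_lit 5) (nat_lit 446) (nat_lit 397) (nat_lit 177)) (XT.lf (nat_lit 0) (nat_lit 94766342026) (nat_lit 152) (nat_lit 49972989282) (nat_lit 228) (nat_lit 142216434664) (nat_lit 37) (nat_lit 5) (nat_lit 39) (nat_lit 5) (nat_lit 40) (nat_lit 5) (nat_lit 447) (nat_lit 397) (nat_lit 176)))) (XT.nd (nat_lit 156) (nat_lit 228) (nat_lit 0) (XT.nd (nat_lit 78) (nat_lit 76) (nat_lit 0) (XT.lf (nat_lit 0) (nat_lit 215919533029) (nat_lit 228) (nat_lit 43890825170) (nat_lit 76) (nat_lit 37116185487) (nat_lit 37) (nat_lit 5) (nat_lit 40) (nat_lit 5) (nat_lit 38) (nat_lit 4) (nat_lit 448) (nat_lit 397) (nat_lit 175)) (XT.lf (nat_lit 0) (nat_lit 114673437973) (nat_lit 76) (nat_lit 178594739519)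 (nat_lit 152) (nat_lit 13997211203) (nat_lit 36) (nat_lit 5) (nat_lit 37) (nat_lit 5) (nat_lit 38) (nat_lit 4) (nat_lit 449) (nat_lit 397) (nat_lit 174))) (XT.nd (nat_lit 78) (nat_lit 152) (nat_lit 0) (XT.lf (nat_lit 0) (nat_lit 55314435817) (nat_lit 152) (nat_lit 36286779953) (nat_lit 76) (nat_lit 226438194536) (nat_lit 35) (nat_lit 5) (nat_lit 37) (nat_lit 5) (nat_lit 36) (nat_lit 5) (nat_lit 450) (nat_lit 397) (nat_lit 173)) (XT.lf (nat_lit 0) (nat_lit 129712703998) (nat_lit 228) (nat_lit 197448173476) (nat_lit 76) (nat_lit 2075210591) (nat_lit 33) (nat_lit 5) (nat_lit 36) (nat_lit 5) (nat_lit 34) (nat_lit 4) (nat_lit 451) (nat_lit 397) (nat_lit 172)))))) (XT.nd (nat_lit 468) (nat_lit 380) (nat_lit 0) (XT.nd (nat_lit 234) (nat_lit 228) (nat_lit 0) (XT.nd (nat_lit 78) (nat_lit 152) (nat_lit 0) (XT.lf (nat_lit 0) (nat_lit 209956993033) (nat_lit 228) (nat_lit 32947757758) (nat_lit 76) (nat_lit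 97981543584) (nat_lit 33) (nat_lit 5) (nat_lit 36) (nat_lit 5) (nat_lit 34) (nat_lit 4) (nat_lit 452) (nat_lit 397) (nat_lit 171)) (XT.nd (nat_lit 78) (nat_lit 76) (nat_lit 0) (XT.lf (nat_lit 0) (nat_lit 144399074666) (nat_lit 76) (nat_lit 152068743383) (nat_lit 152) (nat_lit 56538476906) (nat_lit 32) (nat_lit 5) (nat_lit 33) (nat_lit 5) (nat_lit 34) (nat_lit 4) (nat_lit 453) (nat_lit 397) (nat_lit 170)) (XT.lf (nat_lit 0) (nat_lit 21448434968) (nat_lit 152) (nat_lit 34293497608) (nat_lit 76) (nat_lit 309945174067) (nat_lit 31) (nat_lit 5) (nat_lit 33) (nat_lit 5) (nat_lit 32) (nat_lit 5) (nat_lit 454) (nat_lit 397) (nat_lit 169)))) (XT.nd (nat_lit 78) (nat_lit 76) (nat_lit 0) (XT.lf (nat_lit 0) (nat_lit 104581611667) (nat_lit 228) (nat_lit 226903524273) (nat_lit 76) (nat_lit 47313130849) (nat_lit 29) (nat_lit 5) (nat_lit 32) (nat_lit 5) (nat_lit 30) (nat_lit 4) (nat_lit 455) (nat_lit 397)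 (nat_lit 168)) (XT.nd (nat_lit 78) (nat_lit 76) (nat_lit 0) (XT.lf (nat_lit 0) (nat_lit 193375403389) (nat_lit 228) (nat_lit 44876546477) (nat_lit 76) (nat_lit 154237837294) (nat_lit 29) (nat_lit 5) (nat_lit 32) (nat_lit 5) (nat_lit 30) (nat_lit 4) (nat_lit 456) (nat_lit 397) (nat_lit 167)) (XT.lf (nat_lit 0) (nat_lit 151087264099) (nat_lit 76) (nat_lit 137880379170) (nat_lit 152) (nat_lit 117780302379) (nat_lit 28) (nat_lit 5) (nat_lit 29) (nat_lit 5) (nat_lit 30) (nat_lit 4) (nat_lit 457) (nat_lit 397) (nat_lit 166))))) (XT.nd (nat_lit 234) (nat_lit 228) (nat_lit 0) (XT.nd (nat_lit 78) (nat_lit 152) (nat_lit 0) (XT.lf (nat_lit 0) (nat_lit 358407029513) (nat_lit 76) (nat_lit 31692337268) (nat_lit 152) (nat_lit 31581651719) (nat_lit 28) (nat_lit 5) (nat_lit 29) (nat_lit 5) (nat_lit 30) (nat_lit 4) (nat_lit 458) (nat_lit 397) (nat_lit 165)) (XT.nd (nat_lit 78) (nat_lit 0) (nat_lit 0) (XT.lf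 (nat_lit 0) (nat_lit 60561042958) (nat_lit 152) (nat_lit 296132649958) (nat_lit 76) (nat_lit 80445044310) (nat_lit 26) (nat_lit 5) (nat_lit 28) (nat_lit 5) (nat_lit 27) (nat_lit 4) (nat_lit 459) (nat_lit 397) (nat_lit 164)) (XT.lf (nat_lit 0) (nat_lit 157858081412) (nat_lit 152) (nat_lit 96673952451) (nat_lit 76) (nat_lit 198730993464) (nat_lit 26) (nat_lit 5) (nat_lit 28) (nat_lit 5) (nat_lit 27) (nat_lit 4) (nat_lit 460) (nat_lit 397) (nat_lit 163)))) (XT.nd (nat_lit 156) (nat_lit 152) (nat_lit 0) (XT.nd (nat_lit 78) (nat_lit 0) (nat_lit 0) (XT.lf (nat_lit 0) (nat_lit 116485720568) (nat_lit 76) (nat_lit 145352796613) (nat_lit 152) (nat_lit 208264087503) (nat_lit 25) (nat_lit 5) (nat_lit 26) (nat_lit 5) (nat_lit 27) (nat_lit 4) (nat_lit 461) (nat_lit 397) (nat_lit 162)) (XT.lf (nat_lit 0) (nat_lit 343659452393) (nat_lit 76) (nat_lit 28995621687) (nat_lit 152) (nat_lit 115047231880) (nat_lit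 25) (nat_lit 5) (nat_lit 26) (nat_lit 5) (nat_lit 27) (nat_lit 4) (nat_lit 462) (nat_lit 397) (nat_lit 161))) (XT.nd (nat_lit 78) (nat_lit 76) (nat_lit 0) (XT.lf (nat_lit 0) (nat_lit 77019987744) (nat_lit 76) (nat_lit 414649644058) (nat_lit 76) (nat_lit 14379501868) (nat_lit 24) (nat_lit 4) (nat_lit 25) (nat_lit 5) (nat_lit 25) (nat_lit 4) (nat_lit 463) (nat_lit 397) (nat_lit 160)) (XT.lf (nat_lit 0) (nat_lit 91353400541) (nat_lit 152) (nat_lit 212995852327) (nat_lit 76) (nat_lit 220745028202) (nat_lit 23) (nat_lit 5) (nat_lit 25) (nat_lit 5) (nat_lit 24) (nat_lit 4) (nat_lit 464) (nat_lit 397) (nat_lit 159))))))))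
noncomputable def xc218 : XT := (XT.nd (nat_lit 49374) (nat_lit 0) (nat_lit 1824) (XT.nd (nat_lit 48360) (nat_lit 0) (nat_lit 5396) (XT.nd (nat_lit 47892) (nat_lit 0) (nat_lit 6916) (XT.nd (nat_lit 234) (nat_lit 228) (nat_lit 0) (XT.nd (nat_lit 78) (nat_lit 0) (nat_lit 0) (XT.lf (nat_lit 0) (nat_lit 14052949083) (nat_lit 76) (nat_lit 188056048545) (nat_lit 152) (nat_lit 342959936996) (nat_lit 22) (nat_lit 5) (nat_lit 23) (nat_lit 5) (nat_lit 24) (nat_lit 4) (nat_lit 465) (nat_lit 397) (nat_lit 158)) (XT.nd (nat_lit 78) (nat_lit 0) (nat_lit 0) (XT.lf (nat_lit 0) (nat_lit 259848719515) (nat_lit 76) (nat_lit 62160734127) (nat_lit 152) (nat_lit 243852513274) (nat_lit 22) (nat_lit 5) (nat_lit 23) (nat_lit 5) (nat_lit 24) (nat_lit 4) (nat_lit 466) (nat_lit 397) (nat_lit 157)) (XT.lf (nat_lit 0) (nat_lit 448998181790) (nat_lit 152) (nat_lit 70853926719) (nat_lit 0) (nat_lit 67787879863) (nat_lit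 22) (nat_lit 5) (nat_lit 24) (nat_lit 4) (nat_lit 22) (nat_lit 4) (nat_lit 467) (nat_lit 397) (nat_lit 156)))) (XT.nd (nat_lit 78) (nat_lit 152) (nat_lit 0) (XT.lf (nat_lit 0) (nat_lit 180831890904) (nat_lit 76) (nat_lit 405346676449) (nat_lit 76) (nat_lit 24136232510) (nat_lit 21) (nat_lit 4) (nat_lit 22) (nat_lit 5) (nat_lit 22) (nat_lit 4) (nat_lit 468) (nat_lit 397) (nat_lit 155)) (XT.nd (nat_lit 78) (nat_lit 76) (nat_lit 0) (XT.lf (nat_lit 0) (nat_lit 94238509265) (nat_lit 152) (nat_lit 188021635195) (nat_lit 76) (nat_lit 351727216315) (nat_lit 20) (nat_lit 5) (nat_lit 22) (nat_lit 5) (nat_lit 21) (nat_lit 4) (nat_lit 469) (nat_lit 397) (nat_lit 154)) (XT.lf (nat_lit 0) (nat_lit 67269901625) (nat_lit 76) (nat_lit 151501127459) (nat_lit 152) (nat_lit 440000228031) (nat_lit 19) (nat_lit 5) (nat_lit 20) (nat_lit 5) (nat_lit 21) (nat_lit 4) (nat_lit 470) (nat_lit 397) (nat_lit 153)))))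 (XT.nd (nat_lit 234) (nat_lit 0) (nat_lit 76) (XT.nd (nat_lit 78) (nat_lit 0) (nat_lit 0) (XT.lf (nat_lit 0) (nat_lit 7704866626) (nat_lit 836) (nat_lit 13386705460) (nat_lit 836) (nat_lit 13386705460) (nat_lit 110) (nat_lit 3) (nat_lit 121) (nat_lit 3) (nat_lit 121) (nat_lit 5) (nat_lit 398) (nat_lit 398) (nat_lit 224)) (XT.nd (nat_lit 78) (nat_lit 0) (nat_lit 76) (XT.lf (nat_lit 76) (nat_lit 6664330198) (nat_lit 0) (nat_lit 9248085554) (nat_lit 836) (nat_lit 54762171805) (nat_lit 111) (nat_lit 5) (nat_lit 110) (nat_lit 3) (nat_lit 121) (nat_lit 5) (nat_lit 399) (nat_lit 398) (nat_lit 223)) (XT.lf (nat_lit 0) (nat_lit 17295758456) (nat_lit 760) (nat_lit 30155858705) (nat_lit 836) (nat_lit 24984128784) (nat_lit 111) (nat_lit 5) (nat_lit 121) (nat_lit 5) (nat_lit 122) (nat_lit 5) (nat_lit 400) (nat_lit 398) (nat_lit 222)))) (XT.nd (nat_lit 78) (nat_lit 0) (nat_lit 76) (XT.lf (nat_lit 76)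 (nat_lit 5412391535) (nat_lit 0) (nat_lit 13571170008) (nat_lit 836) (nat_lit 55289636623) (nat_lit 112) (nat_lit 5) (nat_lit 111) (nat_lit 5) (nat_lit 122) (nat_lit 5) (nat_lit 401) (nat_lit 398) (nat_lit 221)) (XT.nd (nat_lit 78) (nat_lit 0) (nat_lit 0) (XT.lf (nat_lit 0) (nat_lit 21617583016) (nat_lit 760) (nat_lit 32723422934) (nat_lit 836) (nat_lit 21818426187) (nat_lit 112) (nat_lit 5) (nat_lit 122) (nat_lit 5) (nat_lit 123) (nat_lit 5) (nat_lit 402) (nat_lit 398) (nat_lit 220)) (XT.lf (nat_lit 76) (nat_lit 5163100960) (nat_lit 0) (nat_lit 19522549277) (nat_lit 836) (nat_lit 53439210857) (nat_lit 113) (nat_lit 5) (nat_lit 112) (nat_lit 5) (nat_lit 123) (nat_lit 5) (nat_lit 403) (nat_lit 398) (nat_lit 219)))))) (XT.nd (nat_lit 468) (nat_lit 1140) (nat_lit 0) (XT.nd (nat_lit 234) (nat_lit 608) (nat_lit 0) (XT.nd (nat_lit 78) (nat_lit 0) (nat_lit 0) (XT.lf (nat_lit 0) (nat_lit 28735672704)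 (nat_lit 760) (nat_lit 34356429392) (nat_lit 836) (nat_lit 17055032307) (nat_lit 113) (nat_lit 5) (nat_lit 123) (nat_lit 5) (nat_lit 124) (nat_lit 5) (nat_lit 404) (nat_lit 398) (nat_lit 218)) (XT.nd (nat_lit 78) (nat_lit 0) (nat_lit 76) (XT.lf (nat_lit 76) (nat_lit 6052329931) (nat_lit 0) (nat_lit 27349723113) (nat_lit 836) (nat_lit 48847775970) (nat_lit 114) (nat_lit 5) (nat_lit 113) (nat_lit 5) (nat_lit 124) (nat_lit 5) (nat_lit 405) (nat_lit 398) (nat_lit 217)) (XT.lf (nat_lit 0) (nat_lit 39051416427) (nat_lit 760) (nat_lit 34923270459) (nat_lit 836) (nat_lit 10445488721) (nat_lit 114) (nat_lit 5) (nat_lit 124) (nat_lit 5) (nat_lit 125) (nat_lit 5) (nat_lit 406) (nat_lit 398) (nat_lit 216)))) (XT.nd (nat_lit 78) (nat_lit 684) (nat_lit 0) (XT.lf (nat_lit 76) (nat_lit 8229188531) (nat_lit 0) (nat_lit 37330275353) (nat_lit 836) (nat_lit 41110765280) (nat_lit 115) (nat_lit 5) (nat_lit 114)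 (nat_lit 5) (nat_lit 125) (nat_lit 5) (nat_lit 407) (nat_lit 398) (nat_lit 215)) (XT.nd (nat_lit 78) (nat_lit 760) (nat_lit 0) (XT.lf (nat_lit 0) (nat_lit 53011352154) (nat_lit 760) (nat_lit 34279613356) (nat_lit 76) (nat_lit 1710898375) (nat_lit 115) (nat_lit 5) (nat_lit 125) (nat_lit 5) (nat_lit 116) (nat_lit 5) (nat_lit 408) (nat_lit 398) (nat_lit 214)) (XT.lf (nat_lit 0) (nat_lit 11856899802) (nat_lit 760) (nat_lit 49775456993) (nat_lit 836) (nat_lit 29777897841) (nat_lit 105) (nat_lit 5) (nat_lit 115) (nat_lit 5) (nat_lit 116) (nat_lit 5) (nat_lit 409) (nat_lit 398) (nat_lit 213))))) (XT.nd (nat_lit 234) (nat_lit 760) (nat_lit 0) (XT.nd (nat_lit 78) (nat_lit 380) (nat_lit 0) (XT.lf (nat_lit 0) (nat_lit 61489848998) (nat_lit 760) (nat_lit 9774554600) (nat_lit 836) (nat_lit 22645662103) (nat_lit 105) (nat_lit 5) (nat_lit 115) (nat_lit 5) (nat_lit 116) (nat_lit 5) (nat_lit 410) (nat_lit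 398) (nat_lit 212)) (XT.nd (nat_lit 78) (nat_lit 0) (nat_lit 0) (XT.lf (nat_lit 0) (nat_lit 17113674653) (nat_lit 380) (nat_lit 65034191828) (nat_lit 456) (nat_lit 14348510502) (nat_lit 100) (nat_lit 5) (nat_lit 105) (nat_lit 5) (nat_lit 106) (nat_lit 5) (nat_lit 411) (nat_lit 398) (nat_lit 211)) (XT.lf (nat_lit 0) (nat_lit 70083784768) (nat_lit 380) (nat_lit 24197918080) (nat_lit 456) (nat_lit 4894991303) (nat_lit 100) (nat_lit 5) (nat_lit 105) (nat_lit 5) (nat_lit 106) (nat_lit 5) (nat_lit 412) (nat_lit 398) (nat_lit 210)))) (XT.nd (nat_lit 156) (nat_lit 380) (nat_lit 0) (XT.nd (nat_lit 78) (nat_lit 0) (nat_lit 0) (XT.lf (nat_lit 0) (nat_lit 5550036809) (nat_lit 380) (nat_lit 77853527186) (nat_lit 76) (nat_lit 18549542783) (nat_lit 95) (nat_lit 5) (nat_lit 100) (nat_lit 5) (nat_lit 96) (nat_lit 5) (nat_lit 413) (nat_lit 398) (nat_lit 209)) (XT.lf (nat_lit 0) (nat_lit 17249805067) (nat_lit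 380) (nat_lit 24367486433) (nat_lit 76) (nat_lit 63202186912) (nat_lit 95) (nat_lit 5) (nat_lit 100) (nat_lit 5) (nat_lit 96) (nat_lit 5) (nat_lit 414) (nat_lit 398) (nat_lit 208))) (XT.nd (nat_lit 78) (nat_lit 0) (nat_lit 0) (XT.lf (nat_lit 0) (nat_lit 30090554441) (nat_lit 456) (nat_lit 75003641285) (nat_lit 76) (nat_lit 2707173546) (nat_lit 90) (nat_lit 5) (nat_lit 96) (nat_lit 5) (nat_lit 91) (nat_lit 5) (nat_lit 415) (nat_lit 398) (nat_lit 207)) (XT.lf (nat_lit 0) (nat_lit 44674594235) (nat_lit 456) (nat_lit 17934043961) (nat_lit 76) (nat_lit 48268654093) (nat_lit 90) (nat_lit 5) (nat_lit 96) (nat_lit 5) (nat_lit 91) (nat_lit 5) (nat_lit 416) (nat_lit 398) (nat_lit 206))))))) (XT.nd (nat_lit 1014) (nat_lit 1596) (nat_lit 0) (XT.nd (nat_lit 468) (nat_lit 760) (nat_lit 0) (XT.nd (nat_lit 234) (nat_lit 608) (nat_lit 0) (XT.nd (nat_lit 78) (nat_lit 304) (nat_lit 0) (XT.lf (nat_lit 0) (nat_lit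 43376893836) (nat_lit 304) (nat_lit 17287759851) (nat_lit 380) (nat_lit 53408517138) (nat_lit 86) (nat_lit 5) (nat_lit 90) (nat_lit 5) (nat_lit 91) (nat_lit 5) (nat_lit 417) (nat_lit 398) (nat_lit 205)) (XT.nd (nat_lit 78) (nat_lit 304) (nat_lit 0) (XT.lf (nat_lit 0) (nat_lit 78235566217) (nat_lit 380) (nat_lit 9516165900) (nat_lit 76) (nat_lit 29638043907) (nat_lit 86) (nat_lit 5) (nat_lit 91) (nat_lit 5) (nat_lit 87) (nat_lit 5) (nat_lit 418) (nat_lit 398) (nat_lit 204)) (XT.lf (nat_lit 0) (nat_lit 56239086996) (nat_lit 304) (nat_lit 41607006852) (nat_lit 380) (nat_lit 22968064388) (nat_lit 82) (nat_lit 5) (nat_lit 86) (nat_lit 5) (nat_lit 87) (nat_lit 5) (nat_lit 419) (nat_lit 398) (nat_lit 203)))) (XT.nd (nat_lit 78) (nat_lit 380) (nat_lit 0) (XT.lf (nat_lit 0) (nat_lit 1137197131) (nat_lit 228) (nat_lit 117588001277) (nat_lit 304) (nat_lit 5670158840) (nat_lit 79) (nat_lit 5) (nat_lit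 82) (nat_lit 5) (nat_lit 83) (nat_lit 5) (nat_lit 420) (nat_lit 398) (nat_lit 202)) (XT.nd (nat_lit 78) (nat_lit 304) (nat_lit 0) (XT.lf (nat_lit 0) (nat_lit 13886048042) (nat_lit 304) (nat_lit 56619486477) (nat_lit 76) (nat_lit 57550667201) (nat_lit 78) (nat_lit 5) (nat_lit 82) (nat_lit 5) (nat_lit 79) (nat_lit 5) (nat_lit 421) (nat_lit 398) (nat_lit 201)) (XT.lf (nat_lit 0) (nat_lit 13696074890) (nat_lit 304) (nat_lit 20746916094) (nat_lit 380) (nat_lit 97441775936) (nat_lit 74) (nat_lit 5) (nat_lit 78) (nat_lit 5) (nat_lit 79) (nat_lit 5) (nat_lit 422) (nat_lit 398) (nat_lit 200))))) (XT.nd (nat_lit 234) (nat_lit 532) (nat_lit 0) (XT.nd (nat_lit 78) (nat_lit 228) (nat_lit 0) (XT.lf (nat_lit 0) (nat_lit 57493830788) (nat_lit 380) (nat_lit 46871679246) (nat_lit 76) (nat_lit 31465948039) (nat_lit 74) (nat_lit 5) (nat_lit 79) (nat_lit 5) (nat_lit 75) (nat_lit 5) (nat_lit 423) (nat_lit 398)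 (nat_lit 199)) (XT.nd (nat_lit 78) (nat_lit 0) (nat_lit 0) (XT.lf (nat_lit 0) (nat_lit 28585547838) (nat_lit 228) (nat_lit 53897749533) (nat_lit 304) (nat_lit 57452882344) (nat_lit 71) (nat_lit 5) (nat_lit 74) (nat_lit 5) (nat_lit 75) (nat_lit 5) (nat_lit 424) (nat_lit 398) (nat_lit 198)) (XT.lf (nat_lit 0) (nat_lit 109442483211) (nat_lit 228) (nat_lit 73228466) (nat_lit 304) (nat_lit 34690752204) (nat_lit 71) (nat_lit 5) (nat_lit 74) (nat_lit 5) (nat_lit 75) (nat_lit 5) (nat_lit 425) (nat_lit 398) (nat_lit 197)))) (XT.nd (nat_lit 156) (nat_lit 228) (nat_lit 0) (XT.nd (nat_lit 78) (nat_lit 76) (nat_lit 0) (XT.lf (nat_lit 0) (nat_lit 46250662128) (nat_lit 228) (nat_lit 93252106330) (nat_lit 304) (nat_lit 9107342863) (nat_lit 68) (nat_lit 5) (nat_lit 71) (nat_lit 5) (nat_lit 72) (nat_lit 5) (nat_lit 426) (nat_lit 398) (nat_lit 196)) (XT.lf (nat_lit 0) (nat_lit 17786251778) (nat_lit 304) (nat_lit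 20970029365) (nat_lit 76) (nat_lit 114433835015) (nat_lit 67) (nat_lit 5) (nat_lit 71) (nat_lit 5) (nat_lit 68) (nat_lit 5) (nat_lit 427) (nat_lit 398) (nat_lit 195))) (XT.nd (nat_lit 78) (nat_lit 0) (nat_lit 0) (XT.lf (nat_lit 0) (nat_lit 47063636535) (nat_lit 304) (nat_lit 91781026351) (nat_lit 76) (nat_lit 19079734609) (nat_lit 64) (nat_lit 5) (nat_lit 68) (nat_lit 5) (nat_lit 65) (nat_lit 5) (nat_lit 428) (nat_lit 398) (nat_lit 194)) (XT.lf (nat_lit 0) (nat_lit 78800915450) (nat_lit 304) (nat_lit 5178746844) (nat_lit 76) (nat_lit 78865929485) (nat_lit 64) (nat_lit 5) (nat_lit 68) (nat_lit 5) (nat_lit 65) (nat_lit 5) (nat_lit 429) (nat_lit 398) (nat_lit 193)))))) (XT.nd (nat_lit 468) (nat_lit 760) (nat_lit 0) (XT.nd (nat_lit 234) (nat_lit 380) (nat_lit 0) (XT.nd (nat_lit 78) (nat_lit 228) (nat_lit 0) (XT.lf (nat_lit 0) (nat_lit 88588642368) (nat_lit 228) (nat_lit 24919262946) (nat_lit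 304) (nat_lit 54435798235) (nat_lit 61) (nat_lit 5) (nat_lit 64) (nat_lit 5) (nat_lit 65) (nat_lit 5) (nat_lit 430) (nat_lit 398) (nat_lit 192)) (XT.nd (nat_lit 78) (nat_lit 76) (nat_lit 0) (XT.lf (nat_lit 0) (nat_lit 13792319557) (nat_lit 152) (nat_lit 137041282860) (nat_lit 228) (nat_lit 22418950717) (nat_lit 59) (nat_lit 5) (nat_lit 61) (nat_lit 5) (nat_lit 62) (nat_lit 5) (nat_lit 431) (nat_lit 398) (nat_lit 191)) (XT.lf (nat_lit 0) (nat_lit 12614506899) (nat_lit 228) (nat_lit 65013340547) (nat_lit 76) (nat_lit 101101545806) (nat_lit 58) (nat_lit 5) (nat_lit 61) (nat_lit 5) (nat_lit 59) (nat_lit 5) (nat_lit 432) (nat_lit 398) (nat_lit 190)))) (XT.nd (nat_lit 78) (nat_lit 152) (nat_lit 0) (XT.lf (nat_lit 0) (nat_lit 34905174633) (nat_lit 228) (nat_lit 14285756163) (nat_lit 304) (nat_lit 135243532633) (nat_lit 55) (nat_lit 5) (nat_lit 58) (nat_lit 5) (nat_lit 59) (nat_lit 5) (nat_lit 433)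 (nat_lit 398) (nat_lit 189)) (XT.nd (nat_lit 78) (nat_lit 152) (nat_lit 0) (XT.lf (nat_lit 0) (nat_lit 89530365782) (nat_lit 304) (nat_lit 49126793890) (nat_lit 76) (nat_lit 51670918043) (nat_lit 55) (nat_lit 5) (nat_lit 59) (nat_lit 5) (nat_lit 56) (nat_lit 5) (nat_lit 434) (nat_lit 398) (nat_lit 188)) (XT.lf (nat_lit 0) (nat_lit 57914903653) (nat_lit 152) (nat_lit 75110040827) (nat_lit 228) (nat_lit 63434519728) (nat_lit 53) (nat_lit 5) (nat_lit 55) (nat_lit 5) (nat_lit 56) (nat_lit 5) (nat_lit 435) (nat_lit 398) (nat_lit 187))))) (XT.nd (nat_lit 234) (nat_lit 532) (nat_lit 0) (XT.nd (nat_lit 78) (nat_lit 228) (nat_lit 0) (XT.lf (nat_lit 0) (nat_lit 172013895377) (nat_lit 152) (nat_lit 7512113574) (nat_lit 228) (nat_lit 23329823319) (nat_lit 53) (nat_lit 5) (nat_lit 55) (nat_lit 5) (nat_lit 56) (nat_lit 5) (nat_lit 436) (nat_lit 398) (nat_lit 186)) (XT.nd (nat_lit 78) (nat_lit 0) (nat_lit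 0) (XT.lf (nat_lit 0) (nat_lit 20517967126) (nat_lit 228) (nat_lit 125846662899) (nat_lit 76) (nat_lit 63075781283) (nat_lit 50) (nat_lit 5) (nat_lit 53) (nat_lit 5) (nat_lit 51) (nat_lit 5) (nat_lit 437) (nat_lit 398) (nat_lit 185)) (XT.lf (nat_lit 0) (nat_lit 66427928450) (nat_lit 228) (nat_lit 12020646388) (nat_lit 76) (nat_lit 137853830910) (nat_lit 50) (nat_lit 5) (nat_lit 53) (nat_lit 5) (nat_lit 51) (nat_lit 5) (nat_lit 438) (nat_lit 398) (nat_lit 184)))) (XT.nd (nat_lit 156) (nat_lit 228) (nat_lit 0) (XT.nd (nat_lit 78) (nat_lit 152) (nat_lit 0) (XT.lf (nat_lit 0) (nat_lit 111050646659) (nat_lit 152) (nat_lit 5316344612) (nat_lit 228) (nat_lit 107053828536) (nat_lit 48) (nat_lit 5) (nat_lit 50) (nat_lit 5) (nat_lit 51) (nat_lit 5) (nat_lit 439) (nat_lit 398) (nat_lit 183)) (XT.lf (nat_lit 0) (nat_lit 8975567926) (nat_lit 152) (nat_lit 161290166148) (nat_lit 228) (nat_lit 60556284223)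 (nat_lit 46) (nat_lit 5) (nat_lit 48) (nat_lit 5) (nat_lit 49) (nat_lit 5) (nat_lit 440) (nat_lit 398) (nat_lit 182))) (XT.nd (nat_lit 78) (nat_lit 228) (nat_lit 0) (XT.lf (nat_lit 0) (nat_lit 140199464086) (nat_lit 152) (nat_lit 88648539551) (nat_lit 228) (nat_lit 9645843655) (nat_lit 46) (nat_lit 5) (nat_lit 48) (nat_lit 5) (nat_lit 49) (nat_lit 5) (nat_lit 441) (nat_lit 398) (nat_lit 181)) (XT.lf (nat_lit 0) (nat_lit 31767727989) (nat_lit 152) (nat_lit 11135982059) (nat_lit 228) (nat_lit 203586568386) (nat_lit 43) (nat_lit 5) (nat_lit 45) (nat_lit 5) (nat_lit 46) (nat_lit 5) (nat_lit 442) (nat_lit 398) (nat_lit 180))))))))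
noncomputable def xc219 : XT := (XT.nd (nat_lit 1950) (nat_lit 152) (nat_lit 0) (XT.nd (nat_lit 936) (nat_lit 760) (nat_lit 0) (XT.nd (nat_lit 468) (nat_lit 380) (nat_lit 0) (XT.nd (nat_lit 234) (nat_lit 304) (nat_lit 0) (XT.nd (nat_lit 78) (nat_lit 152) (nat_lit 0) (XT.lf (nat_lit 0) (nat_lit 100545171589) (nat_lit 228) (nat_lit 84340374687) (nat_lit 76) (nat_lit 69853648795) (nat_lit 43) (nat_lit 5) (nat_lit 46) (nat_lit 5) (nat_lit 44) (nat_lit 5) (nat_lit 443) (nat_lit 398) (nat_lit 179)) (XT.nd (nat_lit 78) (nat_lit 0) (nat_lit 0) (XT.lf (nat_lit 0) (nat_lit 54109894404) (nat_lit 152) (nat_lit 107985992623) (nat_lit 228) (nat_lit 101253311526) (nat_lit 41) (nat_lit 5) (nat_lit 43) (nat_lit 5) (nat_lit 44) (nat_lit 5) (nat_lit 444) (nat_lit 398) (nat_lit 178)) (XT.lf (nat_lit 0) (nat_lit 202410476447) (nat_lit 152) (nat_lit 25741827413) (nat_lit 228) (nat_lit 44165990117) (nat_lit 41)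 (nat_lit 5) (nat_lit 43) (nat_lit 5) (nat_lit 44) (nat_lit 5) (nat_lit 445) (nat_lit 398) (nat_lit 177)))) (XT.nd (nat_lit 78) (nat_lit 152) (nat_lit 0) (XT.lf (nat_lit 0) (nat_lit 17469257941) (nat_lit 152) (nat_lit 203971369261) (nat_lit 76) (nat_lit 60172977803) (nat_lit 39) (nat_lit 5) (nat_lit 41) (nat_lit 5) (nat_lit 40) (nat_lit 5) (nat_lit 446) (nat_lit 398) (nat_lit 176)) (XT.nd (nat_lit 78) (nat_lit 152) (nat_lit 0) (XT.lf (nat_lit 0) (nat_lit 82327157984) (nat_lit 152) (nat_lit 57483391345) (nat_lit 76) (nat_lit 151445672845) (nat_lit 39) (nat_lit 5) (nat_lit 41) (nat_lit 5) (nat_lit 40) (nat_lit 5) (nat_lit 447) (nat_lit 398) (nat_lit 175)) (XT.lf (nat_lit 0) (nat_lit 99513760828) (nat_lit 152) (nat_lit 52467717091) (nat_lit 228) (nat_lit 149321816078) (nat_lit 37) (nat_lit 5) (nat_lit 39) (nat_lit 5) (nat_lit 40) (nat_lit 5) (nat_lit 448) (nat_lit 398) (nat_lit 174))))) (XT.nd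 (nat_lit 234) (nat_lit 228) (nat_lit 0) (XT.nd (nat_lit 78) (nat_lit 152) (nat_lit 0) (XT.lf (nat_lit 0) (nat_lit 226720501369) (nat_lit 228) (nat_lit 46076508575) (nat_lit 76) (nat_lit 38975610131) (nat_lit 37) (nat_lit 5) (nat_lit 40) (nat_lit 5) (nat_lit 38) (nat_lit 4) (nat_lit 449) (nat_lit 398) (nat_lit 173)) (XT.nd (nat_lit 78) (nat_lit 76) (nat_lit 0) (XT.lf (nat_lit 0) (nat_lit 120415824857) (nat_lit 76) (nat_lit 187520651564) (nat_lit 152) (nat_lit 14691936052) (nat_lit 36) (nat_lit 5) (nat_lit 37) (nat_lit 5) (nat_lit 38) (nat_lit 4) (nat_lit 450) (nat_lit 398) (nat_lit 172)) (XT.lf (nat_lit 0) (nat_lit 58084892214) (nat_lit 152) (nat_lit 38092661370) (nat_lit 76) (nat_lit 237763589461) (nat_lit 35) (nat_lit 5) (nat_lit 37) (nat_lit 5) (nat_lit 36) (nat_lit 5) (nat_lit 451) (nat_lit 398) (nat_lit 171)))) (XT.nd (nat_lit 78) (nat_lit 76) (nat_lit 0) (XT.lf (nat_lit 0) (nat_lit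 136203035751) (nat_lit 228) (nat_lit 207312085520) (nat_lit 76) (nat_lit 2182535373) (nat_lit 33) (nat_lit 5) (nat_lit 36) (nat_lit 5) (nat_lit 34) (nat_lit 4) (nat_lit 452) (nat_lit 398) (nat_lit 170)) (XT.nd (nat_lit 78) (nat_lit 76) (nat_lit 0) (XT.lf (nat_lit 0) (nat_lit 220459315592) (nat_lit 228) (nat_lit 34587053618) (nat_lit 76) (nat_lit 102884015289) (nat_lit 33) (nat_lit 5) (nat_lit 36) (nat_lit 5) (nat_lit 34) (nat_lit 4) (nat_lit 453) (nat_lit 398) (nat_lit 169)) (XT.lf (nat_lit 0) (nat_lit 151626989911) (nat_lit 76) (nat_lit 159668603254) (nat_lit 152) (nat_lit 59360796423) (nat_lit 32) (nat_lit 5) (nat_lit 33) (nat_lit 5) (nat_lit 34) (nat_lit 4) (nat_lit 454) (nat_lit 398) (nat_lit 168)))))) (XT.nd (nat_lit 468) (nat_lit 304) (nat_lit 0) (XT.nd (nat_lit 234) (nat_lit 228) (nat_lit 0) (XT.nd (nat_lit 78) (nat_lit 152) (nat_lit 0) (XT.lf (nat_lit 0) (nat_lit 22525101441) (nat_lit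 152) (nat_lit 36000448926) (nat_lit 76) (nat_lit 325445698551) (nat_lit 31) (nat_lit 5) (nat_lit 33) (nat_lit 5) (nat_lit 32) (nat_lit 5) (nat_lit 455) (nat_lit 398) (nat_lit 167)) (XT.nd (nat_lit 78) (nat_lit 0) (nat_lit 0) (XT.lf (nat_lit 0) (nat_lit 109814907160) (nat_lit 228) (nat_lit 238240946329) (nat_lit 76) (nat_lit 49682115113) (nat_lit 29) (nat_lit 5) (nat_lit 32) (nat_lit 5) (nat_lit 30) (nat_lit 4) (nat_lit 456) (nat_lit 398) (nat_lit 166)) (XT.lf (nat_lit 0) (nat_lit 203048187758) (nat_lit 228) (nat_lit 47112988889) (nat_lit 76) (nat_lit 161952898418) (nat_lit 29) (nat_lit 5) (nat_lit 32) (nat_lit 5) (nat_lit 30) (nat_lit 4) (nat_lit 457) (nat_lit 398) (nat_lit 165)))) (XT.nd (nat_lit 78) (nat_lit 152) (nat_lit 0) (XT.lf (nat_lit 0) (nat_lit 158648893104) (nat_lit 76) (nat_lit 144771068814) (nat_lit 152) (nat_lit 123665183479) (nat_lit 28) (nat_lit 5) (nat_lit 29) (nat_lit 5)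 (nat_lit 30) (nat_lit 4) (nat_lit 458) (nat_lit 398) (nat_lit 164)) (XT.nd (nat_lit 78) (nat_lit 152) (nat_lit 0) (XT.lf (nat_lit 0) (nat_lit 376334300799) (nat_lit 76) (nat_lit 33273783356) (nat_lit 152) (nat_lit 33156797144) (nat_lit 28) (nat_lit 5) (nat_lit 29) (nat_lit 5) (nat_lit 30) (nat_lit 4) (nat_lit 459) (nat_lit 398) (nat_lit 163)) (XT.lf (nat_lit 0) (nat_lit 63592882892) (nat_lit 152) (nat_lit 310932212017) (nat_lit 76) (nat_lit 84470389177) (nat_lit 26) (nat_lit 5) (nat_lit 28) (nat_lit 5) (nat_lit 27) (nat_lit 4) (nat_lit 460) (nat_lit 398) (nat_lit 162))))) (XT.nd (nat_lit 234) (nat_lit 228) (nat_lit 0) (XT.nd (nat_lit 78) (nat_lit 76) (nat_lit 0) (XT.lf (nat_lit 0) (nat_lit 165754592898) (nat_lit 152) (nat_lit 101500916322) (nat_lit 76) (nat_lit 208670488520) (nat_lit 26) (nat_lit 5) (nat_lit 28) (nat_lit 5) (nat_lit 27) (nat_lit 4) (nat_lit 461) (nat_lit 398) (nat_lit 161))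 (XT.nd (nat_lit 78) (nat_lit 0) (nat_lit 0) (XT.lf (nat_lit 0) (nat_lit 122316631739) (nat_lit 76) (nat_lit 152617350372) (nat_lit 152) (nat_lit 218673575298) (nat_lit 25) (nat_lit 5) (nat_lit 26) (nat_lit 5) (nat_lit 27) (nat_lit 4) (nat_lit 462) (nat_lit 398) (nat_lit 160)) (XT.lf (nat_lit 0) (nat_lit 360848734673) (nat_lit 76) (nat_lit 30442463655) (nat_lit 152) (nat_lit 120796053875) (nat_lit 25) (nat_lit 5) (nat_lit 26) (nat_lit 5) (nat_lit 27) (nat_lit 4) (nat_lit 463) (nat_lit 398) (nat_lit 159)))) (XT.nd (nat_lit 156) (nat_lit 76) (nat_lit 0) (XT.nd (nat_lit 78) (nat_lit 76) (nat_lit 0) (XT.lf (nat_lit 0) (nat_lit 80877316204) (nat_lit 76) (nat_lit 435379149747) (nat_lit 76) (nat_lit 15094956271) (nat_lit 24) (nat_lit 4) (nat_lit 25) (nat_lit 5) (nat_lit 25) (nat_lit 4) (nat_lit 464) (nat_lit 398) (nat_lit 158)) (XT.lf (nat_lit 0) (nat_lit 95924316288) (nat_lit 152) (nat_lit 223639509481)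 (nat_lit 76) (nat_lit 231785006612) (nat_lit 23) (nat_lit 5) (nat_lit 25) (nat_lit 5) (nat_lit 24) (nat_lit 4) (nat_lit 465) (nat_lit 398) (nat_lit 157))) (XT.nd (nat_lit 78) (nat_lit 0) (nat_lit 0) (XT.lf (nat_lit 0) (nat_lit 14761633041) (nat_lit 76) (nat_lit 197455999877) (nat_lit 152) (nat_lit 360104588732) (nat_lit 22) (nat_lit 5) (nat_lit 23) (nat_lit 5) (nat_lit 24) (nat_lit 4) (nat_lit 466) (nat_lit 398) (nat_lit 156)) (XT.lf (nat_lit 0) (nat_lit 272846904542) (nat_lit 76) (nat_lit 65266055505) (nat_lit 152) (nat_lit 256041953115) (nat_lit 22) (nat_lit 5) (nat_lit 23) (nat_lit 5) (nat_lit 24) (nat_lit 4) (nat_lit 467) (nat_lit 398) (nat_lit 155))))))) (XT.nd (nat_lit 48516) (nat_lit 0) (nat_lit 4484) (XT.nd (nat_lit 47970) (nat_lit 0) (nat_lit 6916) (XT.nd (nat_lit 47736) (nat_lit 0) (nat_lit 6840) (XT.nd (nat_lit 78) (nat_lit 152) (nat_lit 0) (XT.lf (nat_lit 0) (nat_lit 471451020514)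 (nat_lit 152) (nat_lit 74391043286) (nat_lit 0) (nat_lit 71179777114) (nat_lit 22) (nat_lit 5) (nat_lit 24) (nat_lit 4) (nat_lit 22) (nat_lit 4) (nat_lit 468) (nat_lit 398) (nat_lit 154)) (XT.nd (nat_lit 78) (nat_lit 76) (nat_lit 0) (XT.lf (nat_lit 0) (nat_lit 189878975222) (nat_lit 76) (nat_lit 425611396338) (nat_lit 76) (nat_lit 25340024128) (nat_lit 21) (nat_lit 4) (nat_lit 22) (nat_lit 5) (nat_lit 22) (nat_lit 4) (nat_lit 469) (nat_lit 398) (nat_lit 153)) (XT.lf (nat_lit 0) (nat_lit 98953218869) (nat_lit 152) (nat_lit 197417396203) (nat_lit 76) (nat_lit 369315974194) (nat_lit 20) (nat_lit 5) (nat_lit 22) (nat_lit 5) (nat_lit 21) (nat_lit 4) (nat_lit 470) (nat_lit 398) (nat_lit 152)))) (XT.nd (nat_lit 78) (nat_lit 0) (nat_lit 0) (XT.lf (nat_lit 0) (nat_lit 8103291195) (nat_lit 836) (nat_lit 14049115930) (nat_lit 836) (nat_lit 14049115930) (nat_lit 110) (nat_lit 3) (nat_lit 121) (nat_lit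 3) (nat_lit 121) (nat_lit 5) (nat_lit 399) (nat_lit 399) (nat_lit 222)) (XT.nd (nat_lit 78) (nat_lit 0) (nat_lit 76) (XT.lf (nat_lit 76) (nat_lit 7011172934) (nat_lit 0) (nat_lit 9722183468) (nat_lit 836) (nat_lit 57473676810) (nat_lit 111) (nat_lit 5) (nat_lit 110) (nat_lit 3) (nat_lit 121) (nat_lit 5) (nat_lit 400) (nat_lit 399) (nat_lit 221)) (XT.lf (nat_lit 0) (nat_lit 18184486657) (nat_lit 760) (nat_lit 31649277812) (nat_lit 836) (nat_lit 26222554874) (nat_lit 111) (nat_lit 5) (nat_lit 121) (nat_lit 5) (nat_lit 122) (nat_lit 5) (nat_lit 401) (nat_lit 399) (nat_lit 220))))) (XT.nd (nat_lit 234) (nat_lit 0) (nat_lit 152) (XT.nd (nat_lit 78) (nat_lit 0) (nat_lit 76) (XT.lf (nat_lit 76) (nat_lit 5697153104) (nat_lit 0) (nat_lit 14258607578) (nat_lit 836) (nat_lit 58029930258) (nat_lit 112) (nat_lit 5) (nat_lit 111) (nat_lit 5) (nat_lit 122) (nat_lit 5) (nat_lit 402) (nat_lit 399) (nat_lit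 219)) (XT.nd (nat_lit 78) (nat_lit 0) (nat_lit 0) (XT.lf (nat_lit 0) (nat_lit 22720254961) (nat_lit 760) (nat_lit 34344881935) (nat_lit 836) (nat_lit 22901161892) (nat_lit 112) (nat_lit 5) (nat_lit 122) (nat_lit 5) (nat_lit 123) (nat_lit 5) (nat_lit 403) (nat_lit 399) (nat_lit 218)) (XT.lf (nat_lit 76) (nat_lit 5435730861) (nat_lit 0) (nat_lit 20505182923) (nat_lit 836) (nat_lit 56089126727) (nat_lit 113) (nat_lit 5) (nat_lit 112) (nat_lit 5) (nat_lit 123) (nat_lit 5) (nat_lit 404) (nat_lit 399) (nat_lit 217)))) (XT.nd (nat_lit 156) (nat_lit 0) (nat_lit 76) (XT.nd (nat_lit 78) (nat_lit 0) (nat_lit 0) (XT.lf (nat_lit 0) (nat_lit 30192341535) (nat_lit 760) (nat_lit 36059355557) (nat_lit 836) (nat_lit 17901785881) (nat_lit 113) (nat_lit 5) (nat_lit 123) (nat_lit 5) (nat_lit 124) (nat_lit 5) (nat_lit 405) (nat_lit 399) (nat_lit 216)) (XT.lf (nat_lit 76) (nat_lit 6369601486) (nat_lit 0) (nat_lit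 28721721299) (nat_lit 836) (nat_lit 51270026096) (nat_lit 114) (nat_lit 5) (nat_lit 113) (nat_lit 5) (nat_lit 124) (nat_lit 5) (nat_lit 406) (nat_lit 399) (nat_lit 215))) (XT.nd (nat_lit 78) (nat_lit 0) (nat_lit 0) (XT.lf (nat_lit 0) (nat_lit 41022174527) (nat_lit 760) (nat_lit 36654484375) (nat_lit 836) (nat_lit 10963603522) (nat_lit 114) (nat_lit 5) (nat_lit 124) (nat_lit 5) (nat_lit 125) (nat_lit 5) (nat_lit 407) (nat_lit 399) (nat_lit 214)) (XT.lf (nat_lit 76) (nat_lit 8655356442) (nat_lit 0) (nat_lit 39199631494) (nat_lit 836) (nat_lit 43147863142) (nat_lit 115) (nat_lit 5) (nat_lit 114) (nat_lit 5) (nat_lit 125) (nat_lit 5) (nat_lit 408) (nat_lit 399) (nat_lit 213)))))) (XT.nd (nat_lit 468) (nat_lit 1216) (nat_lit 0) (XT.nd (nat_lit 234) (nat_lit 760) (nat_lit 0) (XT.nd (nat_lit 78) (nat_lit 760) (nat_lit 0) (XT.lf (nat_lit 0) (nat_lit 55678592601) (nat_lit 760) (nat_lit 35978696496)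 (nat_lit 76) (nat_lit 1793822913) (nat_lit 115) (nat_lit 5) (nat_lit 125) (nat_lit 5) (nat_lit 116) (nat_lit 5) (nat_lit 409) (nat_lit 399) (nat_lit 212)) (XT.nd (nat_lit 78) (nat_lit 0) (nat_lit 0) (XT.lf (nat_lit 0) (nat_lit 12464402038) (nat_lit 760) (nat_lit 52265680332) (nat_lit 836) (nat_lit 31249868727) (nat_lit 105) (nat_lit 5) (nat_lit 115) (nat_lit 5) (nat_lit 116) (nat_lit 5) (nat_lit 410) (nat_lit 399) (nat_lit 211)) (XT.lf (nat_lit 0) (nat_lit 64578300729) (nat_lit 760) (nat_lit 10264663748) (nat_lit 836) (nat_lit 23761827107) (nat_lit 105) (nat_lit 5) (nat_lit 115) (nat_lit 5) (nat_lit 116) (nat_lit 5) (nat_lit 411) (nat_lit 399) (nat_lit 210)))) (XT.nd (nat_lit 78) (nat_lit 380) (nat_lit 0) (XT.lf (nat_lit 0) (nat_lit 17983878600) (nat_lit 380) (nat_lit 68286197556) (nat_lit 456) (nat_lit 15050368987) (nat_lit 100) (nat_lit 5) (nat_lit 105) (nat_lit 5) (nat_lit 106) (nat_lit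 5) (nat_lit 412) (nat_lit 399) (nat_lit 209)) (XT.nd (nat_lit 78) (nat_lit 380) (nat_lit 0) (XT.lf (nat_lit 0) (nat_lit 73601802782) (nat_lit 380) (nat_lit 25408096019) (nat_lit 456) (nat_lit 5124915115) (nat_lit 100) (nat_lit 5) (nat_lit 105) (nat_lit 5) (nat_lit 106) (nat_lit 5) (nat_lit 413) (nat_lit 399) (nat_lit 208)) (XT.lf (nat_lit 0) (nat_lit 5841429368) (nat_lit 380) (nat_lit 81731422253) (nat_lit 76) (nat_lit 19477207431) (nat_lit 95) (nat_lit 5) (nat_lit 100) (nat_lit 5) (nat_lit 96) (nat_lit 5) (nat_lit 414) (nat_lit 399) (nat_lit 207))))) (XT.nd (nat_lit 234) (nat_lit 836) (nat_lit 0) (XT.nd (nat_lit 78) (nat_lit 380) (nat_lit 0) (XT.lf (nat_lit 0) (nat_lit 18125524576) (nat_lit 380) (nat_lit 25571783334) (nat_lit 76) (nat_lit 66362474838) (nat_lit 95) (nat_lit 5) (nat_lit 100) (nat_lit 5) (nat_lit 96) (nat_lit 5) (nat_lit 415) (nat_lit 399) (nat_lit 206)) (XT.nd (nat_lit 78)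 (nat_lit 0) (nat_lit 0) (XT.lf (nat_lit 0) (nat_lit 31607913854) (nat_lit 456) (nat_lit 78739340628) (nat_lit 76) (nat_lit 2843533933) (nat_lit 90) (nat_lit 5) (nat_lit 96) (nat_lit 5) (nat_lit 91) (nat_lit 5) (nat_lit 416) (nat_lit 399) (nat_lit 205)) (XT.lf (nat_lit 0) (nat_lit 46920544605) (nat_lit 456) (nat_lit 18816953091) (nat_lit 76) (nat_lit 50683040807) (nat_lit 90) (nat_lit 5) (nat_lit 96) (nat_lit 5) (nat_lit 91) (nat_lit 5) (nat_lit 417) (nat_lit 399) (nat_lit 204)))) (XT.nd (nat_lit 156) (nat_lit 532) (nat_lit 0) (XT.nd (nat_lit 78) (nat_lit 0) (nat_lit 0) (XT.lf (nat_lit 0) (nat_lit 45559309127) (nat_lit 304) (nat_lit 18150427842) (nat_lit 380) (nat_lit 56066492852) (nat_lit 86) (nat_lit 5) (nat_lit 90) (nat_lit 5) (nat_lit 91) (nat_lit 5) (nat_lit 418) (nat_lit 399) (nat_lit 203)) (XT.lf (nat_lit 0) (nat_lit 82158656386) (nat_lit 380) (nat_lit 9978504394) (nat_lit 76) (nat_lit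 31121531770) (nat_lit 86) (nat_lit 5) (nat_lit 91) (nat_lit 5) (nat_lit 87) (nat_lit 5) (nat_lit 419) (nat_lit 399) (nat_lit 202))) (XT.nd (nat_lit 78) (nat_lit 228) (nat_lit 0) (XT.lf (nat_lit 0) (nat_lit 59064293892) (nat_lit 304) (nat_lit 43685084756) (nat_lit 380) (nat_lit 24104932130) (nat_lit 82) (nat_lit 5) (nat_lit 86) (nat_lit 5) (nat_lit 87) (nat_lit 5) (nat_lit 420) (nat_lit 399) (nat_lit 201)) (XT.lf (nat_lit 0) (nat_lit 1207607288) (nat_lit 228) (nat_lit 123464553634) (nat_lit 304) (nat_lit 5942422998) (nat_lit 79) (nat_lit 5) (nat_lit 82) (nat_lit 5) (nat_lit 83) (nat_lit 5) (nat_lit 421) (nat_lit 399) (nat_lit 200))))))))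
noncomputable def xc220 : XT := (XT.nd (nat_lit 1950) (nat_lit 1444) (nat_lit 0) (XT.nd (nat_lit 936) (nat_lit 1292) (nat_lit 0) (XT.nd (nat_lit 468) (nat_lit 760) (nat_lit 0) (XT.nd (nat_lit 234) (nat_lit 456) (nat_lit 0) (XT.nd (nat_lit 78) (nat_lit 304) (nat_lit 0) (XT.lf (nat_lit 0) (nat_lit 14590716075) (nat_lit 304) (nat_lit 59437207521) (nat_lit 76) (nat_lit 60430564431) (nat_lit 78) (nat_lit 5) (nat_lit 82) (nat_lit 5) (nat_lit 79) (nat_lit 5) (nat_lit 422) (nat_lit 399) (nat_lit 199)) (XT.nd (nat_lit 78) (nat_lit 0) (nat_lit 0) (XT.lf (nat_lit 0) (nat_lit 14393918152) (nat_lit 304) (nat_lit 21781297995) (nat_lit 380) (nat_lit 102303280103) (nat_lit 74) (nat_lit 5) (nat_lit 78) (nat_lit 5) (nat_lit 79) (nat_lit 5) (nat_lit 423) (nat_lit 399) (nat_lit 198)) (XT.lf (nat_lit 0) (nat_lit 60378162220) (nat_lit 380) (nat_lit 49202403915) (nat_lit 76) (nat_lit 33041977860) (nat_lit 74)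 (nat_lit 5) (nat_lit 79) (nat_lit 5) (nat_lit 75) (nat_lit 5) (nat_lit 424) (nat_lit 399) (nat_lit 197)))) (XT.nd (nat_lit 78) (nat_lit 228) (nat_lit 0) (XT.lf (nat_lit 0) (nat_lit 30027477115) (nat_lit 228) (nat_lit 56589363506) (nat_lit 304) (nat_lit 60315674411) (nat_lit 71) (nat_lit 5) (nat_lit 74) (nat_lit 5) (nat_lit 75) (nat_lit 5) (nat_lit 425) (nat_lit 399) (nat_lit 196)) (XT.nd (nat_lit 78) (nat_lit 228) (nat_lit 0) (XT.lf (nat_lit 0) (nat_lit 114926656786) (nat_lit 228) (nat_lit 73772267) (nat_lit 304) (nat_lit 36415906909) (nat_lit 71) (nat_lit 5) (nat_lit 74) (nat_lit 5) (nat_lit 75) (nat_lit 5) (nat_lit 426) (nat_lit 399) (nat_lit 195)) (XT.lf (nat_lit 0) (nat_lit 48575446251) (nat_lit 228) (nat_lit 97911204729) (nat_lit 304) (nat_lit 9553524395) (nat_lit 68) (nat_lit 5) (nat_lit 71) (nat_lit 5) (nat_lit 72) (nat_lit 5) (nat_lit 427) (nat_lit 399) (nat_lit 194))))) (XT.nd (nat_lit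 234) (nat_lit 456) (nat_lit 0) (XT.nd (nat_lit 78) (nat_lit 228) (nat_lit 0) (XT.lf (nat_lit 0) (nat_lit 18684032570) (nat_lit 304) (nat_lit 22006579296) (nat_lit 76) (nat_lit 120158582783) (nat_lit 67) (nat_lit 5) (nat_lit 71) (nat_lit 5) (nat_lit 68) (nat_lit 5) (nat_lit 428) (nat_lit 399) (nat_lit 193)) (XT.nd (nat_lit 78) (nat_lit 0) (nat_lit 0) (XT.lf (nat_lit 0) (nat_lit 49425121709) (nat_lit 304) (nat_lit 96357957553) (nat_lit 76) (nat_lit 20037119219) (nat_lit 64) (nat_lit 5) (nat_lit 68) (nat_lit 5) (nat_lit 65) (nat_lit 5) (nat_lit 429) (nat_lit 399) (nat_lit 192)) (XT.lf (nat_lit 0) (nat_lit 82748869173) (nat_lit 304) (nat_lit 5426141220) (nat_lit 76) (nat_lit 82812462034) (nat_lit 64) (nat_lit 5) (nat_lit 68) (nat_lit 5) (nat_lit 65) (nat_lit 5) (nat_lit 430) (nat_lit 399) (nat_lit 191)))) (XT.nd (nat_lit 78) (nat_lit 228) (nat_lit 0) (XT.lf (nat_lit 0) (nat_lit 93029431276)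 (nat_lit 228) (nat_lit 26161577996) (nat_lit 304) (nat_lit 57149490644) (nat_lit 61) (nat_lit 5) (nat_lit 64) (nat_lit 5) (nat_lit 65) (nat_lit 5) (nat_lit 431) (nat_lit 399) (nat_lit 190)) (XT.nd (nat_lit 78) (nat_lit 76) (nat_lit 0) (XT.lf (nat_lit 0) (nat_lit 14493435651) (nat_lit 152) (nat_lit 143889422293) (nat_lit 228) (nat_lit 23531940863) (nat_lit 59) (nat_lit 5) (nat_lit 61) (nat_lit 5) (nat_lit 62) (nat_lit 5) (nat_lit 432) (nat_lit 399) (nat_lit 189)) (XT.lf (nat_lit 0) (nat_lit 13252568153) (nat_lit 228) (nat_lit 68252809610) (nat_lit 76) (nat_lit 106160115442) (nat_lit 58) (nat_lit 5) (nat_lit 61) (nat_lit 5) (nat_lit 59) (nat_lit 5) (nat_lit 433) (nat_lit 399) (nat_lit 188)))))) (XT.nd (nat_lit 468) (nat_lit 684) (nat_lit 0) (XT.nd (nat_lit 234) (nat_lit 228) (nat_lit 0) (XT.nd (nat_lit 78) (nat_lit 152) (nat_lit 0) (XT.lf (nat_lit 0) (nat_lit 36661450717) (nat_lit 228) (nat_lit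 14996185210) (nat_lit 304) (nat_lit 141998189968) (nat_lit 55) (nat_lit 5) (nat_lit 58) (nat_lit 5) (nat_lit 59) (nat_lit 5) (nat_lit 434) (nat_lit 399) (nat_lit 187)) (XT.nd (nat_lit 78) (nat_lit 152) (nat_lit 0) (XT.lf (nat_lit 0) (nat_lit 94013759154) (nat_lit 304) (nat_lit 51572354716) (nat_lit 76) (nat_lit 54258021333) (nat_lit 55) (nat_lit 5) (nat_lit 59) (nat_lit 5) (nat_lit 56) (nat_lit 5) (nat_lit 435) (nat_lit 399) (nat_lit 186)) (XT.lf (nat_lit 0) (nat_lit 60821253852) (nat_lit 152) (nat_lit 78861651124) (nat_lit 228) (nat_lit 66599194260) (nat_lit 53) (nat_lit 5) (nat_lit 55) (nat_lit 5) (nat_lit 56) (nat_lit 5) (nat_lit 436) (nat_lit 399) (nat_lit 185)))) (XT.nd (nat_lit 78) (nat_lit 228) (nat_lit 0) (XT.lf (nat_lit 0) (nat_lit 180624690161) (nat_lit 152) (nat_lit 7884012830) (nat_lit 228) (nat_lit 24489598814) (nat_lit 53) (nat_lit 5) (nat_lit 55) (nat_lit 5) (nat_lit 56) (nat_lit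 5) (nat_lit 437) (nat_lit 399) (nat_lit 184)) (XT.nd (nat_lit 78) (nat_lit 0) (nat_lit 0) (XT.lf (nat_lit 0) (nat_lit 21550274482) (nat_lit 228) (nat_lit 132128584898) (nat_lit 76) (nat_lit 66233249869) (nat_lit 50) (nat_lit 5) (nat_lit 53) (nat_lit 5) (nat_lit 51) (nat_lit 5) (nat_lit 438) (nat_lit 399) (nat_lit 183)) (XT.lf (nat_lit 0) (nat_lit 69755428681) (nat_lit 228) (nat_lit 12611763329) (nat_lit 76) (nat_lit 144750026762) (nat_lit 50) (nat_lit 5) (nat_lit 53) (nat_lit 5) (nat_lit 51) (nat_lit 5) (nat_lit 439) (nat_lit 399) (nat_lit 182))))) (XT.nd (nat_lit 234) (nat_lit 380) (nat_lit 0) (XT.nd (nat_lit 78) (nat_lit 152) (nat_lit 0) (XT.lf (nat_lit 0) (nat_lit 116612934445) (nat_lit 152) (nat_lit 5578371852) (nat_lit 228) (nat_lit 112400254256) (nat_lit 48) (nat_lit 5) (nat_lit 50) (nat_lit 5) (nat_lit 51) (nat_lit 5) (nat_lit 440) (nat_lit 399) (nat_lit 181)) (XT.nd (nat_lit 78)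 (nat_lit 0) (nat_lit 0) (XT.lf (nat_lit 0) (nat_lit 9434181614) (nat_lit 152) (nat_lit 169350730466) (nat_lit 228) (nat_lit 63577910687) (nat_lit 46) (nat_lit 5) (nat_lit 48) (nat_lit 5) (nat_lit 49) (nat_lit 5) (nat_lit 441) (nat_lit 399) (nat_lit 180)) (XT.lf (nat_lit 0) (nat_lit 147218804235) (nat_lit 152) (nat_lit 93077210348) (nat_lit 228) (nat_lit 10122242746) (nat_lit 46) (nat_lit 5) (nat_lit 48) (nat_lit 5) (nat_lit 49) (nat_lit 5) (nat_lit 442) (nat_lit 399) (nat_lit 179)))) (XT.nd (nat_lit 156) (nat_lit 152) (nat_lit 0) (XT.nd (nat_lit 78) (nat_lit 0) (nat_lit 0) (XT.lf (nat_lit 0) (nat_lit 33365517504) (nat_lit 152) (nat_lit 11688957691) (nat_lit 228) (nat_lit 213760036556) (nat_lit 43) (nat_lit 5) (nat_lit 45) (nat_lit 5) (nat_lit 46) (nat_lit 5) (nat_lit 443) (nat_lit 399) (nat_lit 178)) (XT.lf (nat_lit 0) (nat_lit 105577800968) (nat_lit 228) (nat_lit 88548227683) (nat_lit 76)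 (nat_lit 73349856089) (nat_lit 43) (nat_lit 5) (nat_lit 46) (nat_lit 5) (nat_lit 44) (nat_lit 5) (nat_lit 444) (nat_lit 399) (nat_lit 177))) (XT.nd (nat_lit 78) (nat_lit 0) (nat_lit 0) (XT.lf (nat_lit 0) (nat_lit 56824407029) (nat_lit 152) (nat_lit 113381530191) (nat_lit 228) (nat_lit 106310456996) (nat_lit 41) (nat_lit 5) (nat_lit 43) (nat_lit 5) (nat_lit 44) (nat_lit 5) (nat_lit 445) (nat_lit 399) (nat_lit 176)) (XT.lf (nat_lit 0) (nat_lit 212539588750) (nat_lit 152) (nat_lit 27025335866) (nat_lit 228) (nat_lit 46369032379) (nat_lit 41) (nat_lit 5) (nat_lit 43) (nat_lit 5) (nat_lit 44) (nat_lit 5) (nat_lit 446) (nat_lit 399) (nat_lit 175))))))) (XT.nd (nat_lit 1014) (nat_lit 456) (nat_lit 0) (XT.nd (nat_lit 468) (nat_lit 532) (nat_lit 0) (XT.nd (nat_lit 234) (nat_lit 152) (nat_lit 0) (XT.nd (nat_lit 78) (nat_lit 152) (nat_lit 0) (XT.lf (nat_lit 0) (nat_lit 18347758780) (nat_lit 152) (nat_lit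 214161127335) (nat_lit 76) (nat_lit 63185145972) (nat_lit 39) (nat_lit 5) (nat_lit 41) (nat_lit 5) (nat_lit 40) (nat_lit 5) (nat_lit 447) (nat_lit 399) (nat_lit 174)) (XT.nd (nat_lit 78) (nat_lit 152) (nat_lit 0) (XT.lf (nat_lit 0) (nat_lit 86448313923) (nat_lit 152) (nat_lit 60349170065) (nat_lit 76) (nat_lit 159021308181) (nat_lit 39) (nat_lit 5) (nat_lit 41) (nat_lit 5) (nat_lit 40) (nat_lit 5) (nat_lit 448) (nat_lit 399) (nat_lit 173)) (XT.lf (nat_lit 0) (nat_lit 104497704381) (nat_lit 152) (nat_lit 55087545888) (nat_lit 228) (nat_lit 156782972352) (nat_lit 37) (nat_lit 5) (nat_lit 39) (nat_lit 5) (nat_lit 40) (nat_lit 5) (nat_lit 449) (nat_lit 399) (nat_lit 172)))) (XT.nd (nat_lit 78) (nat_lit 152) (nat_lit 0) (XT.lf (nat_lit 0) (nat_lit 238061054046) (nat_lit 228) (nat_lit 48372299668) (nat_lit 76) (nat_lit 40927669885) (nat_lit 37) (nat_lit 5) (nat_lit 40) (nat_lit 5) (nat_lit 38)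 (nat_lit 4) (nat_lit 450) (nat_lit 399) (nat_lit 171)) (XT.nd (nat_lit 78) (nat_lit 76) (nat_lit 0) (XT.lf (nat_lit 0) (nat_lit 126444520849) (nat_lit 76) (nat_lit 196893214817) (nat_lit 152) (nat_lit 15421874614) (nat_lit 36) (nat_lit 5) (nat_lit 37) (nat_lit 5) (nat_lit 38) (nat_lit 4) (nat_lit 451) (nat_lit 399) (nat_lit 170)) (XT.lf (nat_lit 0) (nat_lit 60993431251) (nat_lit 152) (nat_lit 39989623164) (nat_lit 76) (nat_lit 249654930111) (nat_lit 35) (nat_lit 5) (nat_lit 37) (nat_lit 5) (nat_lit 36) (nat_lit 5) (nat_lit 452) (nat_lit 399) (nat_lit 169))))) (XT.nd (nat_lit 234) (nat_lit 304) (nat_lit 0) (XT.nd (nat_lit 78) (nat_lit 76) (nat_lit 0) (XT.lf (nat_lit 0) (nat_lit 143017447451) (nat_lit 228) (nat_lit 217669983103) (nat_lit 76) (nat_lit 2294895024) (nat_lit 33) (nat_lit 5) (nat_lit 36) (nat_lit 5) (nat_lit 34) (nat_lit 4) (nat_lit 453) (nat_lit 399) (nat_lit 168)) (XT.nd (nat_lit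 78) (nat_lit 76) (nat_lit 0) (XT.lf (nat_lit 0) (nat_lit 231486338431) (nat_lit 228) (nat_lit 36309066590) (nat_lit 76) (nat_lit 108031294989) (nat_lit 33) (nat_lit 5) (nat_lit 36) (nat_lit 5) (nat_lit 34) (nat_lit 4) (nat_lit 454) (nat_lit 399) (nat_lit 167)) (XT.lf (nat_lit 0) (nat_lit 159215560732) (nat_lit 76) (nat_lit 167648788702) (nat_lit 152) (nat_lit 62324659983) (nat_lit 32) (nat_lit 5) (nat_lit 33) (nat_lit 5) (nat_lit 34) (nat_lit 4) (nat_lit 455) (nat_lit 399) (nat_lit 166)))) (XT.nd (nat_lit 156) (nat_lit 76) (nat_lit 0) (XT.nd (nat_lit 78) (nat_lit 152) (nat_lit 0) (XT.lf (nat_lit 0) (nat_lit 23655206604) (nat_lit 152) (nat_lit 37793465875) (nat_lit 76) (nat_lit 341720945638) (nat_lit 31) (nat_lit 5) (nat_lit 33) (nat_lit 5) (nat_lit 32) (nat_lit 5) (nat_lit 456) (nat_lit 399) (nat_lit 165)) (XT.lf (nat_lit 0) (nat_lit 115309475565) (nat_lit 228) (nat_lit 250145960396) (nat_lit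 76) (nat_lit 52169239211) (nat_lit 29) (nat_lit 5) (nat_lit 32) (nat_lit 5) (nat_lit 30) (nat_lit 4) (nat_lit 457) (nat_lit 399) (nat_lit 164))) (XT.nd (nat_lit 78) (nat_lit 76) (nat_lit 0) (XT.lf (nat_lit 0) (nat_lit 213204238144) (nat_lit 228) (nat_lit 49461940001) (nat_lit 76) (nat_lit 170053417950) (nat_lit 29) (nat_lit 5) (nat_lit 32) (nat_lit 5) (nat_lit 30) (nat_lit 4) (nat_lit 458) (nat_lit 399) (nat_lit 163)) (XT.lf (nat_lit 0) (nat_lit 166587928055) (nat_lit 76) (nat_lit 152006602469) (nat_lit 152) (nat_lit 129844692975) (nat_lit 28) (nat_lit 5) (nat_lit 29) (nat_lit 5) (nat_lit 30) (nat_lit 4) (nat_lit 459) (nat_lit 399) (nat_lit 162)))))) (XT.nd (nat_lit 468) (nat_lit 152) (nat_lit 0) (XT.nd (nat_lit 234) (nat_lit 152) (nat_lit 0) (XT.nd (nat_lit 78) (nat_lit 152) (nat_lit 0) (XT.lf (nat_lit 0) (nat_lit 395157292310) (nat_lit 76) (nat_lit 34934596537) (nat_lit 152) (nat_lit 34811065880)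 (nat_lit 28) (nat_lit 5) (nat_lit 29) (nat_lit 5) (nat_lit 30) (nat_lit 4) (nat_lit 460) (nat_lit 399) (nat_lit 161)) (XT.nd (nat_lit 78) (nat_lit 0) (nat_lit 0) (XT.lf (nat_lit 0) (nat_lit 66775962670) (nat_lit 152) (nat_lit 326472409521) (nat_lit 76) (nat_lit 88696713763) (nat_lit 26) (nat_lit 5) (nat_lit 28) (nat_lit 5) (nat_lit 27) (nat_lit 4) (nat_lit 461) (nat_lit 399) (nat_lit 160)) (XT.lf (nat_lit 0) (nat_lit 174045594575) (nat_lit 152) (nat_lit 106569854427) (nat_lit 76) (nat_lit 219106684495) (nat_lit 26) (nat_lit 5) (nat_lit 28) (nat_lit 5) (nat_lit 27) (nat_lit 4) (nat_lit 462) (nat_lit 399) (nat_lit 159)))) (XT.nd (nat_lit 78) (nat_lit 76) (nat_lit 0) (XT.lf (nat_lit 0) (nat_lit 128438472526) (nat_lit 76) (nat_lit 160245418733) (nat_lit 152) (nat_lit 229603883016) (nat_lit 25) (nat_lit 5) (nat_lit 26) (nat_lit 5) (nat_lit 27) (nat_lit 4) (nat_lit 463) (nat_lit 399) (nat_lit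 158)) (XT.nd (nat_lit 78) (nat_lit 76) (nat_lit 0) (XT.lf (nat_lit 0) (nat_lit 378896894454) (nat_lit 76) (nat_lit 31961920973) (nat_lit 152) (nat_lit 126832646047) (nat_lit 25) (nat_lit 5) (nat_lit 26) (nat_lit 5) (nat_lit 27) (nat_lit 4) (nat_lit 464) (nat_lit 399) (nat_lit 157)) (XT.lf (nat_lit 0) (nat_lit 84926922669) (nat_lit 76) (nat_lit 457145407449) (nat_lit 76) (nat_lit 15846510715) (nat_lit 24) (nat_lit 4) (nat_lit 25) (nat_lit 5) (nat_lit 25) (nat_lit 4) (nat_lit 465) (nat_lit 399) (nat_lit 156))))) (XT.nd (nat_lit 234) (nat_lit 0) (nat_lit 0) (XT.nd (nat_lit 78) (nat_lit 76) (nat_lit 0) (XT.lf (nat_lit 0) (nat_lit 100723476067) (nat_lit 152) (nat_lit 234815919910) (nat_lit 76) (nat_lit 243376730412) (nat_lit 23) (nat_lit 5) (nat_lit 25) (nat_lit 5) (nat_lit 24) (nat_lit 4) (nat_lit 466) (nat_lit 399) (nat_lit 155)) (XT.nd (nat_lit 78) (nat_lit 0) (nat_lit 0) (XT.lf (nat_lit 0)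 (nat_lit 15505189979) (nat_lit 76) (nat_lit 207326213844) (nat_lit 152) (nat_lit 378106784052) (nat_lit 22) (nat_lit 5) (nat_lit 23) (nat_lit 5) (nat_lit 24) (nat_lit 4) (nat_lit 467) (nat_lit 399) (nat_lit 154)) (XT.lf (nat_lit 0) (nat_lit 286494464328) (nat_lit 76) (nat_lit 68526895398) (nat_lit 152) (nat_lit 268841161136) (nat_lit 22) (nat_lit 5) (nat_lit 23) (nat_lit 5) (nat_lit 24) (nat_lit 4) (nat_lit 468) (nat_lit 399) (nat_lit 153)))) (XT.nd (nat_lit 47814) (nat_lit 0) (nat_lit 6688) (XT.nd (nat_lit 47736) (nat_lit 0) (nat_lit 6688) (XT.lf (nat_lit 0) (nat_lit 495026228805) (nat_lit 152) (nat_lit 78105534435) (nat_lit 0) (nat_lit 74741036499) (nat_lit 22) (nat_lit 5) (nat_lit 24) (nat_lit 4) (nat_lit 22) (nat_lit 4) (nat_lit 469) (nat_lit 399) (nat_lit 152)) (XT.lf (nat_lit 0) (nat_lit 8520411525) (nat_lit 836) (nat_lit 14745290725) (nat_lit 836) (nat_lit 14745290725) (nat_lit 110)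 (nat_lit 3) (nat_lit 121) (nat_lit 3) (nat_lit 121) (nat_lit 5) (nat_lit 400) (nat_lit 400) (nat_lit 220))) (XT.nd (nat_lit 78) (nat_lit 0) (nat_lit 76) (XT.lf (nat_lit 76) (nat_lit 7374090970) (nat_lit 0) (nat_lit 10218899114) (nat_lit 836) (nat_lit 60323230415) (nat_lit 111) (nat_lit 5) (nat_lit 110) (nat_lit 3) (nat_lit 121) (nat_lit 5) (nat_lit 401) (nat_lit 400) (nat_lit 219)) (XT.lf (nat_lit 0) (nat_lit 19115425529) (nat_lit 760) (nat_lit 33218704217) (nat_lit 836) (nat_lit 27523904523) (nat_lit 111) (nat_lit 5) (nat_lit 121) (nat_lit 5) (nat_lit 122) (nat_lit 5) (nat_lit 402) (nat_lit 400) (nat_lit 218))))))))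
noncomputable def xc221 : XT := (XT.nd (nat_lit 1950) (nat_lit 2736) (nat_lit 0) (XT.nd (nat_lit 936) (nat_lit 2204) (nat_lit 0) (XT.nd (nat_lit 468) (nat_lit 836) (nat_lit 0) (XT.nd (nat_lit 234) (nat_lit 0) (nat_lit 152) (XT.nd (nat_lit 78) (nat_lit 0) (nat_lit 76) (XT.lf (nat_lit 76) (nat_lit 5994837963) (nat_lit 0) (nat_lit 14979591535) (nat_lit 836) (nat_lit 60909487365) (nat_lit 112) (nat_lit 5) (nat_lit 111) (nat_lit 5) (nat_lit 122) (nat_lit 5) (nat_lit 403) (nat_lit 400) (nat_lit 217)) (XT.nd (nat_lit 78) (nat_lit 0) (nat_lit 0) (XT.lf (nat_lit 0) (nat_lit 23876034417) (nat_lit 760) (nat_lit 36048781681) (nat_lit 836) (nat_lit 24038795403) (nat_lit 112) (nat_lit 5) (nat_lit 122) (nat_lit 5) (nat_lit 123) (nat_lit 5) (nat_lit 404) (nat_lit 400) (nat_lit 216)) (XT.lf (nat_lit 76) (nat_lit 5720646522) (nat_lit 0) (nat_lit 21536343369) (nat_lit 836) (nat_lit 58873587895) (nat_lit 113)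 (nat_lit 5) (nat_lit 112) (nat_lit 5) (nat_lit 123) (nat_lit 5) (nat_lit 405) (nat_lit 400) (nat_lit 215)))) (XT.nd (nat_lit 78) (nat_lit 0) (nat_lit 0) (XT.lf (nat_lit 0) (nat_lit 31719995071) (nat_lit 760) (nat_lit 37848812853) (nat_lit 836) (nat_lit 18791434774) (nat_lit 113) (nat_lit 5) (nat_lit 123) (nat_lit 5) (nat_lit 124) (nat_lit 5) (nat_lit 406) (nat_lit 400) (nat_lit 214)) (XT.nd (nat_lit 78) (nat_lit 0) (nat_lit 76) (XT.lf (nat_lit 76) (nat_lit 6701374130) (nat_lit 0) (nat_lit 30161899908) (nat_lit 836) (nat_lit 53815261031) (nat_lit 114) (nat_lit 5) (nat_lit 113) (nat_lit 5) (nat_lit 124) (nat_lit 5) (nat_lit 407) (nat_lit 400) (nat_lit 213)) (XT.lf (nat_lit 0) (nat_lit 43089779652) (nat_lit 760) (nat_lit 38473648859) (nat_lit 836) (nat_lit 11508010786) (nat_lit 114) (nat_lit 5) (nat_lit 124) (nat_lit 5) (nat_lit 125) (nat_lit 5) (nat_lit 408) (nat_lit 400) (nat_lit 212)))))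 (XT.nd (nat_lit 234) (nat_lit 380) (nat_lit 0) (XT.nd (nat_lit 78) (nat_lit 684) (nat_lit 0) (XT.lf (nat_lit 76) (nat_lit 9101465294) (nat_lit 0) (nat_lit 41162191186) (nat_lit 836) (nat_lit 45288530312) (nat_lit 115) (nat_lit 5) (nat_lit 114) (nat_lit 5) (nat_lit 125) (nat_lit 5) (nat_lit 409) (nat_lit 400) (nat_lit 211)) (XT.nd (nat_lit 78) (nat_lit 760) (nat_lit 0) (XT.lf (nat_lit 0) (nat_lit 58477644988) (nat_lit 760) (nat_lit 37764118823) (nat_lit 76) (nat_lit 1881137296) (nat_lit 115) (nat_lit 5) (nat_lit 125) (nat_lit 5) (nat_lit 116) (nat_lit 5) (nat_lit 410) (nat_lit 400) (nat_lit 210)) (XT.lf (nat_lit 0) (nat_lit 13100916694) (nat_lit 760) (nat_lit 54880279986) (nat_lit 836) (nat_lit 32797011591) (nat_lit 105) (nat_lit 5) (nat_lit 115) (nat_lit 5) (nat_lit 116) (nat_lit 5) (nat_lit 411) (nat_lit 400) (nat_lit 209)))) (XT.nd (nat_lit 78) (nat_lit 380) (nat_lit 0) (XT.lf (nat_lit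 0) (nat_lit 67819877246) (nat_lit 760) (nat_lit 10779149923) (nat_lit 836) (nat_lit 24935298869) (nat_lit 105) (nat_lit 5) (nat_lit 115) (nat_lit 5) (nat_lit 116) (nat_lit 5) (nat_lit 412) (nat_lit 400) (nat_lit 208)) (XT.nd (nat_lit 78) (nat_lit 0) (nat_lit 0) (XT.lf (nat_lit 0) (nat_lit 18896242792) (nat_lit 380) (nat_lit 71700776039) (nat_lit 456) (nat_lit 15788767671) (nat_lit 100) (nat_lit 5) (nat_lit 105) (nat_lit 5) (nat_lit 106) (nat_lit 5) (nat_lit 413) (nat_lit 400) (nat_lit 207)) (XT.lf (nat_lit 0) (nat_lit 77294436029) (nat_lit 380) (nat_lit 26678756634) (nat_lit 456) (nat_lit 5367713475) (nat_lit 100) (nat_lit 5) (nat_lit 105) (nat_lit 5) (nat_lit 106) (nat_lit 5) (nat_lit 414) (nat_lit 400) (nat_lit 206)))))) (XT.nd (nat_lit 468) (nat_lit 1140) (nat_lit 0) (XT.nd (nat_lit 234) (nat_lit 304) (nat_lit 0) (XT.nd (nat_lit 78) (nat_lit 380) (nat_lit 0) (XT.lf (nat_lit 0) (nat_lit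 6146100128) (nat_lit 380) (nat_lit 85804586298) (nat_lit 76) (nat_lit 20451237879) (nat_lit 95) (nat_lit 5) (nat_lit 100) (nat_lit 5) (nat_lit 96) (nat_lit 5) (nat_lit 415) (nat_lit 400) (nat_lit 205)) (XT.nd (nat_lit 78) (nat_lit 380) (nat_lit 0) (XT.lf (nat_lit 0) (nat_lit 19043800131) (nat_lit 380) (nat_lit 26837603864) (nat_lit 76) (nat_lit 69680760558) (nat_lit 95) (nat_lit 5) (nat_lit 100) (nat_lit 5) (nat_lit 96) (nat_lit 5) (nat_lit 416) (nat_lit 400) (nat_lit 204)) (XT.lf (nat_lit 0) (nat_lit 33199948269) (nat_lit 456) (nat_lit 82663171404) (nat_lit 76) (nat_lit 2986619211) (nat_lit 90) (nat_lit 5) (nat_lit 96) (nat_lit 5) (nat_lit 91) (nat_lit 5) (nat_lit 417) (nat_lit 400) (nat_lit 203)))) (XT.nd (nat_lit 78) (nat_lit 304) (nat_lit 0) (XT.lf (nat_lit 0) (nat_lit 49277656333) (nat_lit 456) (nat_lit 19745290026) (nat_lit 76) (nat_lit 53218058163) (nat_lit 90) (nat_lit 5) (nat_lit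 96) (nat_lit 5) (nat_lit 91) (nat_lit 5) (nat_lit 418) (nat_lit 400) (nat_lit 202)) (XT.nd (nat_lit 78) (nat_lit 0) (nat_lit 0) (XT.lf (nat_lit 0) (nat_lit 47849583516) (nat_lit 304) (nat_lit 19056389142) (nat_lit 380) (nat_lit 58858524848) (nat_lit 86) (nat_lit 5) (nat_lit 90) (nat_lit 5) (nat_lit 91) (nat_lit 5) (nat_lit 419) (nat_lit 400) (nat_lit 201)) (XT.lf (nat_lit 0) (nat_lit 86276849395) (nat_lit 380) (nat_lit 10465212107) (nat_lit 76) (nat_lit 32679046605) (nat_lit 86) (nat_lit 5) (nat_lit 91) (nat_lit 5) (nat_lit 87) (nat_lit 5) (nat_lit 420) (nat_lit 400) (nat_lit 200))))) (XT.nd (nat_lit 234) (nat_lit 532) (nat_lit 0) (XT.nd (nat_lit 78) (nat_lit 304) (nat_lit 0) (XT.lf (nat_lit 0) (nat_lit 62029529036) (nat_lit 304) (nat_lit 45867277825) (nat_lit 380) (nat_lit 25299715719) (nat_lit 82) (nat_lit 5) (nat_lit 86) (nat_lit 5) (nat_lit 87) (nat_lit 5) (nat_lit 421) (nat_lit 400)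 (nat_lit 199)) (XT.nd (nat_lit 78) (nat_lit 76) (nat_lit 0) (XT.lf (nat_lit 0) (nat_lit 1280278174) (nat_lit 228) (nat_lit 129635198362) (nat_lit 304) (nat_lit 6229345705) (nat_lit 79) (nat_lit 5) (nat_lit 82) (nat_lit 5) (nat_lit 83) (nat_lit 5) (nat_lit 422) (nat_lit 400) (nat_lit 198)) (XT.lf (nat_lit 0) (nat_lit 15329653812) (nat_lit 304) (nat_lit 62397046782) (nat_lit 76) (nat_lit 63454236752) (nat_lit 78) (nat_lit 5) (nat_lit 82) (nat_lit 5) (nat_lit 79) (nat_lit 5) (nat_lit 423) (nat_lit 400) (nat_lit 197)))) (XT.nd (nat_lit 156) (nat_lit 228) (nat_lit 0) (XT.nd (nat_lit 78) (nat_lit 0) (nat_lit 0) (XT.lf (nat_lit 0) (nat_lit 15125441285) (nat_lit 304) (nat_lit 22867674546) (nat_lit 380) (nat_lit 107408843538) (nat_lit 74) (nat_lit 5) (nat_lit 78) (nat_lit 5) (nat_lit 79) (nat_lit 5) (nat_lit 424) (nat_lit 400) (nat_lit 196)) (XT.lf (nat_lit 0) (nat_lit 63405813999) (nat_lit 380)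 (nat_lit 51650860352) (nat_lit 76) (nat_lit 34696555138) (nat_lit 74) (nat_lit 5) (nat_lit 79) (nat_lit 5) (nat_lit 75) (nat_lit 5) (nat_lit 425) (nat_lit 400) (nat_lit 195))) (XT.nd (nat_lit 78) (nat_lit 0) (nat_lit 0) (XT.lf (nat_lit 0) (nat_lit 31540326604) (nat_lit 228) (nat_lit 59415862517) (nat_lit 304) (nat_lit 63322522032) (nat_lit 71) (nat_lit 5) (nat_lit 74) (nat_lit 5) (nat_lit 75) (nat_lit 5) (nat_lit 426) (nat_lit 400) (nat_lit 194)) (XT.lf (nat_lit 0) (nat_lit 120683918800) (nat_lit 228) (nat_lit 74633105) (nat_lit 304) (nat_lit 38228191684) (nat_lit 71) (nat_lit 5) (nat_lit 74) (nat_lit 5) (nat_lit 75) (nat_lit 5) (nat_lit 427) (nat_lit 400) (nat_lit 193))))))) (XT.nd (nat_lit 1014) (nat_lit 1140) (nat_lit 0) (XT.nd (nat_lit 468) (nat_lit 684) (nat_lit 0) (XT.nd (nat_lit 234) (nat_lit 380) (nat_lit 0) (XT.nd (nat_lit 78) (nat_lit 304) (nat_lit 0) (XT.lf (nat_lit 0) (nat_lit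 51015330596) (nat_lit 228) (nat_lit 102803584088) (nat_lit 304) (nat_lit 10022868995) (nat_lit 68) (nat_lit 5) (nat_lit 71) (nat_lit 5) (nat_lit 72) (nat_lit 5) (nat_lit 428) (nat_lit 400) (nat_lit 192)) (XT.nd (nat_lit 78) (nat_lit 228) (nat_lit 0) (XT.lf (nat_lit 0) (nat_lit 19625915109) (nat_lit 304) (nat_lit 23096067863) (nat_lit 76) (nat_lit 126169283820) (nat_lit 67) (nat_lit 5) (nat_lit 71) (nat_lit 5) (nat_lit 68) (nat_lit 5) (nat_lit 429) (nat_lit 400) (nat_lit 191)) (XT.lf (nat_lit 0) (nat_lit 51903909176) (nat_lit 304) (nat_lit 101164862130) (nat_lit 76) (nat_lit 21042057156) (nat_lit 64) (nat_lit 5) (nat_lit 68) (nat_lit 5) (nat_lit 65) (nat_lit 5) (nat_lit 430) (nat_lit 400) (nat_lit 190)))) (XT.nd (nat_lit 78) (nat_lit 380) (nat_lit 0) (XT.lf (nat_lit 0) (nat_lit 86893485376) (nat_lit 304) (nat_lit 5686978470) (nat_lit 76) (nat_lit 86956020351) (nat_lit 64) (nat_lit 5) (nat_lit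 68) (nat_lit 5) (nat_lit 65) (nat_lit 5) (nat_lit 431) (nat_lit 400) (nat_lit 189)) (XT.nd (nat_lit 78) (nat_lit 152) (nat_lit 0) (XT.lf (nat_lit 0) (nat_lit 97691203782) (nat_lit 228) (nat_lit 27466347965) (nat_lit 304) (nat_lit 59999620504) (nat_lit 61) (nat_lit 5) (nat_lit 64) (nat_lit 5) (nat_lit 65) (nat_lit 5) (nat_lit 432) (nat_lit 400) (nat_lit 188)) (XT.lf (nat_lit 0) (nat_lit 15228538377) (nat_lit 152) (nat_lit 151080333580) (nat_lit 228) (nat_lit 24701320318) (nat_lit 59) (nat_lit 5) (nat_lit 61) (nat_lit 5) (nat_lit 62) (nat_lit 5) (nat_lit 433) (nat_lit 400) (nat_lit 187))))) (XT.nd (nat_lit 234) (nat_lit 380) (nat_lit 0) (XT.nd (nat_lit 78) (nat_lit 228) (nat_lit 0) (XT.lf (nat_lit 0) (nat_lit 13921850446) (nat_lit 228) (nat_lit 71655293206) (nat_lit 76) (nat_lit 111471288874) (nat_lit 58) (nat_lit 5) (nat_lit 61) (nat_lit 5) (nat_lit 59) (nat_lit 5) (nat_lit 434) (nat_lit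 400) (nat_lit 186)) (XT.nd (nat_lit 78) (nat_lit 0) (nat_lit 0) (XT.lf (nat_lit 0) (nat_lit 38504516316) (nat_lit 228) (nat_lit 15742494461) (nat_lit 304) (nat_lit 149091279242) (nat_lit 55) (nat_lit 5) (nat_lit 58) (nat_lit 5) (nat_lit 59) (nat_lit 5) (nat_lit 435) (nat_lit 400) (nat_lit 185)) (XT.lf (nat_lit 0) (nat_lit 98720683015) (nat_lit 304) (nat_lit 54141195700) (nat_lit 76) (nat_lit 56974149054) (nat_lit 55) (nat_lit 5) (nat_lit 59) (nat_lit 5) (nat_lit 56) (nat_lit 5) (nat_lit 436) (nat_lit 400) (nat_lit 184)))) (XT.nd (nat_lit 156) (nat_lit 228) (nat_lit 0) (XT.nd (nat_lit 78) (nat_lit 0) (nat_lit 0) (XT.lf (nat_lit 0) (nat_lit 63871935607) (nat_lit 152) (nat_lit 82801203754) (nat_lit 228) (nat_lit 69922758097) (nat_lit 53) (nat_lit 5) (nat_lit 55) (nat_lit 5) (nat_lit 56) (nat_lit 5) (nat_lit 437) (nat_lit 400) (nat_lit 183)) (XT.lf (nat_lit 0) (nat_lit 189665085680) (nat_lit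 152) (nat_lit 8274851637) (nat_lit 228) (nat_lit 25707987443) (nat_lit 53) (nat_lit 5) (nat_lit 55) (nat_lit 5) (nat_lit 56) (nat_lit 5) (nat_lit 438) (nat_lit 400) (nat_lit 182))) (XT.nd (nat_lit 78) (nat_lit 0) (nat_lit 0) (XT.lf (nat_lit 0) (nat_lit 22633601357) (nat_lit 228) (nat_lit 138725570926) (nat_lit 76) (nat_lit 69548249798) (nat_lit 50) (nat_lit 5) (nat_lit 53) (nat_lit 5) (nat_lit 51) (nat_lit 5) (nat_lit 439) (nat_lit 400) (nat_lit 181)) (XT.lf (nat_lit 0) (nat_lit 73248736450) (nat_lit 228) (nat_lit 13233357956) (nat_lit 76) (nat_lit 151990706610) (nat_lit 50) (nat_lit 5) (nat_lit 53) (nat_lit 5) (nat_lit 51) (nat_lit 5) (nat_lit 440) (nat_lit 400) (nat_lit 180)))))) (XT.nd (nat_lit 468) (nat_lit 456) (nat_lit 0) (XT.nd (nat_lit 234) (nat_lit 380) (nat_lit 0) (XT.nd (nat_lit 78) (nat_lit 152) (nat_lit 0) (XT.lf (nat_lit 0) (nat_lit 122452429650) (nat_lit 152) (nat_lit 5853852811)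 (nat_lit 228) (nat_lit 118014583787) (nat_lit 48) (nat_lit 5) (nat_lit 50) (nat_lit 5) (nat_lit 51) (nat_lit 5) (nat_lit 441) (nat_lit 400) (nat_lit 179)) (XT.nd (nat_lit 78) (nat_lit 0) (nat_lit 0) (XT.lf (nat_lit 0) (nat_lit 9914811594) (nat_lit 152) (nat_lit 177814689675) (nat_lit 228) (nat_lit 66751193753) (nat_lit 46) (nat_lit 5) (nat_lit 48) (nat_lit 5) (nat_lit 49) (nat_lit 5) (nat_lit 442) (nat_lit 400) (nat_lit 178)) (XT.lf (nat_lit 0) (nat_lit 154588240542) (nat_lit 152) (nat_lit 97727663899) (nat_lit 228) (nat_lit 10623009675) (nat_lit 46) (nat_lit 5) (nat_lit 48) (nat_lit 5) (nat_lit 49) (nat_lit 5) (nat_lit 443) (nat_lit 400) (nat_lit 177)))) (XT.nd (nat_lit 78) (nat_lit 152) (nat_lit 0) (XT.lf (nat_lit 0) (nat_lit 35042322282) (nat_lit 152) (nat_lit 12269937574) (nat_lit 228) (nat_lit 224442722965) (nat_lit 43) (nat_lit 5) (nat_lit 45) (nat_lit 5) (nat_lit 46) (nat_lit 5) (nat_lit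 444) (nat_lit 400) (nat_lit 176)) (XT.nd (nat_lit 78) (nat_lit 152) (nat_lit 0) (XT.lf (nat_lit 0) (nat_lit 110861562489) (nat_lit 228) (nat_lit 92967325472) (nat_lit 76) (nat_lit 77020546040) (nat_lit 43) (nat_lit 5) (nat_lit 46) (nat_lit 5) (nat_lit 44) (nat_lit 5) (nat_lit 445) (nat_lit 400) (nat_lit 175)) (XT.lf (nat_lit 0) (nat_lit 59673806886) (nat_lit 152) (nat_lit 119047194398) (nat_lit 228) (nat_lit 111620972947) (nat_lit 41) (nat_lit 5) (nat_lit 43) (nat_lit 5) (nat_lit 44) (nat_lit 5) (nat_lit 446) (nat_lit 400) (nat_lit 174))))) (XT.nd (nat_lit 234) (nat_lit 304) (nat_lit 0) (XT.nd (nat_lit 78) (nat_lit 152) (nat_lit 0) (XT.lf (nat_lit 0) (nat_lit 223174358193) (nat_lit 152) (nat_lit 28373352848) (nat_lit 228) (nat_lit 48682715523) (nat_lit 41) (nat_lit 5) (nat_lit 43) (nat_lit 5) (nat_lit 44) (nat_lit 5) (nat_lit 447) (nat_lit 400) (nat_lit 173)) (XT.nd (nat_lit 78) (nat_lit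 0) (nat_lit 0) (XT.lf (nat_lit 0) (nat_lit 19269716280) (nat_lit 152) (nat_lit 224861192418) (nat_lit 76) (nat_lit 66347595360) (nat_lit 39) (nat_lit 5) (nat_lit 41) (nat_lit 5) (nat_lit 40) (nat_lit 5) (nat_lit 448) (nat_lit 400) (nat_lit 172)) (XT.lf (nat_lit 0) (nat_lit 90775081583) (nat_lit 152) (nat_lit 63359017822) (nat_lit 76) (nat_lit 166975413675) (nat_lit 39) (nat_lit 5) (nat_lit 41) (nat_lit 5) (nat_lit 40) (nat_lit 5) (nat_lit 449) (nat_lit 400) (nat_lit 171)))) (XT.nd (nat_lit 156) (nat_lit 152) (nat_lit 0) (XT.nd (nat_lit 78) (nat_lit 0) (nat_lit 0) (XT.lf (nat_lit 0) (nat_lit 109730077591) (nat_lit 152) (nat_lit 57838696826) (nat_lit 228) (nat_lit 164617645205) (nat_lit 37) (nat_lit 5) (nat_lit 39) (nat_lit 5) (nat_lit 40) (nat_lit 5) (nat_lit 450) (nat_lit 400) (nat_lit 170)) (XT.lf (nat_lit 0) (nat_lit 249968213423) (nat_lit 228) (nat_lit 50783627273) (nat_lit 76) (nat_lit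 42977027753) (nat_lit 37) (nat_lit 5) (nat_lit 40) (nat_lit 5) (nat_lit 38) (nat_lit 4) (nat_lit 451) (nat_lit 400) (nat_lit 169))) (XT.nd (nat_lit 78) (nat_lit 76) (nat_lit 0) (XT.lf (nat_lit 0) (nat_lit 132773916731) (nat_lit 76) (nat_lit 206734728777) (nat_lit 152) (nat_lit 16188743182) (nat_lit 36) (nat_lit 5) (nat_lit 37) (nat_lit 5) (nat_lit 38) (nat_lit 4) (nat_lit 452) (nat_lit 400) (nat_lit 168)) (XT.lf (nat_lit 0) (nat_lit 64046997986) (nat_lit 152) (nat_lit 41982146250) (nat_lit 76) (nat_lit 262140543897) (nat_lit 35) (nat_lit 5) (nat_lit 37) (nat_lit 5) (nat_lit 36) (nat_lit 5) (nat_lit 453) (nat_lit 400) (nat_lit 167))))))))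
noncomputable def xc222 : XT := (XT.nd (nat_lit 49686) (nat_lit 0) (nat_lit 2736) (XT.nd (nat_lit 936) (nat_lit 228) (nat_lit 0) (XT.nd (nat_lit 468) (nat_lit 304) (nat_lit 0) (XT.nd (nat_lit 234) (nat_lit 228) (nat_lit 0) (XT.nd (nat_lit 78) (nat_lit 76) (nat_lit 0) (XT.lf (nat_lit 0) (nat_lit 150172183689) (nat_lit 228) (nat_lit 228546492060) (nat_lit 76) (nat_lit 2412572094) (nat_lit 33) (nat_lit 5) (nat_lit 36) (nat_lit 5) (nat_lit 34) (nat_lit 4) (nat_lit 454) (nat_lit 400) (nat_lit 166)) (XT.nd (nat_lit 78) (nat_lit 76) (nat_lit 0) (XT.lf (nat_lit 0) (nat_lit 243064335225) (nat_lit 228) (nat_lit 38117862588) (nat_lit 76) (nat_lit 113435652423) (nat_lit 33) (nat_lit 5) (nat_lit 36) (nat_lit 5) (nat_lit 34) (nat_lit 4) (nat_lit 455) (nat_lit 400) (nat_lit 165)) (XT.lf (nat_lit 0) (nat_lit 167182888724) (nat_lit 76) (nat_lit 176028285085) (nat_lit 152) (nat_lit 65437104990) (nat_lit 32)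 (nat_lit 5) (nat_lit 33) (nat_lit 5) (nat_lit 34) (nat_lit 4) (nat_lit 456) (nat_lit 400) (nat_lit 164)))) (XT.nd (nat_lit 78) (nat_lit 152) (nat_lit 0) (XT.lf (nat_lit 0) (nat_lit 24841459080) (nat_lit 152) (nat_lit 39676784975) (nat_lit 76) (nat_lit 358809679686) (nat_lit 31) (nat_lit 5) (nat_lit 33) (nat_lit 5) (nat_lit 32) (nat_lit 5) (nat_lit 457) (nat_lit 400) (nat_lit 163)) (XT.nd (nat_lit 78) (nat_lit 0) (nat_lit 0) (XT.lf (nat_lit 0) (nat_lit 121078416960) (nat_lit 228) (nat_lit 262646879051) (nat_lit 76) (nat_lit 54780438897) (nat_lit 29) (nat_lit 5) (nat_lit 32) (nat_lit 5) (nat_lit 30) (nat_lit 4) (nat_lit 458) (nat_lit 400) (nat_lit 162)) (XT.lf (nat_lit 0) (nat_lit 223867752543) (nat_lit 228) (nat_lit 51928961415) (nat_lit 76) (nat_lit 178558696205) (nat_lit 29) (nat_lit 5) (nat_lit 32) (nat_lit 5) (nat_lit 30) (nat_lit 4) (nat_lit 459) (nat_lit 400) (nat_lit 161))))) (XT.nd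 (nat_lit 234) (nat_lit 76) (nat_lit 0) (XT.nd (nat_lit 78) (nat_lit 152) (nat_lit 0) (XT.lf (nat_lit 0) (nat_lit 174923302050) (nat_lit 76) (nat_lit 159604193557) (nat_lit 152) (nat_lit 136333526556) (nat_lit 28) (nat_lit 5) (nat_lit 29) (nat_lit 5) (nat_lit 30) (nat_lit 4) (nat_lit 460) (nat_lit 400) (nat_lit 160)) (XT.nd (nat_lit 78) (nat_lit 152) (nat_lit 0) (XT.lf (nat_lit 0) (nat_lit 414920849871) (nat_lit 76) (nat_lit 36678717759) (nat_lit 152) (nat_lit 36548380062) (nat_lit 28) (nat_lit 5) (nat_lit 29) (nat_lit 5) (nat_lit 30) (nat_lit 4) (nat_lit 461) (nat_lit 400) (nat_lit 159)) (XT.lf (nat_lit 0) (nat_lit 70117877025) (nat_lit 152) (nat_lit 342790213129) (nat_lit 76) (nat_lit 93134093783) (nat_lit 26) (nat_lit 5) (nat_lit 28) (nat_lit 5) (nat_lit 27) (nat_lit 4) (nat_lit 462) (nat_lit 400) (nat_lit 158)))) (XT.nd (nat_lit 78) (nat_lit 76) (nat_lit 0) (XT.lf (nat_lit 0) (nat_lit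 182750842134) (nat_lit 152) (nat_lit 111892807274) (nat_lit 76) (nat_lit 230064441894) (nat_lit 26) (nat_lit 5) (nat_lit 28) (nat_lit 5) (nat_lit 27) (nat_lit 4) (nat_lit 463) (nat_lit 400) (nat_lit 157)) (XT.nd (nat_lit 78) (nat_lit 0) (nat_lit 0) (XT.lf (nat_lit 0) (nat_lit 134865846674) (nat_lit 76) (nat_lit 168255150750) (nat_lit 152) (nat_lit 241081019528) (nat_lit 25) (nat_lit 5) (nat_lit 26) (nat_lit 5) (nat_lit 27) (nat_lit 4) (nat_lit 464) (nat_lit 400) (nat_lit 156)) (XT.lf (nat_lit 0) (nat_lit 397846930149) (nat_lit 76) (nat_lit 33557599004) (nat_lit 152) (nat_lit 133171366313) (nat_lit 25) (nat_lit 5) (nat_lit 26) (nat_lit 5) (nat_lit 27) (nat_lit 4) (nat_lit 465) (nat_lit 400) (nat_lit 155)))))) (XT.nd (nat_lit 48204) (nat_lit 0) (nat_lit 6764) (XT.nd (nat_lit 234) (nat_lit 0) (nat_lit 0) (XT.nd (nat_lit 78) (nat_lit 152) (nat_lit 0) (XT.lf (nat_lit 0) (nat_lit 89178475746)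 (nat_lit 76) (nat_lit 480000229037) (nat_lit 76) (nat_lit 16635939770) (nat_lit 24) (nat_lit 4) (nat_lit 25) (nat_lit 5) (nat_lit 25) (nat_lit 4) (nat_lit 466) (nat_lit 400) (nat_lit 154)) (XT.nd (nat_lit 78) (nat_lit 76) (nat_lit 0) (XT.lf (nat_lit 0) (nat_lit 105762320132) (nat_lit 152) (nat_lit 246551668245) (nat_lit 76) (nat_lit 255547810443) (nat_lit 23) (nat_lit 5) (nat_lit 25) (nat_lit 5) (nat_lit 24) (nat_lit 4) (nat_lit 467) (nat_lit 400) (nat_lit 153)) (XT.lf (nat_lit 0) (nat_lit 16285415725) (nat_lit 76) (nat_lit 217690178934) (nat_lit 152) (nat_lit 397009371221) (nat_lit 22) (nat_lit 5) (nat_lit 23) (nat_lit 5) (nat_lit 24) (nat_lit 4) (nat_lit 468) (nat_lit 400) (nat_lit 152)))) (XT.nd (nat_lit 47814) (nat_lit 0) (nat_lit 6688) (XT.lf (nat_lit 0) (nat_lit 300823917303) (nat_lit 76) (nat_lit 71951006260) (nat_lit 152) (nat_lit 282280598208) (nat_lit 22) (nat_lit 5) (nat_lit 23)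 (nat_lit 5) (nat_lit 24) (nat_lit 4) (nat_lit 469) (nat_lit 400) (nat_lit 151)) (XT.nd (nat_lit 78) (nat_lit 0) (nat_lit 0) (XT.lf (nat_lit 0) (nat_lit 8957276339) (nat_lit 836) (nat_lit 15476858208) (nat_lit 836) (nat_lit 15476858208) (nat_lit 110) (nat_lit 3) (nat_lit 121) (nat_lit 3) (nat_lit 121) (nat_lit 5) (nat_lit 401) (nat_lit 401) (nat_lit 218)) (XT.lf (nat_lit 76) (nat_lit 7754005849) (nat_lit 0) (nat_lit 10739464454) (nat_lit 836) (nat_lit 63317505100) (nat_lit 111) (nat_lit 5) (nat_lit 110) (nat_lit 3) (nat_lit 121) (nat_lit 5) (nat_lit 402) (nat_lit 401) (nat_lit 217))))) (XT.nd (nat_lit 234) (nat_lit 0) (nat_lit 76) (XT.nd (nat_lit 78) (nat_lit 0) (nat_lit 0) (XT.lf (nat_lit 0) (nat_lit 20090892531) (nat_lit 760) (nat_lit 34867814044) (nat_lit 836) (nat_lit 28891230729) (nat_lit 111) (nat_lit 5) (nat_lit 121) (nat_lit 5) (nat_lit 122) (nat_lit 5) (nat_lit 403) (nat_lit 401)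 (nat_lit 216)) (XT.nd (nat_lit 78) (nat_lit 0) (nat_lit 76) (XT.lf (nat_lit 76) (nat_lit 6306214513) (nat_lit 0) (nat_lit 15735875944) (nat_lit 836) (nat_lit 63935062045) (nat_lit 112) (nat_lit 5) (nat_lit 111) (nat_lit 5) (nat_lit 122) (nat_lit 5) (nat_lit 404) (nat_lit 401) (nat_lit 215)) (XT.lf (nat_lit 0) (nat_lit 25087765123) (nat_lit 760) (nat_lit 37839117047) (nat_lit 836) (nat_lit 25234000857) (nat_lit 112) (nat_lit 5) (nat_lit 122) (nat_lit 5) (nat_lit 123) (nat_lit 5) (nat_lit 405) (nat_lit 401) (nat_lit 214)))) (XT.nd (nat_lit 156) (nat_lit 0) (nat_lit 76) (XT.nd (nat_lit 78) (nat_lit 0) (nat_lit 76) (XT.lf (nat_lit 76) (nat_lit 6018587346) (nat_lit 0) (nat_lit 22618513190) (nat_lit 836) (nat_lit 61799131083) (nat_lit 113) (nat_lit 5) (nat_lit 112) (nat_lit 5) (nat_lit 123) (nat_lit 5) (nat_lit 406) (nat_lit 401) (nat_lit 213)) (XT.lf (nat_lit 0) (nat_lit 33322354424) (nat_lit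 760) (nat_lit 39728999092) (nat_lit 836) (nat_lit 19726071909) (nat_lit 113) (nat_lit 5) (nat_lit 123) (nat_lit 5) (nat_lit 124) (nat_lit 5) (nat_lit 407) (nat_lit 401) (nat_lit 212))) (XT.nd (nat_lit 78) (nat_lit 0) (nat_lit 76) (XT.lf (nat_lit 76) (nat_lit 7048499590) (nat_lit 0) (nat_lit 31673706961) (nat_lit 836) (nat_lit 56489455947) (nat_lit 114) (nat_lit 5) (nat_lit 113) (nat_lit 5) (nat_lit 124) (nat_lit 5) (nat_lit 408) (nat_lit 401) (nat_lit 211)) (XT.lf (nat_lit 0) (nat_lit 45259231354) (nat_lit 760) (nat_lit 40385032222) (nat_lit 836) (nat_lit 12079989183) (nat_lit 114) (nat_lit 5) (nat_lit 124) (nat_lit 5) (nat_lit 125) (nat_lit 5) (nat_lit 409) (nat_lit 401) (nat_lit 210))))))) (XT.nd (nat_lit 1014) (nat_lit 1824) (nat_lit 0) (XT.nd (nat_lit 468) (nat_lit 1368) (nat_lit 0) (XT.nd (nat_lit 234) (nat_lit 380) (nat_lit 0) (XT.nd (nat_lit 78) (nat_lit 684) (nat_lit 0) (XT.lf (nat_lit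 76) (nat_lit 9568639266) (nat_lit 0) (nat_lit 43222639173) (nat_lit 836) (nat_lit 47537785863) (nat_lit 115) (nat_lit 5) (nat_lit 114) (nat_lit 5) (nat_lit 125) (nat_lit 5) (nat_lit 410) (nat_lit 401) (nat_lit 209)) (XT.nd (nat_lit 78) (nat_lit 760) (nat_lit 0) (XT.lf (nat_lit 0) (nat_lit 61415244024) (nat_lit 760) (nat_lit 39640068530) (nat_lit 76) (nat_lit 1973038367) (nat_lit 115) (nat_lit 5) (nat_lit 125) (nat_lit 5) (nat_lit 116) (nat_lit 5) (nat_lit 411) (nat_lit 401) (nat_lit 208)) (XT.lf (nat_lit 0) (nat_lit 13768021081) (nat_lit 760) (nat_lit 57625487306) (nat_lit 836) (nat_lit 34422938748) (nat_lit 105) (nat_lit 5) (nat_lit 115) (nat_lit 5) (nat_lit 116) (nat_lit 5) (nat_lit 412) (nat_lit 401) (nat_lit 207)))) (XT.nd (nat_lit 78) (nat_lit 380) (nat_lit 0) (XT.lf (nat_lit 0) (nat_lit 71222355444) (nat_lit 760) (nat_lit 11319243915) (nat_lit 836) (nat_lit 26168803411) (nat_lit 105)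 (nat_lit 5) (nat_lit 115) (nat_lit 5) (nat_lit 116) (nat_lit 5) (nat_lit 413) (nat_lit 401) (nat_lit 206)) (XT.nd (nat_lit 78) (nat_lit 0) (nat_lit 0) (XT.lf (nat_lit 0) (nat_lit 19853000748) (nat_lit 380) (nat_lit 75286058474) (nat_lit 456) (nat_lit 16565399011) (nat_lit 100) (nat_lit 5) (nat_lit 105) (nat_lit 5) (nat_lit 106) (nat_lit 5) (nat_lit 414) (nat_lit 401) (nat_lit 205)) (XT.lf (nat_lit 0) (nat_lit 81170534798) (nat_lit 380) (nat_lit 28012926497) (nat_lit 456) (nat_lit 5623901965) (nat_lit 100) (nat_lit 5) (nat_lit 105) (nat_lit 5) (nat_lit 106) (nat_lit 5) (nat_lit 415) (nat_lit 401) (nat_lit 204))))) (XT.nd (nat_lit 234) (nat_lit 608) (nat_lit 0) (XT.nd (nat_lit 78) (nat_lit 380) (nat_lit 0) (XT.lf (nat_lit 0) (nat_lit 6464833064) (nat_lit 380) (nat_lit 90082655007) (nat_lit 76) (nat_lit 21473954038) (nat_lit 95) (nat_lit 5) (nat_lit 100) (nat_lit 5) (nat_lit 96) (nat_lit 5)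 (nat_lit 416) (nat_lit 401) (nat_lit 203)) (XT.nd (nat_lit 78) (nat_lit 380) (nat_lit 0) (XT.lf (nat_lit 0) (nat_lit 20006873879) (nat_lit 380) (nat_lit 28167902528) (nat_lit 76) (nat_lit 73164945504) (nat_lit 95) (nat_lit 5) (nat_lit 100) (nat_lit 5) (nat_lit 96) (nat_lit 5) (nat_lit 417) (nat_lit 401) (nat_lit 202)) (XT.lf (nat_lit 0) (nat_lit 34870502346) (nat_lit 456) (nat_lit 86784415003) (nat_lit 76) (nat_lit 3136774281) (nat_lit 90) (nat_lit 5) (nat_lit 96) (nat_lit 5) (nat_lit 91) (nat_lit 5) (nat_lit 418) (nat_lit 401) (nat_lit 201)))) (XT.nd (nat_lit 156) (nat_lit 304) (nat_lit 0) (XT.nd (nat_lit 78) (nat_lit 304) (nat_lit 0) (XT.lf (nat_lit 0) (nat_lit 51751593115) (nat_lit 456) (nat_lit 20721206936) (nat_lit 76) (nat_lit 55879745937) (nat_lit 90) (nat_lit 5) (nat_lit 96) (nat_lit 5) (nat_lit 91) (nat_lit 5) (nat_lit 419) (nat_lit 401) (nat_lit 200)) (XT.lf (nat_lit 0) (nat_lit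 50253227258) (nat_lit 304) (nat_lit 20007793549) (nat_lit 380) (nat_lit 61791208326) (nat_lit 86) (nat_lit 5) (nat_lit 90) (nat_lit 5) (nat_lit 91) (nat_lit 5) (nat_lit 420) (nat_lit 401) (nat_lit 199))) (XT.nd (nat_lit 78) (nat_lit 304) (nat_lit 0) (XT.lf (nat_lit 0) (nat_lit 90599998158) (nat_lit 380) (nat_lit 10977391074) (nat_lit 76) (nat_lit 34314303468) (nat_lit 86) (nat_lit 5) (nat_lit 91) (nat_lit 5) (nat_lit 87) (nat_lit 5) (nat_lit 421) (nat_lit 401) (nat_lit 198)) (XT.lf (nat_lit 0) (nat_lit 65141908391) (nat_lit 304) (nat_lit 48158772176) (nat_lit 380) (nat_lit 26555211239) (nat_lit 82) (nat_lit 5) (nat_lit 86) (nat_lit 5) (nat_lit 87) (nat_lit 5) (nat_lit 422) (nat_lit 401) (nat_lit 197)))))) (XT.nd (nat_lit 468) (nat_lit 988) (nat_lit 0) (XT.nd (nat_lit 234) (nat_lit 228) (nat_lit 0) (XT.nd (nat_lit 78) (nat_lit 380) (nat_lit 0) (XT.lf (nat_lit 0) (nat_lit 1355439948) (nat_lit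 228) (nat_lit 136114615464) (nat_lit 304) (nat_lit 6531562701) (nat_lit 79) (nat_lit 5) (nat_lit 82) (nat_lit 5) (nat_lit 83) (nat_lit 5) (nat_lit 423) (nat_lit 401) (nat_lit 196)) (XT.nd (nat_lit 78) (nat_lit 304) (nat_lit 0) (XT.lf (nat_lit 0) (nat_lit 16104664332) (nat_lit 304) (nat_lit 65505995615) (nat_lit 76) (nat_lit 66628893351) (nat_lit 78) (nat_lit 5) (nat_lit 82) (nat_lit 5) (nat_lit 79) (nat_lit 5) (nat_lit 424) (nat_lit 401) (nat_lit 195)) (XT.lf (nat_lit 0) (nat_lit 15892440992) (nat_lit 304) (nat_lit 24008619862) (nat_lit 380) (nat_lit 112770577715) (nat_lit 74) (nat_lit 5) (nat_lit 78) (nat_lit 5) (nat_lit 79) (nat_lit 5) (nat_lit 425) (nat_lit 401) (nat_lit 194)))) (XT.nd (nat_lit 78) (nat_lit 228) (nat_lit 0) (XT.lf (nat_lit 0) (nat_lit 66584035462) (nat_lit 380) (nat_lit 54222823997) (nat_lit 76) (nat_lit 36433630864) (nat_lit 74) (nat_lit 5) (nat_lit 79) (nat_lit 5) (nat_lit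 75) (nat_lit 5) (nat_lit 426) (nat_lit 401) (nat_lit 193)) (XT.nd (nat_lit 78) (nat_lit 0) (nat_lit 0) (XT.lf (nat_lit 0) (nat_lit 33127751672) (nat_lit 228) (nat_lit 62383962523) (nat_lit 304) (nat_lit 66480542828) (nat_lit 71) (nat_lit 5) (nat_lit 74) (nat_lit 5) (nat_lit 75) (nat_lit 5) (nat_lit 427) (nat_lit 401) (nat_lit 192)) (XT.lf (nat_lit 0) (nat_lit 126728027823) (nat_lit 228) (nat_lit 75799884) (nat_lit 304) (nat_lit 40131881929) (nat_lit 71) (nat_lit 5) (nat_lit 74) (nat_lit 5) (nat_lit 75) (nat_lit 5) (nat_lit 428) (nat_lit 401) (nat_lit 191))))) (XT.nd (nat_lit 234) (nat_lit 456) (nat_lit 0) (XT.nd (nat_lit 78) (nat_lit 304) (nat_lit 0) (XT.lf (nat_lit 0) (nat_lit 53576176067) (nat_lit 228) (nat_lit 107940878143) (nat_lit 304) (nat_lit 10516455420) (nat_lit 68) (nat_lit 5) (nat_lit 71) (nat_lit 5) (nat_lit 72) (nat_lit 5) (nat_lit 429) (nat_lit 401) (nat_lit 190)) (XT.nd (nat_lit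 78) (nat_lit 228) (nat_lit 0) (XT.lf (nat_lit 0) (nat_lit 20614177677) (nat_lit 304) (nat_lit 24241038697) (nat_lit 76) (nat_lit 132480262204) (nat_lit 67) (nat_lit 5) (nat_lit 71) (nat_lit 5) (nat_lit 68) (nat_lit 5) (nat_lit 430) (nat_lit 401) (nat_lit 189)) (XT.lf (nat_lit 0) (nat_lit 54505935820) (nat_lit 304) (nat_lit 106213133988) (nat_lit 76) (nat_lit 22096955457) (nat_lit 64) (nat_lit 5) (nat_lit 68) (nat_lit 5) (nat_lit 65) (nat_lit 5) (nat_lit 431) (nat_lit 401) (nat_lit 188)))) (XT.nd (nat_lit 156) (nat_lit 228) (nat_lit 0) (XT.nd (nat_lit 78) (nat_lit 228) (nat_lit 0) (XT.lf (nat_lit 0) (nat_lit 91244665535) (nat_lit 304) (nat_lit 5961830967) (nat_lit 76) (nat_lit 91306483696) (nat_lit 64) (nat_lit 5) (nat_lit 68) (nat_lit 5) (nat_lit 65) (nat_lit 5) (nat_lit 432) (nat_lit 401) (nat_lit 187)) (XT.lf (nat_lit 0) (nat_lit 102585107230) (nat_lit 228) (nat_lit 28836664064) (nat_lit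 304) (nat_lit 62992939694) (nat_lit 61) (nat_lit 5) (nat_lit 64) (nat_lit 5) (nat_lit 65) (nat_lit 5) (nat_lit 433) (nat_lit 401) (nat_lit 186))) (XT.nd (nat_lit 78) (nat_lit 76) (nat_lit 0) (XT.lf (nat_lit 0) (nat_lit 15999426469) (nat_lit 152) (nat_lit 158631121391) (nat_lit 228) (nat_lit 25929839770) (nat_lit 59) (nat_lit 5) (nat_lit 61) (nat_lit 5) (nat_lit 62) (nat_lit 5) (nat_lit 434) (nat_lit 401) (nat_lit 185)) (XT.lf (nat_lit 0) (nat_lit 14623978238) (nat_lit 228) (nat_lit 75228845274) (nat_lit 76) (nat_lit 117047726479) (nat_lit 58) (nat_lit 5) (nat_lit 61) (nat_lit 5) (nat_lit 59) (nat_lit 5) (nat_lit 435) (nat_lit 401) (nat_lit 184))))))))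
noncomputable def xc223 : XT := (XT.nd (nat_lit 2028) (nat_lit 456) (nat_lit 0) (XT.nd (nat_lit 1014) (nat_lit 988) (nat_lit 0) (XT.nd (nat_lit 468) (nat_lit 684) (nat_lit 0) (XT.nd (nat_lit 234) (nat_lit 228) (nat_lit 0) (XT.nd (nat_lit 78) (nat_lit 152) (nat_lit 0) (XT.lf (nat_lit 0) (nat_lit 40438806135) (nat_lit 228) (nat_lit 16526444572) (nat_lit 304) (nat_lit 156539657059) (nat_lit 55) (nat_lit 5) (nat_lit 58) (nat_lit 5) (nat_lit 59) (nat_lit 5) (nat_lit 436) (nat_lit 401) (nat_lit 183)) (XT.nd (nat_lit 78) (nat_lit 152) (nat_lit 0) (XT.lf (nat_lit 0) (nat_lit 103662373314) (nat_lit 304) (nat_lit 56839387683) (nat_lit 76) (nat_lit 59825783178) (nat_lit 55) (nat_lit 5) (nat_lit 59) (nat_lit 5) (nat_lit 56) (nat_lit 5) (nat_lit 437) (nat_lit 401) (nat_lit 182)) (XT.lf (nat_lit 0) (nat_lit 67074257160) (nat_lit 152) (nat_lit 86938062195) (nat_lit 228) (nat_lit 73413094753) (nat_lit 53)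 (nat_lit 5) (nat_lit 55) (nat_lit 5) (nat_lit 56) (nat_lit 5) (nat_lit 438) (nat_lit 401) (nat_lit 181)))) (XT.nd (nat_lit 78) (nat_lit 228) (nat_lit 0) (XT.lf (nat_lit 0) (nat_lit 199156649272) (nat_lit 152) (nat_lit 8685544936) (nat_lit 228) (nat_lit 26987861817) (nat_lit 53) (nat_lit 5) (nat_lit 55) (nat_lit 5) (nat_lit 56) (nat_lit 5) (nat_lit 439) (nat_lit 401) (nat_lit 180)) (XT.nd (nat_lit 78) (nat_lit 0) (nat_lit 0) (XT.lf (nat_lit 0) (nat_lit 23770554124) (nat_lit 228) (nat_lit 145653284196) (nat_lit 76) (nat_lit 73028689440) (nat_lit 50) (nat_lit 5) (nat_lit 53) (nat_lit 5) (nat_lit 51) (nat_lit 5) (nat_lit 440) (nat_lit 401) (nat_lit 179)) (XT.lf (nat_lit 0) (nat_lit 76916194891) (nat_lit 228) (nat_lit 13886868448) (nat_lit 76) (nat_lit 159593124942) (nat_lit 50) (nat_lit 5) (nat_lit 53) (nat_lit 5) (nat_lit 51) (nat_lit 5) (nat_lit 441) (nat_lit 401) (nat_lit 178))))) (XT.nd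 (nat_lit 234) (nat_lit 380) (nat_lit 0) (XT.nd (nat_lit 78) (nat_lit 152) (nat_lit 0) (XT.lf (nat_lit 0) (nat_lit 128583076967) (nat_lit 152) (nat_lit 6143427416) (nat_lit 228) (nat_lit 123910158164) (nat_lit 48) (nat_lit 5) (nat_lit 50) (nat_lit 5) (nat_lit 51) (nat_lit 5) (nat_lit 442) (nat_lit 401) (nat_lit 177)) (XT.nd (nat_lit 78) (nat_lit 0) (nat_lit 0) (XT.lf (nat_lit 0) (nat_lit 10418643693) (nat_lit 152) (nat_lit 186702179429) (nat_lit 228) (nat_lit 70083662766) (nat_lit 46) (nat_lit 5) (nat_lit 48) (nat_lit 5) (nat_lit 49) (nat_lit 5) (nat_lit 443) (nat_lit 401) (nat_lit 176)) (XT.lf (nat_lit 0) (nat_lit 162325358777) (nat_lit 152) (nat_lit 102610956875) (nat_lit 228) (nat_lit 11149311897) (nat_lit 46) (nat_lit 5) (nat_lit 48) (nat_lit 5) (nat_lit 49) (nat_lit 5) (nat_lit 444) (nat_lit 401) (nat_lit 175)))) (XT.nd (nat_lit 156) (nat_lit 152) (nat_lit 0) (XT.nd (nat_lit 78) (nat_lit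 0) (nat_lit 0) (XT.lf (nat_lit 0) (nat_lit 36802174362) (nat_lit 152) (nat_lit 12880288873) (nat_lit 228) (nat_lit 235660037872) (nat_lit 43) (nat_lit 5) (nat_lit 45) (nat_lit 5) (nat_lit 46) (nat_lit 5) (nat_lit 445) (nat_lit 401) (nat_lit 174)) (XT.lf (nat_lit 0) (nat_lit 116409059183) (nat_lit 228) (nat_lit 97608151069) (nat_lit 76) (nat_lit 80874473248) (nat_lit 43) (nat_lit 5) (nat_lit 46) (nat_lit 5) (nat_lit 44) (nat_lit 5) (nat_lit 446) (nat_lit 401) (nat_lit 173))) (XT.nd (nat_lit 78) (nat_lit 0) (nat_lit 0) (XT.lf (nat_lit 0) (nat_lit 62664916282) (nat_lit 152) (nat_lit 124996459059) (nat_lit 228) (nat_lit 117197480190) (nat_lit 41) (nat_lit 5) (nat_lit 43) (nat_lit 5) (nat_lit 44) (nat_lit 5) (nat_lit 447) (nat_lit 401) (nat_lit 172)) (XT.lf (nat_lit 0) (nat_lit 234340141866) (nat_lit 152) (nat_lit 29789072816) (nat_lit 228) (nat_lit 51112526152) (nat_lit 41) (nat_lit 5) (nat_lit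 43) (nat_lit 5) (nat_lit 44) (nat_lit 5) (nat_lit 448) (nat_lit 401) (nat_lit 171)))))) (XT.nd (nat_lit 468) (nat_lit 532) (nat_lit 0) (XT.nd (nat_lit 234) (nat_lit 152) (nat_lit 0) (XT.nd (nat_lit 78) (nat_lit 152) (nat_lit 0) (XT.lf (nat_lit 0) (nat_lit 20237346822) (nat_lit 152) (nat_lit 236097003710) (nat_lit 76) (nat_lit 69667870447) (nat_lit 39) (nat_lit 5) (nat_lit 41) (nat_lit 5) (nat_lit 40) (nat_lit 5) (nat_lit 449) (nat_lit 401) (nat_lit 170)) (XT.nd (nat_lit 78) (nat_lit 152) (nat_lit 0) (XT.lf (nat_lit 0) (nat_lit 95317783021) (nat_lit 152) (nat_lit 66520065543) (nat_lit 76) (nat_lit 175326941806) (nat_lit 39) (nat_lit 5) (nat_lit 41) (nat_lit 5) (nat_lit 40) (nat_lit 5) (nat_lit 450) (nat_lit 401) (nat_lit 169)) (XT.lf (nat_lit 0) (nat_lit 115223373300) (nat_lit 152) (nat_lit 60727705268) (nat_lit 228) (nat_lit 172844467816) (nat_lit 37) (nat_lit 5) (nat_lit 39) (nat_lit 5)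 (nat_lit 40) (nat_lit 5) (nat_lit 451) (nat_lit 401) (nat_lit 168)))) (XT.nd (nat_lit 78) (nat_lit 152) (nat_lit 0) (XT.lf (nat_lit 0) (nat_lit 262470348969) (nat_lit 228) (nat_lit 53316198770) (nat_lit 76) (nat_lit 45128576985) (nat_lit 37) (nat_lit 5) (nat_lit 40) (nat_lit 5) (nat_lit 38) (nat_lit 4) (nat_lit 452) (nat_lit 401) (nat_lit 167)) (XT.nd (nat_lit 78) (nat_lit 76) (nat_lit 0) (XT.lf (nat_lit 0) (nat_lit 139419115825) (nat_lit 76) (nat_lit 217068610994) (nat_lit 152) (nat_lit 16994347995) (nat_lit 36) (nat_lit 5) (nat_lit 37) (nat_lit 5) (nat_lit 38) (nat_lit 4) (nat_lit 453) (nat_lit 401) (nat_lit 166)) (XT.lf (nat_lit 0) (nat_lit 67252880921) (nat_lit 152) (nat_lit 44074942386) (nat_lit 76) (nat_lit 275250171800) (nat_lit 35) (nat_lit 5) (nat_lit 37) (nat_lit 5) (nat_lit 36) (nat_lit 5) (nat_lit 454) (nat_lit 401) (nat_lit 165))))) (XT.nd (nat_lit 234) (nat_lit 304) (nat_lit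 0) (XT.nd (nat_lit 78) (nat_lit 76) (nat_lit 0) (XT.lf (nat_lit 0) (nat_lit 157684297514) (nat_lit 228) (nat_lit 239967476347) (nat_lit 76) (nat_lit 2535860399) (nat_lit 33) (nat_lit 5) (nat_lit 36) (nat_lit 5) (nat_lit 34) (nat_lit 4) (nat_lit 455) (nat_lit 401) (nat_lit 164)) (XT.nd (nat_lit 78) (nat_lit 76) (nat_lit 0) (XT.lf (nat_lit 0) (nat_lit 255220889738) (nat_lit 228) (nat_lit 40017717322) (nat_lit 76) (nat_lit 119109968092) (nat_lit 33) (nat_lit 5) (nat_lit 36) (nat_lit 5) (nat_lit 34) (nat_lit 4) (nat_lit 456) (nat_lit 401) (nat_lit 163)) (XT.lf (nat_lit 0) (nat_lit 175547974162) (nat_lit 76) (nat_lit 184827029905) (nat_lit 152) (nat_lit 68705524419) (nat_lit 32) (nat_lit 5) (nat_lit 33) (nat_lit 5) (nat_lit 34) (nat_lit 4) (nat_lit 457) (nat_lit 401) (nat_lit 162)))) (XT.nd (nat_lit 156) (nat_lit 76) (nat_lit 0) (XT.nd (nat_lit 78) (nat_lit 152) (nat_lit 0) (XT.lf (nat_lit 0)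 (nat_lit 26086699513) (nat_lit 152) (nat_lit 41654860783) (nat_lit 76) (nat_lit 376752600646) (nat_lit 31) (nat_lit 5) (nat_lit 33) (nat_lit 5) (nat_lit 32) (nat_lit 5) (nat_lit 458) (nat_lit 401) (nat_lit 161)) (XT.lf (nat_lit 0) (nat_lit 127135483038) (nat_lit 228) (nat_lit 275773436731) (nat_lit 76) (nat_lit 57521944039) (nat_lit 29) (nat_lit 5) (nat_lit 32) (nat_lit 5) (nat_lit 30) (nat_lit 4) (nat_lit 459) (nat_lit 401) (nat_lit 160))) (XT.nd (nat_lit 78) (nat_lit 76) (nat_lit 0) (XT.lf (nat_lit 0) (nat_lit 235064135627) (nat_lit 228) (nat_lit 54519898751) (nat_lit 76) (nat_lit 187488995965) (nat_lit 29) (nat_lit 5) (nat_lit 32) (nat_lit 5) (nat_lit 30) (nat_lit 4) (nat_lit 460) (nat_lit 401) (nat_lit 159)) (XT.lf (nat_lit 0) (nat_lit 183674889005) (nat_lit 76) (nat_lit 167581918850) (nat_lit 152) (nat_lit 143147118015) (nat_lit 28) (nat_lit 5) (nat_lit 29) (nat_lit 5) (nat_lit 30)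 (nat_lit 4) (nat_lit 461) (nat_lit 401) (nat_lit 158))))))) (XT.nd (nat_lit 48828) (nat_lit 0) (nat_lit 5168) (XT.nd (nat_lit 468) (nat_lit 152) (nat_lit 0) (XT.nd (nat_lit 234) (nat_lit 152) (nat_lit 0) (XT.nd (nat_lit 78) (nat_lit 152) (nat_lit 0) (XT.lf (nat_lit 0) (nat_lit 435672056033) (nat_lit 76) (nat_lit 38510287566) (nat_lit 152) (nat_lit 38372861095) (nat_lit 28) (nat_lit 5) (nat_lit 29) (nat_lit 5) (nat_lit 30) (nat_lit 4) (nat_lit 462) (nat_lit 401) (nat_lit 157)) (XT.nd (nat_lit 78) (nat_lit 0) (nat_lit 0) (XT.lf (nat_lit 0) (nat_lit 73626597381) (nat_lit 152) (nat_lit 359924447715) (nat_lit 76) (nat_lit 97793106257) (nat_lit 26) (nat_lit 5) (nat_lit 28) (nat_lit 5) (nat_lit 27) (nat_lit 4) (nat_lit 463) (nat_lit 401) (nat_lit 156)) (XT.lf (nat_lit 0) (nat_lit 191891076149) (nat_lit 152) (nat_lit 117482422809) (nat_lit 76) (nat_lit 241569861878) (nat_lit 26) (nat_lit 5) (nat_lit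 28) (nat_lit 5) (nat_lit 27) (nat_lit 4) (nat_lit 464) (nat_lit 401) (nat_lit 155)))) (XT.nd (nat_lit 78) (nat_lit 76) (nat_lit 0) (XT.lf (nat_lit 0) (nat_lit 141614082791) (nat_lit 76) (nat_lit 176665605413) (nat_lit 152) (nat_lit 253132297136) (nat_lit 25) (nat_lit 5) (nat_lit 26) (nat_lit 5) (nat_lit 27) (nat_lit 4) (nat_lit 465) (nat_lit 401) (nat_lit 154)) (XT.nd (nat_lit 78) (nat_lit 76) (nat_lit 0) (XT.lf (nat_lit 0) (nat_lit 417743985022) (nat_lit 76) (nat_lit 35233285740) (nat_lit 152) (nat_lit 139827293325) (nat_lit 25) (nat_lit 5) (nat_lit 26) (nat_lit 5) (nat_lit 27) (nat_lit 4) (nat_lit 466) (nat_lit 401) (nat_lit 153)) (XT.lf (nat_lit 0) (nat_lit 93642122385) (nat_lit 76) (nat_lit 503998019369) (nat_lit 76) (nat_lit 17465109566) (nat_lit 24) (nat_lit 4) (nat_lit 25) (nat_lit 5) (nat_lit 25) (nat_lit 4) (nat_lit 467) (nat_lit 401) (nat_lit 152))))) (XT.nd (nat_lit 48048) (nat_lit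 0) (nat_lit 6688) (XT.nd (nat_lit 78) (nat_lit 76) (nat_lit 0) (XT.lf (nat_lit 0) (nat_lit 111052858145) (nat_lit 152) (nat_lit 258874673280) (nat_lit 76) (nat_lit 268327235894) (nat_lit 23) (nat_lit 5) (nat_lit 25) (nat_lit 5) (nat_lit 24) (nat_lit 4) (nat_lit 468) (nat_lit 401) (nat_lit 151)) (XT.nd (nat_lit 47892) (nat_lit 0) (nat_lit 6688) (XT.lf (nat_lit 0) (nat_lit 17104191043) (nat_lit 76) (nat_lit 228572560350) (nat_lit 152) (nat_lit 416857343607) (nat_lit 22) (nat_lit 5) (nat_lit 23) (nat_lit 5) (nat_lit 24) (nat_lit 4) (nat_lit 469) (nat_lit 401) (nat_lit 150)) (XT.lf (nat_lit 0) (nat_lit 9414976198) (nat_lit 836) (nat_lit 16245533723) (nat_lit 836) (nat_lit 16245533723) (nat_lit 110) (nat_lit 3) (nat_lit 121) (nat_lit 3) (nat_lit 121) (nat_lit 5) (nat_lit 402) (nat_lit 402) (nat_lit 216)))) (XT.nd (nat_lit 156) (nat_lit 0) (nat_lit 76) (XT.nd (nat_lit 78) (nat_lit 0) (nat_lit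 76) (XT.lf (nat_lit 76) (nat_lit 8151874241) (nat_lit 0) (nat_lit 11285163648) (nat_lit 836) (nat_lit 66463528350) (nat_lit 111) (nat_lit 5) (nat_lit 110) (nat_lit 3) (nat_lit 121) (nat_lit 5) (nat_lit 403) (nat_lit 402) (nat_lit 215)) (XT.lf (nat_lit 0) (nat_lit 21113301763) (nat_lit 760) (nat_lit 36600478775) (nat_lit 836) (nat_lit 30327747802) (nat_lit 111) (nat_lit 5) (nat_lit 121) (nat_lit 5) (nat_lit 122) (nat_lit 5) (nat_lit 404) (nat_lit 402) (nat_lit 214))) (XT.nd (nat_lit 78) (nat_lit 0) (nat_lit 76) (XT.lf (nat_lit 76) (nat_lit 6632078211) (nat_lit 0) (nat_lit 16529295439) (nat_lit 836) (nat_lit 67113765544) (nat_lit 112) (nat_lit 5) (nat_lit 111) (nat_lit 5) (nat_lit 122) (nat_lit 5) (nat_lit 405) (nat_lit 402) (nat_lit 213)) (XT.lf (nat_lit 0) (nat_lit 26358415499) (nat_lit 760) (nat_lit 39720094469) (nat_lit 836) (nat_lit 26489592677) (nat_lit 112) (nat_lit 5) (nat_lit 122)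 (nat_lit 5) (nat_lit 123) (nat_lit 5) (nat_lit 406) (nat_lit 402) (nat_lit 212)))))) (XT.nd (nat_lit 468) (nat_lit 1672) (nat_lit 0) (XT.nd (nat_lit 234) (nat_lit 0) (nat_lit 152) (XT.nd (nat_lit 78) (nat_lit 0) (nat_lit 76) (XT.lf (nat_lit 76) (nat_lit 6330318072) (nat_lit 0) (nat_lit 23754293862) (nat_lit 836) (nat_lit 64872637562) (nat_lit 113) (nat_lit 5) (nat_lit 112) (nat_lit 5) (nat_lit 123) (nat_lit 5) (nat_lit 407) (nat_lit 402) (nat_lit 211)) (XT.nd (nat_lit 78) (nat_lit 0) (nat_lit 0) (XT.lf (nat_lit 0) (nat_lit 35003310785) (nat_lit 760) (nat_lit 41704333940) (nat_lit 836) (nat_lit 20707899673) (nat_lit 113) (nat_lit 5) (nat_lit 123) (nat_lit 5) (nat_lit 124) (nat_lit 5) (nat_lit 408) (nat_lit 402) (nat_lit 210)) (XT.lf (nat_lit 76) (nat_lit 7411860399) (nat_lit 0) (nat_lit 33260759256) (nat_lit 836) (nat_lit 59298900957) (nat_lit 114) (nat_lit 5) (nat_lit 113) (nat_lit 5) (nat_lit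 124) (nat_lit 5) (nat_lit 409) (nat_lit 402) (nat_lit 209)))) (XT.nd (nat_lit 78) (nat_lit 0) (nat_lit 0) (XT.lf (nat_lit 0) (nat_lit 47535764549) (nat_lit 760) (nat_lit 42393128206) (nat_lit 836) (nat_lit 12680884659) (nat_lit 114) (nat_lit 5) (nat_lit 124) (nat_lit 5) (nat_lit 125) (nat_lit 5) (nat_lit 410) (nat_lit 402) (nat_lit 208)) (XT.nd (nat_lit 78) (nat_lit 0) (nat_lit 76) (XT.lf (nat_lit 76) (nat_lit 10058046927) (nat_lit 0) (nat_lit 45385892155) (nat_lit 836) (nat_lit 49900914645) (nat_lit 115) (nat_lit 5) (nat_lit 114) (nat_lit 5) (nat_lit 125) (nat_lit 5) (nat_lit 411) (nat_lit 402) (nat_lit 207)) (XT.lf (nat_lit 0) (nat_lit 64498447754) (nat_lit 760) (nat_lit 41610955192) (nat_lit 76) (nat_lit 2069734916) (nat_lit 115) (nat_lit 5) (nat_lit 125) (nat_lit 5) (nat_lit 116) (nat_lit 5) (nat_lit 412) (nat_lit 402) (nat_lit 206))))) (XT.nd (nat_lit 234) (nat_lit 760) (nat_lit 0)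 (XT.nd (nat_lit 78) (nat_lit 380) (nat_lit 0) (XT.lf (nat_lit 0) (nat_lit 14467359598) (nat_lit 760) (nat_lit 60507844049) (nat_lit 836) (nat_lit 36131456732) (nat_lit 105) (nat_lit 5) (nat_lit 115) (nat_lit 5) (nat_lit 116) (nat_lit 5) (nat_lit 413) (nat_lit 402) (nat_lit 205)) (XT.nd (nat_lit 78) (nat_lit 380) (nat_lit 0) (XT.lf (nat_lit 0) (nat_lit 74793889847) (nat_lit 760) (nat_lit 11886236947) (nat_lit 836) (nat_lit 27465216006) (nat_lit 105) (nat_lit 5) (nat_lit 115) (nat_lit 5) (nat_lit 116) (nat_lit 5) (nat_lit 414) (nat_lit 402) (nat_lit 204)) (XT.lf (nat_lit 0) (nat_lit 20856485993) (nat_lit 380) (nat_lit 79050582379) (nat_lit 456) (nat_lit 17382052596) (nat_lit 100) (nat_lit 5) (nat_lit 105) (nat_lit 5) (nat_lit 106) (nat_lit 5) (nat_lit 415) (nat_lit 402) (nat_lit 203)))) (XT.nd (nat_lit 156) (nat_lit 380) (nat_lit 0) (XT.nd (nat_lit 78) (nat_lit 380) (nat_lit 0) (XT.lf (nat_lit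 0) (nat_lit 85239380783) (nat_lit 380) (nat_lit 29413783281) (nat_lit 456) (nat_lit 5894033858) (nat_lit 100) (nat_lit 5) (nat_lit 105) (nat_lit 5) (nat_lit 106) (nat_lit 5) (nat_lit 416) (nat_lit 402) (nat_lit 202)) (XT.lf (nat_lit 0) (nat_lit 6798440185) (nat_lit 380) (nat_lit 94575757730) (nat_lit 76) (nat_lit 22547791662) (nat_lit 95) (nat_lit 5) (nat_lit 100) (nat_lit 5) (nat_lit 96) (nat_lit 5) (nat_lit 417) (nat_lit 402) (nat_lit 201))) (XT.nd (nat_lit 78) (nat_lit 380) (nat_lit 0) (XT.lf (nat_lit 0) (nat_lit 21017089448) (nat_lit 380) (nat_lit 29565792866) (nat_lit 76) (nat_lit 76823326039) (nat_lit 95) (nat_lit 5) (nat_lit 100) (nat_lit 5) (nat_lit 96) (nat_lit 5) (nat_lit 418) (nat_lit 402) (nat_lit 200)) (XT.lf (nat_lit 0) (nat_lit 36623602669) (nat_lit 456) (nat_lit 91112828524) (nat_lit 76) (nat_lit 3294360487) (nat_lit 90) (nat_lit 5) (nat_lit 96) (nat_lit 5) (nat_lit 91) (nat_lit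 5) (nat_lit 419) (nat_lit 402) (nat_lit 199))))))))
noncomputable def xc224 : XT := (XT.nd (nat_lit 1950) (nat_lit 1748) (nat_lit 0) (XT.nd (nat_lit 936) (nat_lit 1596) (nat_lit 0) (XT.nd (nat_lit 468) (nat_lit 836) (nat_lit 0) (XT.nd (nat_lit 234) (nat_lit 608) (nat_lit 0) (XT.nd (nat_lit 78) (nat_lit 304) (nat_lit 0) (XT.lf (nat_lit 0) (nat_lit 54348292014) (nat_lit 456) (nat_lit 21746974683) (nat_lit 76) (nat_lit 58674445131) (nat_lit 90) (nat_lit 5) (nat_lit 96) (nat_lit 5) (nat_lit 91) (nat_lit 5) (nat_lit 420) (nat_lit 402) (nat_lit 198)) (XT.nd (nat_lit 78) (nat_lit 0) (nat_lit 0) (XT.lf (nat_lit 0) (nat_lit 52776015211) (nat_lit 304) (nat_lit 21006899735) (nat_lit 380) (nat_lit 64871478254) (nat_lit 86) (nat_lit 5) (nat_lit 90) (nat_lit 5) (nat_lit 91) (nat_lit 5) (nat_lit 421) (nat_lit 402) (nat_lit 197)) (XT.lf (nat_lit 0) (nat_lit 95138439149) (nat_lit 380) (nat_lit 11516209254)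 (nat_lit 76) (nat_lit 36031201891) (nat_lit 86) (nat_lit 5) (nat_lit 91) (nat_lit 5) (nat_lit 87) (nat_lit 5) (nat_lit 422) (nat_lit 402) (nat_lit 196)))) (XT.nd (nat_lit 78) (nat_lit 304) (nat_lit 0) (XT.lf (nat_lit 0) (nat_lit 68408893064) (nat_lit 304) (nat_lit 50565015057) (nat_lit 380) (nat_lit 27874363851) (nat_lit 82) (nat_lit 5) (nat_lit 86) (nat_lit 5) (nat_lit 87) (nat_lit 5) (nat_lit 423) (nat_lit 402) (nat_lit 195)) (XT.nd (nat_lit 78) (nat_lit 76) (nat_lit 0) (XT.lf (nat_lit 0) (nat_lit 1433323388) (nat_lit 228) (nat_lit 142918221235) (nat_lit 304) (nat_lit 6849750552) (nat_lit 79) (nat_lit 5) (nat_lit 82) (nat_lit 5) (nat_lit 83) (nat_lit 5) (nat_lit 424) (nat_lit 402) (nat_lit 194)) (XT.lf (nat_lit 0) (nat_lit 16917632543) (nat_lit 304) (nat_lit 68771405595) (nat_lit 76) (nat_lit 69962101975) (nat_lit 78) (nat_lit 5) (nat_lit 82) (nat_lit 5) (nat_lit 79) (nat_lit 5) (nat_lit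 425) (nat_lit 402) (nat_lit 193))))) (XT.nd (nat_lit 234) (nat_lit 304) (nat_lit 0) (XT.nd (nat_lit 78) (nat_lit 228) (nat_lit 0) (XT.lf (nat_lit 0) (nat_lit 16696793330) (nat_lit 304) (nat_lit 25206839144) (nat_lit 380) (nat_lit 118401208187) (nat_lit 74) (nat_lit 5) (nat_lit 78) (nat_lit 5) (nat_lit 79) (nat_lit 5) (nat_lit 426) (nat_lit 402) (nat_lit 192)) (XT.nd (nat_lit 78) (nat_lit 228) (nat_lit 0) (XT.lf (nat_lit 0) (nat_lit 69920430672) (nat_lit 380) (nat_lit 56924369395) (nat_lit 76) (nat_lit 38257351381) (nat_lit 74) (nat_lit 5) (nat_lit 79) (nat_lit 5) (nat_lit 75) (nat_lit 5) (nat_lit 427) (nat_lit 402) (nat_lit 191)) (XT.lf (nat_lit 0) (nat_lit 34793580287) (nat_lit 228) (nat_lit 65500717911) (nat_lit 304) (nat_lit 69797218218) (nat_lit 71) (nat_lit 5) (nat_lit 74) (nat_lit 5) (nat_lit 75) (nat_lit 5) (nat_lit 428) (nat_lit 402) (nat_lit 190)))) (XT.nd (nat_lit 78) (nat_lit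 304) (nat_lit 0) (XT.lf (nat_lit 0) (nat_lit 133073420673) (nat_lit 228) (nat_lit 77263460) (nat_lit 304) (nat_lit 42131474358) (nat_lit 71) (nat_lit 5) (nat_lit 74) (nat_lit 5) (nat_lit 75) (nat_lit 5) (nat_lit 429) (nat_lit 402) (nat_lit 189)) (XT.nd (nat_lit 78) (nat_lit 76) (nat_lit 0) (XT.lf (nat_lit 0) (nat_lit 56264126767) (nat_lit 228) (nat_lit 113335305134) (nat_lit 304) (nat_lit 11035423747) (nat_lit 68) (nat_lit 5) (nat_lit 71) (nat_lit 5) (nat_lit 72) (nat_lit 5) (nat_lit 430) (nat_lit 402) (nat_lit 188)) (XT.lf (nat_lit 0) (nat_lit 21651205665) (nat_lit 304) (nat_lit 25444172210) (nat_lit 76) (nat_lit 139106555762) (nat_lit 67) (nat_lit 5) (nat_lit 71) (nat_lit 5) (nat_lit 68) (nat_lit 5) (nat_lit 431) (nat_lit 402) (nat_lit 187)))))) (XT.nd (nat_lit 468) (nat_lit 684) (nat_lit 0) (XT.nd (nat_lit 234) (nat_lit 456) (nat_lit 0) (XT.nd (nat_lit 78) (nat_lit 228) (nat_lit 0) (XT.lf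 (nat_lit 0) (nat_lit 57237428697) (nat_lit 304) (nat_lit 111514746471) (nat_lit 76) (nat_lit 23204338779) (nat_lit 64) (nat_lit 5) (nat_lit 68) (nat_lit 5) (nat_lit 65) (nat_lit 5) (nat_lit 432) (nat_lit 402) (nat_lit 186)) (XT.nd (nat_lit 78) (nat_lit 228) (nat_lit 0) (XT.lf (nat_lit 0) (nat_lit 95812799846) (nat_lit 304) (nat_lit 6251308976) (nat_lit 76) (nat_lit 95874222690) (nat_lit 64) (nat_lit 5) (nat_lit 68) (nat_lit 5) (nat_lit 65) (nat_lit 5) (nat_lit 433) (nat_lit 402) (nat_lit 185)) (XT.lf (nat_lit 0) (nat_lit 107722837203) (nat_lit 228) (nat_lit 30275775001) (nat_lit 304) (nat_lit 66136544198) (nat_lit 61) (nat_lit 5) (nat_lit 64) (nat_lit 5) (nat_lit 65) (nat_lit 5) (nat_lit 434) (nat_lit 402) (nat_lit 184)))) (XT.nd (nat_lit 78) (nat_lit 304) (nat_lit 0) (XT.lf (nat_lit 0) (nat_lit 16807979356) (nat_lit 152) (nat_lit 166559748781) (nat_lit 228) (nat_lit 27220393831) (nat_lit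 59) (nat_lit 5) (nat_lit 61) (nat_lit 5) (nat_lit 62) (nat_lit 5) (nat_lit 435) (nat_lit 402) (nat_lit 183)) (XT.nd (nat_lit 78) (nat_lit 228) (nat_lit 0) (XT.lf (nat_lit 0) (nat_lit 15360651318) (nat_lit 228) (nat_lit 78981931444) (nat_lit 76) (nat_lit 122902718844) (nat_lit 58) (nat_lit 5) (nat_lit 61) (nat_lit 5) (nat_lit 59) (nat_lit 5) (nat_lit 436) (nat_lit 402) (nat_lit 182)) (XT.lf (nat_lit 0) (nat_lit 42468967759) (nat_lit 228) (nat_lit 17349887334) (nat_lit 304) (nat_lit 164361028897) (nat_lit 55) (nat_lit 5) (nat_lit 58) (nat_lit 5) (nat_lit 59) (nat_lit 5) (nat_lit 437) (nat_lit 402) (nat_lit 181))))) (XT.nd (nat_lit 234) (nat_lit 532) (nat_lit 0) (XT.nd (nat_lit 78) (nat_lit 152) (nat_lit 0) (XT.lf (nat_lit 0) (nat_lit 108850622273) (nat_lit 304) (nat_lit 59673313710) (nat_lit 76) (nat_lit 62819726914) (nat_lit 55) (nat_lit 5) (nat_lit 59) (nat_lit 5) (nat_lit 56) (nat_lit 5)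 (nat_lit 438) (nat_lit 402) (nat_lit 180)) (XT.nd (nat_lit 78) (nat_lit 0) (nat_lit 0) (XT.lf (nat_lit 0) (nat_lit 70435883644) (nat_lit 152) (nat_lit 91282061226) (nat_lit 228) (nat_lit 77078487586) (nat_lit 53) (nat_lit 5) (nat_lit 55) (nat_lit 5) (nat_lit 56) (nat_lit 5) (nat_lit 439) (nat_lit 402) (nat_lit 179)) (XT.lf (nat_lit 0) (nat_lit 209122018523) (nat_lit 152) (nat_lit 9117056393) (nat_lit 228) (nat_lit 28332243571) (nat_lit 53) (nat_lit 5) (nat_lit 55) (nat_lit 5) (nat_lit 56) (nat_lit 5) (nat_lit 440) (nat_lit 402) (nat_lit 178)))) (XT.nd (nat_lit 156) (nat_lit 304) (nat_lit 0) (XT.nd (nat_lit 78) (nat_lit 0) (nat_lit 0) (XT.lf (nat_lit 0) (nat_lit 24963864324) (nat_lit 228) (nat_lit 152928179448) (nat_lit 76) (nat_lit 76682869628) (nat_lit 50) (nat_lit 5) (nat_lit 53) (nat_lit 5) (nat_lit 51) (nat_lit 5) (nat_lit 441) (nat_lit 402) (nat_lit 177)) (XT.lf (nat_lit 0) (nat_lit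 80766559391) (nat_lit 228) (nat_lit 14573812863) (nat_lit 76) (nat_lit 167575396157) (nat_lit 50) (nat_lit 5) (nat_lit 53) (nat_lit 5) (nat_lit 51) (nat_lit 5) (nat_lit 442) (nat_lit 402) (nat_lit 176))) (XT.nd (nat_lit 78) (nat_lit 152) (nat_lit 0) (XT.lf (nat_lit 0) (nat_lit 135019510484) (nat_lit 152) (nat_lit 6447770637) (nat_lit 228) (nat_lit 130100990505) (nat_lit 48) (nat_lit 5) (nat_lit 50) (nat_lit 5) (nat_lit 51) (nat_lit 5) (nat_lit 443) (nat_lit 402) (nat_lit 175)) (XT.lf (nat_lit 0) (nat_lit 10946915123) (nat_lit 152) (nat_lit 196034345335) (nat_lit 228) (nat_lit 73583228512) (nat_lit 46) (nat_lit 5) (nat_lit 48) (nat_lit 5) (nat_lit 49) (nat_lit 5) (nat_lit 444) (nat_lit 402) (nat_lit 174))))))) (XT.nd (nat_lit 1014) (nat_lit 760) (nat_lit 0) (XT.nd (nat_lit 468) (nat_lit 456) (nat_lit 0) (XT.nd (nat_lit 234) (nat_lit 304) (nat_lit 0) (XT.nd (nat_lit 78) (nat_lit 228) (nat_lit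 0) (XT.lf (nat_lit 0) (nat_lit 170448616475) (nat_lit 152) (nat_lit 107738701800) (nat_lit 228) (nat_lit 11702379976) (nat_lit 46) (nat_lit 5) (nat_lit 48) (nat_lit 5) (nat_lit 49) (nat_lit 5) (nat_lit 445) (nat_lit 402) (nat_lit 173)) (XT.nd (nat_lit 78) (nat_lit 0) (nat_lit 0) (XT.lf (nat_lit 0) (nat_lit 38649299830) (nat_lit 152) (nat_lit 13521450183) (nat_lit 228) (nat_lit 247438666757) (nat_lit 43) (nat_lit 5) (nat_lit 45) (nat_lit 5) (nat_lit 46) (nat_lit 5) (nat_lit 446) (nat_lit 402) (nat_lit 172)) (XT.lf (nat_lit 0) (nat_lit 122233519915) (nat_lit 228) (nat_lit 102481719007) (nat_lit 76) (nat_lit 84920827211) (nat_lit 43) (nat_lit 5) (nat_lit 46) (nat_lit 5) (nat_lit 44) (nat_lit 5) (nat_lit 447) (nat_lit 402) (nat_lit 171)))) (XT.nd (nat_lit 78) (nat_lit 152) (nat_lit 0) (XT.lf (nat_lit 0) (nat_lit 65804891395) (nat_lit 152) (nat_lit 131243474703) (nat_lit 228) (nat_lit 123053235012)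 (nat_lit 41) (nat_lit 5) (nat_lit 43) (nat_lit 5) (nat_lit 44) (nat_lit 5) (nat_lit 448) (nat_lit 402) (nat_lit 170)) (XT.nd (nat_lit 78) (nat_lit 152) (nat_lit 0) (XT.lf (nat_lit 0) (nat_lit 246063557816) (nat_lit 152) (nat_lit 31275852828) (nat_lit 228) (nat_lit 53664229423) (nat_lit 41) (nat_lit 5) (nat_lit 43) (nat_lit 5) (nat_lit 44) (nat_lit 5) (nat_lit 449) (nat_lit 402) (nat_lit 169)) (XT.lf (nat_lit 0) (nat_lit 21252973553) (nat_lit 152) (nat_lit 247895279447) (nat_lit 76) (nat_lit 73153890109) (nat_lit 39) (nat_lit 5) (nat_lit 41) (nat_lit 5) (nat_lit 40) (nat_lit 5) (nat_lit 450) (nat_lit 402) (nat_lit 168))))) (XT.nd (nat_lit 234) (nat_lit 304) (nat_lit 0) (XT.nd (nat_lit 78) (nat_lit 152) (nat_lit 0) (XT.lf (nat_lit 0) (nat_lit 100087252544) (nat_lit 152) (nat_lit 69839807441) (nat_lit 76) (nat_lit 184095789981) (nat_lit 39) (nat_lit 5) (nat_lit 41) (nat_lit 5) (nat_lit 40)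 (nat_lit 5) (nat_lit 451) (nat_lit 402) (nat_lit 167)) (XT.nd (nat_lit 78) (nat_lit 0) (nat_lit 0) (XT.lf (nat_lit 0) (nat_lit 120990702355) (nat_lit 152) (nat_lit 63761436200) (nat_lit 228) (nat_lit 181483008984) (nat_lit 37) (nat_lit 5) (nat_lit 39) (nat_lit 5) (nat_lit 40) (nat_lit 5) (nat_lit 452) (nat_lit 402) (nat_lit 166)) (XT.lf (nat_lit 0) (nat_lit 275597244989) (nat_lit 228) (nat_lit 55976013364) (nat_lit 76) (nat_lit 47387452859) (nat_lit 37) (nat_lit 5) (nat_lit 40) (nat_lit 5) (nat_lit 38) (nat_lit 4) (nat_lit 453) (nat_lit 402) (nat_lit 165)))) (XT.nd (nat_lit 156) (nat_lit 152) (nat_lit 0) (XT.nd (nat_lit 78) (nat_lit 76) (nat_lit 0) (XT.lf (nat_lit 0) (nat_lit 146395970261) (nat_lit 76) (nat_lit 227919452680) (nat_lit 152) (nat_lit 17840589344) (nat_lit 36) (nat_lit 5) (nat_lit 37) (nat_lit 5) (nat_lit 38) (nat_lit 4) (nat_lit 454) (nat_lit 402) (nat_lit 164)) (XT.lf (nat_lit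 0) (nat_lit 70618729535) (nat_lit 152) (nat_lit 46272965082) (nat_lit 76) (nat_lit 289015039309) (nat_lit 35) (nat_lit 5) (nat_lit 37) (nat_lit 5) (nat_lit 36) (nat_lit 5) (nat_lit 455) (nat_lit 402) (nat_lit 163))) (XT.nd (nat_lit 78) (nat_lit 0) (nat_lit 0) (XT.lf (nat_lit 0) (nat_lit 165571691202) (nat_lit 228) (nat_lit 251960099311) (nat_lit 76) (nat_lit 2665065845) (nat_lit 33) (nat_lit 5) (nat_lit 36) (nat_lit 5) (nat_lit 34) (nat_lit 4) (nat_lit 456) (nat_lit 402) (nat_lit 162)) (XT.lf (nat_lit 0) (nat_lit 267984961665) (nat_lit 228) (nat_lit 42013126185) (nat_lit 76) (nat_lit 125067764045) (nat_lit 33) (nat_lit 5) (nat_lit 36) (nat_lit 5) (nat_lit 34) (nat_lit 4) (nat_lit 457) (nat_lit 402) (nat_lit 161)))))) (XT.nd (nat_lit 468) (nat_lit 380) (nat_lit 0) (XT.nd (nat_lit 234) (nat_lit 76) (nat_lit 0) (XT.nd (nat_lit 78) (nat_lit 228) (nat_lit 0) (XT.lf (nat_lit 0) (nat_lit 184330761535)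 (nat_lit 76) (nat_lit 194065960144) (nat_lit 152) (nat_lit 72137684249) (nat_lit 32) (nat_lit 5) (nat_lit 33) (nat_lit 5) (nat_lit 34) (nat_lit 4) (nat_lit 458) (nat_lit 402) (nat_lit 160)) (XT.nd (nat_lit 78) (nat_lit 152) (nat_lit 0) (XT.lf (nat_lit 0) (nat_lit 27393907485) (nat_lit 152) (nat_lit 43732376212) (nat_lit 76) (nat_lit 395592441087) (nat_lit 31) (nat_lit 5) (nat_lit 33) (nat_lit 5) (nat_lit 32) (nat_lit 5) (nat_lit 459) (nat_lit 402) (nat_lit 159)) (XT.lf (nat_lit 0) (nat_lit 133495110007) (nat_lit 228) (nat_lit 289556860249) (nat_lit 76) (nat_lit 60400293574) (nat_lit 29) (nat_lit 5) (nat_lit 32) (nat_lit 5) (nat_lit 30) (nat_lit 4) (nat_lit 460) (nat_lit 402) (nat_lit 158)))) (XT.nd (nat_lit 78) (nat_lit 76) (nat_lit 0) (XT.lf (nat_lit 0) (nat_lit 246820059377) (nat_lit 228) (nat_lit 57240895289) (nat_lit 76) (nat_lit 196865590842) (nat_lit 29) (nat_lit 5) (nat_lit 32) (nat_lit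 5) (nat_lit 30) (nat_lit 4) (nat_lit 461) (nat_lit 402) (nat_lit 157)) (XT.nd (nat_lit 78) (nat_lit 0) (nat_lit 0) (XT.lf (nat_lit 0) (nat_lit 192863551235) (nat_lit 76) (nat_lit 175958761382) (nat_lit 152) (nat_lit 150301675849) (nat_lit 28) (nat_lit 5) (nat_lit 29) (nat_lit 5) (nat_lit 30) (nat_lit 4) (nat_lit 462) (nat_lit 402) (nat_lit 156)) (XT.lf (nat_lit 0) (nat_lit 457460342435) (nat_lit 76) (nat_lit 40433655839) (nat_lit 152) (nat_lit 40288839324) (nat_lit 28) (nat_lit 5) (nat_lit 29) (nat_lit 5) (nat_lit 30) (nat_lit 4) (nat_lit 463) (nat_lit 402) (nat_lit 155))))) (XT.nd (nat_lit 234) (nat_lit 152) (nat_lit 0) (XT.nd (nat_lit 78) (nat_lit 76) (nat_lit 0) (XT.lf (nat_lit 0) (nat_lit 77310490973) (nat_lit 152) (nat_lit 377915884549) (nat_lit 76) (nat_lit 102684854798) (nat_lit 26) (nat_lit 5) (nat_lit 28) (nat_lit 5) (nat_lit 27) (nat_lit 4) (nat_lit 464) (nat_lit 402) (nat_lit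 154)) (XT.nd (nat_lit 78) (nat_lit 76) (nat_lit 0) (XT.lf (nat_lit 0) (nat_lit 201488071598) (nat_lit 152) (nat_lit 123351986281) (nat_lit 76) (nat_lit 253650348523) (nat_lit 26) (nat_lit 5) (nat_lit 28) (nat_lit 5) (nat_lit 27) (nat_lit 4) (nat_lit 465) (nat_lit 402) (nat_lit 153)) (XT.lf (nat_lit 0) (nat_lit 148699271088) (nat_lit 76) (nat_lit 185496796909) (nat_lit 152) (nat_lit 265786396465) (nat_lit 25) (nat_lit 5) (nat_lit 26) (nat_lit 5) (nat_lit 27) (nat_lit 4) (nat_lit 466) (nat_lit 402) (nat_lit 152)))) (XT.nd (nat_lit 156) (nat_lit 76) (nat_lit 0) (XT.nd (nat_lit 78) (nat_lit 76) (nat_lit 0) (XT.lf (nat_lit 0) (nat_lit 438635454899) (nat_lit 76) (nat_lit 36992960718) (nat_lit 152) (nat_lit 146816262251) (nat_lit 25) (nat_lit 5) (nat_lit 26) (nat_lit 5) (nat_lit 27) (nat_lit 4) (nat_lit 467) (nat_lit 402) (nat_lit 151)) (XT.lf (nat_lit 0) (nat_lit 98328512269) (nat_lit 76) (nat_lit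 529195905715) (nat_lit 76) (nat_lit 18335982102) (nat_lit 24) (nat_lit 4) (nat_lit 25) (nat_lit 5) (nat_lit 25) (nat_lit 4) (nat_lit 468) (nat_lit 402) (nat_lit 150))) (XT.nd (nat_lit 47970) (nat_lit 0) (nat_lit 6612) (XT.lf (nat_lit 0) (nat_lit 116607697883) (nat_lit 152) (nat_lit 271814254222) (nat_lit 76) (nat_lit 281745443430) (nat_lit 23) (nat_lit 5) (nat_lit 25) (nat_lit 5) (nat_lit 24) (nat_lit 4) (nat_lit 469) (nat_lit 402) (nat_lit 149)) (XT.lf (nat_lit 0) (nat_lit 9894646589) (nat_lit 836) (nat_lit 17053123430) (nat_lit 836) (nat_lit 17053123430) (nat_lit 110) (nat_lit 3) (nat_lit 121) (nat_lit 3) (nat_lit 121) (nat_lit 5) (nat_lit 403) (nat_lit 403) (nat_lit 214))))))))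
noncomputable def xc225 : XT := (XT.nd (nat_lit 1950) (nat_lit 2812) (nat_lit 0) (XT.nd (nat_lit 936) (nat_lit 2356) (nat_lit 0) (XT.nd (nat_lit 468) (nat_lit 380) (nat_lit 0) (XT.nd (nat_lit 234) (nat_lit 0) (nat_lit 152) (XT.nd (nat_lit 78) (nat_lit 0) (nat_lit 76) (XT.lf (nat_lit 76) (nat_lit 8568690720) (nat_lit 0) (nat_lit 11857336544) (nat_lit 836) (nat_lit 69768698414) (nat_lit 111) (nat_lit 5) (nat_lit 110) (nat_lit 3) (nat_lit 121) (nat_lit 5) (nat_lit 404) (nat_lit 403) (nat_lit 213)) (XT.nd (nat_lit 78) (nat_lit 0) (nat_lit 0) (XT.lf (nat_lit 0) (nat_lit 22185170574) (nat_lit 760) (nat_lit 38420773941) (nat_lit 836) (nat_lit 31836838628) (nat_lit 111) (nat_lit 5) (nat_lit 121) (nat_lit 5) (nat_lit 122) (nat_lit 5) (nat_lit 405) (nat_lit 403) (nat_lit 212)) (XT.lf (nat_lit 76) (nat_lit 6973253978) (nat_lit 0) (nat_lit 17361769915) (nat_lit 836) (nat_lit 70453082298) (nat_lit 112)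 (nat_lit 5) (nat_lit 111) (nat_lit 5) (nat_lit 122) (nat_lit 5) (nat_lit 406) (nat_lit 403) (nat_lit 211)))) (XT.nd (nat_lit 78) (nat_lit 0) (nat_lit 0) (XT.lf (nat_lit 0) (nat_lit 27691086495) (nat_lit 760) (nat_lit 41696141433) (nat_lit 836) (nat_lit 27808531972) (nat_lit 112) (nat_lit 5) (nat_lit 122) (nat_lit 5) (nat_lit 123) (nat_lit 5) (nat_lit 407) (nat_lit 403) (nat_lit 210)) (XT.nd (nat_lit 78) (nat_lit 0) (nat_lit 76) (XT.lf (nat_lit 76) (nat_lit 6656631126) (nat_lit 0) (nat_lit 24946412196) (nat_lit 836) (nat_lit 68101348738) (nat_lit 113) (nat_lit 5) (nat_lit 112) (nat_lit 5) (nat_lit 123) (nat_lit 5) (nat_lit 408) (nat_lit 403) (nat_lit 209)) (XT.lf (nat_lit 0) (nat_lit 36766935407) (nat_lit 760) (nat_lit 43779468908) (nat_lit 836) (nat_lit 21739234946) (nat_lit 113) (nat_lit 5) (nat_lit 123) (nat_lit 5) (nat_lit 124) (nat_lit 5) (nat_lit 409) (nat_lit 403) (nat_lit 208)))))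 (XT.nd (nat_lit 234) (nat_lit 608) (nat_lit 0) (XT.nd (nat_lit 78) (nat_lit 0) (nat_lit 76) (XT.lf (nat_lit 76) (nat_lit 7792372540) (nat_lit 0) (nat_lit 34926851138) (nat_lit 836) (nat_lit 62250215359) (nat_lit 114) (nat_lit 5) (nat_lit 113) (nat_lit 5) (nat_lit 124) (nat_lit 5) (nat_lit 410) (nat_lit 403) (nat_lit 207)) (XT.nd (nat_lit 78) (nat_lit 0) (nat_lit 0) (XT.lf (nat_lit 0) (nat_lit 49924862643) (nat_lit 760) (nat_lit 44502666133) (nat_lit 836) (nat_lit 13312113487) (nat_lit 114) (nat_lit 5) (nat_lit 124) (nat_lit 5) (nat_lit 125) (nat_lit 5) (nat_lit 411) (nat_lit 403) (nat_lit 206)) (XT.lf (nat_lit 76) (nat_lit 10570904555) (nat_lit 0) (nat_lit 47657110593) (nat_lit 836) (nat_lit 52383479188) (nat_lit 115) (nat_lit 5) (nat_lit 114) (nat_lit 5) (nat_lit 125) (nat_lit 5) (nat_lit 412) (nat_lit 403) (nat_lit 205)))) (XT.nd (nat_lit 78) (nat_lit 760) (nat_lit 0) (XT.lf (nat_lit 0)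 (nat_lit 67734654976) (nat_lit 760) (nat_lit 43681419717) (nat_lit 76) (nat_lit 2171448085) (nat_lit 115) (nat_lit 5) (nat_lit 125) (nat_lit 5) (nat_lit 116) (nat_lit 5) (nat_lit 413) (nat_lit 403) (nat_lit 204)) (XT.nd (nat_lit 78) (nat_lit 0) (nat_lit 0) (XT.lf (nat_lit 0) (nat_lit 15200648179) (nat_lit 760) (nat_lit 63534218000) (nat_lit 836) (nat_lit 37926574735) (nat_lit 105) (nat_lit 5) (nat_lit 115) (nat_lit 5) (nat_lit 116) (nat_lit 5) (nat_lit 414) (nat_lit 403) (nat_lit 203)) (XT.lf (nat_lit 0) (nat_lit 78543032531) (nat_lit 760) (nat_lit 12481483793) (nat_lit 836) (nat_lit 28827567441) (nat_lit 105) (nat_lit 5) (nat_lit 115) (nat_lit 5) (nat_lit 116) (nat_lit 5) (nat_lit 415) (nat_lit 403) (nat_lit 202)))))) (XT.nd (nat_lit 468) (nat_lit 1216) (nat_lit 0) (XT.nd (nat_lit 234) (nat_lit 380) (nat_lit 0) (XT.nd (nat_lit 78) (nat_lit 380) (nat_lit 0) (XT.lf (nat_lit 0) (nat_lit 21909138145)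 (nat_lit 380) (nat_lit 83003311935) (nat_lit 456) (nat_lit 18240618840) (nat_lit 100) (nat_lit 5) (nat_lit 105) (nat_lit 5) (nat_lit 106) (nat_lit 5) (nat_lit 416) (nat_lit 403) (nat_lit 201)) (XT.nd (nat_lit 78) (nat_lit 380) (nat_lit 0) (XT.lf (nat_lit 0) (nat_lit 89510709682) (nat_lit 380) (nat_lit 30884663337) (nat_lit 456) (nat_lit 6178700897) (nat_lit 100) (nat_lit 5) (nat_lit 105) (nat_lit 5) (nat_lit 106) (nat_lit 5) (nat_lit 417) (nat_lit 403) (nat_lit 200)) (XT.lf (nat_lit 0) (nat_lit 7147763980) (nat_lit 380) (nat_lit 99294541056) (nat_lit 76) (nat_lit 23675308159) (nat_lit 95) (nat_lit 5) (nat_lit 100) (nat_lit 5) (nat_lit 96) (nat_lit 5) (nat_lit 418) (nat_lit 403) (nat_lit 199)))) (XT.nd (nat_lit 78) (nat_lit 380) (nat_lit 0) (XT.lf (nat_lit 0) (nat_lit 22076898001) (nat_lit 380) (nat_lit 31034554357) (nat_lit 76) (nat_lit 80664613211) (nat_lit 95) (nat_lit 5) (nat_lit 100)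 (nat_lit 5) (nat_lit 96) (nat_lit 5) (nat_lit 419) (nat_lit 403) (nat_lit 198)) (XT.nd (nat_lit 78) (nat_lit 0) (nat_lit 0) (XT.lf (nat_lit 0) (nat_lit 38463467797) (nat_lit 456) (nat_lit 95658667474) (nat_lit 76) (nat_lit 3459756508) (nat_lit 90) (nat_lit 5) (nat_lit 96) (nat_lit 5) (nat_lit 91) (nat_lit 5) (nat_lit 420) (nat_lit 403) (nat_lit 197)) (XT.lf (nat_lit 0) (nat_lit 57073978038) (nat_lit 456) (nat_lit 22824987726) (nat_lit 76) (nat_lit 61608813099) (nat_lit 90) (nat_lit 5) (nat_lit 96) (nat_lit 5) (nat_lit 91) (nat_lit 5) (nat_lit 421) (nat_lit 403) (nat_lit 196))))) (XT.nd (nat_lit 234) (nat_lit 608) (nat_lit 0) (XT.nd (nat_lit 78) (nat_lit 304) (nat_lit 0) (XT.lf (nat_lit 0) (nat_lit 55424001087) (nat_lit 304) (nat_lit 22056080557) (nat_lit 380) (nat_lit 68106625420) (nat_lit 86) (nat_lit 5) (nat_lit 90) (nat_lit 5) (nat_lit 91) (nat_lit 5) (nat_lit 422) (nat_lit 403) (nat_lit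 195)) (XT.nd (nat_lit 78) (nat_lit 304) (nat_lit 0) (XT.lf (nat_lit 0) (nat_lit 99903017418) (nat_lit 380) (nat_lit 12082902826) (nat_lit 76) (nat_lit 37833835228) (nat_lit 86) (nat_lit 5) (nat_lit 91) (nat_lit 5) (nat_lit 87) (nat_lit 5) (nat_lit 423) (nat_lit 403) (nat_lit 194)) (XT.lf (nat_lit 0) (nat_lit 71838307562) (nat_lit 304) (nat_lit 53091727734) (nat_lit 380) (nat_lit 29260274378) (nat_lit 82) (nat_lit 5) (nat_lit 86) (nat_lit 5) (nat_lit 87) (nat_lit 5) (nat_lit 424) (nat_lit 403) (nat_lit 193)))) (XT.nd (nat_lit 156) (nat_lit 304) (nat_lit 0) (XT.nd (nat_lit 78) (nat_lit 76) (nat_lit 0) (XT.lf (nat_lit 0) (nat_lit 1514160934) (nat_lit 228) (nat_lit 150062204857) (nat_lit 304) (nat_lit 7184627844) (nat_lit 79) (nat_lit 5) (nat_lit 82) (nat_lit 5) (nat_lit 83) (nat_lit 5) (nat_lit 425) (nat_lit 403) (nat_lit 192)) (XT.lf (nat_lit 0) (nat_lit 17770530037) (nat_lit 304) (nat_lit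 72201005533) (nat_lit 76) (nat_lit 73461807033) (nat_lit 78) (nat_lit 5) (nat_lit 82) (nat_lit 5) (nat_lit 79) (nat_lit 5) (nat_lit 426) (nat_lit 403) (nat_lit 191))) (XT.nd (nat_lit 78) (nat_lit 0) (nat_lit 0) (XT.lf (nat_lit 0) (nat_lit 17540458655) (nat_lit 304) (nat_lit 26465175015) (nat_lit 380) (nat_lit 124314104503) (nat_lit 74) (nat_lit 5) (nat_lit 78) (nat_lit 5) (nat_lit 79) (nat_lit 5) (nat_lit 427) (nat_lit 403) (nat_lit 190)) (XT.lf (nat_lit 0) (nat_lit 73422976865) (nat_lit 380) (nat_lit 59761884188) (nat_lit 76) (nat_lit 40172068359) (nat_lit 74) (nat_lit 5) (nat_lit 79) (nat_lit 5) (nat_lit 75) (nat_lit 5) (nat_lit 428) (nat_lit 403) (nat_lit 189))))))) (XT.nd (nat_lit 1014) (nat_lit 1216) (nat_lit 0) (XT.nd (nat_lit 468) (nat_lit 836) (nat_lit 0) (XT.nd (nat_lit 234) (nat_lit 304) (nat_lit 0) (XT.nd (nat_lit 78) (nat_lit 228) (nat_lit 0) (XT.lf (nat_lit 0) (nat_lit 36541822596)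 (nat_lit 228) (nat_lit 68773538170) (nat_lit 304) (nat_lit 73280410874) (nat_lit 71) (nat_lit 5) (nat_lit 74) (nat_lit 5) (nat_lit 75) (nat_lit 5) (nat_lit 429) (nat_lit 403) (nat_lit 188)) (XT.nd (nat_lit 78) (nat_lit 228) (nat_lit 0) (XT.lf (nat_lit 0) (nat_lit 139735247225) (nat_lit 228) (nat_lit 79016504) (nat_lit 304) (nat_lit 44231697357) (nat_lit 71) (nat_lit 5) (nat_lit 74) (nat_lit 5) (nat_lit 75) (nat_lit 5) (nat_lit 430) (nat_lit 403) (nat_lit 187)) (XT.lf (nat_lit 0) (nat_lit 59085625075) (nat_lit 228) (nat_lit 118999696771) (nat_lit 304) (nat_lit 11580977752) (nat_lit 68) (nat_lit 5) (nat_lit 71) (nat_lit 5) (nat_lit 72) (nat_lit 5) (nat_lit 431) (nat_lit 403) (nat_lit 186)))) (XT.nd (nat_lit 78) (nat_lit 228) (nat_lit 0) (XT.lf (nat_lit 0) (nat_lit 22739497561) (nat_lit 304) (nat_lit 26708291549) (nat_lit 76) (nat_lit 146063951983) (nat_lit 67) (nat_lit 5) (nat_lit 71) (nat_lit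 5) (nat_lit 68) (nat_lit 5) (nat_lit 432) (nat_lit 403) (nat_lit 185)) (XT.nd (nat_lit 78) (nat_lit 0) (nat_lit 0) (XT.lf (nat_lit 0) (nat_lit 60104920164) (nat_lit 304) (nat_lit 117082280424) (nat_lit 76) (nat_lit 24366855536) (nat_lit 64) (nat_lit 5) (nat_lit 68) (nat_lit 5) (nat_lit 65) (nat_lit 5) (nat_lit 433) (nat_lit 403) (nat_lit 184)) (XT.lf (nat_lit 0) (nat_lit 100608792250) (nat_lit 304) (nat_lit 6556061690) (nat_lit 76) (nat_lit 100670124127) (nat_lit 64) (nat_lit 5) (nat_lit 68) (nat_lit 5) (nat_lit 65) (nat_lit 5) (nat_lit 434) (nat_lit 403) (nat_lit 183))))) (XT.nd (nat_lit 234) (nat_lit 380) (nat_lit 0) (XT.nd (nat_lit 78) (nat_lit 228) (nat_lit 0) (XT.lf (nat_lit 0) (nat_lit 113116665785) (nat_lit 228) (nat_lit 31787094576) (nat_lit 304) (nat_lit 69437890700) (nat_lit 61) (nat_lit 5) (nat_lit 64) (nat_lit 5) (nat_lit 65) (nat_lit 5) (nat_lit 435) (nat_lit 403) (nat_lit 182))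 (XT.nd (nat_lit 78) (nat_lit 76) (nat_lit 0) (XT.lf (nat_lit 0) (nat_lit 17656162055) (nat_lit 152) (nat_lit 174885079823) (nat_lit 228) (nat_lit 28576027648) (nat_lit 59) (nat_lit 5) (nat_lit 61) (nat_lit 5) (nat_lit 62) (nat_lit 5) (nat_lit 436) (nat_lit 403) (nat_lit 181)) (XT.lf (nat_lit 0) (nat_lit 16133649116) (nat_lit 228) (nat_lit 82923448793) (nat_lit 76) (nat_lit 129050218543) (nat_lit 58) (nat_lit 5) (nat_lit 61) (nat_lit 5) (nat_lit 59) (nat_lit 5) (nat_lit 437) (nat_lit 403) (nat_lit 180)))) (XT.nd (nat_lit 156) (nat_lit 152) (nat_lit 0) (XT.nd (nat_lit 78) (nat_lit 0) (nat_lit 0) (XT.lf (nat_lit 0) (nat_lit 44599873125) (nat_lit 228) (nat_lit 18214769939) (nat_lit 304) (nat_lit 172573990985) (nat_lit 55) (nat_lit 5) (nat_lit 58) (nat_lit 5) (nat_lit 59) (nat_lit 5) (nat_lit 438) (nat_lit 403) (nat_lit 179)) (XT.lf (nat_lit 0) (nat_lit 114297806713) (nat_lit 304) (nat_lit 62649683833)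 (nat_lit 76) (nat_lit 65963121040) (nat_lit 55) (nat_lit 5) (nat_lit 59) (nat_lit 5) (nat_lit 56) (nat_lit 5) (nat_lit 439) (nat_lit 403) (nat_lit 178))) (XT.nd (nat_lit 78) (nat_lit 0) (nat_lit 0) (XT.lf (nat_lit 0) (nat_lit 73964855719) (nat_lit 152) (nat_lit 95843530202) (nat_lit 228) (nat_lit 80927639264) (nat_lit 53) (nat_lit 5) (nat_lit 55) (nat_lit 5) (nat_lit 56) (nat_lit 5) (nat_lit 440) (nat_lit 403) (nat_lit 177)) (XT.lf (nat_lit 0) (nat_lit 219584955537) (nat_lit 152) (nat_lit 9570400560) (nat_lit 228) (nat_lit 29744310319) (nat_lit 53) (nat_lit 5) (nat_lit 55) (nat_lit 5) (nat_lit 56) (nat_lit 5) (nat_lit 441) (nat_lit 403) (nat_lit 176)))))) (XT.nd (nat_lit 468) (nat_lit 456) (nat_lit 0) (XT.nd (nat_lit 234) (nat_lit 380) (nat_lit 0) (XT.nd (nat_lit 78) (nat_lit 152) (nat_lit 0) (XT.lf (nat_lit 0) (nat_lit 26216395403) (nat_lit 228) (nat_lit 160567541746) (nat_lit 76) (nat_lit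 80519503555) (nat_lit 50) (nat_lit 5) (nat_lit 53) (nat_lit 5) (nat_lit 51) (nat_lit 5) (nat_lit 442) (nat_lit 403) (nat_lit 175)) (XT.nd (nat_lit 78) (nat_lit 152) (nat_lit 0) (XT.lf (nat_lit 0) (nat_lit 84809018658) (nat_lit 228) (nat_lit 15295792388) (nat_lit 76) (nat_lit 175956537818) (nat_lit 50) (nat_lit 5) (nat_lit 53) (nat_lit 5) (nat_lit 51) (nat_lit 5) (nat_lit 443) (nat_lit 403) (nat_lit 174)) (XT.lf (nat_lit 0) (nat_lit 141777088882) (nat_lit 152) (nat_lit 6767593953) (nat_lit 228) (nat_lit 136601799153) (nat_lit 48) (nat_lit 5) (nat_lit 50) (nat_lit 5) (nat_lit 51) (nat_lit 5) (nat_lit 444) (nat_lit 403) (nat_lit 173)))) (XT.nd (nat_lit 78) (nat_lit 228) (nat_lit 0) (XT.lf (nat_lit 0) (nat_lit 11500917792) (nat_lit 152) (nat_lit 205833393154) (nat_lit 228) (nat_lit 77258201827) (nat_lit 46) (nat_lit 5) (nat_lit 48) (nat_lit 5) (nat_lit 49) (nat_lit 5) (nat_lit 445) (nat_lit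 403) (nat_lit 172)) (XT.nd (nat_lit 78) (nat_lit 228) (nat_lit 0) (XT.lf (nat_lit 0) (nat_lit 178977387215) (nat_lit 152) (nat_lit 113123094559) (nat_lit 228) (nat_lit 12283510298) (nat_lit 46) (nat_lit 5) (nat_lit 48) (nat_lit 5) (nat_lit 49) (nat_lit 5) (nat_lit 446) (nat_lit 403) (nat_lit 171)) (XT.lf (nat_lit 0) (nat_lit 40588129220) (nat_lit 152) (nat_lit 14194934816) (nat_lit 228) (nat_lit 259806633647) (nat_lit 43) (nat_lit 5) (nat_lit 45) (nat_lit 5) (nat_lit 46) (nat_lit 5) (nat_lit 447) (nat_lit 403) (nat_lit 170))))) (XT.nd (nat_lit 234) (nat_lit 304) (nat_lit 0) (XT.nd (nat_lit 78) (nat_lit 152) (nat_lit 0) (XT.lf (nat_lit 0) (nat_lit 128348831079) (nat_lit 228) (nat_lit 107599601225) (nat_lit 76) (nat_lit 89169254331) (nat_lit 43) (nat_lit 5) (nat_lit 46) (nat_lit 5) (nat_lit 44) (nat_lit 5) (nat_lit 448) (nat_lit 403) (nat_lit 169)) (XT.nd (nat_lit 78) (nat_lit 0) (nat_lit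 0) (XT.lf (nat_lit 0) (nat_lit 69101239638) (nat_lit 152) (nat_lit 137803102126) (nat_lit 228) (nat_lit 129202160537) (nat_lit 41) (nat_lit 5) (nat_lit 43) (nat_lit 5) (nat_lit 44) (nat_lit 5) (nat_lit 449) (nat_lit 403) (nat_lit 168)) (XT.lf (nat_lit 0) (nat_lit 258372548728) (nat_lit 152) (nat_lit 32837220410) (nat_lit 228) (nat_lit 56343882585) (nat_lit 41) (nat_lit 5) (nat_lit 43) (nat_lit 5) (nat_lit 44) (nat_lit 5) (nat_lit 450) (nat_lit 403) (nat_lit 167)))) (XT.nd (nat_lit 156) (nat_lit 152) (nat_lit 0) (XT.nd (nat_lit 78) (nat_lit 0) (nat_lit 0) (XT.lf (nat_lit 0) (nat_lit 22319032108) (nat_lit 152) (nat_lit 260284080201) (nat_lit 76) (nat_lit 76813966601) (nat_lit 39) (nat_lit 5) (nat_lit 41) (nat_lit 5) (nat_lit 40) (nat_lit 5) (nat_lit 451) (nat_lit 403) (nat_lit 166)) (XT.lf (nat_lit 0) (nat_lit 105094862673) (nat_lit 152) (nat_lit 73326118557) (nat_lit 76) (nat_lit 193302848039)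 (nat_lit 39) (nat_lit 5) (nat_lit 41) (nat_lit 5) (nat_lit 40) (nat_lit 5) (nat_lit 452) (nat_lit 403) (nat_lit 165))) (XT.nd (nat_lit 78) (nat_lit 0) (nat_lit 0) (XT.lf (nat_lit 0) (nat_lit 127045825127) (nat_lit 152) (nat_lit 66947100454) (nat_lit 228) (nat_lit 190553819549) (nat_lit 37) (nat_lit 5) (nat_lit 39) (nat_lit 5) (nat_lit 40) (nat_lit 5) (nat_lit 453) (nat_lit 403) (nat_lit 164)) (XT.lf (nat_lit 0) (nat_lit 289380171703) (nat_lit 228) (nat_lit 58769376078) (nat_lit 76) (nat_lit 49759045026) (nat_lit 37) (nat_lit 5) (nat_lit 40) (nat_lit 5) (nat_lit 38) (nat_lit 4) (nat_lit 454) (nat_lit 403) (nat_lit 163))))))))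
noncomputable def xc226 : XT := (XT.nd (nat_lit 49998) (nat_lit 0) (nat_lit 2280) (XT.nd (nat_lit 936) (nat_lit 76) (nat_lit 0) (XT.nd (nat_lit 468) (nat_lit 380) (nat_lit 0) (XT.nd (nat_lit 234) (nat_lit 152) (nat_lit 0) (XT.nd (nat_lit 78) (nat_lit 228) (nat_lit 0) (XT.lf (nat_lit 0) (nat_lit 153721119019) (nat_lit 76) (nat_lit 239313077138) (nat_lit 152) (nat_lit 18729465930) (nat_lit 36) (nat_lit 5) (nat_lit 37) (nat_lit 5) (nat_lit 38) (nat_lit 4) (nat_lit 455) (nat_lit 403) (nat_lit 162)) (XT.nd (nat_lit 78) (nat_lit 152) (nat_lit 0) (XT.lf (nat_lit 0) (nat_lit 74152572649) (nat_lit 152) (nat_lit 48581421116) (nat_lit 76) (nat_lit 303467930884) (nat_lit 35) (nat_lit 5) (nat_lit 37) (nat_lit 5) (nat_lit 36) (nat_lit 5) (nat_lit 456) (nat_lit 403) (nat_lit 161)) (XT.lf (nat_lit 0) (nat_lit 173853159038) (nat_lit 228) (nat_lit 264552888083) (nat_lit 76) (nat_lit 2800507279) (nat_lit 33)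 (nat_lit 5) (nat_lit 36) (nat_lit 5) (nat_lit 34) (nat_lit 4) (nat_lit 457) (nat_lit 403) (nat_lit 160)))) (XT.nd (nat_lit 78) (nat_lit 152) (nat_lit 0) (XT.lf (nat_lit 0) (nat_lit 281386955726) (nat_lit 228) (nat_lit 44108814691) (nat_lit 76) (nat_lit 131323236192) (nat_lit 33) (nat_lit 5) (nat_lit 36) (nat_lit 5) (nat_lit 34) (nat_lit 4) (nat_lit 458) (nat_lit 403) (nat_lit 159)) (XT.nd (nat_lit 78) (nat_lit 76) (nat_lit 0) (XT.lf (nat_lit 0) (nat_lit 193552187289) (nat_lit 76) (nat_lit 203767062001) (nat_lit 152) (nat_lit 75741741804) (nat_lit 32) (nat_lit 5) (nat_lit 33) (nat_lit 5) (nat_lit 34) (nat_lit 4) (nat_lit 459) (nat_lit 403) (nat_lit 158)) (XT.lf (nat_lit 0) (nat_lit 28766208752) (nat_lit 152) (nat_lit 45914253426) (nat_lit 76) (nat_lit 415374068048) (nat_lit 31) (nat_lit 5) (nat_lit 33) (nat_lit 5) (nat_lit 32) (nat_lit 5) (nat_lit 460) (nat_lit 403) (nat_lit 157))))) (XT.nd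 (nat_lit 234) (nat_lit 152) (nat_lit 0) (XT.nd (nat_lit 78) (nat_lit 76) (nat_lit 0) (XT.lf (nat_lit 0) (nat_lit 140172453096) (nat_lit 228) (nat_lit 304029942881) (nat_lit 76) (nat_lit 63422351186) (nat_lit 29) (nat_lit 5) (nat_lit 32) (nat_lit 5) (nat_lit 30) (nat_lit 4) (nat_lit 461) (nat_lit 403) (nat_lit 156)) (XT.nd (nat_lit 78) (nat_lit 76) (nat_lit 0) (XT.lf (nat_lit 0) (nat_lit 259163526716) (nat_lit 228) (nat_lit 60098406358) (nat_lit 76) (nat_lit 206710816035) (nat_lit 29) (nat_lit 5) (nat_lit 32) (nat_lit 5) (nat_lit 30) (nat_lit 4) (nat_lit 462) (nat_lit 403) (nat_lit 155)) (XT.lf (nat_lit 0) (nat_lit 202511189368) (nat_lit 76) (nat_lit 184754655541) (nat_lit 152) (nat_lit 157814221712) (nat_lit 28) (nat_lit 5) (nat_lit 29) (nat_lit 5) (nat_lit 30) (nat_lit 4) (nat_lit 463) (nat_lit 403) (nat_lit 154)))) (XT.nd (nat_lit 78) (nat_lit 152) (nat_lit 0) (XT.lf (nat_lit 0) (nat_lit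 480337607720) (nat_lit 76) (nat_lit 42453392050) (nat_lit 152) (nat_lit 42300864215) (nat_lit 28) (nat_lit 5) (nat_lit 29) (nat_lit 5) (nat_lit 30) (nat_lit 4) (nat_lit 464) (nat_lit 403) (nat_lit 153)) (XT.nd (nat_lit 78) (nat_lit 0) (nat_lit 0) (XT.lf (nat_lit 0) (nat_lit 81178340894) (nat_lit 152) (nat_lit 396807338140) (nat_lit 76) (nat_lit 107820996158) (nat_lit 26) (nat_lit 5) (nat_lit 28) (nat_lit 5) (nat_lit 27) (nat_lit 4) (nat_lit 465) (nat_lit 403) (nat_lit 152)) (XT.lf (nat_lit 0) (nat_lit 211564689818) (nat_lit 152) (nat_lit 129515451656) (nat_lit 76) (nat_lit 266334674159) (nat_lit 26) (nat_lit 5) (nat_lit 28) (nat_lit 5) (nat_lit 27) (nat_lit 4) (nat_lit 466) (nat_lit 403) (nat_lit 151)))))) (XT.nd (nat_lit 48516) (nat_lit 0) (nat_lit 6612) (XT.nd (nat_lit 48282) (nat_lit 0) (nat_lit 6460) (XT.nd (nat_lit 78) (nat_lit 0) (nat_lit 0) (XT.lf (nat_lit 0) (nat_lit 156138301906)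 (nat_lit 76) (nat_lit 194769742174) (nat_lit 152) (nat_lit 279073434631) (nat_lit 25) (nat_lit 5) (nat_lit 26) (nat_lit 5) (nat_lit 27) (nat_lit 4) (nat_lit 467) (nat_lit 403) (nat_lit 150)) (XT.nd (nat_lit 48126) (nat_lit 0) (nat_lit 6460) (XT.lf (nat_lit 0) (nat_lit 460571101228) (nat_lit 76) (nat_lit 38840804392) (nat_lit 152) (nat_lit 154154902356) (nat_lit 25) (nat_lit 5) (nat_lit 26) (nat_lit 5) (nat_lit 27) (nat_lit 4) (nat_lit 468) (nat_lit 403) (nat_lit 149)) (XT.lf (nat_lit 0) (nat_lit 10397471054) (nat_lit 836) (nat_lit 17901528373) (nat_lit 836) (nat_lit 17901528373) (nat_lit 110) (nat_lit 3) (nat_lit 121) (nat_lit 3) (nat_lit 121) (nat_lit 5) (nat_lit 404) (nat_lit 404) (nat_lit 212)))) (XT.nd (nat_lit 78) (nat_lit 0) (nat_lit 76) (XT.lf (nat_lit 76) (nat_lit 9005490577) (nat_lit 0) (nat_lit 12457382249) (nat_lit 836) (nat_lit 73240801041) (nat_lit 111) (nat_lit 5) (nat_lit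 110) (nat_lit 3) (nat_lit 121) (nat_lit 5) (nat_lit 405) (nat_lit 404) (nat_lit 211)) (XT.nd (nat_lit 78) (nat_lit 0) (nat_lit 0) (XT.lf (nat_lit 0) (nat_lit 23309126357) (nat_lit 760) (nat_lit 40332988355) (nat_lit 836) (nat_lit 33422062360) (nat_lit 111) (nat_lit 5) (nat_lit 121) (nat_lit 5) (nat_lit 122) (nat_lit 5) (nat_lit 406) (nat_lit 404) (nat_lit 210)) (XT.lf (nat_lit 76) (nat_lit 7330598634) (nat_lit 0) (nat_lit 18235309389) (nat_lit 836) (nat_lit 73960886959) (nat_lit 112) (nat_lit 5) (nat_lit 111) (nat_lit 5) (nat_lit 122) (nat_lit 5) (nat_lit 407) (nat_lit 404) (nat_lit 209))))) (XT.nd (nat_lit 234) (nat_lit 0) (nat_lit 76) (XT.nd (nat_lit 78) (nat_lit 0) (nat_lit 0) (XT.lf (nat_lit 0) (nat_lit 29089019705) (nat_lit 760) (nat_lit 43771916524) (nat_lit 836) (nat_lit 29193933320) (nat_lit 112) (nat_lit 5) (nat_lit 122) (nat_lit 5) (nat_lit 123) (nat_lit 5) (nat_lit 408) (nat_lit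 404) (nat_lit 208)) (XT.nd (nat_lit 78) (nat_lit 0) (nat_lit 76) (XT.lf (nat_lit 76) (nat_lit 6998348986) (nat_lit 0) (nat_lit 26197727037) (nat_lit 836) (nat_lit 71492882658) (nat_lit 113) (nat_lit 5) (nat_lit 112) (nat_lit 5) (nat_lit 123) (nat_lit 5) (nat_lit 409) (nat_lit 404) (nat_lit 207)) (XT.lf (nat_lit 0) (nat_lit 38617489963) (nat_lit 760) (nat_lit 45959297928) (nat_lit 836) (nat_lit 22822514416) (nat_lit 113) (nat_lit 5) (nat_lit 123) (nat_lit 5) (nat_lit 124) (nat_lit 5) (nat_lit 410) (nat_lit 404) (nat_lit 206)))) (XT.nd (nat_lit 156) (nat_lit 0) (nat_lit 76) (XT.nd (nat_lit 78) (nat_lit 0) (nat_lit 76) (XT.lf (nat_lit 76) (nat_lit 8190988101) (nat_lit 0) (nat_lit 36675963690) (nat_lit 836) (nat_lit 65350362728) (nat_lit 114) (nat_lit 5) (nat_lit 113) (nat_lit 5) (nat_lit 124) (nat_lit 5) (nat_lit 411) (nat_lit 404) (nat_lit 205)) (XT.lf (nat_lit 0) (nat_lit 52432271187) (nat_lit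 760) (nat_lit 46718621678) (nat_lit 836) (nat_lit 13975165506) (nat_lit 114) (nat_lit 5) (nat_lit 124) (nat_lit 5) (nat_lit 125) (nat_lit 5) (nat_lit 412) (nat_lit 404) (nat_lit 204))) (XT.nd (nat_lit 78) (nat_lit 0) (nat_lit 76) (XT.lf (nat_lit 76) (nat_lit 11108479516) (nat_lit 0) (nat_lit 50041711094) (nat_lit 836) (nat_lit 54991332340) (nat_lit 115) (nat_lit 5) (nat_lit 114) (nat_lit 5) (nat_lit 125) (nat_lit 5) (nat_lit 413) (nat_lit 404) (nat_lit 203)) (XT.lf (nat_lit 0) (nat_lit 71131623402) (nat_lit 760) (nat_lit 45856344913) (nat_lit 76) (nat_lit 2278411803) (nat_lit 115) (nat_lit 5) (nat_lit 125) (nat_lit 5) (nat_lit 116) (nat_lit 5) (nat_lit 414) (nat_lit 404) (nat_lit 202))))))) (XT.nd (nat_lit 1014) (nat_lit 1748) (nat_lit 0) (XT.nd (nat_lit 468) (nat_lit 1292) (nat_lit 0) (XT.nd (nat_lit 234) (nat_lit 380) (nat_lit 0) (XT.nd (nat_lit 78) (nat_lit 380) (nat_lit 0) (XT.lf (nat_lit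 0) (nat_lit 15969678866) (nat_lit 760) (nat_lit 66711819374) (nat_lit 836) (nat_lit 39812513600) (nat_lit 105) (nat_lit 5) (nat_lit 115) (nat_lit 5) (nat_lit 116) (nat_lit 5) (nat_lit 415) (nat_lit 404) (nat_lit 201)) (XT.nd (nat_lit 78) (nat_lit 380) (nat_lit 0) (XT.lf (nat_lit 0) (nat_lit 82478753946) (nat_lit 760) (nat_lit 13106406053) (nat_lit 836) (nat_lit 30259050697) (nat_lit 105) (nat_lit 5) (nat_lit 115) (nat_lit 5) (nat_lit 116) (nat_lit 5) (nat_lit 416) (nat_lit 404) (nat_lit 200)) (XT.lf (nat_lit 0) (nat_lit 23013509204) (nat_lit 380) (nat_lit 87153659335) (nat_lit 456) (nat_lit 19143092969) (nat_lit 100) (nat_lit 5) (nat_lit 105) (nat_lit 5) (nat_lit 106) (nat_lit 5) (nat_lit 417) (nat_lit 404) (nat_lit 199)))) (XT.nd (nat_lit 78) (nat_lit 380) (nat_lit 0) (XT.lf (nat_lit 0) (nat_lit 93994734834) (nat_lit 380) (nat_lit 32429069649) (nat_lit 456) (nat_lit 6478534215) (nat_lit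 100) (nat_lit 5) (nat_lit 105) (nat_lit 5) (nat_lit 106) (nat_lit 5) (nat_lit 418) (nat_lit 404) (nat_lit 198)) (XT.nd (nat_lit 78) (nat_lit 0) (nat_lit 0) (XT.lf (nat_lit 0) (nat_lit 7513679875) (nat_lit 380) (nat_lit 104250193677) (nat_lit 76) (nat_lit 24859188682) (nat_lit 95) (nat_lit 5) (nat_lit 100) (nat_lit 5) (nat_lit 96) (nat_lit 5) (nat_lit 419) (nat_lit 404) (nat_lit 197)) (XT.lf (nat_lit 0) (nat_lit 23188864517) (nat_lit 380) (nat_lit 32577639759) (nat_lit 76) (nat_lit 84697953505) (nat_lit 95) (nat_lit 5) (nat_lit 100) (nat_lit 5) (nat_lit 96) (nat_lit 5) (nat_lit 420) (nat_lit 404) (nat_lit 196))))) (XT.nd (nat_lit 234) (nat_lit 608) (nat_lit 0) (XT.nd (nat_lit 78) (nat_lit 304) (nat_lit 0) (XT.lf (nat_lit 0) (nat_lit 40394518732) (nat_lit 456) (nat_lit 100432709713) (nat_lit 76) (nat_lit 3633359297) (nat_lit 90) (nat_lit 5) (nat_lit 96) (nat_lit 5) (nat_lit 91) (nat_lit 5)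 (nat_lit 421) (nat_lit 404) (nat_lit 195)) (XT.nd (nat_lit 78) (nat_lit 304) (nat_lit 0) (XT.lf (nat_lit 0) (nat_lit 59935179364) (nat_lit 456) (nat_lit 23957769365) (nat_lit 76) (nat_lit 64689839433) (nat_lit 90) (nat_lit 5) (nat_lit 96) (nat_lit 5) (nat_lit 91) (nat_lit 5) (nat_lit 422) (nat_lit 404) (nat_lit 194)) (XT.lf (nat_lit 0) (nat_lit 58203532312) (nat_lit 304) (nat_lit 23157828653) (nat_lit 380) (nat_lit 71504313383) (nat_lit 86) (nat_lit 5) (nat_lit 90) (nat_lit 5) (nat_lit 91) (nat_lit 5) (nat_lit 423) (nat_lit 404) (nat_lit 193)))) (XT.nd (nat_lit 156) (nat_lit 304) (nat_lit 0) (XT.nd (nat_lit 78) (nat_lit 304) (nat_lit 0) (XT.lf (nat_lit 0) (nat_lit 104905112788) (nat_lit 380) (nat_lit 12678778678) (nat_lit 76) (nat_lit 39726500452) (nat_lit 86) (nat_lit 5) (nat_lit 91) (nat_lit 5) (nat_lit 87) (nat_lit 5) (nat_lit 424) (nat_lit 404) (nat_lit 192)) (XT.lf (nat_lit 0) (nat_lit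 75438358854) (nat_lit 304) (nat_lit 55744919041) (nat_lit 380) (nat_lit 30716206315) (nat_lit 82) (nat_lit 5) (nat_lit 86) (nat_lit 5) (nat_lit 87) (nat_lit 5) (nat_lit 425) (nat_lit 404) (nat_lit 191))) (XT.nd (nat_lit 78) (nat_lit 76) (nat_lit 0) (XT.lf (nat_lit 0) (nat_lit 1598187689) (nat_lit 228) (nat_lit 157563566855) (nat_lit 304) (nat_lit 7536956528) (nat_lit 79) (nat_lit 5) (nat_lit 82) (nat_lit 5) (nat_lit 83) (nat_lit 5) (nat_lit 426) (nat_lit 404) (nat_lit 190)) (XT.lf (nat_lit 0) (nat_lit 18665420137) (nat_lit 304) (nat_lit 75802919446) (nat_lit 76) (nat_lit 77136348596) (nat_lit 78) (nat_lit 5) (nat_lit 82) (nat_lit 5) (nat_lit 79) (nat_lit 5) (nat_lit 427) (nat_lit 404) (nat_lit 189)))))) (XT.nd (nat_lit 468) (nat_lit 912) (nat_lit 0) (XT.nd (nat_lit 234) (nat_lit 304) (nat_lit 0) (XT.nd (nat_lit 78) (nat_lit 228) (nat_lit 0) (XT.lf (nat_lit 0) (nat_lit 18425486720) (nat_lit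 304) (nat_lit 27786614185) (nat_lit 380) (nat_lit 130523311684) (nat_lit 74) (nat_lit 5) (nat_lit 78) (nat_lit 5) (nat_lit 79) (nat_lit 5) (nat_lit 428) (nat_lit 404) (nat_lit 188)) (XT.nd (nat_lit 78) (nat_lit 228) (nat_lit 0) (XT.lf (nat_lit 0) (nat_lit 77100043766) (nat_lit 380) (nat_lit 62742083907) (nat_lit 76) (nat_lit 42182349245) (nat_lit 74) (nat_lit 5) (nat_lit 79) (nat_lit 5) (nat_lit 75) (nat_lit 5) (nat_lit 429) (nat_lit 404) (nat_lit 187)) (XT.lf (nat_lit 0) (nat_lit 38376680886) (nat_lit 228) (nat_lit 72210205431) (nat_lit 304) (nat_lit 76938383114) (nat_lit 71) (nat_lit 5) (nat_lit 74) (nat_lit 5) (nat_lit 75) (nat_lit 5) (nat_lit 430) (nat_lit 404) (nat_lit 186)))) (XT.nd (nat_lit 78) (nat_lit 304) (nat_lit 0) (XT.lf (nat_lit 0) (nat_lit 146729406882) (nat_lit 228) (nat_lit 81053379) (nat_lit 304) (nat_lit 46437521935) (nat_lit 71) (nat_lit 5) (nat_lit 74) (nat_lit 5) (nat_lit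 75) (nat_lit 5) (nat_lit 431) (nat_lit 404) (nat_lit 185)) (XT.nd (nat_lit 78) (nat_lit 76) (nat_lit 0) (XT.lf (nat_lit 0) (nat_lit 62047427390) (nat_lit 228) (nat_lit 124947528667) (nat_lit 304) (nat_lit 12154387471) (nat_lit 68) (nat_lit 5) (nat_lit 71) (nat_lit 5) (nat_lit 72) (nat_lit 5) (nat_lit 432) (nat_lit 404) (nat_lit 184)) (XT.lf (nat_lit 0) (nat_lit 23881671182) (nat_lit 304) (nat_lit 28036368919) (nat_lit 76) (nat_lit 153369025712) (nat_lit 67) (nat_lit 5) (nat_lit 71) (nat_lit 5) (nat_lit 68) (nat_lit 5) (nat_lit 433) (nat_lit 404) (nat_lit 183))))) (XT.nd (nat_lit 234) (nat_lit 456) (nat_lit 0) (XT.nd (nat_lit 78) (nat_lit 228) (nat_lit 0) (XT.lf (nat_lit 0) (nat_lit 63115263707) (nat_lit 304) (nat_lit 122928953746) (nat_lit 76) (nat_lit 25587284316) (nat_lit 64) (nat_lit 5) (nat_lit 68) (nat_lit 5) (nat_lit 65) (nat_lit 5) (nat_lit 434) (nat_lit 404) (nat_lit 182)) (XT.nd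 (nat_lit 78) (nat_lit 228) (nat_lit 0) (XT.lf (nat_lit 0) (nat_lit 105644086658) (nat_lit 304) (nat_lit 6876778395) (nat_lit 76) (nat_lit 105705617003) (nat_lit 64) (nat_lit 5) (nat_lit 68) (nat_lit 5) (nat_lit 65) (nat_lit 5) (nat_lit 435) (nat_lit 404) (nat_lit 181)) (XT.lf (nat_lit 0) (nat_lit 118779471158) (nat_lit 228) (nat_lit 33374209689) (nat_lit 304) (nat_lit 72904814071) (nat_lit 61) (nat_lit 5) (nat_lit 64) (nat_lit 5) (nat_lit 65) (nat_lit 5) (nat_lit 436) (nat_lit 404) (nat_lit 180)))) (XT.nd (nat_lit 156) (nat_lit 228) (nat_lit 0) (XT.nd (nat_lit 78) (nat_lit 76) (nat_lit 0) (XT.lf (nat_lit 0) (nat_lit 18546030231) (nat_lit 152) (nat_lit 183626924382) (nat_lit 228) (nat_lit 29999943883) (nat_lit 59) (nat_lit 5) (nat_lit 61) (nat_lit 5) (nat_lit 62) (nat_lit 5) (nat_lit 437) (nat_lit 404) (nat_lit 179)) (XT.lf (nat_lit 0) (nat_lit 16944835183) (nat_lit 228) (nat_lit 87062746654)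 (nat_lit 76) (nat_lit 135504873468) (nat_lit 58) (nat_lit 5) (nat_lit 61) (nat_lit 5) (nat_lit 59) (nat_lit 5) (nat_lit 438) (nat_lit 404) (nat_lit 178))) (XT.nd (nat_lit 78) (nat_lit 0) (nat_lit 0) (XT.lf (nat_lit 0) (nat_lit 46836630480) (nat_lit 228) (nat_lit 19123139492) (nat_lit 304) (nat_lit 181198074338) (nat_lit 55) (nat_lit 5) (nat_lit 58) (nat_lit 5) (nat_lit 59) (nat_lit 5) (nat_lit 439) (nat_lit 404) (nat_lit 177)) (XT.lf (nat_lit 0) (nat_lit 120016917753) (nat_lit 304) (nat_lit 65775550734) (nat_lit 76) (nat_lit 69263461019) (nat_lit 55) (nat_lit 5) (nat_lit 59) (nat_lit 5) (nat_lit 56) (nat_lit 5) (nat_lit 440) (nat_lit 404) (nat_lit 176))))))))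
noncomputable def xc227 : XT := (XT.nd (nat_lit 1950) (nat_lit 228) (nat_lit 0) (XT.nd (nat_lit 936) (nat_lit 836) (nat_lit 0) (XT.nd (nat_lit 468) (nat_lit 532) (nat_lit 0) (XT.nd (nat_lit 234) (nat_lit 304) (nat_lit 0) (XT.nd (nat_lit 78) (nat_lit 228) (nat_lit 0) (XT.lf (nat_lit 0) (nat_lit 77669609065) (nat_lit 152) (nat_lit 100633317519) (nat_lit 228) (nat_lit 84969692246) (nat_lit 53) (nat_lit 5) (nat_lit 55) (nat_lit 5) (nat_lit 56) (nat_lit 5) (nat_lit 441) (nat_lit 404) (nat_lit 175)) (XT.nd (nat_lit 78) (nat_lit 228) (nat_lit 0) (XT.lf (nat_lit 0) (nat_lit 230570403847) (nat_lit 152) (nat_lit 10046645166) (nat_lit 228) (nat_lit 31227402996) (nat_lit 53) (nat_lit 5) (nat_lit 55) (nat_lit 5) (nat_lit 56) (nat_lit 5) (nat_lit 442) (nat_lit 404) (nat_lit 174)) (XT.lf (nat_lit 0) (nat_lit 27531149743) (nat_lit 228) (nat_lit 168589527293) (nat_lit 76) (nat_lit 84547737640) (nat_lit 50)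 (nat_lit 5) (nat_lit 53) (nat_lit 5) (nat_lit 51) (nat_lit 5) (nat_lit 443) (nat_lit 404) (nat_lit 173)))) (XT.nd (nat_lit 78) (nat_lit 304) (nat_lit 0) (XT.lf (nat_lit 0) (nat_lit 89053216800) (nat_lit 228) (nat_lit 16054494826) (nat_lit 76) (nat_lit 184756516049) (nat_lit 50) (nat_lit 5) (nat_lit 53) (nat_lit 5) (nat_lit 51) (nat_lit 5) (nat_lit 444) (nat_lit 404) (nat_lit 172)) (XT.nd (nat_lit 78) (nat_lit 152) (nat_lit 0) (XT.lf (nat_lit 0) (nat_lit 148871932328) (nat_lit 152) (nat_lit 7103646925) (nat_lit 228) (nat_lit 143428042510) (nat_lit 48) (nat_lit 5) (nat_lit 50) (nat_lit 5) (nat_lit 51) (nat_lit 5) (nat_lit 445) (nat_lit 404) (nat_lit 171)) (XT.lf (nat_lit 0) (nat_lit 12082001698) (nat_lit 152) (nat_lit 216122641544) (nat_lit 228) (nat_lit 81117313179) (nat_lit 46) (nat_lit 5) (nat_lit 48) (nat_lit 5) (nat_lit 49) (nat_lit 5) (nat_lit 446) (nat_lit 404) (nat_lit 170))))) (XT.nd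 (nat_lit 234) (nat_lit 304) (nat_lit 0) (XT.nd (nat_lit 78) (nat_lit 228) (nat_lit 0) (XT.lf (nat_lit 0) (nat_lit 187932007067) (nat_lit 152) (nat_lit 118776943318) (nat_lit 228) (nat_lit 12894067965) (nat_lit 46) (nat_lit 5) (nat_lit 48) (nat_lit 5) (nat_lit 49) (nat_lit 5) (nat_lit 447) (nat_lit 404) (nat_lit 169)) (XT.nd (nat_lit 78) (nat_lit 0) (nat_lit 0) (XT.lf (nat_lit 0) (nat_lit 42623308378) (nat_lit 152) (nat_lit 14902334277) (nat_lit 228) (nat_lit 272793367645) (nat_lit 43) (nat_lit 5) (nat_lit 45) (nat_lit 5) (nat_lit 46) (nat_lit 5) (nat_lit 448) (nat_lit 404) (nat_lit 168)) (XT.lf (nat_lit 0) (nat_lit 134769569837) (nat_lit 228) (nat_lit 112973954317) (nat_lit 76) (nat_lit 93629881002) (nat_lit 43) (nat_lit 5) (nat_lit 46) (nat_lit 5) (nat_lit 44) (nat_lit 5) (nat_lit 449) (nat_lit 404) (nat_lit 167)))) (XT.nd (nat_lit 78) (nat_lit 152) (nat_lit 0) (XT.lf (nat_lit 0) (nat_lit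 72561837831) (nat_lit 152) (nat_lit 144690947652) (nat_lit 228) (nat_lit 135658879698) (nat_lit 41) (nat_lit 5) (nat_lit 43) (nat_lit 5) (nat_lit 44) (nat_lit 5) (nat_lit 450) (nat_lit 404) (nat_lit 166)) (XT.nd (nat_lit 78) (nat_lit 152) (nat_lit 0) (XT.lf (nat_lit 0) (nat_lit 271296448747) (nat_lit 152) (nat_lit 34476881831) (nat_lit 228) (nat_lit 59157849223) (nat_lit 41) (nat_lit 5) (nat_lit 43) (nat_lit 5) (nat_lit 44) (nat_lit 5) (nat_lit 451) (nat_lit 404) (nat_lit 165)) (XT.lf (nat_lit 0) (nat_lit 23438076573) (nat_lit 152) (nat_lit 273292875396) (nat_lit 76) (nat_lit 80656825463) (nat_lit 39) (nat_lit 5) (nat_lit 41) (nat_lit 5) (nat_lit 40) (nat_lit 5) (nat_lit 452) (nat_lit 404) (nat_lit 164)))))) (XT.nd (nat_lit 468) (nat_lit 380) (nat_lit 0) (XT.nd (nat_lit 234) (nat_lit 304) (nat_lit 0) (XT.nd (nat_lit 78) (nat_lit 152) (nat_lit 0) (XT.lf (nat_lit 0) (nat_lit 110352551387)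 (nat_lit 152) (nat_lit 76987273233) (nat_lit 76) (nat_lit 202970048090) (nat_lit 39) (nat_lit 5) (nat_lit 41) (nat_lit 5) (nat_lit 40) (nat_lit 5) (nat_lit 453) (nat_lit 404) (nat_lit 163)) (XT.nd (nat_lit 78) (nat_lit 0) (nat_lit 0) (XT.lf (nat_lit 0) (nat_lit 133403184551) (nat_lit 152) (nat_lit 70292271752) (nat_lit 228) (nat_lit 200078481154) (nat_lit 37) (nat_lit 5) (nat_lit 39) (nat_lit 5) (nat_lit 40) (nat_lit 5) (nat_lit 454) (nat_lit 404) (nat_lit 162)) (XT.lf (nat_lit 0) (nat_lit 303851959847) (nat_lit 228) (nat_lit 61702912497) (nat_lit 76) (nat_lit 52249010450) (nat_lit 37) (nat_lit 5) (nat_lit 40) (nat_lit 5) (nat_lit 38) (nat_lit 4) (nat_lit 455) (nat_lit 404) (nat_lit 161)))) (XT.nd (nat_lit 78) (nat_lit 228) (nat_lit 0) (XT.lf (nat_lit 0) (nat_lit 161412027800) (nat_lit 76) (nat_lit 251276601130) (nat_lit 152) (nat_lit 19663079470) (nat_lit 36) (nat_lit 5) (nat_lit 37) (nat_lit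 5) (nat_lit 38) (nat_lit 4) (nat_lit 456) (nat_lit 404) (nat_lit 160)) (XT.nd (nat_lit 78) (nat_lit 152) (nat_lit 0) (XT.lf (nat_lit 0) (nat_lit 77862837687) (nat_lit 152) (nat_lit 51005782675) (nat_lit 76) (nat_lit 318643268117) (nat_lit 35) (nat_lit 5) (nat_lit 37) (nat_lit 5) (nat_lit 36) (nat_lit 5) (nat_lit 457) (nat_lit 404) (nat_lit 159)) (XT.lf (nat_lit 0) (nat_lit 182548432207) (nat_lit 228) (nat_lit 277775801246) (nat_lit 76) (nat_lit 2942517352) (nat_lit 33) (nat_lit 5) (nat_lit 36) (nat_lit 5) (nat_lit 34) (nat_lit 4) (nat_lit 458) (nat_lit 404) (nat_lit 158))))) (XT.nd (nat_lit 234) (nat_lit 228) (nat_lit 0) (XT.nd (nat_lit 78) (nat_lit 152) (nat_lit 0) (XT.lf (nat_lit 0) (nat_lit 295458794195) (nat_lit 228) (nat_lit 46309749481) (nat_lit 76) (nat_lit 137891288201) (nat_lit 33) (nat_lit 5) (nat_lit 36) (nat_lit 5) (nat_lit 34) (nat_lit 4) (nat_lit 459) (nat_lit 404) (nat_lit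 157)) (XT.nd (nat_lit 78) (nat_lit 76) (nat_lit 0) (XT.lf (nat_lit 0) (nat_lit 203234229921) (nat_lit 76) (nat_lit 213953423127) (nat_lit 152) (nat_lit 79526265032) (nat_lit 32) (nat_lit 5) (nat_lit 33) (nat_lit 5) (nat_lit 34) (nat_lit 4) (nat_lit 460) (nat_lit 404) (nat_lit 156)) (XT.lf (nat_lit 0) (nat_lit 30206882811) (nat_lit 152) (nat_lit 48205665329) (nat_lit 76) (nat_lit 436144589959) (nat_lit 31) (nat_lit 5) (nat_lit 33) (nat_lit 5) (nat_lit 32) (nat_lit 5) (nat_lit 461) (nat_lit 404) (nat_lit 155)))) (XT.nd (nat_lit 156) (nat_lit 76) (nat_lit 0) (XT.nd (nat_lit 78) (nat_lit 0) (nat_lit 0) (XT.lf (nat_lit 0) (nat_lit 147183422770) (nat_lit 228) (nat_lit 319227122220) (nat_lit 76) (nat_lit 66595321745) (nat_lit 29) (nat_lit 5) (nat_lit 32) (nat_lit 5) (nat_lit 30) (nat_lit 4) (nat_lit 462) (nat_lit 404) (nat_lit 154)) (XT.lf (nat_lit 0) (nat_lit 272123938308) (nat_lit 228) (nat_lit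 63099214480) (nat_lit 76) (nat_lit 217048121599) (nat_lit 29) (nat_lit 5) (nat_lit 32) (nat_lit 5) (nat_lit 30) (nat_lit 4) (nat_lit 463) (nat_lit 404) (nat_lit 153))) (XT.nd (nat_lit 78) (nat_lit 0) (nat_lit 0) (XT.lf (nat_lit 0) (nat_lit 212640794706) (nat_lit 76) (nat_lit 193990534431) (nat_lit 152) (nat_lit 165702630822) (nat_lit 28) (nat_lit 5) (nat_lit 29) (nat_lit 5) (nat_lit 30) (nat_lit 4) (nat_lit 464) (nat_lit 404) (nat_lit 152)) (XT.lf (nat_lit 0) (nat_lit 504358341315) (nat_lit 76) (nat_lit 44574296046) (nat_lit 152) (nat_lit 44413715067) (nat_lit 28) (nat_lit 5) (nat_lit 29) (nat_lit 5) (nat_lit 30) (nat_lit 4) (nat_lit 465) (nat_lit 404) (nat_lit 151))))))) (XT.nd (nat_lit 49140) (nat_lit 0) (nat_lit 4104) (XT.nd (nat_lit 48594) (nat_lit 0) (nat_lit 6536) (XT.nd (nat_lit 48360) (nat_lit 0) (nat_lit 6460) (XT.nd (nat_lit 78) (nat_lit 76) (nat_lit 0) (XT.lf (nat_lit 0) (nat_lit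 85239367120) (nat_lit 152) (nat_lit 416643767962) (nat_lit 76) (nat_lit 113213768070) (nat_lit 26) (nat_lit 5) (nat_lit 28) (nat_lit 5) (nat_lit 27) (nat_lit 4) (nat_lit 466) (nat_lit 404) (nat_lit 150)) (XT.nd (nat_lit 78) (nat_lit 76) (nat_lit 0) (XT.lf (nat_lit 0) (nat_lit 222144933053) (nat_lit 152) (nat_lit 135987474634) (nat_lit 76) (nat_lit 279653047966) (nat_lit 26) (nat_lit 5) (nat_lit 28) (nat_lit 5) (nat_lit 27) (nat_lit 4) (nat_lit 467) (nat_lit 404) (nat_lit 149)) (XT.lf (nat_lit 0) (nat_lit 163948906128) (nat_lit 76) (nat_lit 204506510843) (nat_lit 152) (nat_lit 293025036832) (nat_lit 25) (nat_lit 5) (nat_lit 26) (nat_lit 5) (nat_lit 27) (nat_lit 4) (nat_lit 468) (nat_lit 404) (nat_lit 148)))) (XT.nd (nat_lit 78) (nat_lit 0) (nat_lit 0) (XT.lf (nat_lit 0) (nat_lit 10924684414) (nat_lit 836) (nat_lit 18792748801) (nat_lit 836) (nat_lit 18792748801) (nat_lit 110) (nat_lit 3)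 (nat_lit 121) (nat_lit 3) (nat_lit 121) (nat_lit 5) (nat_lit 405) (nat_lit 405) (nat_lit 210)) (XT.nd (nat_lit 78) (nat_lit 0) (nat_lit 76) (XT.lf (nat_lit 76) (nat_lit 9463352699) (nat_lit 0) (nat_lit 13086762816) (nat_lit 836) (nat_lit 76888027222) (nat_lit 111) (nat_lit 5) (nat_lit 110) (nat_lit 3) (nat_lit 121) (nat_lit 5) (nat_lit 406) (nat_lit 405) (nat_lit 209)) (XT.lf (nat_lit 0) (nat_lit 24487913517) (nat_lit 760) (nat_lit 42341633887) (nat_lit 836) (nat_lit 35087162576) (nat_lit 111) (nat_lit 5) (nat_lit 121) (nat_lit 5) (nat_lit 122) (nat_lit 5) (nat_lit 407) (nat_lit 405) (nat_lit 208))))) (XT.nd (nat_lit 234) (nat_lit 0) (nat_lit 152) (XT.nd (nat_lit 78) (nat_lit 0) (nat_lit 76) (XT.lf (nat_lit 76) (nat_lit 7705003356) (nat_lit 0) (nat_lit 19152019057) (nat_lit 836) (nat_lit 77645462415) (nat_lit 112) (nat_lit 5) (nat_lit 111) (nat_lit 5) (nat_lit 122) (nat_lit 5) (nat_lit 408)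 (nat_lit 405) (nat_lit 207)) (XT.nd (nat_lit 78) (nat_lit 0) (nat_lit 0) (XT.lf (nat_lit 0) (nat_lit 30555605734) (nat_lit 760) (nat_lit 45952320077) (nat_lit 836) (nat_lit 30649071935) (nat_lit 112) (nat_lit 5) (nat_lit 122) (nat_lit 5) (nat_lit 123) (nat_lit 5) (nat_lit 409) (nat_lit 405) (nat_lit 206)) (XT.lf (nat_lit 76) (nat_lit 7356326575) (nat_lit 0) (nat_lit 27511236275) (nat_lit 836) (nat_lit 75055251492) (nat_lit 113) (nat_lit 5) (nat_lit 112) (nat_lit 5) (nat_lit 123) (nat_lit 5) (nat_lit 410) (nat_lit 405) (nat_lit 205)))) (XT.nd (nat_lit 156) (nat_lit 0) (nat_lit 76) (XT.nd (nat_lit 78) (nat_lit 0) (nat_lit 0) (XT.lf (nat_lit 0) (nat_lit 40559437282) (nat_lit 760) (nat_lit 48248968562) (nat_lit 836) (nat_lit 23960300203) (nat_lit 113) (nat_lit 5) (nat_lit 123) (nat_lit 5) (nat_lit 124) (nat_lit 5) (nat_lit 411) (nat_lit 405) (nat_lit 204)) (XT.lf (nat_lit 76) (nat_lit 8608697991)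 (nat_lit 0) (nat_lit 38512274342) (nat_lit 836) (nat_lit 68606666899) (nat_lit 114) (nat_lit 5) (nat_lit 113) (nat_lit 5) (nat_lit 124) (nat_lit 5) (nat_lit 412) (nat_lit 405) (nat_lit 203))) (XT.nd (nat_lit 78) (nat_lit 0) (nat_lit 0) (XT.lf (nat_lit 0) (nat_lit 55064012103) (nat_lit 760) (nat_lit 49046228261) (nat_lit 836) (nat_lit 14671607541) (nat_lit 114) (nat_lit 5) (nat_lit 124) (nat_lit 5) (nat_lit 125) (nat_lit 5) (nat_lit 413) (nat_lit 405) (nat_lit 202)) (XT.lf (nat_lit 76) (nat_lit 11672093727) (nat_lit 0) (nat_lit 52545379388) (nat_lit 836) (nat_lit 57730630652) (nat_lit 115) (nat_lit 5) (nat_lit 114) (nat_lit 5) (nat_lit 125) (nat_lit 5) (nat_lit 414) (nat_lit 405) (nat_lit 201)))))) (XT.nd (nat_lit 468) (nat_lit 1216) (nat_lit 0) (XT.nd (nat_lit 234) (nat_lit 760) (nat_lit 0) (XT.nd (nat_lit 78) (nat_lit 760) (nat_lit 0) (XT.lf (nat_lit 0) (nat_lit 74697488633) (nat_lit 760)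 (nat_lit 48140866657) (nat_lit 76) (nat_lit 2390873267) (nat_lit 115) (nat_lit 5) (nat_lit 125) (nat_lit 5) (nat_lit 116) (nat_lit 5) (nat_lit 415) (nat_lit 405) (nat_lit 200)) (XT.nd (nat_lit 78) (nat_lit 0) (nat_lit 0) (XT.lf (nat_lit 0) (nat_lit 16776324512) (nat_lit 760) (nat_lit 70048218030) (nat_lit 836) (nat_lit 41793715360) (nat_lit 105) (nat_lit 5) (nat_lit 115) (nat_lit 5) (nat_lit 116) (nat_lit 5) (nat_lit 416) (nat_lit 405) (nat_lit 199)) (XT.lf (nat_lit 0) (nat_lit 86610464694) (nat_lit 760) (nat_lit 13762495581) (nat_lit 836) (nat_lit 31763028070) (nat_lit 105) (nat_lit 5) (nat_lit 115) (nat_lit 5) (nat_lit 116) (nat_lit 5) (nat_lit 417) (nat_lit 405) (nat_lit 198)))) (XT.nd (nat_lit 78) (nat_lit 380) (nat_lit 0) (XT.lf (nat_lit 0) (nat_lit 24172270063) (nat_lit 380) (nat_lit 91511507202) (nat_lit 456) (nat_lit 20091579306) (nat_lit 100) (nat_lit 5) (nat_lit 105) (nat_lit 5)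 (nat_lit 106) (nat_lit 5) (nat_lit 418) (nat_lit 405) (nat_lit 197)) (XT.nd (nat_lit 78) (nat_lit 380) (nat_lit 0) (XT.lf (nat_lit 0) (nat_lit 98702171956) (nat_lit 380) (nat_lit 34050680179) (nat_lit 456) (nat_lit 6794205392) (nat_lit 100) (nat_lit 5) (nat_lit 105) (nat_lit 5) (nat_lit 106) (nat_lit 5) (nat_lit 419) (nat_lit 405) (nat_lit 196)) (XT.lf (nat_lit 0) (nat_lit 7897098741) (nat_lit 380) (nat_lit 109454472585) (nat_lit 76) (nat_lit 26102252528) (nat_lit 95) (nat_lit 5) (nat_lit 100) (nat_lit 5) (nat_lit 96) (nat_lit 5) (nat_lit 420) (nat_lit 405) (nat_lit 195))))) (XT.nd (nat_lit 234) (nat_lit 836) (nat_lit 0) (XT.nd (nat_lit 78) (nat_lit 380) (nat_lit 0) (XT.lf (nat_lit 0) (nat_lit 24355674288) (nat_lit 380) (nat_lit 34198682912) (nat_lit 76) (nat_lit 88932950620) (nat_lit 95) (nat_lit 5) (nat_lit 100) (nat_lit 5) (nat_lit 96) (nat_lit 5) (nat_lit 421) (nat_lit 405) (nat_lit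 194)) (XT.nd (nat_lit 78) (nat_lit 0) (nat_lit 0) (XT.lf (nat_lit 0) (nat_lit 42421389834) (nat_lit 456) (nat_lit 105446280678) (nat_lit 76) (nat_lit 3815585052) (nat_lit 90) (nat_lit 5) (nat_lit 96) (nat_lit 5) (nat_lit 91) (nat_lit 5) (nat_lit 422) (nat_lit 405) (nat_lit 193)) (XT.lf (nat_lit 0) (nat_lit 62938743252) (nat_lit 456) (nat_lit 25147977337) (nat_lit 76) (nat_lit 67924862634) (nat_lit 90) (nat_lit 5) (nat_lit 96) (nat_lit 5) (nat_lit 91) (nat_lit 5) (nat_lit 423) (nat_lit 405) (nat_lit 192)))) (XT.nd (nat_lit 156) (nat_lit 532) (nat_lit 0) (XT.nd (nat_lit 78) (nat_lit 0) (nat_lit 0) (XT.lf (nat_lit 0) (nat_lit 61121265545) (nat_lit 304) (nat_lit 24314762324) (nat_lit 380) (nat_lit 75072596347) (nat_lit 86) (nat_lit 5) (nat_lit 90) (nat_lit 5) (nat_lit 91) (nat_lit 5) (nat_lit 424) (nat_lit 405) (nat_lit 191)) (XT.lf (nat_lit 0) (nat_lit 110156667294) (nat_lit 380) (nat_lit 13305217122)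 (nat_lit 76) (nat_lit 41713708434) (nat_lit 86) (nat_lit 5) (nat_lit 91) (nat_lit 5) (nat_lit 87) (nat_lit 5) (nat_lit 425) (nat_lit 405) (nat_lit 190))) (XT.nd (nat_lit 78) (nat_lit 228) (nat_lit 0) (XT.lf (nat_lit 0) (nat_lit 79217656310) (nat_lit 304) (nat_lit 58530899614) (nat_lit 380) (nat_lit 32245593246) (nat_lit 82) (nat_lit 5) (nat_lit 86) (nat_lit 5) (nat_lit 87) (nat_lit 5) (nat_lit 426) (nat_lit 405) (nat_lit 189)) (XT.lf (nat_lit 0) (nat_lit 1685642388) (nat_lit 228) (nat_lit 165440159488) (nat_lit 304) (nat_lit 7907543395) (nat_lit 79) (nat_lit 5) (nat_lit 82) (nat_lit 5) (nat_lit 83) (nat_lit 5) (nat_lit 427) (nat_lit 405) (nat_lit 188))))))))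
noncomputable def xc228 : XT := (XT.nd (nat_lit 1950) (nat_lit 1140) (nat_lit 0) (XT.nd (nat_lit 936) (nat_lit 1292) (nat_lit 0) (XT.nd (nat_lit 468) (nat_lit 760) (nat_lit 0) (XT.nd (nat_lit 234) (nat_lit 456) (nat_lit 0) (XT.nd (nat_lit 78) (nat_lit 304) (nat_lit 0) (XT.lf (nat_lit 0) (nat_lit 19604463115) (nat_lit 304) (nat_lit 79585685496) (nat_lit 76) (nat_lit 80994482317) (nat_lit 78) (nat_lit 5) (nat_lit 82) (nat_lit 5) (nat_lit 79) (nat_lit 5) (nat_lit 428) (nat_lit 405) (nat_lit 187)) (XT.nd (nat_lit 78) (nat_lit 0) (nat_lit 0) (XT.lf (nat_lit 0) (nat_lit 19354021947) (nat_lit 304) (nat_lit 29174294482) (nat_lit 380) (nat_lit 137043583351) (nat_lit 74) (nat_lit 5) (nat_lit 78) (nat_lit 5) (nat_lit 79) (nat_lit 5) (nat_lit 429) (nat_lit 405) (nat_lit 186)) (XT.lf (nat_lit 0) (nat_lit 80960413808) (nat_lit 380) (nat_lit 65872027567) (nat_lit 76) (nat_lit 44292988221) (nat_lit 74)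 (nat_lit 5) (nat_lit 79) (nat_lit 5) (nat_lit 75) (nat_lit 5) (nat_lit 430) (nat_lit 405) (nat_lit 185)))) (XT.nd (nat_lit 78) (nat_lit 228) (nat_lit 0) (XT.lf (nat_lit 0) (nat_lit 40302559973) (nat_lit 228) (nat_lit 75818892894) (nat_lit 304) (nat_lit 80779816280) (nat_lit 71) (nat_lit 5) (nat_lit 74) (nat_lit 5) (nat_lit 75) (nat_lit 5) (nat_lit 431) (nat_lit 405) (nat_lit 184)) (XT.nd (nat_lit 78) (nat_lit 228) (nat_lit 0) (XT.lf (nat_lit 0) (nat_lit 154072586791) (nat_lit 228) (nat_lit 83370039) (nat_lit 304) (nat_lit 48754173279) (nat_lit 71) (nat_lit 5) (nat_lit 74) (nat_lit 5) (nat_lit 75) (nat_lit 5) (nat_lit 432) (nat_lit 405) (nat_lit 183)) (XT.lf (nat_lit 0) (nat_lit 65156620583) (nat_lit 228) (nat_lit 131192952318) (nat_lit 304) (nat_lit 12756991953) (nat_lit 68) (nat_lit 5) (nat_lit 71) (nat_lit 5) (nat_lit 72) (nat_lit 5) (nat_lit 433) (nat_lit 405) (nat_lit 182))))) (XT.nd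 (nat_lit 234) (nat_lit 456) (nat_lit 0) (XT.nd (nat_lit 78) (nat_lit 228) (nat_lit 0) (XT.lf (nat_lit 0) (nat_lit 25080470154) (nat_lit 304) (nat_lit 29431532301) (nat_lit 76) (nat_lit 161039178702) (nat_lit 67) (nat_lit 5) (nat_lit 71) (nat_lit 5) (nat_lit 68) (nat_lit 5) (nat_lit 434) (nat_lit 405) (nat_lit 181)) (XT.nd (nat_lit 78) (nat_lit 0) (nat_lit 0) (XT.lf (nat_lit 0) (nat_lit 66275650507) (nat_lit 304) (nat_lit 129068652500) (nat_lit 76) (nat_lit 26868540598) (nat_lit 64) (nat_lit 5) (nat_lit 68) (nat_lit 5) (nat_lit 65) (nat_lit 5) (nat_lit 435) (nat_lit 405) (nat_lit 180)) (XT.lf (nat_lit 0) (nat_lit 110930694433) (nat_lit 304) (nat_lit 7214189759) (nat_lit 76) (nat_lit 110992699821) (nat_lit 64) (nat_lit 5) (nat_lit 68) (nat_lit 5) (nat_lit 65) (nat_lit 5) (nat_lit 436) (nat_lit 405) (nat_lit 179)))) (XT.nd (nat_lit 78) (nat_lit 228) (nat_lit 0) (XT.lf (nat_lit 0) (nat_lit 124724768601)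 (nat_lit 228) (nat_lit 35040888777) (nat_lit 304) (nat_lit 76545545783) (nat_lit 61) (nat_lit 5) (nat_lit 64) (nat_lit 5) (nat_lit 65) (nat_lit 5) (nat_lit 437) (nat_lit 405) (nat_lit 178)) (XT.nd (nat_lit 78) (nat_lit 76) (nat_lit 0) (XT.lf (nat_lit 0) (nat_lit 19479735437) (nat_lit 152) (nat_lit 192806085176) (nat_lit 228) (nat_lit 31495510105) (nat_lit 59) (nat_lit 5) (nat_lit 61) (nat_lit 5) (nat_lit 62) (nat_lit 5) (nat_lit 438) (nat_lit 405) (nat_lit 177)) (XT.lf (nat_lit 0) (nat_lit 17796161850) (nat_lit 228) (nat_lit 91409648541) (nat_lit 76) (nat_lit 142282061810) (nat_lit 58) (nat_lit 5) (nat_lit 61) (nat_lit 5) (nat_lit 59) (nat_lit 5) (nat_lit 439) (nat_lit 405) (nat_lit 176)))))) (XT.nd (nat_lit 468) (nat_lit 684) (nat_lit 0) (XT.nd (nat_lit 234) (nat_lit 228) (nat_lit 0) (XT.nd (nat_lit 78) (nat_lit 152) (nat_lit 0) (XT.lf (nat_lit 0) (nat_lit 49184596878) (nat_lit 228) (nat_lit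 20077147764) (nat_lit 304) (nat_lit 190253791029) (nat_lit 55) (nat_lit 5) (nat_lit 58) (nat_lit 5) (nat_lit 59) (nat_lit 5) (nat_lit 440) (nat_lit 405) (nat_lit 175)) (XT.nd (nat_lit 78) (nat_lit 152) (nat_lit 0) (XT.lf (nat_lit 0) (nat_lit 126021591945) (nat_lit 304) (nat_lit 69058326193) (nat_lit 76) (nat_lit 72728614956) (nat_lit 55) (nat_lit 5) (nat_lit 59) (nat_lit 5) (nat_lit 56) (nat_lit 5) (nat_lit 441) (nat_lit 405) (nat_lit 174)) (XT.lf (nat_lit 0) (nat_lit 81558994787) (nat_lit 152) (nat_lit 105662816326) (nat_lit 228) (nat_lit 89214250345) (nat_lit 53) (nat_lit 5) (nat_lit 55) (nat_lit 5) (nat_lit 56) (nat_lit 5) (nat_lit 442) (nat_lit 405) (nat_lit 173)))) (XT.nd (nat_lit 78) (nat_lit 228) (nat_lit 0) (XT.lf (nat_lit 0) (nat_lit 242104548105) (nat_lit 152) (nat_lit 10546913550) (nat_lit 228) (nat_lit 32785033609) (nat_lit 53) (nat_lit 5) (nat_lit 55) (nat_lit 5) (nat_lit 56)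 (nat_lit 5) (nat_lit 443) (nat_lit 405) (nat_lit 172)) (XT.nd (nat_lit 78) (nat_lit 0) (nat_lit 0) (XT.lf (nat_lit 0) (nat_lit 28911276000) (nat_lit 228) (nat_lit 177013206342) (nat_lit 76) (nat_lit 88777173418) (nat_lit 50) (nat_lit 5) (nat_lit 53) (nat_lit 5) (nat_lit 51) (nat_lit 5) (nat_lit 444) (nat_lit 405) (nat_lit 171)) (XT.lf (nat_lit 0) (nat_lit 93509276469) (nat_lit 228) (nat_lit 16851698314) (nat_lit 76) (nat_lit 193996293181) (nat_lit 50) (nat_lit 5) (nat_lit 53) (nat_lit 5) (nat_lit 51) (nat_lit 5) (nat_lit 445) (nat_lit 405) (nat_lit 170))))) (XT.nd (nat_lit 234) (nat_lit 380) (nat_lit 0) (XT.nd (nat_lit 78) (nat_lit 152) (nat_lit 0) (XT.lf (nat_lit 0) (nat_lit 156320961145) (nat_lit 152) (nat_lit 7456718863) (nat_lit 228) (nat_lit 150595955655) (nat_lit 48) (nat_lit 5) (nat_lit 50) (nat_lit 5) (nat_lit 51) (nat_lit 5) (nat_lit 446) (nat_lit 405) (nat_lit 169)) (XT.nd (nat_lit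 78) (nat_lit 0) (nat_lit 0) (XT.lf (nat_lit 0) (nat_lit 12691578441) (nat_lit 152) (nat_lit 226926577461) (nat_lit 228) (nat_lit 85169733269) (nat_lit 46) (nat_lit 5) (nat_lit 48) (nat_lit 5) (nat_lit 49) (nat_lit 5) (nat_lit 447) (nat_lit 405) (nat_lit 168)) (XT.lf (nat_lit 0) (nat_lit 197333823286) (nat_lit 152) (nat_lit 124713698902) (nat_lit 228) (nat_lit 13535489869) (nat_lit 46) (nat_lit 5) (nat_lit 48) (nat_lit 5) (nat_lit 49) (nat_lit 5) (nat_lit 448) (nat_lit 405) (nat_lit 167)))) (XT.nd (nat_lit 156) (nat_lit 152) (nat_lit 0) (XT.nd (nat_lit 78) (nat_lit 0) (nat_lit 0) (XT.lf (nat_lit 0) (nat_lit 44759709804) (nat_lit 152) (nat_lit 15645321939) (nat_lit 228) (nat_lit 286429772821) (nat_lit 43) (nat_lit 5) (nat_lit 45) (nat_lit 5) (nat_lit 46) (nat_lit 5) (nat_lit 449) (nat_lit 405) (nat_lit 166)) (XT.lf (nat_lit 0) (nat_lit 141511038991) (nat_lit 228) (nat_lit 118617548207) (nat_lit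 76) (nat_lit 98313337823) (nat_lit 43) (nat_lit 5) (nat_lit 46) (nat_lit 5) (nat_lit 44) (nat_lit 5) (nat_lit 450) (nat_lit 405) (nat_lit 165))) (XT.nd (nat_lit 78) (nat_lit 0) (nat_lit 0) (XT.lf (nat_lit 0) (nat_lit 76194951229) (nat_lit 152) (nat_lit 151923400177) (nat_lit 228) (nat_lit 142438749881) (nat_lit 41) (nat_lit 5) (nat_lit 43) (nat_lit 5) (nat_lit 44) (nat_lit 5) (nat_lit 451) (nat_lit 405) (nat_lit 164)) (XT.lf (nat_lit 0) (nat_lit 284866053571) (nat_lit 152) (nat_lit 36198730820) (nat_lit 228) (nat_lit 62112814254) (nat_lit 41) (nat_lit 5) (nat_lit 43) (nat_lit 5) (nat_lit 44) (nat_lit 5) (nat_lit 452) (nat_lit 405) (nat_lit 163))))))) (XT.nd (nat_lit 1014) (nat_lit 152) (nat_lit 0) (XT.nd (nat_lit 468) (nat_lit 532) (nat_lit 0) (XT.nd (nat_lit 234) (nat_lit 152) (nat_lit 0) (XT.nd (nat_lit 78) (nat_lit 152) (nat_lit 0) (XT.lf (nat_lit 0) (nat_lit 24612785716) (nat_lit 152)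 (nat_lit 286952613212) (nat_lit 76) (nat_lit 84691626402) (nat_lit 39) (nat_lit 5) (nat_lit 41) (nat_lit 5) (nat_lit 40) (nat_lit 5) (nat_lit 453) (nat_lit 405) (nat_lit 162)) (XT.nd (nat_lit 78) (nat_lit 152) (nat_lit 0) (XT.lf (nat_lit 0) (nat_lit 115872850685) (nat_lit 152) (nat_lit 80831964557) (nat_lit 76) (nat_lit 213120416843) (nat_lit 39) (nat_lit 5) (nat_lit 41) (nat_lit 5) (nat_lit 40) (nat_lit 5) (nat_lit 454) (nat_lit 405) (nat_lit 161)) (XT.lf (nat_lit 0) (nat_lit 140077940756) (nat_lit 152) (nat_lit 73804904637) (nat_lit 228) (nat_lit 210079657480) (nat_lit 37) (nat_lit 5) (nat_lit 39) (nat_lit 5) (nat_lit 40) (nat_lit 5) (nat_lit 455) (nat_lit 405) (nat_lit 160)))) (XT.nd (nat_lit 78) (nat_lit 152) (nat_lit 0) (XT.lf (nat_lit 0) (nat_lit 319047078981) (nat_lit 228) (nat_lit 64783584304) (nat_lit 76) (nat_lit 54863286980) (nat_lit 37) (nat_lit 5) (nat_lit 40) (nat_lit 5) (nat_lit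 38) (nat_lit 4) (nat_lit 456) (nat_lit 405) (nat_lit 159)) (XT.nd (nat_lit 78) (nat_lit 76) (nat_lit 0) (XT.lf (nat_lit 0) (nat_lit 169487030850) (nat_lit 76) (nat_lit 263838499336) (nat_lit 152) (nat_lit 20643639561) (nat_lit 36) (nat_lit 5) (nat_lit 37) (nat_lit 5) (nat_lit 38) (nat_lit 4) (nat_lit 457) (nat_lit 405) (nat_lit 158)) (XT.lf (nat_lit 0) (nat_lit 81758370869) (nat_lit 152) (nat_lit 53551800156) (nat_lit 76) (nat_lit 334577191784) (nat_lit 35) (nat_lit 5) (nat_lit 37) (nat_lit 5) (nat_lit 36) (nat_lit 5) (nat_lit 458) (nat_lit 405) (nat_lit 157))))) (XT.nd (nat_lit 234) (nat_lit 304) (nat_lit 0) (XT.nd (nat_lit 78) (nat_lit 76) (nat_lit 0) (XT.lf (nat_lit 0) (nat_lit 191678225895) (nat_lit 228) (nat_lit 291660299933) (nat_lit 76) (nat_lit 3091443409) (nat_lit 33) (nat_lit 5) (nat_lit 36) (nat_lit 5) (nat_lit 34) (nat_lit 4) (nat_lit 459) (nat_lit 405) (nat_lit 156)) (XT.nd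 (nat_lit 78) (nat_lit 76) (nat_lit 0) (XT.lf (nat_lit 0) (nat_lit 310233993027) (nat_lit 228) (nat_lit 48621149931) (nat_lit 76) (nat_lit 144787567077) (nat_lit 33) (nat_lit 5) (nat_lit 36) (nat_lit 5) (nat_lit 34) (nat_lit 4) (nat_lit 460) (nat_lit 405) (nat_lit 155)) (XT.lf (nat_lit 0) (nat_lit 213399962522) (nat_lit 76) (nat_lit 224649287505) (nat_lit 152) (nat_lit 83500252785) (nat_lit 32) (nat_lit 5) (nat_lit 33) (nat_lit 5) (nat_lit 34) (nat_lit 4) (nat_lit 461) (nat_lit 405) (nat_lit 154)))) (XT.nd (nat_lit 156) (nat_lit 76) (nat_lit 0) (XT.nd (nat_lit 78) (nat_lit 152) (nat_lit 0) (XT.lf (nat_lit 0) (nat_lit 31719370826) (nat_lit 152) (nat_lit 50612047672) (nat_lit 76) (nat_lit 457953468898) (nat_lit 31) (nat_lit 5) (nat_lit 33) (nat_lit 5) (nat_lit 32) (nat_lit 5) (nat_lit 462) (nat_lit 405) (nat_lit 153)) (XT.lf (nat_lit 0) (nat_lit 154544722724) (nat_lit 228) (nat_lit 335184561954)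 (nat_lit 76) (nat_lit 69926768558) (nat_lit 29) (nat_lit 5) (nat_lit 32) (nat_lit 5) (nat_lit 30) (nat_lit 4) (nat_lit 463) (nat_lit 405) (nat_lit 152))) (XT.nd (nat_lit 78) (nat_lit 76) (nat_lit 0) (XT.lf (nat_lit 0) (nat_lit 285732162667) (nat_lit 228) (nat_lit 66250445322) (nat_lit 76) (nat_lit 227902128370) (nat_lit 29) (nat_lit 5) (nat_lit 32) (nat_lit 5) (nat_lit 30) (nat_lit 4) (nat_lit 464) (nat_lit 405) (nat_lit 151)) (XT.lf (nat_lit 0) (nat_lit 223276504165) (nat_lit 76) (nat_lit 203688379623) (nat_lit 152) (nat_lit 173985674402) (nat_lit 28) (nat_lit 5) (nat_lit 29) (nat_lit 5) (nat_lit 30) (nat_lit 4) (nat_lit 465) (nat_lit 405) (nat_lit 150)))))) (XT.nd (nat_lit 48672) (nat_lit 0) (nat_lit 6460) (XT.nd (nat_lit 48438) (nat_lit 0) (nat_lit 6384) (XT.nd (nat_lit 78) (nat_lit 152) (nat_lit 0) (XT.lf (nat_lit 0) (nat_lit 529579753355) (nat_lit 76) (nat_lit 46801409391) (nat_lit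 152) (nat_lit 46632412287) (nat_lit 28) (nat_lit 5) (nat_lit 29) (nat_lit 5) (nat_lit 30) (nat_lit 4) (nat_lit 466) (nat_lit 405) (nat_lit 149)) (XT.nd (nat_lit 78) (nat_lit 0) (nat_lit 0) (XT.lf (nat_lit 0) (nat_lit 89503248565) (nat_lit 152) (nat_lit 437472385308) (nat_lit 76) (nat_lit 118876018473) (nat_lit 26) (nat_lit 5) (nat_lit 28) (nat_lit 5) (nat_lit 27) (nat_lit 4) (nat_lit 467) (nat_lit 405) (nat_lit 148)) (XT.lf (nat_lit 0) (nat_lit 233254001695) (nat_lit 152) (nat_lit 142783447363) (nat_lit 76) (nat_lit 293637187983) (nat_lit 26) (nat_lit 5) (nat_lit 28) (nat_lit 5) (nat_lit 27) (nat_lit 4) (nat_lit 468) (nat_lit 405) (nat_lit 147)))) (XT.nd (nat_lit 78) (nat_lit 0) (nat_lit 0) (XT.lf (nat_lit 0) (nat_lit 11477576055) (nat_lit 836) (nat_lit 19728888745) (nat_lit 836) (nat_lit 19728888745) (nat_lit 110) (nat_lit 3) (nat_lit 121) (nat_lit 3) (nat_lit 121) (nat_lit 5) (nat_lit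 406) (nat_lit 406) (nat_lit 208)) (XT.nd (nat_lit 78) (nat_lit 0) (nat_lit 76) (XT.lf (nat_lit 76) (nat_lit 9943402504) (nat_lit 0) (nat_lit 13747007038) (nat_lit 836) (nat_lit 80718991965) (nat_lit 111) (nat_lit 5) (nat_lit 110) (nat_lit 3) (nat_lit 121) (nat_lit 5) (nat_lit 407) (nat_lit 406) (nat_lit 207)) (XT.lf (nat_lit 0) (nat_lit 25724400661) (nat_lit 760) (nat_lit 44451455822) (nat_lit 836) (nat_lit 36836075895) (nat_lit 111) (nat_lit 5) (nat_lit 121) (nat_lit 5) (nat_lit 122) (nat_lit 5) (nat_lit 408) (nat_lit 406) (nat_lit 206))))) (XT.nd (nat_lit 234) (nat_lit 0) (nat_lit 152) (XT.nd (nat_lit 78) (nat_lit 0) (nat_lit 76) (XT.lf (nat_lit 76) (nat_lit 8097396191) (nat_lit 0) (nat_lit 20114104543) (nat_lit 836) (nat_lit 81515518854) (nat_lit 112) (nat_lit 5) (nat_lit 111) (nat_lit 5) (nat_lit 122) (nat_lit 5) (nat_lit 409) (nat_lit 406) (nat_lit 205)) (XT.nd (nat_lit 78) (nat_lit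 0) (nat_lit 0) (XT.lf (nat_lit 0) (nat_lit 32094392862) (nat_lit 760) (nat_lit 48242505447) (nat_lit 836) (nat_lit 32177391246) (nat_lit 112) (nat_lit 5) (nat_lit 122) (nat_lit 5) (nat_lit 123) (nat_lit 5) (nat_lit 410) (nat_lit 406) (nat_lit 204)) (XT.lf (nat_lit 76) (nat_lit 7731453688) (nat_lit 0) (nat_lit 28890084153) (nat_lit 836) (nat_lit 78796880009) (nat_lit 113) (nat_lit 5) (nat_lit 112) (nat_lit 5) (nat_lit 123) (nat_lit 5) (nat_lit 411) (nat_lit 406) (nat_lit 203)))) (XT.nd (nat_lit 156) (nat_lit 0) (nat_lit 76) (XT.nd (nat_lit 78) (nat_lit 0) (nat_lit 0) (XT.lf (nat_lit 0) (nat_lit 42597452521) (nat_lit 760) (nat_lit 50653893848) (nat_lit 836) (nat_lit 25155285795) (nat_lit 113) (nat_lit 5) (nat_lit 123) (nat_lit 5) (nat_lit 124) (nat_lit 5) (nat_lit 412) (nat_lit 406) (nat_lit 202)) (XT.lf (nat_lit 76) (nat_lit 9046534691) (nat_lit 0) (nat_lit 40440166941) (nat_lit 836) (nat_lit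 72026828845) (nat_lit 114) (nat_lit 5) (nat_lit 113) (nat_lit 5) (nat_lit 124) (nat_lit 5) (nat_lit 413) (nat_lit 406) (nat_lit 201))) (XT.nd (nat_lit 78) (nat_lit 0) (nat_lit 0) (XT.lf (nat_lit 0) (nat_lit 57826398520) (nat_lit 760) (nat_lit 51490989106) (nat_lit 836) (nat_lit 15403087020) (nat_lit 114) (nat_lit 5) (nat_lit 124) (nat_lit 5) (nat_lit 125) (nat_lit 5) (nat_lit 414) (nat_lit 406) (nat_lit 200)) (XT.lf (nat_lit 76) (nat_lit 12263127198) (nat_lit 0) (nat_lit 55174083950) (nat_lit 836) (nat_lit 60607848529) (nat_lit 115) (nat_lit 5) (nat_lit 114) (nat_lit 5) (nat_lit 125) (nat_lit 5) (nat_lit 415) (nat_lit 406) (nat_lit 199))))))))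
noncomputable def xc229 : XT := (XT.nd (nat_lit 1950) (nat_lit 2280) (nat_lit 0) (XT.nd (nat_lit 936) (nat_lit 1824) (nat_lit 0) (XT.nd (nat_lit 468) (nat_lit 988) (nat_lit 0) (XT.nd (nat_lit 234) (nat_lit 760) (nat_lit 0) (XT.nd (nat_lit 78) (nat_lit 760) (nat_lit 0) (XT.lf (nat_lit 0) (nat_lit 78440783981) (nat_lit 760) (nat_lit 50540385726) (nat_lit 76) (nat_lit 2509093460) (nat_lit 115) (nat_lit 5) (nat_lit 125) (nat_lit 5) (nat_lit 116) (nat_lit 5) (nat_lit 416) (nat_lit 406) (nat_lit 198)) (XT.nd (nat_lit 78) (nat_lit 0) (nat_lit 0) (XT.lf (nat_lit 0) (nat_lit 17622543643) (nat_lit 760) (nat_lit 73551361527) (nat_lit 836) (nat_lit 43874853355) (nat_lit 105) (nat_lit 5) (nat_lit 115) (nat_lit 5) (nat_lit 116) (nat_lit 5) (nat_lit 417) (nat_lit 406) (nat_lit 197)) (XT.lf (nat_lit 0) (nat_lit 90948038314) (nat_lit 760) (nat_lit 14451318071) (nat_lit 836) (nat_lit 33343038737) (nat_lit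 105) (nat_lit 5) (nat_lit 115) (nat_lit 5) (nat_lit 116) (nat_lit 5) (nat_lit 418) (nat_lit 406) (nat_lit 196)))) (XT.nd (nat_lit 78) (nat_lit 380) (nat_lit 0) (XT.lf (nat_lit 0) (nat_lit 25388217261) (nat_lit 380) (nat_lit 96087232131) (nat_lit 456) (nat_lit 21088295858) (nat_lit 100) (nat_lit 5) (nat_lit 105) (nat_lit 5) (nat_lit 106) (nat_lit 5) (nat_lit 419) (nat_lit 406) (nat_lit 195)) (XT.nd (nat_lit 78) (nat_lit 380) (nat_lit 0) (XT.lf (nat_lit 0) (nat_lit 103644265025) (nat_lit 380) (nat_lit 35753356635) (nat_lit 456) (nat_lit 7126427649) (nat_lit 100) (nat_lit 5) (nat_lit 105) (nat_lit 5) (nat_lit 106) (nat_lit 5) (nat_lit 420) (nat_lit 406) (nat_lit 194)) (XT.lf (nat_lit 0) (nat_lit 8298969435) (nat_lit 380) (nat_lit 114919730657) (nat_lit 76) (nat_lit 27407459859) (nat_lit 95) (nat_lit 5) (nat_lit 100) (nat_lit 5) (nat_lit 96) (nat_lit 5) (nat_lit 421) (nat_lit 406) (nat_lit 193)))))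 (XT.nd (nat_lit 234) (nat_lit 608) (nat_lit 0) (XT.nd (nat_lit 78) (nat_lit 380) (nat_lit 0) (XT.lf (nat_lit 0) (nat_lit 25580139676) (nat_lit 380) (nat_lit 35901507003) (nat_lit 76) (nat_lit 93379688346) (nat_lit 95) (nat_lit 5) (nat_lit 100) (nat_lit 5) (nat_lit 96) (nat_lit 5) (nat_lit 422) (nat_lit 406) (nat_lit 192)) (XT.nd (nat_lit 78) (nat_lit 0) (nat_lit 0) (XT.lf (nat_lit 0) (nat_lit 44548940202) (nat_lit 456) (nat_lit 110711279953) (nat_lit 76) (nat_lit 4006870236) (nat_lit 90) (nat_lit 5) (nat_lit 96) (nat_lit 5) (nat_lit 91) (nat_lit 5) (nat_lit 423) (nat_lit 406) (nat_lit 191)) (XT.lf (nat_lit 0) (nat_lit 66091852677) (nat_lit 456) (nat_lit 26398409768) (nat_lit 76) (nat_lit 71321587605) (nat_lit 90) (nat_lit 5) (nat_lit 96) (nat_lit 5) (nat_lit 91) (nat_lit 5) (nat_lit 424) (nat_lit 406) (nat_lit 190)))) (XT.nd (nat_lit 78) (nat_lit 304) (nat_lit 0) (XT.lf (nat_lit 0) (nat_lit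 64184182897) (nat_lit 304) (nat_lit 25529631722) (nat_lit 380) (nat_lit 78819937996) (nat_lit 86) (nat_lit 5) (nat_lit 90) (nat_lit 5) (nat_lit 91) (nat_lit 5) (nat_lit 425) (nat_lit 406) (nat_lit 189)) (XT.nd (nat_lit 78) (nat_lit 304) (nat_lit 0) (XT.lf (nat_lit 0) (nat_lit 115670213916) (nat_lit 380) (nat_lit 13963674814) (nat_lit 76) (nat_lit 43800194726) (nat_lit 86) (nat_lit 5) (nat_lit 91) (nat_lit 5) (nat_lit 87) (nat_lit 5) (nat_lit 426) (nat_lit 406) (nat_lit 188)) (XT.lf (nat_lit 0) (nat_lit 83185232562) (nat_lit 304) (nat_lit 61456296859) (nat_lit 380) (nat_lit 33852046708) (nat_lit 82) (nat_lit 5) (nat_lit 86) (nat_lit 5) (nat_lit 87) (nat_lit 5) (nat_lit 427) (nat_lit 406) (nat_lit 187)))))) (XT.nd (nat_lit 468) (nat_lit 988) (nat_lit 0) (XT.nd (nat_lit 234) (nat_lit 228) (nat_lit 0) (XT.nd (nat_lit 78) (nat_lit 380) (nat_lit 0) (XT.lf (nat_lit 0) (nat_lit 1776768330) (nat_lit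 228) (nat_lit 173710729177) (nat_lit 304) (nat_lit 8297241690) (nat_lit 79) (nat_lit 5) (nat_lit 82) (nat_lit 5) (nat_lit 83) (nat_lit 5) (nat_lit 428) (nat_lit 406) (nat_lit 186)) (XT.nd (nat_lit 78) (nat_lit 304) (nat_lit 0) (XT.lf (nat_lit 0) (nat_lit 20589921619) (nat_lit 304) (nat_lit 83558275964) (nat_lit 76) (nat_lit 85045400348) (nat_lit 78) (nat_lit 5) (nat_lit 82) (nat_lit 5) (nat_lit 79) (nat_lit 5) (nat_lit 429) (nat_lit 406) (nat_lit 185)) (XT.lf (nat_lit 0) (nat_lit 20328308887) (nat_lit 304) (nat_lit 30631512233) (nat_lit 380) (nat_lit 143890416562) (nat_lit 74) (nat_lit 5) (nat_lit 78) (nat_lit 5) (nat_lit 79) (nat_lit 5) (nat_lit 430) (nat_lit 406) (nat_lit 184)))) (XT.nd (nat_lit 78) (nat_lit 228) (nat_lit 0) (XT.lf (nat_lit 0) (nat_lit 85013303299) (nat_lit 380) (nat_lit 69159134128) (nat_lit 76) (nat_lit 46509017690) (nat_lit 74) (nat_lit 5) (nat_lit 79) (nat_lit 5) (nat_lit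 75) (nat_lit 5) (nat_lit 431) (nat_lit 406) (nat_lit 183)) (XT.nd (nat_lit 78) (nat_lit 0) (nat_lit 0) (XT.lf (nat_lit 0) (nat_lit 42324078034) (nat_lit 228) (nat_lit 79608184197) (nat_lit 304) (nat_lit 84813831139) (nat_lit 71) (nat_lit 5) (nat_lit 74) (nat_lit 5) (nat_lit 75) (nat_lit 5) (nat_lit 432) (nat_lit 406) (nat_lit 182)) (XT.lf (nat_lit 0) (nat_lit 161782301904) (nat_lit 228) (nat_lit 85963930) (nat_lit 304) (nat_lit 51187142939) (nat_lit 71) (nat_lit 5) (nat_lit 74) (nat_lit 5) (nat_lit 75) (nat_lit 5) (nat_lit 433) (nat_lit 406) (nat_lit 181))))) (XT.nd (nat_lit 234) (nat_lit 456) (nat_lit 0) (XT.nd (nat_lit 78) (nat_lit 304) (nat_lit 0) (XT.lf (nat_lit 0) (nat_lit 68420639208) (nat_lit 228) (nat_lit 137750828702) (nat_lit 304) (nat_lit 13390202193) (nat_lit 68) (nat_lit 5) (nat_lit 71) (nat_lit 5) (nat_lit 72) (nat_lit 5) (nat_lit 434) (nat_lit 406) (nat_lit 180)) (XT.nd (nat_lit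 78) (nat_lit 228) (nat_lit 0) (XT.lf (nat_lit 0) (nat_lit 26338770680) (nat_lit 304) (nat_lit 30897072577) (nat_lit 76) (nat_lit 169092681134) (nat_lit 67) (nat_lit 5) (nat_lit 71) (nat_lit 5) (nat_lit 68) (nat_lit 5) (nat_lit 435) (nat_lit 406) (nat_lit 179)) (XT.lf (nat_lit 0) (nat_lit 69593626788) (nat_lit 304) (nat_lit 135515963644) (nat_lit 76) (nat_lit 28213683788) (nat_lit 64) (nat_lit 5) (nat_lit 68) (nat_lit 5) (nat_lit 65) (nat_lit 5) (nat_lit 436) (nat_lit 406) (nat_lit 178)))) (XT.nd (nat_lit 156) (nat_lit 228) (nat_lit 0) (XT.nd (nat_lit 78) (nat_lit 228) (nat_lit 0) (XT.lf (nat_lit 0) (nat_lit 116481223207) (nat_lit 304) (nat_lit 7569069265) (nat_lit 76) (nat_lit 116543969250) (nat_lit 64) (nat_lit 5) (nat_lit 68) (nat_lit 5) (nat_lit 65) (nat_lit 5) (nat_lit 437) (nat_lit 406) (nat_lit 177)) (XT.lf (nat_lit 0) (nat_lit 130966742982) (nat_lit 228) (nat_lit 36791090679) (nat_lit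 304) (nat_lit 80368733283) (nat_lit 61) (nat_lit 5) (nat_lit 64) (nat_lit 5) (nat_lit 65) (nat_lit 5) (nat_lit 438) (nat_lit 406) (nat_lit 176))) (XT.nd (nat_lit 78) (nat_lit 76) (nat_lit 0) (XT.lf (nat_lit 0) (nat_lit 20459530548) (nat_lit 152) (nat_lit 202444407190) (nat_lit 228) (nat_lit 33066266587) (nat_lit 59) (nat_lit 5) (nat_lit 61) (nat_lit 5) (nat_lit 62) (nat_lit 5) (nat_lit 439) (nat_lit 406) (nat_lit 175)) (XT.lf (nat_lit 0) (nat_lit 18689675075) (nat_lit 228) (nat_lit 95974475235) (nat_lit 76) (nat_lit 149397928772) (nat_lit 58) (nat_lit 5) (nat_lit 61) (nat_lit 5) (nat_lit 59) (nat_lit 5) (nat_lit 440) (nat_lit 406) (nat_lit 174))))))) (XT.nd (nat_lit 1014) (nat_lit 988) (nat_lit 0) (XT.nd (nat_lit 468) (nat_lit 684) (nat_lit 0) (XT.nd (nat_lit 234) (nat_lit 228) (nat_lit 0) (XT.nd (nat_lit 78) (nat_lit 152) (nat_lit 0) (XT.lf (nat_lit 0) (nat_lit 51649391233) (nat_lit 228)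 (nat_lit 21079056216) (nat_lit 304) (nat_lit 199762682825) (nat_lit 55) (nat_lit 5) (nat_lit 58) (nat_lit 5) (nat_lit 59) (nat_lit 5) (nat_lit 441) (nat_lit 406) (nat_lit 173)) (XT.nd (nat_lit 78) (nat_lit 152) (nat_lit 0) (XT.lf (nat_lit 0) (nat_lit 132326143926) (nat_lit 304) (nat_lit 72505798442) (nat_lit 76) (nat_lit 76366842426) (nat_lit 55) (nat_lit 5) (nat_lit 59) (nat_lit 5) (nat_lit 56) (nat_lit 5) (nat_lit 442) (nat_lit 406) (nat_lit 172)) (XT.lf (nat_lit 0) (nat_lit 85642300781) (nat_lit 152) (nat_lit 110943991548) (nat_lit 228) (nat_lit 93671401399) (nat_lit 53) (nat_lit 5) (nat_lit 55) (nat_lit 5) (nat_lit 56) (nat_lit 5) (nat_lit 443) (nat_lit 406) (nat_lit 171)))) (XT.nd (nat_lit 78) (nat_lit 228) (nat_lit 0) (XT.lf (nat_lit 0) (nat_lit 254214876705) (nat_lit 152) (nat_lit 11072387232) (nat_lit 228) (nat_lit 34420893419) (nat_lit 53) (nat_lit 5) (nat_lit 55) (nat_lit 5) (nat_lit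 56) (nat_lit 5) (nat_lit 444) (nat_lit 406) (nat_lit 170)) (XT.nd (nat_lit 78) (nat_lit 0) (nat_lit 0) (XT.lf (nat_lit 0) (nat_lit 30360076780) (nat_lit 228) (nat_lit 185858608322) (nat_lit 76) (nat_lit 93217890498) (nat_lit 50) (nat_lit 5) (nat_lit 53) (nat_lit 5) (nat_lit 51) (nat_lit 5) (nat_lit 445) (nat_lit 406) (nat_lit 169)) (XT.lf (nat_lit 0) (nat_lit 98187823131) (nat_lit 228) (nat_lit 17689275290) (nat_lit 76) (nat_lit 203697877753) (nat_lit 50) (nat_lit 5) (nat_lit 53) (nat_lit 5) (nat_lit 51) (nat_lit 5) (nat_lit 446) (nat_lit 406) (nat_lit 168))))) (XT.nd (nat_lit 234) (nat_lit 380) (nat_lit 0) (XT.nd (nat_lit 78) (nat_lit 152) (nat_lit 0) (XT.lf (nat_lit 0) (nat_lit 164141936369) (nat_lit 152) (nat_lit 7827640603) (nat_lit 228) (nat_lit 158122588830) (nat_lit 48) (nat_lit 5) (nat_lit 50) (nat_lit 5) (nat_lit 51) (nat_lit 5) (nat_lit 447) (nat_lit 406) (nat_lit 167)) (XT.nd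 (nat_lit 78) (nat_lit 0) (nat_lit 0) (XT.lf (nat_lit 0) (nat_lit 13331124854) (nat_lit 152) (nat_lit 238270914351) (nat_lit 228) (nat_lit 89425094700) (nat_lit 46) (nat_lit 5) (nat_lit 48) (nat_lit 5) (nat_lit 49) (nat_lit 5) (nat_lit 448) (nat_lit 406) (nat_lit 166)) (XT.lf (nat_lit 0) (nat_lit 207205245394) (nat_lit 152) (nat_lit 130947486721) (nat_lit 228) (nat_lit 14209287951) (nat_lit 46) (nat_lit 5) (nat_lit 48) (nat_lit 5) (nat_lit 49) (nat_lit 5) (nat_lit 449) (nat_lit 406) (nat_lit 165)))) (XT.nd (nat_lit 156) (nat_lit 152) (nat_lit 0) (XT.nd (nat_lit 78) (nat_lit 0) (nat_lit 0) (XT.lf (nat_lit 0) (nat_lit 47002444506) (nat_lit 152) (nat_lit 16425656922) (nat_lit 228) (nat_lit 300748301638) (nat_lit 43) (nat_lit 5) (nat_lit 45) (nat_lit 5) (nat_lit 46) (nat_lit 5) (nat_lit 450) (nat_lit 406) (nat_lit 164)) (XT.lf (nat_lit 0) (nat_lit 148589303559) (nat_lit 228) (nat_lit 124543796296)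 (nat_lit 76) (nat_lit 103230785005) (nat_lit 43) (nat_lit 5) (nat_lit 46) (nat_lit 5) (nat_lit 44) (nat_lit 5) (nat_lit 451) (nat_lit 406) (nat_lit 163))) (XT.nd (nat_lit 78) (nat_lit 0) (nat_lit 0) (XT.lf (nat_lit 0) (nat_lit 80009253445) (nat_lit 152) (nat_lit 159517670088) (nat_lit 228) (nat_lit 149557899347) (nat_lit 41) (nat_lit 5) (nat_lit 43) (nat_lit 5) (nat_lit 44) (nat_lit 5) (nat_lit 452) (nat_lit 406) (nat_lit 162)) (XT.lf (nat_lit 0) (nat_lit 299113694016) (nat_lit 152) (nat_lit 38006857744) (nat_lit 228) (nat_lit 65215799701) (nat_lit 41) (nat_lit 5) (nat_lit 43) (nat_lit 5) (nat_lit 44) (nat_lit 5) (nat_lit 453) (nat_lit 406) (nat_lit 161)))))) (XT.nd (nat_lit 468) (nat_lit 532) (nat_lit 0) (XT.nd (nat_lit 234) (nat_lit 152) (nat_lit 0) (XT.nd (nat_lit 78) (nat_lit 152) (nat_lit 0) (XT.lf (nat_lit 0) (nat_lit 25845969505) (nat_lit 152) (nat_lit 301295794027) (nat_lit 76) (nat_lit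 88927985197) (nat_lit 39) (nat_lit 5) (nat_lit 41) (nat_lit 5) (nat_lit 40) (nat_lit 5) (nat_lit 454) (nat_lit 406) (nat_lit 160)) (XT.nd (nat_lit 78) (nat_lit 152) (nat_lit 0) (XT.lf (nat_lit 0) (nat_lit 121668916555) (nat_lit 152) (nat_lit 84869324836) (nat_lit 76) (nat_lit 223778130519) (nat_lit 39) (nat_lit 5) (nat_lit 41) (nat_lit 5) (nat_lit 40) (nat_lit 5) (nat_lit 455) (nat_lit 406) (nat_lit 159)) (XT.lf (nat_lit 0) (nat_lit 147086007388) (nat_lit 152) (nat_lit 77493353313) (nat_lit 228) (nat_lit 220581148081) (nat_lit 37) (nat_lit 5) (nat_lit 39) (nat_lit 5) (nat_lit 40) (nat_lit 5) (nat_lit 456) (nat_lit 406) (nat_lit 158)))) (XT.nd (nat_lit 78) (nat_lit 152) (nat_lit 0) (XT.lf (nat_lit 0) (nat_lit 335001719680) (nat_lit 228) (nat_lit 68018705634) (nat_lit 76) (nat_lit 57608107572) (nat_lit 37) (nat_lit 5) (nat_lit 40) (nat_lit 5) (nat_lit 38) (nat_lit 4) (nat_lit 457) (nat_lit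 406) (nat_lit 157)) (XT.nd (nat_lit 78) (nat_lit 76) (nat_lit 0) (XT.lf (nat_lit 0) (nat_lit 177965374828) (nat_lit 76) (nat_lit 277028672058) (nat_lit 152) (nat_lit 21673468810) (nat_lit 36) (nat_lit 5) (nat_lit 37) (nat_lit 5) (nat_lit 38) (nat_lit 4) (nat_lit 458) (nat_lit 406) (nat_lit 156)) (XT.lf (nat_lit 0) (nat_lit 85848458390) (nat_lit 152) (nat_lit 56225515649) (nat_lit 76) (nat_lit 351307647983) (nat_lit 35) (nat_lit 5) (nat_lit 37) (nat_lit 5) (nat_lit 36) (nat_lit 5) (nat_lit 459) (nat_lit 406) (nat_lit 155))))) (XT.nd (nat_lit 234) (nat_lit 304) (nat_lit 0) (XT.nd (nat_lit 78) (nat_lit 76) (nat_lit 0) (XT.lf (nat_lit 0) (nat_lit 201264288735) (nat_lit 228) (nat_lit 306239422526) (nat_lit 76) (nat_lit 3247648404) (nat_lit 33) (nat_lit 5) (nat_lit 36) (nat_lit 5) (nat_lit 34) (nat_lit 4) (nat_lit 460) (nat_lit 406) (nat_lit 154)) (XT.nd (nat_lit 78) (nat_lit 76) (nat_lit 0) (XT.lf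 (nat_lit 0) (nat_lit 325747741769) (nat_lit 228) (nat_lit 51048500377) (nat_lit 76) (nat_lit 152028500502) (nat_lit 33) (nat_lit 5) (nat_lit 36) (nat_lit 5) (nat_lit 34) (nat_lit 4) (nat_lit 461) (nat_lit 406) (nat_lit 153)) (XT.lf (nat_lit 0) (nat_lit 224073607908) (nat_lit 76) (nat_lit 235880113079) (nat_lit 152) (nat_lit 87673156128) (nat_lit 32) (nat_lit 5) (nat_lit 33) (nat_lit 5) (nat_lit 34) (nat_lit 4) (nat_lit 462) (nat_lit 406) (nat_lit 152)))) (XT.nd (nat_lit 156) (nat_lit 76) (nat_lit 0) (XT.nd (nat_lit 78) (nat_lit 152) (nat_lit 0) (XT.lf (nat_lit 0) (nat_lit 33307283925) (nat_lit 152) (nat_lit 53139111803) (nat_lit 76) (nat_lit 480852638435) (nat_lit 31) (nat_lit 5) (nat_lit 33) (nat_lit 5) (nat_lit 32) (nat_lit 5) (nat_lit 463) (nat_lit 406) (nat_lit 151)) (XT.lf (nat_lit 0) (nat_lit 162273889759) (nat_lit 228) (nat_lit 351940237783) (nat_lit 76) (nat_lit 73424631454) (nat_lit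 29) (nat_lit 5) (nat_lit 32) (nat_lit 5) (nat_lit 30) (nat_lit 4) (nat_lit 464) (nat_lit 406) (nat_lit 150))) (XT.nd (nat_lit 78) (nat_lit 76) (nat_lit 0) (XT.lf (nat_lit 0) (nat_lit 300020609751) (nat_lit 228) (nat_lit 69559584475) (nat_lit 76) (nat_lit 239298686662) (nat_lit 29) (nat_lit 5) (nat_lit 32) (nat_lit 5) (nat_lit 30) (nat_lit 4) (nat_lit 465) (nat_lit 406) (nat_lit 149)) (XT.lf (nat_lit 0) (nat_lit 234443657920) (nat_lit 76) (nat_lit 213871273407) (nat_lit 152) (nat_lit 182683064280) (nat_lit 28) (nat_lit 5) (nat_lit 29) (nat_lit 5) (nat_lit 30) (nat_lit 4) (nat_lit 466) (nat_lit 406) (nat_lit 148))))))))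
noncomputable def xc230 : XT := (XT.nd (nat_lit 50232) (nat_lit 0) (nat_lit 988) (XT.nd (nat_lit 49218) (nat_lit 0) (nat_lit 4028) (XT.nd (nat_lit 48750) (nat_lit 0) (nat_lit 6536) (XT.nd (nat_lit 48516) (nat_lit 0) (nat_lit 6384) (XT.nd (nat_lit 78) (nat_lit 152) (nat_lit 0) (XT.lf (nat_lit 0) (nat_lit 556061911068) (nat_lit 76) (nat_lit 49140027292) (nat_lit 152) (nat_lit 48962229242) (nat_lit 28) (nat_lit 5) (nat_lit 29) (nat_lit 5) (nat_lit 30) (nat_lit 4) (nat_lit 467) (nat_lit 406) (nat_lit 147)) (XT.nd (nat_lit 48360) (nat_lit 0) (nat_lit 6384) (XT.lf (nat_lit 0) (nat_lit 93980146222) (nat_lit 152) (nat_lit 459342765524) (nat_lit 76) (nat_lit 124821236176) (nat_lit 26) (nat_lit 5) (nat_lit 28) (nat_lit 5) (nat_lit 27) (nat_lit 4) (nat_lit 468) (nat_lit 406) (nat_lit 146)) (XT.lf (nat_lit 0) (nat_lit 12057493335) (nat_lit 836) (nat_lit 20712160850) (nat_lit 836) (nat_lit 20712160850)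 (nat_lit 110) (nat_lit 3) (nat_lit 121) (nat_lit 3) (nat_lit 121) (nat_lit 5) (nat_lit 407) (nat_lit 407) (nat_lit 206)))) (XT.nd (nat_lit 78) (nat_lit 0) (nat_lit 76) (XT.lf (nat_lit 76) (nat_lit 10446814961) (nat_lit 0) (nat_lit 14439714379) (nat_lit 836) (nat_lit 84742754154) (nat_lit 111) (nat_lit 5) (nat_lit 110) (nat_lit 3) (nat_lit 121) (nat_lit 5) (nat_lit 408) (nat_lit 407) (nat_lit 205)) (XT.nd (nat_lit 78) (nat_lit 0) (nat_lit 0) (XT.lf (nat_lit 0) (nat_lit 27021588011) (nat_lit 760) (nat_lit 46667443797) (nat_lit 836) (nat_lit 38672941088) (nat_lit 111) (nat_lit 5) (nat_lit 121) (nat_lit 5) (nat_lit 122) (nat_lit 5) (nat_lit 409) (nat_lit 407) (nat_lit 204)) (XT.lf (nat_lit 76) (nat_lit 8508744610) (nat_lit 0) (nat_lit 21123877374) (nat_lit 836) (nat_lit 85580213905) (nat_lit 112) (nat_lit 5) (nat_lit 111) (nat_lit 5) (nat_lit 122) (nat_lit 5) (nat_lit 410) (nat_lit 407) (nat_lit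 203))))) (XT.nd (nat_lit 234) (nat_lit 0) (nat_lit 76) (XT.nd (nat_lit 78) (nat_lit 0) (nat_lit 0) (XT.lf (nat_lit 0) (nat_lit 33709096036) (nat_lit 760) (nat_lit 50647890916) (nat_lit 836) (nat_lit 33782510889) (nat_lit 112) (nat_lit 5) (nat_lit 122) (nat_lit 5) (nat_lit 123) (nat_lit 5) (nat_lit 411) (nat_lit 407) (nat_lit 202)) (XT.nd (nat_lit 78) (nat_lit 0) (nat_lit 76) (XT.lf (nat_lit 76) (nat_lit 8124657470) (nat_lit 0) (nat_lit 30337568918) (nat_lit 836) (nat_lit 82726625090) (nat_lit 113) (nat_lit 5) (nat_lit 112) (nat_lit 5) (nat_lit 123) (nat_lit 5) (nat_lit 412) (nat_lit 407) (nat_lit 201)) (XT.lf (nat_lit 0) (nat_lit 44736434785) (nat_lit 760) (nat_lit 53179764830) (nat_lit 836) (nat_lit 26410302312) (nat_lit 113) (nat_lit 5) (nat_lit 123) (nat_lit 5) (nat_lit 124) (nat_lit 5) (nat_lit 413) (nat_lit 407) (nat_lit 200)))) (XT.nd (nat_lit 78) (nat_lit 0) (nat_lit 76) (XT.lf (nat_lit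 76) (nat_lit 9505575077) (nat_lit 0) (nat_lit 42464242301) (nat_lit 836) (nat_lit 75618944530) (nat_lit 114) (nat_lit 5) (nat_lit 113) (nat_lit 5) (nat_lit 124) (nat_lit 5) (nat_lit 414) (nat_lit 407) (nat_lit 199)) (XT.nd (nat_lit 78) (nat_lit 0) (nat_lit 0) (XT.lf (nat_lit 0) (nat_lit 60726050249) (nat_lit 760) (nat_lit 54058689974) (nat_lit 836) (nat_lit 16171335794) (nat_lit 114) (nat_lit 5) (nat_lit 124) (nat_lit 5) (nat_lit 125) (nat_lit 5) (nat_lit 415) (nat_lit 407) (nat_lit 198)) (XT.lf (nat_lit 76) (nat_lit 12883021684) (nat_lit 0) (nat_lit 57934090271) (nat_lit 836) (nat_lit 63629793195) (nat_lit 115) (nat_lit 5) (nat_lit 114) (nat_lit 5) (nat_lit 125) (nat_lit 5) (nat_lit 416) (nat_lit 407) (nat_lit 197)))))) (XT.nd (nat_lit 468) (nat_lit 1216) (nat_lit 0) (XT.nd (nat_lit 234) (nat_lit 760) (nat_lit 0) (XT.nd (nat_lit 78) (nat_lit 760) (nat_lit 0) (XT.lf (nat_lit 0) (nat_lit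 82370461200) (nat_lit 760) (nat_lit 53060580283) (nat_lit 76) (nat_lit 2633347706) (nat_lit 115) (nat_lit 5) (nat_lit 125) (nat_lit 5) (nat_lit 116) (nat_lit 5) (nat_lit 417) (nat_lit 407) (nat_lit 196)) (XT.nd (nat_lit 78) (nat_lit 0) (nat_lit 0) (XT.lf (nat_lit 0) (nat_lit 18510385478) (nat_lit 760) (nat_lit 77229594089) (nat_lit 836) (nat_lit 46060842940) (nat_lit 105) (nat_lit 5) (nat_lit 115) (nat_lit 5) (nat_lit 116) (nat_lit 5) (nat_lit 418) (nat_lit 407) (nat_lit 195)) (XT.lf (nat_lit 0) (nat_lit 95501835138) (nat_lit 760) (nat_lit 15174516818) (nat_lit 836) (nat_lit 35002806786) (nat_lit 105) (nat_lit 5) (nat_lit 115) (nat_lit 5) (nat_lit 116) (nat_lit 5) (nat_lit 419) (nat_lit 407) (nat_lit 194)))) (XT.nd (nat_lit 78) (nat_lit 380) (nat_lit 0) (XT.lf (nat_lit 0) (nat_lit 26664280002) (nat_lit 380) (nat_lit 100891729401) (nat_lit 456) (nat_lit 22135579210) (nat_lit 100) (nat_lit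 5) (nat_lit 105) (nat_lit 5) (nat_lit 106) (nat_lit 5) (nat_lit 420) (nat_lit 407) (nat_lit 193)) (XT.nd (nat_lit 78) (nat_lit 380) (nat_lit 0) (XT.lf (nat_lit 0) (nat_lit 108832813397) (nat_lit 380) (nat_lit 37541153671) (nat_lit 456) (nat_lit 7475957183) (nat_lit 100) (nat_lit 5) (nat_lit 105) (nat_lit 5) (nat_lit 106) (nat_lit 5) (nat_lit 421) (nat_lit 407) (nat_lit 192)) (XT.lf (nat_lit 0) (nat_lit 8720281405) (nat_lit 380) (nat_lit 120658945709) (nat_lit 76) (nat_lit 28777918752) (nat_lit 95) (nat_lit 5) (nat_lit 100) (nat_lit 5) (nat_lit 96) (nat_lit 5) (nat_lit 422) (nat_lit 407) (nat_lit 191))))) (XT.nd (nat_lit 234) (nat_lit 836) (nat_lit 0) (XT.nd (nat_lit 78) (nat_lit 380) (nat_lit 0) (XT.lf (nat_lit 0) (nat_lit 26865207134) (nat_lit 380) (nat_lit 37690133325) (nat_lit 76) (nat_lit 98048754573) (nat_lit 95) (nat_lit 5) (nat_lit 100) (nat_lit 5) (nat_lit 96) (nat_lit 5) (nat_lit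 423) (nat_lit 407) (nat_lit 190)) (XT.nd (nat_lit 78) (nat_lit 0) (nat_lit 0) (XT.lf (nat_lit 0) (nat_lit 46782265558) (nat_lit 456) (nat_lit 116240209249) (nat_lit 76) (nat_lit 4207672643) (nat_lit 90) (nat_lit 5) (nat_lit 96) (nat_lit 5) (nat_lit 91) (nat_lit 5) (nat_lit 424) (nat_lit 407) (nat_lit 189)) (XT.lf (nat_lit 0) (nat_lit 69402043736) (nat_lit 456) (nat_lit 27712011493) (nat_lit 76) (nat_lit 74888104028) (nat_lit 90) (nat_lit 5) (nat_lit 96) (nat_lit 5) (nat_lit 91) (nat_lit 5) (nat_lit 425) (nat_lit 407) (nat_lit 188)))) (XT.nd (nat_lit 156) (nat_lit 532) (nat_lit 0) (XT.nd (nat_lit 78) (nat_lit 0) (nat_lit 0) (XT.lf (nat_lit 0) (nat_lit 67399608890) (nat_lit 304) (nat_lit 26805325356) (nat_lit 380) (nat_lit 82755231341) (nat_lit 86) (nat_lit 5) (nat_lit 90) (nat_lit 5) (nat_lit 91) (nat_lit 5) (nat_lit 426) (nat_lit 407) (nat_lit 187)) (XT.lf (nat_lit 0) (nat_lit 121458906704)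 (nat_lit 380) (nat_lit 14655687883) (nat_lit 76) (nat_lit 45990930874) (nat_lit 86) (nat_lit 5) (nat_lit 91) (nat_lit 5) (nat_lit 87) (nat_lit 5) (nat_lit 427) (nat_lit 407) (nat_lit 186))) (XT.nd (nat_lit 78) (nat_lit 228) (nat_lit 0) (XT.lf (nat_lit 0) (nat_lit 87350565334) (nat_lit 304) (nat_lit 64528070672) (nat_lit 380) (nat_lit 35539364509) (nat_lit 82) (nat_lit 5) (nat_lit 86) (nat_lit 5) (nat_lit 87) (nat_lit 5) (nat_lit 428) (nat_lit 407) (nat_lit 185)) (XT.lf (nat_lit 0) (nat_lit 1871814295) (nat_lit 228) (nat_lit 182394961069) (nat_lit 304) (nat_lit 8706952867) (nat_lit 79) (nat_lit 5) (nat_lit 82) (nat_lit 5) (nat_lit 83) (nat_lit 5) (nat_lit 429) (nat_lit 407) (nat_lit 184))))))) (XT.nd (nat_lit 1014) (nat_lit 1216) (nat_lit 0) (XT.nd (nat_lit 468) (nat_lit 988) (nat_lit 0) (XT.nd (nat_lit 234) (nat_lit 456) (nat_lit 0) (XT.nd (nat_lit 78) (nat_lit 304) (nat_lit 0) (XT.lf (nat_lit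 0) (nat_lit 21624166315) (nat_lit 304) (nat_lit 87730118283) (nat_lit 76) (nat_lit 89298753281) (nat_lit 78) (nat_lit 5) (nat_lit 82) (nat_lit 5) (nat_lit 79) (nat_lit 5) (nat_lit 430) (nat_lit 407) (nat_lit 183)) (XT.nd (nat_lit 78) (nat_lit 0) (nat_lit 0) (XT.lf (nat_lit 0) (nat_lit 21350697884) (nat_lit 304) (nat_lit 32161730046) (nat_lit 380) (nat_lit 151080088449) (nat_lit 74) (nat_lit 5) (nat_lit 78) (nat_lit 5) (nat_lit 79) (nat_lit 5) (nat_lit 431) (nat_lit 407) (nat_lit 182)) (XT.lf (nat_lit 0) (nat_lit 89268384610) (nat_lit 380) (nat_lit 72611199844) (nat_lit 76) (nat_lit 48835720327) (nat_lit 74) (nat_lit 5) (nat_lit 79) (nat_lit 5) (nat_lit 75) (nat_lit 5) (nat_lit 432) (nat_lit 407) (nat_lit 181)))) (XT.nd (nat_lit 78) (nat_lit 228) (nat_lit 0) (XT.lf (nat_lit 0) (nat_lit 44446077910) (nat_lit 228) (nat_lit 83587093777) (nat_lit 304) (nat_lit 89050009359) (nat_lit 71) (nat_lit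 5) (nat_lit 74) (nat_lit 5) (nat_lit 75) (nat_lit 5) (nat_lit 433) (nat_lit 407) (nat_lit 180)) (XT.nd (nat_lit 78) (nat_lit 228) (nat_lit 0) (XT.lf (nat_lit 0) (nat_lit 169876936975) (nat_lit 228) (nat_lit 88833908) (nat_lit 304) (nat_lit 53742201669) (nat_lit 71) (nat_lit 5) (nat_lit 74) (nat_lit 5) (nat_lit 75) (nat_lit 5) (nat_lit 434) (nat_lit 407) (nat_lit 179)) (XT.lf (nat_lit 0) (nat_lit 71847283500) (nat_lit 228) (nat_lit 144636763578) (nat_lit 304) (nat_lit 14055504269) (nat_lit 68) (nat_lit 5) (nat_lit 71) (nat_lit 5) (nat_lit 72) (nat_lit 5) (nat_lit 435) (nat_lit 407) (nat_lit 178))))) (XT.nd (nat_lit 234) (nat_lit 684) (nat_lit 0) (XT.nd (nat_lit 78) (nat_lit 228) (nat_lit 0) (XT.lf (nat_lit 0) (nat_lit 27659588595) (nat_lit 304) (nat_lit 32436451069) (nat_lit 76) (nat_lit 177548715187) (nat_lit 67) (nat_lit 5) (nat_lit 71) (nat_lit 5) (nat_lit 68) (nat_lit 5) (nat_lit 436)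 (nat_lit 407) (nat_lit 177)) (XT.nd (nat_lit 78) (nat_lit 0) (nat_lit 0) (XT.lf (nat_lit 0) (nat_lit 73077111986) (nat_lit 304) (nat_lit 142286209462) (nat_lit 76) (nat_lit 29625924585) (nat_lit 64) (nat_lit 5) (nat_lit 68) (nat_lit 5) (nat_lit 65) (nat_lit 5) (nat_lit 437) (nat_lit 407) (nat_lit 176)) (XT.lf (nat_lit 0) (nat_lit 122308907091) (nat_lit 304) (nat_lit 7942234762) (nat_lit 76) (nat_lit 122372650196) (nat_lit 64) (nat_lit 5) (nat_lit 68) (nat_lit 5) (nat_lit 65) (nat_lit 5) (nat_lit 438) (nat_lit 407) (nat_lit 175)))) (XT.nd (nat_lit 156) (nat_lit 304) (nat_lit 0) (XT.nd (nat_lit 78) (nat_lit 152) (nat_lit 0) (XT.lf (nat_lit 0) (nat_lit 137520282807) (nat_lit 228) (nat_lit 38628973978) (nat_lit 304) (nat_lit 84383460389) (nat_lit 61) (nat_lit 5) (nat_lit 64) (nat_lit 5) (nat_lit 65) (nat_lit 5) (nat_lit 439) (nat_lit 407) (nat_lit 174)) (XT.lf (nat_lit 0) (nat_lit 21487775411)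 (nat_lit 152) (nat_lit 212564829595) (nat_lit 228) (nat_lit 34715934545) (nat_lit 59) (nat_lit 5) (nat_lit 61) (nat_lit 5) (nat_lit 62) (nat_lit 5) (nat_lit 440) (nat_lit 407) (nat_lit 173))) (XT.nd (nat_lit 78) (nat_lit 228) (nat_lit 0) (XT.lf (nat_lit 0) (nat_lit 19627519493) (nat_lit 228) (nat_lit 100768069080) (nat_lit 76) (nat_lit 156869425094) (nat_lit 58) (nat_lit 5) (nat_lit 61) (nat_lit 5) (nat_lit 59) (nat_lit 5) (nat_lit 441) (nat_lit 407) (nat_lit 172)) (XT.lf (nat_lit 0) (nat_lit 54236907971) (nat_lit 228) (nat_lit 22131241284) (nat_lit 304) (nat_lit 209747372289) (nat_lit 55) (nat_lit 5) (nat_lit 58) (nat_lit 5) (nat_lit 59) (nat_lit 5) (nat_lit 442) (nat_lit 407) (nat_lit 171)))))) (XT.nd (nat_lit 468) (nat_lit 684) (nat_lit 0) (XT.nd (nat_lit 234) (nat_lit 380) (nat_lit 0) (XT.nd (nat_lit 78) (nat_lit 152) (nat_lit 0) (XT.lf (nat_lit 0) (nat_lit 138945600677) (nat_lit 304)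 (nat_lit 76126150440) (nat_lit 76) (nat_lit 80186814227) (nat_lit 55) (nat_lit 5) (nat_lit 59) (nat_lit 5) (nat_lit 56) (nat_lit 5) (nat_lit 443) (nat_lit 407) (nat_lit 170)) (XT.nd (nat_lit 78) (nat_lit 0) (nat_lit 0) (XT.lf (nat_lit 0) (nat_lit 89929274100) (nat_lit 152) (nat_lit 116489408272) (nat_lit 228) (nat_lit 98351741116) (nat_lit 53) (nat_lit 5) (nat_lit 55) (nat_lit 5) (nat_lit 56) (nat_lit 5) (nat_lit 444) (nat_lit 407) (nat_lit 169)) (XT.lf (nat_lit 0) (nat_lit 266930247473) (nat_lit 152) (nat_lit 11624308639) (nat_lit 228) (nat_lit 36138861564) (nat_lit 53) (nat_lit 5) (nat_lit 55) (nat_lit 5) (nat_lit 56) (nat_lit 5) (nat_lit 445) (nat_lit 407) (nat_lit 168)))) (XT.nd (nat_lit 78) (nat_lit 152) (nat_lit 0) (XT.lf (nat_lit 0) (nat_lit 31881016655) (nat_lit 228) (nat_lit 195146769272) (nat_lit 76) (nat_lit 97880470654) (nat_lit 50) (nat_lit 5) (nat_lit 53) (nat_lit 5) (nat_lit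 51) (nat_lit 5) (nat_lit 446) (nat_lit 407) (nat_lit 167)) (XT.nd (nat_lit 78) (nat_lit 152) (nat_lit 0) (XT.lf (nat_lit 0) (nat_lit 103100010513) (nat_lit 228) (nat_lit 18569196706) (nat_lit 76) (nat_lit 213884377004) (nat_lit 50) (nat_lit 5) (nat_lit 53) (nat_lit 5) (nat_lit 51) (nat_lit 5) (nat_lit 447) (nat_lit 407) (nat_lit 166)) (XT.lf (nat_lit 0) (nat_lit 172353502272) (nat_lit 152) (nat_lit 8217286394) (nat_lit 228) (nat_lit 166025847879) (nat_lit 48) (nat_lit 5) (nat_lit 50) (nat_lit 5) (nat_lit 51) (nat_lit 5) (nat_lit 448) (nat_lit 407) (nat_lit 165))))) (XT.nd (nat_lit 234) (nat_lit 304) (nat_lit 0) (XT.nd (nat_lit 78) (nat_lit 228) (nat_lit 0) (XT.lf (nat_lit 0) (nat_lit 14002186757) (nat_lit 152) (nat_lit 250182653282) (nat_lit 228) (nat_lit 93893514757) (nat_lit 46) (nat_lit 5) (nat_lit 48) (nat_lit 5) (nat_lit 49) (nat_lit 5) (nat_lit 449) (nat_lit 407) (nat_lit 164)) (XT.nd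 (nat_lit 78) (nat_lit 228) (nat_lit 0) (XT.lf (nat_lit 0) (nat_lit 217569798769) (nat_lit 152) (nat_lit 137493140308) (nat_lit 228) (nat_lit 14917052655) (nat_lit 46) (nat_lit 5) (nat_lit 48) (nat_lit 5) (nat_lit 49) (nat_lit 5) (nat_lit 450) (nat_lit 407) (nat_lit 163)) (XT.lf (nat_lit 0) (nat_lit 49356874407) (nat_lit 152) (nat_lit 17245188192) (nat_lit 228) (nat_lit 315783032072) (nat_lit 43) (nat_lit 5) (nat_lit 45) (nat_lit 5) (nat_lit 46) (nat_lit 5) (nat_lit 451) (nat_lit 407) (nat_lit 162)))) (XT.nd (nat_lit 156) (nat_lit 152) (nat_lit 0) (XT.nd (nat_lit 78) (nat_lit 152) (nat_lit 0) (XT.lf (nat_lit 0) (nat_lit 156021229162) (nat_lit 228) (nat_lit 130766787180) (nat_lit 76) (nat_lit 108393939032) (nat_lit 43) (nat_lit 5) (nat_lit 46) (nat_lit 5) (nat_lit 44) (nat_lit 5) (nat_lit 452) (nat_lit 407) (nat_lit 161)) (XT.lf (nat_lit 0) (nat_lit 84013847323) (nat_lit 152) (nat_lit 167491830148)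 (nat_lit 228) (nat_lit 157033265490) (nat_lit 41) (nat_lit 5) (nat_lit 43) (nat_lit 5) (nat_lit 44) (nat_lit 5) (nat_lit 453) (nat_lit 407) (nat_lit 160))) (XT.nd (nat_lit 78) (nat_lit 152) (nat_lit 0) (XT.lf (nat_lit 0) (nat_lit 314073313199) (nat_lit 152) (nat_lit 39905559256) (nat_lit 228) (nat_lit 68474181283) (nat_lit 41) (nat_lit 5) (nat_lit 43) (nat_lit 5) (nat_lit 44) (nat_lit 5) (nat_lit 454) (nat_lit 407) (nat_lit 159)) (XT.lf (nat_lit 0) (nat_lit 27140575919) (nat_lit 152) (nat_lit 316356547587) (nat_lit 76) (nat_lit 93375996679) (nat_lit 39) (nat_lit 5) (nat_lit 41) (nat_lit 5) (nat_lit 40) (nat_lit 5) (nat_lit 455) (nat_lit 407) (nat_lit 158))))))))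
noncomputable def xc231 : XT := (XT.nd (nat_lit 50388) (nat_lit 0) (nat_lit 1900) (XT.nd (nat_lit 49374) (nat_lit 0) (nat_lit 5852) (XT.nd (nat_lit 468) (nat_lit 380) (nat_lit 0) (XT.nd (nat_lit 234) (nat_lit 304) (nat_lit 0) (XT.nd (nat_lit 78) (nat_lit 152) (nat_lit 0) (XT.lf (nat_lit 0) (nat_lit 127754560420) (nat_lit 152) (nat_lit 89108947134) (nat_lit 76) (nat_lit 234968572494) (nat_lit 39) (nat_lit 5) (nat_lit 41) (nat_lit 5) (nat_lit 40) (nat_lit 5) (nat_lit 456) (nat_lit 407) (nat_lit 157)) (XT.nd (nat_lit 78) (nat_lit 0) (nat_lit 0) (XT.lf (nat_lit 0) (nat_lit 154444089702) (nat_lit 152) (nat_lit 81366391450) (nat_lit 228) (nat_lit 231607944921) (nat_lit 37) (nat_lit 5) (nat_lit 39) (nat_lit 5) (nat_lit 40) (nat_lit 5) (nat_lit 457) (nat_lit 407) (nat_lit 156)) (XT.lf (nat_lit 0) (nat_lit 351753879814) (nat_lit 228) (nat_lit 71415960294) (nat_lit 76) (nat_lit 60490015211) (nat_lit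 37) (nat_lit 5) (nat_lit 40) (nat_lit 5) (nat_lit 38) (nat_lit 4) (nat_lit 458) (nat_lit 407) (nat_lit 155)))) (XT.nd (nat_lit 78) (nat_lit 228) (nat_lit 0) (XT.lf (nat_lit 0) (nat_lit 186867264826) (nat_lit 76) (nat_lit 290878516323) (nat_lit 152) (nat_lit 22755008257) (nat_lit 36) (nat_lit 5) (nat_lit 37) (nat_lit 5) (nat_lit 38) (nat_lit 4) (nat_lit 459) (nat_lit 407) (nat_lit 154)) (XT.nd (nat_lit 78) (nat_lit 152) (nat_lit 0) (XT.lf (nat_lit 0) (nat_lit 90142848636) (nat_lit 152) (nat_lit 59033277132) (nat_lit 76) (nat_lit 368874478553) (nat_lit 35) (nat_lit 5) (nat_lit 37) (nat_lit 5) (nat_lit 36) (nat_lit 5) (nat_lit 460) (nat_lit 407) (nat_lit 153)) (XT.lf (nat_lit 0) (nat_lit 211329454687) (nat_lit 228) (nat_lit 321547863127) (nat_lit 76) (nat_lit 3411511845) (nat_lit 33) (nat_lit 5) (nat_lit 36) (nat_lit 5) (nat_lit 34) (nat_lit 4) (nat_lit 461) (nat_lit 407) (nat_lit 152)))))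 (XT.nd (nat_lit 234) (nat_lit 228) (nat_lit 0) (XT.nd (nat_lit 78) (nat_lit 152) (nat_lit 0) (XT.lf (nat_lit 0) (nat_lit 342036987443) (nat_lit 228) (nat_lit 53597562991) (nat_lit 76) (nat_lit 159631336023) (nat_lit 33) (nat_lit 5) (nat_lit 36) (nat_lit 5) (nat_lit 34) (nat_lit 4) (nat_lit 462) (nat_lit 407) (nat_lit 151)) (XT.nd (nat_lit 78) (nat_lit 76) (nat_lit 0) (XT.lf (nat_lit 0) (nat_lit 235280596476) (nat_lit 76) (nat_lit 247672632292) (nat_lit 152) (nat_lit 92054900741) (nat_lit 32) (nat_lit 5) (nat_lit 33) (nat_lit 5) (nat_lit 34) (nat_lit 4) (nat_lit 463) (nat_lit 407) (nat_lit 150)) (XT.lf (nat_lit 0) (nat_lit 34974411892) (nat_lit 152) (nat_lit 55792858094) (nat_lit 76) (nat_lit 504896627356) (nat_lit 31) (nat_lit 5) (nat_lit 33) (nat_lit 5) (nat_lit 32) (nat_lit 5) (nat_lit 464) (nat_lit 407) (nat_lit 149)))) (XT.nd (nat_lit 78) (nat_lit 76) (nat_lit 0) (XT.lf (nat_lit 0) (nat_lit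 170389335629) (nat_lit 228) (nat_lit 369534027659) (nat_lit 76) (nat_lit 77097245764) (nat_lit 29) (nat_lit 5) (nat_lit 32) (nat_lit 5) (nat_lit 30) (nat_lit 4) (nat_lit 465) (nat_lit 407) (nat_lit 148)) (XT.nd (nat_lit 78) (nat_lit 76) (nat_lit 0) (XT.lf (nat_lit 0) (nat_lit 315023308222) (nat_lit 228) (nat_lit 73034495115) (nat_lit 76) (nat_lit 251264937888) (nat_lit 29) (nat_lit 5) (nat_lit 32) (nat_lit 5) (nat_lit 30) (nat_lit 4) (nat_lit 466) (nat_lit 407) (nat_lit 147)) (XT.lf (nat_lit 0) (nat_lit 246168859906) (nat_lit 76) (nat_lit 224563453678) (nat_lit 152) (nat_lit 191815499724) (nat_lit 28) (nat_lit 5) (nat_lit 29) (nat_lit 5) (nat_lit 30) (nat_lit 4) (nat_lit 467) (nat_lit 407) (nat_lit 146)))))) (XT.nd (nat_lit 468) (nat_lit 380) (nat_lit 0) (XT.nd (nat_lit 234) (nat_lit 0) (nat_lit 76) (XT.nd (nat_lit 78) (nat_lit 0) (nat_lit 0) (XT.lf (nat_lit 0) (nat_lit 12665845078) (nat_lit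 836) (nat_lit 21744891494) (nat_lit 836) (nat_lit 21744891494) (nat_lit 110) (nat_lit 3) (nat_lit 121) (nat_lit 3) (nat_lit 121) (nat_lit 5) (nat_lit 408) (nat_lit 408) (nat_lit 204)) (XT.nd (nat_lit 78) (nat_lit 0) (nat_lit 76) (XT.lf (nat_lit 76) (nat_lit 10974817687) (nat_lit 0) (nat_lit 15166559046) (nat_lit 836) (nat_lit 88968837522) (nat_lit 111) (nat_lit 5) (nat_lit 110) (nat_lit 3) (nat_lit 121) (nat_lit 5) (nat_lit 409) (nat_lit 408) (nat_lit 203)) (XT.lf (nat_lit 0) (nat_lit 28382615092) (nat_lit 760) (nat_lit 48994843364) (nat_lit 836) (nat_lit 40602108684) (nat_lit 111) (nat_lit 5) (nat_lit 121) (nat_lit 5) (nat_lit 122) (nat_lit 5) (nat_lit 410) (nat_lit 408) (nat_lit 202)))) (XT.nd (nat_lit 78) (nat_lit 0) (nat_lit 76) (XT.lf (nat_lit 76) (nat_lit 8940058130) (nat_lit 0) (nat_lit 22183760680) (nat_lit 836) (nat_lit 89849173906) (nat_lit 112) (nat_lit 5) (nat_lit 111) (nat_lit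 5) (nat_lit 122) (nat_lit 5) (nat_lit 411) (nat_lit 408) (nat_lit 201)) (XT.nd (nat_lit 78) (nat_lit 0) (nat_lit 0) (XT.lf (nat_lit 0) (nat_lit 35403606194) (nat_lit 760) (nat_lit 53174172261) (nat_lit 836) (nat_lit 35468235146) (nat_lit 112) (nat_lit 5) (nat_lit 122) (nat_lit 5) (nat_lit 123) (nat_lit 5) (nat_lit 412) (nat_lit 408) (nat_lit 200)) (XT.lf (nat_lit 76) (nat_lit 8536904944) (nat_lit 0) (nat_lit 31857150817) (nat_lit 836) (nat_lit 86853796328) (nat_lit 113) (nat_lit 5) (nat_lit 112) (nat_lit 5) (nat_lit 123) (nat_lit 5) (nat_lit 413) (nat_lit 408) (nat_lit 199))))) (XT.nd (nat_lit 234) (nat_lit 608) (nat_lit 0) (XT.nd (nat_lit 78) (nat_lit 0) (nat_lit 0) (XT.lf (nat_lit 0) (nat_lit 46981519234) (nat_lit 760) (nat_lit 55832563764) (nat_lit 836) (nat_lit 27728325118) (nat_lit 113) (nat_lit 5) (nat_lit 123) (nat_lit 5) (nat_lit 124) (nat_lit 5) (nat_lit 414) (nat_lit 408) (nat_lit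 198)) (XT.nd (nat_lit 78) (nat_lit 0) (nat_lit 76) (XT.lf (nat_lit 76) (nat_lit 9986943310) (nat_lit 0) (nat_lit 44589329257) (nat_lit 836) (nat_lit 79391523722) (nat_lit 114) (nat_lit 5) (nat_lit 113) (nat_lit 5) (nat_lit 124) (nat_lit 5) (nat_lit 415) (nat_lit 408) (nat_lit 197)) (XT.lf (nat_lit 0) (nat_lit 63769909951) (nat_lit 760) (nat_lit 56755412602) (nat_lit 836) (nat_lit 16978174169) (nat_lit 114) (nat_lit 5) (nat_lit 124) (nat_lit 5) (nat_lit 125) (nat_lit 5) (nat_lit 416) (nat_lit 408) (nat_lit 196)))) (XT.nd (nat_lit 156) (nat_lit 684) (nat_lit 0) (XT.nd (nat_lit 78) (nat_lit 0) (nat_lit 76) (XT.lf (nat_lit 76) (nat_lit 13533284448) (nat_lit 0) (nat_lit 60831975850) (nat_lit 836) (nat_lit 66803620487) (nat_lit 115) (nat_lit 5) (nat_lit 114) (nat_lit 5) (nat_lit 125) (nat_lit 5) (nat_lit 417) (nat_lit 408) (nat_lit 195)) (XT.lf (nat_lit 0) (nat_lit 86495912169) (nat_lit 760) (nat_lit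 55707419066) (nat_lit 76) (nat_lit 2763926269) (nat_lit 115) (nat_lit 5) (nat_lit 125) (nat_lit 5) (nat_lit 116) (nat_lit 5) (nat_lit 418) (nat_lit 408) (nat_lit 194))) (XT.nd (nat_lit 78) (nat_lit 0) (nat_lit 0) (XT.lf (nat_lit 0) (nat_lit 19441995140) (nat_lit 760) (nat_lit 81091676502) (nat_lit 836) (nat_lit 48356852813) (nat_lit 105) (nat_lit 5) (nat_lit 115) (nat_lit 5) (nat_lit 116) (nat_lit 5) (nat_lit 419) (nat_lit 408) (nat_lit 193)) (XT.lf (nat_lit 0) (nat_lit 100282727265) (nat_lit 760) (nat_lit 15933816667) (nat_lit 836) (nat_lit 36746249722) (nat_lit 105) (nat_lit 5) (nat_lit 115) (nat_lit 5) (nat_lit 116) (nat_lit 5) (nat_lit 420) (nat_lit 408) (nat_lit 192))))))) (XT.nd (nat_lit 1014) (nat_lit 1596) (nat_lit 0) (XT.nd (nat_lit 468) (nat_lit 1216) (nat_lit 0) (XT.nd (nat_lit 234) (nat_lit 380) (nat_lit 0) (XT.nd (nat_lit 78) (nat_lit 380) (nat_lit 0) (XT.lf (nat_lit 0) (nat_lit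 28003527451) (nat_lit 380) (nat_lit 105936438922) (nat_lit 456) (nat_lit 23235889744) (nat_lit 100) (nat_lit 5) (nat_lit 105) (nat_lit 5) (nat_lit 106) (nat_lit 5) (nat_lit 421) (nat_lit 408) (nat_lit 191)) (XT.nd (nat_lit 78) (nat_lit 380) (nat_lit 0) (XT.lf (nat_lit 0) (nat_lit 114280200209) (nat_lit 380) (nat_lit 39418328546) (nat_lit 456) (nat_lit 7843594635) (nat_lit 100) (nat_lit 5) (nat_lit 105) (nat_lit 5) (nat_lit 106) (nat_lit 5) (nat_lit 422) (nat_lit 408) (nat_lit 190)) (XT.lf (nat_lit 0) (nat_lit 9162067356) (nat_lit 380) (nat_lit 126685751063) (nat_lit 76) (nat_lit 30216892604) (nat_lit 95) (nat_lit 5) (nat_lit 100) (nat_lit 5) (nat_lit 96) (nat_lit 5) (nat_lit 423) (nat_lit 408) (nat_lit 189)))) (XT.nd (nat_lit 78) (nat_lit 380) (nat_lit 0) (XT.lf (nat_lit 0) (nat_lit 28213964520) (nat_lit 380) (nat_lit 39568790532) (nat_lit 76) (nat_lit 102951266506) (nat_lit 95) (nat_lit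 5) (nat_lit 100) (nat_lit 5) (nat_lit 96) (nat_lit 5) (nat_lit 424) (nat_lit 408) (nat_lit 188)) (XT.nd (nat_lit 78) (nat_lit 0) (nat_lit 0) (XT.lf (nat_lit 0) (nat_lit 49126710668) (nat_lit 456) (nat_lit 122046201842) (nat_lit 76) (nat_lit 4418472507) (nat_lit 90) (nat_lit 5) (nat_lit 96) (nat_lit 5) (nat_lit 91) (nat_lit 5) (nat_lit 425) (nat_lit 408) (nat_lit 187)) (XT.lf (nat_lit 0) (nat_lit 72877223858) (nat_lit 456) (nat_lit 29091880763) (nat_lit 76) (nat_lit 78632905641) (nat_lit 90) (nat_lit 5) (nat_lit 96) (nat_lit 5) (nat_lit 91) (nat_lit 5) (nat_lit 426) (nat_lit 408) (nat_lit 186))))) (XT.nd (nat_lit 234) (nat_lit 608) (nat_lit 0) (XT.nd (nat_lit 78) (nat_lit 304) (nat_lit 0) (XT.lf (nat_lit 0) (nat_lit 70775228199) (nat_lit 304) (nat_lit 28144876927) (nat_lit 380) (nat_lit 86887819617) (nat_lit 86) (nat_lit 5) (nat_lit 90) (nat_lit 5) (nat_lit 91) (nat_lit 5) (nat_lit 427) (nat_lit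 408) (nat_lit 185)) (XT.nd (nat_lit 78) (nat_lit 304) (nat_lit 0) (XT.lf (nat_lit 0) (nat_lit 127536552350) (nat_lit 380) (nat_lit 15382875297) (nat_lit 76) (nat_lit 48291136296) (nat_lit 86) (nat_lit 5) (nat_lit 91) (nat_lit 5) (nat_lit 87) (nat_lit 5) (nat_lit 428) (nat_lit 408) (nat_lit 184)) (XT.lf (nat_lit 0) (nat_lit 91723600308) (nat_lit 304) (nat_lit 67753529961) (nat_lit 380) (nat_lit 37311539505) (nat_lit 82) (nat_lit 5) (nat_lit 86) (nat_lit 5) (nat_lit 87) (nat_lit 5) (nat_lit 429) (nat_lit 408) (nat_lit 183)))) (XT.nd (nat_lit 156) (nat_lit 304) (nat_lit 0) (XT.nd (nat_lit 78) (nat_lit 76) (nat_lit 0) (XT.lf (nat_lit 0) (nat_lit 1971035439) (nat_lit 228) (nat_lit 191513525842) (nat_lit 304) (nat_lit 9137628486) (nat_lit 79) (nat_lit 5) (nat_lit 82) (nat_lit 5) (nat_lit 83) (nat_lit 5) (nat_lit 430) (nat_lit 408) (nat_lit 182)) (XT.lf (nat_lit 0) (nat_lit 22709681764) (nat_lit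 304) (nat_lit 92111117185) (nat_lit 76) (nat_lit 93764673182) (nat_lit 78) (nat_lit 5) (nat_lit 82) (nat_lit 5) (nat_lit 79) (nat_lit 5) (nat_lit 431) (nat_lit 408) (nat_lit 181))) (XT.nd (nat_lit 78) (nat_lit 0) (nat_lit 0) (XT.lf (nat_lit 0) (nat_lit 22423650967) (nat_lit 304) (nat_lit 33768584985) (nat_lit 380) (nat_lit 158629694740) (nat_lit 74) (nat_lit 5) (nat_lit 78) (nat_lit 5) (nat_lit 79) (nat_lit 5) (nat_lit 432) (nat_lit 408) (nat_lit 180)) (XT.lf (nat_lit 0) (nat_lit 93735809416) (nat_lit 380) (nat_lit 76236416534) (nat_lit 76) (nat_lit 51278641720) (nat_lit 74) (nat_lit 5) (nat_lit 79) (nat_lit 5) (nat_lit 75) (nat_lit 5) (nat_lit 433) (nat_lit 408) (nat_lit 179)))))) (XT.nd (nat_lit 468) (nat_lit 836) (nat_lit 0) (XT.nd (nat_lit 234) (nat_lit 304) (nat_lit 0) (XT.nd (nat_lit 78) (nat_lit 228) (nat_lit 0) (XT.lf (nat_lit 0) (nat_lit 46673638926) (nat_lit 228) (nat_lit 87765088257)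 (nat_lit 304) (nat_lit 93498416096) (nat_lit 71) (nat_lit 5) (nat_lit 74) (nat_lit 5) (nat_lit 75) (nat_lit 5) (nat_lit 434) (nat_lit 408) (nat_lit 178)) (XT.nd (nat_lit 78) (nat_lit 228) (nat_lit 0) (XT.lf (nat_lit 0) (nat_lit 178375790605) (nat_lit 228) (nat_lit 91980167) (nat_lit 304) (nat_lit 56425412962) (nat_lit 71) (nat_lit 5) (nat_lit 74) (nat_lit 5) (nat_lit 75) (nat_lit 5) (nat_lit 435) (nat_lit 408) (nat_lit 177)) (XT.lf (nat_lit 0) (nat_lit 75444738225) (nat_lit 228) (nat_lit 151867144560) (nat_lit 304) (nat_lit 14754462671) (nat_lit 68) (nat_lit 5) (nat_lit 71) (nat_lit 5) (nat_lit 72) (nat_lit 5) (nat_lit 436) (nat_lit 408) (nat_lit 176)))) (XT.nd (nat_lit 78) (nat_lit 228) (nat_lit 0) (XT.lf (nat_lit 0) (nat_lit 29046086739) (nat_lit 304) (nat_lit 34053307512) (nat_lit 76) (nat_lit 186427420785) (nat_lit 67) (nat_lit 5) (nat_lit 71) (nat_lit 5) (nat_lit 68) (nat_lit 5) (nat_lit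 437) (nat_lit 408) (nat_lit 175)) (XT.nd (nat_lit 78) (nat_lit 0) (nat_lit 0) (XT.lf (nat_lit 0) (nat_lit 76734417798) (nat_lit 304) (nat_lit 149395483777) (nat_lit 76) (nat_lit 31108632703) (nat_lit 64) (nat_lit 5) (nat_lit 68) (nat_lit 5) (nat_lit 65) (nat_lit 5) (nat_lit 438) (nat_lit 408) (nat_lit 174)) (XT.lf (nat_lit 0) (nat_lit 128427638362) (nat_lit 304) (nat_lit 8334550159) (nat_lit 76) (nat_lit 128492627362) (nat_lit 64) (nat_lit 5) (nat_lit 68) (nat_lit 5) (nat_lit 65) (nat_lit 5) (nat_lit 439) (nat_lit 408) (nat_lit 173))))) (XT.nd (nat_lit 234) (nat_lit 380) (nat_lit 0) (XT.nd (nat_lit 78) (nat_lit 228) (nat_lit 0) (XT.lf (nat_lit 0) (nat_lit 144401015928) (nat_lit 228) (nat_lit 40558906817) (nat_lit 304) (nat_lit 88599268729) (nat_lit 61) (nat_lit 5) (nat_lit 64) (nat_lit 5) (nat_lit 65) (nat_lit 5) (nat_lit 440) (nat_lit 408) (nat_lit 172)) (XT.nd (nat_lit 78) (nat_lit 76)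 (nat_lit 0) (XT.lf (nat_lit 0) (nat_lit 22566942717) (nat_lit 152) (nat_lit 223191440276) (nat_lit 228) (nat_lit 36448424812) (nat_lit 59) (nat_lit 5) (nat_lit 61) (nat_lit 5) (nat_lit 62) (nat_lit 5) (nat_lit 441) (nat_lit 408) (nat_lit 171)) (XT.lf (nat_lit 0) (nat_lit 20611943689) (nat_lit 228) (nat_lit 105801819549) (nat_lit 76) (nat_lit 164714347490) (nat_lit 58) (nat_lit 5) (nat_lit 61) (nat_lit 5) (nat_lit 59) (nat_lit 5) (nat_lit 442) (nat_lit 408) (nat_lit 170)))) (XT.nd (nat_lit 156) (nat_lit 152) (nat_lit 0) (XT.nd (nat_lit 78) (nat_lit 0) (nat_lit 0) (XT.lf (nat_lit 0) (nat_lit 56953331307) (nat_lit 228) (nat_lit 23236199953) (nat_lit 304) (nat_lit 220231616480) (nat_lit 55) (nat_lit 5) (nat_lit 58) (nat_lit 5) (nat_lit 59) (nat_lit 5) (nat_lit 443) (nat_lit 408) (nat_lit 169)) (XT.lf (nat_lit 0) (nat_lit 145895737450) (nat_lit 304) (nat_lit 79927979119) (nat_lit 76) (nat_lit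 84197633107) (nat_lit 55) (nat_lit 5) (nat_lit 59) (nat_lit 5) (nat_lit 56) (nat_lit 5) (nat_lit 444) (nat_lit 408) (nat_lit 168))) (XT.nd (nat_lit 78) (nat_lit 0) (nat_lit 0) (XT.lf (nat_lit 0) (nat_lit 94430144408) (nat_lit 152) (nat_lit 122312261586) (nat_lit 228) (nat_lit 103266398147) (nat_lit 53) (nat_lit 5) (nat_lit 55) (nat_lit 5) (nat_lit 56) (nat_lit 5) (nat_lit 445) (nat_lit 408) (nat_lit 167)) (XT.lf (nat_lit 0) (nat_lit 280280956612) (nat_lit 152) (nat_lit 12203983976) (nat_lit 228) (nat_lit 37943014142) (nat_lit 53) (nat_lit 5) (nat_lit 55) (nat_lit 5) (nat_lit 56) (nat_lit 5) (nat_lit 446) (nat_lit 408) (nat_lit 166))))))))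
noncomputable def xc232 : XT := (XT.nd (nat_lit 50466) (nat_lit 0) (nat_lit 2888) (XT.nd (nat_lit 936) (nat_lit 608) (nat_lit 0) (XT.nd (nat_lit 468) (nat_lit 456) (nat_lit 0) (XT.nd (nat_lit 234) (nat_lit 380) (nat_lit 0) (XT.nd (nat_lit 78) (nat_lit 152) (nat_lit 0) (XT.lf (nat_lit 0) (nat_lit 33477730560) (nat_lit 228) (nat_lit 204899781689) (nat_lit 76) (nat_lit 102776023104) (nat_lit 50) (nat_lit 5) (nat_lit 53) (nat_lit 5) (nat_lit 51) (nat_lit 5) (nat_lit 447) (nat_lit 408) (nat_lit 165)) (XT.nd (nat_lit 78) (nat_lit 152) (nat_lit 0) (XT.lf (nat_lit 0) (nat_lit 108257547297) (nat_lit 228) (nat_lit 19493536497) (nat_lit 76) (nat_lit 224580051966) (nat_lit 50) (nat_lit 5) (nat_lit 53) (nat_lit 5) (nat_lit 51) (nat_lit 5) (nat_lit 448) (nat_lit 408) (nat_lit 164)) (XT.lf (nat_lit 0) (nat_lit 180975230978) (nat_lit 152) (nat_lit 8626575894) (nat_lit 228) (nat_lit 174324536742) (nat_lit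 48) (nat_lit 5) (nat_lit 50) (nat_lit 5) (nat_lit 51) (nat_lit 5) (nat_lit 449) (nat_lit 408) (nat_lit 163)))) (XT.nd (nat_lit 78) (nat_lit 228) (nat_lit 0) (XT.lf (nat_lit 0) (nat_lit 14706382862) (nat_lit 152) (nat_lit 262690147137) (nat_lit 228) (nat_lit 98585619358) (nat_lit 46) (nat_lit 5) (nat_lit 48) (nat_lit 5) (nat_lit 49) (nat_lit 5) (nat_lit 450) (nat_lit 408) (nat_lit 162)) (XT.nd (nat_lit 78) (nat_lit 228) (nat_lit 0) (XT.lf (nat_lit 0) (nat_lit 228452180866) (nat_lit 152) (nat_lit 144366236553) (nat_lit 228) (nat_lit 15660456586) (nat_lit 46) (nat_lit 5) (nat_lit 48) (nat_lit 5) (nat_lit 49) (nat_lit 5) (nat_lit 451) (nat_lit 408) (nat_lit 161)) (XT.lf (nat_lit 0) (nat_lit 51828625316) (nat_lit 152) (nat_lit 18105858870) (nat_lit 228) (nat_lit 331569748621) (nat_lit 43) (nat_lit 5) (nat_lit 45) (nat_lit 5) (nat_lit 46) (nat_lit 5) (nat_lit 452) (nat_lit 408) (nat_lit 160)))))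 (XT.nd (nat_lit 234) (nat_lit 304) (nat_lit 0) (XT.nd (nat_lit 78) (nat_lit 152) (nat_lit 0) (XT.lf (nat_lit 0) (nat_lit 163824522298) (nat_lit 228) (nat_lit 137301317986) (nat_lit 76) (nat_lit 113815100633) (nat_lit 43) (nat_lit 5) (nat_lit 46) (nat_lit 5) (nat_lit 44) (nat_lit 5) (nat_lit 453) (nat_lit 408) (nat_lit 159)) (XT.nd (nat_lit 78) (nat_lit 0) (nat_lit 0) (XT.lf (nat_lit 0) (nat_lit 88218286815) (nat_lit 152) (nat_lit 175864858441) (nat_lit 228) (nat_lit 164882635047) (nat_lit 41) (nat_lit 5) (nat_lit 43) (nat_lit 5) (nat_lit 44) (nat_lit 5) (nat_lit 454) (nat_lit 408) (nat_lit 158)) (XT.lf (nat_lit 0) (nat_lit 329780547550) (nat_lit 152) (nat_lit 41899348442) (nat_lit 228) (nat_lit 71895705853) (nat_lit 41) (nat_lit 5) (nat_lit 43) (nat_lit 5) (nat_lit 44) (nat_lit 5) (nat_lit 455) (nat_lit 408) (nat_lit 157)))) (XT.nd (nat_lit 78) (nat_lit 152) (nat_lit 0) (XT.lf (nat_lit 0)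 (nat_lit 28499698084) (nat_lit 152) (nat_lit 332170714068) (nat_lit 76) (nat_lit 98046258846) (nat_lit 39) (nat_lit 5) (nat_lit 41) (nat_lit 5) (nat_lit 40) (nat_lit 5) (nat_lit 456) (nat_lit 408) (nat_lit 156)) (XT.nd (nat_lit 78) (nat_lit 152) (nat_lit 0) (XT.lf (nat_lit 0) (nat_lit 134144282126) (nat_lit 152) (nat_lit 93560907921) (nat_lit 76) (nat_lit 246718393817) (nat_lit 39) (nat_lit 5) (nat_lit 41) (nat_lit 5) (nat_lit 40) (nat_lit 5) (nat_lit 457) (nat_lit 408) (nat_lit 155)) (XT.lf (nat_lit 0) (nat_lit 162169724523) (nat_lit 152) (nat_lit 85433232991) (nat_lit 228) (nat_lit 243186291768) (nat_lit 37) (nat_lit 5) (nat_lit 39) (nat_lit 5) (nat_lit 40) (nat_lit 5) (nat_lit 458) (nat_lit 408) (nat_lit 154)))))) (XT.nd (nat_lit 468) (nat_lit 228) (nat_lit 0) (XT.nd (nat_lit 234) (nat_lit 228) (nat_lit 0) (XT.nd (nat_lit 78) (nat_lit 152) (nat_lit 0) (XT.lf (nat_lit 0) (nat_lit 369343455120)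 (nat_lit 228) (nat_lit 74983419877) (nat_lit 76) (nat_lit 63515878567) (nat_lit 37) (nat_lit 5) (nat_lit 40) (nat_lit 5) (nat_lit 38) (nat_lit 4) (nat_lit 459) (nat_lit 408) (nat_lit 153)) (XT.nd (nat_lit 78) (nat_lit 76) (nat_lit 0) (XT.lf (nat_lit 0) (nat_lit 196213912654) (nat_lit 76) (nat_lit 305421000563) (nat_lit 152) (nat_lit 23890823074) (nat_lit 36) (nat_lit 5) (nat_lit 37) (nat_lit 5) (nat_lit 38) (nat_lit 4) (nat_lit 460) (nat_lit 408) (nat_lit 152)) (XT.lf (nat_lit 0) (nat_lit 94651775491) (nat_lit 152) (nat_lit 61981753415) (nat_lit 76) (nat_lit 387319516015) (nat_lit 35) (nat_lit 5) (nat_lit 37) (nat_lit 5) (nat_lit 36) (nat_lit 5) (nat_lit 461) (nat_lit 408) (nat_lit 151)))) (XT.nd (nat_lit 78) (nat_lit 76) (nat_lit 0) (XT.lf (nat_lit 0) (nat_lit 221897697503) (nat_lit 228) (nat_lit 337622053993) (nat_lit 76) (nat_lit 3583430766) (nat_lit 33) (nat_lit 5) (nat_lit 36) (nat_lit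 5) (nat_lit 34) (nat_lit 4) (nat_lit 462) (nat_lit 408) (nat_lit 150)) (XT.nd (nat_lit 78) (nat_lit 76) (nat_lit 0) (XT.lf (nat_lit 0) (nat_lit 359140522607) (nat_lit 228) (nat_lit 56274391340) (nat_lit 76) (nat_lit 167614182185) (nat_lit 33) (nat_lit 5) (nat_lit 36) (nat_lit 5) (nat_lit 34) (nat_lit 4) (nat_lit 463) (nat_lit 408) (nat_lit 149)) (XT.lf (nat_lit 0) (nat_lit 247047626910) (nat_lit 76) (nat_lit 260054915661) (nat_lit 152) (nat_lit 96655910455) (nat_lit 32) (nat_lit 5) (nat_lit 33) (nat_lit 5) (nat_lit 34) (nat_lit 4) (nat_lit 464) (nat_lit 408) (nat_lit 148))))) (XT.nd (nat_lit 48750) (nat_lit 0) (nat_lit 6156) (XT.nd (nat_lit 78) (nat_lit 152) (nat_lit 0) (XT.lf (nat_lit 0) (nat_lit 36724732279) (nat_lit 152) (nat_lit 58579590069) (nat_lit 76) (nat_lit 530142689563) (nat_lit 31) (nat_lit 5) (nat_lit 33) (nat_lit 5) (nat_lit 32) (nat_lit 5) (nat_lit 465) (nat_lit 408) (nat_lit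 147)) (XT.nd (nat_lit 78) (nat_lit 0) (nat_lit 0) (XT.lf (nat_lit 0) (nat_lit 178910390966) (nat_lit 228) (nat_lit 388007806582) (nat_lit 76) (nat_lit 80953362236) (nat_lit 29) (nat_lit 5) (nat_lit 32) (nat_lit 5) (nat_lit 30) (nat_lit 4) (nat_lit 466) (nat_lit 408) (nat_lit 146)) (XT.lf (nat_lit 0) (nat_lit 330775986543) (nat_lit 228) (nat_lit 76683436575) (nat_lit 76) (nat_lit 263829379243) (nat_lit 29) (nat_lit 5) (nat_lit 32) (nat_lit 5) (nat_lit 30) (nat_lit 4) (nat_lit 467) (nat_lit 408) (nat_lit 145)))) (XT.nd (nat_lit 156) (nat_lit 0) (nat_lit 76) (XT.nd (nat_lit 78) (nat_lit 0) (nat_lit 0) (XT.lf (nat_lit 0) (nat_lit 13304105202) (nat_lit 836) (nat_lit 22829526183) (nat_lit 836) (nat_lit 22829526183) (nat_lit 110) (nat_lit 3) (nat_lit 121) (nat_lit 3) (nat_lit 121) (nat_lit 5) (nat_lit 409) (nat_lit 409) (nat_lit 202)) (XT.lf (nat_lit 76) (nat_lit 11528694153) (nat_lit 0) (nat_lit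 15929294206) (nat_lit 836) (nat_lit 93407252787) (nat_lit 111) (nat_lit 5) (nat_lit 110) (nat_lit 3) (nat_lit 121) (nat_lit 5) (nat_lit 410) (nat_lit 409) (nat_lit 201))) (XT.nd (nat_lit 78) (nat_lit 0) (nat_lit 0) (XT.lf (nat_lit 0) (nat_lit 29810768686) (nat_lit 760) (nat_lit 51439168188) (nat_lit 836) (nat_lit 42628151118) (nat_lit 111) (nat_lit 5) (nat_lit 121) (nat_lit 5) (nat_lit 122) (nat_lit 5) (nat_lit 411) (nat_lit 409) (nat_lit 200)) (XT.lf (nat_lit 76) (nat_lit 9392391004) (nat_lit 0) (nat_lit 23296295142) (nat_lit 836) (nat_lit 94332516325) (nat_lit 112) (nat_lit 5) (nat_lit 111) (nat_lit 5) (nat_lit 122) (nat_lit 5) (nat_lit 412) (nat_lit 409) (nat_lit 199))))))) (XT.nd (nat_lit 1014) (nat_lit 2128) (nat_lit 0) (XT.nd (nat_lit 468) (nat_lit 1292) (nat_lit 0) (XT.nd (nat_lit 234) (nat_lit 0) (nat_lit 76) (XT.nd (nat_lit 78) (nat_lit 0) (nat_lit 0) (XT.lf (nat_lit 0) (nat_lit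 37181999979) (nat_lit 760) (nat_lit 55827336021) (nat_lit 836) (nat_lit 37238561836) (nat_lit 112) (nat_lit 5) (nat_lit 122) (nat_lit 5) (nat_lit 123) (nat_lit 5) (nat_lit 413) (nat_lit 409) (nat_lit 198)) (XT.nd (nat_lit 78) (nat_lit 0) (nat_lit 76) (XT.lf (nat_lit 76) (nat_lit 8969205611) (nat_lit 0) (nat_lit 33452460469) (nat_lit 836) (nat_lit 91188177739) (nat_lit 113) (nat_lit 5) (nat_lit 112) (nat_lit 5) (nat_lit 123) (nat_lit 5) (nat_lit 414) (nat_lit 409) (nat_lit 197)) (XT.lf (nat_lit 0) (nat_lit 49338089717) (nat_lit 760) (nat_lit 58618578069) (nat_lit 836) (nat_lit 29112480775) (nat_lit 113) (nat_lit 5) (nat_lit 123) (nat_lit 5) (nat_lit 124) (nat_lit 5) (nat_lit 415) (nat_lit 409) (nat_lit 196)))) (XT.nd (nat_lit 78) (nat_lit 0) (nat_lit 76) (XT.lf (nat_lit 76) (nat_lit 10491813813) (nat_lit 0) (nat_lit 46820496257) (nat_lit 836) (nat_lit 83353509854) (nat_lit 114) (nat_lit 5)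 (nat_lit 113) (nat_lit 5) (nat_lit 124) (nat_lit 5) (nat_lit 416) (nat_lit 409) (nat_lit 195)) (XT.nd (nat_lit 78) (nat_lit 0) (nat_lit 0) (XT.lf (nat_lit 0) (nat_lit 66965260043) (nat_lit 760) (nat_lit 59587548882) (nat_lit 836) (nat_lit 17825515155) (nat_lit 114) (nat_lit 5) (nat_lit 124) (nat_lit 5) (nat_lit 125) (nat_lit 5) (nat_lit 417) (nat_lit 409) (nat_lit 194)) (XT.lf (nat_lit 76) (nat_lit 14215492143) (nat_lit 0) (nat_lit 63874645903) (nat_lit 836) (nat_lit 70136851518) (nat_lit 115) (nat_lit 5) (nat_lit 114) (nat_lit 5) (nat_lit 125) (nat_lit 5) (nat_lit 418) (nat_lit 409) (nat_lit 193))))) (XT.nd (nat_lit 234) (nat_lit 760) (nat_lit 0) (XT.nd (nat_lit 78) (nat_lit 760) (nat_lit 0) (XT.lf (nat_lit 0) (nat_lit 90826991596) (nat_lit 760) (nat_lit 58487175297) (nat_lit 76) (nat_lit 2901134988) (nat_lit 115) (nat_lit 5) (nat_lit 125) (nat_lit 5) (nat_lit 116) (nat_lit 5) (nat_lit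 419) (nat_lit 409) (nat_lit 192)) (XT.nd (nat_lit 78) (nat_lit 0) (nat_lit 0) (XT.lf (nat_lit 0) (nat_lit 20419619059) (nat_lit 760) (nat_lit 85146807002) (nat_lit 836) (nat_lit 50768316974) (nat_lit 105) (nat_lit 5) (nat_lit 115) (nat_lit 5) (nat_lit 116) (nat_lit 5) (nat_lit 420) (nat_lit 409) (nat_lit 191)) (XT.lf (nat_lit 0) (nat_lit 105302124734) (nat_lit 760) (nat_lit 16731028142) (nat_lit 836) (nat_lit 38577487465) (nat_lit 105) (nat_lit 5) (nat_lit 115) (nat_lit 5) (nat_lit 116) (nat_lit 5) (nat_lit 421) (nat_lit 409) (nat_lit 190)))) (XT.nd (nat_lit 156) (nat_lit 380) (nat_lit 0) (XT.nd (nat_lit 78) (nat_lit 0) (nat_lit 0) (XT.lf (nat_lit 0) (nat_lit 29409176339) (nat_lit 380) (nat_lit 111233372479) (nat_lit 456) (nat_lit 24391817177) (nat_lit 100) (nat_lit 5) (nat_lit 105) (nat_lit 5) (nat_lit 106) (nat_lit 5) (nat_lit 422) (nat_lit 409) (nat_lit 189)) (XT.lf (nat_lit 0) (nat_lit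 119999422140) (nat_lit 380) (nat_lit 41389351269) (nat_lit 456) (nat_lit 8230186696) (nat_lit 100) (nat_lit 5) (nat_lit 105) (nat_lit 5) (nat_lit 106) (nat_lit 5) (nat_lit 423) (nat_lit 409) (nat_lit 188))) (XT.nd (nat_lit 78) (nat_lit 0) (nat_lit 0) (XT.lf (nat_lit 0) (nat_lit 9625405990) (nat_lit 380) (nat_lit 133014467702) (nat_lit 76) (nat_lit 31727807905) (nat_lit 95) (nat_lit 5) (nat_lit 100) (nat_lit 5) (nat_lit 96) (nat_lit 5) (nat_lit 424) (nat_lit 409) (nat_lit 187)) (XT.lf (nat_lit 0) (nat_lit 29629648714) (nat_lit 380) (nat_lit 41541924426) (nat_lit 76) (nat_lit 108098897136) (nat_lit 95) (nat_lit 5) (nat_lit 100) (nat_lit 5) (nat_lit 96) (nat_lit 5) (nat_lit 425) (nat_lit 409) (nat_lit 186)))))) (XT.nd (nat_lit 468) (nat_lit 912) (nat_lit 0) (XT.nd (nat_lit 234) (nat_lit 532) (nat_lit 0) (XT.nd (nat_lit 78) (nat_lit 304) (nat_lit 0) (XT.lf (nat_lit 0) (nat_lit 51587882331) (nat_lit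 456) (nat_lit 128143053549) (nat_lit 76) (nat_lit 4639773666) (nat_lit 90) (nat_lit 5) (nat_lit 96) (nat_lit 5) (nat_lit 91) (nat_lit 5) (nat_lit 426) (nat_lit 409) (nat_lit 185)) (XT.nd (nat_lit 78) (nat_lit 304) (nat_lit 0) (XT.lf (nat_lit 0) (nat_lit 76525690889) (nat_lit 456) (nat_lit 30541276338) (nat_lit 76) (nat_lit 82564910479) (nat_lit 90) (nat_lit 5) (nat_lit 96) (nat_lit 5) (nat_lit 91) (nat_lit 5) (nat_lit 427) (nat_lit 409) (nat_lit 184)) (XT.lf (nat_lit 0) (nat_lit 74319104225) (nat_lit 304) (nat_lit 29551472523) (nat_lit 380) (nat_lit 91227518270) (nat_lit 86) (nat_lit 5) (nat_lit 90) (nat_lit 5) (nat_lit 91) (nat_lit 5) (nat_lit 428) (nat_lit 409) (nat_lit 183)))) (XT.nd (nat_lit 78) (nat_lit 532) (nat_lit 0) (XT.lf (nat_lit 0) (nat_lit 133917643288) (nat_lit 380) (nat_lit 16146942436) (nat_lit 76) (nat_lit 50706290732) (nat_lit 86) (nat_lit 5) (nat_lit 91) (nat_lit 5) (nat_lit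 87) (nat_lit 5) (nat_lit 429) (nat_lit 409) (nat_lit 182)) (XT.nd (nat_lit 78) (nat_lit 228) (nat_lit 0) (XT.lf (nat_lit 0) (nat_lit 96314775068) (nat_lit 304) (nat_lit 71140350001) (nat_lit 380) (nat_lit 39172768880) (nat_lit 82) (nat_lit 5) (nat_lit 86) (nat_lit 5) (nat_lit 87) (nat_lit 5) (nat_lit 430) (nat_lit 409) (nat_lit 181)) (XT.lf (nat_lit 0) (nat_lit 2074694177) (nat_lit 228) (nat_lit 201088128863) (nat_lit 304) (nat_lit 9590272247) (nat_lit 79) (nat_lit 5) (nat_lit 82) (nat_lit 5) (nat_lit 83) (nat_lit 5) (nat_lit 431) (nat_lit 409) (nat_lit 180))))) (XT.nd (nat_lit 234) (nat_lit 532) (nat_lit 0) (XT.nd (nat_lit 78) (nat_lit 304) (nat_lit 0) (XT.lf (nat_lit 0) (nat_lit 23849072550) (nat_lit 304) (nat_lit 96711678023) (nat_lit 76) (nat_lit 98453797759) (nat_lit 78) (nat_lit 5) (nat_lit 82) (nat_lit 5) (nat_lit 79) (nat_lit 5) (nat_lit 432) (nat_lit 409) (nat_lit 179)) (XT.nd (nat_lit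 78) (nat_lit 0) (nat_lit 0) (XT.lf (nat_lit 0) (nat_lit 23549747972) (nat_lit 304) (nat_lit 35455897170) (nat_lit 380) (nat_lit 166557190241) (nat_lit 74) (nat_lit 5) (nat_lit 78) (nat_lit 5) (nat_lit 79) (nat_lit 5) (nat_lit 433) (nat_lit 409) (nat_lit 178)) (XT.lf (nat_lit 0) (nat_lit 98426233061) (nat_lit 380) (nat_lit 80043390828) (nat_lit 76) (nat_lit 53843603627) (nat_lit 74) (nat_lit 5) (nat_lit 79) (nat_lit 5) (nat_lit 75) (nat_lit 5) (nat_lit 434) (nat_lit 409) (nat_lit 177)))) (XT.nd (nat_lit 156) (nat_lit 304) (nat_lit 0) (XT.nd (nat_lit 78) (nat_lit 0) (nat_lit 0) (XT.lf (nat_lit 0) (nat_lit 49012089234) (nat_lit 228) (nat_lit 92152108921) (nat_lit 304) (nat_lit 98169623767) (nat_lit 71) (nat_lit 5) (nat_lit 74) (nat_lit 5) (nat_lit 75) (nat_lit 5) (nat_lit 435) (nat_lit 409) (nat_lit 176)) (XT.lf (nat_lit 0) (nat_lit 187299121433) (nat_lit 228) (nat_lit 95404176) (nat_lit 304)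 (nat_lit 59243147292) (nat_lit 71) (nat_lit 5) (nat_lit 74) (nat_lit 5) (nat_lit 75) (nat_lit 5) (nat_lit 436) (nat_lit 409) (nat_lit 175))) (XT.nd (nat_lit 78) (nat_lit 76) (nat_lit 0) (XT.lf (nat_lit 0) (nat_lit 79221592416) (nat_lit 228) (nat_lit 159459180068) (nat_lit 304) (nat_lit 15488723845) (nat_lit 68) (nat_lit 5) (nat_lit 71) (nat_lit 5) (nat_lit 72) (nat_lit 5) (nat_lit 437) (nat_lit 409) (nat_lit 174)) (XT.lf (nat_lit 0) (nat_lit 30501582653) (nat_lit 304) (nat_lit 35751468478) (nat_lit 76) (nat_lit 195749943605) (nat_lit 67) (nat_lit 5) (nat_lit 71) (nat_lit 5) (nat_lit 68) (nat_lit 5) (nat_lit 438) (nat_lit 409) (nat_lit 173))))))))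
noncomputable def xc233 : XT := (XT.nd (nat_lit 1950) (nat_lit 304) (nat_lit 0) (XT.nd (nat_lit 936) (nat_lit 1140) (nat_lit 0) (XT.nd (nat_lit 468) (nat_lit 532) (nat_lit 0) (XT.nd (nat_lit 234) (nat_lit 456) (nat_lit 0) (XT.nd (nat_lit 78) (nat_lit 228) (nat_lit 0) (XT.lf (nat_lit 0) (nat_lit 80574268133) (nat_lit 304) (nat_lit 156860690022) (nat_lit 76) (nat_lit 32665344963) (nat_lit 64) (nat_lit 5) (nat_lit 68) (nat_lit 5) (nat_lit 65) (nat_lit 5) (nat_lit 439) (nat_lit 409) (nat_lit 172)) (XT.nd (nat_lit 78) (nat_lit 228) (nat_lit 0) (XT.lf (nat_lit 0) (nat_lit 134852000703) (nat_lit 304) (nat_lit 8746927245) (nat_lit 76) (nat_lit 134918478372) (nat_lit 64) (nat_lit 5) (nat_lit 68) (nat_lit 5) (nat_lit 65) (nat_lit 5) (nat_lit 440) (nat_lit 409) (nat_lit 171)) (XT.lf (nat_lit 0) (nat_lit 151625346979) (nat_lit 228) (nat_lit 42585477228) (nat_lit 304) (nat_lit 93026180302) (nat_lit 61)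 (nat_lit 5) (nat_lit 64) (nat_lit 5) (nat_lit 65) (nat_lit 5) (nat_lit 441) (nat_lit 409) (nat_lit 170)))) (XT.nd (nat_lit 78) (nat_lit 304) (nat_lit 0) (XT.lf (nat_lit 0) (nat_lit 23699624126) (nat_lit 152) (nat_lit 234349533108) (nat_lit 228) (nat_lit 38267846996) (nat_lit 59) (nat_lit 5) (nat_lit 61) (nat_lit 5) (nat_lit 62) (nat_lit 5) (nat_lit 442) (nat_lit 409) (nat_lit 169)) (XT.nd (nat_lit 78) (nat_lit 228) (nat_lit 0) (XT.lf (nat_lit 0) (nat_lit 21645305700) (nat_lit 228) (nat_lit 111087690131) (nat_lit 76) (nat_lit 172951381093) (nat_lit 58) (nat_lit 5) (nat_lit 61) (nat_lit 5) (nat_lit 59) (nat_lit 5) (nat_lit 443) (nat_lit 409) (nat_lit 168)) (XT.lf (nat_lit 0) (nat_lit 59805150196) (nat_lit 228) (nat_lit 24396555624) (nat_lit 304) (nat_lit 231240363360) (nat_lit 55) (nat_lit 5) (nat_lit 58) (nat_lit 5) (nat_lit 59) (nat_lit 5) (nat_lit 444) (nat_lit 409) (nat_lit 167))))) (XT.nd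 (nat_lit 234) (nat_lit 380) (nat_lit 0) (XT.nd (nat_lit 78) (nat_lit 152) (nat_lit 0) (XT.lf (nat_lit 0) (nat_lit 153193115469) (nat_lit 304) (nat_lit 83920315633) (nat_lit 76) (nat_lit 88408855504) (nat_lit 55) (nat_lit 5) (nat_lit 59) (nat_lit 5) (nat_lit 56) (nat_lit 5) (nat_lit 445) (nat_lit 409) (nat_lit 166)) (XT.nd (nat_lit 78) (nat_lit 0) (nat_lit 0) (XT.lf (nat_lit 0) (nat_lit 99155648547) (nat_lit 152) (nat_lit 128426407908) (nat_lit 228) (nat_lit 108427060435) (nat_lit 53) (nat_lit 5) (nat_lit 55) (nat_lit 5) (nat_lit 56) (nat_lit 5) (nat_lit 446) (nat_lit 409) (nat_lit 165)) (XT.lf (nat_lit 0) (nat_lit 294298811032) (nat_lit 152) (nat_lit 12812786263) (nat_lit 228) (nat_lit 39837633784) (nat_lit 53) (nat_lit 5) (nat_lit 55) (nat_lit 5) (nat_lit 56) (nat_lit 5) (nat_lit 447) (nat_lit 409) (nat_lit 164)))) (XT.nd (nat_lit 78) (nat_lit 152) (nat_lit 0) (XT.lf (nat_lit 0) (nat_lit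 35154032572) (nat_lit 228) (nat_lit 215140846922) (nat_lit 76) (nat_lit 107916211033) (nat_lit 50) (nat_lit 5) (nat_lit 53) (nat_lit 5) (nat_lit 51) (nat_lit 5) (nat_lit 448) (nat_lit 409) (nat_lit 163)) (XT.nd (nat_lit 78) (nat_lit 152) (nat_lit 0) (XT.lf (nat_lit 0) (nat_lit 113672725123) (nat_lit 228) (nat_lit 20464476320) (nat_lit 76) (nat_lit 235810375301) (nat_lit 50) (nat_lit 5) (nat_lit 53) (nat_lit 5) (nat_lit 51) (nat_lit 5) (nat_lit 449) (nat_lit 409) (nat_lit 162)) (XT.lf (nat_lit 0) (nat_lit 190027669254) (nat_lit 152) (nat_lit 9056476281) (nat_lit 228) (nat_lit 183038402100) (nat_lit 48) (nat_lit 5) (nat_lit 50) (nat_lit 5) (nat_lit 51) (nat_lit 5) (nat_lit 450) (nat_lit 409) (nat_lit 161)))))) (XT.nd (nat_lit 468) (nat_lit 608) (nat_lit 0) (XT.nd (nat_lit 234) (nat_lit 152) (nat_lit 0) (XT.nd (nat_lit 78) (nat_lit 228) (nat_lit 0) (XT.lf (nat_lit 0) (nat_lit 15445408823) (nat_lit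 152) (nat_lit 275823168046) (nat_lit 228) (nat_lit 103512568229) (nat_lit 46) (nat_lit 5) (nat_lit 48) (nat_lit 5) (nat_lit 49) (nat_lit 5) (nat_lit 451) (nat_lit 409) (nat_lit 160)) (XT.nd (nat_lit 78) (nat_lit 228) (nat_lit 0) (XT.lf (nat_lit 0) (nat_lit 239878320213) (nat_lit 152) (nat_lit 151583132715) (nat_lit 228) (nat_lit 16441258371) (nat_lit 46) (nat_lit 5) (nat_lit 48) (nat_lit 5) (nat_lit 49) (nat_lit 5) (nat_lit 452) (nat_lit 409) (nat_lit 159)) (XT.lf (nat_lit 0) (nat_lit 54423600517) (nat_lit 152) (nat_lit 19009710788) (nat_lit 228) (nat_lit 348146027386) (nat_lit 43) (nat_lit 5) (nat_lit 45) (nat_lit 5) (nat_lit 46) (nat_lit 5) (nat_lit 453) (nat_lit 409) (nat_lit 158)))) (XT.nd (nat_lit 78) (nat_lit 152) (nat_lit 0) (XT.lf (nat_lit 0) (nat_lit 172017772610) (nat_lit 228) (nat_lit 144162929414) (nat_lit 76) (nat_lit 119507184145) (nat_lit 43) (nat_lit 5) (nat_lit 46) (nat_lit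 5) (nat_lit 44) (nat_lit 5) (nat_lit 454) (nat_lit 409) (nat_lit 157)) (XT.nd (nat_lit 78) (nat_lit 0) (nat_lit 0) (XT.lf (nat_lit 0) (nat_lit 92632599909) (nat_lit 152) (nat_lit 184656683481) (nat_lit 228) (nat_lit 173124686329) (nat_lit 41) (nat_lit 5) (nat_lit 43) (nat_lit 5) (nat_lit 44) (nat_lit 5) (nat_lit 455) (nat_lit 409) (nat_lit 156)) (XT.lf (nat_lit 0) (nat_lit 346272811835) (nat_lit 152) (nat_lit 43992965501) (nat_lit 228) (nat_lit 75488509746) (nat_lit 41) (nat_lit 5) (nat_lit 43) (nat_lit 5) (nat_lit 44) (nat_lit 5) (nat_lit 456) (nat_lit 409) (nat_lit 155))))) (XT.nd (nat_lit 234) (nat_lit 304) (nat_lit 0) (XT.nd (nat_lit 78) (nat_lit 152) (nat_lit 0) (XT.lf (nat_lit 0) (nat_lit 29926581736) (nat_lit 152) (nat_lit 348775929228) (nat_lit 76) (nat_lit 102949898167) (nat_lit 39) (nat_lit 5) (nat_lit 41) (nat_lit 5) (nat_lit 40) (nat_lit 5) (nat_lit 457) (nat_lit 409) (nat_lit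 154)) (XT.nd (nat_lit 78) (nat_lit 152) (nat_lit 0) (XT.lf (nat_lit 0) (nat_lit 140853304563) (nat_lit 152) (nat_lit 98235790895) (nat_lit 76) (nat_lit 259055576726) (nat_lit 39) (nat_lit 5) (nat_lit 41) (nat_lit 5) (nat_lit 40) (nat_lit 5) (nat_lit 458) (nat_lit 409) (nat_lit 153)) (XT.lf (nat_lit 0) (nat_lit 170281322164) (nat_lit 152) (nat_lit 89703554023) (nat_lit 228) (nat_lit 255343746584) (nat_lit 37) (nat_lit 5) (nat_lit 39) (nat_lit 5) (nat_lit 40) (nat_lit 5) (nat_lit 459) (nat_lit 409) (nat_lit 152)))) (XT.nd (nat_lit 156) (nat_lit 228) (nat_lit 0) (XT.nd (nat_lit 78) (nat_lit 76) (nat_lit 0) (XT.lf (nat_lit 0) (nat_lit 387812334284) (nat_lit 228) (nat_lit 78729562814) (nat_lit 76) (nat_lit 66692908409) (nat_lit 37) (nat_lit 5) (nat_lit 40) (nat_lit 5) (nat_lit 38) (nat_lit 4) (nat_lit 460) (nat_lit 409) (nat_lit 151)) (XT.lf (nat_lit 0) (nat_lit 206027587504) (nat_lit 76) (nat_lit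 320690743039) (nat_lit 152) (nat_lit 25083608586) (nat_lit 36) (nat_lit 5) (nat_lit 37) (nat_lit 5) (nat_lit 38) (nat_lit 4) (nat_lit 461) (nat_lit 409) (nat_lit 150))) (XT.nd (nat_lit 78) (nat_lit 152) (nat_lit 0) (XT.lf (nat_lit 0) (nat_lit 99385982790) (nat_lit 152) (nat_lit 65077949864) (nat_lit 76) (nat_lit 406686683231) (nat_lit 35) (nat_lit 5) (nat_lit 37) (nat_lit 5) (nat_lit 36) (nat_lit 5) (nat_lit 462) (nat_lit 409) (nat_lit 149)) (XT.lf (nat_lit 0) (nat_lit 232994187894) (nat_lit 228) (nat_lit 354500252121) (nat_lit 76) (nat_lit 3763820744) (nat_lit 33) (nat_lit 5) (nat_lit 36) (nat_lit 5) (nat_lit 34) (nat_lit 4) (nat_lit 463) (nat_lit 409) (nat_lit 148))))))) (XT.nd (nat_lit 49608) (nat_lit 0) (nat_lit 4028) (XT.nd (nat_lit 49062) (nat_lit 0) (nat_lit 6232) (XT.nd (nat_lit 234) (nat_lit 152) (nat_lit 0) (XT.nd (nat_lit 78) (nat_lit 152) (nat_lit 0) (XT.lf (nat_lit 0) (nat_lit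 377099077800) (nat_lit 228) (nat_lit 59085344648) (nat_lit 76) (nat_lit 175996051713) (nat_lit 33) (nat_lit 5) (nat_lit 36) (nat_lit 5) (nat_lit 34) (nat_lit 4) (nat_lit 464) (nat_lit 409) (nat_lit 147)) (XT.nd (nat_lit 78) (nat_lit 76) (nat_lit 0) (XT.lf (nat_lit 0) (nat_lit 259402729897) (nat_lit 76) (nat_lit 273056438545) (nat_lit 152) (nat_lit 101487131989) (nat_lit 32) (nat_lit 5) (nat_lit 33) (nat_lit 5) (nat_lit 34) (nat_lit 4) (nat_lit 465) (nat_lit 409) (nat_lit 146)) (XT.lf (nat_lit 0) (nat_lit 38562419951) (nat_lit 152) (nat_lit 61505929274) (nat_lit 76) (nat_lit 556650940447) (nat_lit 31) (nat_lit 5) (nat_lit 33) (nat_lit 5) (nat_lit 32) (nat_lit 5) (nat_lit 466) (nat_lit 409) (nat_lit 145)))) (XT.nd (nat_lit 48672) (nat_lit 0) (nat_lit 6156) (XT.lf (nat_lit 0) (nat_lit 187857351380) (nat_lit 228) (nat_lit 407405546153) (nat_lit 76) (nat_lit 85002167929) (nat_lit 29) (nat_lit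 5) (nat_lit 32) (nat_lit 5) (nat_lit 30) (nat_lit 4) (nat_lit 467) (nat_lit 409) (nat_lit 144)) (XT.nd (nat_lit 78) (nat_lit 0) (nat_lit 0) (XT.lf (nat_lit 0) (nat_lit 13973816466) (nat_lit 836) (nat_lit 23968635249) (nat_lit 836) (nat_lit 23968635249) (nat_lit 110) (nat_lit 3) (nat_lit 121) (nat_lit 3) (nat_lit 121) (nat_lit 5) (nat_lit 410) (nat_lit 410) (nat_lit 200)) (XT.lf (nat_lit 76) (nat_lit 12109786985) (nat_lit 0) (nat_lit 16729756385) (nat_lit 836) (nat_lit 98068520994) (nat_lit 111) (nat_lit 5) (nat_lit 110) (nat_lit 3) (nat_lit 121) (nat_lit 5) (nat_lit 411) (nat_lit 410) (nat_lit 199))))) (XT.nd (nat_lit 234) (nat_lit 0) (nat_lit 76) (XT.nd (nat_lit 78) (nat_lit 0) (nat_lit 0) (XT.lf (nat_lit 0) (nat_lit 31309491101) (nat_lit 760) (nat_lit 54006212906) (nat_lit 836) (nat_lit 44755873413) (nat_lit 111) (nat_lit 5) (nat_lit 121) (nat_lit 5) (nat_lit 122) (nat_lit 5) (nat_lit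 412) (nat_lit 410) (nat_lit 198)) (XT.nd (nat_lit 78) (nat_lit 0) (nat_lit 76) (XT.lf (nat_lit 76) (nat_lit 9866844993) (nat_lit 0) (nat_lit 24464145207) (nat_lit 836) (nat_lit 99040873409) (nat_lit 112) (nat_lit 5) (nat_lit 111) (nat_lit 5) (nat_lit 122) (nat_lit 5) (nat_lit 413) (nat_lit 410) (nat_lit 197)) (XT.lf (nat_lit 0) (nat_lit 39048549842) (nat_lit 760) (nat_lit 58613673477) (nat_lit 836) (nat_lit 39097691680) (nat_lit 112) (nat_lit 5) (nat_lit 122) (nat_lit 5) (nat_lit 123) (nat_lit 5) (nat_lit 414) (nat_lit 410) (nat_lit 196)))) (XT.nd (nat_lit 156) (nat_lit 0) (nat_lit 76) (XT.nd (nat_lit 78) (nat_lit 0) (nat_lit 76) (XT.lf (nat_lit 76) (nat_lit 9422614118) (nat_lit 0) (nat_lit 35127307630) (nat_lit 836) (nat_lit 95740050657) (nat_lit 113) (nat_lit 5) (nat_lit 112) (nat_lit 5) (nat_lit 123) (nat_lit 5) (nat_lit 415) (nat_lit 410) (nat_lit 195)) (XT.lf (nat_lit 0) (nat_lit 51811791954)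 (nat_lit 760) (nat_lit 61544415014) (nat_lit 836) (nat_lit 30566054384) (nat_lit 113) (nat_lit 5) (nat_lit 123) (nat_lit 5) (nat_lit 124) (nat_lit 5) (nat_lit 416) (nat_lit 410) (nat_lit 194))) (XT.nd (nat_lit 78) (nat_lit 0) (nat_lit 76) (XT.lf (nat_lit 76) (nat_lit 11021414334) (nat_lit 0) (nat_lit 49163063507) (nat_lit 836) (nat_lit 87514300944) (nat_lit 114) (nat_lit 5) (nat_lit 113) (nat_lit 5) (nat_lit 124) (nat_lit 5) (nat_lit 417) (nat_lit 410) (nat_lit 193)) (XT.lf (nat_lit 0) (nat_lit 70319740364) (nat_lit 760) (nat_lit 62561815805) (nat_lit 836) (nat_lit 18715368942) (nat_lit 114) (nat_lit 5) (nat_lit 124) (nat_lit 5) (nat_lit 125) (nat_lit 5) (nat_lit 418) (nat_lit 410) (nat_lit 192)))))) (XT.nd (nat_lit 468) (nat_lit 1368) (nat_lit 0) (XT.nd (nat_lit 234) (nat_lit 380) (nat_lit 0) (XT.nd (nat_lit 78) (nat_lit 684) (nat_lit 0) (XT.lf (nat_lit 76) (nat_lit 14931294844) (nat_lit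 0) (nat_lit 67069349864) (nat_lit 836) (nat_lit 73637390245) (nat_lit 115) (nat_lit 5) (nat_lit 114) (nat_lit 5) (nat_lit 125) (nat_lit 5) (nat_lit 419) (nat_lit 410) (nat_lit 191)) (XT.nd (nat_lit 78) (nat_lit 760) (nat_lit 0) (XT.lf (nat_lit 0) (nat_lit 95374040783) (nat_lit 760) (nat_lit 61406441344) (nat_lit 76) (nat_lit 3045295961) (nat_lit 115) (nat_lit 5) (nat_lit 125) (nat_lit 5) (nat_lit 116) (nat_lit 5) (nat_lit 420) (nat_lit 410) (nat_lit 190)) (XT.lf (nat_lit 0) (nat_lit 21445610590) (nat_lit 760) (nat_lit 89404643201) (nat_lit 836) (nat_lit 53300947353) (nat_lit 105) (nat_lit 5) (nat_lit 115) (nat_lit 5) (nat_lit 116) (nat_lit 5) (nat_lit 421) (nat_lit 410) (nat_lit 189)))) (XT.nd (nat_lit 78) (nat_lit 380) (nat_lit 0) (XT.lf (nat_lit 0) (nat_lit 110572002950) (nat_lit 760) (nat_lit 17568051787) (nat_lit 836) (nat_lit 40500851867) (nat_lit 105) (nat_lit 5) (nat_lit 115) (nat_lit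 5) (nat_lit 116) (nat_lit 5) (nat_lit 422) (nat_lit 410) (nat_lit 188)) (XT.nd (nat_lit 78) (nat_lit 0) (nat_lit 0) (XT.lf (nat_lit 0) (nat_lit 30884598890) (nat_lit 380) (nat_lit 116795142338) (nat_lit 456) (nat_lit 25606086445) (nat_lit 100) (nat_lit 5) (nat_lit 105) (nat_lit 5) (nat_lit 106) (nat_lit 5) (nat_lit 423) (nat_lit 410) (nat_lit 187)) (XT.lf (nat_lit 0) (nat_lit 126004120612) (nat_lit 380) (nat_lit 43458915246) (nat_lit 456) (nat_lit 8636627849) (nat_lit 100) (nat_lit 5) (nat_lit 105) (nat_lit 5) (nat_lit 106) (nat_lit 5) (nat_lit 424) (nat_lit 410) (nat_lit 186))))) (XT.nd (nat_lit 234) (nat_lit 608) (nat_lit 0) (XT.nd (nat_lit 78) (nat_lit 380) (nat_lit 0) (XT.lf (nat_lit 0) (nat_lit 10111424830) (nat_lit 380) (nat_lit 139660138104) (nat_lit 76) (nat_lit 33314262400) (nat_lit 95) (nat_lit 5) (nat_lit 100) (nat_lit 5) (nat_lit 96) (nat_lit 5) (nat_lit 425) (nat_lit 410) (nat_lit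 185)) (XT.nd (nat_lit 78) (nat_lit 380) (nat_lit 0) (XT.lf (nat_lit 0) (nat_lit 31115653569) (nat_lit 380) (nat_lit 43614208283) (nat_lit 76) (nat_lit 113503903041) (nat_lit 95) (nat_lit 5) (nat_lit 100) (nat_lit 5) (nat_lit 96) (nat_lit 5) (nat_lit 426) (nat_lit 410) (nat_lit 184)) (XT.lf (nat_lit 0) (nat_lit 54171662960) (nat_lit 456) (nat_lit 134545255310) (nat_lit 76) (nat_lit 4872104784) (nat_lit 90) (nat_lit 5) (nat_lit 96) (nat_lit 5) (nat_lit 91) (nat_lit 5) (nat_lit 427) (nat_lit 410) (nat_lit 183)))) (XT.nd (nat_lit 156) (nat_lit 304) (nat_lit 0) (XT.nd (nat_lit 78) (nat_lit 304) (nat_lit 0) (XT.lf (nat_lit 0) (nat_lit 80356153064) (nat_lit 456) (nat_lit 32063624997) (nat_lit 76) (nat_lit 86693482131) (nat_lit 90) (nat_lit 5) (nat_lit 96) (nat_lit 5) (nat_lit 91) (nat_lit 5) (nat_lit 428) (nat_lit 410) (nat_lit 182)) (XT.lf (nat_lit 0) (nat_lit 78039698543) (nat_lit 304) (nat_lit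 31028458167) (nat_lit 380) (nat_lit 95784638103) (nat_lit 86) (nat_lit 5) (nat_lit 90) (nat_lit 5) (nat_lit 91) (nat_lit 5) (nat_lit 429) (nat_lit 410) (nat_lit 181))) (XT.nd (nat_lit 78) (nat_lit 304) (nat_lit 0) (XT.lf (nat_lit 0) (nat_lit 140617392410) (nat_lit 380) (nat_lit 16949684908) (nat_lit 76) (nat_lit 53242147329) (nat_lit 86) (nat_lit 5) (nat_lit 91) (nat_lit 5) (nat_lit 87) (nat_lit 5) (nat_lit 430) (nat_lit 410) (nat_lit 180)) (XT.lf (nat_lit 0) (nat_lit 101135044203) (nat_lit 304) (nat_lit 74696590668) (nat_lit 380) (nat_lit 41127463923) (nat_lit 82) (nat_lit 5) (nat_lit 86) (nat_lit 5) (nat_lit 87) (nat_lit 5) (nat_lit 431) (nat_lit 410) (nat_lit 179))))))))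
noncomputable def xc234 : XT := (XT.nd (nat_lit 1950) (nat_lit 684) (nat_lit 0) (XT.nd (nat_lit 936) (nat_lit 1368) (nat_lit 0) (XT.nd (nat_lit 468) (nat_lit 912) (nat_lit 0) (XT.nd (nat_lit 234) (nat_lit 228) (nat_lit 0) (XT.nd (nat_lit 78) (nat_lit 380) (nat_lit 0) (XT.lf (nat_lit 0) (nat_lit 2183061054) (nat_lit 228) (nat_lit 211141561818) (nat_lit 304) (nat_lit 10065942173) (nat_lit 79) (nat_lit 5) (nat_lit 82) (nat_lit 5) (nat_lit 83) (nat_lit 5) (nat_lit 432) (nat_lit 410) (nat_lit 178)) (XT.nd (nat_lit 78) (nat_lit 304) (nat_lit 0) (XT.lf (nat_lit 0) (nat_lit 25045069667) (nat_lit 304) (nat_lit 101542731292) (nat_lit 76) (nat_lit 103377295735) (nat_lit 78) (nat_lit 5) (nat_lit 82) (nat_lit 5) (nat_lit 79) (nat_lit 5) (nat_lit 433) (nat_lit 410) (nat_lit 177)) (XT.lf (nat_lit 0) (nat_lit 24731692928) (nat_lit 304) (nat_lit 37227678819) (nat_lit 380) (nat_lit 174881431399) (nat_lit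 74) (nat_lit 5) (nat_lit 78) (nat_lit 5) (nat_lit 79) (nat_lit 5) (nat_lit 434) (nat_lit 410) (nat_lit 176)))) (XT.nd (nat_lit 78) (nat_lit 228) (nat_lit 0) (XT.lf (nat_lit 0) (nat_lit 103350840110) (nat_lit 380) (nat_lit 84041164422) (nat_lit 76) (nat_lit 56536717885) (nat_lit 74) (nat_lit 5) (nat_lit 79) (nat_lit 5) (nat_lit 75) (nat_lit 5) (nat_lit 435) (nat_lit 410) (nat_lit 175)) (XT.nd (nat_lit 78) (nat_lit 0) (nat_lit 0) (XT.lf (nat_lit 0) (nat_lit 51467018742) (nat_lit 228) (nat_lit 96758595320) (nat_lit 304) (nat_lit 103074737034) (nat_lit 71) (nat_lit 5) (nat_lit 74) (nat_lit 5) (nat_lit 75) (nat_lit 5) (nat_lit 436) (nat_lit 410) (nat_lit 174)) (XT.lf (nat_lit 0) (nat_lit 196668196595) (nat_lit 228) (nat_lit 99108626) (nat_lit 304) (nat_lit 62202097112) (nat_lit 71) (nat_lit 5) (nat_lit 74) (nat_lit 5) (nat_lit 75) (nat_lit 5) (nat_lit 437) (nat_lit 410) (nat_lit 173))))) (XT.nd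 (nat_lit 234) (nat_lit 380) (nat_lit 0) (XT.nd (nat_lit 78) (nat_lit 304) (nat_lit 0) (XT.lf (nat_lit 0) (nat_lit 83186860045) (nat_lit 228) (nat_lit 167430940232) (nat_lit 304) (nat_lit 16260019937) (nat_lit 68) (nat_lit 5) (nat_lit 71) (nat_lit 5) (nat_lit 72) (nat_lit 5) (nat_lit 438) (nat_lit 410) (nat_lit 172)) (XT.nd (nat_lit 78) (nat_lit 228) (nat_lit 0) (XT.lf (nat_lit 0) (nat_lit 32029556640) (nat_lit 304) (nat_lit 37534956270) (nat_lit 76) (nat_lit 205538485485) (nat_lit 67) (nat_lit 5) (nat_lit 71) (nat_lit 5) (nat_lit 68) (nat_lit 5) (nat_lit 439) (nat_lit 410) (nat_lit 171)) (XT.lf (nat_lit 0) (nat_lit 84605820038) (nat_lit 304) (nat_lit 164699581264) (nat_lit 76) (nat_lit 34299773775) (nat_lit 64) (nat_lit 5) (nat_lit 68) (nat_lit 5) (nat_lit 65) (nat_lit 5) (nat_lit 440) (nat_lit 410) (nat_lit 170)))) (XT.nd (nat_lit 78) (nat_lit 380) (nat_lit 0) (XT.lf (nat_lit 0) (nat_lit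 141597304070) (nat_lit 304) (nat_lit 9180327645) (nat_lit 76) (nat_lit 141665508543) (nat_lit 64) (nat_lit 5) (nat_lit 68) (nat_lit 5) (nat_lit 65) (nat_lit 5) (nat_lit 441) (nat_lit 410) (nat_lit 169)) (XT.nd (nat_lit 78) (nat_lit 152) (nat_lit 0) (XT.lf (nat_lit 0) (nat_lit 159210496645) (nat_lit 228) (nat_lit 44713503988) (nat_lit 304) (nat_lit 97674721187) (nat_lit 61) (nat_lit 5) (nat_lit 64) (nat_lit 5) (nat_lit 65) (nat_lit 5) (nat_lit 442) (nat_lit 410) (nat_lit 168)) (XT.lf (nat_lit 0) (nat_lit 24888536645) (nat_lit 152) (nat_lit 246065668102) (nat_lit 228) (nat_lit 40178519113) (nat_lit 59) (nat_lit 5) (nat_lit 61) (nat_lit 5) (nat_lit 62) (nat_lit 5) (nat_lit 443) (nat_lit 410) (nat_lit 167)))))) (XT.nd (nat_lit 468) (nat_lit 684) (nat_lit 0) (XT.nd (nat_lit 234) (nat_lit 380) (nat_lit 0) (XT.nd (nat_lit 78) (nat_lit 228) (nat_lit 0) (XT.lf (nat_lit 0) (nat_lit 22730078765) (nat_lit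 228) (nat_lit 116638246615) (nat_lit 76) (nat_lit 181600144006) (nat_lit 58) (nat_lit 5) (nat_lit 61) (nat_lit 5) (nat_lit 59) (nat_lit 5) (nat_lit 444) (nat_lit 410) (nat_lit 166)) (XT.nd (nat_lit 78) (nat_lit 0) (nat_lit 0) (XT.lf (nat_lit 0) (nat_lit 62799173987) (nat_lit 228) (nat_lit 25615064289) (nat_lit 304) (nat_lit 242799811057) (nat_lit 55) (nat_lit 5) (nat_lit 58) (nat_lit 5) (nat_lit 59) (nat_lit 5) (nat_lit 445) (nat_lit 410) (nat_lit 165)) (XT.lf (nat_lit 0) (nat_lit 160855121489) (nat_lit 304) (nat_lit 88112646660) (nat_lit 76) (nat_lit 92830514371) (nat_lit 55) (nat_lit 5) (nat_lit 59) (nat_lit 5) (nat_lit 56) (nat_lit 5) (nat_lit 446) (nat_lit 410) (nat_lit 164)))) (XT.nd (nat_lit 78) (nat_lit 228) (nat_lit 0) (XT.lf (nat_lit 0) (nat_lit 104117056298) (nat_lit 152) (nat_lit 134846397911) (nat_lit 228) (nat_lit 113846002919) (nat_lit 53) (nat_lit 5) (nat_lit 55) (nat_lit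 5) (nat_lit 56) (nat_lit 5) (nat_lit 447) (nat_lit 410) (nat_lit 163)) (XT.nd (nat_lit 78) (nat_lit 228) (nat_lit 0) (XT.lf (nat_lit 0) (nat_lit 309017204272) (nat_lit 152) (nat_lit 13452158536) (nat_lit 228) (nat_lit 41827219722) (nat_lit 53) (nat_lit 5) (nat_lit 55) (nat_lit 5) (nat_lit 56) (nat_lit 5) (nat_lit 448) (nat_lit 410) (nat_lit 162)) (XT.lf (nat_lit 0) (nat_lit 36913925116) (nat_lit 228) (nat_lit 225894330219) (nat_lit 76) (nat_lit 113313279428) (nat_lit 50) (nat_lit 5) (nat_lit 53) (nat_lit 5) (nat_lit 51) (nat_lit 5) (nat_lit 449) (nat_lit 410) (nat_lit 161))))) (XT.nd (nat_lit 234) (nat_lit 380) (nat_lit 0) (XT.nd (nat_lit 78) (nat_lit 304) (nat_lit 0) (XT.lf (nat_lit 0) (nat_lit 119358447965) (nat_lit 228) (nat_lit 21484310566) (nat_lit 76) (nat_lit 247602092013) (nat_lit 50) (nat_lit 5) (nat_lit 53) (nat_lit 5) (nat_lit 51) (nat_lit 5) (nat_lit 450) (nat_lit 410) (nat_lit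 160)) (XT.nd (nat_lit 78) (nat_lit 152) (nat_lit 0) (XT.lf (nat_lit 0) (nat_lit 199532387617) (nat_lit 152) (nat_lit 9508004487) (nat_lit 228) (nat_lit 192188180274) (nat_lit 48) (nat_lit 5) (nat_lit 50) (nat_lit 5) (nat_lit 51) (nat_lit 5) (nat_lit 451) (nat_lit 410) (nat_lit 159)) (XT.lf (nat_lit 0) (nat_lit 16221041458) (nat_lit 152) (nat_lit 289612978196) (nat_lit 228) (nat_lit 108686081360) (nat_lit 46) (nat_lit 5) (nat_lit 48) (nat_lit 5) (nat_lit 49) (nat_lit 5) (nat_lit 452) (nat_lit 410) (nat_lit 158)))) (XT.nd (nat_lit 156) (nat_lit 152) (nat_lit 0) (XT.nd (nat_lit 78) (nat_lit 228) (nat_lit 0) (XT.lf (nat_lit 0) (nat_lit 251875438312) (nat_lit 152) (nat_lit 159161005301) (nat_lit 228) (nat_lit 17261306737) (nat_lit 46) (nat_lit 5) (nat_lit 48) (nat_lit 5) (nat_lit 49) (nat_lit 5) (nat_lit 453) (nat_lit 410) (nat_lit 157)) (XT.lf (nat_lit 0) (nat_lit 57147994997) (nat_lit 152)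 (nat_lit 19958889274) (nat_lit 228) (nat_lit 365551325430) (nat_lit 43) (nat_lit 5) (nat_lit 45) (nat_lit 5) (nat_lit 46) (nat_lit 5) (nat_lit 454) (nat_lit 410) (nat_lit 156))) (XT.nd (nat_lit 78) (nat_lit 152) (nat_lit 0) (XT.lf (nat_lit 0) (nat_lit 180620497248) (nat_lit 228) (nat_lit 151367942578) (nat_lit 76) (nat_lit 125483748323) (nat_lit 43) (nat_lit 5) (nat_lit 46) (nat_lit 5) (nat_lit 44) (nat_lit 5) (nat_lit 455) (nat_lit 410) (nat_lit 155)) (XT.lf (nat_lit 0) (nat_lit 97267312674) (nat_lit 152) (nat_lit 193888231594) (nat_lit 228) (nat_lit 181779033598) (nat_lit 41) (nat_lit 5) (nat_lit 43) (nat_lit 5) (nat_lit 44) (nat_lit 5) (nat_lit 456) (nat_lit 410) (nat_lit 154))))))) (XT.nd (nat_lit 49764) (nat_lit 0) (nat_lit 4788) (XT.nd (nat_lit 468) (nat_lit 304) (nat_lit 0) (XT.nd (nat_lit 234) (nat_lit 228) (nat_lit 0) (XT.nd (nat_lit 78) (nat_lit 152) (nat_lit 0) (XT.lf (nat_lit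 0) (nat_lit 363589388398) (nat_lit 152) (nat_lit 46191388956) (nat_lit 228) (nat_lit 79261138046) (nat_lit 41) (nat_lit 5) (nat_lit 43) (nat_lit 5) (nat_lit 44) (nat_lit 5) (nat_lit 457) (nat_lit 410) (nat_lit 153)) (XT.nd (nat_lit 78) (nat_lit 0) (nat_lit 0) (XT.lf (nat_lit 0) (nat_lit 31424633042) (nat_lit 152) (nat_lit 366211713859) (nat_lit 76) (nat_lit 108098596141) (nat_lit 39) (nat_lit 5) (nat_lit 41) (nat_lit 5) (nat_lit 40) (nat_lit 5) (nat_lit 458) (nat_lit 410) (nat_lit 152)) (XT.lf (nat_lit 0) (nat_lit 147897610001) (nat_lit 152) (nat_lit 103144712030) (nat_lit 76) (nat_lit 272009501338) (nat_lit 39) (nat_lit 5) (nat_lit 41) (nat_lit 5) (nat_lit 40) (nat_lit 5) (nat_lit 459) (nat_lit 410) (nat_lit 151)))) (XT.nd (nat_lit 78) (nat_lit 76) (nat_lit 0) (XT.lf (nat_lit 0) (nat_lit 178798210418) (nat_lit 152) (nat_lit 94187515745) (nat_lit 228) (nat_lit 268109247044) (nat_lit 37)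 (nat_lit 5) (nat_lit 39) (nat_lit 5) (nat_lit 40) (nat_lit 5) (nat_lit 460) (nat_lit 410) (nat_lit 150)) (XT.nd (nat_lit 78) (nat_lit 76) (nat_lit 0) (XT.lf (nat_lit 0) (nat_lit 407204498760) (nat_lit 228) (nat_lit 82663294419) (nat_lit 76) (nat_lit 70028674839) (nat_lit 37) (nat_lit 5) (nat_lit 40) (nat_lit 5) (nat_lit 38) (nat_lit 4) (nat_lit 461) (nat_lit 410) (nat_lit 149)) (XT.lf (nat_lit 0) (nat_lit 216331669116) (nat_lit 76) (nat_lit 336724094203) (nat_lit 152) (nat_lit 26336196596) (nat_lit 36) (nat_lit 5) (nat_lit 37) (nat_lit 5) (nat_lit 38) (nat_lit 4) (nat_lit 462) (nat_lit 410) (nat_lit 148))))) (XT.nd (nat_lit 234) (nat_lit 76) (nat_lit 0) (XT.nd (nat_lit 78) (nat_lit 152) (nat_lit 0) (XT.lf (nat_lit 0) (nat_lit 104356749979) (nat_lit 152) (nat_lit 68329224933) (nat_lit 76) (nat_lit 427022098040) (nat_lit 35) (nat_lit 5) (nat_lit 37) (nat_lit 5) (nat_lit 36) (nat_lit 5) (nat_lit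 463) (nat_lit 410) (nat_lit 147)) (XT.nd (nat_lit 78) (nat_lit 0) (nat_lit 0) (XT.lf (nat_lit 0) (nat_lit 244645353539) (nat_lit 228) (nat_lit 372222630195) (nat_lit 76) (nat_lit 3953116941) (nat_lit 33) (nat_lit 5) (nat_lit 36) (nat_lit 5) (nat_lit 34) (nat_lit 4) (nat_lit 464) (nat_lit 410) (nat_lit 146)) (XT.lf (nat_lit 0) (nat_lit 395955418595) (nat_lit 228) (nat_lit 62037102802) (nat_lit 76) (nat_lit 184796906832) (nat_lit 33) (nat_lit 5) (nat_lit 36) (nat_lit 5) (nat_lit 34) (nat_lit 4) (nat_lit 465) (nat_lit 410) (nat_lit 145)))) (XT.nd (nat_lit 48906) (nat_lit 0) (nat_lit 5928) (XT.nd (nat_lit 48828) (nat_lit 0) (nat_lit 5928) (XT.lf (nat_lit 0) (nat_lit 272375335001) (nat_lit 76) (nat_lit 286708151267) (nat_lit 152) (nat_lit 106560060934) (nat_lit 32) (nat_lit 5) (nat_lit 33) (nat_lit 5) (nat_lit 34) (nat_lit 4) (nat_lit 466) (nat_lit 410) (nat_lit 144)) (XT.lf (nat_lit 0) (nat_lit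 14676594368) (nat_lit 836) (nat_lit 25164919852) (nat_lit 836) (nat_lit 25164919852) (nat_lit 110) (nat_lit 3) (nat_lit 121) (nat_lit 3) (nat_lit 121) (nat_lit 5) (nat_lit 411) (nat_lit 411) (nat_lit 198))) (XT.nd (nat_lit 78) (nat_lit 0) (nat_lit 76) (XT.lf (nat_lit 76) (nat_lit 12719501390) (nat_lit 0) (nat_lit 17569870026) (nat_lit 836) (nat_lit 102963698126) (nat_lit 111) (nat_lit 5) (nat_lit 110) (nat_lit 3) (nat_lit 121) (nat_lit 5) (nat_lit 412) (nat_lit 411) (nat_lit 197)) (XT.lf (nat_lit 0) (nat_lit 32882388769) (nat_lit 760) (nat_lit 56702066689) (nat_lit 836) (nat_lit 46990324443) (nat_lit 111) (nat_lit 5) (nat_lit 121) (nat_lit 5) (nat_lit 122) (nat_lit 5) (nat_lit 413) (nat_lit 411) (nat_lit 196)))))) (XT.nd (nat_lit 468) (nat_lit 1216) (nat_lit 0) (XT.nd (nat_lit 234) (nat_lit 0) (nat_lit 152) (XT.nd (nat_lit 78) (nat_lit 0) (nat_lit 76) (XT.lf (nat_lit 76) (nat_lit 10364572220)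 (nat_lit 0) (nat_lit 25690105582) (nat_lit 836) (nat_lit 103985417097) (nat_lit 112) (nat_lit 5) (nat_lit 111) (nat_lit 5) (nat_lit 122) (nat_lit 5) (nat_lit 414) (nat_lit 411) (nat_lit 195)) (XT.nd (nat_lit 78) (nat_lit 0) (nat_lit 0) (XT.lf (nat_lit 0) (nat_lit 41007734580) (nat_lit 760) (nat_lit 61539795387) (nat_lit 836) (nat_lit 41050038171) (nat_lit 112) (nat_lit 5) (nat_lit 122) (nat_lit 5) (nat_lit 123) (nat_lit 5) (nat_lit 415) (nat_lit 411) (nat_lit 194)) (XT.lf (nat_lit 76) (nat_lit 9898233012) (nat_lit 0) (nat_lit 36885690370) (nat_lit 836) (nat_lit 100520217844) (nat_lit 113) (nat_lit 5) (nat_lit 112) (nat_lit 5) (nat_lit 123) (nat_lit 5) (nat_lit 416) (nat_lit 411) (nat_lit 193)))) (XT.nd (nat_lit 78) (nat_lit 0) (nat_lit 0) (XT.lf (nat_lit 0) (nat_lit 54408547313) (nat_lit 760) (nat_lit 64617017209) (nat_lit 836) (nat_lit 32092497303) (nat_lit 113) (nat_lit 5) (nat_lit 123)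 (nat_lit 5) (nat_lit 124) (nat_lit 5) (nat_lit 417) (nat_lit 411) (nat_lit 192)) (XT.nd (nat_lit 78) (nat_lit 0) (nat_lit 76) (XT.lf (nat_lit 76) (nat_lit 11577029114) (nat_lit 0) (nat_lit 51622615718) (nat_lit 836) (nat_lit 91883771635) (nat_lit 114) (nat_lit 5) (nat_lit 113) (nat_lit 5) (nat_lit 124) (nat_lit 5) (nat_lit 418) (nat_lit 411) (nat_lit 191)) (XT.lf (nat_lit 0) (nat_lit 73841366674) (nat_lit 760) (nat_lit 65685271202) (nat_lit 836) (nat_lit 19649847620) (nat_lit 114) (nat_lit 5) (nat_lit 124) (nat_lit 5) (nat_lit 125) (nat_lit 5) (nat_lit 419) (nat_lit 411) (nat_lit 190))))) (XT.nd (nat_lit 234) (nat_lit 760) (nat_lit 0) (XT.nd (nat_lit 78) (nat_lit 684) (nat_lit 0) (XT.lf (nat_lit 76) (nat_lit 15682420216) (nat_lit 0) (nat_lit 70423698686) (nat_lit 836) (nat_lit 77313541980) (nat_lit 115) (nat_lit 5) (nat_lit 114) (nat_lit 5) (nat_lit 125) (nat_lit 5) (nat_lit 420) (nat_lit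 411) (nat_lit 189)) (XT.nd (nat_lit 78) (nat_lit 760) (nat_lit 0) (XT.lf (nat_lit 0) (nat_lit 100147912535) (nat_lit 760) (nat_lit 64472144166) (nat_lit 76) (nat_lit 3196748263) (nat_lit 115) (nat_lit 5) (nat_lit 125) (nat_lit 5) (nat_lit 116) (nat_lit 5) (nat_lit 421) (nat_lit 411) (nat_lit 188)) (XT.lf (nat_lit 0) (nat_lit 22522435861) (nat_lit 760) (nat_lit 93875325112) (nat_lit 836) (nat_lit 55960747130) (nat_lit 105) (nat_lit 5) (nat_lit 115) (nat_lit 5) (nat_lit 116) (nat_lit 5) (nat_lit 422) (nat_lit 411) (nat_lit 187)))) (XT.nd (nat_lit 156) (nat_lit 380) (nat_lit 0) (XT.nd (nat_lit 78) (nat_lit 380) (nat_lit 0) (XT.lf (nat_lit 0) (nat_lit 116104931423) (nat_lit 760) (nat_lit 18446882710) (nat_lit 836) (nat_lit 42520896755) (nat_lit 105) (nat_lit 5) (nat_lit 115) (nat_lit 5) (nat_lit 116) (nat_lit 5) (nat_lit 423) (nat_lit 411) (nat_lit 186)) (XT.lf (nat_lit 0) (nat_lit 32433331087)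 (nat_lit 380) (nat_lit 122634991277) (nat_lit 456) (nat_lit 26881563927) (nat_lit 100) (nat_lit 5) (nat_lit 105) (nat_lit 5) (nat_lit 106) (nat_lit 5) (nat_lit 424) (nat_lit 411) (nat_lit 185))) (XT.nd (nat_lit 78) (nat_lit 380) (nat_lit 0) (XT.lf (nat_lit 0) (nat_lit 132308614502) (nat_lit 380) (nat_lit 45631948459) (nat_lit 456) (nat_lit 9063862251) (nat_lit 100) (nat_lit 5) (nat_lit 105) (nat_lit 5) (nat_lit 106) (nat_lit 5) (nat_lit 425) (nat_lit 411) (nat_lit 184)) (XT.lf (nat_lit 0) (nat_lit 10621303138) (nat_lit 380) (nat_lit 146638561805) (nat_lit 76) (nat_lit 34980033661) (nat_lit 95) (nat_lit 5) (nat_lit 100) (nat_lit 5) (nat_lit 96) (nat_lit 5) (nat_lit 426) (nat_lit 411) (nat_lit 183))))))))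
noncomputable def xc235 : XT := (XT.nd (nat_lit 1950) (nat_lit 1292) (nat_lit 0) (XT.nd (nat_lit 936) (nat_lit 1596) (nat_lit 0) (XT.nd (nat_lit 468) (nat_lit 836) (nat_lit 0) (XT.nd (nat_lit 234) (nat_lit 608) (nat_lit 0) (XT.nd (nat_lit 78) (nat_lit 380) (nat_lit 0) (XT.lf (nat_lit 0) (nat_lit 32675538215) (nat_lit 380) (nat_lit 45790553740) (nat_lit 76) (nat_lit 119179153565) (nat_lit 95) (nat_lit 5) (nat_lit 100) (nat_lit 5) (nat_lit 96) (nat_lit 5) (nat_lit 427) (nat_lit 411) (nat_lit 182)) (XT.nd (nat_lit 78) (nat_lit 0) (nat_lit 0) (XT.lf (nat_lit 0) (nat_lit 56884224803) (nat_lit 456) (nat_lit 141268027448) (nat_lit 76) (nat_lit 5116020621) (nat_lit 90) (nat_lit 5) (nat_lit 96) (nat_lit 5) (nat_lit 91) (nat_lit 5) (nat_lit 428) (nat_lit 411) (nat_lit 181)) (XT.lf (nat_lit 0) (nat_lit 84377749951) (nat_lit 456) (nat_lit 33662529459) (nat_lit 76) (nat_lit 91028452045) (nat_lit 90)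 (nat_lit 5) (nat_lit 96) (nat_lit 5) (nat_lit 91) (nat_lit 5) (nat_lit 429) (nat_lit 411) (nat_lit 180)))) (XT.nd (nat_lit 78) (nat_lit 304) (nat_lit 0) (XT.lf (nat_lit 0) (nat_lit 81945891278) (nat_lit 304) (nat_lit 32579347758) (nat_lit 380) (nat_lit 100570009619) (nat_lit 86) (nat_lit 5) (nat_lit 90) (nat_lit 5) (nat_lit 91) (nat_lit 5) (nat_lit 430) (nat_lit 411) (nat_lit 179)) (XT.nd (nat_lit 78) (nat_lit 304) (nat_lit 0) (XT.lf (nat_lit 0) (nat_lit 147651769475) (nat_lit 380) (nat_lit 17792992600) (nat_lit 76) (nat_lit 55904746360) (nat_lit 86) (nat_lit 5) (nat_lit 91) (nat_lit 5) (nat_lit 87) (nat_lit 5) (nat_lit 431) (nat_lit 411) (nat_lit 178)) (XT.lf (nat_lit 0) (nat_lit 106195905603) (nat_lit 304) (nat_lit 78430715591) (nat_lit 380) (nat_lit 43180260338) (nat_lit 82) (nat_lit 5) (nat_lit 86) (nat_lit 5) (nat_lit 87) (nat_lit 5) (nat_lit 432) (nat_lit 411) (nat_lit 177))))) (XT.nd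 (nat_lit 234) (nat_lit 228) (nat_lit 0) (XT.nd (nat_lit 78) (nat_lit 380) (nat_lit 0) (XT.lf (nat_lit 0) (nat_lit 2296415620) (nat_lit 228) (nat_lit 221697756926) (nat_lit 304) (nat_lit 10565752945) (nat_lit 79) (nat_lit 5) (nat_lit 82) (nat_lit 5) (nat_lit 83) (nat_lit 5) (nat_lit 433) (nat_lit 411) (nat_lit 176)) (XT.nd (nat_lit 78) (nat_lit 304) (nat_lit 0) (XT.lf (nat_lit 0) (nat_lit 26300537200) (nat_lit 304) (nat_lit 106615758440) (nat_lit 76) (nat_lit 108546893482) (nat_lit 78) (nat_lit 5) (nat_lit 82) (nat_lit 5) (nat_lit 79) (nat_lit 5) (nat_lit 434) (nat_lit 411) (nat_lit 175)) (XT.lf (nat_lit 0) (nat_lit 25972320710) (nat_lit 304) (nat_lit 39088143748) (nat_lit 380) (nat_lit 183622221016) (nat_lit 74) (nat_lit 5) (nat_lit 78) (nat_lit 5) (nat_lit 79) (nat_lit 5) (nat_lit 435) (nat_lit 411) (nat_lit 174)))) (XT.nd (nat_lit 78) (nat_lit 228) (nat_lit 0) (XT.lf (nat_lit 0) (nat_lit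 108521371137) (nat_lit 380) (nat_lit 88239235389) (nat_lit 76) (nat_lit 59364401015) (nat_lit 74) (nat_lit 5) (nat_lit 79) (nat_lit 5) (nat_lit 75) (nat_lit 5) (nat_lit 436) (nat_lit 411) (nat_lit 173)) (XT.nd (nat_lit 78) (nat_lit 0) (nat_lit 0) (XT.lf (nat_lit 0) (nat_lit 54044292623) (nat_lit 228) (nat_lit 101595510078) (nat_lit 304) (nat_lit 108225419081) (nat_lit 71) (nat_lit 5) (nat_lit 74) (nat_lit 5) (nat_lit 75) (nat_lit 5) (nat_lit 437) (nat_lit 411) (nat_lit 172)) (XT.lf (nat_lit 0) (nat_lit 206505342562) (nat_lit 228) (nat_lit 103097383) (nat_lit 304) (nat_lit 65309292630) (nat_lit 71) (nat_lit 5) (nat_lit 74) (nat_lit 5) (nat_lit 75) (nat_lit 5) (nat_lit 438) (nat_lit 411) (nat_lit 171)))))) (XT.nd (nat_lit 468) (nat_lit 684) (nat_lit 0) (XT.nd (nat_lit 234) (nat_lit 380) (nat_lit 0) (XT.nd (nat_lit 78) (nat_lit 304) (nat_lit 0) (XT.lf (nat_lit 0) (nat_lit 87350001694) (nat_lit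 228) (nat_lit 175801399861) (nat_lit 304) (nat_lit 17070172771) (nat_lit 68) (nat_lit 5) (nat_lit 71) (nat_lit 5) (nat_lit 72) (nat_lit 5) (nat_lit 439) (nat_lit 411) (nat_lit 170)) (XT.nd (nat_lit 78) (nat_lit 228) (nat_lit 0) (XT.lf (nat_lit 0) (nat_lit 33633660190) (nat_lit 304) (nat_lit 39407998296) (nat_lit 76) (nat_lit 215816357332) (nat_lit 67) (nat_lit 5) (nat_lit 71) (nat_lit 5) (nat_lit 68) (nat_lit 5) (nat_lit 440) (nat_lit 411) (nat_lit 169)) (XT.lf (nat_lit 0) (nat_lit 88838685641) (nat_lit 304) (nat_lit 172930802268) (nat_lit 76) (nat_lit 36015816037) (nat_lit 64) (nat_lit 5) (nat_lit 68) (nat_lit 5) (nat_lit 65) (nat_lit 5) (nat_lit 441) (nat_lit 411) (nat_lit 168)))) (XT.nd (nat_lit 78) (nat_lit 380) (nat_lit 0) (XT.lf (nat_lit 0) (nat_lit 148679621275) (nat_lit 304) (nat_lit 9635764924) (nat_lit 76) (nat_lit 148749787373) (nat_lit 64) (nat_lit 5) (nat_lit 68) (nat_lit 5)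 (nat_lit 65) (nat_lit 5) (nat_lit 442) (nat_lit 411) (nat_lit 167)) (XT.nd (nat_lit 78) (nat_lit 152) (nat_lit 0) (XT.lf (nat_lit 0) (nat_lit 167174542853) (nat_lit 228) (nat_lit 46948048030) (nat_lit 304) (nat_lit 102555946471) (nat_lit 61) (nat_lit 5) (nat_lit 64) (nat_lit 5) (nat_lit 65) (nat_lit 5) (nat_lit 443) (nat_lit 411) (nat_lit 166)) (XT.lf (nat_lit 0) (nat_lit 26136529294) (nat_lit 152) (nat_lit 258367734581) (nat_lit 228) (nat_lit 42184977738) (nat_lit 59) (nat_lit 5) (nat_lit 61) (nat_lit 5) (nat_lit 62) (nat_lit 5) (nat_lit 444) (nat_lit 411) (nat_lit 165))))) (XT.nd (nat_lit 234) (nat_lit 380) (nat_lit 0) (XT.nd (nat_lit 78) (nat_lit 228) (nat_lit 0) (XT.lf (nat_lit 0) (nat_lit 23868857333) (nat_lit 228) (nat_lit 122466686816) (nat_lit 76) (nat_lit 190681234070) (nat_lit 58) (nat_lit 5) (nat_lit 61) (nat_lit 5) (nat_lit 59) (nat_lit 5) (nat_lit 445) (nat_lit 411) (nat_lit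 164)) (XT.nd (nat_lit 78) (nat_lit 0) (nat_lit 0) (XT.lf (nat_lit 0) (nat_lit 65942548813) (nat_lit 228) (nat_lit 26894621025) (nat_lit 304) (nat_lit 254937470118) (nat_lit 55) (nat_lit 5) (nat_lit 58) (nat_lit 5) (nat_lit 59) (nat_lit 5) (nat_lit 446) (nat_lit 411) (nat_lit 163)) (XT.lf (nat_lit 0) (nat_lit 168900009306) (nat_lit 304) (nat_lit 92514936812) (nat_lit 76) (nat_lit 97473143121) (nat_lit 55) (nat_lit 5) (nat_lit 59) (nat_lit 5) (nat_lit 56) (nat_lit 5) (nat_lit 447) (nat_lit 411) (nat_lit 162)))) (XT.nd (nat_lit 156) (nat_lit 228) (nat_lit 0) (XT.nd (nat_lit 78) (nat_lit 0) (nat_lit 0) (XT.lf (nat_lit 0) (nat_lit 109326197388) (nat_lit 152) (nat_lit 141587511102) (nat_lit 228) (nat_lit 119536116635) (nat_lit 53) (nat_lit 5) (nat_lit 55) (nat_lit 5) (nat_lit 56) (nat_lit 5) (nat_lit 448) (nat_lit 411) (nat_lit 161)) (XT.lf (nat_lit 0) (nat_lit 324471196177) (nat_lit 152) (nat_lit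 14123617220) (nat_lit 228) (nat_lit 43916498394) (nat_lit 53) (nat_lit 5) (nat_lit 55) (nat_lit 5) (nat_lit 56) (nat_lit 5) (nat_lit 449) (nat_lit 411) (nat_lit 160))) (XT.nd (nat_lit 78) (nat_lit 0) (nat_lit 0) (XT.lf (nat_lit 0) (nat_lit 38761608597) (nat_lit 228) (nat_lit 237185818568) (nat_lit 76) (nat_lit 118980084302) (nat_lit 50) (nat_lit 5) (nat_lit 53) (nat_lit 5) (nat_lit 51) (nat_lit 5) (nat_lit 450) (nat_lit 411) (nat_lit 159)) (XT.lf (nat_lit 0) (nat_lit 125328262959) (nat_lit 228) (nat_lit 22555451654) (nat_lit 76) (nat_lit 259983283187) (nat_lit 50) (nat_lit 5) (nat_lit 53) (nat_lit 5) (nat_lit 51) (nat_lit 5) (nat_lit 451) (nat_lit 411) (nat_lit 158))))))) (XT.nd (nat_lit 1014) (nat_lit 152) (nat_lit 0) (XT.nd (nat_lit 468) (nat_lit 456) (nat_lit 0) (XT.nd (nat_lit 234) (nat_lit 380) (nat_lit 0) (XT.nd (nat_lit 78) (nat_lit 152) (nat_lit 0) (XT.lf (nat_lit 0) (nat_lit 209512031850)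 (nat_lit 152) (nat_lit 9982229557) (nat_lit 228) (nat_lit 201795646493) (nat_lit 48) (nat_lit 5) (nat_lit 50) (nat_lit 5) (nat_lit 51) (nat_lit 5) (nat_lit 452) (nat_lit 411) (nat_lit 157)) (XT.nd (nat_lit 78) (nat_lit 0) (nat_lit 0) (XT.lf (nat_lit 0) (nat_lit 17035143139) (nat_lit 152) (nat_lit 304092404201) (nat_lit 228) (nat_lit 114118466806) (nat_lit 46) (nat_lit 5) (nat_lit 48) (nat_lit 5) (nat_lit 49) (nat_lit 5) (nat_lit 453) (nat_lit 411) (nat_lit 156)) (XT.lf (nat_lit 0) (nat_lit 264472114617) (nat_lit 152) (nat_lit 167117890895) (nat_lit 228) (nat_lit 18122544815) (nat_lit 46) (nat_lit 5) (nat_lit 48) (nat_lit 5) (nat_lit 49) (nat_lit 5) (nat_lit 454) (nat_lit 411) (nat_lit 155)))) (XT.nd (nat_lit 78) (nat_lit 152) (nat_lit 0) (XT.lf (nat_lit 0) (nat_lit 60008310351) (nat_lit 152) (nat_lit 20955648202) (nat_lit 228) (nat_lit 383827074626) (nat_lit 43) (nat_lit 5) (nat_lit 45)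 (nat_lit 5) (nat_lit 46) (nat_lit 5) (nat_lit 455) (nat_lit 411) (nat_lit 154)) (XT.nd (nat_lit 78) (nat_lit 152) (nat_lit 0) (XT.lf (nat_lit 0) (nat_lit 189653187423) (nat_lit 228) (nat_lit 158933497706) (nat_lit 76) (nat_lit 131759028683) (nat_lit 43) (nat_lit 5) (nat_lit 46) (nat_lit 5) (nat_lit 44) (nat_lit 5) (nat_lit 456) (nat_lit 411) (nat_lit 153)) (XT.lf (nat_lit 0) (nat_lit 102133474470) (nat_lit 152) (nat_lit 203581476679) (nat_lit 228) (nat_lit 190866273671) (nat_lit 41) (nat_lit 5) (nat_lit 43) (nat_lit 5) (nat_lit 44) (nat_lit 5) (nat_lit 457) (nat_lit 411) (nat_lit 152))))) (XT.nd (nat_lit 234) (nat_lit 304) (nat_lit 0) (XT.nd (nat_lit 78) (nat_lit 152) (nat_lit 0) (XT.lf (nat_lit 0) (nat_lit 381771520830) (nat_lit 152) (nat_lit 48499847456) (nat_lit 228) (nat_lit 83222564845) (nat_lit 41) (nat_lit 5) (nat_lit 43) (nat_lit 5) (nat_lit 44) (nat_lit 5) (nat_lit 458) (nat_lit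 411) (nat_lit 151)) (XT.nd (nat_lit 78) (nat_lit 0) (nat_lit 0) (XT.lf (nat_lit 0) (nat_lit 32997426799) (nat_lit 152) (nat_lit 384519567733) (nat_lit 76) (nat_lit 113504617163) (nat_lit 39) (nat_lit 5) (nat_lit 41) (nat_lit 5) (nat_lit 40) (nat_lit 5) (nat_lit 459) (nat_lit 411) (nat_lit 150)) (XT.lf (nat_lit 0) (nat_lit 155293978219) (nat_lit 152) (nat_lit 108299345899) (nat_lit 76) (nat_lit 285611015658) (nat_lit 39) (nat_lit 5) (nat_lit 41) (nat_lit 5) (nat_lit 40) (nat_lit 5) (nat_lit 460) (nat_lit 411) (nat_lit 149)))) (XT.nd (nat_lit 156) (nat_lit 152) (nat_lit 0) (XT.nd (nat_lit 78) (nat_lit 0) (nat_lit 0) (XT.lf (nat_lit 0) (nat_lit 187740680708) (nat_lit 152) (nat_lit 98895788603) (nat_lit 228) (nat_lit 281513179357) (nat_lit 37) (nat_lit 5) (nat_lit 39) (nat_lit 5) (nat_lit 40) (nat_lit 5) (nat_lit 461) (nat_lit 411) (nat_lit 148)) (XT.lf (nat_lit 0) (nat_lit 427566127565) (nat_lit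 228) (nat_lit 86793967950) (nat_lit 76) (nat_lit 73531125371) (nat_lit 37) (nat_lit 5) (nat_lit 40) (nat_lit 5) (nat_lit 38) (nat_lit 4) (nat_lit 462) (nat_lit 411) (nat_lit 147))) (XT.nd (nat_lit 78) (nat_lit 76) (nat_lit 0) (XT.lf (nat_lit 0) (nat_lit 227150703581) (nat_lit 76) (nat_lit 353559223186) (nat_lit 152) (nat_lit 27651562055) (nat_lit 36) (nat_lit 5) (nat_lit 37) (nat_lit 5) (nat_lit 38) (nat_lit 4) (nat_lit 463) (nat_lit 411) (nat_lit 146)) (XT.lf (nat_lit 0) (nat_lit 109575919042) (nat_lit 152) (nat_lit 71743307563) (nat_lit 76) (nat_lit 448374183122) (nat_lit 35) (nat_lit 5) (nat_lit 37) (nat_lit 5) (nat_lit 36) (nat_lit 5) (nat_lit 464) (nat_lit 411) (nat_lit 145)))))) (XT.nd (nat_lit 49296) (nat_lit 0) (nat_lit 6004) (XT.nd (nat_lit 49062) (nat_lit 0) (nat_lit 5852) (XT.nd (nat_lit 78) (nat_lit 0) (nat_lit 0) (XT.lf (nat_lit 0) (nat_lit 256878942078) (nat_lit 228) (nat_lit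 390831372106) (nat_lit 76) (nat_lit 4151775201) (nat_lit 33) (nat_lit 5) (nat_lit 36) (nat_lit 5) (nat_lit 34) (nat_lit 4) (nat_lit 465) (nat_lit 411) (nat_lit 144)) (XT.nd (nat_lit 48906) (nat_lit 0) (nat_lit 5852) (XT.lf (nat_lit 0) (nat_lit 415754447489) (nat_lit 228) (nat_lit 65136682134) (nat_lit 76) (nat_lit 194037706853) (nat_lit 33) (nat_lit 5) (nat_lit 36) (nat_lit 5) (nat_lit 34) (nat_lit 4) (nat_lit 466) (nat_lit 411) (nat_lit 143)) (XT.lf (nat_lit 0) (nat_lit 15414131188) (nat_lit 836) (nat_lit 26421218307) (nat_lit 836) (nat_lit 26421218307) (nat_lit 110) (nat_lit 3) (nat_lit 121) (nat_lit 3) (nat_lit 121) (nat_lit 5) (nat_lit 412) (nat_lit 412) (nat_lit 196)))) (XT.nd (nat_lit 78) (nat_lit 0) (nat_lit 76) (XT.lf (nat_lit 76) (nat_lit 13359308709) (nat_lit 0) (nat_lit 18451652254) (nat_lit 836) (nat_lit 108104401020) (nat_lit 111) (nat_lit 5) (nat_lit 110) (nat_lit 3) (nat_lit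 121) (nat_lit 5) (nat_lit 413) (nat_lit 412) (nat_lit 195)) (XT.nd (nat_lit 78) (nat_lit 0) (nat_lit 0) (XT.lf (nat_lit 0) (nat_lit 34533241189) (nat_lit 760) (nat_lit 59533127517) (nat_lit 836) (nat_lit 49336808792) (nat_lit 111) (nat_lit 5) (nat_lit 121) (nat_lit 5) (nat_lit 122) (nat_lit 5) (nat_lit 414) (nat_lit 412) (nat_lit 194)) (XT.lf (nat_lit 76) (nat_lit 10886778136) (nat_lit 0) (nat_lit 26977108017) (nat_lit 836) (nat_lit 109177885246) (nat_lit 112) (nat_lit 5) (nat_lit 111) (nat_lit 5) (nat_lit 122) (nat_lit 5) (nat_lit 415) (nat_lit 412) (nat_lit 193))))) (XT.nd (nat_lit 234) (nat_lit 0) (nat_lit 76) (XT.nd (nat_lit 78) (nat_lit 0) (nat_lit 0) (XT.lf (nat_lit 0) (nat_lit 43064250331) (nat_lit 760) (nat_lit 64612647502) (nat_lit 836) (nat_lit 43100237955) (nat_lit 112) (nat_lit 5) (nat_lit 122) (nat_lit 5) (nat_lit 123) (nat_lit 5) (nat_lit 416) (nat_lit 412) (nat_lit 192)) (XT.nd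 (nat_lit 78) (nat_lit 0) (nat_lit 76) (XT.lf (nat_lit 76) (nat_lit 10397215581) (nat_lit 0) (nat_lit 38731804692) (nat_lit 836) (nat_lit 105540028877) (nat_lit 113) (nat_lit 5) (nat_lit 112) (nat_lit 5) (nat_lit 123) (nat_lit 5) (nat_lit 417) (nat_lit 412) (nat_lit 191)) (XT.lf (nat_lit 0) (nat_lit 57134567206) (nat_lit 760) (nat_lit 67843678902) (nat_lit 836) (nat_lit 33695435274) (nat_lit 113) (nat_lit 5) (nat_lit 123) (nat_lit 5) (nat_lit 124) (nat_lit 5) (nat_lit 418) (nat_lit 412) (nat_lit 190)))) (XT.nd (nat_lit 156) (nat_lit 0) (nat_lit 76) (XT.nd (nat_lit 78) (nat_lit 0) (nat_lit 76) (XT.lf (nat_lit 76) (nat_lit 12160002169) (nat_lit 0) (nat_lit 54205015470) (nat_lit 836) (nat_lit 96472296402) (nat_lit 114) (nat_lit 5) (nat_lit 113) (nat_lit 5) (nat_lit 124) (nat_lit 5) (nat_lit 419) (nat_lit 412) (nat_lit 189)) (XT.lf (nat_lit 0) (nat_lit 77538550011) (nat_lit 760) (nat_lit 68965330323)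 (nat_lit 836) (nat_lit 20631170142) (nat_lit 114) (nat_lit 5) (nat_lit 124) (nat_lit 5) (nat_lit 125) (nat_lit 5) (nat_lit 420) (nat_lit 412) (nat_lit 188))) (XT.nd (nat_lit 78) (nat_lit 0) (nat_lit 76) (XT.lf (nat_lit 76) (nat_lit 16470677852) (nat_lit 0) (nat_lit 73945683011) (nat_lit 836) (nat_lit 81174032887) (nat_lit 115) (nat_lit 5) (nat_lit 114) (nat_lit 5) (nat_lit 125) (nat_lit 5) (nat_lit 421) (nat_lit 412) (nat_lit 187)) (XT.lf (nat_lit 0) (nat_lit 105159997243) (nat_lit 760) (nat_lit 67691561582) (nat_lit 76) (nat_lit 3355848718) (nat_lit 115) (nat_lit 5) (nat_lit 125) (nat_lit 5) (nat_lit 116) (nat_lit 5) (nat_lit 422) (nat_lit 412) (nat_lit 186))))))))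
noncomputable def xc236 : XT := (XT.nd (nat_lit 1950) (nat_lit 1672) (nat_lit 0) (XT.nd (nat_lit 936) (nat_lit 1824) (nat_lit 0) (XT.nd (nat_lit 468) (nat_lit 1216) (nat_lit 0) (XT.nd (nat_lit 234) (nat_lit 380) (nat_lit 0) (XT.nd (nat_lit 78) (nat_lit 380) (nat_lit 0) (XT.lf (nat_lit 0) (nat_lit 23652679869) (nat_lit 760) (nat_lit 98569499304) (nat_lit 836) (nat_lit 58754024766) (nat_lit 105) (nat_lit 5) (nat_lit 115) (nat_lit 5) (nat_lit 116) (nat_lit 5) (nat_lit 423) (nat_lit 412) (nat_lit 185)) (XT.nd (nat_lit 78) (nat_lit 380) (nat_lit 0) (XT.lf (nat_lit 0) (nat_lit 121914103913) (nat_lit 760) (nat_lit 19369615357) (nat_lit 836) (nat_lit 44642408526) (nat_lit 105) (nat_lit 5) (nat_lit 115) (nat_lit 5) (nat_lit 116) (nat_lit 5) (nat_lit 424) (nat_lit 412) (nat_lit 184)) (XT.lf (nat_lit 0) (nat_lit 34059081317) (nat_lit 380) (nat_lit 128766824127) (nat_lit 456) (nat_lit 28221264038) (nat_lit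 100) (nat_lit 5) (nat_lit 105) (nat_lit 5) (nat_lit 106) (nat_lit 5) (nat_lit 425) (nat_lit 412) (nat_lit 183)))) (XT.nd (nat_lit 78) (nat_lit 380) (nat_lit 0) (XT.lf (nat_lit 0) (nat_lit 138927934442) (nat_lit 380) (nat_lit 47913625202) (nat_lit 456) (nat_lit 9512885758) (nat_lit 100) (nat_lit 5) (nat_lit 105) (nat_lit 5) (nat_lit 106) (nat_lit 5) (nat_lit 426) (nat_lit 412) (nat_lit 182)) (XT.nd (nat_lit 78) (nat_lit 0) (nat_lit 0) (XT.lf (nat_lit 0) (nat_lit 11156274931) (nat_lit 380) (nat_lit 153966332794) (nat_lit 76) (nat_lit 36729088079) (nat_lit 95) (nat_lit 5) (nat_lit 100) (nat_lit 5) (nat_lit 96) (nat_lit 5) (nat_lit 427) (nat_lit 412) (nat_lit 181)) (XT.lf (nat_lit 0) (nat_lit 34313035732) (nat_lit 380) (nat_lit 48076122283) (nat_lit 76) (nat_lit 125138161467) (nat_lit 95) (nat_lit 5) (nat_lit 100) (nat_lit 5) (nat_lit 96) (nat_lit 5) (nat_lit 428) (nat_lit 412) (nat_lit 180)))))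 (XT.nd (nat_lit 234) (nat_lit 532) (nat_lit 0) (XT.nd (nat_lit 78) (nat_lit 304) (nat_lit 0) (XT.lf (nat_lit 0) (nat_lit 59732044838) (nat_lit 456) (nat_lit 148327355689) (nat_lit 76) (nat_lit 5372103374) (nat_lit 90) (nat_lit 5) (nat_lit 96) (nat_lit 5) (nat_lit 91) (nat_lit 5) (nat_lit 429) (nat_lit 412) (nat_lit 179)) (XT.nd (nat_lit 78) (nat_lit 304) (nat_lit 0) (XT.lf (nat_lit 0) (nat_lit 88600074396) (nat_lit 456) (nat_lit 35341776759) (nat_lit 76) (nat_lit 95580142954) (nat_lit 90) (nat_lit 5) (nat_lit 96) (nat_lit 5) (nat_lit 91) (nat_lit 5) (nat_lit 430) (nat_lit 412) (nat_lit 178)) (XT.lf (nat_lit 0) (nat_lit 86047002447) (nat_lit 304) (nat_lit 34207831411) (nat_lit 380) (nat_lit 105595008612) (nat_lit 86) (nat_lit 5) (nat_lit 90) (nat_lit 5) (nat_lit 91) (nat_lit 5) (nat_lit 431) (nat_lit 412) (nat_lit 177)))) (XT.nd (nat_lit 78) (nat_lit 532) (nat_lit 0) (XT.lf (nat_lit 0) (nat_lit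 155037539304) (nat_lit 380) (nat_lit 18678853973) (nat_lit 76) (nat_lit 58700429633) (nat_lit 86) (nat_lit 5) (nat_lit 91) (nat_lit 5) (nat_lit 87) (nat_lit 5) (nat_lit 432) (nat_lit 412) (nat_lit 176)) (XT.nd (nat_lit 78) (nat_lit 228) (nat_lit 0) (XT.lf (nat_lit 0) (nat_lit 111509428039) (nat_lit 304) (nat_lit 82351612269) (nat_lit 380) (nat_lit 45336029109) (nat_lit 82) (nat_lit 5) (nat_lit 86) (nat_lit 5) (nat_lit 87) (nat_lit 5) (nat_lit 433) (nat_lit 412) (nat_lit 175)) (XT.lf (nat_lit 0) (nat_lit 2415047297) (nat_lit 228) (nat_lit 232781843882) (nat_lit 304) (nat_lit 11090878383) (nat_lit 79) (nat_lit 5) (nat_lit 82) (nat_lit 5) (nat_lit 83) (nat_lit 5) (nat_lit 434) (nat_lit 412) (nat_lit 174)))))) (XT.nd (nat_lit 468) (nat_lit 988) (nat_lit 0) (XT.nd (nat_lit 234) (nat_lit 456) (nat_lit 0) (XT.nd (nat_lit 78) (nat_lit 304) (nat_lit 0) (XT.lf (nat_lit 0) (nat_lit 27618479297) (nat_lit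 304) (nat_lit 111942819000) (nat_lit 76) (nat_lit 113974902973) (nat_lit 78) (nat_lit 5) (nat_lit 82) (nat_lit 5) (nat_lit 79) (nat_lit 5) (nat_lit 435) (nat_lit 412) (nat_lit 173)) (XT.nd (nat_lit 78) (nat_lit 0) (nat_lit 0) (XT.lf (nat_lit 0) (nat_lit 27274603989) (nat_lit 304) (nat_lit 41041717365) (nat_lit 380) (nat_lit 192800355238) (nat_lit 74) (nat_lit 5) (nat_lit 78) (nat_lit 5) (nat_lit 79) (nat_lit 5) (nat_lit 436) (nat_lit 412) (nat_lit 172)) (XT.lf (nat_lit 0) (nat_lit 113950150825) (nat_lit 380) (nat_lit 92647580601) (nat_lit 76) (nat_lit 62333389534) (nat_lit 74) (nat_lit 5) (nat_lit 79) (nat_lit 5) (nat_lit 75) (nat_lit 5) (nat_lit 437) (nat_lit 412) (nat_lit 171)))) (XT.nd (nat_lit 78) (nat_lit 228) (nat_lit 0) (XT.lf (nat_lit 0) (nat_lit 56750065479) (nat_lit 228) (nat_lit 106674364939) (nat_lit 304) (nat_lit 113633919237) (nat_lit 71) (nat_lit 5) (nat_lit 74) (nat_lit 5)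 (nat_lit 75) (nat_lit 5) (nat_lit 438) (nat_lit 412) (nat_lit 170)) (XT.nd (nat_lit 78) (nat_lit 228) (nat_lit 0) (XT.lf (nat_lit 0) (nat_lit 216833998476) (nat_lit 228) (nat_lit 107375449) (nat_lit 304) (nat_lit 68572118407) (nat_lit 71) (nat_lit 5) (nat_lit 74) (nat_lit 5) (nat_lit 75) (nat_lit 5) (nat_lit 439) (nat_lit 412) (nat_lit 169)) (XT.lf (nat_lit 0) (nat_lit 91720947263) (nat_lit 228) (nat_lit 184590483566) (nat_lit 304) (nat_lit 17921098041) (nat_lit 68) (nat_lit 5) (nat_lit 71) (nat_lit 5) (nat_lit 72) (nat_lit 5) (nat_lit 440) (nat_lit 412) (nat_lit 168))))) (XT.nd (nat_lit 234) (nat_lit 684) (nat_lit 0) (XT.nd (nat_lit 78) (nat_lit 228) (nat_lit 0) (XT.lf (nat_lit 0) (nat_lit 35317724803) (nat_lit 304) (nat_lit 41375036951) (nat_lit 76) (nat_lit 226608034675) (nat_lit 67) (nat_lit 5) (nat_lit 71) (nat_lit 5) (nat_lit 68) (nat_lit 5) (nat_lit 441) (nat_lit 412) (nat_lit 167))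 (XT.nd (nat_lit 78) (nat_lit 0) (nat_lit 0) (XT.lf (nat_lit 0) (nat_lit 93282955163) (nat_lit 304) (nat_lit 181573933712) (nat_lit 76) (nat_lit 37817562461) (nat_lit 64) (nat_lit 5) (nat_lit 68) (nat_lit 5) (nat_lit 65) (nat_lit 5) (nat_lit 442) (nat_lit 412) (nat_lit 166)) (XT.lf (nat_lit 0) (nat_lit 156115826377) (nat_lit 304) (nat_lit 10114306818) (nat_lit 76) (nat_lit 156188186858) (nat_lit 64) (nat_lit 5) (nat_lit 68) (nat_lit 5) (nat_lit 65) (nat_lit 5) (nat_lit 443) (nat_lit 412) (nat_lit 165)))) (XT.nd (nat_lit 156) (nat_lit 304) (nat_lit 0) (XT.nd (nat_lit 78) (nat_lit 152) (nat_lit 0) (XT.lf (nat_lit 0) (nat_lit 175536463988) (nat_lit 228) (nat_lit 49294424438) (nat_lit 304) (nat_lit 107681466447) (nat_lit 61) (nat_lit 5) (nat_lit 64) (nat_lit 5) (nat_lit 65) (nat_lit 5) (nat_lit 444) (nat_lit 412) (nat_lit 164)) (XT.lf (nat_lit 0) (nat_lit 27446590060) (nat_lit 152) (nat_lit 271285017522)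 (nat_lit 228) (nat_lit 44291988682) (nat_lit 59) (nat_lit 5) (nat_lit 61) (nat_lit 5) (nat_lit 62) (nat_lit 5) (nat_lit 445) (nat_lit 412) (nat_lit 163))) (XT.nd (nat_lit 78) (nat_lit 228) (nat_lit 0) (XT.lf (nat_lit 0) (nat_lit 25064363356) (nat_lit 228) (nat_lit 128586871833) (nat_lit 76) (nat_lit 200216277963) (nat_lit 58) (nat_lit 5) (nat_lit 61) (nat_lit 5) (nat_lit 59) (nat_lit 5) (nat_lit 446) (nat_lit 412) (nat_lit 162)) (XT.lf (nat_lit 0) (nat_lit 69242774782) (nat_lit 228) (nat_lit 28238266836) (nat_lit 304) (nat_lit 267682228891) (nat_lit 55) (nat_lit 5) (nat_lit 58) (nat_lit 5) (nat_lit 59) (nat_lit 5) (nat_lit 447) (nat_lit 412) (nat_lit 161))))))) (XT.nd (nat_lit 1014) (nat_lit 456) (nat_lit 0) (XT.nd (nat_lit 468) (nat_lit 684) (nat_lit 0) (XT.nd (nat_lit 234) (nat_lit 380) (nat_lit 0) (XT.nd (nat_lit 78) (nat_lit 152) (nat_lit 0) (XT.lf (nat_lit 0) (nat_lit 177346943325)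 (nat_lit 304) (nat_lit 97137652195) (nat_lit 76) (nat_lit 102347800760) (nat_lit 55) (nat_lit 5) (nat_lit 59) (nat_lit 5) (nat_lit 56) (nat_lit 5) (nat_lit 448) (nat_lit 412) (nat_lit 160)) (XT.nd (nat_lit 78) (nat_lit 0) (nat_lit 0) (XT.lf (nat_lit 0) (nat_lit 114795489820) (nat_lit 152) (nat_lit 148665792140) (nat_lit 228) (nat_lit 125510939310) (nat_lit 53) (nat_lit 5) (nat_lit 55) (nat_lit 5) (nat_lit 56) (nat_lit 5) (nat_lit 449) (nat_lit 412) (nat_lit 159)) (XT.lf (nat_lit 0) (nat_lit 340697596521) (nat_lit 152) (nat_lit 14828755684) (nat_lit 228) (nat_lit 46110434594) (nat_lit 53) (nat_lit 5) (nat_lit 55) (nat_lit 5) (nat_lit 56) (nat_lit 5) (nat_lit 450) (nat_lit 412) (nat_lit 158)))) (XT.nd (nat_lit 78) (nat_lit 152) (nat_lit 0) (XT.lf (nat_lit 0) (nat_lit 40701491498) (nat_lit 228) (nat_lit 249042181458) (nat_lit 76) (nat_lit 124930123348) (nat_lit 50) (nat_lit 5) (nat_lit 53)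 (nat_lit 5) (nat_lit 51) (nat_lit 5) (nat_lit 451) (nat_lit 412) (nat_lit 157)) (XT.nd (nat_lit 78) (nat_lit 152) (nat_lit 0) (XT.lf (nat_lit 0) (nat_lit 131596392746) (nat_lit 228) (nat_lit 23680435628) (nat_lit 76) (nat_lit 272983432900) (nat_lit 50) (nat_lit 5) (nat_lit 53) (nat_lit 5) (nat_lit 51) (nat_lit 5) (nat_lit 452) (nat_lit 412) (nat_lit 156)) (XT.lf (nat_lit 0) (nat_lit 219990377073) (nat_lit 152) (nat_lit 10480275135) (nat_lit 228) (nat_lit 211883666645) (nat_lit 48) (nat_lit 5) (nat_lit 50) (nat_lit 5) (nat_lit 51) (nat_lit 5) (nat_lit 453) (nat_lit 412) (nat_lit 155))))) (XT.nd (nat_lit 234) (nat_lit 304) (nat_lit 0) (XT.nd (nat_lit 78) (nat_lit 228) (nat_lit 0) (XT.lf (nat_lit 0) (nat_lit 17889666381) (nat_lit 152) (nat_lit 319295915201) (nat_lit 228) (nat_lit 119822649900) (nat_lit 46) (nat_lit 5) (nat_lit 48) (nat_lit 5) (nat_lit 49) (nat_lit 5) (nat_lit 454) (nat_lit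 412) (nat_lit 154)) (XT.nd (nat_lit 78) (nat_lit 228) (nat_lit 0) (XT.lf (nat_lit 0) (nat_lit 277698354714) (nat_lit 152) (nat_lit 175472729049) (nat_lit 228) (nat_lit 19027014678) (nat_lit 46) (nat_lit 5) (nat_lit 48) (nat_lit 5) (nat_lit 49) (nat_lit 5) (nat_lit 455) (nat_lit 412) (nat_lit 153)) (XT.lf (nat_lit 0) (nat_lit 63011370408) (nat_lit 152) (nat_lit 22002355296) (nat_lit 228) (nat_lit 403016780217) (nat_lit 43) (nat_lit 5) (nat_lit 45) (nat_lit 5) (nat_lit 46) (nat_lit 5) (nat_lit 456) (nat_lit 412) (nat_lit 152)))) (XT.nd (nat_lit 156) (nat_lit 152) (nat_lit 0) (XT.nd (nat_lit 78) (nat_lit 152) (nat_lit 0) (XT.lf (nat_lit 0) (nat_lit 199137357281) (nat_lit 228) (nat_lit 166877594812) (nat_lit 76) (nat_lit 138347971450) (nat_lit 43) (nat_lit 5) (nat_lit 46) (nat_lit 5) (nat_lit 44) (nat_lit 5) (nat_lit 457) (nat_lit 412) (nat_lit 151)) (XT.lf (nat_lit 0) (nat_lit 107242684396)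 (nat_lit 152) (nat_lit 213759492467) (nat_lit 228) (nat_lit 200408034876) (nat_lit 41) (nat_lit 5) (nat_lit 43) (nat_lit 5) (nat_lit 44) (nat_lit 5) (nat_lit 458) (nat_lit 412) (nat_lit 150))) (XT.nd (nat_lit 78) (nat_lit 152) (nat_lit 0) (XT.lf (nat_lit 0) (nat_lit 400862512302) (nat_lit 152) (nat_lit 50923832167) (nat_lit 228) (nat_lit 87382214537) (nat_lit 41) (nat_lit 5) (nat_lit 43) (nat_lit 5) (nat_lit 44) (nat_lit 5) (nat_lit 459) (nat_lit 412) (nat_lit 149)) (XT.lf (nat_lit 0) (nat_lit 34648715013) (nat_lit 152) (nat_lit 403743068279) (nat_lit 76) (nat_lit 119180837786) (nat_lit 39) (nat_lit 5) (nat_lit 41) (nat_lit 5) (nat_lit 40) (nat_lit 5) (nat_lit 460) (nat_lit 412) (nat_lit 148)))))) (XT.nd (nat_lit 49374) (nat_lit 0) (nat_lit 5852) (XT.nd (nat_lit 234) (nat_lit 304) (nat_lit 0) (XT.nd (nat_lit 78) (nat_lit 152) (nat_lit 0) (XT.lf (nat_lit 0) (nat_lit 163060026534) (nat_lit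 152) (nat_lit 113711953346) (nat_lit 76) (nat_lit 299892509074) (nat_lit 39) (nat_lit 5) (nat_lit 41) (nat_lit 5) (nat_lit 40) (nat_lit 5) (nat_lit 461) (nat_lit 412) (nat_lit 147)) (XT.nd (nat_lit 78) (nat_lit 0) (nat_lit 0) (XT.lf (nat_lit 0) (nat_lit 197130036529) (nat_lit 152) (nat_lit 103839577644) (nat_lit 228) (nat_lit 295587450534) (nat_lit 37) (nat_lit 5) (nat_lit 39) (nat_lit 5) (nat_lit 40) (nat_lit 5) (nat_lit 462) (nat_lit 412) (nat_lit 146)) (XT.lf (nat_lit 0) (nat_lit 448945707291) (nat_lit 228) (nat_lit 91131406765) (nat_lit 76) (nat_lit 77208603897) (nat_lit 37) (nat_lit 5) (nat_lit 40) (nat_lit 5) (nat_lit 38) (nat_lit 4) (nat_lit 463) (nat_lit 412) (nat_lit 145)))) (XT.nd (nat_lit 78) (nat_lit 228) (nat_lit 0) (XT.lf (nat_lit 0) (nat_lit 238510461897) (nat_lit 76) (nat_lit 371236208630) (nat_lit 152) (nat_lit 29032830071) (nat_lit 36) (nat_lit 5) (nat_lit 37) (nat_lit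 5) (nat_lit 38) (nat_lit 4) (nat_lit 464) (nat_lit 412) (nat_lit 144)) (XT.nd (nat_lit 78) (nat_lit 152) (nat_lit 0) (XT.lf (nat_lit 0) (nat_lit 115055922762) (nat_lit 152) (nat_lit 75328315466) (nat_lit 76) (nat_lit 470793781330) (nat_lit 35) (nat_lit 5) (nat_lit 37) (nat_lit 5) (nat_lit 36) (nat_lit 5) (nat_lit 465) (nat_lit 412) (nat_lit 143)) (XT.lf (nat_lit 0) (nat_lit 269724087243) (nat_lit 228) (nat_lit 410370773276) (nat_lit 76) (nat_lit 4360273180) (nat_lit 33) (nat_lit 5) (nat_lit 36) (nat_lit 5) (nat_lit 34) (nat_lit 4) (nat_lit 466) (nat_lit 412) (nat_lit 142))))) (XT.nd (nat_lit 234) (nat_lit 0) (nat_lit 76) (XT.nd (nat_lit 78) (nat_lit 0) (nat_lit 0) (XT.lf (nat_lit 0) (nat_lit 16188200197) (nat_lit 836) (nat_lit 27740512749) (nat_lit 836) (nat_lit 27740512749) (nat_lit 110) (nat_lit 3) (nat_lit 121) (nat_lit 3) (nat_lit 121) (nat_lit 5) (nat_lit 413) (nat_lit 413) (nat_lit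 194)) (XT.nd (nat_lit 78) (nat_lit 0) (nat_lit 76) (XT.lf (nat_lit 76) (nat_lit 14030750108) (nat_lit 0) (nat_lit 19377217839) (nat_lit 836) (nat_lit 113502834666) (nat_lit 111) (nat_lit 5) (nat_lit 110) (nat_lit 3) (nat_lit 121) (nat_lit 5) (nat_lit 414) (nat_lit 413) (nat_lit 193)) (XT.lf (nat_lit 0) (nat_lit 36266010261) (nat_lit 760) (nat_lit 62506117221) (nat_lit 836) (nat_lit 51800899233) (nat_lit 111) (nat_lit 5) (nat_lit 121) (nat_lit 5) (nat_lit 122) (nat_lit 5) (nat_lit 415) (nat_lit 413) (nat_lit 192)))) (XT.nd (nat_lit 156) (nat_lit 0) (nat_lit 76) (XT.nd (nat_lit 78) (nat_lit 0) (nat_lit 76) (XT.lf (nat_lit 76) (nat_lit 11434724575) (nat_lit 0) (nat_lit 28328228412) (nat_lit 836) (nat_lit 114630609253) (nat_lit 112) (nat_lit 5) (nat_lit 111) (nat_lit 5) (nat_lit 122) (nat_lit 5) (nat_lit 416) (nat_lit 413) (nat_lit 191)) (XT.lf (nat_lit 0) (nat_lit 45223022050) (nat_lit 760)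 (nat_lit 67839526902) (nat_lit 836) (nat_lit 45253161757) (nat_lit 112) (nat_lit 5) (nat_lit 122) (nat_lit 5) (nat_lit 123) (nat_lit 5) (nat_lit 417) (nat_lit 413) (nat_lit 190))) (XT.nd (nat_lit 78) (nat_lit 0) (nat_lit 76) (XT.lf (nat_lit 76) (nat_lit 10920768803) (nat_lit 0) (nat_lit 40670054612) (nat_lit 836) (nat_lit 110811406865) (nat_lit 113) (nat_lit 5) (nat_lit 112) (nat_lit 5) (nat_lit 123) (nat_lit 5) (nat_lit 418) (nat_lit 413) (nat_lit 189)) (XT.lf (nat_lit 0) (nat_lit 59996368153) (nat_lit 760) (nat_lit 71232063150) (nat_lit 836) (nat_lit 35378676976) (nat_lit 113) (nat_lit 5) (nat_lit 123) (nat_lit 5) (nat_lit 124) (nat_lit 5) (nat_lit 419) (nat_lit 413) (nat_lit 188))))))))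
noncomputable def xc237 : XT := (XT.nd (nat_lit 1950) (nat_lit 2128) (nat_lit 0) (XT.nd (nat_lit 936) (nat_lit 1976) (nat_lit 0) (XT.nd (nat_lit 468) (nat_lit 1140) (nat_lit 0) (XT.nd (nat_lit 234) (nat_lit 608) (nat_lit 0) (XT.nd (nat_lit 78) (nat_lit 0) (nat_lit 76) (XT.lf (nat_lit 76) (nat_lit 12771740690) (nat_lit 0) (nat_lit 56916417234) (nat_lit 836) (nat_lit 101290773975) (nat_lit 114) (nat_lit 5) (nat_lit 113) (nat_lit 5) (nat_lit 124) (nat_lit 5) (nat_lit 420) (nat_lit 413) (nat_lit 187)) (XT.nd (nat_lit 78) (nat_lit 0) (nat_lit 0) (XT.lf (nat_lit 0) (nat_lit 81420116971) (nat_lit 760) (nat_lit 72409783289) (nat_lit 836) (nat_lit 21661667553) (nat_lit 114) (nat_lit 5) (nat_lit 124) (nat_lit 5) (nat_lit 125) (nat_lit 5) (nat_lit 421) (nat_lit 413) (nat_lit 186)) (XT.lf (nat_lit 76) (nat_lit 17297963785) (nat_lit 0) (nat_lit 77643692233) (nat_lit 836) (nat_lit 85228030503) (nat_lit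 115) (nat_lit 5) (nat_lit 114) (nat_lit 5) (nat_lit 125) (nat_lit 5) (nat_lit 422) (nat_lit 413) (nat_lit 185)))) (XT.nd (nat_lit 78) (nat_lit 760) (nat_lit 0) (XT.lf (nat_lit 0) (nat_lit 110422250241) (nat_lit 760) (nat_lit 71072339396) (nat_lit 76) (nat_lit 3522972711) (nat_lit 115) (nat_lit 5) (nat_lit 125) (nat_lit 5) (nat_lit 116) (nat_lit 5) (nat_lit 423) (nat_lit 413) (nat_lit 184)) (XT.nd (nat_lit 78) (nat_lit 0) (nat_lit 0) (XT.lf (nat_lit 0) (nat_lit 24839052832) (nat_lit 760) (nat_lit 103498344280) (nat_lit 836) (nat_lit 61687408798) (nat_lit 105) (nat_lit 5) (nat_lit 115) (nat_lit 5) (nat_lit 116) (nat_lit 5) (nat_lit 424) (nat_lit 413) (nat_lit 183)) (XT.lf (nat_lit 0) (nat_lit 128013370032) (nat_lit 760) (nat_lit 20338448516) (nat_lit 836) (nat_lit 46870417327) (nat_lit 105) (nat_lit 5) (nat_lit 115) (nat_lit 5) (nat_lit 116) (nat_lit 5) (nat_lit 425) (nat_lit 413) (nat_lit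 182))))) (XT.nd (nat_lit 234) (nat_lit 380) (nat_lit 0) (XT.nd (nat_lit 78) (nat_lit 380) (nat_lit 0) (XT.lf (nat_lit 0) (nat_lit 35765739397) (nat_lit 380) (nat_lit 135205240876) (nat_lit 456) (nat_lit 29628356186) (nat_lit 100) (nat_lit 5) (nat_lit 105) (nat_lit 5) (nat_lit 106) (nat_lit 5) (nat_lit 426) (nat_lit 413) (nat_lit 181)) (XT.nd (nat_lit 78) (nat_lit 380) (nat_lit 0) (XT.lf (nat_lit 0) (nat_lit 145877858797) (nat_lit 380) (nat_lit 50309378407) (nat_lit 456) (nat_lit 9984748091) (nat_lit 100) (nat_lit 5) (nat_lit 105) (nat_lit 5) (nat_lit 106) (nat_lit 5) (nat_lit 427) (nat_lit 413) (nat_lit 180)) (XT.lf (nat_lit 0) (nat_lit 11717632111) (nat_lit 380) (nat_lit 161660878820) (nat_lit 76) (nat_lit 38565590315) (nat_lit 95) (nat_lit 5) (nat_lit 100) (nat_lit 5) (nat_lit 96) (nat_lit 5) (nat_lit 428) (nat_lit 413) (nat_lit 179)))) (XT.nd (nat_lit 78) (nat_lit 380) (nat_lit 0) (XT.lf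 (nat_lit 0) (nat_lit 36032062217) (nat_lit 380) (nat_lit 50476337337) (nat_lit 76) (nat_lit 131395115095) (nat_lit 95) (nat_lit 5) (nat_lit 100) (nat_lit 5) (nat_lit 96) (nat_lit 5) (nat_lit 429) (nat_lit 413) (nat_lit 178)) (XT.nd (nat_lit 78) (nat_lit 0) (nat_lit 0) (XT.lf (nat_lit 0) (nat_lit 62721920363) (nat_lit 456) (nat_lit 155740029024) (nat_lit 76) (nat_lit 5640964073) (nat_lit 90) (nat_lit 5) (nat_lit 96) (nat_lit 5) (nat_lit 91) (nat_lit 5) (nat_lit 430) (nat_lit 413) (nat_lit 177)) (XT.lf (nat_lit 0) (nat_lit 93033195528) (nat_lit 456) (nat_lit 37105347074) (nat_lit 76) (nat_lit 100359393464) (nat_lit 90) (nat_lit 5) (nat_lit 96) (nat_lit 5) (nat_lit 91) (nat_lit 5) (nat_lit 431) (nat_lit 413) (nat_lit 176)))))) (XT.nd (nat_lit 468) (nat_lit 760) (nat_lit 0) (XT.nd (nat_lit 234) (nat_lit 608) (nat_lit 0) (XT.nd (nat_lit 78) (nat_lit 304) (nat_lit 0) (XT.lf (nat_lit 0) (nat_lit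 90352814343) (nat_lit 304) (nat_lit 35917784220) (nat_lit 380) (nat_lit 110871583090) (nat_lit 86) (nat_lit 5) (nat_lit 90) (nat_lit 5) (nat_lit 91) (nat_lit 5) (nat_lit 432) (nat_lit 413) (nat_lit 175)) (XT.nd (nat_lit 78) (nat_lit 304) (nat_lit 0) (XT.lf (nat_lit 0) (nat_lit 162792301853) (nat_lit 380) (nat_lit 19609360612) (nat_lit 76) (nat_lit 61635855608) (nat_lit 86) (nat_lit 5) (nat_lit 91) (nat_lit 5) (nat_lit 87) (nat_lit 5) (nat_lit 433) (nat_lit 413) (nat_lit 174)) (XT.lf (nat_lit 0) (nat_lit 117088280081) (nat_lit 304) (nat_lit 86468613197) (nat_lit 380) (nat_lit 47599887938) (nat_lit 82) (nat_lit 5) (nat_lit 86) (nat_lit 5) (nat_lit 87) (nat_lit 5) (nat_lit 434) (nat_lit 413) (nat_lit 173)))) (XT.nd (nat_lit 78) (nat_lit 380) (nat_lit 0) (XT.lf (nat_lit 0) (nat_lit 2539256258) (nat_lit 228) (nat_lit 244420209644) (nat_lit 304) (nat_lit 11642554084) (nat_lit 79) (nat_lit 5) (nat_lit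 82) (nat_lit 5) (nat_lit 83) (nat_lit 5) (nat_lit 435) (nat_lit 413) (nat_lit 172)) (XT.nd (nat_lit 78) (nat_lit 304) (nat_lit 0) (XT.lf (nat_lit 0) (nat_lit 29002047469) (nat_lit 304) (nat_lit 117536579123) (nat_lit 76) (nat_lit 119674251130) (nat_lit 78) (nat_lit 5) (nat_lit 82) (nat_lit 5) (nat_lit 79) (nat_lit 5) (nat_lit 436) (nat_lit 413) (nat_lit 171)) (XT.lf (nat_lit 0) (nat_lit 28641660486) (nat_lit 304) (nat_lit 43093047160) (nat_lit 380) (nat_lit 202437672928) (nat_lit 74) (nat_lit 5) (nat_lit 78) (nat_lit 5) (nat_lit 79) (nat_lit 5) (nat_lit 437) (nat_lit 413) (nat_lit 170))))) (XT.nd (nat_lit 234) (nat_lit 532) (nat_lit 0) (XT.nd (nat_lit 78) (nat_lit 228) (nat_lit 0) (XT.lf (nat_lit 0) (nat_lit 119650117441) (nat_lit 380) (nat_lit 97276679307) (nat_lit 76) (nat_lit 65450756033) (nat_lit 74) (nat_lit 5) (nat_lit 79) (nat_lit 5) (nat_lit 75) (nat_lit 5) (nat_lit 438) (nat_lit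 413) (nat_lit 169)) (XT.nd (nat_lit 78) (nat_lit 0) (nat_lit 0) (XT.lf (nat_lit 0) (nat_lit 59590796169) (nat_lit 228) (nat_lit 112007248136) (nat_lit 304) (nat_lit 119313102004) (nat_lit 71) (nat_lit 5) (nat_lit 74) (nat_lit 5) (nat_lit 75) (nat_lit 5) (nat_lit 439) (nat_lit 413) (nat_lit 168)) (XT.lf (nat_lit 0) (nat_lit 227678772129) (nat_lit 228) (nat_lit 111948936) (nat_lit 304) (nat_lit 71998330808) (nat_lit 71) (nat_lit 5) (nat_lit 74) (nat_lit 5) (nat_lit 75) (nat_lit 5) (nat_lit 440) (nat_lit 413) (nat_lit 167)))) (XT.nd (nat_lit 156) (nat_lit 228) (nat_lit 0) (XT.nd (nat_lit 78) (nat_lit 76) (nat_lit 0) (XT.lf (nat_lit 0) (nat_lit 96310119782) (nat_lit 228) (nat_lit 193819113152) (nat_lit 304) (nat_lit 18814809753) (nat_lit 68) (nat_lit 5) (nat_lit 71) (nat_lit 5) (nat_lit 72) (nat_lit 5) (nat_lit 441) (nat_lit 413) (nat_lit 166)) (XT.lf (nat_lit 0) (nat_lit 37085771228) (nat_lit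 304) (nat_lit 43440740037) (nat_lit 76) (nat_lit 237939215979) (nat_lit 67) (nat_lit 5) (nat_lit 71) (nat_lit 5) (nat_lit 68) (nat_lit 5) (nat_lit 442) (nat_lit 413) (nat_lit 165))) (XT.nd (nat_lit 78) (nat_lit 0) (nat_lit 0) (XT.lf (nat_lit 0) (nat_lit 97949221052) (nat_lit 304) (nat_lit 190649538633) (nat_lit 76) (nat_lit 39709307361) (nat_lit 64) (nat_lit 5) (nat_lit 68) (nat_lit 5) (nat_lit 65) (nat_lit 5) (nat_lit 443) (nat_lit 413) (nat_lit 164)) (XT.lf (nat_lit 0) (nat_lit 163923634963) (nat_lit 304) (nat_lit 10617077622) (nat_lit 76) (nat_lit 163998421703) (nat_lit 64) (nat_lit 5) (nat_lit 68) (nat_lit 5) (nat_lit 65) (nat_lit 5) (nat_lit 444) (nat_lit 413) (nat_lit 163))))))) (XT.nd (nat_lit 1014) (nat_lit 532) (nat_lit 0) (XT.nd (nat_lit 468) (nat_lit 760) (nat_lit 0) (XT.nd (nat_lit 234) (nat_lit 380) (nat_lit 0) (XT.nd (nat_lit 78) (nat_lit 228) (nat_lit 0) (XT.lf (nat_lit 0)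 (nat_lit 184316184232) (nat_lit 228) (nat_lit 51758215054) (nat_lit 304) (nat_lit 113063474148) (nat_lit 61) (nat_lit 5) (nat_lit 64) (nat_lit 5) (nat_lit 65) (nat_lit 5) (nat_lit 445) (nat_lit 413) (nat_lit 162)) (XT.nd (nat_lit 78) (nat_lit 76) (nat_lit 0) (XT.lf (nat_lit 0) (nat_lit 28821853169) (nat_lit 152) (nat_lit 284848267229) (nat_lit 228) (nat_lit 46504558237) (nat_lit 59) (nat_lit 5) (nat_lit 61) (nat_lit 5) (nat_lit 62) (nat_lit 5) (nat_lit 446) (nat_lit 413) (nat_lit 161)) (XT.lf (nat_lit 0) (nat_lit 26319452867) (nat_lit 228) (nat_lit 135013358896) (nat_lit 76) (nat_lit 210227982737) (nat_lit 58) (nat_lit 5) (nat_lit 61) (nat_lit 5) (nat_lit 59) (nat_lit 5) (nat_lit 447) (nat_lit 413) (nat_lit 160)))) (XT.nd (nat_lit 78) (nat_lit 152) (nat_lit 0) (XT.lf (nat_lit 0) (nat_lit 72707723978) (nat_lit 228) (nat_lit 29649195832) (nat_lit 304) (nat_lit 281064422210) (nat_lit 55) (nat_lit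 5) (nat_lit 58) (nat_lit 5) (nat_lit 59) (nat_lit 5) (nat_lit 448) (nat_lit 413) (nat_lit 159)) (XT.nd (nat_lit 78) (nat_lit 152) (nat_lit 0) (XT.lf (nat_lit 0) (nat_lit 186216044281) (nat_lit 304) (nat_lit 101991785184) (nat_lit 76) (nat_lit 107466098264) (nat_lit 55) (nat_lit 5) (nat_lit 59) (nat_lit 5) (nat_lit 56) (nat_lit 5) (nat_lit 449) (nat_lit 413) (nat_lit 158)) (XT.lf (nat_lit 0) (nat_lit 120537969583) (nat_lit 152) (nat_lit 156098088988) (nat_lit 228) (nat_lit 131784687495) (nat_lit 53) (nat_lit 5) (nat_lit 55) (nat_lit 5) (nat_lit 56) (nat_lit 5) (nat_lit 450) (nat_lit 413) (nat_lit 157))))) (XT.nd (nat_lit 234) (nat_lit 532) (nat_lit 0) (XT.nd (nat_lit 78) (nat_lit 228) (nat_lit 0) (XT.lf (nat_lit 0) (nat_lit 357735052797) (nat_lit 152) (nat_lit 15569247984) (nat_lit 228) (nat_lit 48414243198) (nat_lit 53) (nat_lit 5) (nat_lit 55) (nat_lit 5) (nat_lit 56) (nat_lit 5) (nat_lit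 451) (nat_lit 413) (nat_lit 156)) (XT.nd (nat_lit 78) (nat_lit 0) (nat_lit 0) (XT.lf (nat_lit 0) (nat_lit 42738200968) (nat_lit 228) (nat_lit 261491634713) (nat_lit 76) (nat_lit 131177568138) (nat_lit 50) (nat_lit 5) (nat_lit 53) (nat_lit 5) (nat_lit 51) (nat_lit 5) (nat_lit 452) (nat_lit 413) (nat_lit 155)) (XT.lf (nat_lit 0) (nat_lit 138177769426) (nat_lit 228) (nat_lit 24861928060) (nat_lit 76) (nat_lit 286633498471) (nat_lit 50) (nat_lit 5) (nat_lit 53) (nat_lit 5) (nat_lit 51) (nat_lit 5) (nat_lit 453) (nat_lit 413) (nat_lit 154)))) (XT.nd (nat_lit 156) (nat_lit 228) (nat_lit 0) (XT.nd (nat_lit 78) (nat_lit 152) (nat_lit 0) (XT.lf (nat_lit 0) (nat_lit 230992384481) (nat_lit 152) (nat_lit 11003322089) (nat_lit 228) (nat_lit 222476251636) (nat_lit 48) (nat_lit 5) (nat_lit 50) (nat_lit 5) (nat_lit 51) (nat_lit 5) (nat_lit 454) (nat_lit 413) (nat_lit 153)) (XT.lf (nat_lit 0) (nat_lit 18786658620)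 (nat_lit 152) (nat_lit 335259704874) (nat_lit 228) (nat_lit 125812203940) (nat_lit 46) (nat_lit 5) (nat_lit 48) (nat_lit 5) (nat_lit 49) (nat_lit 5) (nat_lit 455) (nat_lit 413) (nat_lit 152))) (XT.nd (nat_lit 78) (nat_lit 228) (nat_lit 0) (XT.lf (nat_lit 0) (nat_lit 291585661898) (nat_lit 152) (nat_lit 184245407324) (nat_lit 228) (nat_lit 19976862121) (nat_lit 46) (nat_lit 5) (nat_lit 48) (nat_lit 5) (nat_lit 49) (nat_lit 5) (nat_lit 456) (nat_lit 413) (nat_lit 151)) (XT.lf (nat_lit 0) (nat_lit 66164337603) (nat_lit 152) (nat_lit 23101497717) (nat_lit 228) (nat_lit 423166124316) (nat_lit 43) (nat_lit 5) (nat_lit 45) (nat_lit 5) (nat_lit 46) (nat_lit 5) (nat_lit 457) (nat_lit 413) (nat_lit 150)))))) (XT.nd (nat_lit 468) (nat_lit 76) (nat_lit 0) (XT.nd (nat_lit 234) (nat_lit 304) (nat_lit 0) (XT.nd (nat_lit 78) (nat_lit 152) (nat_lit 0) (XT.lf (nat_lit 0) (nat_lit 209095595202) (nat_lit 228)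 (nat_lit 175219136431) (nat_lit 76) (nat_lit 145266269190) (nat_lit 43) (nat_lit 5) (nat_lit 46) (nat_lit 5) (nat_lit 44) (nat_lit 5) (nat_lit 458) (nat_lit 413) (nat_lit 149)) (XT.nd (nat_lit 78) (nat_lit 0) (nat_lit 0) (XT.lf (nat_lit 0) (nat_lit 112607119026) (nat_lit 152) (nat_lit 224446507412) (nat_lit 228) (nat_lit 210427028475) (nat_lit 41) (nat_lit 5) (nat_lit 43) (nat_lit 5) (nat_lit 44) (nat_lit 5) (nat_lit 459) (nat_lit 413) (nat_lit 148)) (XT.lf (nat_lit 0) (nat_lit 420907828784) (nat_lit 152) (nat_lit 53469109796) (nat_lit 228) (nat_lit 91749984174) (nat_lit 41) (nat_lit 5) (nat_lit 43) (nat_lit 5) (nat_lit 44) (nat_lit 5) (nat_lit 460) (nat_lit 413) (nat_lit 147)))) (XT.nd (nat_lit 78) (nat_lit 152) (nat_lit 0) (XT.lf (nat_lit 0) (nat_lit 36382435911) (nat_lit 152) (nat_lit 423927974219) (nat_lit 76) (nat_lit 125140777420) (nat_lit 39) (nat_lit 5) (nat_lit 41) (nat_lit 5) (nat_lit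 40) (nat_lit 5) (nat_lit 461) (nat_lit 413) (nat_lit 146)) (XT.nd (nat_lit 78) (nat_lit 152) (nat_lit 0) (XT.lf (nat_lit 0) (nat_lit 171214251810) (nat_lit 152) (nat_lit 119395410561) (nat_lit 76) (nat_lit 314887989523) (nat_lit 39) (nat_lit 5) (nat_lit 41) (nat_lit 5) (nat_lit 40) (nat_lit 5) (nat_lit 462) (nat_lit 413) (nat_lit 145)) (XT.lf (nat_lit 0) (nat_lit 206988644284) (nat_lit 152) (nat_lit 109030649143) (nat_lit 228) (nat_lit 310365564294) (nat_lit 37) (nat_lit 5) (nat_lit 39) (nat_lit 5) (nat_lit 40) (nat_lit 5) (nat_lit 463) (nat_lit 413) (nat_lit 144))))) (XT.nd (nat_lit 49296) (nat_lit 0) (nat_lit 5624) (XT.nd (nat_lit 78) (nat_lit 76) (nat_lit 0) (XT.lf (nat_lit 0) (nat_lit 471394147620) (nat_lit 228) (nat_lit 95685927596) (nat_lit 76) (nat_lit 81069870607) (nat_lit 37) (nat_lit 5) (nat_lit 40) (nat_lit 5) (nat_lit 38) (nat_lit 4) (nat_lit 464) (nat_lit 413) (nat_lit 143))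 (XT.nd (nat_lit 49140) (nat_lit 0) (nat_lit 5624) (XT.lf (nat_lit 0) (nat_lit 250438001443) (nat_lit 76) (nat_lit 389797134059) (nat_lit 152) (nat_lit 30483283286) (nat_lit 36) (nat_lit 5) (nat_lit 37) (nat_lit 5) (nat_lit 38) (nat_lit 4) (nat_lit 465) (nat_lit 413) (nat_lit 142)) (XT.lf (nat_lit 0) (nat_lit 17000660048) (nat_lit 836) (nat_lit 29125936144) (nat_lit 836) (nat_lit 29125936144) (nat_lit 110) (nat_lit 3) (nat_lit 121) (nat_lit 3) (nat_lit 121) (nat_lit 5) (nat_lit 414) (nat_lit 414) (nat_lit 192)))) (XT.nd (nat_lit 156) (nat_lit 0) (nat_lit 76) (XT.nd (nat_lit 78) (nat_lit 0) (nat_lit 76) (XT.lf (nat_lit 76) (nat_lit 14735440415) (nat_lit 0) (nat_lit 20348784374) (nat_lit 836) (nat_lit 119171820930) (nat_lit 111) (nat_lit 5) (nat_lit 110) (nat_lit 3) (nat_lit 121) (nat_lit 5) (nat_lit 415) (nat_lit 414) (nat_lit 191)) (XT.lf (nat_lit 0) (nat_lit 38084850014) (nat_lit 760) (nat_lit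 65628097302) (nat_lit 836) (nat_lit 54388449865) (nat_lit 111) (nat_lit 5) (nat_lit 121) (nat_lit 5) (nat_lit 122) (nat_lit 5) (nat_lit 416) (nat_lit 414) (nat_lit 190))) (XT.nd (nat_lit 78) (nat_lit 0) (nat_lit 76) (XT.lf (nat_lit 76) (nat_lit 12009732942) (nat_lit 0) (nat_lit 29746694250) (nat_lit 836) (nat_lit 120356543113) (nat_lit 112) (nat_lit 5) (nat_lit 111) (nat_lit 5) (nat_lit 122) (nat_lit 5) (nat_lit 417) (nat_lit 414) (nat_lit 189)) (XT.lf (nat_lit 0) (nat_lit 47489215514) (nat_lit 760) (nat_lit 71228099188) (nat_lit 836) (nat_lit 47513925881) (nat_lit 112) (nat_lit 5) (nat_lit 122) (nat_lit 5) (nat_lit 123) (nat_lit 5) (nat_lit 418) (nat_lit 414) (nat_lit 188))))))))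
noncomputable def xc238 : XT := (XT.nd (nat_lit 1950) (nat_lit 2280) (nat_lit 0) (XT.nd (nat_lit 936) (nat_lit 2128) (nat_lit 0) (XT.nd (nat_lit 468) (nat_lit 1292) (nat_lit 0) (XT.nd (nat_lit 234) (nat_lit 0) (nat_lit 152) (XT.nd (nat_lit 78) (nat_lit 0) (nat_lit 76) (XT.lf (nat_lit 76) (nat_lit 11470156397) (nat_lit 0) (nat_lit 42705062727) (nat_lit 836) (nat_lit 116346876568) (nat_lit 113) (nat_lit 5) (nat_lit 112) (nat_lit 5) (nat_lit 123) (nat_lit 5) (nat_lit 419) (nat_lit 414) (nat_lit 187)) (XT.nd (nat_lit 78) (nat_lit 0) (nat_lit 0) (XT.lf (nat_lit 0) (nat_lit 63000787547) (nat_lit 760) (nat_lit 74790219870) (nat_lit 836) (nat_lit 37146223013) (nat_lit 113) (nat_lit 5) (nat_lit 123) (nat_lit 5) (nat_lit 124) (nat_lit 5) (nat_lit 420) (nat_lit 414) (nat_lit 186)) (XT.lf (nat_lit 76) (nat_lit 13413718574) (nat_lit 0) (nat_lit 59763282077) (nat_lit 836) (nat_lit 106350653039) (nat_lit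 114) (nat_lit 5) (nat_lit 113) (nat_lit 5) (nat_lit 124) (nat_lit 5) (nat_lit 421) (nat_lit 414) (nat_lit 185)))) (XT.nd (nat_lit 78) (nat_lit 0) (nat_lit 0) (XT.lf (nat_lit 0) (nat_lit 85495330946) (nat_lit 760) (nat_lit 76026813452) (nat_lit 836) (nat_lit 22743788485) (nat_lit 114) (nat_lit 5) (nat_lit 124) (nat_lit 5) (nat_lit 125) (nat_lit 5) (nat_lit 422) (nat_lit 414) (nat_lit 184)) (XT.nd (nat_lit 78) (nat_lit 0) (nat_lit 76) (XT.lf (nat_lit 76) (nat_lit 18166265186) (nat_lit 0) (nat_lit 81526534506) (nat_lit 836) (nat_lit 89485165335) (nat_lit 115) (nat_lit 5) (nat_lit 114) (nat_lit 5) (nat_lit 125) (nat_lit 5) (nat_lit 423) (nat_lit 414) (nat_lit 183)) (XT.lf (nat_lit 0) (nat_lit 115947220472) (nat_lit 760) (nat_lit 74622509414) (nat_lit 76) (nat_lit 3698515050) (nat_lit 115) (nat_lit 5) (nat_lit 125) (nat_lit 5) (nat_lit 116) (nat_lit 5) (nat_lit 424) (nat_lit 414) (nat_lit 182)))))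 (XT.nd (nat_lit 234) (nat_lit 380) (nat_lit 0) (XT.nd (nat_lit 78) (nat_lit 380) (nat_lit 0) (XT.lf (nat_lit 0) (nat_lit 26084396830) (nat_lit 760) (nat_lit 108673597104) (nat_lit 836) (nat_lit 64767863405) (nat_lit 105) (nat_lit 5) (nat_lit 115) (nat_lit 5) (nat_lit 116) (nat_lit 5) (nat_lit 425) (nat_lit 414) (nat_lit 181)) (XT.nd (nat_lit 78) (nat_lit 380) (nat_lit 0) (XT.lf (nat_lit 0) (nat_lit 134417268397) (nat_lit 760) (nat_lit 21355690571) (nat_lit 836) (nat_lit 49210208829) (nat_lit 105) (nat_lit 5) (nat_lit 115) (nat_lit 5) (nat_lit 116) (nat_lit 5) (nat_lit 426) (nat_lit 414) (nat_lit 180)) (XT.lf (nat_lit 0) (nat_lit 37557386017) (nat_lit 380) (nat_lit 141965571439) (nat_lit 456) (nat_lit 31106172133) (nat_lit 100) (nat_lit 5) (nat_lit 105) (nat_lit 5) (nat_lit 106) (nat_lit 5) (nat_lit 427) (nat_lit 414) (nat_lit 179)))) (XT.nd (nat_lit 78) (nat_lit 380) (nat_lit 0) (XT.lf (nat_lit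 0) (nat_lit 153174951404) (nat_lit 380) (nat_lit 52824912584) (nat_lit 456) (nat_lit 10480555150) (nat_lit 100) (nat_lit 5) (nat_lit 105) (nat_lit 5) (nat_lit 106) (nat_lit 5) (nat_lit 428) (nat_lit 414) (nat_lit 178)) (XT.nd (nat_lit 78) (nat_lit 0) (nat_lit 0) (XT.lf (nat_lit 0) (nat_lit 12306727716) (nat_lit 380) (nat_lit 169740502703) (nat_lit 76) (nat_lit 40493913217) (nat_lit 95) (nat_lit 5) (nat_lit 100) (nat_lit 5) (nat_lit 96) (nat_lit 5) (nat_lit 429) (nat_lit 414) (nat_lit 177)) (XT.lf (nat_lit 0) (nat_lit 37836726280) (nat_lit 380) (nat_lit 52996897006) (nat_lit 76) (nat_lit 137964912169) (nat_lit 95) (nat_lit 5) (nat_lit 100) (nat_lit 5) (nat_lit 96) (nat_lit 5) (nat_lit 430) (nat_lit 414) (nat_lit 176)))))) (XT.nd (nat_lit 468) (nat_lit 912) (nat_lit 0) (XT.nd (nat_lit 234) (nat_lit 532) (nat_lit 0) (XT.nd (nat_lit 78) (nat_lit 304) (nat_lit 0) (XT.lf (nat_lit 0) (nat_lit 65860985345)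 (nat_lit 456) (nat_lit 163523679500) (nat_lit 76) (nat_lit 5923244050) (nat_lit 90) (nat_lit 5) (nat_lit 96) (nat_lit 5) (nat_lit 91) (nat_lit 5) (nat_lit 431) (nat_lit 414) (nat_lit 175)) (XT.nd (nat_lit 78) (nat_lit 304) (nat_lit 0) (XT.lf (nat_lit 0) (nat_lit 97687682889) (nat_lit 456) (nat_lit 38957423022) (nat_lit 76) (nat_lit 105377583873) (nat_lit 90) (nat_lit 5) (nat_lit 96) (nat_lit 5) (nat_lit 91) (nat_lit 5) (nat_lit 432) (nat_lit 414) (nat_lit 174)) (XT.lf (nat_lit 0) (nat_lit 94873594991) (nat_lit 304) (nat_lit 37713275462) (nat_lit 380) (nat_lit 116412281563) (nat_lit 86) (nat_lit 5) (nat_lit 90) (nat_lit 5) (nat_lit 91) (nat_lit 5) (nat_lit 433) (nat_lit 414) (nat_lit 173)))) (XT.nd (nat_lit 78) (nat_lit 532) (nat_lit 0) (XT.lf (nat_lit 0) (nat_lit 170934534254) (nat_lit 380) (nat_lit 20586712034) (nat_lit 76) (nat_lit 64718015276) (nat_lit 86) (nat_lit 5) (nat_lit 91) (nat_lit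 5) (nat_lit 87) (nat_lit 5) (nat_lit 434) (nat_lit 414) (nat_lit 172)) (XT.nd (nat_lit 78) (nat_lit 228) (nat_lit 0) (XT.lf (nat_lit 0) (nat_lit 122945760425) (nat_lit 304) (nat_lit 90791518066) (nat_lit 380) (nat_lit 49977213285) (nat_lit 82) (nat_lit 5) (nat_lit 86) (nat_lit 5) (nat_lit 87) (nat_lit 5) (nat_lit 435) (nat_lit 414) (nat_lit 171)) (XT.lf (nat_lit 0) (nat_lit 2669354304) (nat_lit 228) (nat_lit 256640561231) (nat_lit 304) (nat_lit 12222080230) (nat_lit 79) (nat_lit 5) (nat_lit 82) (nat_lit 5) (nat_lit 83) (nat_lit 5) (nat_lit 436) (nat_lit 414) (nat_lit 170))))) (XT.nd (nat_lit 234) (nat_lit 532) (nat_lit 0) (XT.nd (nat_lit 78) (nat_lit 304) (nat_lit 0) (XT.lf (nat_lit 0) (nat_lit 30454548215) (nat_lit 304) (nat_lit 123410341569) (nat_lit 76) (nat_lit 125658510632) (nat_lit 78) (nat_lit 5) (nat_lit 82) (nat_lit 5) (nat_lit 79) (nat_lit 5) (nat_lit 437) (nat_lit 414) (nat_lit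 169)) (XT.nd (nat_lit 78) (nat_lit 0) (nat_lit 0) (XT.lf (nat_lit 0) (nat_lit 30076760561) (nat_lit 304) (nat_lit 45247013738) (nat_lit 380) (nat_lit 212557107530) (nat_lit 74) (nat_lit 5) (nat_lit 78) (nat_lit 5) (nat_lit 79) (nat_lit 5) (nat_lit 438) (nat_lit 414) (nat_lit 168)) (XT.lf (nat_lit 0) (nat_lit 125634853767) (nat_lit 380) (nat_lit 102137537922) (nat_lit 76) (nat_lit 68723926055) (nat_lit 74) (nat_lit 5) (nat_lit 79) (nat_lit 5) (nat_lit 75) (nat_lit 5) (nat_lit 439) (nat_lit 414) (nat_lit 167)))) (XT.nd (nat_lit 156) (nat_lit 304) (nat_lit 0) (XT.nd (nat_lit 78) (nat_lit 0) (nat_lit 0) (XT.lf (nat_lit 0) (nat_lit 62573263338) (nat_lit 228) (nat_lit 117606853128) (nat_lit 304) (nat_lit 125276477562) (nat_lit 71) (nat_lit 5) (nat_lit 74) (nat_lit 5) (nat_lit 75) (nat_lit 5) (nat_lit 440) (nat_lit 414) (nat_lit 166)) (XT.lf (nat_lit 0) (nat_lit 239065498698) (nat_lit 228) (nat_lit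 116825036) (nat_lit 304) (nat_lit 75596076356) (nat_lit 71) (nat_lit 5) (nat_lit 74) (nat_lit 5) (nat_lit 75) (nat_lit 5) (nat_lit 441) (nat_lit 414) (nat_lit 165))) (XT.nd (nat_lit 78) (nat_lit 76) (nat_lit 0) (XT.lf (nat_lit 0) (nat_lit 101128460380) (nat_lit 228) (nat_lit 203509257388) (nat_lit 304) (nat_lit 19753424897) (nat_lit 68) (nat_lit 5) (nat_lit 71) (nat_lit 5) (nat_lit 72) (nat_lit 5) (nat_lit 442) (nat_lit 414) (nat_lit 164)) (XT.lf (nat_lit 0) (nat_lit 38942019141) (nat_lit 304) (nat_lit 45610011723) (nat_lit 76) (nat_lit 249836883872) (nat_lit 67) (nat_lit 5) (nat_lit 71) (nat_lit 5) (nat_lit 68) (nat_lit 5) (nat_lit 443) (nat_lit 414) (nat_lit 163))))))) (XT.nd (nat_lit 1014) (nat_lit 684) (nat_lit 0) (XT.nd (nat_lit 468) (nat_lit 684) (nat_lit 0) (XT.nd (nat_lit 234) (nat_lit 456) (nat_lit 0) (XT.nd (nat_lit 78) (nat_lit 228) (nat_lit 0) (XT.lf (nat_lit 0) (nat_lit 102848603312)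 (nat_lit 304) (nat_lit 200179211243) (nat_lit 76) (nat_lit 41695558922) (nat_lit 64) (nat_lit 5) (nat_lit 68) (nat_lit 5) (nat_lit 65) (nat_lit 5) (nat_lit 444) (nat_lit 414) (nat_lit 162)) (XT.nd (nat_lit 78) (nat_lit 228) (nat_lit 0) (XT.lf (nat_lit 0) (nat_lit 172121646433) (nat_lit 304) (nat_lit 11145260721) (nat_lit 76) (nat_lit 172199091543) (nat_lit 64) (nat_lit 5) (nat_lit 68) (nat_lit 5) (nat_lit 65) (nat_lit 5) (nat_lit 445) (nat_lit 414) (nat_lit 161)) (XT.lf (nat_lit 0) (nat_lit 193534621149) (nat_lit 228) (nat_lit 54345281719) (nat_lit 304) (nat_lit 118714774276) (nat_lit 61) (nat_lit 5) (nat_lit 64) (nat_lit 5) (nat_lit 65) (nat_lit 5) (nat_lit 446) (nat_lit 414) (nat_lit 160)))) (XT.nd (nat_lit 78) (nat_lit 304) (nat_lit 0) (XT.lf (nat_lit 0) (nat_lit 30265606695) (nat_lit 152) (nat_lit 299089772501) (nat_lit 228) (nat_lit 48827944988) (nat_lit 59) (nat_lit 5) (nat_lit 61)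 (nat_lit 5) (nat_lit 62) (nat_lit 5) (nat_lit 447) (nat_lit 414) (nat_lit 159)) (XT.nd (nat_lit 78) (nat_lit 228) (nat_lit 0) (XT.lf (nat_lit 0) (nat_lit 27637122874) (nat_lit 228) (nat_lit 141761435884) (nat_lit 76) (nat_lit 220740189923) (nat_lit 58) (nat_lit 5) (nat_lit 61) (nat_lit 5) (nat_lit 59) (nat_lit 5) (nat_lit 448) (nat_lit 414) (nat_lit 158)) (XT.lf (nat_lit 0) (nat_lit 76345659343) (nat_lit 228) (nat_lit 31130762793) (nat_lit 304) (nat_lit 295115903525) (nat_lit 55) (nat_lit 5) (nat_lit 58) (nat_lit 5) (nat_lit 59) (nat_lit 5) (nat_lit 449) (nat_lit 414) (nat_lit 157))))) (XT.nd (nat_lit 234) (nat_lit 532) (nat_lit 0) (XT.nd (nat_lit 78) (nat_lit 152) (nat_lit 0) (XT.lf (nat_lit 0) (nat_lit 195528437235) (nat_lit 304) (nat_lit 107088880456) (nat_lit 76) (nat_lit 112840226277) (nat_lit 55) (nat_lit 5) (nat_lit 59) (nat_lit 5) (nat_lit 56) (nat_lit 5) (nat_lit 450) (nat_lit 414)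 (nat_lit 156)) (XT.nd (nat_lit 78) (nat_lit 0) (nat_lit 0) (XT.lf (nat_lit 0) (nat_lit 126567321824) (nat_lit 152) (nat_lit 163902092976) (nat_lit 228) (nat_lit 138372290322) (nat_lit 53) (nat_lit 5) (nat_lit 55) (nat_lit 5) (nat_lit 56) (nat_lit 5) (nat_lit 451) (nat_lit 414) (nat_lit 155)) (XT.lf (nat_lit 0) (nat_lit 375624142353) (nat_lit 152) (nat_lit 16346852800) (nat_lit 228) (nat_lit 50833401504) (nat_lit 53) (nat_lit 5) (nat_lit 55) (nat_lit 5) (nat_lit 56) (nat_lit 5) (nat_lit 452) (nat_lit 414) (nat_lit 154)))) (XT.nd (nat_lit 156) (nat_lit 304) (nat_lit 0) (XT.nd (nat_lit 78) (nat_lit 0) (nat_lit 0) (XT.lf (nat_lit 0) (nat_lit 44876593914) (nat_lit 228) (nat_lit 274563807544) (nat_lit 76) (nat_lit 137737297904) (nat_lit 50) (nat_lit 5) (nat_lit 53) (nat_lit 5) (nat_lit 51) (nat_lit 5) (nat_lit 453) (nat_lit 414) (nat_lit 153)) (XT.lf (nat_lit 0) (nat_lit 145088070181) (nat_lit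 228) (nat_lit 26102730268) (nat_lit 76) (nat_lit 300965984212) (nat_lit 50) (nat_lit 5) (nat_lit 53) (nat_lit 5) (nat_lit 51) (nat_lit 5) (nat_lit 454) (nat_lit 414) (nat_lit 152))) (XT.nd (nat_lit 78) (nat_lit 152) (nat_lit 0) (XT.lf (nat_lit 0) (nat_lit 242544260897) (nat_lit 152) (nat_lit 11552611275) (nat_lit 228) (nat_lit 233598614474) (nat_lit 48) (nat_lit 5) (nat_lit 50) (nat_lit 5) (nat_lit 51) (nat_lit 5) (nat_lit 455) (nat_lit 414) (nat_lit 151)) (XT.lf (nat_lit 0) (nat_lit 19728267216) (nat_lit 152) (nat_lit 352021777568) (nat_lit 228) (nat_lit 132101382432) (nat_lit 46) (nat_lit 5) (nat_lit 48) (nat_lit 5) (nat_lit 49) (nat_lit 5) (nat_lit 456) (nat_lit 414) (nat_lit 150)))))) (XT.nd (nat_lit 468) (nat_lit 152) (nat_lit 0) (XT.nd (nat_lit 234) (nat_lit 304) (nat_lit 0) (XT.nd (nat_lit 78) (nat_lit 228) (nat_lit 0) (XT.lf (nat_lit 0) (nat_lit 306167112292) (nat_lit 152) (nat_lit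 193456808595) (nat_lit 228) (nat_lit 20974341699) (nat_lit 46) (nat_lit 5) (nat_lit 48) (nat_lit 5) (nat_lit 49) (nat_lit 5) (nat_lit 457) (nat_lit 414) (nat_lit 149)) (XT.nd (nat_lit 78) (nat_lit 0) (nat_lit 0) (XT.lf (nat_lit 0) (nat_lit 69474730152) (nat_lit 152) (nat_lit 24255687938) (nat_lit 228) (nat_lit 444323074602) (nat_lit 43) (nat_lit 5) (nat_lit 45) (nat_lit 5) (nat_lit 46) (nat_lit 5) (nat_lit 458) (nat_lit 414) (nat_lit 148)) (XT.lf (nat_lit 0) (nat_lit 219551617644) (nat_lit 228) (nat_lit 183977972507) (nat_lit 76) (nat_lit 152530398222) (nat_lit 43) (nat_lit 5) (nat_lit 46) (nat_lit 5) (nat_lit 44) (nat_lit 5) (nat_lit 459) (nat_lit 414) (nat_lit 147)))) (XT.nd (nat_lit 78) (nat_lit 152) (nat_lit 0) (XT.lf (nat_lit 0) (nat_lit 118239561517) (nat_lit 152) (nat_lit 235667962327) (nat_lit 228) (nat_lit 220947102671) (nat_lit 41) (nat_lit 5) (nat_lit 43) (nat_lit 5) (nat_lit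 44) (nat_lit 5) (nat_lit 460) (nat_lit 414) (nat_lit 146)) (XT.nd (nat_lit 78) (nat_lit 152) (nat_lit 0) (XT.lf (nat_lit 0) (nat_lit 441955207404) (nat_lit 152) (nat_lit 56141736279) (nat_lit 228) (nat_lit 96336266975) (nat_lit 41) (nat_lit 5) (nat_lit 43) (nat_lit 5) (nat_lit 44) (nat_lit 5) (nat_lit 461) (nat_lit 414) (nat_lit 145)) (XT.lf (nat_lit 0) (nat_lit 38202723372) (nat_lit 152) (nat_lit 445122334404) (nat_lit 76) (nat_lit 131398630573) (nat_lit 39) (nat_lit 5) (nat_lit 41) (nat_lit 5) (nat_lit 40) (nat_lit 5) (nat_lit 462) (nat_lit 414) (nat_lit 144))))) (XT.nd (nat_lit 49374) (nat_lit 0) (nat_lit 5548) (XT.nd (nat_lit 78) (nat_lit 152) (nat_lit 0) (XT.lf (nat_lit 0) (nat_lit 179776074559) (nat_lit 152) (nat_lit 125363239636) (nat_lit 76) (nat_lit 330633164506) (nat_lit 39) (nat_lit 5) (nat_lit 41) (nat_lit 5) (nat_lit 40) (nat_lit 5) (nat_lit 463) (nat_lit 414) (nat_lit 143))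 (XT.nd (nat_lit 78) (nat_lit 0) (nat_lit 0) (XT.lf (nat_lit 0) (nat_lit 217339986637) (nat_lit 152) (nat_lit 114481358577) (nat_lit 228) (nat_lit 325882700770) (nat_lit 37) (nat_lit 5) (nat_lit 39) (nat_lit 5) (nat_lit 40) (nat_lit 5) (nat_lit 464) (nat_lit 414) (nat_lit 142)) (XT.lf (nat_lit 0) (nat_lit 494964902587) (nat_lit 228) (nat_lit 100468365012) (nat_lit 76) (nat_lit 85124122881) (nat_lit 37) (nat_lit 5) (nat_lit 40) (nat_lit 5) (nat_lit 38) (nat_lit 4) (nat_lit 465) (nat_lit 414) (nat_lit 141)))) (XT.nd (nat_lit 156) (nat_lit 0) (nat_lit 76) (XT.nd (nat_lit 78) (nat_lit 0) (nat_lit 0) (XT.lf (nat_lit 0) (nat_lit 17853459346) (nat_lit 836) (nat_lit 30580779669) (nat_lit 836) (nat_lit 30580779669) (nat_lit 110) (nat_lit 3) (nat_lit 121) (nat_lit 3) (nat_lit 121) (nat_lit 5) (nat_lit 415) (nat_lit 415) (nat_lit 190)) (XT.lf (nat_lit 76) (nat_lit 15475072120) (nat_lit 0) (nat_lit 21368677692)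 (nat_lit 836) (nat_lit 125124828784) (nat_lit 111) (nat_lit 5) (nat_lit 110) (nat_lit 3) (nat_lit 121) (nat_lit 5) (nat_lit 416) (nat_lit 415) (nat_lit 189))) (XT.nd (nat_lit 78) (nat_lit 0) (nat_lit 0) (XT.lf (nat_lit 0) (nat_lit 39994116770) (nat_lit 760) (nat_lit 68906485587) (nat_lit 836) (nat_lit 57105609928) (nat_lit 111) (nat_lit 5) (nat_lit 121) (nat_lit 5) (nat_lit 122) (nat_lit 5) (nat_lit 417) (nat_lit 415) (nat_lit 188)) (XT.lf (nat_lit 76) (nat_lit 12613187514) (nat_lit 0) (nat_lit 31235892378) (nat_lit 836) (nat_lit 126369293985) (nat_lit 112) (nat_lit 5) (nat_lit 111) (nat_lit 5) (nat_lit 122) (nat_lit 5) (nat_lit 418) (nat_lit 415) (nat_lit 187))))))))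
noncomputable def xc239 : XT := (XT.nd (nat_lit 2028) (nat_lit 2280) (nat_lit 0) (XT.nd (nat_lit 1014) (nat_lit 2128) (nat_lit 0) (XT.nd (nat_lit 468) (nat_lit 1292) (nat_lit 0) (XT.nd (nat_lit 234) (nat_lit 0) (nat_lit 76) (XT.nd (nat_lit 78) (nat_lit 0) (nat_lit 0) (XT.lf (nat_lit 0) (nat_lit 49868249860) (nat_lit 760) (nat_lit 74786416566) (nat_lit 836) (nat_lit 49887904294) (nat_lit 112) (nat_lit 5) (nat_lit 122) (nat_lit 5) (nat_lit 123) (nat_lit 5) (nat_lit 419) (nat_lit 415) (nat_lit 186)) (XT.nd (nat_lit 78) (nat_lit 0) (nat_lit 76) (XT.lf (nat_lit 76) (nat_lit 12046701999) (nat_lit 0) (nat_lit 44841681291) (nat_lit 836) (nat_lit 122159593965) (nat_lit 113) (nat_lit 5) (nat_lit 112) (nat_lit 5) (nat_lit 123) (nat_lit 5) (nat_lit 420) (nat_lit 415) (nat_lit 185)) (XT.lf (nat_lit 0) (nat_lit 66155000154) (nat_lit 760) (nat_lit 78526604843) (nat_lit 836) (nat_lit 39002275378) (nat_lit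 113) (nat_lit 5) (nat_lit 123) (nat_lit 5) (nat_lit 124) (nat_lit 5) (nat_lit 421) (nat_lit 415) (nat_lit 184)))) (XT.nd (nat_lit 78) (nat_lit 0) (nat_lit 76) (XT.lf (nat_lit 76) (nat_lit 14087480104) (nat_lit 0) (nat_lit 62752393104) (nat_lit 836) (nat_lit 111663959265) (nat_lit 114) (nat_lit 5) (nat_lit 113) (nat_lit 5) (nat_lit 124) (nat_lit 5) (nat_lit 422) (nat_lit 415) (nat_lit 183)) (XT.nd (nat_lit 78) (nat_lit 0) (nat_lit 0) (XT.lf (nat_lit 0) (nat_lit 89773914388) (nat_lit 760) (nat_lit 79825016708) (nat_lit 836) (nat_lit 23880104942) (nat_lit 114) (nat_lit 5) (nat_lit 124) (nat_lit 5) (nat_lit 125) (nat_lit 5) (nat_lit 423) (nat_lit 415) (nat_lit 182)) (XT.lf (nat_lit 76) (nat_lit 19077665259) (nat_lit 0) (nat_lit 85603457750) (nat_lit 836) (nat_lit 93955553585) (nat_lit 115) (nat_lit 5) (nat_lit 114) (nat_lit 5) (nat_lit 125) (nat_lit 5) (nat_lit 424) (nat_lit 415) (nat_lit 181)))))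 (XT.nd (nat_lit 234) (nat_lit 760) (nat_lit 0) (XT.nd (nat_lit 78) (nat_lit 760) (nat_lit 0) (XT.lf (nat_lit 0) (nat_lit 121748080560) (nat_lit 760) (nat_lit 78350508397) (nat_lit 76) (nat_lit 3882890873) (nat_lit 115) (nat_lit 5) (nat_lit 125) (nat_lit 5) (nat_lit 116) (nat_lit 5) (nat_lit 425) (nat_lit 415) (nat_lit 180)) (XT.nd (nat_lit 78) (nat_lit 0) (nat_lit 0) (XT.lf (nat_lit 0) (nat_lit 27391692732) (nat_lit 760) (nat_lit 114107581368) (nat_lit 836) (nat_lit 68002704799) (nat_lit 105) (nat_lit 5) (nat_lit 115) (nat_lit 5) (nat_lit 116) (nat_lit 5) (nat_lit 426) (nat_lit 415) (nat_lit 179)) (XT.lf (nat_lit 0) (nat_lit 141141061398) (nat_lit 760) (nat_lit 22423765012) (nat_lit 836) (nat_lit 51667336626) (nat_lit 105) (nat_lit 5) (nat_lit 115) (nat_lit 5) (nat_lit 116) (nat_lit 5) (nat_lit 427) (nat_lit 415) (nat_lit 178)))) (XT.nd (nat_lit 156) (nat_lit 380) (nat_lit 0) (XT.nd (nat_lit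 78) (nat_lit 0) (nat_lit 0) (XT.lf (nat_lit 0) (nat_lit 39438302620) (nat_lit 380) (nat_lit 149063912160) (nat_lit 456) (nat_lit 32658213745) (nat_lit 100) (nat_lit 5) (nat_lit 105) (nat_lit 5) (nat_lit 106) (nat_lit 5) (nat_lit 428) (nat_lit 415) (nat_lit 177)) (XT.lf (nat_lit 0) (nat_lit 160836601166) (nat_lit 380) (nat_lit 55466217403) (nat_lit 456) (nat_lit 11001471484) (nat_lit 100) (nat_lit 5) (nat_lit 105) (nat_lit 5) (nat_lit 106) (nat_lit 5) (nat_lit 429) (nat_lit 415) (nat_lit 176))) (XT.nd (nat_lit 78) (nat_lit 0) (nat_lit 0) (XT.lf (nat_lit 0) (nat_lit 12924979294) (nat_lit 380) (nat_lit 178224425745) (nat_lit 76) (nat_lit 42518648229) (nat_lit 95) (nat_lit 5) (nat_lit 100) (nat_lit 5) (nat_lit 96) (nat_lit 5) (nat_lit 430) (nat_lit 415) (nat_lit 175)) (XT.lf (nat_lit 0) (nat_lit 39731338967) (nat_lit 380) (nat_lit 55643787482) (nat_lit 76) (nat_lit 144863195256) (nat_lit 95)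 (nat_lit 5) (nat_lit 100) (nat_lit 5) (nat_lit 96) (nat_lit 5) (nat_lit 431) (nat_lit 415) (nat_lit 174)))))) (XT.nd (nat_lit 468) (nat_lit 912) (nat_lit 0) (XT.nd (nat_lit 234) (nat_lit 532) (nat_lit 0) (XT.nd (nat_lit 78) (nat_lit 304) (nat_lit 0) (XT.lf (nat_lit 0) (nat_lit 69156727550) (nat_lit 456) (nat_lit 171696824041) (nat_lit 76) (nat_lit 6219616477) (nat_lit 90) (nat_lit 5) (nat_lit 96) (nat_lit 5) (nat_lit 91) (nat_lit 5) (nat_lit 432) (nat_lit 415) (nat_lit 173)) (XT.nd (nat_lit 78) (nat_lit 304) (nat_lit 0) (XT.lf (nat_lit 0) (nat_lit 102574631736) (nat_lit 456) (nat_lit 40902399475) (nat_lit 76) (nat_lit 110646663281) (nat_lit 90) (nat_lit 5) (nat_lit 96) (nat_lit 5) (nat_lit 91) (nat_lit 5) (nat_lit 433) (nat_lit 415) (nat_lit 172)) (XT.lf (nat_lit 0) (nat_lit 99620122750) (nat_lit 304) (nat_lit 39598578265) (nat_lit 380) (nat_lit 122230282777) (nat_lit 86) (nat_lit 5) (nat_lit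 90) (nat_lit 5) (nat_lit 91) (nat_lit 5) (nat_lit 434) (nat_lit 415) (nat_lit 171)))) (XT.nd (nat_lit 78) (nat_lit 532) (nat_lit 0) (XT.lf (nat_lit 0) (nat_lit 179483634943) (nat_lit 380) (nat_lit 21613220780) (nat_lit 76) (nat_lit 67954248818) (nat_lit 86) (nat_lit 5) (nat_lit 91) (nat_lit 5) (nat_lit 87) (nat_lit 5) (nat_lit 435) (nat_lit 415) (nat_lit 170)) (XT.nd (nat_lit 78) (nat_lit 228) (nat_lit 0) (XT.lf (nat_lit 0) (nat_lit 129095829707) (nat_lit 304) (nat_lit 95330617062) (nat_lit 380) (nat_lit 52473653043) (nat_lit 82) (nat_lit 5) (nat_lit 86) (nat_lit 5) (nat_lit 87) (nat_lit 5) (nat_lit 436) (nat_lit 415) (nat_lit 169)) (XT.lf (nat_lit 0) (nat_lit 2805665769) (nat_lit 228) (nat_lit 269471991655) (nat_lit 304) (nat_lit 12830824552) (nat_lit 79) (nat_lit 5) (nat_lit 82) (nat_lit 5) (nat_lit 83) (nat_lit 5) (nat_lit 437) (nat_lit 415) (nat_lit 168))))) (XT.nd (nat_lit 234) (nat_lit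 532) (nat_lit 0) (XT.nd (nat_lit 78) (nat_lit 304) (nat_lit 0) (XT.lf (nat_lit 0) (nat_lit 31979451021) (nat_lit 304) (nat_lit 129578077233) (nat_lit 76) (nat_lit 131941932260) (nat_lit 78) (nat_lit 5) (nat_lit 82) (nat_lit 5) (nat_lit 79) (nat_lit 5) (nat_lit 438) (nat_lit 415) (nat_lit 167)) (XT.nd (nat_lit 78) (nat_lit 0) (nat_lit 0) (XT.lf (nat_lit 0) (nat_lit 31583335142) (nat_lit 304) (nat_lit 47508742402) (nat_lit 380) (nat_lit 223182741551) (nat_lit 74) (nat_lit 5) (nat_lit 78) (nat_lit 5) (nat_lit 79) (nat_lit 5) (nat_lit 439) (nat_lit 415) (nat_lit 166)) (XT.lf (nat_lit 0) (nat_lit 131918619543) (nat_lit 380) (nat_lit 107241716087) (nat_lit 76) (nat_lit 72160695800) (nat_lit 74) (nat_lit 5) (nat_lit 79) (nat_lit 5) (nat_lit 75) (nat_lit 5) (nat_lit 440) (nat_lit 415) (nat_lit 165)))) (XT.nd (nat_lit 156) (nat_lit 304) (nat_lit 0) (XT.nd (nat_lit 78) (nat_lit 0) (nat_lit 0) (XT.lf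 (nat_lit 0) (nat_lit 65704581708) (nat_lit 228) (nat_lit 123486508787) (nat_lit 304) (nat_lit 131538233828) (nat_lit 71) (nat_lit 5) (nat_lit 74) (nat_lit 5) (nat_lit 75) (nat_lit 5) (nat_lit 441) (nat_lit 415) (nat_lit 164)) (XT.lf (nat_lit 0) (nat_lit 251021302398) (nat_lit 228) (nat_lit 122012004) (nat_lit 304) (nat_lit 79373911019) (nat_lit 71) (nat_lit 5) (nat_lit 74) (nat_lit 5) (nat_lit 75) (nat_lit 5) (nat_lit 442) (nat_lit 415) (nat_lit 163))) (XT.nd (nat_lit 78) (nat_lit 76) (nat_lit 0) (XT.lf (nat_lit 0) (nat_lit 106187454473) (nat_lit 228) (nat_lit 213683984275) (nat_lit 304) (nat_lit 20739168393) (nat_lit 68) (nat_lit 5) (nat_lit 71) (nat_lit 5) (nat_lit 72) (nat_lit 5) (nat_lit 443) (nat_lit 415) (nat_lit 162)) (XT.lf (nat_lit 0) (nat_lit 40890897287) (nat_lit 304) (nat_lit 47888004086) (nat_lit 76) (nat_lit 262329369420) (nat_lit 67) (nat_lit 5) (nat_lit 71) (nat_lit 5) (nat_lit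 68) (nat_lit 5) (nat_lit 444) (nat_lit 415) (nat_lit 161))))))) (XT.nd (nat_lit 1014) (nat_lit 684) (nat_lit 0) (XT.nd (nat_lit 468) (nat_lit 684) (nat_lit 0) (XT.nd (nat_lit 234) (nat_lit 456) (nat_lit 0) (XT.nd (nat_lit 78) (nat_lit 228) (nat_lit 0) (XT.lf (nat_lit 0) (nat_lit 107992776070) (nat_lit 304) (nat_lit 210185628204) (nat_lit 76) (nat_lit 43781049968) (nat_lit 64) (nat_lit 5) (nat_lit 68) (nat_lit 5) (nat_lit 65) (nat_lit 5) (nat_lit 445) (nat_lit 415) (nat_lit 160)) (XT.nd (nat_lit 78) (nat_lit 228) (nat_lit 0) (XT.lf (nat_lit 0) (nat_lit 180729388366) (nat_lit 304) (nat_lit 11700101279) (nat_lit 76) (nat_lit 180809725263) (nat_lit 64) (nat_lit 5) (nat_lit 68) (nat_lit 5) (nat_lit 65) (nat_lit 5) (nat_lit 446) (nat_lit 415) (nat_lit 159)) (XT.lf (nat_lit 0) (nat_lit 203213735612) (nat_lit 228) (nat_lit 57061780193) (nat_lit 304) (nat_lit 124648813599) (nat_lit 61) (nat_lit 5)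 (nat_lit 64) (nat_lit 5) (nat_lit 65) (nat_lit 5) (nat_lit 447) (nat_lit 415) (nat_lit 158)))) (XT.nd (nat_lit 78) (nat_lit 304) (nat_lit 0) (XT.lf (nat_lit 0) (nat_lit 31781300515) (nat_lit 152) (nat_lit 314043437463) (nat_lit 228) (nat_lit 51267672251) (nat_lit 59) (nat_lit 5) (nat_lit 61) (nat_lit 5) (nat_lit 62) (nat_lit 5) (nat_lit 448) (nat_lit 415) (nat_lit 157)) (XT.nd (nat_lit 78) (nat_lit 228) (nat_lit 0) (XT.lf (nat_lit 0) (nat_lit 29020518577) (nat_lit 228) (nat_lit 148847157604) (nat_lit 76) (nat_lit 231777932345) (nat_lit 58) (nat_lit 5) (nat_lit 61) (nat_lit 5) (nat_lit 59) (nat_lit 5) (nat_lit 449) (nat_lit 415) (nat_lit 156)) (XT.lf (nat_lit 0) (nat_lit 80165254480) (nat_lit 228) (nat_lit 32686491110) (nat_lit 304) (nat_lit 309870120655) (nat_lit 55) (nat_lit 5) (nat_lit 58) (nat_lit 5) (nat_lit 59) (nat_lit 5) (nat_lit 450) (nat_lit 415) (nat_lit 155))))) (XT.nd (nat_lit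 234) (nat_lit 532) (nat_lit 0) (XT.nd (nat_lit 78) (nat_lit 152) (nat_lit 0) (XT.lf (nat_lit 0) (nat_lit 205306301944) (nat_lit 304) (nat_lit 112441062359) (nat_lit 76) (nat_lit 118482984166) (nat_lit 55) (nat_lit 5) (nat_lit 59) (nat_lit 5) (nat_lit 56) (nat_lit 5) (nat_lit 451) (nat_lit 415) (nat_lit 154)) (XT.nd (nat_lit 78) (nat_lit 0) (nat_lit 0) (XT.lf (nat_lit 0) (nat_lit 132897913549) (nat_lit 152) (nat_lit 172096380880) (nat_lit 228) (nat_lit 145289424977) (nat_lit 53) (nat_lit 5) (nat_lit 55) (nat_lit 5) (nat_lit 56) (nat_lit 5) (nat_lit 452) (nat_lit 415) (nat_lit 153)) (XT.lf (nat_lit 0) (nat_lit 394407469122) (nat_lit 152) (nat_lit 17163417588) (nat_lit 228) (nat_lit 53373662187) (nat_lit 53) (nat_lit 5) (nat_lit 55) (nat_lit 5) (nat_lit 56) (nat_lit 5) (nat_lit 453) (nat_lit 415) (nat_lit 152)))) (XT.nd (nat_lit 156) (nat_lit 304) (nat_lit 0) (XT.nd (nat_lit 78) (nat_lit 0)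 (nat_lit 0) (XT.lf (nat_lit 0) (nat_lit 47121768642) (nat_lit 228) (nat_lit 288289812974) (nat_lit 76) (nat_lit 144624935006) (nat_lit 50) (nat_lit 5) (nat_lit 53) (nat_lit 5) (nat_lit 51) (nat_lit 5) (nat_lit 454) (nat_lit 415) (nat_lit 151)) (XT.lf (nat_lit 0) (nat_lit 152343754673) (nat_lit 228) (nat_lit 27405785879) (nat_lit 76) (nat_lit 316015018859) (nat_lit 50) (nat_lit 5) (nat_lit 53) (nat_lit 5) (nat_lit 51) (nat_lit 5) (nat_lit 455) (nat_lit 415) (nat_lit 150))) (XT.nd (nat_lit 78) (nat_lit 152) (nat_lit 0) (XT.lf (nat_lit 0) (nat_lit 254673521281) (nat_lit 152) (nat_lit 12129446447) (nat_lit 228) (nat_lit 245277230238) (nat_lit 48) (nat_lit 5) (nat_lit 50) (nat_lit 5) (nat_lit 51) (nat_lit 5) (nat_lit 456) (nat_lit 415) (nat_lit 149)) (XT.lf (nat_lit 0) (nat_lit 20716744672) (nat_lit 152) (nat_lit 369622038736) (nat_lit 228) (nat_lit 138705152955) (nat_lit 46) (nat_lit 5) (nat_lit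 48) (nat_lit 5) (nat_lit 49) (nat_lit 5) (nat_lit 457) (nat_lit 415) (nat_lit 148)))))) (XT.nd (nat_lit 468) (nat_lit 152) (nat_lit 0) (XT.nd (nat_lit 234) (nat_lit 304) (nat_lit 0) (XT.nd (nat_lit 78) (nat_lit 228) (nat_lit 0) (XT.lf (nat_lit 0) (nat_lit 321477433712) (nat_lit 152) (nat_lit 203128860730) (nat_lit 228) (nat_lit 22021822023) (nat_lit 46) (nat_lit 5) (nat_lit 48) (nat_lit 5) (nat_lit 49) (nat_lit 5) (nat_lit 458) (nat_lit 415) (nat_lit 147)) (XT.nd (nat_lit 78) (nat_lit 0) (nat_lit 0) (XT.lf (nat_lit 0) (nat_lit 72950440056) (nat_lit 152) (nat_lit 25467669918) (nat_lit 228) (nat_lit 466537998464) (nat_lit 43) (nat_lit 5) (nat_lit 45) (nat_lit 5) (nat_lit 46) (nat_lit 5) (nat_lit 459) (nat_lit 415) (nat_lit 146)) (XT.lf (nat_lit 0) (nat_lit 230530325675) (nat_lit 228) (nat_lit 193174947554) (nat_lit 76) (nat_lit 160157657880) (nat_lit 43) (nat_lit 5) (nat_lit 46) (nat_lit 5)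 (nat_lit 44) (nat_lit 5) (nat_lit 460) (nat_lit 415) (nat_lit 145)))) (XT.nd (nat_lit 78) (nat_lit 152) (nat_lit 0) (XT.lf (nat_lit 0) (nat_lit 124153432146) (nat_lit 152) (nat_lit 247450570913) (nat_lit 228) (nat_lit 231993299321) (nat_lit 41) (nat_lit 5) (nat_lit 43) (nat_lit 5) (nat_lit 44) (nat_lit 5) (nat_lit 461) (nat_lit 415) (nat_lit 144)) (XT.nd (nat_lit 78) (nat_lit 152) (nat_lit 0) (XT.lf (nat_lit 0) (nat_lit 464054770205) (nat_lit 152) (nat_lit 58948071160) (nat_lit 228) (nat_lit 101151977006) (nat_lit 41) (nat_lit 5) (nat_lit 43) (nat_lit 5) (nat_lit 44) (nat_lit 5) (nat_lit 462) (nat_lit 415) (nat_lit 143)) (XT.lf (nat_lit 0) (nat_lit 40113916835) (nat_lit 152) (nat_lit 467376602122) (nat_lit 76) (nat_lit 137969300679) (nat_lit 39) (nat_lit 5) (nat_lit 41) (nat_lit 5) (nat_lit 40) (nat_lit 5) (nat_lit 463) (nat_lit 415) (nat_lit 142))))) (XT.nd (nat_lit 49452) (nat_lit 0) (nat_lit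 5548) (XT.nd (nat_lit 78) (nat_lit 152) (nat_lit 0) (XT.lf (nat_lit 0) (nat_lit 188765885234) (nat_lit 152) (nat_lit 131629640663) (nat_lit 76) (nat_lit 347165526138) (nat_lit 39) (nat_lit 5) (nat_lit 41) (nat_lit 5) (nat_lit 40) (nat_lit 5) (nat_lit 464) (nat_lit 415) (nat_lit 141)) (XT.nd (nat_lit 49296) (nat_lit 0) (nat_lit 5548) (XT.lf (nat_lit 0) (nat_lit 228208718521) (nat_lit 152) (nat_lit 120204680000) (nat_lit 228) (nat_lit 342175800217) (nat_lit 37) (nat_lit 5) (nat_lit 39) (nat_lit 5) (nat_lit 40) (nat_lit 5) (nat_lit 465) (nat_lit 415) (nat_lit 140)) (XT.lf (nat_lit 0) (nat_lit 18748641425) (nat_lit 836) (nat_lit 32108500483) (nat_lit 836) (nat_lit 32108500483) (nat_lit 110) (nat_lit 3) (nat_lit 121) (nat_lit 3) (nat_lit 121) (nat_lit 5) (nat_lit 416) (nat_lit 416) (nat_lit 188)))) (XT.nd (nat_lit 156) (nat_lit 0) (nat_lit 76) (XT.nd (nat_lit 78) (nat_lit 0) (nat_lit 76) (XT.lf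 (nat_lit 76) (nat_lit 16251419544) (nat_lit 0) (nat_lit 22439337516) (nat_lit 836) (nat_lit 131376006103) (nat_lit 111) (nat_lit 5) (nat_lit 110) (nat_lit 3) (nat_lit 121) (nat_lit 5) (nat_lit 417) (nat_lit 416) (nat_lit 187)) (XT.lf (nat_lit 0) (nat_lit 41998379755) (nat_lit 760) (nat_lit 72349073740) (nat_lit 836) (nat_lit 59958838333) (nat_lit 111) (nat_lit 5) (nat_lit 121) (nat_lit 5) (nat_lit 122) (nat_lit 5) (nat_lit 418) (nat_lit 416) (nat_lit 186))) (XT.nd (nat_lit 78) (nat_lit 0) (nat_lit 76) (XT.lf (nat_lit 76) (nat_lit 13246538886) (nat_lit 0) (nat_lit 32799377171) (nat_lit 836) (nat_lit 132683154345) (nat_lit 112) (nat_lit 5) (nat_lit 111) (nat_lit 5) (nat_lit 122) (nat_lit 5) (nat_lit 419) (nat_lit 416) (nat_lit 185)) (XT.lf (nat_lit 0) (nat_lit 52365810716) (nat_lit 760) (nat_lit 78522936867) (nat_lit 836) (nat_lit 52380741339) (nat_lit 112) (nat_lit 5) (nat_lit 122) (nat_lit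 5) (nat_lit 123) (nat_lit 5) (nat_lit 420) (nat_lit 416) (nat_lit 184))))))))
noncomputable def xc240 : XT := (XT.nd (nat_lit 1950) (nat_lit 2128) (nat_lit 0) (XT.nd (nat_lit 936) (nat_lit 2128) (nat_lit 0) (XT.nd (nat_lit 468) (nat_lit 1292) (nat_lit 0) (XT.nd (nat_lit 234) (nat_lit 0) (nat_lit 152) (XT.nd (nat_lit 78) (nat_lit 0) (nat_lit 76) (XT.lf (nat_lit 76) (nat_lit 12651792457) (nat_lit 0) (nat_lit 47085003838) (nat_lit 836) (nat_lit 128263377354) (nat_lit 113) (nat_lit 5) (nat_lit 112) (nat_lit 5) (nat_lit 123) (nat_lit 5) (nat_lit 421) (nat_lit 416) (nat_lit 183)) (XT.nd (nat_lit 78) (nat_lit 0) (nat_lit 0) (XT.lf (nat_lit 0) (nat_lit 69466535404) (nat_lit 760) (nat_lit 82450099692) (nat_lit 836) (nat_lit 40951247391) (nat_lit 113) (nat_lit 5) (nat_lit 123) (nat_lit 5) (nat_lit 124) (nat_lit 5) (nat_lit 422) (nat_lit 416) (nat_lit 182)) (XT.lf (nat_lit 76) (nat_lit 14794643770)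 (nat_lit 0) (nat_lit 65890871646) (nat_lit 836) (nat_lit 117243323735) (nat_lit 114) (nat_lit 5) (nat_lit 113) (nat_lit 5) (nat_lit 124) (nat_lit 5) (nat_lit 423) (nat_lit 416) (nat_lit 181)))) (XT.nd (nat_lit 78) (nat_lit 0) (nat_lit 0) (XT.lf (nat_lit 0) (nat_lit 94266072143) (nat_lit 760) (nat_lit 83813421813) (nat_lit 836) (nat_lit 25073318383) (nat_lit 114) (nat_lit 5) (nat_lit 124) (nat_lit 5) (nat_lit 125) (nat_lit 5) (nat_lit 424) (nat_lit 416) (nat_lit 180)) (XT.nd (nat_lit 78) (nat_lit 0) (nat_lit 76) (XT.lf (nat_lit 76) (nat_lit 20034348353) (nat_lit 0) (nat_lit 89884171697) (nat_lit 836) (nat_lit 98649821046) (nat_lit 115) (nat_lit 5) (nat_lit 114) (nat_lit 5) (nat_lit 125) (nat_lit 5) (nat_lit 425) (nat_lit 416) (nat_lit 179)) (XT.lf (nat_lit 0) (nat_lit 127838658344) (nat_lit 760) (nat_lit 82265198001) (nat_lit 76) (nat_lit 4076536615) (nat_lit 115) (nat_lit 5) (nat_lit 125)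 (nat_lit 5) (nat_lit 116) (nat_lit 5) (nat_lit 426) (nat_lit 416) (nat_lit 178))))) (XT.nd (nat_lit 234) (nat_lit 380) (nat_lit 0) (XT.nd (nat_lit 78) (nat_lit 380) (nat_lit 0) (XT.lf (nat_lit 0) (nat_lit 28764067446) (nat_lit 760) (nat_lit 119813236544) (nat_lit 836) (nat_lit 71399618473) (nat_lit 105) (nat_lit 5) (nat_lit 115) (nat_lit 5) (nat_lit 116) (nat_lit 5) (nat_lit 427) (nat_lit 416) (nat_lit 177)) (XT.nd (nat_lit 78) (nat_lit 380) (nat_lit 0) (XT.lf (nat_lit 0) (nat_lit 148200771684) (nat_lit 760) (nat_lit 23545216222) (nat_lit 836) (nat_lit 54247635299) (nat_lit 105) (nat_lit 5) (nat_lit 115) (nat_lit 5) (nat_lit 116) (nat_lit 5) (nat_lit 428) (nat_lit 416) (nat_lit 176)) (XT.lf (nat_lit 0) (nat_lit 41412981743) (nat_lit 380) (nat_lit 156517164140) (nat_lit 456) (nat_lit 34288161171) (nat_lit 100) (nat_lit 5) (nat_lit 105) (nat_lit 5) (nat_lit 106) (nat_lit 5) (nat_lit 429) (nat_lit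 416) (nat_lit 175)))) (XT.nd (nat_lit 78) (nat_lit 380) (nat_lit 0) (XT.lf (nat_lit 0) (nat_lit 168881063598) (nat_lit 380) (nat_lit 58239581960) (nat_lit 456) (nat_lit 11548722905) (nat_lit 100) (nat_lit 5) (nat_lit 105) (nat_lit 5) (nat_lit 106) (nat_lit 5) (nat_lit 430) (nat_lit 416) (nat_lit 174)) (XT.nd (nat_lit 78) (nat_lit 0) (nat_lit 0) (XT.lf (nat_lit 0) (nat_lit 13573872424) (nat_lit 380) (nat_lit 187132833343) (nat_lit 76) (nat_lit 44644616334) (nat_lit 95) (nat_lit 5) (nat_lit 100) (nat_lit 5) (nat_lit 96) (nat_lit 5) (nat_lit 431) (nat_lit 416) (nat_lit 173)) (XT.lf (nat_lit 0) (nat_lit 41720424168) (nat_lit 380) (nat_lit 58423297151) (nat_lit 76) (nat_lit 152106389012) (nat_lit 95) (nat_lit 5) (nat_lit 100) (nat_lit 5) (nat_lit 96) (nat_lit 5) (nat_lit 432) (nat_lit 416) (nat_lit 172)))))) (XT.nd (nat_lit 468) (nat_lit 912) (nat_lit 0) (XT.nd (nat_lit 234) (nat_lit 532) (nat_lit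 0) (XT.nd (nat_lit 78) (nat_lit 304) (nat_lit 0) (XT.lf (nat_lit 0) (nat_lit 72617006501) (nat_lit 456) (nat_lit 180278908388) (nat_lit 76) (nat_lit 6530787982) (nat_lit 90) (nat_lit 5) (nat_lit 96) (nat_lit 5) (nat_lit 91) (nat_lit 5) (nat_lit 433) (nat_lit 416) (nat_lit 171)) (XT.nd (nat_lit 78) (nat_lit 304) (nat_lit 0) (XT.lf (nat_lit 0) (nat_lit 107705689584) (nat_lit 456) (nat_lit 42944893872) (nat_lit 76) (nat_lit 116179178046) (nat_lit 90) (nat_lit 5) (nat_lit 96) (nat_lit 5) (nat_lit 91) (nat_lit 5) (nat_lit 434) (nat_lit 416) (nat_lit 170)) (XT.lf (nat_lit 0) (nat_lit 104603712116) (nat_lit 304) (nat_lit 41578179767) (nat_lit 380) (nat_lit 128339426971) (nat_lit 86) (nat_lit 5) (nat_lit 90) (nat_lit 5) (nat_lit 91) (nat_lit 5) (nat_lit 435) (nat_lit 416) (nat_lit 169)))) (XT.nd (nat_lit 78) (nat_lit 532) (nat_lit 0) (XT.lf (nat_lit 0) (nat_lit 188459969957) (nat_lit 380) (nat_lit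 22691317778) (nat_lit 76) (nat_lit 71352263098) (nat_lit 86) (nat_lit 5) (nat_lit 91) (nat_lit 5) (nat_lit 87) (nat_lit 5) (nat_lit 436) (nat_lit 416) (nat_lit 168)) (XT.nd (nat_lit 78) (nat_lit 228) (nat_lit 0) (XT.lf (nat_lit 0) (nat_lit 135553143879) (nat_lit 304) (nat_lit 100096715345) (nat_lit 380) (nat_lit 55095139862) (nat_lit 82) (nat_lit 5) (nat_lit 86) (nat_lit 5) (nat_lit 87) (nat_lit 5) (nat_lit 437) (nat_lit 416) (nat_lit 167)) (XT.lf (nat_lit 0) (nat_lit 2948528422) (nat_lit 228) (nat_lit 282945049164) (nat_lit 304) (nat_lit 13470225471) (nat_lit 79) (nat_lit 5) (nat_lit 82) (nat_lit 5) (nat_lit 83) (nat_lit 5) (nat_lit 438) (nat_lit 416) (nat_lit 166))))) (XT.nd (nat_lit 234) (nat_lit 532) (nat_lit 0) (XT.nd (nat_lit 78) (nat_lit 304) (nat_lit 0) (XT.lf (nat_lit 0) (nat_lit 33580396720) (nat_lit 304) (nat_lit 136054458269) (nat_lit 76) (nat_lit 138539478847) (nat_lit 78) (nat_lit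 5) (nat_lit 82) (nat_lit 5) (nat_lit 79) (nat_lit 5) (nat_lit 439) (nat_lit 416) (nat_lit 165)) (XT.nd (nat_lit 78) (nat_lit 0) (nat_lit 0) (XT.lf (nat_lit 0) (nat_lit 33164984034) (nat_lit 304) (nat_lit 49883615328) (nat_lit 380) (nat_lit 234339863794) (nat_lit 74) (nat_lit 5) (nat_lit 78) (nat_lit 5) (nat_lit 79) (nat_lit 5) (nat_lit 440) (nat_lit 416) (nat_lit 164)) (XT.lf (nat_lit 0) (nat_lit 138516385520) (nat_lit 380) (nat_lit 112601354063) (nat_lit 76) (nat_lit 75769250720) (nat_lit 74) (nat_lit 5) (nat_lit 79) (nat_lit 5) (nat_lit 75) (nat_lit 5) (nat_lit 441) (nat_lit 416) (nat_lit 163)))) (XT.nd (nat_lit 156) (nat_lit 304) (nat_lit 0) (XT.nd (nat_lit 78) (nat_lit 0) (nat_lit 0) (XT.lf (nat_lit 0) (nat_lit 68992219140) (nat_lit 228) (nat_lit 129660211099) (nat_lit 304) (nat_lit 138113270135) (nat_lit 71) (nat_lit 5) (nat_lit 74) (nat_lit 5) (nat_lit 75) (nat_lit 5) (nat_lit 442)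 (nat_lit 416) (nat_lit 162)) (XT.lf (nat_lit 0) (nat_lit 263574661182) (nat_lit 228) (nat_lit 127519150) (nat_lit 304) (nat_lit 83340820489) (nat_lit 71) (nat_lit 5) (nat_lit 74) (nat_lit 5) (nat_lit 75) (nat_lit 5) (nat_lit 443) (nat_lit 416) (nat_lit 161))) (XT.nd (nat_lit 78) (nat_lit 76) (nat_lit 0) (XT.lf (nat_lit 0) (nat_lit 111499159237) (nat_lit 228) (nat_lit 224367515930) (nat_lit 304) (nat_lit 21774378288) (nat_lit 68) (nat_lit 5) (nat_lit 71) (nat_lit 5) (nat_lit 72) (nat_lit 5) (nat_lit 444) (nat_lit 416) (nat_lit 160)) (XT.lf (nat_lit 0) (nat_lit 42937054115) (nat_lit 304) (nat_lit 50280129257) (nat_lit 76) (nat_lit 275446419619) (nat_lit 67) (nat_lit 5) (nat_lit 71) (nat_lit 5) (nat_lit 68) (nat_lit 5) (nat_lit 445) (nat_lit 416) (nat_lit 159))))))) (XT.nd (nat_lit 1014) (nat_lit 532) (nat_lit 0) (XT.nd (nat_lit 468) (nat_lit 684) (nat_lit 0) (XT.nd (nat_lit 234) (nat_lit 456)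 (nat_lit 0) (XT.nd (nat_lit 78) (nat_lit 228) (nat_lit 0) (XT.lf (nat_lit 0) (nat_lit 113393995455) (nat_lit 304) (nat_lit 220692602492) (nat_lit 76) (nat_lit 45970749269) (nat_lit 64) (nat_lit 5) (nat_lit 68) (nat_lit 5) (nat_lit 65) (nat_lit 5) (nat_lit 446) (nat_lit 416) (nat_lit 158)) (XT.nd (nat_lit 78) (nat_lit 228) (nat_lit 0) (XT.lf (nat_lit 0) (nat_lit 189767363100) (nat_lit 304) (nat_lit 12282909084) (nat_lit 76) (nat_lit 189850827528) (nat_lit 64) (nat_lit 5) (nat_lit 68) (nat_lit 5) (nat_lit 65) (nat_lit 5) (nat_lit 447) (nat_lit 416) (nat_lit 157)) (XT.lf (nat_lit 0) (nat_lit 213376584212) (nat_lit 228) (nat_lit 59914174770) (nat_lit 304) (nat_lit 130879712880) (nat_lit 61) (nat_lit 5) (nat_lit 64) (nat_lit 5) (nat_lit 65) (nat_lit 5) (nat_lit 448) (nat_lit 416) (nat_lit 156)))) (XT.nd (nat_lit 78) (nat_lit 304) (nat_lit 0) (XT.lf (nat_lit 0) (nat_lit 33372554643) (nat_lit 152)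 (nat_lit 329744862249) (nat_lit 228) (nat_lit 53829541136) (nat_lit 59) (nat_lit 5) (nat_lit 61) (nat_lit 5) (nat_lit 62) (nat_lit 5) (nat_lit 449) (nat_lit 416) (nat_lit 155)) (XT.nd (nat_lit 78) (nat_lit 228) (nat_lit 0) (XT.lf (nat_lit 0) (nat_lit 30472940932) (nat_lit 228) (nat_lit 156287383898) (nat_lit 76) (nat_lit 243367493747) (nat_lit 58) (nat_lit 5) (nat_lit 61) (nat_lit 5) (nat_lit 59) (nat_lit 5) (nat_lit 450) (nat_lit 416) (nat_lit 154)) (XT.lf (nat_lit 0) (nat_lit 84175614410) (nat_lit 228) (nat_lit 34320081132) (nat_lit 304) (nat_lit 325362195354) (nat_lit 55) (nat_lit 5) (nat_lit 58) (nat_lit 5) (nat_lit 59) (nat_lit 5) (nat_lit 451) (nat_lit 416) (nat_lit 153))))) (XT.nd (nat_lit 234) (nat_lit 532) (nat_lit 0) (XT.nd (nat_lit 78) (nat_lit 152) (nat_lit 0) (XT.lf (nat_lit 0) (nat_lit 215572925746) (nat_lit 304) (nat_lit 118061063668) (nat_lit 76) (nat_lit 124407810540) (nat_lit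 55) (nat_lit 5) (nat_lit 59) (nat_lit 5) (nat_lit 56) (nat_lit 5) (nat_lit 452) (nat_lit 416) (nat_lit 152)) (XT.nd (nat_lit 78) (nat_lit 0) (nat_lit 0) (XT.lf (nat_lit 0) (nat_lit 139544827942) (nat_lit 152) (nat_lit 180700459112) (nat_lit 228) (nat_lit 152552553947) (nat_lit 53) (nat_lit 5) (nat_lit 55) (nat_lit 5) (nat_lit 56) (nat_lit 5) (nat_lit 453) (nat_lit 416) (nat_lit 151)) (XT.lf (nat_lit 0) (nat_lit 414129765164) (nat_lit 152) (nat_lit 18020882932) (nat_lit 228) (nat_lit 56041066936) (nat_lit 53) (nat_lit 5) (nat_lit 55) (nat_lit 5) (nat_lit 56) (nat_lit 5) (nat_lit 454) (nat_lit 416) (nat_lit 150)))) (XT.nd (nat_lit 156) (nat_lit 304) (nat_lit 0) (XT.nd (nat_lit 78) (nat_lit 0) (nat_lit 0) (XT.lf (nat_lit 0) (nat_lit 49479077058) (nat_lit 228) (nat_lit 302702321811) (nat_lit 76) (nat_lit 151856882171) (nat_lit 50) (nat_lit 5) (nat_lit 53) (nat_lit 5) (nat_lit 51) (nat_lit 5)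 (nat_lit 455) (nat_lit 416) (nat_lit 149)) (XT.lf (nat_lit 0) (nat_lit 159962104296) (nat_lit 228) (nat_lit 28774187734) (nat_lit 76) (nat_lit 331816436863) (nat_lit 50) (nat_lit 5) (nat_lit 53) (nat_lit 5) (nat_lit 51) (nat_lit 5) (nat_lit 456) (nat_lit 416) (nat_lit 148))) (XT.nd (nat_lit 78) (nat_lit 152) (nat_lit 0) (XT.lf (nat_lit 0) (nat_lit 267409054342) (nat_lit 152) (nat_lit 12735197327) (nat_lit 228) (nat_lit 257539899042) (nat_lit 48) (nat_lit 5) (nat_lit 50) (nat_lit 5) (nat_lit 51) (nat_lit 5) (nat_lit 457) (nat_lit 416) (nat_lit 147)) (XT.lf (nat_lit 0) (nat_lit 21754454100) (nat_lit 152) (nat_lit 388102389916) (nat_lit 228) (nat_lit 145639232736) (nat_lit 46) (nat_lit 5) (nat_lit 48) (nat_lit 5) (nat_lit 49) (nat_lit 5) (nat_lit 458) (nat_lit 416) (nat_lit 146)))))) (XT.nd (nat_lit 49842) (nat_lit 0) (nat_lit 5396) (XT.nd (nat_lit 234) (nat_lit 304) (nat_lit 0) (XT.nd (nat_lit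 78) (nat_lit 228) (nat_lit 0) (XT.lf (nat_lit 0) (nat_lit 337553088440) (nat_lit 152) (nat_lit 213284588759) (nat_lit 228) (nat_lit 23121791346) (nat_lit 46) (nat_lit 5) (nat_lit 48) (nat_lit 5) (nat_lit 49) (nat_lit 5) (nat_lit 459) (nat_lit 416) (nat_lit 145)) (XT.nd (nat_lit 78) (nat_lit 0) (nat_lit 0) (XT.lf (nat_lit 0) (nat_lit 76599751987) (nat_lit 152) (nat_lit 26740325597) (nat_lit 228) (nat_lit 489863782861) (nat_lit 43) (nat_lit 5) (nat_lit 45) (nat_lit 5) (nat_lit 46) (nat_lit 5) (nat_lit 460) (nat_lit 416) (nat_lit 144)) (XT.lf (nat_lit 0) (nat_lit 242057864316) (nat_lit 228) (nat_lit 202831950189) (nat_lit 76) (nat_lit 168166211747) (nat_lit 43) (nat_lit 5) (nat_lit 46) (nat_lit 5) (nat_lit 44) (nat_lit 5) (nat_lit 461) (nat_lit 416) (nat_lit 143)))) (XT.nd (nat_lit 78) (nat_lit 152) (nat_lit 0) (XT.lf (nat_lit 0) (nat_lit 130362820355) (nat_lit 152) (nat_lit 259822383332) (nat_lit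 228) (nat_lit 243591913509) (nat_lit 41) (nat_lit 5) (nat_lit 43) (nat_lit 5) (nat_lit 44) (nat_lit 5) (nat_lit 462) (nat_lit 416) (nat_lit 142)) (XT.nd (nat_lit 78) (nat_lit 152) (nat_lit 0) (XT.lf (nat_lit 0) (nat_lit 487259143574) (nat_lit 152) (nat_lit 61894792693) (nat_lit 228) (nat_lit 106208575115) (nat_lit 41) (nat_lit 5) (nat_lit 43) (nat_lit 5) (nat_lit 44) (nat_lit 5) (nat_lit 463) (nat_lit 416) (nat_lit 141)) (XT.lf (nat_lit 0) (nat_lit 42120571673) (nat_lit 152) (nat_lit 490743755128) (nat_lit 76) (nat_lit 144868435625) (nat_lit 39) (nat_lit 5) (nat_lit 41) (nat_lit 5) (nat_lit 40) (nat_lit 5) (nat_lit 464) (nat_lit 416) (nat_lit 140))))) (XT.nd (nat_lit 234) (nat_lit 0) (nat_lit 76) (XT.nd (nat_lit 78) (nat_lit 0) (nat_lit 0) (XT.lf (nat_lit 0) (nat_lit 19688349335) (nat_lit 836) (nat_lit 33712729888) (nat_lit 836) (nat_lit 33712729888) (nat_lit 110) (nat_lit 3) (nat_lit 121)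 (nat_lit 3) (nat_lit 121) (nat_lit 5) (nat_lit 417) (nat_lit 417) (nat_lit 186)) (XT.nd (nat_lit 78) (nat_lit 0) (nat_lit 76) (XT.lf (nat_lit 76) (nat_lit 17066343190) (nat_lit 0) (nat_lit 23563323385) (nat_lit 836) (nat_lit 137940213102) (nat_lit 111) (nat_lit 5) (nat_lit 110) (nat_lit 3) (nat_lit 121) (nat_lit 5) (nat_lit 418) (nat_lit 417) (nat_lit 185)) (XT.lf (nat_lit 0) (nat_lit 44102432210) (nat_lit 760) (nat_lit 75964045679) (nat_lit 836) (nat_lit 62954918942) (nat_lit 111) (nat_lit 5) (nat_lit 121) (nat_lit 5) (nat_lit 122) (nat_lit 5) (nat_lit 419) (nat_lit 417) (nat_lit 184)))) (XT.nd (nat_lit 156) (nat_lit 0) (nat_lit 76) (XT.nd (nat_lit 78) (nat_lit 0) (nat_lit 76) (XT.lf (nat_lit 76) (nat_lit 13911307550) (nat_lit 0) (nat_lit 34440879066) (nat_lit 836) (nat_lit 139313135791) (nat_lit 112) (nat_lit 5) (nat_lit 111) (nat_lit 5) (nat_lit 122) (nat_lit 5) (nat_lit 420) (nat_lit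 417) (nat_lit 183)) (XT.lf (nat_lit 0) (nat_lit 54987863940) (nat_lit 760) (nat_lit 82446543549) (nat_lit 836) (nat_lit 54998365101) (nat_lit 112) (nat_lit 5) (nat_lit 122) (nat_lit 5) (nat_lit 123) (nat_lit 5) (nat_lit 421) (nat_lit 417) (nat_lit 182))) (XT.nd (nat_lit 78) (nat_lit 0) (nat_lit 76) (XT.lf (nat_lit 76) (nat_lit 13286881271) (nat_lit 0) (nat_lit 49440377371) (nat_lit 836) (nat_lit 134672740045) (nat_lit 113) (nat_lit 5) (nat_lit 112) (nat_lit 5) (nat_lit 123) (nat_lit 5) (nat_lit 422) (nat_lit 417) (nat_lit 181)) (XT.lf (nat_lit 0) (nat_lit 72943295501) (nat_lit 760) (nat_lit 86570032892) (nat_lit 836) (nat_lit 42997774154) (nat_lit 113) (nat_lit 5) (nat_lit 123) (nat_lit 5) (nat_lit 124) (nat_lit 5) (nat_lit 423) (nat_lit 417) (nat_lit 180))))))))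
noncomputable def xc241 : XT := (XT.nd (nat_lit 1950) (nat_lit 1748) (nat_lit 0) (XT.nd (nat_lit 936) (nat_lit 1976) (nat_lit 0) (XT.nd (nat_lit 468) (nat_lit 1140) (nat_lit 0) (XT.nd (nat_lit 234) (nat_lit 608) (nat_lit 0) (XT.nd (nat_lit 78) (nat_lit 0) (nat_lit 76) (XT.lf (nat_lit 76) (nat_lit 15536906263) (nat_lit 0) (nat_lit 69186194263) (nat_lit 836) (nat_lit 123102012831) (nat_lit 114) (nat_lit 5) (nat_lit 113) (nat_lit 5) (nat_lit 124) (nat_lit 5) (nat_lit 424) (nat_lit 417) (nat_lit 179)) (XT.nd (nat_lit 78) (nat_lit 0) (nat_lit 0) (XT.lf (nat_lit 0) (nat_lit 98982515918) (nat_lit 760) (nat_lit 88001511744) (nat_lit 836) (nat_lit 26326266110) (nat_lit 114) (nat_lit 5) (nat_lit 124) (nat_lit 5) (nat_lit 125) (nat_lit 5) (nat_lit 425) (nat_lit 417) (nat_lit 178)) (XT.lf (nat_lit 76) (nat_lit 21038605299) (nat_lit 0) (nat_lit 94378871039) (nat_lit 836) (nat_lit 103579128226) (nat_lit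 115) (nat_lit 5) (nat_lit 114) (nat_lit 5) (nat_lit 125) (nat_lit 5) (nat_lit 426) (nat_lit 417) (nat_lit 177)))) (XT.nd (nat_lit 78) (nat_lit 760) (nat_lit 0) (XT.lf (nat_lit 0) (nat_lit 134233469950) (nat_lit 760) (nat_lit 86375885733) (nat_lit 76) (nat_lit 4279911017) (nat_lit 115) (nat_lit 5) (nat_lit 125) (nat_lit 5) (nat_lit 116) (nat_lit 5) (nat_lit 427) (nat_lit 417) (nat_lit 176)) (XT.nd (nat_lit 78) (nat_lit 0) (nat_lit 0) (XT.lf (nat_lit 0) (nat_lit 30204801500) (nat_lit 760) (nat_lit 125804148809) (nat_lit 836) (nat_lit 74966677341) (nat_lit 105) (nat_lit 5) (nat_lit 115) (nat_lit 5) (nat_lit 116) (nat_lit 5) (nat_lit 428) (nat_lit 417) (nat_lit 175)) (XT.lf (nat_lit 0) (nat_lit 155613220442) (nat_lit 760) (nat_lit 24722715546) (nat_lit 836) (nat_lit 56957234155) (nat_lit 105) (nat_lit 5) (nat_lit 115) (nat_lit 5) (nat_lit 116) (nat_lit 5) (nat_lit 429) (nat_lit 417) (nat_lit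 174))))) (XT.nd (nat_lit 234) (nat_lit 380) (nat_lit 0) (XT.nd (nat_lit 78) (nat_lit 380) (nat_lit 0) (XT.lf (nat_lit 0) (nat_lit 43486137853) (nat_lit 380) (nat_lit 164343073477) (nat_lit 456) (nat_lit 35999881465) (nat_lit 100) (nat_lit 5) (nat_lit 105) (nat_lit 5) (nat_lit 106) (nat_lit 5) (nat_lit 430) (nat_lit 417) (nat_lit 173)) (XT.nd (nat_lit 78) (nat_lit 380) (nat_lit 0) (XT.lf (nat_lit 0) (nat_lit 177327504418) (nat_lit 380) (nat_lit 61151609753) (nat_lit 456) (nat_lit 12123599274) (nat_lit 100) (nat_lit 5) (nat_lit 105) (nat_lit 5) (nat_lit 106) (nat_lit 5) (nat_lit 431) (nat_lit 417) (nat_lit 172)) (XT.lf (nat_lit 0) (nat_lit 14254964380) (nat_lit 380) (nat_lit 196486922910) (nat_lit 76) (nat_lit 46876879526) (nat_lit 95) (nat_lit 5) (nat_lit 100) (nat_lit 5) (nat_lit 96) (nat_lit 5) (nat_lit 432) (nat_lit 417) (nat_lit 171)))) (XT.nd (nat_lit 78) (nat_lit 380) (nat_lit 0) (XT.lf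 (nat_lit 0) (nat_lit 43808729505) (nat_lit 380) (nat_lit 61342031437) (nat_lit 76) (nat_lit 159711739296) (nat_lit 95) (nat_lit 5) (nat_lit 100) (nat_lit 5) (nat_lit 96) (nat_lit 5) (nat_lit 433) (nat_lit 417) (nat_lit 170)) (XT.nd (nat_lit 78) (nat_lit 0) (nat_lit 0) (XT.lf (nat_lit 0) (nat_lit 76250072313) (nat_lit 456) (nat_lit 189290353258) (nat_lit 76) (nat_lit 6857500334) (nat_lit 90) (nat_lit 5) (nat_lit 96) (nat_lit 5) (nat_lit 91) (nat_lit 5) (nat_lit 434) (nat_lit 417) (nat_lit 169)) (XT.lf (nat_lit 0) (nat_lit 113093084050) (nat_lit 456) (nat_lit 45089757090) (nat_lit 76) (nat_lit 121988301665) (nat_lit 90) (nat_lit 5) (nat_lit 96) (nat_lit 5) (nat_lit 91) (nat_lit 5) (nat_lit 435) (nat_lit 417) (nat_lit 168)))))) (XT.nd (nat_lit 468) (nat_lit 760) (nat_lit 0) (XT.nd (nat_lit 234) (nat_lit 608) (nat_lit 0) (XT.nd (nat_lit 78) (nat_lit 304) (nat_lit 0) (XT.lf (nat_lit 0) (nat_lit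 109836240787) (nat_lit 304) (nat_lit 43656791785) (nat_lit 380) (nat_lit 134754248710) (nat_lit 86) (nat_lit 5) (nat_lit 90) (nat_lit 5) (nat_lit 91) (nat_lit 5) (nat_lit 436) (nat_lit 417) (nat_lit 167)) (XT.nd (nat_lit 78) (nat_lit 304) (nat_lit 0) (XT.lf (nat_lit 0) (nat_lit 197884921531) (nat_lit 380) (nat_lit 23823558006) (nat_lit 76) (nat_lit 74920150031) (nat_lit 86) (nat_lit 5) (nat_lit 91) (nat_lit 5) (nat_lit 87) (nat_lit 5) (nat_lit 437) (nat_lit 417) (nat_lit 166)) (XT.lf (nat_lit 0) (nat_lit 142333089223) (nat_lit 304) (nat_lit 105101158759) (nat_lit 380) (nat_lit 57847905169) (nat_lit 82) (nat_lit 5) (nat_lit 86) (nat_lit 5) (nat_lit 87) (nat_lit 5) (nat_lit 438) (nat_lit 417) (nat_lit 165)))) (XT.nd (nat_lit 78) (nat_lit 380) (nat_lit 0) (XT.lf (nat_lit 0) (nat_lit 3098294403) (nat_lit 228) (nat_lit 297091809944) (nat_lit 304) (nat_lit 14141795422) (nat_lit 79) (nat_lit 5)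 (nat_lit 82) (nat_lit 5) (nat_lit 83) (nat_lit 5) (nat_lit 439) (nat_lit 417) (nat_lit 164)) (XT.nd (nat_lit 78) (nat_lit 304) (nat_lit 0) (XT.lf (nat_lit 0) (nat_lit 35261206259) (nat_lit 304) (nat_lit 142854892905) (nat_lit 76) (nat_lit 145466860929) (nat_lit 78) (nat_lit 5) (nat_lit 82) (nat_lit 5) (nat_lit 79) (nat_lit 5) (nat_lit 440) (nat_lit 417) (nat_lit 163)) (XT.lf (nat_lit 0) (nat_lit 34825484605) (nat_lit 304) (nat_lit 52377284355) (nat_lit 380) (nat_lit 246055029469) (nat_lit 74) (nat_lit 5) (nat_lit 78) (nat_lit 5) (nat_lit 79) (nat_lit 5) (nat_lit 441) (nat_lit 417) (nat_lit 162))))) (XT.nd (nat_lit 234) (nat_lit 532) (nat_lit 0) (XT.nd (nat_lit 78) (nat_lit 228) (nat_lit 0) (XT.lf (nat_lit 0) (nat_lit 145443869195) (nat_lit 380) (nat_lit 118229201514) (nat_lit 76) (nat_lit 79558185028) (nat_lit 74) (nat_lit 5) (nat_lit 79) (nat_lit 5) (nat_lit 75) (nat_lit 5) (nat_lit 442)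 (nat_lit 417) (nat_lit 161)) (XT.nd (nat_lit 78) (nat_lit 0) (nat_lit 0) (XT.lf (nat_lit 0) (nat_lit 72444014539) (nat_lit 228) (nat_lit 136142656460) (nat_lit 304) (nat_lit 145017232612) (nat_lit 71) (nat_lit 5) (nat_lit 74) (nat_lit 5) (nat_lit 75) (nat_lit 5) (nat_lit 443) (nat_lit 417) (nat_lit 160)) (XT.lf (nat_lit 0) (nat_lit 276755474662) (nat_lit 228) (nat_lit 133356827) (nat_lit 304) (nat_lit 87506241486) (nat_lit 71) (nat_lit 5) (nat_lit 74) (nat_lit 5) (nat_lit 75) (nat_lit 5) (nat_lit 444) (nat_lit 417) (nat_lit 159)))) (XT.nd (nat_lit 156) (nat_lit 228) (nat_lit 0) (XT.nd (nat_lit 78) (nat_lit 76) (nat_lit 0) (XT.lf (nat_lit 0) (nat_lit 117076232427) (nat_lit 228) (nat_lit 235585286231) (nat_lit 304) (nat_lit 22861511238) (nat_lit 68) (nat_lit 5) (nat_lit 71) (nat_lit 5) (nat_lit 72) (nat_lit 5) (nat_lit 445) (nat_lit 417) (nat_lit 158)) (XT.lf (nat_lit 0) (nat_lit 45085368919)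 (nat_lit 304) (nat_lit 52792072198) (nat_lit 76) (nat_lit 289219268244) (nat_lit 67) (nat_lit 5) (nat_lit 71) (nat_lit 5) (nat_lit 68) (nat_lit 5) (nat_lit 446) (nat_lit 417) (nat_lit 157))) (XT.nd (nat_lit 78) (nat_lit 0) (nat_lit 0) (XT.lf (nat_lit 0) (nat_lit 119065128862) (nat_lit 304) (nat_lit 231725139989) (nat_lit 76) (nat_lit 48269873401) (nat_lit 64) (nat_lit 5) (nat_lit 68) (nat_lit 5) (nat_lit 65) (nat_lit 5) (nat_lit 447) (nat_lit 417) (nat_lit 156)) (XT.lf (nat_lit 0) (nat_lit 199257096622) (nat_lit 304) (nat_lit 12895061559) (nat_lit 76) (nat_lit 199343927637) (nat_lit 64) (nat_lit 5) (nat_lit 68) (nat_lit 5) (nat_lit 65) (nat_lit 5) (nat_lit 448) (nat_lit 417) (nat_lit 155))))))) (XT.nd (nat_lit 1014) (nat_lit 152) (nat_lit 0) (XT.nd (nat_lit 468) (nat_lit 760) (nat_lit 0) (XT.nd (nat_lit 234) (nat_lit 380) (nat_lit 0) (XT.nd (nat_lit 78) (nat_lit 228) (nat_lit 0) (XT.lf (nat_lit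 0) (nat_lit 224047374257) (nat_lit 228) (nat_lit 62909253637) (nat_lit 304) (nat_lit 137422300431) (nat_lit 61) (nat_lit 5) (nat_lit 64) (nat_lit 5) (nat_lit 65) (nat_lit 5) (nat_lit 449) (nat_lit 417) (nat_lit 154)) (XT.nd (nat_lit 78) (nat_lit 76) (nat_lit 0) (XT.lf (nat_lit 0) (nat_lit 35043167955) (nat_lit 152) (nat_lit 346231427731) (nat_lit 228) (nat_lit 56519644290) (nat_lit 59) (nat_lit 5) (nat_lit 61) (nat_lit 5) (nat_lit 62) (nat_lit 5) (nat_lit 450) (nat_lit 417) (nat_lit 153)) (XT.lf (nat_lit 0) (nat_lit 31997854577) (nat_lit 228) (nat_lit 164099819682) (nat_lit 76) (nat_lit 255536471413) (nat_lit 58) (nat_lit 5) (nat_lit 61) (nat_lit 5) (nat_lit 59) (nat_lit 5) (nat_lit 451) (nat_lit 417) (nat_lit 152)))) (XT.nd (nat_lit 78) (nat_lit 152) (nat_lit 0) (XT.lf (nat_lit 0) (nat_lit 88386297358) (nat_lit 228) (nat_lit 36035418945) (nat_lit 304) (nat_lit 341629006859) (nat_lit 55)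 (nat_lit 5) (nat_lit 58) (nat_lit 5) (nat_lit 59) (nat_lit 5) (nat_lit 452) (nat_lit 417) (nat_lit 151)) (XT.nd (nat_lit 78) (nat_lit 152) (nat_lit 0) (XT.lf (nat_lit 0) (nat_lit 226352759067) (nat_lit 304) (nat_lit 123962255800) (nat_lit 76) (nat_lit 130628815276) (nat_lit 55) (nat_lit 5) (nat_lit 59) (nat_lit 5) (nat_lit 56) (nat_lit 5) (nat_lit 453) (nat_lit 417) (nat_lit 150)) (XT.lf (nat_lit 0) (nat_lit 146523900374) (nat_lit 152) (nat_lit 189734810129) (nat_lit 228) (nat_lit 160178964159) (nat_lit 53) (nat_lit 5) (nat_lit 55) (nat_lit 5) (nat_lit 56) (nat_lit 5) (nat_lit 454) (nat_lit 417) (nat_lit 149))))) (XT.nd (nat_lit 234) (nat_lit 532) (nat_lit 0) (XT.nd (nat_lit 78) (nat_lit 228) (nat_lit 0) (XT.lf (nat_lit 0) (nat_lit 434837997265) (nat_lit 152) (nat_lit 18921287137) (nat_lit 228) (nat_lit 58841960773) (nat_lit 53) (nat_lit 5) (nat_lit 55) (nat_lit 5) (nat_lit 56) (nat_lit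 5) (nat_lit 455) (nat_lit 417) (nat_lit 148)) (XT.nd (nat_lit 78) (nat_lit 0) (nat_lit 0) (XT.lf (nat_lit 0) (nat_lit 51954137472) (nat_lit 228) (nat_lit 317835640340) (nat_lit 76) (nat_lit 159450361577) (nat_lit 50) (nat_lit 5) (nat_lit 53) (nat_lit 5) (nat_lit 51) (nat_lit 5) (nat_lit 456) (nat_lit 417) (nat_lit 147)) (XT.lf (nat_lit 0) (nat_lit 167961263379) (nat_lit 228) (nat_lit 30211185157) (nat_lit 76) (nat_lit 348407863751) (nat_lit 50) (nat_lit 5) (nat_lit 53) (nat_lit 5) (nat_lit 51) (nat_lit 5) (nat_lit 457) (nat_lit 417) (nat_lit 146)))) (XT.nd (nat_lit 156) (nat_lit 228) (nat_lit 0) (XT.nd (nat_lit 78) (nat_lit 152) (nat_lit 0) (XT.lf (nat_lit 0) (nat_lit 280781191410) (nat_lit 152) (nat_lit 13371302823) (nat_lit 228) (nat_lit 270415812174) (nat_lit 48) (nat_lit 5) (nat_lit 50) (nat_lit 5) (nat_lit 51) (nat_lit 5) (nat_lit 458) (nat_lit 417) (nat_lit 145)) (XT.lf (nat_lit 0)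 (nat_lit 22843874942) (nat_lit 152) (nat_lit 407506828453) (nat_lit 228) (nat_lit 152920126012) (nat_lit 46) (nat_lit 5) (nat_lit 48) (nat_lit 5) (nat_lit 49) (nat_lit 5) (nat_lit 459) (nat_lit 417) (nat_lit 144))) (XT.nd (nat_lit 78) (nat_lit 228) (nat_lit 0) (XT.lf (nat_lit 0) (nat_lit 354432360134) (nat_lit 152) (nat_lit 223948169665) (nat_lit 228) (nat_lit 24276863427) (nat_lit 46) (nat_lit 5) (nat_lit 48) (nat_lit 5) (nat_lit 49) (nat_lit 5) (nat_lit 460) (nat_lit 417) (nat_lit 143)) (XT.lf (nat_lit 0) (nat_lit 80431363104) (nat_lit 152) (nat_lit 28076681726) (nat_lit 228) (nat_lit 514355960188) (nat_lit 43) (nat_lit 5) (nat_lit 45) (nat_lit 5) (nat_lit 46) (nat_lit 5) (nat_lit 461) (nat_lit 417) (nat_lit 142)))))) (XT.nd (nat_lit 49920) (nat_lit 0) (nat_lit 5320) (XT.nd (nat_lit 49686) (nat_lit 0) (nat_lit 5244) (XT.nd (nat_lit 78) (nat_lit 152) (nat_lit 0) (XT.lf (nat_lit 0) (nat_lit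 254161684840) (nat_lit 228) (nat_lit 212971965166) (nat_lit 76) (nat_lit 176575130927) (nat_lit 43) (nat_lit 5) (nat_lit 46) (nat_lit 5) (nat_lit 44) (nat_lit 5) (nat_lit 462) (nat_lit 417) (nat_lit 141)) (XT.nd (nat_lit 78) (nat_lit 0) (nat_lit 0) (XT.lf (nat_lit 0) (nat_lit 136882518380) (nat_lit 152) (nat_lit 272812852951) (nat_lit 228) (nat_lit 255770556097) (nat_lit 41) (nat_lit 5) (nat_lit 43) (nat_lit 5) (nat_lit 44) (nat_lit 5) (nat_lit 463) (nat_lit 417) (nat_lit 140)) (XT.lf (nat_lit 0) (nat_lit 511623583618) (nat_lit 152) (nat_lit 64988913710) (nat_lit 228) (nat_lit 111518096169) (nat_lit 41) (nat_lit 5) (nat_lit 43) (nat_lit 5) (nat_lit 44) (nat_lit 5) (nat_lit 464) (nat_lit 417) (nat_lit 139)))) (XT.nd (nat_lit 78) (nat_lit 0) (nat_lit 0) (XT.lf (nat_lit 0) (nat_lit 20674831054) (nat_lit 836) (nat_lit 35397281921) (nat_lit 836) (nat_lit 35397281921) (nat_lit 110) (nat_lit 3)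 (nat_lit 121) (nat_lit 3) (nat_lit 121) (nat_lit 5) (nat_lit 418) (nat_lit 418) (nat_lit 184)) (XT.nd (nat_lit 78) (nat_lit 0) (nat_lit 76) (XT.lf (nat_lit 76) (nat_lit 17921794290) (nat_lit 0) (nat_lit 24743320840) (nat_lit 836) (nat_lit 144833057493) (nat_lit 111) (nat_lit 5) (nat_lit 110) (nat_lit 3) (nat_lit 121) (nat_lit 5) (nat_lit 419) (nat_lit 418) (nat_lit 183)) (XT.lf (nat_lit 0) (nat_lit 46311302996) (nat_lit 760) (nat_lit 79759996944) (nat_lit 836) (nat_lit 66100976629) (nat_lit 111) (nat_lit 5) (nat_lit 121) (nat_lit 5) (nat_lit 122) (nat_lit 5) (nat_lit 420) (nat_lit 418) (nat_lit 182))))) (XT.nd (nat_lit 234) (nat_lit 0) (nat_lit 152) (XT.nd (nat_lit 78) (nat_lit 0) (nat_lit 76) (XT.lf (nat_lit 76) (nat_lit 14609087640) (nat_lit 0) (nat_lit 36164313530) (nat_lit 836) (nat_lit 146275004579) (nat_lit 112) (nat_lit 5) (nat_lit 111) (nat_lit 5) (nat_lit 122) (nat_lit 5) (nat_lit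 421) (nat_lit 418) (nat_lit 181)) (XT.nd (nat_lit 78) (nat_lit 0) (nat_lit 0) (XT.lf (nat_lit 0) (nat_lit 57740670005) (nat_lit 760) (nat_lit 86566566726) (nat_lit 836) (nat_lit 57747001447) (nat_lit 112) (nat_lit 5) (nat_lit 122) (nat_lit 5) (nat_lit 123) (nat_lit 5) (nat_lit 422) (nat_lit 418) (nat_lit 180)) (XT.lf (nat_lit 76) (nat_lit 13953492174) (nat_lit 0) (nat_lit 51913415143) (nat_lit 836) (nat_lit 141402924734) (nat_lit 113) (nat_lit 5) (nat_lit 112) (nat_lit 5) (nat_lit 123) (nat_lit 5) (nat_lit 423) (nat_lit 418) (nat_lit 179)))) (XT.nd (nat_lit 156) (nat_lit 0) (nat_lit 76) (XT.nd (nat_lit 78) (nat_lit 0) (nat_lit 0) (XT.lf (nat_lit 0) (nat_lit 76593574405) (nat_lit 760) (nat_lit 90896201852) (nat_lit 836) (nat_lit 45146723536) (nat_lit 113) (nat_lit 5) (nat_lit 123) (nat_lit 5) (nat_lit 124) (nat_lit 5) (nat_lit 424) (nat_lit 418) (nat_lit 178)) (XT.lf (nat_lit 76) (nat_lit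 16316046637) (nat_lit 0) (nat_lit 72646210585) (nat_lit 836) (nat_lit 129253959648) (nat_lit 114) (nat_lit 5) (nat_lit 113) (nat_lit 5) (nat_lit 124) (nat_lit 5) (nat_lit 425) (nat_lit 418) (nat_lit 177))) (XT.nd (nat_lit 78) (nat_lit 0) (nat_lit 0) (XT.lf (nat_lit 0) (nat_lit 103934489940) (nat_lit 760) (nat_lit 92399246142) (nat_lit 836) (nat_lit 27641927995) (nat_lit 114) (nat_lit 5) (nat_lit 124) (nat_lit 5) (nat_lit 125) (nat_lit 5) (nat_lit 426) (nat_lit 418) (nat_lit 176)) (XT.lf (nat_lit 76) (nat_lit 22092838992) (nat_lit 0) (nat_lit 99098259722) (nat_lit 836) (nat_lit 108755196771) (nat_lit 115) (nat_lit 5) (nat_lit 114) (nat_lit 5) (nat_lit 125) (nat_lit 5) (nat_lit 427) (nat_lit 418) (nat_lit 175))))))))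
noncomputable def xc242 : XT := (XT.nd (nat_lit 1950) (nat_lit 1140) (nat_lit 0) (XT.nd (nat_lit 936) (nat_lit 1824) (nat_lit 0) (XT.nd (nat_lit 468) (nat_lit 988) (nat_lit 0) (XT.nd (nat_lit 234) (nat_lit 760) (nat_lit 0) (XT.nd (nat_lit 78) (nat_lit 760) (nat_lit 0) (XT.lf (nat_lit 0) (nat_lit 140947754504) (nat_lit 760) (nat_lit 90692346986) (nat_lit 76) (nat_lit 4493496202) (nat_lit 115) (nat_lit 5) (nat_lit 125) (nat_lit 5) (nat_lit 116) (nat_lit 5) (nat_lit 428) (nat_lit 418) (nat_lit 174)) (XT.nd (nat_lit 78) (nat_lit 0) (nat_lit 0) (XT.lf (nat_lit 0) (nat_lit 31717336978) (nat_lit 760) (nat_lit 132094583404) (nat_lit 836) (nat_lit 78712360818) (nat_lit 105) (nat_lit 5) (nat_lit 115) (nat_lit 5) (nat_lit 116) (nat_lit 5) (nat_lit 429) (nat_lit 418) (nat_lit 173)) (XT.lf (nat_lit 0) (nat_lit 163396067562) (nat_lit 760) (nat_lit 25959067660) (nat_lit 836) (nat_lit 59802571681) (nat_lit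 105) (nat_lit 5) (nat_lit 115) (nat_lit 5) (nat_lit 116) (nat_lit 5) (nat_lit 430) (nat_lit 418) (nat_lit 172)))) (XT.nd (nat_lit 78) (nat_lit 380) (nat_lit 0) (XT.lf (nat_lit 0) (nat_lit 45662718689) (nat_lit 380) (nat_lit 172560273527) (nat_lit 456) (nat_lit 37797437656) (nat_lit 100) (nat_lit 5) (nat_lit 105) (nat_lit 5) (nat_lit 106) (nat_lit 5) (nat_lit 431) (nat_lit 418) (nat_lit 171)) (XT.nd (nat_lit 78) (nat_lit 380) (nat_lit 0) (XT.lf (nat_lit 0) (nat_lit 186196045300) (nat_lit 380) (nat_lit 64209234409) (nat_lit 456) (nat_lit 12727457445) (nat_lit 100) (nat_lit 5) (nat_lit 105) (nat_lit 5) (nat_lit 106) (nat_lit 5) (nat_lit 432) (nat_lit 418) (nat_lit 170)) (XT.lf (nat_lit 0) (nat_lit 14969887961) (nat_lit 380) (nat_lit 206308954226) (nat_lit 76) (nat_lit 49220752867) (nat_lit 95) (nat_lit 5) (nat_lit 100) (nat_lit 5) (nat_lit 96) (nat_lit 5) (nat_lit 433) (nat_lit 418) (nat_lit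 169))))) (XT.nd (nat_lit 234) (nat_lit 608) (nat_lit 0) (XT.nd (nat_lit 78) (nat_lit 380) (nat_lit 0) (XT.lf (nat_lit 0) (nat_lit 46001237753) (nat_lit 380) (nat_lit 64406928410) (nat_lit 76) (nat_lit 167697354228) (nat_lit 95) (nat_lit 5) (nat_lit 100) (nat_lit 5) (nat_lit 96) (nat_lit 5) (nat_lit 434) (nat_lit 418) (nat_lit 168)) (XT.nd (nat_lit 78) (nat_lit 0) (nat_lit 0) (XT.lf (nat_lit 0) (nat_lit 80064585441) (nat_lit 456) (nat_lit 198752602849) (nat_lit 76) (nat_lit 7200532223) (nat_lit 90) (nat_lit 5) (nat_lit 96) (nat_lit 5) (nat_lit 91) (nat_lit 5) (nat_lit 435) (nat_lit 418) (nat_lit 167)) (XT.lf (nat_lit 0) (nat_lit 118749652073) (nat_lit 456) (nat_lit 47342084877) (nat_lit 76) (nat_lit 128087866152) (nat_lit 90) (nat_lit 5) (nat_lit 96) (nat_lit 5) (nat_lit 91) (nat_lit 5) (nat_lit 436) (nat_lit 418) (nat_lit 166)))) (XT.nd (nat_lit 78) (nat_lit 304) (nat_lit 0) (XT.lf (nat_lit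 0) (nat_lit 115330178055) (nat_lit 304) (nat_lit 45839362012) (nat_lit 380) (nat_lit 141490011387) (nat_lit 86) (nat_lit 5) (nat_lit 90) (nat_lit 5) (nat_lit 91) (nat_lit 5) (nat_lit 437) (nat_lit 418) (nat_lit 165)) (XT.nd (nat_lit 78) (nat_lit 304) (nat_lit 0) (XT.lf (nat_lit 0) (nat_lit 207780939105) (nat_lit 380) (nat_lit 25012626463) (nat_lit 76) (nat_lit 78666405856) (nat_lit 86) (nat_lit 5) (nat_lit 91) (nat_lit 5) (nat_lit 87) (nat_lit 5) (nat_lit 438) (nat_lit 418) (nat_lit 164)) (XT.lf (nat_lit 0) (nat_lit 149451819104) (nat_lit 304) (nat_lit 110355860821) (nat_lit 380) (nat_lit 60738493910) (nat_lit 82) (nat_lit 5) (nat_lit 86) (nat_lit 5) (nat_lit 87) (nat_lit 5) (nat_lit 439) (nat_lit 418) (nat_lit 163)))))) (XT.nd (nat_lit 468) (nat_lit 988) (nat_lit 0) (XT.nd (nat_lit 234) (nat_lit 228) (nat_lit 0) (XT.nd (nat_lit 78) (nat_lit 380) (nat_lit 0) (XT.lf (nat_lit 0) (nat_lit 3255331173)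 (nat_lit 228) (nat_lit 311945954475) (nat_lit 304) (nat_lit 14847124357) (nat_lit 79) (nat_lit 5) (nat_lit 82) (nat_lit 5) (nat_lit 83) (nat_lit 5) (nat_lit 440) (nat_lit 418) (nat_lit 162)) (XT.nd (nat_lit 78) (nat_lit 304) (nat_lit 0) (XT.lf (nat_lit 0) (nat_lit 37025889886) (nat_lit 304) (nat_lit 149995562016) (nat_lit 76) (nat_lit 152740574170) (nat_lit 78) (nat_lit 5) (nat_lit 82) (nat_lit 5) (nat_lit 79) (nat_lit 5) (nat_lit 441) (nat_lit 418) (nat_lit 161)) (XT.lf (nat_lit 0) (nat_lit 36568800894) (nat_lit 304) (nat_lit 54995684409) (nat_lit 380) (nat_lit 258356123332) (nat_lit 74) (nat_lit 5) (nat_lit 78) (nat_lit 5) (nat_lit 79) (nat_lit 5) (nat_lit 442) (nat_lit 418) (nat_lit 160)))) (XT.nd (nat_lit 78) (nat_lit 228) (nat_lit 0) (XT.lf (nat_lit 0) (nat_lit 152717572314) (nat_lit 380) (nat_lit 124138647756) (nat_lit 76) (nat_lit 83536522191) (nat_lit 74) (nat_lit 5) (nat_lit 79)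 (nat_lit 5) (nat_lit 75) (nat_lit 5) (nat_lit 443) (nat_lit 418) (nat_lit 159)) (XT.nd (nat_lit 78) (nat_lit 0) (nat_lit 0) (XT.lf (nat_lit 0) (nat_lit 76068196619) (nat_lit 228) (nat_lit 142949276635) (nat_lit 304) (nat_lit 152266551359) (nat_lit 71) (nat_lit 5) (nat_lit 74) (nat_lit 5) (nat_lit 75) (nat_lit 5) (nat_lit 444) (nat_lit 418) (nat_lit 158)) (XT.lf (nat_lit 0) (nat_lit 290595135398) (nat_lit 228) (nat_lit 139536432) (nat_lit 304) (nat_lit 91880084147) (nat_lit 71) (nat_lit 5) (nat_lit 74) (nat_lit 5) (nat_lit 75) (nat_lit 5) (nat_lit 445) (nat_lit 418) (nat_lit 157))))) (XT.nd (nat_lit 234) (nat_lit 456) (nat_lit 0) (XT.nd (nat_lit 78) (nat_lit 304) (nat_lit 0) (XT.lf (nat_lit 0) (nat_lit 122931962623) (nat_lit 228) (nat_lit 247364001341) (nat_lit 304) (nat_lit 24003148284) (nat_lit 68) (nat_lit 5) (nat_lit 71) (nat_lit 5) (nat_lit 72) (nat_lit 5) (nat_lit 446) (nat_lit 418)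 (nat_lit 156)) (XT.nd (nat_lit 78) (nat_lit 228) (nat_lit 0) (XT.lf (nat_lit 0) (nat_lit 47340963531) (nat_lit 304) (nat_lit 55429804133) (nat_lit 76) (nat_lit 303680710245) (nat_lit 67) (nat_lit 5) (nat_lit 71) (nat_lit 5) (nat_lit 68) (nat_lit 5) (nat_lit 447) (nat_lit 418) (nat_lit 155)) (XT.lf (nat_lit 0) (nat_lit 125019685654) (nat_lit 304) (nat_lit 243309498913) (nat_lit 76) (nat_lit 50683899198) (nat_lit 64) (nat_lit 5) (nat_lit 68) (nat_lit 5) (nat_lit 65) (nat_lit 5) (nat_lit 448) (nat_lit 418) (nat_lit 154)))) (XT.nd (nat_lit 156) (nat_lit 228) (nat_lit 0) (XT.nd (nat_lit 78) (nat_lit 228) (nat_lit 0) (XT.lf (nat_lit 0) (nat_lit 209221189880) (nat_lit 304) (nat_lit 13538006947) (nat_lit 76) (nat_lit 209311630806) (nat_lit 64) (nat_lit 5) (nat_lit 68) (nat_lit 5) (nat_lit 65) (nat_lit 5) (nat_lit 449) (nat_lit 418) (nat_lit 153)) (XT.lf (nat_lit 0) (nat_lit 235251521504) (nat_lit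 228) (nat_lit 66054145007) (nat_lit 304) (nat_lit 144292147340) (nat_lit 61) (nat_lit 5) (nat_lit 64) (nat_lit 5) (nat_lit 65) (nat_lit 5) (nat_lit 450) (nat_lit 418) (nat_lit 152))) (XT.nd (nat_lit 78) (nat_lit 76) (nat_lit 0) (XT.lf (nat_lit 0) (nat_lit 36797127333) (nat_lit 152) (nat_lit 363542384487) (nat_lit 228) (nat_lit 59344380335) (nat_lit 59) (nat_lit 5) (nat_lit 61) (nat_lit 5) (nat_lit 62) (nat_lit 5) (nat_lit 451) (nat_lit 418) (nat_lit 151)) (XT.lf (nat_lit 0) (nat_lit 33598896149) (nat_lit 228) (nat_lit 172303057004) (nat_lit 76) (nat_lit 268313841904) (nat_lit 58) (nat_lit 5) (nat_lit 61) (nat_lit 5) (nat_lit 59) (nat_lit 5) (nat_lit 452) (nat_lit 418) (nat_lit 150))))))) (XT.nd (nat_lit 50622) (nat_lit 0) (nat_lit 4332) (XT.nd (nat_lit 468) (nat_lit 532) (nat_lit 0) (XT.nd (nat_lit 234) (nat_lit 228) (nat_lit 0) (XT.nd (nat_lit 78) (nat_lit 152) (nat_lit 0) (XT.lf (nat_lit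 0) (nat_lit 92807337602) (nat_lit 228) (nat_lit 37836585589) (nat_lit 304) (nat_lit 358709279640) (nat_lit 55) (nat_lit 5) (nat_lit 58) (nat_lit 5) (nat_lit 59) (nat_lit 5) (nat_lit 453) (nat_lit 418) (nat_lit 149)) (XT.nd (nat_lit 78) (nat_lit 152) (nat_lit 0) (XT.lf (nat_lit 0) (nat_lit 237671473696) (nat_lit 304) (nat_lit 130158680561) (nat_lit 76) (nat_lit 137160813146) (nat_lit 55) (nat_lit 5) (nat_lit 59) (nat_lit 5) (nat_lit 56) (nat_lit 5) (nat_lit 454) (nat_lit 418) (nat_lit 148)) (XT.lf (nat_lit 0) (nat_lit 153851756195) (nat_lit 152) (nat_lit 199220941167) (nat_lit 228) (nat_lit 168186808071) (nat_lit 53) (nat_lit 5) (nat_lit 55) (nat_lit 5) (nat_lit 56) (nat_lit 5) (nat_lit 455) (nat_lit 418) (nat_lit 147)))) (XT.nd (nat_lit 78) (nat_lit 228) (nat_lit 0) (XT.lf (nat_lit 0) (nat_lit 456581478845) (nat_lit 152) (nat_lit 19866771048) (nat_lit 228) (nat_lit 61783007101) (nat_lit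 53) (nat_lit 5) (nat_lit 55) (nat_lit 5) (nat_lit 56) (nat_lit 5) (nat_lit 456) (nat_lit 418) (nat_lit 146)) (XT.nd (nat_lit 78) (nat_lit 0) (nat_lit 0) (XT.lf (nat_lit 0) (nat_lit 54552848029) (nat_lit 228) (nat_lit 333725791916) (nat_lit 76) (nat_lit 167423455889) (nat_lit 50) (nat_lit 5) (nat_lit 53) (nat_lit 5) (nat_lit 51) (nat_lit 5) (nat_lit 457) (nat_lit 418) (nat_lit 145)) (XT.lf (nat_lit 0) (nat_lit 176360282437) (nat_lit 228) (nat_lit 31720191613) (nat_lit 76) (nat_lit 365828805732) (nat_lit 50) (nat_lit 5) (nat_lit 53) (nat_lit 5) (nat_lit 51) (nat_lit 5) (nat_lit 458) (nat_lit 418) (nat_lit 144))))) (XT.nd (nat_lit 234) (nat_lit 228) (nat_lit 0) (XT.nd (nat_lit 78) (nat_lit 152) (nat_lit 0) (XT.lf (nat_lit 0) (nat_lit 294821778737) (nat_lit 152) (nat_lit 14039274431) (nat_lit 228) (nat_lit 283935621539) (nat_lit 48) (nat_lit 5) (nat_lit 50) (nat_lit 5) (nat_lit 51) (nat_lit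 5) (nat_lit 459) (nat_lit 418) (nat_lit 143)) (XT.nd (nat_lit 78) (nat_lit 0) (nat_lit 0) (XT.lf (nat_lit 0) (nat_lit 23987608948) (nat_lit 152) (nat_lit 427881552226) (nat_lit 228) (nat_lit 160565163278) (nat_lit 46) (nat_lit 5) (nat_lit 48) (nat_lit 5) (nat_lit 49) (nat_lit 5) (nat_lit 460) (nat_lit 418) (nat_lit 142)) (XT.lf (nat_lit 0) (nat_lit 372155445055) (nat_lit 152) (nat_lit 235144989910) (nat_lit 228) (nat_lit 25489783709) (nat_lit 46) (nat_lit 5) (nat_lit 48) (nat_lit 5) (nat_lit 49) (nat_lit 5) (nat_lit 461) (nat_lit 418) (nat_lit 141)))) (XT.nd (nat_lit 49764) (nat_lit 0) (nat_lit 5092) (XT.nd (nat_lit 78) (nat_lit 0) (nat_lit 0) (XT.lf (nat_lit 0) (nat_lit 84454403837) (nat_lit 152) (nat_lit 29479917037) (nat_lit 228) (nat_lit 540072840451) (nat_lit 43) (nat_lit 5) (nat_lit 45) (nat_lit 5) (nat_lit 46) (nat_lit 5) (nat_lit 462) (nat_lit 418) (nat_lit 140)) (XT.lf (nat_lit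 0) (nat_lit 266870610178) (nat_lit 228) (nat_lit 223619128020) (nat_lit 76) (nat_lit 185404439484) (nat_lit 43) (nat_lit 5) (nat_lit 46) (nat_lit 5) (nat_lit 44) (nat_lit 5) (nat_lit 463) (nat_lit 418) (nat_lit 139))) (XT.nd (nat_lit 78) (nat_lit 0) (nat_lit 0) (XT.lf (nat_lit 0) (nat_lit 21710444945) (nat_lit 836) (nat_lit 37166162379) (nat_lit 836) (nat_lit 37166162379) (nat_lit 110) (nat_lit 3) (nat_lit 121) (nat_lit 3) (nat_lit 121) (nat_lit 5) (nat_lit 419) (nat_lit 419) (nat_lit 182)) (XT.lf (nat_lit 76) (nat_lit 18819819551) (nat_lit 0) (nat_lit 25982147913) (nat_lit 836) (nat_lit 152070931443) (nat_lit 111) (nat_lit 5) (nat_lit 110) (nat_lit 3) (nat_lit 121) (nat_lit 5) (nat_lit 420) (nat_lit 419) (nat_lit 181)))))) (XT.nd (nat_lit 468) (nat_lit 836) (nat_lit 0) (XT.nd (nat_lit 234) (nat_lit 0) (nat_lit 76) (XT.nd (nat_lit 78) (nat_lit 0) (nat_lit 0) (XT.lf (nat_lit 0) (nat_lit 48630268759)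 (nat_lit 760) (nat_lit 83745955051) (nat_lit 836) (nat_lit 69404494158) (nat_lit 111) (nat_lit 5) (nat_lit 121) (nat_lit 5) (nat_lit 122) (nat_lit 5) (nat_lit 421) (nat_lit 419) (nat_lit 180)) (XT.nd (nat_lit 78) (nat_lit 0) (nat_lit 76) (XT.lf (nat_lit 76) (nat_lit 15341550830) (nat_lit 0) (nat_lit 37973790440) (nat_lit 836) (nat_lit 153585318980) (nat_lit 112) (nat_lit 5) (nat_lit 111) (nat_lit 5) (nat_lit 122) (nat_lit 5) (nat_lit 422) (nat_lit 419) (nat_lit 179)) (XT.lf (nat_lit 0) (nat_lit 60630799078) (nat_lit 760) (nat_lit 90892805265) (nat_lit 836) (nat_lit 60633188790) (nat_lit 112) (nat_lit 5) (nat_lit 122) (nat_lit 5) (nat_lit 123) (nat_lit 5) (nat_lit 423) (nat_lit 419) (nat_lit 178)))) (XT.nd (nat_lit 78) (nat_lit 0) (nat_lit 76) (XT.lf (nat_lit 76) (nat_lit 14653222873) (nat_lit 0) (nat_lit 54510010075) (nat_lit 836) (nat_lit 148469939620) (nat_lit 113) (nat_lit 5) (nat_lit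 112) (nat_lit 5) (nat_lit 123) (nat_lit 5) (nat_lit 424) (nat_lit 419) (nat_lit 177)) (XT.nd (nat_lit 78) (nat_lit 0) (nat_lit 0) (XT.lf (nat_lit 0) (nat_lit 80426077731) (nat_lit 760) (nat_lit 95438896130) (nat_lit 836) (nat_lit 47403207717) (nat_lit 113) (nat_lit 5) (nat_lit 123) (nat_lit 5) (nat_lit 124) (nat_lit 5) (nat_lit 425) (nat_lit 419) (nat_lit 176)) (XT.lf (nat_lit 76) (nat_lit 17133930656) (nat_lit 0) (nat_lit 76279162028) (nat_lit 836) (nat_lit 135713797019) (nat_lit 114) (nat_lit 5) (nat_lit 113) (nat_lit 5) (nat_lit 124) (nat_lit 5) (nat_lit 426) (nat_lit 419) (nat_lit 175))))) (XT.nd (nat_lit 234) (nat_lit 1064) (nat_lit 0) (XT.nd (nat_lit 78) (nat_lit 0) (nat_lit 0) (XT.lf (nat_lit 0) (nat_lit 109133797861) (nat_lit 760) (nat_lit 97017084922) (nat_lit 836) (nat_lit 29023433536) (nat_lit 114) (nat_lit 5) (nat_lit 124) (nat_lit 5) (nat_lit 125) (nat_lit 5) (nat_lit 427) (nat_lit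 419) (nat_lit 174)) (XT.nd (nat_lit 78) (nat_lit 0) (nat_lit 76) (XT.lf (nat_lit 76) (nat_lit 23199570218) (nat_lit 0) (nat_lit 104053576455) (nat_lit 836) (nat_lit 114190337230) (nat_lit 115) (nat_lit 5) (nat_lit 114) (nat_lit 5) (nat_lit 125) (nat_lit 5) (nat_lit 428) (nat_lit 419) (nat_lit 173)) (XT.lf (nat_lit 0) (nat_lit 147997510534) (nat_lit 760) (nat_lit 95224848206) (nat_lit 76) (nat_lit 4717798799) (nat_lit 115) (nat_lit 5) (nat_lit 125) (nat_lit 5) (nat_lit 116) (nat_lit 5) (nat_lit 429) (nat_lit 419) (nat_lit 172)))) (XT.nd (nat_lit 156) (nat_lit 380) (nat_lit 0) (XT.nd (nat_lit 78) (nat_lit 0) (nat_lit 0) (XT.lf (nat_lit 0) (nat_lit 33305285826) (nat_lit 760) (nat_lit 138699518610) (nat_lit 836) (nat_lit 82645574877) (nat_lit 105) (nat_lit 5) (nat_lit 115) (nat_lit 5) (nat_lit 116) (nat_lit 5) (nat_lit 430) (nat_lit 419) (nat_lit 171)) (XT.lf (nat_lit 0) (nat_lit 171567853796)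 (nat_lit 760) (nat_lit 27257217268) (nat_lit 836) (nat_lit 62790410759) (nat_lit 105) (nat_lit 5) (nat_lit 115) (nat_lit 5) (nat_lit 116) (nat_lit 5) (nat_lit 431) (nat_lit 419) (nat_lit 170))) (XT.nd (nat_lit 78) (nat_lit 0) (nat_lit 0) (XT.lf (nat_lit 0) (nat_lit 47947917157) (nat_lit 380) (nat_lit 181188329269) (nat_lit 456) (nat_lit 39685098308) (nat_lit 100) (nat_lit 5) (nat_lit 105) (nat_lit 5) (nat_lit 106) (nat_lit 5) (nat_lit 432) (nat_lit 419) (nat_lit 169)) (XT.lf (nat_lit 0) (nat_lit 195507811883) (nat_lit 380) (nat_lit 67419736192) (nat_lit 456) (nat_lit 13361724383) (nat_lit 100) (nat_lit 5) (nat_lit 105) (nat_lit 5) (nat_lit 106) (nat_lit 5) (nat_lit 433) (nat_lit 419) (nat_lit 168))))))))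
noncomputable def xc243 : XT := (XT.nd (nat_lit 1950) (nat_lit 532) (nat_lit 0) (XT.nd (nat_lit 936) (nat_lit 1596) (nat_lit 0) (XT.nd (nat_lit 468) (nat_lit 1140) (nat_lit 0) (XT.nd (nat_lit 234) (nat_lit 304) (nat_lit 0) (XT.nd (nat_lit 78) (nat_lit 380) (nat_lit 0) (XT.lf (nat_lit 0) (nat_lit 15720355475) (nat_lit 380) (nat_lit 216622302319) (nat_lit 76) (nat_lit 51681817145) (nat_lit 95) (nat_lit 5) (nat_lit 100) (nat_lit 5) (nat_lit 96) (nat_lit 5) (nat_lit 434) (nat_lit 419) (nat_lit 167)) (XT.nd (nat_lit 78) (nat_lit 380) (nat_lit 0) (XT.lf (nat_lit 0) (nat_lit 48303178800) (nat_lit 380) (nat_lit 67625275193) (nat_lit 76) (nat_lit 176082247306) (nat_lit 95) (nat_lit 5) (nat_lit 100) (nat_lit 5) (nat_lit 96) (nat_lit 5) (nat_lit 435) (nat_lit 419) (nat_lit 166)) (XT.lf (nat_lit 0) (nat_lit 84069637399) (nat_lit 456) (nat_lit 208688175784) (nat_lit 76) (nat_lit 7560701123) (nat_lit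 90) (nat_lit 5) (nat_lit 96) (nat_lit 5) (nat_lit 91) (nat_lit 5) (nat_lit 436) (nat_lit 419) (nat_lit 165)))) (XT.nd (nat_lit 78) (nat_lit 304) (nat_lit 0) (XT.lf (nat_lit 0) (nat_lit 124688870569) (nat_lit 456) (nat_lit 49707229875) (nat_lit 76) (nat_lit 134492394972) (nat_lit 90) (nat_lit 5) (nat_lit 96) (nat_lit 5) (nat_lit 91) (nat_lit 5) (nat_lit 437) (nat_lit 419) (nat_lit 164)) (XT.nd (nat_lit 78) (nat_lit 0) (nat_lit 0) (XT.lf (nat_lit 0) (nat_lit 121098614602) (nat_lit 304) (nat_lit 48131085794) (nat_lit 380) (nat_lit 148562743467) (nat_lit 86) (nat_lit 5) (nat_lit 90) (nat_lit 5) (nat_lit 91) (nat_lit 5) (nat_lit 438) (nat_lit 419) (nat_lit 163)) (XT.lf (nat_lit 0) (nat_lit 218171592861) (nat_lit 380) (nat_lit 26261344459) (nat_lit 76) (nat_lit 82599951386) (nat_lit 86) (nat_lit 5) (nat_lit 91) (nat_lit 5) (nat_lit 87) (nat_lit 5) (nat_lit 439) (nat_lit 419) (nat_lit 162)))))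 (XT.nd (nat_lit 234) (nat_lit 532) (nat_lit 0) (XT.nd (nat_lit 78) (nat_lit 304) (nat_lit 0) (XT.lf (nat_lit 0) (nat_lit 156926292526) (nat_lit 304) (nat_lit 115873331072) (nat_lit 380) (nat_lit 63773780041) (nat_lit 82) (nat_lit 5) (nat_lit 86) (nat_lit 5) (nat_lit 87) (nat_lit 5) (nat_lit 440) (nat_lit 419) (nat_lit 161)) (XT.nd (nat_lit 78) (nat_lit 76) (nat_lit 0) (XT.lf (nat_lit 0) (nat_lit 3420022493) (nat_lit 228) (nat_lit 327542847695) (nat_lit 304) (nat_lit 15587883443) (nat_lit 79) (nat_lit 5) (nat_lit 82) (nat_lit 5) (nat_lit 83) (nat_lit 5) (nat_lit 441) (nat_lit 419) (nat_lit 160)) (XT.lf (nat_lit 0) (nat_lit 38878656773) (nat_lit 304) (nat_lit 157493457546) (nat_lit 76) (nat_lit 160377938656) (nat_lit 78) (nat_lit 5) (nat_lit 82) (nat_lit 5) (nat_lit 79) (nat_lit 5) (nat_lit 442) (nat_lit 419) (nat_lit 159)))) (XT.nd (nat_lit 78) (nat_lit 228) (nat_lit 0) (XT.lf (nat_lit 0)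 (nat_lit 38399093145) (nat_lit 304) (nat_lit 57745047620) (nat_lit 380) (nat_lit 271272425998) (nat_lit 74) (nat_lit 5) (nat_lit 78) (nat_lit 5) (nat_lit 79) (nat_lit 5) (nat_lit 443) (nat_lit 419) (nat_lit 158)) (XT.nd (nat_lit 78) (nat_lit 228) (nat_lit 0) (XT.lf (nat_lit 0) (nat_lit 160354820235) (nat_lit 380) (nat_lit 130343753536) (nat_lit 76) (nat_lit 87713736429) (nat_lit 74) (nat_lit 5) (nat_lit 79) (nat_lit 5) (nat_lit 75) (nat_lit 5) (nat_lit 444) (nat_lit 419) (nat_lit 157)) (XT.lf (nat_lit 0) (nat_lit 79873403596) (nat_lit 228) (nat_lit 150096275479) (nat_lit 304) (nat_lit 159878479486) (nat_lit 71) (nat_lit 5) (nat_lit 74) (nat_lit 5) (nat_lit 75) (nat_lit 5) (nat_lit 445) (nat_lit 419) (nat_lit 156)))))) (XT.nd (nat_lit 468) (nat_lit 836) (nat_lit 0) (XT.nd (nat_lit 234) (nat_lit 456) (nat_lit 0) (XT.nd (nat_lit 78) (nat_lit 304) (nat_lit 0) (XT.lf (nat_lit 0) (nat_lit 305126603735)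 (nat_lit 228) (nat_lit 146070408) (nat_lit 304) (nat_lit 96472755553) (nat_lit 71) (nat_lit 5) (nat_lit 74) (nat_lit 5) (nat_lit 75) (nat_lit 5) (nat_lit 446) (nat_lit 419) (nat_lit 155)) (XT.nd (nat_lit 78) (nat_lit 76) (nat_lit 0) (XT.lf (nat_lit 0) (nat_lit 129080300958) (nat_lit 228) (nat_lit 259731703265) (nat_lit 304) (nat_lit 25202000922) (nat_lit 68) (nat_lit 5) (nat_lit 71) (nat_lit 5) (nat_lit 72) (nat_lit 5) (nat_lit 447) (nat_lit 419) (nat_lit 154)) (XT.lf (nat_lit 0) (nat_lit 49709214579) (nat_lit 304) (nat_lit 58199596676) (nat_lit 76) (nat_lit 318865179851) (nat_lit 67) (nat_lit 5) (nat_lit 71) (nat_lit 5) (nat_lit 68) (nat_lit 5) (nat_lit 448) (nat_lit 419) (nat_lit 153)))) (XT.nd (nat_lit 78) (nat_lit 228) (nat_lit 0) (XT.lf (nat_lit 0) (nat_lit 131271849392) (nat_lit 304) (nat_lit 255473252249) (nat_lit 76) (nat_lit 53218576811) (nat_lit 64) (nat_lit 5) (nat_lit 68) (nat_lit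 5) (nat_lit 65) (nat_lit 5) (nat_lit 449) (nat_lit 419) (nat_lit 152)) (XT.nd (nat_lit 78) (nat_lit 228) (nat_lit 0) (XT.lf (nat_lit 0) (nat_lit 219683372665) (nat_lit 304) (nat_lit 14213267665) (nat_lit 76) (nat_lit 219777672017) (nat_lit 64) (nat_lit 5) (nat_lit 68) (nat_lit 5) (nat_lit 65) (nat_lit 5) (nat_lit 450) (nat_lit 419) (nat_lit 151)) (XT.lf (nat_lit 0) (nat_lit 247015710762) (nat_lit 228) (nat_lit 69356334061) (nat_lit 304) (nat_lit 151505604492) (nat_lit 61) (nat_lit 5) (nat_lit 64) (nat_lit 5) (nat_lit 65) (nat_lit 5) (nat_lit 451) (nat_lit 419) (nat_lit 150))))) (XT.nd (nat_lit 234) (nat_lit 380) (nat_lit 0) (XT.nd (nat_lit 78) (nat_lit 304) (nat_lit 0) (XT.lf (nat_lit 0) (nat_lit 38638617241) (nat_lit 152) (nat_lit 381718946223) (nat_lit 228) (nat_lit 62310469039) (nat_lit 59) (nat_lit 5) (nat_lit 61) (nat_lit 5) (nat_lit 62) (nat_lit 5) (nat_lit 452) (nat_lit 419) (nat_lit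 149)) (XT.nd (nat_lit 78) (nat_lit 228) (nat_lit 0) (XT.lf (nat_lit 0) (nat_lit 35279882990) (nat_lit 228) (nat_lit 180916619232) (nat_lit 76) (nat_lit 281730030072) (nat_lit 58) (nat_lit 5) (nat_lit 61) (nat_lit 5) (nat_lit 59) (nat_lit 5) (nat_lit 453) (nat_lit 419) (nat_lit 148)) (XT.lf (nat_lit 0) (nat_lit 97449269450) (nat_lit 228) (nat_lit 39727866748) (nat_lit 304) (nat_lit 376643675538) (nat_lit 55) (nat_lit 5) (nat_lit 58) (nat_lit 5) (nat_lit 59) (nat_lit 5) (nat_lit 454) (nat_lit 419) (nat_lit 147)))) (XT.nd (nat_lit 156) (nat_lit 228) (nat_lit 0) (XT.nd (nat_lit 78) (nat_lit 152) (nat_lit 0) (XT.lf (nat_lit 0) (nat_lit 249556023956) (nat_lit 304) (nat_lit 136665083497) (nat_lit 76) (nat_lit 144019359115) (nat_lit 55) (nat_lit 5) (nat_lit 59) (nat_lit 5) (nat_lit 56) (nat_lit 5) (nat_lit 455) (nat_lit 419) (nat_lit 146)) (XT.lf (nat_lit 0) (nat_lit 161545850402) (nat_lit 152)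 (nat_lit 209181435420) (nat_lit 228) (nat_lit 176595146846) (nat_lit 53) (nat_lit 5) (nat_lit 55) (nat_lit 5) (nat_lit 56) (nat_lit 5) (nat_lit 456) (nat_lit 419) (nat_lit 145))) (XT.nd (nat_lit 78) (nat_lit 228) (nat_lit 0) (XT.lf (nat_lit 0) (nat_lit 479411987451) (nat_lit 152) (nat_lit 20859583119) (nat_lit 228) (nat_lit 64871203524) (nat_lit 53) (nat_lit 5) (nat_lit 55) (nat_lit 5) (nat_lit 56) (nat_lit 5) (nat_lit 457) (nat_lit 419) (nat_lit 144)) (XT.lf (nat_lit 0) (nat_lit 57281400802) (nat_lit 228) (nat_lit 350410602653) (nat_lit 76) (nat_lit 175795151343) (nat_lit 50) (nat_lit 5) (nat_lit 53) (nat_lit 5) (nat_lit 51) (nat_lit 5) (nat_lit 458) (nat_lit 419) (nat_lit 143))))))) (XT.nd (nat_lit 50700) (nat_lit 0) (nat_lit 3268) (XT.nd (nat_lit 50154) (nat_lit 0) (nat_lit 5092) (XT.nd (nat_lit 234) (nat_lit 228) (nat_lit 0) (XT.nd (nat_lit 78) (nat_lit 304) (nat_lit 0) (XT.lf (nat_lit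 0) (nat_lit 185179163578) (nat_lit 228) (nat_lit 33304792757) (nat_lit 76) (nat_lit 384120743790) (nat_lit 50) (nat_lit 5) (nat_lit 53) (nat_lit 5) (nat_lit 51) (nat_lit 5) (nat_lit 459) (nat_lit 419) (nat_lit 142)) (XT.nd (nat_lit 78) (nat_lit 152) (nat_lit 0) (XT.lf (nat_lit 0) (nat_lit 309564253394) (nat_lit 152) (nat_lit 14740699801) (nat_lit 228) (nat_lit 298131512600) (nat_lit 48) (nat_lit 5) (nat_lit 50) (nat_lit 5) (nat_lit 51) (nat_lit 5) (nat_lit 460) (nat_lit 419) (nat_lit 141)) (XT.lf (nat_lit 0) (nat_lit 25188386456) (nat_lit 152) (nat_lit 449275069610) (nat_lit 228) (nat_lit 168592542500) (nat_lit 46) (nat_lit 5) (nat_lit 48) (nat_lit 5) (nat_lit 49) (nat_lit 5) (nat_lit 461) (nat_lit 419) (nat_lit 140)))) (XT.nd (nat_lit 78) (nat_lit 228) (nat_lit 0) (XT.lf (nat_lit 0) (nat_lit 390764547842) (nat_lit 152) (nat_lit 246901705856) (nat_lit 228) (nat_lit 26763435806) (nat_lit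 46) (nat_lit 5) (nat_lit 48) (nat_lit 5) (nat_lit 49) (nat_lit 5) (nat_lit 462) (nat_lit 419) (nat_lit 139)) (XT.nd (nat_lit 49764) (nat_lit 0) (nat_lit 5092) (XT.lf (nat_lit 0) (nat_lit 88678459701) (nat_lit 152) (nat_lit 30953369781) (nat_lit 228) (nat_lit 567075650050) (nat_lit 43) (nat_lit 5) (nat_lit 45) (nat_lit 5) (nat_lit 46) (nat_lit 5) (nat_lit 463) (nat_lit 419) (nat_lit 138)) (XT.lf (nat_lit 0) (nat_lit 22797665458) (nat_lit 836) (nat_lit 39023578309) (nat_lit 836) (nat_lit 39023578309) (nat_lit 110) (nat_lit 3) (nat_lit 121) (nat_lit 3) (nat_lit 121) (nat_lit 5) (nat_lit 420) (nat_lit 420) (nat_lit 180))))) (XT.nd (nat_lit 234) (nat_lit 0) (nat_lit 152) (XT.nd (nat_lit 78) (nat_lit 0) (nat_lit 76) (XT.lf (nat_lit 76) (nat_lit 19762566126) (nat_lit 0) (nat_lit 27282761912) (nat_lit 836) (nat_lit 159671050419) (nat_lit 111) (nat_lit 5) (nat_lit 110) (nat_lit 3) (nat_lit 121) (nat_lit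 5) (nat_lit 421) (nat_lit 420) (nat_lit 179)) (XT.nd (nat_lit 78) (nat_lit 0) (nat_lit 0) (XT.lf (nat_lit 0) (nat_lit 51064866654) (nat_lit 760) (nat_lit 87931400885) (nat_lit 836) (nat_lit 72873329930) (nat_lit 111) (nat_lit 5) (nat_lit 121) (nat_lit 5) (nat_lit 122) (nat_lit 5) (nat_lit 422) (nat_lit 420) (nat_lit 178)) (XT.lf (nat_lit 76) (nat_lit 16110450421) (nat_lit 0) (nat_lit 39873623938) (nat_lit 836) (nat_lit 161261468531) (nat_lit 112) (nat_lit 5) (nat_lit 111) (nat_lit 5) (nat_lit 122) (nat_lit 5) (nat_lit 423) (nat_lit 420) (nat_lit 177)))) (XT.nd (nat_lit 156) (nat_lit 0) (nat_lit 76) (XT.nd (nat_lit 78) (nat_lit 0) (nat_lit 0) (XT.lf (nat_lit 0) (nat_lit 63665146807) (nat_lit 760) (nat_lit 95435550021) (nat_lit 836) (nat_lit 63663793599) (nat_lit 112) (nat_lit 5) (nat_lit 122) (nat_lit 5) (nat_lit 123) (nat_lit 5) (nat_lit 424) (nat_lit 420) (nat_lit 176)) (XT.lf (nat_lit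 76) (nat_lit 15387748951) (nat_lit 0) (nat_lit 57236348833) (nat_lit 836) (nat_lit 155890596373) (nat_lit 113) (nat_lit 5) (nat_lit 112) (nat_lit 5) (nat_lit 123) (nat_lit 5) (nat_lit 425) (nat_lit 420) (nat_lit 175))) (XT.nd (nat_lit 78) (nat_lit 0) (nat_lit 0) (XT.lf (nat_lit 0) (nat_lit 84449943619) (nat_lit 760) (nat_lit 100208921831) (nat_lit 836) (nat_lit 49772595317) (nat_lit 113) (nat_lit 5) (nat_lit 123) (nat_lit 5) (nat_lit 124) (nat_lit 5) (nat_lit 426) (nat_lit 420) (nat_lit 174)) (XT.lf (nat_lit 76) (nat_lit 17992515341) (nat_lit 0) (nat_lit 80093701458) (nat_lit 836) (nat_lit 142496892211) (nat_lit 114) (nat_lit 5) (nat_lit 113) (nat_lit 5) (nat_lit 124) (nat_lit 5) (nat_lit 427) (nat_lit 420) (nat_lit 173)))))) (XT.nd (nat_lit 468) (nat_lit 1064) (nat_lit 0) (XT.nd (nat_lit 234) (nat_lit 1064) (nat_lit 0) (XT.nd (nat_lit 78) (nat_lit 0) (nat_lit 0) (XT.lf (nat_lit 0) (nat_lit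 114592830997) (nat_lit 760) (nat_lit 101866013066) (nat_lit 836) (nat_lit 30474069287) (nat_lit 114) (nat_lit 5) (nat_lit 124) (nat_lit 5) (nat_lit 125) (nat_lit 5) (nat_lit 428) (nat_lit 420) (nat_lit 172)) (XT.nd (nat_lit 78) (nat_lit 0) (nat_lit 76) (XT.lf (nat_lit 76) (nat_lit 24361443765) (nat_lit 0) (nat_lit 109256621488) (nat_lit 836) (nat_lit 119897478238) (nat_lit 115) (nat_lit 5) (nat_lit 114) (nat_lit 5) (nat_lit 125) (nat_lit 5) (nat_lit 429) (nat_lit 420) (nat_lit 171)) (XT.lf (nat_lit 0) (nat_lit 155399534183) (nat_lit 760) (nat_lit 99984171224) (nat_lit 76) (nat_lit 4953351130) (nat_lit 115) (nat_lit 5) (nat_lit 125) (nat_lit 5) (nat_lit 116) (nat_lit 5) (nat_lit 430) (nat_lit 420) (nat_lit 170)))) (XT.nd (nat_lit 78) (nat_lit 380) (nat_lit 0) (XT.lf (nat_lit 0) (nat_lit 34972438551) (nat_lit 760) (nat_lit 145634681421) (nat_lit 836) (nat_lit 86775673139) (nat_lit 105) (nat_lit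 5) (nat_lit 115) (nat_lit 5) (nat_lit 116) (nat_lit 5) (nat_lit 431) (nat_lit 420) (nat_lit 169)) (XT.nd (nat_lit 78) (nat_lit 380) (nat_lit 0) (XT.lf (nat_lit 0) (nat_lit 180148044994) (nat_lit 760) (nat_lit 28620256113) (nat_lit 836) (nat_lit 65927854647) (nat_lit 105) (nat_lit 5) (nat_lit 115) (nat_lit 5) (nat_lit 116) (nat_lit 5) (nat_lit 432) (nat_lit 420) (nat_lit 168)) (XT.lf (nat_lit 0) (nat_lit 50347183794) (nat_lit 380) (nat_lit 190247783886) (nat_lit 456) (nat_lit 41667347571) (nat_lit 100) (nat_lit 5) (nat_lit 105) (nat_lit 5) (nat_lit 106) (nat_lit 5) (nat_lit 433) (nat_lit 420) (nat_lit 167))))) (XT.nd (nat_lit 234) (nat_lit 684) (nat_lit 0) (XT.nd (nat_lit 78) (nat_lit 380) (nat_lit 0) (XT.lf (nat_lit 0) (nat_lit 205284984171) (nat_lit 380) (nat_lit 70790759338) (nat_lit 456) (nat_lit 14027900458) (nat_lit 100) (nat_lit 5) (nat_lit 105) (nat_lit 5) (nat_lit 106) (nat_lit 5)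 (nat_lit 434) (nat_lit 420) (nat_lit 166)) (XT.nd (nat_lit 78) (nat_lit 0) (nat_lit 0) (XT.lf (nat_lit 0) (nat_lit 16508162924) (nat_lit 380) (nat_lit 227451513018) (nat_lit 76) (nat_lit 54265932161) (nat_lit 95) (nat_lit 5) (nat_lit 100) (nat_lit 5) (nat_lit 96) (nat_lit 5) (nat_lit 435) (nat_lit 420) (nat_lit 165)) (XT.lf (nat_lit 0) (nat_lit 50720042192) (nat_lit 380) (nat_lit 71004725223) (nat_lit 76) (nat_lit 184886382679) (nat_lit 95) (nat_lit 5) (nat_lit 100) (nat_lit 5) (nat_lit 96) (nat_lit 5) (nat_lit 436) (nat_lit 420) (nat_lit 164)))) (XT.nd (nat_lit 156) (nat_lit 304) (nat_lit 0) (XT.nd (nat_lit 78) (nat_lit 0) (nat_lit 0) (XT.lf (nat_lit 0) (nat_lit 88274772499) (nat_lit 456) (nat_lit 219120718624) (nat_lit 76) (nat_lit 7938865239) (nat_lit 90) (nat_lit 5) (nat_lit 96) (nat_lit 5) (nat_lit 91) (nat_lit 5) (nat_lit 437) (nat_lit 420) (nat_lit 163)) (XT.lf (nat_lit 0) (nat_lit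 130924888602) (nat_lit 456) (nat_lit 52190814275) (nat_lit 76) (nat_lit 141217137635) (nat_lit 90) (nat_lit 5) (nat_lit 96) (nat_lit 5) (nat_lit 91) (nat_lit 5) (nat_lit 438) (nat_lit 420) (nat_lit 162))) (XT.nd (nat_lit 78) (nat_lit 0) (nat_lit 0) (XT.lf (nat_lit 0) (nat_lit 127155293763) (nat_lit 304) (nat_lit 50537418479) (nat_lit 380) (nat_lit 155989276568) (nat_lit 86) (nat_lit 5) (nat_lit 90) (nat_lit 5) (nat_lit 91) (nat_lit 5) (nat_lit 439) (nat_lit 420) (nat_lit 161)) (XT.lf (nat_lit 0) (nat_lit 229081629920) (nat_lit 380) (nat_lit 27572676238) (nat_lit 76) (nat_lit 86730153252) (nat_lit 86) (nat_lit 5) (nat_lit 91) (nat_lit 5) (nat_lit 87) (nat_lit 5) (nat_lit 440) (nat_lit 420) (nat_lit 160))))))))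
noncomputable def xc244 : XT := (XT.nd (nat_lit 51714) (nat_lit 0) (nat_lit 1900) (XT.nd (nat_lit 936) (nat_lit 1140) (nat_lit 0) (XT.nd (nat_lit 468) (nat_lit 760) (nat_lit 0) (XT.nd (nat_lit 234) (nat_lit 532) (nat_lit 0) (XT.nd (nat_lit 78) (nat_lit 304) (nat_lit 0) (XT.lf (nat_lit 0) (nat_lit 164774314605) (nat_lit 304) (nat_lit 121666704846) (nat_lit 380) (nat_lit 66960982817) (nat_lit 82) (nat_lit 5) (nat_lit 86) (nat_lit 5) (nat_lit 87) (nat_lit 5) (nat_lit 441) (nat_lit 420) (nat_lit 159)) (XT.nd (nat_lit 78) (nat_lit 76) (nat_lit 0) (XT.lf (nat_lit 0) (nat_lit 3592769434) (nat_lit 228) (nat_lit 343919623182) (nat_lit 304) (nat_lit 16365828971) (nat_lit 79) (nat_lit 5) (nat_lit 82) (nat_lit 5) (nat_lit 83) (nat_lit 5) (nat_lit 442) (nat_lit 420) (nat_lit 158)) (XT.lf (nat_lit 0) (nat_lit 40823925116) (nat_lit 304) (nat_lit 165366422876) (nat_lit 76) (nat_lit 168397140149) (nat_lit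 78) (nat_lit 5) (nat_lit 82) (nat_lit 5) (nat_lit 79) (nat_lit 5) (nat_lit 443) (nat_lit 420) (nat_lit 157)))) (XT.nd (nat_lit 78) (nat_lit 228) (nat_lit 0) (XT.lf (nat_lit 0) (nat_lit 40320727809) (nat_lit 304) (nat_lit 60631918133) (nat_lit 380) (nat_lit 284834683578) (nat_lit 74) (nat_lit 5) (nat_lit 78) (nat_lit 5) (nat_lit 79) (nat_lit 5) (nat_lit 444) (nat_lit 420) (nat_lit 156)) (XT.nd (nat_lit 78) (nat_lit 228) (nat_lit 0) (XT.lf (nat_lit 0) (nat_lit 168373803247) (nat_lit 380) (nat_lit 136859284427) (nat_lit 76) (nat_lit 92099775295) (nat_lit 74) (nat_lit 5) (nat_lit 79) (nat_lit 5) (nat_lit 75) (nat_lit 5) (nat_lit 445) (nat_lit 420) (nat_lit 155)) (XT.lf (nat_lit 0) (nat_lit 83868703840) (nat_lit 228) (nat_lit 157600667496) (nat_lit 304) (nat_lit 167871134126) (nat_lit 71) (nat_lit 5) (nat_lit 74) (nat_lit 5) (nat_lit 75) (nat_lit 5) (nat_lit 446) (nat_lit 420) (nat_lit 154)))))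 (XT.nd (nat_lit 234) (nat_lit 456) (nat_lit 0) (XT.nd (nat_lit 78) (nat_lit 304) (nat_lit 0) (XT.lf (nat_lit 0) (nat_lit 320384486364) (nat_lit 228) (nat_lit 152972256) (nat_lit 304) (nat_lit 101295184441) (nat_lit 71) (nat_lit 5) (nat_lit 74) (nat_lit 5) (nat_lit 75) (nat_lit 5) (nat_lit 447) (nat_lit 420) (nat_lit 153)) (XT.nd (nat_lit 78) (nat_lit 76) (nat_lit 0) (XT.lf (nat_lit 0) (nat_lit 135535894423) (nat_lit 228) (nat_lit 272717836599) (nat_lit 304) (nat_lit 26460917498) (nat_lit 68) (nat_lit 5) (nat_lit 71) (nat_lit 5) (nat_lit 72) (nat_lit 5) (nat_lit 448) (nat_lit 420) (nat_lit 152)) (XT.lf (nat_lit 0) (nat_lit 52195766348) (nat_lit 304) (nat_lit 61108036678) (nat_lit 76) (nat_lit 334808832580) (nat_lit 67) (nat_lit 5) (nat_lit 71) (nat_lit 5) (nat_lit 68) (nat_lit 5) (nat_lit 449) (nat_lit 420) (nat_lit 151)))) (XT.nd (nat_lit 78) (nat_lit 228) (nat_lit 0) (XT.lf (nat_lit 0)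 (nat_lit 137836511662) (nat_lit 304) (nat_lit 268245353311) (nat_lit 76) (nat_lit 55879943434) (nat_lit 64) (nat_lit 5) (nat_lit 68) (nat_lit 5) (nat_lit 65) (nat_lit 5) (nat_lit 450) (nat_lit 420) (nat_lit 150)) (XT.nd (nat_lit 78) (nat_lit 228) (nat_lit 0) (XT.lf (nat_lit 0) (nat_lit 230668560155) (nat_lit 304) (nat_lit 14922443857) (nat_lit 76) (nat_lit 230766972552) (nat_lit 64) (nat_lit 5) (nat_lit 68) (nat_lit 5) (nat_lit 65) (nat_lit 5) (nat_lit 451) (nat_lit 420) (nat_lit 149)) (XT.lf (nat_lit 0) (nat_lit 259367959504) (nat_lit 228) (nat_lit 72823680745) (nat_lit 304) (nat_lit 159079841437) (nat_lit 61) (nat_lit 5) (nat_lit 64) (nat_lit 5) (nat_lit 65) (nat_lit 5) (nat_lit 452) (nat_lit 420) (nat_lit 148)))))) (XT.nd (nat_lit 468) (nat_lit 532) (nat_lit 0) (XT.nd (nat_lit 234) (nat_lit 152) (nat_lit 0) (XT.nd (nat_lit 78) (nat_lit 304) (nat_lit 0) (XT.lf (nat_lit 0) (nat_lit 40572029774)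 (nat_lit 152) (nat_lit 400804387876) (nat_lit 228) (nat_lit 65424967263) (nat_lit 59) (nat_lit 5) (nat_lit 61) (nat_lit 5) (nat_lit 62) (nat_lit 5) (nat_lit 453) (nat_lit 420) (nat_lit 147)) (XT.nd (nat_lit 78) (nat_lit 228) (nat_lit 0) (XT.lf (nat_lit 0) (nat_lit 37044822295) (nat_lit 228) (nat_lit 189961007452) (nat_lit 76) (nat_lit 295816981528) (nat_lit 58) (nat_lit 5) (nat_lit 61) (nat_lit 5) (nat_lit 59) (nat_lit 5) (nat_lit 454) (nat_lit 420) (nat_lit 146)) (XT.lf (nat_lit 0) (nat_lit 102323152394) (nat_lit 228) (nat_lit 41713762925) (nat_lit 304) (nat_lit 395474890532) (nat_lit 55) (nat_lit 5) (nat_lit 58) (nat_lit 5) (nat_lit 59) (nat_lit 5) (nat_lit 455) (nat_lit 420) (nat_lit 145)))) (XT.nd (nat_lit 78) (nat_lit 152) (nat_lit 0) (XT.lf (nat_lit 0) (nat_lit 262034710937) (nat_lit 304) (nat_lit 143496948927) (nat_lit 76) (nat_lit 151220785403) (nat_lit 55) (nat_lit 5) (nat_lit 59)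 (nat_lit 5) (nat_lit 56) (nat_lit 5) (nat_lit 456) (nat_lit 420) (nat_lit 144)) (XT.nd (nat_lit 78) (nat_lit 0) (nat_lit 0) (XT.lf (nat_lit 0) (nat_lit 169624509268) (nat_lit 152) (nat_lit 219640005781) (nat_lit 228) (nat_lit 185423995682) (nat_lit 53) (nat_lit 5) (nat_lit 55) (nat_lit 5) (nat_lit 56) (nat_lit 5) (nat_lit 457) (nat_lit 420) (nat_lit 143)) (XT.lf (nat_lit 0) (nat_lit 503383888105) (nat_lit 152) (nat_lit 21902084741) (nat_lit 228) (nat_lit 68113898456) (nat_lit 53) (nat_lit 5) (nat_lit 55) (nat_lit 5) (nat_lit 56) (nat_lit 5) (nat_lit 458) (nat_lit 420) (nat_lit 142))))) (XT.nd (nat_lit 234) (nat_lit 152) (nat_lit 0) (XT.nd (nat_lit 78) (nat_lit 152) (nat_lit 0) (XT.lf (nat_lit 0) (nat_lit 60146296575) (nat_lit 228) (nat_lit 367929791418) (nat_lit 76) (nat_lit 184585382979) (nat_lit 50) (nat_lit 5) (nat_lit 53) (nat_lit 5) (nat_lit 51) (nat_lit 5) (nat_lit 459) (nat_lit 420)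 (nat_lit 141)) (XT.nd (nat_lit 78) (nat_lit 152) (nat_lit 0) (XT.lf (nat_lit 0) (nat_lit 194438908170) (nat_lit 228) (nat_lit 34968754902) (nat_lit 76) (nat_lit 403327232473) (nat_lit 50) (nat_lit 5) (nat_lit 53) (nat_lit 5) (nat_lit 51) (nat_lit 5) (nat_lit 460) (nat_lit 420) (nat_lit 140)) (XT.lf (nat_lit 0) (nat_lit 325043722952) (nat_lit 152) (nat_lit 15477246490) (nat_lit 228) (nat_lit 313037280958) (nat_lit 48) (nat_lit 5) (nat_lit 50) (nat_lit 5) (nat_lit 51) (nat_lit 5) (nat_lit 461) (nat_lit 420) (nat_lit 139)))) (XT.nd (nat_lit 49920) (nat_lit 0) (nat_lit 4864) (XT.nd (nat_lit 78) (nat_lit 0) (nat_lit 0) (XT.lf (nat_lit 0) (nat_lit 26449072954) (nat_lit 152) (nat_lit 471738314949) (nat_lit 228) (nat_lit 177021372398) (nat_lit 46) (nat_lit 5) (nat_lit 48) (nat_lit 5) (nat_lit 49) (nat_lit 5) (nat_lit 462) (nat_lit 420) (nat_lit 138)) (XT.lf (nat_lit 0) (nat_lit 410303982068) (nat_lit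 152) (nat_lit 259246307204) (nat_lit 228) (nat_lit 28100848332) (nat_lit 46) (nat_lit 5) (nat_lit 48) (nat_lit 5) (nat_lit 49) (nat_lit 5) (nat_lit 463) (nat_lit 420) (nat_lit 137))) (XT.nd (nat_lit 78) (nat_lit 0) (nat_lit 0) (XT.lf (nat_lit 0) (nat_lit 23939089108) (nat_lit 836) (nat_lit 40973947982) (nat_lit 836) (nat_lit 40973947982) (nat_lit 110) (nat_lit 3) (nat_lit 121) (nat_lit 3) (nat_lit 121) (nat_lit 5) (nat_lit 421) (nat_lit 421) (nat_lit 178)) (XT.lf (nat_lit 76) (nat_lit 20752286812) (nat_lit 0) (nat_lit 28648266542) (nat_lit 836) (nat_lit 167651494010) (nat_lit 111) (nat_lit 5) (nat_lit 110) (nat_lit 3) (nat_lit 121) (nat_lit 5) (nat_lit 422) (nat_lit 421) (nat_lit 177))))))) (XT.nd (nat_lit 1014) (nat_lit 2204) (nat_lit 0) (XT.nd (nat_lit 468) (nat_lit 836) (nat_lit 0) (XT.nd (nat_lit 234) (nat_lit 0) (nat_lit 76) (XT.nd (nat_lit 78) (nat_lit 0) (nat_lit 0) (XT.lf (nat_lit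 0) (nat_lit 53620907679) (nat_lit 760) (nat_lit 92326291185) (nat_lit 836) (nat_lit 76515736621) (nat_lit 111) (nat_lit 5) (nat_lit 121) (nat_lit 5) (nat_lit 122) (nat_lit 5) (nat_lit 423) (nat_lit 421) (nat_lit 176)) (XT.nd (nat_lit 78) (nat_lit 0) (nat_lit 76) (XT.lf (nat_lit 76) (nat_lit 16917625594) (nat_lit 0) (nat_lit 41868342754) (nat_lit 836) (nat_lit 169321715292) (nat_lit 112) (nat_lit 5) (nat_lit 111) (nat_lit 5) (nat_lit 122) (nat_lit 5) (nat_lit 424) (nat_lit 421) (nat_lit 175)) (XT.lf (nat_lit 0) (nat_lit 66850950883) (nat_lit 760) (nat_lit 100205608241) (nat_lit 836) (nat_lit 66846026698) (nat_lit 112) (nat_lit 5) (nat_lit 122) (nat_lit 5) (nat_lit 123) (nat_lit 5) (nat_lit 425) (nat_lit 421) (nat_lit 174)))) (XT.nd (nat_lit 78) (nat_lit 0) (nat_lit 76) (XT.lf (nat_lit 76) (nat_lit 16158827950) (nat_lit 0) (nat_lit 60098926596) (nat_lit 836) (nat_lit 163682550022) (nat_lit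 113) (nat_lit 5) (nat_lit 112) (nat_lit 5) (nat_lit 123) (nat_lit 5) (nat_lit 426) (nat_lit 421) (nat_lit 173)) (XT.nd (nat_lit 78) (nat_lit 0) (nat_lit 0) (XT.lf (nat_lit 0) (nat_lit 88674764610) (nat_lit 760) (nat_lit 105217627238) (nat_lit 836) (nat_lit 52260524144) (nat_lit 113) (nat_lit 5) (nat_lit 123) (nat_lit 5) (nat_lit 124) (nat_lit 5) (nat_lit 427) (nat_lit 421) (nat_lit 172)) (XT.lf (nat_lit 76) (nat_lit 18893853718) (nat_lit 0) (nat_lit 84098913813) (nat_lit 836) (nat_lit 149619383390) (nat_lit 114) (nat_lit 5) (nat_lit 113) (nat_lit 5) (nat_lit 124) (nat_lit 5) (nat_lit 428) (nat_lit 421) (nat_lit 171))))) (XT.nd (nat_lit 234) (nat_lit 1064) (nat_lit 0) (XT.nd (nat_lit 78) (nat_lit 0) (nat_lit 0) (XT.lf (nat_lit 0) (nat_lit 120324597936) (nat_lit 760) (nat_lit 106957566688) (nat_lit 836) (nat_lit 31997286651) (nat_lit 114) (nat_lit 5) (nat_lit 124) (nat_lit 5) (nat_lit 125)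 (nat_lit 5) (nat_lit 429) (nat_lit 421) (nat_lit 170)) (XT.nd (nat_lit 78) (nat_lit 0) (nat_lit 76) (XT.lf (nat_lit 76) (nat_lit 25581234806) (nat_lit 0) (nat_lit 114719784726) (nat_lit 836) (nat_lit 125890197180) (nat_lit 115) (nat_lit 5) (nat_lit 114) (nat_lit 5) (nat_lit 125) (nat_lit 5) (nat_lit 430) (nat_lit 421) (nat_lit 169)) (XT.lf (nat_lit 0) (nat_lit 163171459302) (nat_lit 760) (nat_lit 104981638841) (nat_lit 76) (nat_lit 5200712465) (nat_lit 115) (nat_lit 5) (nat_lit 125) (nat_lit 5) (nat_lit 116) (nat_lit 5) (nat_lit 431) (nat_lit 421) (nat_lit 168)))) (XT.nd (nat_lit 156) (nat_lit 380) (nat_lit 0) (XT.nd (nat_lit 78) (nat_lit 0) (nat_lit 0) (XT.lf (nat_lit 0) (nat_lit 36722773344) (nat_lit 760) (nat_lit 152916584998) (nat_lit 836) (nat_lit 91112479034) (nat_lit 105) (nat_lit 5) (nat_lit 115) (nat_lit 5) (nat_lit 116) (nat_lit 5) (nat_lit 432) (nat_lit 421) (nat_lit 167)) (XT.lf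 (nat_lit 0) (nat_lit 189157078545) (nat_lit 760) (nat_lit 30051430353) (nat_lit 836) (nat_lit 69222363796) (nat_lit 105) (nat_lit 5) (nat_lit 115) (nat_lit 5) (nat_lit 116) (nat_lit 5) (nat_lit 433) (nat_lit 421) (nat_lit 166))) (XT.nd (nat_lit 78) (nat_lit 0) (nat_lit 0) (XT.lf (nat_lit 0) (nat_lit 52866239835) (nat_lit 380) (nat_lit 199760207688) (nat_lit 456) (nat_lit 43748895765) (nat_lit 100) (nat_lit 5) (nat_lit 105) (nat_lit 5) (nat_lit 106) (nat_lit 5) (nat_lit 434) (nat_lit 421) (nat_lit 165)) (XT.lf (nat_lit 0) (nat_lit 215550849429) (nat_lit 380) (nat_lit 74330330264) (nat_lit 456) (nat_lit 14727562923) (nat_lit 100) (nat_lit 5) (nat_lit 105) (nat_lit 5) (nat_lit 106) (nat_lit 5) (nat_lit 435) (nat_lit 421) (nat_lit 164)))))) (XT.nd (nat_lit 468) (nat_lit 1140) (nat_lit 0) (XT.nd (nat_lit 234) (nat_lit 304) (nat_lit 0) (XT.nd (nat_lit 78) (nat_lit 380) (nat_lit 0) (XT.lf (nat_lit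 0) (nat_lit 17335194358) (nat_lit 380) (nat_lit 238822361308) (nat_lit 76) (nat_lit 56979250682) (nat_lit 95) (nat_lit 5) (nat_lit 100) (nat_lit 5) (nat_lit 96) (nat_lit 5) (nat_lit 436) (nat_lit 421) (nat_lit 163)) (XT.nd (nat_lit 78) (nat_lit 380) (nat_lit 0) (XT.lf (nat_lit 0) (nat_lit 53257590290) (nat_lit 380) (nat_lit 74553316378) (nat_lit 76) (nat_lit 194130722682) (nat_lit 95) (nat_lit 5) (nat_lit 100) (nat_lit 5) (nat_lit 96) (nat_lit 5) (nat_lit 437) (nat_lit 421) (nat_lit 162)) (XT.lf (nat_lit 0) (nat_lit 92690010653) (nat_lit 456) (nat_lit 230075062086) (nat_lit 76) (nat_lit 8335925563) (nat_lit 90) (nat_lit 5) (nat_lit 96) (nat_lit 5) (nat_lit 91) (nat_lit 5) (nat_lit 438) (nat_lit 421) (nat_lit 161)))) (XT.nd (nat_lit 78) (nat_lit 304) (nat_lit 0) (XT.lf (nat_lit 0) (nat_lit 137472561155) (nat_lit 456) (nat_lit 54798743112) (nat_lit 76) (nat_lit 148278106004) (nat_lit 90) (nat_lit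 5) (nat_lit 96) (nat_lit 5) (nat_lit 91) (nat_lit 5) (nat_lit 439) (nat_lit 421) (nat_lit 160)) (XT.nd (nat_lit 78) (nat_lit 0) (nat_lit 0) (XT.lf (nat_lit 0) (nat_lit 133514644330) (nat_lit 304) (nat_lit 53064088402) (nat_lit 380) (nat_lit 163787285457) (nat_lit 86) (nat_lit 5) (nat_lit 90) (nat_lit 5) (nat_lit 91) (nat_lit 5) (nat_lit 440) (nat_lit 421) (nat_lit 159)) (XT.lf (nat_lit 0) (nat_lit 240537033335) (nat_lit 380) (nat_lit 28949735951) (nat_lit 76) (nat_lit 91066846218) (nat_lit 86) (nat_lit 5) (nat_lit 91) (nat_lit 5) (nat_lit 87) (nat_lit 5) (nat_lit 441) (nat_lit 421) (nat_lit 158))))) (XT.nd (nat_lit 234) (nat_lit 532) (nat_lit 0) (XT.nd (nat_lit 78) (nat_lit 304) (nat_lit 0) (XT.lf (nat_lit 0) (nat_lit 173014579046) (nat_lit 304) (nat_lit 127749774528) (nat_lit 380) (nat_lit 70307683906) (nat_lit 82) (nat_lit 5) (nat_lit 86) (nat_lit 5) (nat_lit 87) (nat_lit 5) (nat_lit 442)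 (nat_lit 421) (nat_lit 157)) (XT.nd (nat_lit 78) (nat_lit 76) (nat_lit 0) (XT.lf (nat_lit 0) (nat_lit 3773991411) (nat_lit 228) (nat_lit 361115271554) (nat_lit 304) (nat_lit 17182806456) (nat_lit 79) (nat_lit 5) (nat_lit 82) (nat_lit 5) (nat_lit 83) (nat_lit 5) (nat_lit 443) (nat_lit 421) (nat_lit 156)) (XT.lf (nat_lit 0) (nat_lit 42866332713) (nat_lit 304) (nat_lit 173633195223) (nat_lit 76) (nat_lit 176817273402) (nat_lit 78) (nat_lit 5) (nat_lit 82) (nat_lit 5) (nat_lit 79) (nat_lit 5) (nat_lit 444) (nat_lit 421) (nat_lit 155)))) (XT.nd (nat_lit 156) (nat_lit 228) (nat_lit 0) (XT.nd (nat_lit 78) (nat_lit 0) (nat_lit 0) (XT.lf (nat_lit 0) (nat_lit 42338288015) (nat_lit 304) (nat_lit 63663167674) (nat_lit 380) (nat_lit 299075180824) (nat_lit 74) (nat_lit 5) (nat_lit 78) (nat_lit 5) (nat_lit 79) (nat_lit 5) (nat_lit 445) (nat_lit 421) (nat_lit 154)) (XT.lf (nat_lit 0) (nat_lit 176793619940)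 (nat_lit 380) (nat_lit 143700745894) (nat_lit 76) (nat_lit 96705083374) (nat_lit 74) (nat_lit 5) (nat_lit 79) (nat_lit 5) (nat_lit 75) (nat_lit 5) (nat_lit 446) (nat_lit 421) (nat_lit 153))) (XT.nd (nat_lit 78) (nat_lit 0) (nat_lit 0) (XT.lf (nat_lit 0) (nat_lit 88063617548) (nat_lit 228) (nat_lit 165480318325) (nat_lit 304) (nat_lit 176263539508) (nat_lit 71) (nat_lit 5) (nat_lit 74) (nat_lit 5) (nat_lit 75) (nat_lit 5) (nat_lit 447) (nat_lit 421) (nat_lit 152)) (XT.lf (nat_lit 0) (nat_lit 336405118793) (nat_lit 228) (nat_lit 160256539) (nat_lit 304) (nat_lit 106358847164) (nat_lit 71) (nat_lit 5) (nat_lit 74) (nat_lit 5) (nat_lit 75) (nat_lit 5) (nat_lit 448) (nat_lit 421) (nat_lit 151))))))))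
noncomputable def xc245 : XT := (XT.nd (nat_lit 51870) (nat_lit 0) (nat_lit 532) (XT.nd (nat_lit 936) (nat_lit 152) (nat_lit 0) (XT.nd (nat_lit 468) (nat_lit 684) (nat_lit 0) (XT.nd (nat_lit 234) (nat_lit 380) (nat_lit 0) (XT.nd (nat_lit 78) (nat_lit 304) (nat_lit 0) (XT.lf (nat_lit 0) (nat_lit 142314120814) (nat_lit 228) (nat_lit 286353318605) (nat_lit 304) (nat_lit 27782889930) (nat_lit 68) (nat_lit 5) (nat_lit 71) (nat_lit 5) (nat_lit 72) (nat_lit 5) (nat_lit 449) (nat_lit 421) (nat_lit 150)) (XT.nd (nat_lit 78) (nat_lit 228) (nat_lit 0) (XT.lf (nat_lit 0) (nat_lit 54806544271) (nat_lit 304) (nat_lit 64162041839) (nat_lit 76) (nat_lit 351549631339) (nat_lit 67) (nat_lit 5) (nat_lit 71) (nat_lit 5) (nat_lit 68) (nat_lit 5) (nat_lit 450) (nat_lit 421) (nat_lit 149)) (XT.lf (nat_lit 0) (nat_lit 144729307585) (nat_lit 304) (nat_lit 281656204603) (nat_lit 76) (nat_lit 58674337686) (nat_lit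 64) (nat_lit 5) (nat_lit 68) (nat_lit 5) (nat_lit 65) (nat_lit 5) (nat_lit 451) (nat_lit 421) (nat_lit 148)))) (XT.nd (nat_lit 78) (nat_lit 380) (nat_lit 0) (XT.lf (nat_lit 0) (nat_lit 242202912296) (nat_lit 304) (nat_lit 15667217124) (nat_lit 76) (nat_lit 242305699352) (nat_lit 64) (nat_lit 5) (nat_lit 68) (nat_lit 5) (nat_lit 65) (nat_lit 5) (nat_lit 452) (nat_lit 421) (nat_lit 147)) (XT.nd (nat_lit 78) (nat_lit 152) (nat_lit 0) (XT.lf (nat_lit 0) (nat_lit 272337684649) (nat_lit 228) (nat_lit 76464438461) (nat_lit 304) (nat_lit 167032887224) (nat_lit 61) (nat_lit 5) (nat_lit 64) (nat_lit 5) (nat_lit 65) (nat_lit 5) (nat_lit 453) (nat_lit 421) (nat_lit 146)) (XT.lf (nat_lit 0) (nat_lit 42601975181) (nat_lit 152) (nat_lit 420844148623) (nat_lit 228) (nat_lit 68695285715) (nat_lit 59) (nat_lit 5) (nat_lit 61) (nat_lit 5) (nat_lit 62) (nat_lit 5) (nat_lit 454) (nat_lit 421) (nat_lit 145)))))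 (XT.nd (nat_lit 234) (nat_lit 380) (nat_lit 0) (XT.nd (nat_lit 78) (nat_lit 228) (nat_lit 0) (XT.lf (nat_lit 0) (nat_lit 38897920694) (nat_lit 228) (nat_lit 199457749216) (nat_lit 76) (nat_lit 310608238724) (nat_lit 58) (nat_lit 5) (nat_lit 61) (nat_lit 5) (nat_lit 59) (nat_lit 5) (nat_lit 455) (nat_lit 421) (nat_lit 144)) (XT.nd (nat_lit 78) (nat_lit 0) (nat_lit 0) (XT.lf (nat_lit 0) (nat_lit 107440597516) (nat_lit 228) (nat_lit 43799000131) (nat_lit 304) (nat_lit 415247756343) (nat_lit 55) (nat_lit 5) (nat_lit 58) (nat_lit 5) (nat_lit 59) (nat_lit 5) (nat_lit 456) (nat_lit 421) (nat_lit 143)) (XT.lf (nat_lit 0) (nat_lit 275137249916) (nat_lit 304) (nat_lit 150670536740) (nat_lit 76) (nat_lit 158782240394) (nat_lit 55) (nat_lit 5) (nat_lit 59) (nat_lit 5) (nat_lit 56) (nat_lit 5) (nat_lit 457) (nat_lit 421) (nat_lit 142)))) (XT.nd (nat_lit 78) (nat_lit 228) (nat_lit 0) (XT.lf (nat_lit 0)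 (nat_lit 178106974048) (nat_lit 152) (nat_lit 230621551275) (nat_lit 228) (nat_lit 194694371424) (nat_lit 53) (nat_lit 5) (nat_lit 55) (nat_lit 5) (nat_lit 56) (nat_lit 5) (nat_lit 458) (nat_lit 421) (nat_lit 141)) (XT.nd (nat_lit 78) (nat_lit 228) (nat_lit 0) (XT.lf (nat_lit 0) (nat_lit 528554262812) (nat_lit 152) (nat_lit 22996755841) (nat_lit 228) (nat_lit 71518808577) (nat_lit 53) (nat_lit 5) (nat_lit 55) (nat_lit 5) (nat_lit 56) (nat_lit 5) (nat_lit 459) (nat_lit 421) (nat_lit 140)) (XT.lf (nat_lit 0) (nat_lit 63154360368) (nat_lit 228) (nat_lit 386325064328) (nat_lit 76) (nat_lit 193815082121) (nat_lit 50) (nat_lit 5) (nat_lit 53) (nat_lit 5) (nat_lit 51) (nat_lit 5) (nat_lit 460) (nat_lit 421) (nat_lit 139)))))) (XT.nd (nat_lit 50388) (nat_lit 0) (nat_lit 4864) (XT.nd (nat_lit 50154) (nat_lit 0) (nat_lit 4712) (XT.nd (nat_lit 78) (nat_lit 152) (nat_lit 0) (XT.lf (nat_lit 0) (nat_lit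 204161566878) (nat_lit 228) (nat_lit 36716033923) (nat_lit 76) (nat_lit 423494003615) (nat_lit 50) (nat_lit 5) (nat_lit 53) (nat_lit 5) (nat_lit 51) (nat_lit 5) (nat_lit 461) (nat_lit 421) (nat_lit 138)) (XT.nd (nat_lit 49998) (nat_lit 0) (nat_lit 4712) (XT.lf (nat_lit 0) (nat_lit 341297049135) (nat_lit 152) (nat_lit 16250665911) (nat_lit 228) (nat_lit 328688412787) (nat_lit 48) (nat_lit 5) (nat_lit 50) (nat_lit 5) (nat_lit 51) (nat_lit 5) (nat_lit 462) (nat_lit 421) (nat_lit 137)) (XT.lf (nat_lit 0) (nat_lit 25137440731) (nat_lit 836) (nat_lit 43021911375) (nat_lit 836) (nat_lit 43021911375) (nat_lit 110) (nat_lit 3) (nat_lit 121) (nat_lit 3) (nat_lit 121) (nat_lit 5) (nat_lit 422) (nat_lit 422) (nat_lit 176)))) (XT.nd (nat_lit 78) (nat_lit 0) (nat_lit 76) (XT.lf (nat_lit 76) (nat_lit 21791345487) (nat_lit 0) (nat_lit 30081919356) (nat_lit 836) (nat_lit 176031248819) (nat_lit 111) (nat_lit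 5) (nat_lit 110) (nat_lit 3) (nat_lit 121) (nat_lit 5) (nat_lit 423) (nat_lit 422) (nat_lit 175)) (XT.nd (nat_lit 78) (nat_lit 0) (nat_lit 0) (XT.lf (nat_lit 0) (nat_lit 56304490653) (nat_lit 760) (nat_lit 96941082166) (nat_lit 836) (nat_lit 80340380771) (nat_lit 111) (nat_lit 5) (nat_lit 121) (nat_lit 5) (nat_lit 122) (nat_lit 5) (nat_lit 424) (nat_lit 422) (nat_lit 174)) (XT.lf (nat_lit 76) (nat_lit 17765005878) (nat_lit 0) (nat_lit 43962701044) (nat_lit 836) (nat_lit 177785237189) (nat_lit 112) (nat_lit 5) (nat_lit 111) (nat_lit 5) (nat_lit 122) (nat_lit 5) (nat_lit 425) (nat_lit 422) (nat_lit 173))))) (XT.nd (nat_lit 234) (nat_lit 0) (nat_lit 76) (XT.nd (nat_lit 78) (nat_lit 0) (nat_lit 0) (XT.lf (nat_lit 0) (nat_lit 70195808390) (nat_lit 760) (nat_lit 105214329215) (nat_lit 836) (nat_lit 70187460387) (nat_lit 112) (nat_lit 5) (nat_lit 122) (nat_lit 5) (nat_lit 123) (nat_lit 5) (nat_lit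 426) (nat_lit 422) (nat_lit 172)) (XT.nd (nat_lit 78) (nat_lit 0) (nat_lit 76) (XT.lf (nat_lit 76) (nat_lit 16968303633) (nat_lit 0) (nat_lit 63104562559) (nat_lit 836) (nat_lit 171864340861) (nat_lit 113) (nat_lit 5) (nat_lit 112) (nat_lit 5) (nat_lit 123) (nat_lit 5) (nat_lit 427) (nat_lit 422) (nat_lit 171)) (XT.lf (nat_lit 0) (nat_lit 93110610605) (nat_lit 760) (nat_lit 110476929747) (nat_lit 836) (nat_lit 54872914579) (nat_lit 113) (nat_lit 5) (nat_lit 123) (nat_lit 5) (nat_lit 124) (nat_lit 5) (nat_lit 428) (nat_lit 422) (nat_lit 170)))) (XT.nd (nat_lit 156) (nat_lit 0) (nat_lit 76) (XT.nd (nat_lit 78) (nat_lit 0) (nat_lit 76) (XT.lf (nat_lit 76) (nat_lit 19840099791) (nat_lit 0) (nat_lit 88304337764) (nat_lit 836) (nat_lit 157098217927) (nat_lit 114) (nat_lit 5) (nat_lit 113) (nat_lit 5) (nat_lit 124) (nat_lit 5) (nat_lit 429) (nat_lit 422) (nat_lit 169)) (XT.lf (nat_lit 0) (nat_lit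 126342755624) (nat_lit 760) (nat_lit 112303860414) (nat_lit 836) (nat_lit 33596710076) (nat_lit 114) (nat_lit 5) (nat_lit 124) (nat_lit 5) (nat_lit 125) (nat_lit 5) (nat_lit 430) (nat_lit 422) (nat_lit 168))) (XT.nd (nat_lit 78) (nat_lit 0) (nat_lit 76) (XT.lf (nat_lit 76) (nat_lit 26861855597) (nat_lit 0) (nat_lit 120456075244) (nat_lit 836) (nat_lit 132182752417) (nat_lit 115) (nat_lit 5) (nat_lit 114) (nat_lit 5) (nat_lit 125) (nat_lit 5) (nat_lit 431) (nat_lit 422) (nat_lit 167)) (XT.lf (nat_lit 0) (nat_lit 171331799533) (nat_lit 760) (nat_lit 110229141694) (nat_lit 76) (nat_lit 5460470336) (nat_lit 115) (nat_lit 5) (nat_lit 125) (nat_lit 5) (nat_lit 116) (nat_lit 5) (nat_lit 432) (nat_lit 422) (nat_lit 166))))))) (XT.nd (nat_lit 1014) (nat_lit 1748) (nat_lit 0) (XT.nd (nat_lit 468) (nat_lit 1292) (nat_lit 0) (XT.nd (nat_lit 234) (nat_lit 380) (nat_lit 0) (XT.nd (nat_lit 78) (nat_lit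 380) (nat_lit 0) (XT.lf (nat_lit 0) (nat_lit 38560465631) (nat_lit 760) (nat_lit 160562567995) (nat_lit 836) (nat_lit 95666309097) (nat_lit 105) (nat_lit 5) (nat_lit 115) (nat_lit 5) (nat_lit 116) (nat_lit 5) (nat_lit 433) (nat_lit 422) (nat_lit 165)) (XT.nd (nat_lit 78) (nat_lit 380) (nat_lit 0) (XT.lf (nat_lit 0) (nat_lit 198616412109) (nat_lit 760) (nat_lit 31554148296) (nat_lit 836) (nat_lit 72681773521) (nat_lit 105) (nat_lit 5) (nat_lit 115) (nat_lit 5) (nat_lit 116) (nat_lit 5) (nat_lit 434) (nat_lit 422) (nat_lit 164)) (XT.lf (nat_lit 0) (nat_lit 55511090922) (nat_lit 380) (nat_lit 209748249462) (nat_lit 456) (nat_lit 45934690498) (nat_lit 100) (nat_lit 5) (nat_lit 105) (nat_lit 5) (nat_lit 106) (nat_lit 5) (nat_lit 435) (nat_lit 422) (nat_lit 163)))) (XT.nd (nat_lit 78) (nat_lit 380) (nat_lit 0) (XT.lf (nat_lit 0) (nat_lit 226329857704) (nat_lit 380) (nat_lit 78046876673) (nat_lit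 456) (nat_lit 15462369589) (nat_lit 100) (nat_lit 5) (nat_lit 105) (nat_lit 5) (nat_lit 106) (nat_lit 5) (nat_lit 436) (nat_lit 422) (nat_lit 162)) (XT.nd (nat_lit 78) (nat_lit 0) (nat_lit 0) (XT.lf (nat_lit 0) (nat_lit 18203426446) (nat_lit 380) (nat_lit 250761912605) (nat_lit 76) (nat_lit 59828233092) (nat_lit 95) (nat_lit 5) (nat_lit 100) (nat_lit 5) (nat_lit 96) (nat_lit 5) (nat_lit 437) (nat_lit 422) (nat_lit 161)) (XT.lf (nat_lit 0) (nat_lit 55921872062) (nat_lit 380) (nat_lit 78279490037) (nat_lit 76) (nat_lit 203837277745) (nat_lit 95) (nat_lit 5) (nat_lit 100) (nat_lit 5) (nat_lit 96) (nat_lit 5) (nat_lit 438) (nat_lit 422) (nat_lit 160))))) (XT.nd (nat_lit 234) (nat_lit 608) (nat_lit 0) (XT.nd (nat_lit 78) (nat_lit 304) (nat_lit 0) (XT.lf (nat_lit 0) (nat_lit 97325871302) (nat_lit 456) (nat_lit 241577280070) (nat_lit 76) (nat_lit 8752828019) (nat_lit 90) (nat_lit 5) (nat_lit 96)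 (nat_lit 5) (nat_lit 91) (nat_lit 5) (nat_lit 439) (nat_lit 422) (nat_lit 159)) (XT.nd (nat_lit 78) (nat_lit 304) (nat_lit 0) (XT.lf (nat_lit 0) (nat_lit 144347484562) (nat_lit 456) (nat_lit 57537218248) (nat_lit 76) (nat_lit 155692112426) (nat_lit 90) (nat_lit 5) (nat_lit 96) (nat_lit 5) (nat_lit 91) (nat_lit 5) (nat_lit 440) (nat_lit 422) (nat_lit 158)) (XT.lf (nat_lit 0) (nat_lit 140191814985) (nat_lit 304) (nat_lit 55717110507) (nat_lit 380) (nat_lit 171975330056) (nat_lit 86) (nat_lit 5) (nat_lit 90) (nat_lit 5) (nat_lit 91) (nat_lit 5) (nat_lit 441) (nat_lit 422) (nat_lit 157)))) (XT.nd (nat_lit 156) (nat_lit 304) (nat_lit 0) (XT.nd (nat_lit 78) (nat_lit 304) (nat_lit 0) (XT.lf (nat_lit 0) (nat_lit 252565084021) (nat_lit 380) (nat_lit 30395794995) (nat_lit 76) (nat_lit 95620356605) (nat_lit 86) (nat_lit 5) (nat_lit 91) (nat_lit 5) (nat_lit 87) (nat_lit 5) (nat_lit 442) (nat_lit 422)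 (nat_lit 156)) (XT.lf (nat_lit 0) (nat_lit 181666712724) (nat_lit 304) (nat_lit 134137022384) (nat_lit 380) (nat_lit 73821845380) (nat_lit 82) (nat_lit 5) (nat_lit 86) (nat_lit 5) (nat_lit 87) (nat_lit 5) (nat_lit 443) (nat_lit 422) (nat_lit 155))) (XT.nd (nat_lit 78) (nat_lit 76) (nat_lit 0) (XT.lf (nat_lit 0) (nat_lit 3964127269) (nat_lit 228) (nat_lit 379170733284) (nat_lit 304) (nat_lit 18040754975) (nat_lit 79) (nat_lit 5) (nat_lit 82) (nat_lit 5) (nat_lit 83) (nat_lit 5) (nat_lit 444) (nat_lit 422) (nat_lit 154)) (XT.lf (nat_lit 0) (nat_lit 45010748071) (nat_lit 304) (nat_lit 182313450181) (nat_lit 76) (nat_lit 185658387634) (nat_lit 78) (nat_lit 5) (nat_lit 82) (nat_lit 5) (nat_lit 79) (nat_lit 5) (nat_lit 445) (nat_lit 422) (nat_lit 153)))))) (XT.nd (nat_lit 468) (nat_lit 912) (nat_lit 0) (XT.nd (nat_lit 234) (nat_lit 304) (nat_lit 0) (XT.nd (nat_lit 78) (nat_lit 228) (nat_lit 0)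 (XT.lf (nat_lit 0) (nat_lit 44456584561) (nat_lit 304) (nat_lit 66846011893) (nat_lit 380) (nat_lit 314027817929) (nat_lit 74) (nat_lit 5) (nat_lit 78) (nat_lit 5) (nat_lit 79) (nat_lit 5) (nat_lit 446) (nat_lit 422) (nat_lit 152)) (XT.nd (nat_lit 78) (nat_lit 228) (nat_lit 0) (XT.lf (nat_lit 0) (nat_lit 185634322733) (nat_lit 380) (nat_lit 150884420146) (nat_lit 76) (nat_lit 101540627170) (nat_lit 74) (nat_lit 5) (nat_lit 79) (nat_lit 5) (nat_lit 75) (nat_lit 5) (nat_lit 447) (nat_lit 422) (nat_lit 151)) (XT.lf (nat_lit 0) (nat_lit 92468139484) (nat_lit 228) (nat_lit 173753987261) (nat_lit 304) (nat_lit 185075672199) (nat_lit 71) (nat_lit 5) (nat_lit 74) (nat_lit 5) (nat_lit 75) (nat_lit 5) (nat_lit 448) (nat_lit 422) (nat_lit 150)))) (XT.nd (nat_lit 78) (nat_lit 304) (nat_lit 0) (XT.lf (nat_lit 0) (nat_lit 353226651930) (nat_lit 228) (nat_lit 167938908) (nat_lit 304) (nat_lit 111675794966)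 (nat_lit 71) (nat_lit 5) (nat_lit 74) (nat_lit 5) (nat_lit 75) (nat_lit 5) (nat_lit 449) (nat_lit 422) (nat_lit 149)) (XT.nd (nat_lit 78) (nat_lit 76) (nat_lit 0) (XT.lf (nat_lit 0) (nat_lit 149431125422) (nat_lit 228) (nat_lit 300670612814) (nat_lit 304) (nat_lit 29171060782) (nat_lit 68) (nat_lit 5) (nat_lit 71) (nat_lit 5) (nat_lit 72) (nat_lit 5) (nat_lit 450) (nat_lit 422) (nat_lit 148)) (XT.lf (nat_lit 0) (nat_lit 57547769087) (nat_lit 304) (nat_lit 67368877108) (nat_lit 76) (nat_lit 369127436834) (nat_lit 67) (nat_lit 5) (nat_lit 71) (nat_lit 5) (nat_lit 68) (nat_lit 5) (nat_lit 451) (nat_lit 422) (nat_lit 147))))) (XT.nd (nat_lit 234) (nat_lit 456) (nat_lit 0) (XT.nd (nat_lit 78) (nat_lit 228) (nat_lit 0) (XT.lf (nat_lit 0) (nat_lit 151966653092) (nat_lit 304) (nat_lit 295737730142) (nat_lit 76) (nat_lit 61608414734) (nat_lit 64) (nat_lit 5) (nat_lit 68) (nat_lit 5) (nat_lit 65)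 (nat_lit 5) (nat_lit 452) (nat_lit 422) (nat_lit 146)) (XT.nd (nat_lit 78) (nat_lit 228) (nat_lit 0) (XT.lf (nat_lit 0) (nat_lit 254313896128) (nat_lit 304) (nat_lit 16449354464) (nat_lit 76) (nat_lit 254421327333) (nat_lit 64) (nat_lit 5) (nat_lit 68) (nat_lit 5) (nat_lit 65) (nat_lit 5) (nat_lit 453) (nat_lit 422) (nat_lit 145)) (XT.lf (nat_lit 0) (nat_lit 285955772664) (nat_lit 228) (nat_lit 80287273698) (nat_lit 304) (nat_lit 175383673277) (nat_lit 61) (nat_lit 5) (nat_lit 64) (nat_lit 5) (nat_lit 65) (nat_lit 5) (nat_lit 454) (nat_lit 422) (nat_lit 144)))) (XT.nd (nat_lit 156) (nat_lit 228) (nat_lit 0) (XT.nd (nat_lit 78) (nat_lit 76) (nat_lit 0) (XT.lf (nat_lit 0) (nat_lit 44733292914) (nat_lit 152) (nat_lit 441885940048) (nat_lit 228) (nat_lit 72129206544) (nat_lit 59) (nat_lit 5) (nat_lit 61) (nat_lit 5) (nat_lit 62) (nat_lit 5) (nat_lit 455) (nat_lit 422) (nat_lit 143)) (XT.lf (nat_lit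 0) (nat_lit 40843594311) (nat_lit 228) (nat_lit 209429449730) (nat_lit 76) (nat_lit 326139020838) (nat_lit 58) (nat_lit 5) (nat_lit 61) (nat_lit 5) (nat_lit 59) (nat_lit 5) (nat_lit 456) (nat_lit 422) (nat_lit 142))) (XT.nd (nat_lit 78) (nat_lit 0) (nat_lit 0) (XT.lf (nat_lit 0) (nat_lit 112813795195) (nat_lit 228) (nat_lit 45988541122) (nat_lit 304) (nat_lit 436009347140) (nat_lit 55) (nat_lit 5) (nat_lit 58) (nat_lit 5) (nat_lit 59) (nat_lit 5) (nat_lit 457) (nat_lit 422) (nat_lit 141)) (XT.lf (nat_lit 0) (nat_lit 288894841147) (nat_lit 304) (nat_lit 158202921053) (nat_lit 76) (nat_lit 166721729485) (nat_lit 55) (nat_lit 5) (nat_lit 59) (nat_lit 5) (nat_lit 56) (nat_lit 5) (nat_lit 458) (nat_lit 422) (nat_lit 140))))))))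
noncomputable def xc246 : XT := (XT.nd (nat_lit 51948) (nat_lit 0) (nat_lit 0) (XT.nd (nat_lit 50934) (nat_lit 0) (nat_lit 2736) (XT.nd (nat_lit 50466) (nat_lit 0) (nat_lit 4636) (XT.nd (nat_lit 234) (nat_lit 0) (nat_lit 0) (XT.nd (nat_lit 78) (nat_lit 228) (nat_lit 0) (XT.lf (nat_lit 0) (nat_lit 187013446846) (nat_lit 152) (nat_lit 242152216327) (nat_lit 228) (nat_lit 204428342564) (nat_lit 53) (nat_lit 5) (nat_lit 55) (nat_lit 5) (nat_lit 56) (nat_lit 5) (nat_lit 459) (nat_lit 422) (nat_lit 139)) (XT.nd (nat_lit 78) (nat_lit 228) (nat_lit 0) (XT.lf (nat_lit 0) (nat_lit 554983046520) (nat_lit 152) (nat_lit 24146200765) (nat_lit 228) (nat_lit 75094037167) (nat_lit 53) (nat_lit 5) (nat_lit 55) (nat_lit 5) (nat_lit 56) (nat_lit 5) (nat_lit 460) (nat_lit 422) (nat_lit 138)) (XT.lf (nat_lit 0) (nat_lit 66312757719) (nat_lit 228) (nat_lit 405640213998) (nat_lit 76) (nat_lit 203506226245) (nat_lit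 50) (nat_lit 5) (nat_lit 53) (nat_lit 5) (nat_lit 51) (nat_lit 5) (nat_lit 461) (nat_lit 422) (nat_lit 137)))) (XT.nd (nat_lit 50076) (nat_lit 0) (nat_lit 4560) (XT.lf (nat_lit 0) (nat_lit 214370292205) (nat_lit 228) (nat_lit 38550784622) (nat_lit 76) (nat_lit 444669075240) (nat_lit 50) (nat_lit 5) (nat_lit 53) (nat_lit 5) (nat_lit 51) (nat_lit 5) (nat_lit 462) (nat_lit 422) (nat_lit 136)) (XT.nd (nat_lit 78) (nat_lit 0) (nat_lit 0) (XT.lf (nat_lit 0) (nat_lit 26395580039) (nat_lit 836) (nat_lit 45172341179) (nat_lit 836) (nat_lit 45172341179) (nat_lit 110) (nat_lit 3) (nat_lit 121) (nat_lit 3) (nat_lit 121) (nat_lit 5) (nat_lit 423) (nat_lit 423) (nat_lit 174)) (XT.lf (nat_lit 76) (nat_lit 22882222816) (nat_lit 0) (nat_lit 31587139574) (nat_lit 836) (nat_lit 184830253535) (nat_lit 111) (nat_lit 5) (nat_lit 110) (nat_lit 3) (nat_lit 121) (nat_lit 5) (nat_lit 424) (nat_lit 423) (nat_lit 173)))))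 (XT.nd (nat_lit 234) (nat_lit 0) (nat_lit 76) (XT.nd (nat_lit 78) (nat_lit 0) (nat_lit 0) (XT.lf (nat_lit 0) (nat_lit 59122016855) (nat_lit 760) (nat_lit 101786754344) (nat_lit 836) (nat_lit 84356363364) (nat_lit 111) (nat_lit 5) (nat_lit 121) (nat_lit 5) (nat_lit 122) (nat_lit 5) (nat_lit 425) (nat_lit 423) (nat_lit 172)) (XT.nd (nat_lit 78) (nat_lit 0) (nat_lit 76) (XT.lf (nat_lit 76) (nat_lit 18654615813) (nat_lit 0) (nat_lit 46161689749) (nat_lit 836) (nat_lit 186672173544) (nat_lit 112) (nat_lit 5) (nat_lit 111) (nat_lit 5) (nat_lit 122) (nat_lit 5) (nat_lit 426) (nat_lit 423) (nat_lit 171)) (XT.lf (nat_lit 0) (nat_lit 73707694015) (nat_lit 760) (nat_lit 110473631219) (nat_lit 836) (nat_lit 73696046425) (nat_lit 112) (nat_lit 5) (nat_lit 122) (nat_lit 5) (nat_lit 123) (nat_lit 5) (nat_lit 427) (nat_lit 423) (nat_lit 170)))) (XT.nd (nat_lit 78) (nat_lit 0) (nat_lit 76) (XT.lf (nat_lit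 76) (nat_lit 17818110458) (nat_lit 0) (nat_lit 66260416205) (nat_lit 836) (nat_lit 180455438483) (nat_lit 113) (nat_lit 5) (nat_lit 112) (nat_lit 5) (nat_lit 123) (nat_lit 5) (nat_lit 428) (nat_lit 423) (nat_lit 169)) (XT.nd (nat_lit 78) (nat_lit 0) (nat_lit 0) (XT.lf (nat_lit 0) (nat_lit 97768052940) (nat_lit 760) (nat_lit 115999344168) (nat_lit 836) (nat_lit 57615983643) (nat_lit 113) (nat_lit 5) (nat_lit 123) (nat_lit 5) (nat_lit 124) (nat_lit 5) (nat_lit 429) (nat_lit 423) (nat_lit 168)) (XT.lf (nat_lit 76) (nat_lit 20833513749) (nat_lit 0) (nat_lit 92719988448) (nat_lit 836) (nat_lit 164951192649) (nat_lit 114) (nat_lit 5) (nat_lit 113) (nat_lit 5) (nat_lit 124) (nat_lit 5) (nat_lit 430) (nat_lit 423) (nat_lit 167)))))) (XT.nd (nat_lit 468) (nat_lit 1064) (nat_lit 0) (XT.nd (nat_lit 234) (nat_lit 1064) (nat_lit 0) (XT.nd (nat_lit 78) (nat_lit 0) (nat_lit 0) (XT.lf (nat_lit 0) (nat_lit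 132661641969) (nat_lit 760) (nat_lit 117917616148) (nat_lit 836) (nat_lit 35276145664) (nat_lit 114) (nat_lit 5) (nat_lit 124) (nat_lit 5) (nat_lit 125) (nat_lit 5) (nat_lit 431) (nat_lit 423) (nat_lit 166)) (XT.nd (nat_lit 78) (nat_lit 0) (nat_lit 76) (XT.lf (nat_lit 76) (nat_lit 28206362482) (nat_lit 0) (nat_lit 126479152278) (nat_lit 836) (nat_lit 138790117139) (nat_lit 115) (nat_lit 5) (nat_lit 114) (nat_lit 5) (nat_lit 125) (nat_lit 5) (nat_lit 432) (nat_lit 423) (nat_lit 165)) (XT.lf (nat_lit 0) (nat_lit 179899992471) (nat_lit 760) (nat_lit 115739166499) (nat_lit 76) (nat_lit 5733241924) (nat_lit 115) (nat_lit 5) (nat_lit 125) (nat_lit 5) (nat_lit 116) (nat_lit 5) (nat_lit 433) (nat_lit 423) (nat_lit 164)))) (XT.nd (nat_lit 78) (nat_lit 380) (nat_lit 0) (XT.lf (nat_lit 0) (nat_lit 40489898091) (nat_lit 760) (nat_lit 168590835848) (nat_lit 836) (nat_lit 100447997442) (nat_lit 105) (nat_lit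 5) (nat_lit 115) (nat_lit 5) (nat_lit 116) (nat_lit 5) (nat_lit 434) (nat_lit 423) (nat_lit 163)) (XT.nd (nat_lit 78) (nat_lit 380) (nat_lit 0) (XT.lf (nat_lit 0) (nat_lit 208548574790) (nat_lit 760) (nat_lit 33131988524) (nat_lit 836) (nat_lit 76314312569) (nat_lit 105) (nat_lit 5) (nat_lit 115) (nat_lit 5) (nat_lit 116) (nat_lit 5) (nat_lit 435) (nat_lit 423) (nat_lit 162)) (XT.lf (nat_lit 0) (nat_lit 58288041472) (nat_lit 380) (nat_lit 220235690406) (nat_lit 456) (nat_lit 48229928375) (nat_lit 100) (nat_lit 5) (nat_lit 105) (nat_lit 5) (nat_lit 106) (nat_lit 5) (nat_lit 436) (nat_lit 423) (nat_lit 161))))) (XT.nd (nat_lit 234) (nat_lit 684) (nat_lit 0) (XT.nd (nat_lit 78) (nat_lit 380) (nat_lit 0) (XT.lf (nat_lit 0) (nat_lit 237647680117) (nat_lit 380) (nat_lit 81949247622) (nat_lit 456) (nat_lit 16234062689) (nat_lit 100) (nat_lit 5) (nat_lit 105) (nat_lit 5) (nat_lit 106) (nat_lit 5)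 (nat_lit 437) (nat_lit 423) (nat_lit 160)) (XT.nd (nat_lit 78) (nat_lit 0) (nat_lit 0) (XT.lf (nat_lit 0) (nat_lit 19114933252) (nat_lit 380) (nat_lit 263298587131) (nat_lit 76) (nat_lit 62819662774) (nat_lit 95) (nat_lit 5) (nat_lit 100) (nat_lit 5) (nat_lit 96) (nat_lit 5) (nat_lit 438) (nat_lit 423) (nat_lit 159)) (XT.lf (nat_lit 0) (nat_lit 58719237553) (nat_lit 380) (nat_lit 82192111106) (nat_lit 76) (nat_lit 214029158802) (nat_lit 95) (nat_lit 5) (nat_lit 100) (nat_lit 5) (nat_lit 96) (nat_lit 5) (nat_lit 439) (nat_lit 423) (nat_lit 158)))) (XT.nd (nat_lit 156) (nat_lit 304) (nat_lit 0) (XT.nd (nat_lit 78) (nat_lit 0) (nat_lit 0) (XT.lf (nat_lit 0) (nat_lit 102193398533) (nat_lit 456) (nat_lit 253654751674) (nat_lit 76) (nat_lit 9190565726) (nat_lit 90) (nat_lit 5) (nat_lit 96) (nat_lit 5) (nat_lit 91) (nat_lit 5) (nat_lit 440) (nat_lit 423) (nat_lit 157)) (XT.lf (nat_lit 0) (nat_lit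 151566033710) (nat_lit 456) (nat_lit 60412753066) (nat_lit 76) (nat_lit 163476809768) (nat_lit 90) (nat_lit 5) (nat_lit 96) (nat_lit 5) (nat_lit 91) (nat_lit 5) (nat_lit 441) (nat_lit 423) (nat_lit 156))) (XT.nd (nat_lit 78) (nat_lit 0) (nat_lit 0) (XT.lf (nat_lit 0) (nat_lit 147202710440) (nat_lit 304) (nat_lit 58502800668) (nat_lit 380) (nat_lit 180572899575) (nat_lit 86) (nat_lit 5) (nat_lit 90) (nat_lit 5) (nat_lit 91) (nat_lit 5) (nat_lit 442) (nat_lit 423) (nat_lit 155)) (XT.lf (nat_lit 0) (nat_lit 265194425768) (nat_lit 380) (nat_lit 31914289729) (nat_lit 76) (nat_lit 100401526884) (nat_lit 86) (nat_lit 5) (nat_lit 91) (nat_lit 5) (nat_lit 87) (nat_lit 5) (nat_lit 443) (nat_lit 423) (nat_lit 154))))))) (XT.nd (nat_lit 1014) (nat_lit 684) (nat_lit 0) (XT.nd (nat_lit 468) (nat_lit 912) (nat_lit 0) (XT.nd (nat_lit 234) (nat_lit 532) (nat_lit 0) (XT.nd (nat_lit 78) (nat_lit 304) (nat_lit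 0) (XT.lf (nat_lit 0) (nat_lit 190751322488) (nat_lit 304) (nat_lit 140843655026) (nat_lit 380) (nat_lit 77511828603) (nat_lit 82) (nat_lit 5) (nat_lit 86) (nat_lit 5) (nat_lit 87) (nat_lit 5) (nat_lit 444) (nat_lit 423) (nat_lit 153)) (XT.nd (nat_lit 78) (nat_lit 76) (nat_lit 0) (XT.lf (nat_lit 0) (nat_lit 4163636387) (nat_lit 228) (nat_lit 398128996164) (nat_lit 304) (nat_lit 18941711723) (nat_lit 79) (nat_lit 5) (nat_lit 82) (nat_lit 5) (nat_lit 83) (nat_lit 5) (nat_lit 445) (nat_lit 423) (nat_lit 152)) (XT.lf (nat_lit 0) (nat_lit 47262282048) (nat_lit 304) (nat_lit 191427848492) (nat_lit 76) (nat_lit 194941534283) (nat_lit 78) (nat_lit 5) (nat_lit 82) (nat_lit 5) (nat_lit 79) (nat_lit 5) (nat_lit 446) (nat_lit 423) (nat_lit 151)))) (XT.nd (nat_lit 78) (nat_lit 228) (nat_lit 0) (XT.lf (nat_lit 0) (nat_lit 46680667436) (nat_lit 304) (nat_lit 70188027532) (nat_lit 380) (nat_lit 329728191197)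 (nat_lit 74) (nat_lit 5) (nat_lit 78) (nat_lit 5) (nat_lit 79) (nat_lit 5) (nat_lit 447) (nat_lit 423) (nat_lit 150)) (XT.nd (nat_lit 78) (nat_lit 228) (nat_lit 0) (XT.lf (nat_lit 0) (nat_lit 194916965670) (nat_lit 380) (nat_lit 158427404834) (nat_lit 76) (nat_lit 106617921229) (nat_lit 74) (nat_lit 5) (nat_lit 79) (nat_lit 5) (nat_lit 75) (nat_lit 5) (nat_lit 448) (nat_lit 423) (nat_lit 149)) (XT.lf (nat_lit 0) (nat_lit 97092762837) (nat_lit 228) (nat_lit 182441371902) (nat_lit 304) (nat_lit 194328508612) (nat_lit 71) (nat_lit 5) (nat_lit 74) (nat_lit 5) (nat_lit 75) (nat_lit 5) (nat_lit 449) (nat_lit 423) (nat_lit 148))))) (XT.nd (nat_lit 234) (nat_lit 608) (nat_lit 0) (XT.nd (nat_lit 78) (nat_lit 304) (nat_lit 0) (XT.lf (nat_lit 0) (nat_lit 370889142983) (nat_lit 228) (nat_lit 176036119) (nat_lit 304) (nat_lit 117258682622) (nat_lit 71) (nat_lit 5) (nat_lit 74) (nat_lit 5) (nat_lit 75)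 (nat_lit 5) (nat_lit 450) (nat_lit 423) (nat_lit 147)) (XT.nd (nat_lit 78) (nat_lit 76) (nat_lit 0) (XT.lf (nat_lit 0) (nat_lit 156903859531) (nat_lit 228) (nat_lit 315703806292) (nat_lit 304) (nat_lit 30628730697) (nat_lit 68) (nat_lit 5) (nat_lit 71) (nat_lit 5) (nat_lit 72) (nat_lit 5) (nat_lit 451) (nat_lit 423) (nat_lit 146)) (XT.lf (nat_lit 0) (nat_lit 60425971692) (nat_lit 304) (nat_lit 70736171917) (nat_lit 76) (nat_lit 387584102487) (nat_lit 67) (nat_lit 5) (nat_lit 71) (nat_lit 5) (nat_lit 68) (nat_lit 5) (nat_lit 452) (nat_lit 423) (nat_lit 145)))) (XT.nd (nat_lit 156) (nat_lit 380) (nat_lit 0) (XT.nd (nat_lit 78) (nat_lit 0) (nat_lit 0) (XT.lf (nat_lit 0) (nat_lit 159565784048) (nat_lit 304) (nat_lit 310523451395) (nat_lit 76) (nat_lit 64689162150) (nat_lit 64) (nat_lit 5) (nat_lit 68) (nat_lit 5) (nat_lit 65) (nat_lit 5) (nat_lit 453) (nat_lit 423) (nat_lit 144)) (XT.lf (nat_lit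 0) (nat_lit 267030351221) (nat_lit 304) (nat_lit 17270712422) (nat_lit 76) (nat_lit 267142704822) (nat_lit 64) (nat_lit 5) (nat_lit 68) (nat_lit 5) (nat_lit 65) (nat_lit 5) (nat_lit 454) (nat_lit 423) (nat_lit 143))) (XT.nd (nat_lit 78) (nat_lit 152) (nat_lit 0) (XT.lf (nat_lit 0) (nat_lit 300254653162) (nat_lit 228) (nat_lit 84301286647) (nat_lit 304) (nat_lit 184152078430) (nat_lit 61) (nat_lit 5) (nat_lit 64) (nat_lit 5) (nat_lit 65) (nat_lit 5) (nat_lit 455) (nat_lit 423) (nat_lit 142)) (XT.lf (nat_lit 0) (nat_lit 46971063205) (nat_lit 152) (nat_lit 463979859721) (nat_lit 228) (nat_lit 75734901831) (nat_lit 59) (nat_lit 5) (nat_lit 61) (nat_lit 5) (nat_lit 62) (nat_lit 5) (nat_lit 456) (nat_lit 423) (nat_lit 141)))))) (XT.nd (nat_lit 50544) (nat_lit 0) (nat_lit 4560) (XT.nd (nat_lit 234) (nat_lit 380) (nat_lit 0) (XT.nd (nat_lit 78) (nat_lit 228) (nat_lit 0) (XT.lf (nat_lit 0) (nat_lit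 42886479316) (nat_lit 228) (nat_lit 219899845620) (nat_lit 76) (nat_lit 342446307641) (nat_lit 58) (nat_lit 5) (nat_lit 61) (nat_lit 5) (nat_lit 59) (nat_lit 5) (nat_lit 457) (nat_lit 423) (nat_lit 140)) (XT.nd (nat_lit 78) (nat_lit 0) (nat_lit 0) (XT.lf (nat_lit 0) (nat_lit 118455544186) (nat_lit 228) (nat_lit 48287597188) (nat_lit 304) (nat_lit 457809091576) (nat_lit 55) (nat_lit 5) (nat_lit 58) (nat_lit 5) (nat_lit 59) (nat_lit 5) (nat_lit 458) (nat_lit 423) (nat_lit 139)) (XT.lf (nat_lit 0) (nat_lit 303340244190) (nat_lit 304) (nat_lit 166112030803) (nat_lit 76) (nat_lit 175058157974) (nat_lit 55) (nat_lit 5) (nat_lit 59) (nat_lit 5) (nat_lit 56) (nat_lit 5) (nat_lit 459) (nat_lit 423) (nat_lit 138)))) (XT.nd (nat_lit 78) (nat_lit 228) (nat_lit 0) (XT.lf (nat_lit 0) (nat_lit 196365138777) (nat_lit 152) (nat_lit 254259452983) (nat_lit 228) (nat_lit 214649081751) (nat_lit 53) (nat_lit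 5) (nat_lit 55) (nat_lit 5) (nat_lit 56) (nat_lit 5) (nat_lit 460) (nat_lit 423) (nat_lit 137)) (XT.nd (nat_lit 78) (nat_lit 228) (nat_lit 0) (XT.lf (nat_lit 0) (nat_lit 582733169883) (nat_lit 152) (nat_lit 25353154460) (nat_lit 228) (nat_lit 78848093366) (nat_lit 53) (nat_lit 5) (nat_lit 55) (nat_lit 5) (nat_lit 56) (nat_lit 5) (nat_lit 461) (nat_lit 423) (nat_lit 136)) (XT.lf (nat_lit 0) (nat_lit 69629011779) (nat_lit 228) (nat_lit 425921223748) (nat_lit 76) (nat_lit 213681891314) (nat_lit 50) (nat_lit 5) (nat_lit 53) (nat_lit 5) (nat_lit 51) (nat_lit 5) (nat_lit 462) (nat_lit 423) (nat_lit 135))))) (XT.nd (nat_lit 234) (nat_lit 0) (nat_lit 76) (XT.nd (nat_lit 78) (nat_lit 0) (nat_lit 0) (XT.lf (nat_lit 0) (nat_lit 27716508494) (nat_lit 836) (nat_lit 47430354369) (nat_lit 836) (nat_lit 47430354369) (nat_lit 110) (nat_lit 3) (nat_lit 121) (nat_lit 3) (nat_lit 121) (nat_lit 5) (nat_lit 424)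 (nat_lit 424) (nat_lit 172)) (XT.nd (nat_lit 78) (nat_lit 0) (nat_lit 76) (XT.lf (nat_lit 76) (nat_lit 24027522214) (nat_lit 0) (nat_lit 33167516282) (nat_lit 836) (nat_lit 194069446280) (nat_lit 111) (nat_lit 5) (nat_lit 110) (nat_lit 3) (nat_lit 121) (nat_lit 5) (nat_lit 425) (nat_lit 424) (nat_lit 171)) (XT.lf (nat_lit 0) (nat_lit 62080205379) (nat_lit 760) (nat_lit 106874838610) (nat_lit 836) (nat_lit 88573241445) (nat_lit 111) (nat_lit 5) (nat_lit 121) (nat_lit 5) (nat_lit 122) (nat_lit 5) (nat_lit 426) (nat_lit 424) (nat_lit 170)))) (XT.nd (nat_lit 156) (nat_lit 0) (nat_lit 76) (XT.nd (nat_lit 78) (nat_lit 0) (nat_lit 76) (XT.lf (nat_lit 76) (nat_lit 19588579838) (nat_lit 0) (nat_lit 48470548524) (nat_lit 836) (nat_lit 196003672921) (nat_lit 112) (nat_lit 5) (nat_lit 111) (nat_lit 5) (nat_lit 122) (nat_lit 5) (nat_lit 427) (nat_lit 424) (nat_lit 169)) (XT.lf (nat_lit 0) (nat_lit 77394979129)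 (nat_lit 760) (nat_lit 115996029826) (nat_lit 836) (nat_lit 77380134931) (nat_lit 112) (nat_lit 5) (nat_lit 122) (nat_lit 5) (nat_lit 123) (nat_lit 5) (nat_lit 428) (nat_lit 424) (nat_lit 168))) (XT.nd (nat_lit 78) (nat_lit 0) (nat_lit 76) (XT.lf (nat_lit 76) (nat_lit 18710278242) (nat_lit 0) (nat_lit 69574004379) (nat_lit 836) (nat_lit 189476288030) (nat_lit 113) (nat_lit 5) (nat_lit 112) (nat_lit 5) (nat_lit 123) (nat_lit 5) (nat_lit 429) (nat_lit 424) (nat_lit 167)) (XT.lf (nat_lit 0) (nat_lit 102658189651) (nat_lit 760) (nat_lit 121798012450) (nat_lit 836) (nat_lit 60496259774) (nat_lit 113) (nat_lit 5) (nat_lit 123) (nat_lit 5) (nat_lit 124) (nat_lit 5) (nat_lit 430) (nat_lit 424) (nat_lit 166))))))))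
noncomputable def xc247 : XT := (XT.nd (nat_lit 1950) (nat_lit 836) (nat_lit 0) (XT.nd (nat_lit 936) (nat_lit 1976) (nat_lit 0) (XT.nd (nat_lit 468) (nat_lit 1140) (nat_lit 0) (XT.nd (nat_lit 234) (nat_lit 608) (nat_lit 0) (XT.nd (nat_lit 78) (nat_lit 0) (nat_lit 76) (XT.lf (nat_lit 76) (nat_lit 21876467412) (nat_lit 0) (nat_lit 97356381336) (nat_lit 836) (nat_lit 173196996114) (nat_lit 114) (nat_lit 5) (nat_lit 113) (nat_lit 5) (nat_lit 124) (nat_lit 5) (nat_lit 431) (nat_lit 424) (nat_lit 165)) (XT.nd (nat_lit 78) (nat_lit 0) (nat_lit 0) (XT.lf (nat_lit 0) (nat_lit 139296310066) (nat_lit 760) (nat_lit 123812193294) (nat_lit 836) (nat_lit 37039590212) (nat_lit 114) (nat_lit 5) (nat_lit 124) (nat_lit 5) (nat_lit 125) (nat_lit 5) (nat_lit 432) (nat_lit 424) (nat_lit 164)) (XT.lf (nat_lit 76) (nat_lit 29617963240) (nat_lit 0) (nat_lit 132803357758) (nat_lit 836) (nat_lit 145728014924) (nat_lit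 115) (nat_lit 5) (nat_lit 114) (nat_lit 5) (nat_lit 125) (nat_lit 5) (nat_lit 433) (nat_lit 424) (nat_lit 163)))) (XT.nd (nat_lit 78) (nat_lit 760) (nat_lit 0) (XT.lf (nat_lit 0) (nat_lit 188896446029) (nat_lit 760) (nat_lit 121524825704) (nat_lit 76) (nat_lit 6019675514) (nat_lit 115) (nat_lit 5) (nat_lit 125) (nat_lit 5) (nat_lit 116) (nat_lit 5) (nat_lit 434) (nat_lit 424) (nat_lit 162)) (XT.nd (nat_lit 78) (nat_lit 0) (nat_lit 0) (XT.lf (nat_lit 0) (nat_lit 42515671162) (nat_lit 760) (nat_lit 177020504129) (nat_lit 836) (nat_lit 105468921478) (nat_lit 105) (nat_lit 5) (nat_lit 115) (nat_lit 5) (nat_lit 116) (nat_lit 5) (nat_lit 435) (nat_lit 424) (nat_lit 161)) (XT.lf (nat_lit 0) (nat_lit 218977220830) (nat_lit 760) (nat_lit 34788708415) (nat_lit 836) (nat_lit 80128622639) (nat_lit 105) (nat_lit 5) (nat_lit 115) (nat_lit 5) (nat_lit 116) (nat_lit 5) (nat_lit 436) (nat_lit 424) (nat_lit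 160))))) (XT.nd (nat_lit 234) (nat_lit 380) (nat_lit 0) (XT.nd (nat_lit 78) (nat_lit 380) (nat_lit 0) (XT.lf (nat_lit 0) (nat_lit 61203709762) (nat_lit 380) (nat_lit 231247500750) (nat_lit 456) (nat_lit 50640067290) (nat_lit 100) (nat_lit 5) (nat_lit 105) (nat_lit 5) (nat_lit 106) (nat_lit 5) (nat_lit 437) (nat_lit 424) (nat_lit 159)) (XT.nd (nat_lit 78) (nat_lit 380) (nat_lit 0) (XT.lf (nat_lit 0) (nat_lit 249531270044) (nat_lit 380) (nat_lit 86046734597) (nat_lit 456) (nat_lit 17044472963) (nat_lit 100) (nat_lit 5) (nat_lit 105) (nat_lit 5) (nat_lit 106) (nat_lit 5) (nat_lit 438) (nat_lit 424) (nat_lit 158)) (XT.lf (nat_lit 0) (nat_lit 20071891237) (nat_lit 380) (nat_lit 276462227504) (nat_lit 76) (nat_lit 65960662264) (nat_lit 95) (nat_lit 5) (nat_lit 100) (nat_lit 5) (nat_lit 96) (nat_lit 5) (nat_lit 439) (nat_lit 424) (nat_lit 157)))) (XT.nd (nat_lit 78) (nat_lit 380) (nat_lit 0) (XT.lf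 (nat_lit 0) (nat_lit 61656353072) (nat_lit 380) (nat_lit 86300489058) (nat_lit 76) (nat_lit 224730632315) (nat_lit 95) (nat_lit 5) (nat_lit 100) (nat_lit 5) (nat_lit 96) (nat_lit 5) (nat_lit 440) (nat_lit 424) (nat_lit 156)) (XT.nd (nat_lit 78) (nat_lit 0) (nat_lit 0) (XT.lf (nat_lit 0) (nat_lit 107304187431) (nat_lit 456) (nat_lit 266336226310) (nat_lit 76) (nat_lit 9650181366) (nat_lit 90) (nat_lit 5) (nat_lit 96) (nat_lit 5) (nat_lit 91) (nat_lit 5) (nat_lit 441) (nat_lit 424) (nat_lit 155)) (XT.lf (nat_lit 0) (nat_lit 159145401082) (nat_lit 456) (nat_lit 63432187913) (nat_lit 76) (nat_lit 171650733449) (nat_lit 90) (nat_lit 5) (nat_lit 96) (nat_lit 5) (nat_lit 91) (nat_lit 5) (nat_lit 442) (nat_lit 424) (nat_lit 154)))))) (XT.nd (nat_lit 468) (nat_lit 760) (nat_lit 0) (XT.nd (nat_lit 234) (nat_lit 608) (nat_lit 0) (XT.nd (nat_lit 78) (nat_lit 304) (nat_lit 0) (XT.lf (nat_lit 0) (nat_lit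 154564029369) (nat_lit 304) (nat_lit 61427790711) (nat_lit 380) (nat_lit 189600458855) (nat_lit 86) (nat_lit 5) (nat_lit 90) (nat_lit 5) (nat_lit 91) (nat_lit 5) (nat_lit 443) (nat_lit 424) (nat_lit 153)) (XT.nd (nat_lit 78) (nat_lit 304) (nat_lit 0) (XT.lf (nat_lit 0) (nat_lit 278455133493) (nat_lit 380) (nat_lit 33508829599) (nat_lit 76) (nat_lit 105421741505) (nat_lit 86) (nat_lit 5) (nat_lit 91) (nat_lit 5) (nat_lit 87) (nat_lit 5) (nat_lit 444) (nat_lit 424) (nat_lit 152)) (XT.lf (nat_lit 0) (nat_lit 200290044284) (nat_lit 304) (nat_lit 147885639612) (nat_lit 380) (nat_lit 81386414097) (nat_lit 82) (nat_lit 5) (nat_lit 86) (nat_lit 5) (nat_lit 87) (nat_lit 5) (nat_lit 445) (nat_lit 424) (nat_lit 151)))) (XT.nd (nat_lit 78) (nat_lit 380) (nat_lit 0) (XT.lf (nat_lit 0) (nat_lit 4372999843) (nat_lit 228) (nat_lit 418035197642) (nat_lit 304) (nat_lit 19887816809) (nat_lit 79) (nat_lit 5)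 (nat_lit 82) (nat_lit 5) (nat_lit 83) (nat_lit 5) (nat_lit 446) (nat_lit 424) (nat_lit 150)) (XT.nd (nat_lit 78) (nat_lit 304) (nat_lit 0) (XT.lf (nat_lit 0) (nat_lit 49626300072) (nat_lit 304) (nat_lit 200998085181) (nat_lit 76) (nat_lit 204688817136) (nat_lit 78) (nat_lit 5) (nat_lit 82) (nat_lit 5) (nat_lit 79) (nat_lit 5) (nat_lit 447) (nat_lit 424) (nat_lit 149)) (XT.lf (nat_lit 0) (nat_lit 49015837902) (nat_lit 304) (nat_lit 73697170445) (nat_lit 380) (nat_lit 346213677738) (nat_lit 74) (nat_lit 5) (nat_lit 78) (nat_lit 5) (nat_lit 79) (nat_lit 5) (nat_lit 448) (nat_lit 424) (nat_lit 148))))) (XT.nd (nat_lit 234) (nat_lit 532) (nat_lit 0) (XT.nd (nat_lit 78) (nat_lit 228) (nat_lit 0) (XT.lf (nat_lit 0) (nat_lit 204663654588) (nat_lit 380) (nat_lit 166347653697) (nat_lit 76) (nat_lit 111949055567) (nat_lit 74) (nat_lit 5) (nat_lit 79) (nat_lit 5) (nat_lit 75) (nat_lit 5) (nat_lit 449)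 (nat_lit 424) (nat_lit 147)) (XT.nd (nat_lit 78) (nat_lit 0) (nat_lit 0) (XT.lf (nat_lit 0) (nat_lit 101948504270) (nat_lit 228) (nat_lit 191563155036) (nat_lit 304) (nat_lit 204044074908) (nat_lit 71) (nat_lit 5) (nat_lit 74) (nat_lit 5) (nat_lit 75) (nat_lit 5) (nat_lit 450) (nat_lit 424) (nat_lit 146)) (XT.lf (nat_lit 0) (nat_lit 389434650886) (nat_lit 228) (nat_lit 184566056) (nat_lit 304) (nat_lit 123120798529) (nat_lit 71) (nat_lit 5) (nat_lit 74) (nat_lit 5) (nat_lit 75) (nat_lit 5) (nat_lit 451) (nat_lit 424) (nat_lit 145)))) (XT.nd (nat_lit 156) (nat_lit 228) (nat_lit 0) (XT.nd (nat_lit 78) (nat_lit 76) (nat_lit 0) (XT.lf (nat_lit 0) (nat_lit 164750120842) (nat_lit 228) (nat_lit 331488690791) (nat_lit 304) (nat_lit 32159366213) (nat_lit 68) (nat_lit 5) (nat_lit 71) (nat_lit 5) (nat_lit 72) (nat_lit 5) (nat_lit 452) (nat_lit 424) (nat_lit 144)) (XT.lf (nat_lit 0) (nat_lit 63448008735)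 (nat_lit 304) (nat_lit 74271938294) (nat_lit 76) (nat_lit 406963574108) (nat_lit 67) (nat_lit 5) (nat_lit 71) (nat_lit 5) (nat_lit 68) (nat_lit 5) (nat_lit 453) (nat_lit 424) (nat_lit 143))) (XT.nd (nat_lit 78) (nat_lit 0) (nat_lit 0) (XT.lf (nat_lit 0) (nat_lit 167544797333) (nat_lit 304) (nat_lit 326048567046) (nat_lit 76) (nat_lit 67923916565) (nat_lit 64) (nat_lit 5) (nat_lit 68) (nat_lit 5) (nat_lit 65) (nat_lit 5) (nat_lit 454) (nat_lit 424) (nat_lit 142)) (XT.lf (nat_lit 0) (nat_lit 280382558385) (nat_lit 304) (nat_lit 18133241453) (nat_lit 76) (nat_lit 280500122261) (nat_lit 64) (nat_lit 5) (nat_lit 68) (nat_lit 5) (nat_lit 65) (nat_lit 5) (nat_lit 455) (nat_lit 424) (nat_lit 141))))))) (XT.nd (nat_lit 51246) (nat_lit 0) (nat_lit 2508) (XT.nd (nat_lit 50700) (nat_lit 0) (nat_lit 4332) (XT.nd (nat_lit 234) (nat_lit 380) (nat_lit 0) (XT.nd (nat_lit 78) (nat_lit 228) (nat_lit 0) (XT.lf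 (nat_lit 0) (nat_lit 315268376175) (nat_lit 228) (nat_lit 88516032852) (nat_lit 304) (nat_lit 193358976219) (nat_lit 61) (nat_lit 5) (nat_lit 64) (nat_lit 5) (nat_lit 65) (nat_lit 5) (nat_lit 456) (nat_lit 424) (nat_lit 140)) (XT.nd (nat_lit 78) (nat_lit 76) (nat_lit 0) (XT.lf (nat_lit 0) (nat_lit 49320619218) (nat_lit 152) (nat_lit 487178510457) (nat_lit 228) (nat_lit 79520953009) (nat_lit 59) (nat_lit 5) (nat_lit 61) (nat_lit 5) (nat_lit 62) (nat_lit 5) (nat_lit 457) (nat_lit 424) (nat_lit 139)) (XT.lf (nat_lit 0) (nat_lit 45031443001) (nat_lit 228) (nat_lit 230893861397) (nat_lit 76) (nat_lit 359568927569) (nat_lit 58) (nat_lit 5) (nat_lit 61) (nat_lit 5) (nat_lit 59) (nat_lit 5) (nat_lit 458) (nat_lit 424) (nat_lit 138)))) (XT.nd (nat_lit 78) (nat_lit 152) (nat_lit 0) (XT.lf (nat_lit 0) (nat_lit 124379282149) (nat_lit 228) (nat_lit 50701640549) (nat_lit 304) (nat_lit 480698890444) (nat_lit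 55) (nat_lit 5) (nat_lit 58) (nat_lit 5) (nat_lit 59) (nat_lit 5) (nat_lit 459) (nat_lit 424) (nat_lit 137)) (XT.nd (nat_lit 78) (nat_lit 152) (nat_lit 0) (XT.lf (nat_lit 0) (nat_lit 318507855932) (nat_lit 304) (nat_lit 174416692385) (nat_lit 76) (nat_lit 183811376090) (nat_lit 55) (nat_lit 5) (nat_lit 59) (nat_lit 5) (nat_lit 56) (nat_lit 5) (nat_lit 460) (nat_lit 424) (nat_lit 136)) (XT.lf (nat_lit 0) (nat_lit 206184320513) (nat_lit 152) (nat_lit 266972086258) (nat_lit 228) (nat_lit 225380920925) (nat_lit 53) (nat_lit 5) (nat_lit 55) (nat_lit 5) (nat_lit 56) (nat_lit 5) (nat_lit 461) (nat_lit 424) (nat_lit 135))))) (XT.nd (nat_lit 234) (nat_lit 0) (nat_lit 76) (XT.nd (nat_lit 78) (nat_lit 0) (nat_lit 0) (XT.lf (nat_lit 0) (nat_lit 29103376507) (nat_lit 836) (nat_lit 49801324361) (nat_lit 836) (nat_lit 49801324361) (nat_lit 110) (nat_lit 3) (nat_lit 121) (nat_lit 3) (nat_lit 121) (nat_lit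 5) (nat_lit 425) (nat_lit 425) (nat_lit 170)) (XT.nd (nat_lit 78) (nat_lit 0) (nat_lit 76) (XT.lf (nat_lit 76) (nat_lit 25229976110) (nat_lit 0) (nat_lit 34826817020) (nat_lit 836) (nat_lit 203770814347) (nat_lit 111) (nat_lit 5) (nat_lit 110) (nat_lit 3) (nat_lit 121) (nat_lit 5) (nat_lit 426) (nat_lit 425) (nat_lit 169)) (XT.lf (nat_lit 0) (nat_lit 65186109237) (nat_lit 760) (nat_lit 112217443623) (nat_lit 836) (nat_lit 93001050831) (nat_lit 111) (nat_lit 5) (nat_lit 121) (nat_lit 5) (nat_lit 122) (nat_lit 5) (nat_lit 427) (nat_lit 425) (nat_lit 168)))) (XT.nd (nat_lit 156) (nat_lit 0) (nat_lit 76) (XT.nd (nat_lit 78) (nat_lit 0) (nat_lit 76) (XT.lf (nat_lit 76) (nat_lit 20569127410) (nat_lit 0) (nat_lit 50894778252) (nat_lit 836) (nat_lit 205801943369) (nat_lit 112) (nat_lit 5) (nat_lit 111) (nat_lit 5) (nat_lit 122) (nat_lit 5) (nat_lit 428) (nat_lit 425) (nat_lit 167)) (XT.lf (nat_lit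 0) (nat_lit 81266451816) (nat_lit 760) (nat_lit 121794667640) (nat_lit 836) (nat_lit 81248494226) (nat_lit 112) (nat_lit 5) (nat_lit 122) (nat_lit 5) (nat_lit 123) (nat_lit 5) (nat_lit 429) (nat_lit 425) (nat_lit 166))) (XT.nd (nat_lit 78) (nat_lit 0) (nat_lit 76) (XT.lf (nat_lit 76) (nat_lit 19646937062) (nat_lit 0) (nat_lit 73053219213) (nat_lit 836) (nat_lit 198948358778) (nat_lit 113) (nat_lit 5) (nat_lit 112) (nat_lit 5) (nat_lit 123) (nat_lit 5) (nat_lit 430) (nat_lit 425) (nat_lit 165)) (XT.lf (nat_lit 0) (nat_lit 107792671980) (nat_lit 760) (nat_lit 127886734909) (nat_lit 836) (nat_lit 63520598339) (nat_lit 113) (nat_lit 5) (nat_lit 123) (nat_lit 5) (nat_lit 124) (nat_lit 5) (nat_lit 431) (nat_lit 425) (nat_lit 164)))))) (XT.nd (nat_lit 468) (nat_lit 1444) (nat_lit 0) (XT.nd (nat_lit 234) (nat_lit 608) (nat_lit 0) (XT.nd (nat_lit 78) (nat_lit 0) (nat_lit 76) (XT.lf (nat_lit 76) (nat_lit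 22971449945) (nat_lit 0) (nat_lit 102224557288) (nat_lit 836) (nat_lit 181855253024) (nat_lit 114) (nat_lit 5) (nat_lit 113) (nat_lit 5) (nat_lit 124) (nat_lit 5) (nat_lit 432) (nat_lit 425) (nat_lit 163)) (XT.nd (nat_lit 78) (nat_lit 0) (nat_lit 0) (XT.lf (nat_lit 0) (nat_lit 146262564116) (nat_lit 760) (nat_lit 130001620499) (nat_lit 836) (nat_lit 38891240710) (nat_lit 114) (nat_lit 5) (nat_lit 124) (nat_lit 5) (nat_lit 125) (nat_lit 5) (nat_lit 433) (nat_lit 425) (nat_lit 162)) (XT.lf (nat_lit 76) (nat_lit 31100024790) (nat_lit 0) (nat_lit 139443750467) (nat_lit 836) (nat_lit 153012957102) (nat_lit 115) (nat_lit 5) (nat_lit 114) (nat_lit 5) (nat_lit 125) (nat_lit 5) (nat_lit 434) (nat_lit 425) (nat_lit 161)))) (XT.nd (nat_lit 78) (nat_lit 760) (nat_lit 0) (XT.lf (nat_lit 0) (nat_lit 198342587091) (nat_lit 760) (nat_lit 127599888649) (nat_lit 76) (nat_lit 6320452027) (nat_lit 115) (nat_lit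 5) (nat_lit 125) (nat_lit 5) (nat_lit 116) (nat_lit 5) (nat_lit 435) (nat_lit 425) (nat_lit 160)) (XT.nd (nat_lit 78) (nat_lit 0) (nat_lit 0) (XT.lf (nat_lit 0) (nat_lit 44642614055) (nat_lit 760) (nat_lit 185871644063) (nat_lit 836) (nat_lit 110741028925) (nat_lit 105) (nat_lit 5) (nat_lit 115) (nat_lit 5) (nat_lit 116) (nat_lit 5) (nat_lit 436) (nat_lit 425) (nat_lit 159)) (XT.lf (nat_lit 0) (nat_lit 229927186000) (nat_lit 760) (nat_lit 36528253101) (nat_lit 836) (nat_lit 84133778888) (nat_lit 105) (nat_lit 5) (nat_lit 115) (nat_lit 5) (nat_lit 116) (nat_lit 5) (nat_lit 437) (nat_lit 425) (nat_lit 158))))) (XT.nd (nat_lit 234) (nat_lit 684) (nat_lit 0) (XT.nd (nat_lit 78) (nat_lit 380) (nat_lit 0) (XT.lf (nat_lit 0) (nat_lit 64265043746) (nat_lit 380) (nat_lit 242809899211) (nat_lit 456) (nat_lit 53170839358) (nat_lit 100) (nat_lit 5) (nat_lit 105) (nat_lit 5) (nat_lit 106) (nat_lit 5)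 (nat_lit 438) (nat_lit 425) (nat_lit 157)) (XT.nd (nat_lit 78) (nat_lit 380) (nat_lit 0) (XT.lf (nat_lit 0) (nat_lit 262008927352) (nat_lit 380) (nat_lit 90349093635) (nat_lit 456) (nat_lit 17895523948) (nat_lit 100) (nat_lit 5) (nat_lit 105) (nat_lit 5) (nat_lit 106) (nat_lit 5) (nat_lit 439) (nat_lit 425) (nat_lit 156)) (XT.lf (nat_lit 0) (nat_lit 21076584504) (nat_lit 380) (nat_lit 290284169733) (nat_lit 76) (nat_lit 69258710208) (nat_lit 95) (nat_lit 5) (nat_lit 100) (nat_lit 5) (nat_lit 96) (nat_lit 5) (nat_lit 440) (nat_lit 425) (nat_lit 155)))) (XT.nd (nat_lit 156) (nat_lit 304) (nat_lit 0) (XT.nd (nat_lit 78) (nat_lit 380) (nat_lit 0) (XT.lf (nat_lit 0) (nat_lit 64740217111) (nat_lit 380) (nat_lit 90614400038) (nat_lit 76) (nat_lit 235967178056) (nat_lit 95) (nat_lit 5) (nat_lit 100) (nat_lit 5) (nat_lit 96) (nat_lit 5) (nat_lit 441) (nat_lit 425) (nat_lit 154)) (XT.lf (nat_lit 0)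 (nat_lit 112670411742) (nat_lit 456) (nat_lit 279651892095) (nat_lit 76) (nat_lit 10132769666) (nat_lit 90) (nat_lit 5) (nat_lit 96) (nat_lit 5) (nat_lit 91) (nat_lit 5) (nat_lit 442) (nat_lit 425) (nat_lit 153))) (XT.nd (nat_lit 78) (nat_lit 304) (nat_lit 0) (XT.lf (nat_lit 0) (nat_lit 167103637746) (nat_lit 456) (nat_lit 66602706327) (nat_lit 76) (nat_lit 180233345580) (nat_lit 90) (nat_lit 5) (nat_lit 96) (nat_lit 5) (nat_lit 91) (nat_lit 5) (nat_lit 443) (nat_lit 425) (nat_lit 152)) (XT.lf (nat_lit 0) (nat_lit 162293304222) (nat_lit 304) (nat_lit 64499044201) (nat_lit 380) (nat_lit 199079497037) (nat_lit 86) (nat_lit 5) (nat_lit 90) (nat_lit 5) (nat_lit 91) (nat_lit 5) (nat_lit 444) (nat_lit 425) (nat_lit 151))))))))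
noncomputable def xc248 : XT := (XT.nd (nat_lit 52260) (nat_lit 0) (nat_lit 304) (XT.nd (nat_lit 936) (nat_lit 684) (nat_lit 0) (XT.nd (nat_lit 468) (nat_lit 760) (nat_lit 0) (XT.nd (nat_lit 234) (nat_lit 380) (nat_lit 0) (XT.nd (nat_lit 78) (nat_lit 532) (nat_lit 0) (XT.lf (nat_lit 0) (nat_lit 292378784894) (nat_lit 380) (nat_lit 35183205667) (nat_lit 76) (nat_lit 110692954001) (nat_lit 86) (nat_lit 5) (nat_lit 91) (nat_lit 5) (nat_lit 87) (nat_lit 5) (nat_lit 445) (nat_lit 425) (nat_lit 150)) (XT.nd (nat_lit 78) (nat_lit 228) (nat_lit 0) (XT.lf (nat_lit 0) (nat_lit 210305594726) (nat_lit 304) (nat_lit 155279741851) (nat_lit 380) (nat_lit 85454822388) (nat_lit 82) (nat_lit 5) (nat_lit 86) (nat_lit 5) (nat_lit 87) (nat_lit 5) (nat_lit 446) (nat_lit 425) (nat_lit 149)) (XT.lf (nat_lit 0) (nat_lit 4592721614) (nat_lit 228) (nat_lit 438936732281) (nat_lit 304) (nat_lit 20881318307) (nat_lit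 79) (nat_lit 5) (nat_lit 82) (nat_lit 5) (nat_lit 83) (nat_lit 5) (nat_lit 447) (nat_lit 425) (nat_lit 148)))) (XT.nd (nat_lit 78) (nat_lit 304) (nat_lit 0) (XT.lf (nat_lit 0) (nat_lit 52108434959) (nat_lit 304) (nat_lit 211046941154) (nat_lit 76) (nat_lit 214923444966) (nat_lit 78) (nat_lit 5) (nat_lit 82) (nat_lit 5) (nat_lit 79) (nat_lit 5) (nat_lit 448) (nat_lit 425) (nat_lit 147)) (XT.nd (nat_lit 78) (nat_lit 0) (nat_lit 0) (XT.lf (nat_lit 0) (nat_lit 51467661175) (nat_lit 304) (nat_lit 77381794533) (nat_lit 380) (nat_lit 363523524419) (nat_lit 74) (nat_lit 5) (nat_lit 78) (nat_lit 5) (nat_lit 79) (nat_lit 5) (nat_lit 449) (nat_lit 425) (nat_lit 146)) (XT.lf (nat_lit 0) (nat_lit 214897599798) (nat_lit 380) (nat_lit 174664019259) (nat_lit 76) (nat_lit 117546724470) (nat_lit 74) (nat_lit 5) (nat_lit 79) (nat_lit 5) (nat_lit 75) (nat_lit 5) (nat_lit 450) (nat_lit 425) (nat_lit 145)))))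 (XT.nd (nat_lit 234) (nat_lit 304) (nat_lit 0) (XT.nd (nat_lit 78) (nat_lit 228) (nat_lit 0) (XT.lf (nat_lit 0) (nat_lit 107046930202) (nat_lit 228) (nat_lit 201141053865) (nat_lit 304) (nat_lit 214245499392) (nat_lit 71) (nat_lit 5) (nat_lit 74) (nat_lit 5) (nat_lit 75) (nat_lit 5) (nat_lit 451) (nat_lit 425) (nat_lit 144)) (XT.nd (nat_lit 78) (nat_lit 228) (nat_lit 0) (XT.lf (nat_lit 0) (nat_lit 408907336495) (nat_lit 228) (nat_lit 193547767) (nat_lit 304) (nat_lit 129276096302) (nat_lit 71) (nat_lit 5) (nat_lit 74) (nat_lit 5) (nat_lit 75) (nat_lit 5) (nat_lit 452) (nat_lit 425) (nat_lit 143)) (XT.lf (nat_lit 0) (nat_lit 172988595895) (nat_lit 228) (nat_lit 348062847946) (nat_lit 304) (nat_lit 33766607975) (nat_lit 68) (nat_lit 5) (nat_lit 71) (nat_lit 5) (nat_lit 72) (nat_lit 5) (nat_lit 453) (nat_lit 425) (nat_lit 142)))) (XT.nd (nat_lit 78) (nat_lit 228) (nat_lit 0) (XT.lf (nat_lit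 0) (nat_lit 66621078976) (nat_lit 304) (nat_lit 77984589886) (nat_lit 76) (nat_lit 427311994533) (nat_lit 67) (nat_lit 5) (nat_lit 71) (nat_lit 5) (nat_lit 68) (nat_lit 5) (nat_lit 454) (nat_lit 425) (nat_lit 141)) (XT.nd (nat_lit 78) (nat_lit 0) (nat_lit 0) (XT.lf (nat_lit 0) (nat_lit 175922693964) (nat_lit 304) (nat_lit 342350036741) (nat_lit 76) (nat_lit 71320381153) (nat_lit 64) (nat_lit 5) (nat_lit 68) (nat_lit 5) (nat_lit 65) (nat_lit 5) (nat_lit 455) (nat_lit 425) (nat_lit 140)) (XT.lf (nat_lit 0) (nat_lit 294402311794) (nat_lit 304) (nat_lit 19038990520) (nat_lit 76) (nat_lit 294525384336) (nat_lit 64) (nat_lit 5) (nat_lit 68) (nat_lit 5) (nat_lit 65) (nat_lit 5) (nat_lit 456) (nat_lit 425) (nat_lit 139)))))) (XT.nd (nat_lit 50778) (nat_lit 0) (nat_lit 4180) (XT.nd (nat_lit 234) (nat_lit 228) (nat_lit 0) (XT.nd (nat_lit 78) (nat_lit 228) (nat_lit 0) (XT.lf (nat_lit 0) (nat_lit 331032693264)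 (nat_lit 228) (nat_lit 92941545943) (nat_lit 304) (nat_lit 203026284547) (nat_lit 61) (nat_lit 5) (nat_lit 64) (nat_lit 5) (nat_lit 65) (nat_lit 5) (nat_lit 457) (nat_lit 425) (nat_lit 138)) (XT.nd (nat_lit 78) (nat_lit 76) (nat_lit 0) (XT.lf (nat_lit 0) (nat_lit 51787559797) (nat_lit 152) (nat_lit 511537125550) (nat_lit 228) (nat_lit 83496371259) (nat_lit 59) (nat_lit 5) (nat_lit 61) (nat_lit 5) (nat_lit 62) (nat_lit 5) (nat_lit 458) (nat_lit 425) (nat_lit 137)) (XT.lf (nat_lit 0) (nat_lit 47283595394) (nat_lit 228) (nat_lit 242437668749) (nat_lit 76) (nat_lit 377547650179) (nat_lit 58) (nat_lit 5) (nat_lit 61) (nat_lit 5) (nat_lit 59) (nat_lit 5) (nat_lit 459) (nat_lit 425) (nat_lit 136)))) (XT.nd (nat_lit 78) (nat_lit 0) (nat_lit 0) (XT.lf (nat_lit 0) (nat_lit 130599117689) (nat_lit 228) (nat_lit 53236417363) (nat_lit 304) (nat_lit 504733240217) (nat_lit 55) (nat_lit 5) (nat_lit 58) (nat_lit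 5) (nat_lit 59) (nat_lit 5) (nat_lit 460) (nat_lit 425) (nat_lit 135)) (XT.nd (nat_lit 50388) (nat_lit 0) (nat_lit 4180) (XT.lf (nat_lit 0) (nat_lit 334433792523) (nat_lit 304) (nat_lit 183136674435) (nat_lit 76) (nat_lit 193002226271) (nat_lit 55) (nat_lit 5) (nat_lit 59) (nat_lit 5) (nat_lit 56) (nat_lit 5) (nat_lit 461) (nat_lit 425) (nat_lit 134)) (XT.lf (nat_lit 0) (nat_lit 30559490990) (nat_lit 836) (nat_lit 52290893775) (nat_lit 836) (nat_lit 52290893775) (nat_lit 110) (nat_lit 3) (nat_lit 121) (nat_lit 3) (nat_lit 121) (nat_lit 5) (nat_lit 426) (nat_lit 426) (nat_lit 168))))) (XT.nd (nat_lit 234) (nat_lit 0) (nat_lit 152) (XT.nd (nat_lit 78) (nat_lit 0) (nat_lit 76) (XT.lf (nat_lit 76) (nat_lit 26492452498) (nat_lit 0) (nat_lit 36568996804) (nat_lit 836) (nat_lit 213957446451) (nat_lit 111) (nat_lit 5) (nat_lit 110) (nat_lit 3) (nat_lit 121) (nat_lit 5) (nat_lit 427) (nat_lit 426)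 (nat_lit 167)) (XT.nd (nat_lit 78) (nat_lit 0) (nat_lit 0) (XT.lf (nat_lit 0) (nat_lit 68447132239) (nat_lit 760) (nat_lit 117827284587) (nat_lit 836) (nat_lit 97650329961) (nat_lit 111) (nat_lit 5) (nat_lit 121) (nat_lit 5) (nat_lit 122) (nat_lit 5) (nat_lit 428) (nat_lit 426) (nat_lit 166)) (XT.lf (nat_lit 76) (nat_lit 21598598365) (nat_lit 0) (nat_lit 53440154174) (nat_lit 836) (nat_lit 216090305210) (nat_lit 112) (nat_lit 5) (nat_lit 111) (nat_lit 5) (nat_lit 122) (nat_lit 5) (nat_lit 429) (nat_lit 426) (nat_lit 165)))) (XT.nd (nat_lit 156) (nat_lit 0) (nat_lit 76) (XT.nd (nat_lit 78) (nat_lit 0) (nat_lit 0) (XT.lf (nat_lit 0) (nat_lit 85331337881) (nat_lit 760) (nat_lit 127883345533) (nat_lit 836) (nat_lit 85310331680) (nat_lit 112) (nat_lit 5) (nat_lit 122) (nat_lit 5) (nat_lit 123) (nat_lit 5) (nat_lit 430) (nat_lit 426) (nat_lit 164)) (XT.lf (nat_lit 76) (nat_lit 20630322381) (nat_lit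 0) (nat_lit 76706346945) (nat_lit 836) (nat_lit 208894195172) (nat_lit 113) (nat_lit 5) (nat_lit 112) (nat_lit 5) (nat_lit 123) (nat_lit 5) (nat_lit 431) (nat_lit 426) (nat_lit 163))) (XT.nd (nat_lit 78) (nat_lit 0) (nat_lit 0) (XT.lf (nat_lit 0) (nat_lit 113183732197) (nat_lit 760) (nat_lit 134280003024) (nat_lit 836) (nat_lit 66696197940) (nat_lit 113) (nat_lit 5) (nat_lit 123) (nat_lit 5) (nat_lit 124) (nat_lit 5) (nat_lit 432) (nat_lit 426) (nat_lit 162)) (XT.lf (nat_lit 76) (nat_lit 24121073836) (nat_lit 0) (nat_lit 107336108858) (nat_lit 836) (nat_lit 190946570872) (nat_lit 114) (nat_lit 5) (nat_lit 113) (nat_lit 5) (nat_lit 124) (nat_lit 5) (nat_lit 433) (nat_lit 426) (nat_lit 161))))))) (XT.nd (nat_lit 1014) (nat_lit 2052) (nat_lit 0) (XT.nd (nat_lit 468) (nat_lit 1064) (nat_lit 0) (XT.nd (nat_lit 234) (nat_lit 1064) (nat_lit 0) (XT.nd (nat_lit 78) (nat_lit 0) (nat_lit 0) (XT.lf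 (nat_lit 0) (nat_lit 153576997127) (nat_lit 760) (nat_lit 136500628999) (nat_lit 836) (nat_lit 40835504322) (nat_lit 114) (nat_lit 5) (nat_lit 124) (nat_lit 5) (nat_lit 125) (nat_lit 5) (nat_lit 434) (nat_lit 426) (nat_lit 160)) (XT.nd (nat_lit 78) (nat_lit 0) (nat_lit 76) (XT.lf (nat_lit 76) (nat_lit 32656081256) (nat_lit 0) (nat_lit 146416141910) (nat_lit 836) (nat_lit 160662281993) (nat_lit 115) (nat_lit 5) (nat_lit 114) (nat_lit 5) (nat_lit 125) (nat_lit 5) (nat_lit 435) (nat_lit 426) (nat_lit 159)) (XT.lf (nat_lit 0) (nat_lit 208260912600) (nat_lit 760) (nat_lit 133978814292) (nat_lit 76) (nat_lit 6636286635) (nat_lit 115) (nat_lit 5) (nat_lit 125) (nat_lit 5) (nat_lit 116) (nat_lit 5) (nat_lit 436) (nat_lit 426) (nat_lit 158)))) (XT.nd (nat_lit 78) (nat_lit 380) (nat_lit 0) (XT.lf (nat_lit 0) (nat_lit 46875796308) (nat_lit 760) (nat_lit 195165330329) (nat_lit 836) (nat_lit 116276866196)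 (nat_lit 105) (nat_lit 5) (nat_lit 115) (nat_lit 5) (nat_lit 116) (nat_lit 5) (nat_lit 437) (nat_lit 426) (nat_lit 157)) (XT.nd (nat_lit 78) (nat_lit 380) (nat_lit 0) (XT.lf (nat_lit 0) (nat_lit 241424546777) (nat_lit 760) (nat_lit 38354764863) (nat_lit 836) (nat_lit 88339311475) (nat_lit 105) (nat_lit 5) (nat_lit 115) (nat_lit 5) (nat_lit 116) (nat_lit 5) (nat_lit 438) (nat_lit 426) (nat_lit 156)) (XT.lf (nat_lit 0) (nat_lit 67479337653) (nat_lit 380) (nat_lit 254950415418) (nat_lit 456) (nat_lit 55828264504) (nat_lit 100) (nat_lit 5) (nat_lit 105) (nat_lit 5) (nat_lit 106) (nat_lit 5) (nat_lit 439) (nat_lit 426) (nat_lit 155))))) (XT.nd (nat_lit 234) (nat_lit 684) (nat_lit 0) (XT.nd (nat_lit 78) (nat_lit 380) (nat_lit 0) (XT.lf (nat_lit 0) (nat_lit 275110365834) (nat_lit 380) (nat_lit 94866568551) (nat_lit 456) (nat_lit 18789236505) (nat_lit 100) (nat_lit 5) (nat_lit 105) (nat_lit 5) (nat_lit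 106) (nat_lit 5) (nat_lit 440) (nat_lit 426) (nat_lit 154)) (XT.nd (nat_lit 78) (nat_lit 0) (nat_lit 0) (XT.lf (nat_lit 0) (nat_lit 22131410287) (nat_lit 380) (nat_lit 304797317769) (nat_lit 76) (nat_lit 72721659171) (nat_lit 95) (nat_lit 5) (nat_lit 100) (nat_lit 5) (nat_lit 96) (nat_lit 5) (nat_lit 441) (nat_lit 426) (nat_lit 153)) (XT.lf (nat_lit 0) (nat_lit 67978177070) (nat_lit 380) (nat_lit 95144110088) (nat_lit 76) (nat_lit 247765549770) (nat_lit 95) (nat_lit 5) (nat_lit 100) (nat_lit 5) (nat_lit 96) (nat_lit 5) (nat_lit 442) (nat_lit 426) (nat_lit 152)))) (XT.nd (nat_lit 156) (nat_lit 304) (nat_lit 0) (XT.nd (nat_lit 78) (nat_lit 0) (nat_lit 0) (XT.lf (nat_lit 0) (nat_lit 118304852910) (nat_lit 456) (nat_lit 293633447670) (nat_lit 76) (nat_lit 10639480014) (nat_lit 90) (nat_lit 5) (nat_lit 96) (nat_lit 5) (nat_lit 91) (nat_lit 5) (nat_lit 443) (nat_lit 426) (nat_lit 151)) (XT.lf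 (nat_lit 0) (nat_lit 175459696377) (nat_lit 456) (nat_lit 69931852091) (nat_lit 76) (nat_lit 189245081303) (nat_lit 90) (nat_lit 5) (nat_lit 96) (nat_lit 5) (nat_lit 91) (nat_lit 5) (nat_lit 444) (nat_lit 426) (nat_lit 150))) (XT.nd (nat_lit 78) (nat_lit 0) (nat_lit 0) (XT.lf (nat_lit 0) (nat_lit 170408943025) (nat_lit 304) (nat_lit 67723873013) (nat_lit 380) (nat_lit 209032578682) (nat_lit 86) (nat_lit 5) (nat_lit 90) (nat_lit 5) (nat_lit 91) (nat_lit 5) (nat_lit 445) (nat_lit 426) (nat_lit 149)) (XT.lf (nat_lit 0) (nat_lit 306998535682) (nat_lit 380) (nat_lit 36941399590) (nat_lit 76) (nat_lit 116227715461) (nat_lit 86) (nat_lit 5) (nat_lit 91) (nat_lit 5) (nat_lit 87) (nat_lit 5) (nat_lit 446) (nat_lit 426) (nat_lit 148)))))) (XT.nd (nat_lit 468) (nat_lit 912) (nat_lit 0) (XT.nd (nat_lit 234) (nat_lit 532) (nat_lit 0) (XT.nd (nat_lit 78) (nat_lit 304) (nat_lit 0) (XT.lf (nat_lit 0) (nat_lit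 220821825236) (nat_lit 304) (nat_lit 163043565913) (nat_lit 380) (nat_lit 89726735921) (nat_lit 82) (nat_lit 5) (nat_lit 86) (nat_lit 5) (nat_lit 87) (nat_lit 5) (nat_lit 447) (nat_lit 426) (nat_lit 147)) (XT.nd (nat_lit 78) (nat_lit 76) (nat_lit 0) (XT.lf (nat_lit 0) (nat_lit 4823329830) (nat_lit 228) (nat_lit 460883364593) (nat_lit 304) (nat_lit 21924577563) (nat_lit 79) (nat_lit 5) (nat_lit 82) (nat_lit 5) (nat_lit 83) (nat_lit 5) (nat_lit 448) (nat_lit 426) (nat_lit 146)) (XT.lf (nat_lit 0) (nat_lit 54714600366) (nat_lit 304) (nat_lit 221598337386) (nat_lit 76) (nat_lit 225669786805) (nat_lit 78) (nat_lit 5) (nat_lit 82) (nat_lit 5) (nat_lit 79) (nat_lit 5) (nat_lit 449) (nat_lit 426) (nat_lit 145)))) (XT.nd (nat_lit 78) (nat_lit 228) (nat_lit 0) (XT.lf (nat_lit 0) (nat_lit 54041979725) (nat_lit 304) (nat_lit 81250671622) (nat_lit 380) (nat_lit 381698941270) (nat_lit 74) (nat_lit 5)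 (nat_lit 78) (nat_lit 5) (nat_lit 79) (nat_lit 5) (nat_lit 450) (nat_lit 426) (nat_lit 144)) (XT.nd (nat_lit 78) (nat_lit 228) (nat_lit 0) (XT.lf (nat_lit 0) (nat_lit 225643171380) (nat_lit 380) (nat_lit 183396297661) (nat_lit 76) (nat_lit 123424256725) (nat_lit 74) (nat_lit 5) (nat_lit 79) (nat_lit 5) (nat_lit 75) (nat_lit 5) (nat_lit 451) (nat_lit 426) (nat_lit 143)) (XT.lf (nat_lit 0) (nat_lit 112400184393) (nat_lit 228) (nat_lit 211197871709) (nat_lit 304) (nat_lit 224957067548) (nat_lit 71) (nat_lit 5) (nat_lit 74) (nat_lit 5) (nat_lit 75) (nat_lit 5) (nat_lit 452) (nat_lit 426) (nat_lit 142))))) (XT.nd (nat_lit 234) (nat_lit 608) (nat_lit 0) (XT.nd (nat_lit 78) (nat_lit 304) (nat_lit 0) (XT.lf (nat_lit 0) (nat_lit 429353567778) (nat_lit 228) (nat_lit 203001488) (nat_lit 304) (nat_lit 135739227962) (nat_lit 71) (nat_lit 5) (nat_lit 74) (nat_lit 5) (nat_lit 75) (nat_lit 5) (nat_lit 453)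 (nat_lit 426) (nat_lit 141)) (XT.nd (nat_lit 78) (nat_lit 76) (nat_lit 0) (XT.lf (nat_lit 0) (nat_lit 181638904611) (nat_lit 228) (nat_lit 365465738748) (nat_lit 304) (nat_lit 35454279373) (nat_lit 68) (nat_lit 5) (nat_lit 71) (nat_lit 5) (nat_lit 72) (nat_lit 5) (nat_lit 454) (nat_lit 426) (nat_lit 140)) (XT.lf (nat_lit 0) (nat_lit 69952740457) (nat_lit 304) (nat_lit 81882961945) (nat_lit 76) (nat_lit 448677813507) (nat_lit 67) (nat_lit 5) (nat_lit 71) (nat_lit 5) (nat_lit 68) (nat_lit 5) (nat_lit 455) (nat_lit 426) (nat_lit 139)))) (XT.nd (nat_lit 156) (nat_lit 380) (nat_lit 0) (XT.nd (nat_lit 78) (nat_lit 0) (nat_lit 0) (XT.lf (nat_lit 0) (nat_lit 184719424367) (nat_lit 304) (nat_lit 359466669049) (nat_lit 76) (nat_lit 74886643984) (nat_lit 64) (nat_lit 5) (nat_lit 68) (nat_lit 5) (nat_lit 65) (nat_lit 5) (nat_lit 456) (nat_lit 426) (nat_lit 138)) (XT.lf (nat_lit 0) (nat_lit 309122994722)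 (nat_lit 304) (nat_lit 19990111922) (nat_lit 76) (nat_lit 309251885718) (nat_lit 64) (nat_lit 5) (nat_lit 68) (nat_lit 5) (nat_lit 65) (nat_lit 5) (nat_lit 457) (nat_lit 426) (nat_lit 137))) (XT.nd (nat_lit 78) (nat_lit 152) (nat_lit 0) (XT.lf (nat_lit 0) (nat_lit 347585142695) (nat_lit 228) (nat_lit 97588361516) (nat_lit 304) (nat_lit 213177017838) (nat_lit 61) (nat_lit 5) (nat_lit 64) (nat_lit 5) (nat_lit 65) (nat_lit 5) (nat_lit 458) (nat_lit 426) (nat_lit 136)) (XT.lf (nat_lit 0) (nat_lit 54377762836) (nat_lit 152) (nat_lit 537113700258) (nat_lit 228) (nat_lit 87670618937) (nat_lit 59) (nat_lit 5) (nat_lit 61) (nat_lit 5) (nat_lit 62) (nat_lit 5) (nat_lit 459) (nat_lit 426) (nat_lit 135))))))))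
noncomputable def xc249 : XT := (XT.nd (nat_lit 52416) (nat_lit 0) (nat_lit 76) (XT.nd (nat_lit 51402) (nat_lit 0) (nat_lit 1520) (XT.nd (nat_lit 50934) (nat_lit 0) (nat_lit 4104) (XT.nd (nat_lit 50700) (nat_lit 0) (nat_lit 4028) (XT.nd (nat_lit 50544) (nat_lit 0) (nat_lit 3952) (XT.lf (nat_lit 0) (nat_lit 49648301462) (nat_lit 228) (nat_lit 254558748814) (nat_lit 76) (nat_lit 396425283238) (nat_lit 58) (nat_lit 5) (nat_lit 61) (nat_lit 5) (nat_lit 59) (nat_lit 5) (nat_lit 460) (nat_lit 426) (nat_lit 134)) (XT.nd (nat_lit 78) (nat_lit 0) (nat_lit 0) (XT.lf (nat_lit 0) (nat_lit 32088323279) (nat_lit 836) (nat_lit 54904987847) (nat_lit 836) (nat_lit 54904987847) (nat_lit 110) (nat_lit 3) (nat_lit 121) (nat_lit 3) (nat_lit 121) (nat_lit 5) (nat_lit 427) (nat_lit 427) (nat_lit 166)) (XT.lf (nat_lit 76) (nat_lit 27817961819) (nat_lit 0) (nat_lit 38398207582) (nat_lit 836) (nat_lit 224653587605)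 (nat_lit 111) (nat_lit 5) (nat_lit 110) (nat_lit 3) (nat_lit 121) (nat_lit 5) (nat_lit 428) (nat_lit 427) (nat_lit 165)))) (XT.nd (nat_lit 78) (nat_lit 0) (nat_lit 0) (XT.lf (nat_lit 0) (nat_lit 71871046711) (nat_lit 760) (nat_lit 123717713471) (nat_lit 836) (nat_lit 102532144952) (nat_lit 111) (nat_lit 5) (nat_lit 121) (nat_lit 5) (nat_lit 122) (nat_lit 5) (nat_lit 429) (nat_lit 427) (nat_lit 164)) (XT.nd (nat_lit 78) (nat_lit 0) (nat_lit 76) (XT.lf (nat_lit 76) (nat_lit 22679448542) (nat_lit 0) (nat_lit 56112739668) (nat_lit 836) (nat_lit 226893246478) (nat_lit 112) (nat_lit 5) (nat_lit 111) (nat_lit 5) (nat_lit 122) (nat_lit 5) (nat_lit 430) (nat_lit 427) (nat_lit 163)) (XT.lf (nat_lit 0) (nat_lit 89599322893) (nat_lit 760) (nat_lit 134276555449) (nat_lit 836) (nat_lit 89575315604) (nat_lit 112) (nat_lit 5) (nat_lit 122) (nat_lit 5) (nat_lit 123) (nat_lit 5) (nat_lit 431) (nat_lit 427)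 (nat_lit 162))))) (XT.nd (nat_lit 234) (nat_lit 0) (nat_lit 152) (XT.nd (nat_lit 78) (nat_lit 0) (nat_lit 76) (XT.lf (nat_lit 76) (nat_lit 21662780418) (nat_lit 0) (nat_lit 80542087667) (nat_lit 836) (nat_lit 219337470423) (nat_lit 113) (nat_lit 5) (nat_lit 112) (nat_lit 5) (nat_lit 123) (nat_lit 5) (nat_lit 432) (nat_lit 427) (nat_lit 161)) (XT.nd (nat_lit 78) (nat_lit 0) (nat_lit 0) (XT.lf (nat_lit 0) (nat_lit 118844212791) (nat_lit 760) (nat_lit 140993033897) (nat_lit 836) (nat_lit 70030617528) (nat_lit 113) (nat_lit 5) (nat_lit 123) (nat_lit 5) (nat_lit 124) (nat_lit 5) (nat_lit 433) (nat_lit 427) (nat_lit 160)) (XT.lf (nat_lit 76) (nat_lit 25328081173) (nat_lit 0) (nat_lit 112703207911) (nat_lit 836) (nat_lit 200492588937) (nat_lit 114) (nat_lit 5) (nat_lit 113) (nat_lit 5) (nat_lit 124) (nat_lit 5) (nat_lit 434) (nat_lit 427) (nat_lit 159)))) (XT.nd (nat_lit 78) (nat_lit 0) (nat_lit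 0) (XT.lf (nat_lit 0) (nat_lit 161257030480) (nat_lit 760) (nat_lit 143324687637) (nat_lit 836) (nat_lit 42877008860) (nat_lit 114) (nat_lit 5) (nat_lit 124) (nat_lit 5) (nat_lit 125) (nat_lit 5) (nat_lit 435) (nat_lit 427) (nat_lit 158)) (XT.nd (nat_lit 78) (nat_lit 0) (nat_lit 76) (XT.lf (nat_lit 76) (nat_lit 34289842441) (nat_lit 0) (nat_lit 153737133967) (nat_lit 836) (nat_lit 168694196125) (nat_lit 115) (nat_lit 5) (nat_lit 114) (nat_lit 5) (nat_lit 125) (nat_lit 5) (nat_lit 436) (nat_lit 427) (nat_lit 157)) (XT.lf (nat_lit 0) (nat_lit 218675043178) (nat_lit 760) (nat_lit 140676785584) (nat_lit 76) (nat_lit 6967930451) (nat_lit 115) (nat_lit 5) (nat_lit 125) (nat_lit 5) (nat_lit 116) (nat_lit 5) (nat_lit 437) (nat_lit 427) (nat_lit 156)))))) (XT.nd (nat_lit 468) (nat_lit 1292) (nat_lit 0) (XT.nd (nat_lit 234) (nat_lit 380) (nat_lit 0) (XT.nd (nat_lit 78) (nat_lit 380) (nat_lit 0) (XT.lf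 (nat_lit 0) (nat_lit 49220539911) (nat_lit 760) (nat_lit 204923691232) (nat_lit 836) (nat_lit 122089608214) (nat_lit 105) (nat_lit 5) (nat_lit 115) (nat_lit 5) (nat_lit 116) (nat_lit 5) (nat_lit 438) (nat_lit 427) (nat_lit 155)) (XT.nd (nat_lit 78) (nat_lit 380) (nat_lit 0) (XT.lf (nat_lit 0) (nat_lit 253496682485) (nat_lit 760) (nat_lit 40272592998) (nat_lit 836) (nat_lit 92755228200) (nat_lit 105) (nat_lit 5) (nat_lit 115) (nat_lit 5) (nat_lit 116) (nat_lit 5) (nat_lit 439) (nat_lit 427) (nat_lit 154)) (XT.lf (nat_lit 0) (nat_lit 70854249406) (nat_lit 380) (nat_lit 267697955459) (nat_lit 456) (nat_lit 58618664739) (nat_lit 100) (nat_lit 5) (nat_lit 105) (nat_lit 5) (nat_lit 106) (nat_lit 5) (nat_lit 440) (nat_lit 427) (nat_lit 153)))) (XT.nd (nat_lit 78) (nat_lit 380) (nat_lit 0) (XT.lf (nat_lit 0) (nat_lit 288866784002) (nat_lit 380) (nat_lit 99609915331) (nat_lit 456) (nat_lit 19727733578)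 (nat_lit 100) (nat_lit 5) (nat_lit 105) (nat_lit 5) (nat_lit 106) (nat_lit 5) (nat_lit 441) (nat_lit 427) (nat_lit 152)) (XT.nd (nat_lit 78) (nat_lit 0) (nat_lit 0) (XT.lf (nat_lit 0) (nat_lit 23238884709) (nat_lit 380) (nat_lit 320036221798) (nat_lit 76) (nat_lit 76357754332) (nat_lit 95) (nat_lit 5) (nat_lit 100) (nat_lit 5) (nat_lit 96) (nat_lit 5) (nat_lit 442) (nat_lit 427) (nat_lit 151)) (XT.lf (nat_lit 0) (nat_lit 71377946787) (nat_lit 380) (nat_lit 99900399535) (nat_lit 76) (nat_lit 260153838880) (nat_lit 95) (nat_lit 5) (nat_lit 100) (nat_lit 5) (nat_lit 96) (nat_lit 5) (nat_lit 443) (nat_lit 427) (nat_lit 150))))) (XT.nd (nat_lit 234) (nat_lit 608) (nat_lit 0) (XT.nd (nat_lit 78) (nat_lit 304) (nat_lit 0) (XT.lf (nat_lit 0) (nat_lit 124220930549) (nat_lit 456) (nat_lit 308314177623) (nat_lit 76) (nat_lit 11171519199) (nat_lit 90) (nat_lit 5) (nat_lit 96) (nat_lit 5) (nat_lit 91)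 (nat_lit 5) (nat_lit 444) (nat_lit 427) (nat_lit 149)) (XT.nd (nat_lit 78) (nat_lit 304) (nat_lit 0) (XT.lf (nat_lit 0) (nat_lit 184233476427) (nat_lit 456) (nat_lit 73427547143) (nat_lit 76) (nat_lit 198707397448) (nat_lit 90) (nat_lit 5) (nat_lit 96) (nat_lit 5) (nat_lit 91) (nat_lit 5) (nat_lit 445) (nat_lit 427) (nat_lit 148)) (XT.lf (nat_lit 0) (nat_lit 178930273253) (nat_lit 304) (nat_lit 71109954739) (nat_lit 380) (nat_lit 219483397451) (nat_lit 86) (nat_lit 5) (nat_lit 90) (nat_lit 5) (nat_lit 91) (nat_lit 5) (nat_lit 446) (nat_lit 427) (nat_lit 147)))) (XT.nd (nat_lit 156) (nat_lit 304) (nat_lit 0) (XT.nd (nat_lit 78) (nat_lit 304) (nat_lit 0) (XT.lf (nat_lit 0) (nat_lit 322349198560) (nat_lit 380) (nat_lit 38787593052) (nat_lit 76) (nat_lit 122039204418) (nat_lit 86) (nat_lit 5) (nat_lit 91) (nat_lit 5) (nat_lit 87) (nat_lit 5) (nat_lit 447) (nat_lit 427) (nat_lit 146)) (XT.lf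 (nat_lit 0) (nat_lit 231863778878) (nat_lit 304) (nat_lit 171195596335) (nat_lit 380) (nat_lit 94212322071) (nat_lit 82) (nat_lit 5) (nat_lit 86) (nat_lit 5) (nat_lit 87) (nat_lit 5) (nat_lit 448) (nat_lit 427) (nat_lit 145))) (XT.nd (nat_lit 78) (nat_lit 76) (nat_lit 0) (XT.lf (nat_lit 0) (nat_lit 5065378077) (nat_lit 228) (nat_lit 483927347514) (nat_lit 304) (nat_lit 23020074777) (nat_lit 79) (nat_lit 5) (nat_lit 82) (nat_lit 5) (nat_lit 83) (nat_lit 5) (nat_lit 449) (nat_lit 427) (nat_lit 144)) (XT.lf (nat_lit 0) (nat_lit 57451004905) (nat_lit 304) (nat_lit 232677391827) (nat_lit 76) (nat_lit 236953429969) (nat_lit 78) (nat_lit 5) (nat_lit 82) (nat_lit 5) (nat_lit 79) (nat_lit 5) (nat_lit 450) (nat_lit 427) (nat_lit 143))))))) (XT.nd (nat_lit 51558) (nat_lit 0) (nat_lit 2736) (XT.nd (nat_lit 468) (nat_lit 608) (nat_lit 0) (XT.nd (nat_lit 234) (nat_lit 304) (nat_lit 0) (XT.nd (nat_lit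 78) (nat_lit 228) (nat_lit 0) (XT.lf (nat_lit 0) (nat_lit 56744927228) (nat_lit 304) (nat_lit 85313012333) (nat_lit 380) (nat_lit 400783199563) (nat_lit 74) (nat_lit 5) (nat_lit 78) (nat_lit 5) (nat_lit 79) (nat_lit 5) (nat_lit 451) (nat_lit 427) (nat_lit 142)) (XT.nd (nat_lit 78) (nat_lit 228) (nat_lit 0) (XT.lf (nat_lit 0) (nat_lit 236925957243) (nat_lit 380) (nat_lit 192565275755) (nat_lit 76) (nat_lit 129595647367) (nat_lit 74) (nat_lit 5) (nat_lit 79) (nat_lit 5) (nat_lit 75) (nat_lit 5) (nat_lit 452) (nat_lit 427) (nat_lit 141)) (XT.lf (nat_lit 0) (nat_lit 118021016905) (nat_lit 228) (nat_lit 221757552278) (nat_lit 304) (nat_lit 236204279826) (nat_lit 71) (nat_lit 5) (nat_lit 74) (nat_lit 5) (nat_lit 75) (nat_lit 5) (nat_lit 453) (nat_lit 427) (nat_lit 140)))) (XT.nd (nat_lit 78) (nat_lit 304) (nat_lit 0) (XT.lf (nat_lit 0) (nat_lit 450822030255) (nat_lit 228) (nat_lit 212948690) (nat_lit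 304) (nat_lit 142525578789) (nat_lit 71) (nat_lit 5) (nat_lit 74) (nat_lit 5) (nat_lit 75) (nat_lit 5) (nat_lit 454) (nat_lit 427) (nat_lit 139)) (XT.nd (nat_lit 78) (nat_lit 76) (nat_lit 0) (XT.lf (nat_lit 0) (nat_lit 190721647049) (nat_lit 228) (nat_lit 383738797480) (nat_lit 304) (nat_lit 37226395609) (nat_lit 68) (nat_lit 5) (nat_lit 71) (nat_lit 5) (nat_lit 72) (nat_lit 5) (nat_lit 455) (nat_lit 427) (nat_lit 138)) (XT.lf (nat_lit 0) (nat_lit 73450928529) (nat_lit 304) (nat_lit 85976332322) (nat_lit 76) (nat_lit 471111903046) (nat_lit 67) (nat_lit 5) (nat_lit 71) (nat_lit 5) (nat_lit 68) (nat_lit 5) (nat_lit 456) (nat_lit 427) (nat_lit 137))))) (XT.nd (nat_lit 234) (nat_lit 152) (nat_lit 0) (XT.nd (nat_lit 78) (nat_lit 228) (nat_lit 0) (XT.lf (nat_lit 0) (nat_lit 193955935907) (nat_lit 304) (nat_lit 377439213812) (nat_lit 76) (nat_lit 78631197293) (nat_lit 64) (nat_lit 5) (nat_lit 68)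 (nat_lit 5) (nat_lit 65) (nat_lit 5) (nat_lit 457) (nat_lit 427) (nat_lit 136)) (XT.nd (nat_lit 78) (nat_lit 228) (nat_lit 0) (XT.lf (nat_lit 0) (nat_lit 324579659050) (nat_lit 304) (nat_lit 20988866385) (nat_lit 76) (nat_lit 324714690584) (nat_lit 64) (nat_lit 5) (nat_lit 68) (nat_lit 5) (nat_lit 65) (nat_lit 5) (nat_lit 458) (nat_lit 427) (nat_lit 135)) (XT.lf (nat_lit 0) (nat_lit 364965138847) (nat_lit 228) (nat_lit 102467542200) (nat_lit 304) (nat_lit 223835341803) (nat_lit 61) (nat_lit 5) (nat_lit 64) (nat_lit 5) (nat_lit 65) (nat_lit 5) (nat_lit 459) (nat_lit 427) (nat_lit 134)))) (XT.nd (nat_lit 50700) (nat_lit 0) (nat_lit 3876) (XT.nd (nat_lit 50622) (nat_lit 0) (nat_lit 3876) (XT.lf (nat_lit 0) (nat_lit 57097399322) (nat_lit 152) (nat_lit 563969129879) (nat_lit 228) (nat_lit 92053632074) (nat_lit 59) (nat_lit 5) (nat_lit 61) (nat_lit 5) (nat_lit 62) (nat_lit 5) (nat_lit 460) (nat_lit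 427) (nat_lit 133)) (XT.lf (nat_lit 0) (nat_lit 33693517438) (nat_lit 836) (nat_lit 57649828517) (nat_lit 836) (nat_lit 57649828517) (nat_lit 110) (nat_lit 3) (nat_lit 121) (nat_lit 3) (nat_lit 121) (nat_lit 5) (nat_lit 428) (nat_lit 428) (nat_lit 164))) (XT.nd (nat_lit 78) (nat_lit 0) (nat_lit 76) (XT.lf (nat_lit 76) (nat_lit 29209664170) (nat_lit 0) (nat_lit 40318808153) (nat_lit 836) (nat_lit 235884696764) (nat_lit 111) (nat_lit 5) (nat_lit 110) (nat_lit 3) (nat_lit 121) (nat_lit 5) (nat_lit 429) (nat_lit 428) (nat_lit 163)) (XT.lf (nat_lit 0) (nat_lit 75466012072) (nat_lit 760) (nat_lit 129902750760) (nat_lit 836) (nat_lit 107658115912) (nat_lit 111) (nat_lit 5) (nat_lit 121) (nat_lit 5) (nat_lit 122) (nat_lit 5) (nat_lit 430) (nat_lit 428) (nat_lit 162)))))) (XT.nd (nat_lit 468) (nat_lit 1216) (nat_lit 0) (XT.nd (nat_lit 234) (nat_lit 0) (nat_lit 152) (XT.nd (nat_lit 78) (nat_lit 0)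 (nat_lit 76) (XT.lf (nat_lit 76) (nat_lit 23814255671) (nat_lit 0) (nat_lit 58918900720) (nat_lit 836) (nat_lit 238236481144) (nat_lit 112) (nat_lit 5) (nat_lit 111) (nat_lit 5) (nat_lit 122) (nat_lit 5) (nat_lit 431) (nat_lit 428) (nat_lit 161)) (XT.nd (nat_lit 78) (nat_lit 0) (nat_lit 0) (XT.lf (nat_lit 0) (nat_lit 94080575311) (nat_lit 760) (nat_lit 140989514868) (nat_lit 836) (nat_lit 94053598246) (nat_lit 112) (nat_lit 5) (nat_lit 122) (nat_lit 5) (nat_lit 123) (nat_lit 5) (nat_lit 432) (nat_lit 428) (nat_lit 160)) (XT.lf (nat_lit 76) (nat_lit 22746773787) (nat_lit 0) (nat_lit 84569576065) (nat_lit 836) (nat_lit 230303042803) (nat_lit 113) (nat_lit 5) (nat_lit 112) (nat_lit 5) (nat_lit 123) (nat_lit 5) (nat_lit 433) (nat_lit 428) (nat_lit 159)))) (XT.nd (nat_lit 78) (nat_lit 0) (nat_lit 0) (XT.lf (nat_lit 0) (nat_lit 124787597113) (nat_lit 760) (nat_lit 148041806428) (nat_lit 836) (nat_lit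 73531794383) (nat_lit 113) (nat_lit 5) (nat_lit 123) (nat_lit 5) (nat_lit 124) (nat_lit 5) (nat_lit 434) (nat_lit 428) (nat_lit 158)) (XT.nd (nat_lit 78) (nat_lit 0) (nat_lit 76) (XT.lf (nat_lit 76) (nat_lit 26595350215) (nat_lit 0) (nat_lit 118338634620) (nat_lit 836) (nat_lit 210516029740) (nat_lit 114) (nat_lit 5) (nat_lit 113) (nat_lit 5) (nat_lit 124) (nat_lit 5) (nat_lit 435) (nat_lit 428) (nat_lit 157)) (XT.lf (nat_lit 0) (nat_lit 169320955470) (nat_lit 760) (nat_lit 150490039649) (nat_lit 836) (nat_lit 45020613789) (nat_lit 114) (nat_lit 5) (nat_lit 124) (nat_lit 5) (nat_lit 125) (nat_lit 5) (nat_lit 436) (nat_lit 428) (nat_lit 156))))) (XT.nd (nat_lit 234) (nat_lit 760) (nat_lit 0) (XT.nd (nat_lit 78) (nat_lit 684) (nat_lit 0) (XT.lf (nat_lit 76) (nat_lit 36005202701) (nat_lit 0) (nat_lit 161424158430) (nat_lit 836) (nat_lit 177127817525) (nat_lit 115) (nat_lit 5) (nat_lit 114)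 (nat_lit 5) (nat_lit 125) (nat_lit 5) (nat_lit 437) (nat_lit 428) (nat_lit 155)) (XT.nd (nat_lit 78) (nat_lit 760) (nat_lit 0) (XT.lf (nat_lit 0) (nat_lit 229609779417) (nat_lit 760) (nat_lit 147709745567) (nat_lit 76) (nat_lit 7316172311) (nat_lit 115) (nat_lit 5) (nat_lit 125) (nat_lit 5) (nat_lit 116) (nat_lit 5) (nat_lit 438) (nat_lit 428) (nat_lit 154)) (XT.lf (nat_lit 0) (nat_lit 51682432020) (nat_lit 760) (nat_lit 215169961406) (nat_lit 836) (nat_lit 128193089721) (nat_lit 105) (nat_lit 5) (nat_lit 115) (nat_lit 5) (nat_lit 116) (nat_lit 5) (nat_lit 439) (nat_lit 428) (nat_lit 153)))) (XT.nd (nat_lit 156) (nat_lit 380) (nat_lit 0) (XT.nd (nat_lit 78) (nat_lit 380) (nat_lit 0) (XT.lf (nat_lit 0) (nat_lit 266172340527) (nat_lit 760) (nat_lit 42286304184) (nat_lit 836) (nat_lit 97392038273) (nat_lit 105) (nat_lit 5) (nat_lit 115) (nat_lit 5) (nat_lit 116) (nat_lit 5) (nat_lit 440) (nat_lit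 428) (nat_lit 152)) (XT.lf (nat_lit 0) (nat_lit 74397818902) (nat_lit 380) (nat_lit 281082870711) (nat_lit 456) (nat_lit 61548679164) (nat_lit 100) (nat_lit 5) (nat_lit 105) (nat_lit 5) (nat_lit 106) (nat_lit 5) (nat_lit 441) (nat_lit 428) (nat_lit 151))) (XT.nd (nat_lit 78) (nat_lit 380) (nat_lit 0) (XT.lf (nat_lit 0) (nat_lit 303310939417) (nat_lit 380) (nat_lit 104590427744) (nat_lit 456) (nat_lit 20713245198) (nat_lit 100) (nat_lit 5) (nat_lit 105) (nat_lit 5) (nat_lit 106) (nat_lit 5) (nat_lit 442) (nat_lit 428) (nat_lit 150)) (XT.lf (nat_lit 0) (nat_lit 24401648815) (nat_lit 380) (nat_lit 336037160453) (nat_lit 76) (nat_lit 80175653116) (nat_lit 95) (nat_lit 5) (nat_lit 100) (nat_lit 5) (nat_lit 96) (nat_lit 5) (nat_lit 443) (nat_lit 428) (nat_lit 149))))))))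
noncomputable def xc250 : XT := (XT.nd (nat_lit 52728) (nat_lit 0) (nat_lit 0) (XT.nd (nat_lit 936) (nat_lit 532) (nat_lit 0) (XT.nd (nat_lit 468) (nat_lit 836) (nat_lit 0) (XT.nd (nat_lit 234) (nat_lit 608) (nat_lit 0) (XT.nd (nat_lit 78) (nat_lit 380) (nat_lit 0) (XT.lf (nat_lit 0) (nat_lit 74947624956) (nat_lit 380) (nat_lit 104894588622) (nat_lit 76) (nat_lit 273161541364) (nat_lit 95) (nat_lit 5) (nat_lit 100) (nat_lit 5) (nat_lit 96) (nat_lit 5) (nat_lit 444) (nat_lit 428) (nat_lit 148)) (XT.nd (nat_lit 78) (nat_lit 0) (nat_lit 0) (XT.lf (nat_lit 0) (nat_lit 130432734441) (nat_lit 456) (nat_lit 323729031692) (nat_lit 76) (nat_lit 11730154283) (nat_lit 90) (nat_lit 5) (nat_lit 96) (nat_lit 5) (nat_lit 91) (nat_lit 5) (nat_lit 445) (nat_lit 428) (nat_lit 147)) (XT.lf (nat_lit 0) (nat_lit 193445871548) (nat_lit 456) (nat_lit 77098110393) (nat_lit 76) (nat_lit 208642823629) (nat_lit 90)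 (nat_lit 5) (nat_lit 96) (nat_lit 5) (nat_lit 91) (nat_lit 5) (nat_lit 446) (nat_lit 428) (nat_lit 146)))) (XT.nd (nat_lit 78) (nat_lit 304) (nat_lit 0) (XT.lf (nat_lit 0) (nat_lit 187877587892) (nat_lit 304) (nat_lit 74665350956) (nat_lit 380) (nat_lit 230456832480) (nat_lit 86) (nat_lit 5) (nat_lit 90) (nat_lit 5) (nat_lit 91) (nat_lit 5) (nat_lit 447) (nat_lit 428) (nat_lit 145)) (XT.nd (nat_lit 78) (nat_lit 304) (nat_lit 0) (XT.lf (nat_lit 0) (nat_lit 338467326147) (nat_lit 380) (nat_lit 40726177678) (nat_lit 76) (nat_lit 128141258229) (nat_lit 86) (nat_lit 5) (nat_lit 91) (nat_lit 5) (nat_lit 87) (nat_lit 5) (nat_lit 448) (nat_lit 428) (nat_lit 144)) (XT.lf (nat_lit 0) (nat_lit 243457750026) (nat_lit 304) (nat_lit 179755242026) (nat_lit 380) (nat_lit 98922257317) (nat_lit 82) (nat_lit 5) (nat_lit 86) (nat_lit 5) (nat_lit 87) (nat_lit 5) (nat_lit 449) (nat_lit 428) (nat_lit 143)))))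 (XT.nd (nat_lit 234) (nat_lit 228) (nat_lit 0) (XT.nd (nat_lit 78) (nat_lit 380) (nat_lit 0) (XT.lf (nat_lit 0) (nat_lit 5319446759) (nat_lit 228) (nat_lit 508123546810) (nat_lit 304) (nat_lit 24170414875) (nat_lit 79) (nat_lit 5) (nat_lit 82) (nat_lit 5) (nat_lit 83) (nat_lit 5) (nat_lit 450) (nat_lit 428) (nat_lit 142)) (XT.nd (nat_lit 78) (nat_lit 304) (nat_lit 0) (XT.lf (nat_lit 0) (nat_lit 60324166960) (nat_lit 304) (nat_lit 244310479172) (nat_lit 76) (nat_lit 248801240989) (nat_lit 78) (nat_lit 5) (nat_lit 82) (nat_lit 5) (nat_lit 79) (nat_lit 5) (nat_lit 451) (nat_lit 428) (nat_lit 141)) (XT.lf (nat_lit 0) (nat_lit 59582943220) (nat_lit 304) (nat_lit 89578488012) (nat_lit 380) (nat_lit 420821734805) (nat_lit 74) (nat_lit 5) (nat_lit 78) (nat_lit 5) (nat_lit 79) (nat_lit 5) (nat_lit 452) (nat_lit 428) (nat_lit 140)))) (XT.nd (nat_lit 78) (nat_lit 228) (nat_lit 0) (XT.lf (nat_lit 0)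 (nat_lit 248772824080) (nat_lit 380) (nat_lit 202192780549) (nat_lit 76) (nat_lit 136075591011) (nat_lit 74) (nat_lit 5) (nat_lit 79) (nat_lit 5) (nat_lit 75) (nat_lit 5) (nat_lit 453) (nat_lit 428) (nat_lit 139)) (XT.nd (nat_lit 78) (nat_lit 0) (nat_lit 0) (XT.lf (nat_lit 0) (nat_lit 123922814502) (nat_lit 228) (nat_lit 232845236680) (nat_lit 304) (nat_lit 248013912320) (nat_lit 71) (nat_lit 5) (nat_lit 74) (nat_lit 5) (nat_lit 75) (nat_lit 5) (nat_lit 454) (nat_lit 428) (nat_lit 138)) (XT.lf (nat_lit 0) (nat_lit 473363842960) (nat_lit 228) (nat_lit 223412114) (nat_lit 304) (nat_lit 149651303922) (nat_lit 71) (nat_lit 5) (nat_lit 74) (nat_lit 5) (nat_lit 75) (nat_lit 5) (nat_lit 455) (nat_lit 428) (nat_lit 137)))))) (XT.nd (nat_lit 51246) (nat_lit 0) (nat_lit 3572) (XT.nd (nat_lit 51012) (nat_lit 0) (nat_lit 3496) (XT.nd (nat_lit 156) (nat_lit 304) (nat_lit 0) (XT.lf (nat_lit 0) (nat_lit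 200258452492) (nat_lit 228) (nat_lit 402925530366) (nat_lit 304) (nat_lit 39087173228) (nat_lit 68) (nat_lit 5) (nat_lit 71) (nat_lit 5) (nat_lit 72) (nat_lit 5) (nat_lit 456) (nat_lit 428) (nat_lit 136)) (XT.nd (nat_lit 78) (nat_lit 0) (nat_lit 0) (XT.lf (nat_lit 0) (nat_lit 203654222790) (nat_lit 304) (nat_lit 396310459138) (nat_lit 76) (nat_lit 82562957710) (nat_lit 64) (nat_lit 5) (nat_lit 68) (nat_lit 5) (nat_lit 65) (nat_lit 5) (nat_lit 458) (nat_lit 428) (nat_lit 134)) (XT.lf (nat_lit 0) (nat_lit 340809108753) (nat_lit 304) (nat_lit 22037628405) (nat_lit 76) (nat_lit 340950616116) (nat_lit 64) (nat_lit 5) (nat_lit 68) (nat_lit 5) (nat_lit 65) (nat_lit 5) (nat_lit 459) (nat_lit 428) (nat_lit 133)))) (XT.nd (nat_lit 78) (nat_lit 0) (nat_lit 0) (XT.lf (nat_lit 0) (nat_lit 35378898975) (nat_lit 836) (nat_lit 60531949220) (nat_lit 836) (nat_lit 60531949220) (nat_lit 110) (nat_lit 3) (nat_lit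 121) (nat_lit 3) (nat_lit 121) (nat_lit 5) (nat_lit 429) (nat_lit 429) (nat_lit 162)) (XT.nd (nat_lit 78) (nat_lit 0) (nat_lit 76) (XT.lf (nat_lit 76) (nat_lit 30670876865) (nat_lit 0) (nat_lit 42335374586) (nat_lit 836) (nat_lit 247677507365) (nat_lit 111) (nat_lit 5) (nat_lit 110) (nat_lit 3) (nat_lit 121) (nat_lit 5) (nat_lit 430) (nat_lit 429) (nat_lit 161)) (XT.lf (nat_lit 0) (nat_lit 79240594331) (nat_lit 760) (nat_lit 136397118787) (nat_lit 836) (nat_lit 113040444576) (nat_lit 111) (nat_lit 5) (nat_lit 121) (nat_lit 5) (nat_lit 122) (nat_lit 5) (nat_lit 431) (nat_lit 429) (nat_lit 160))))) (XT.nd (nat_lit 234) (nat_lit 0) (nat_lit 152) (XT.nd (nat_lit 78) (nat_lit 0) (nat_lit 76) (XT.lf (nat_lit 76) (nat_lit 25005725553) (nat_lit 0) (nat_lit 61865321102) (nat_lit 836) (nat_lit 250147010274) (nat_lit 112) (nat_lit 5) (nat_lit 111) (nat_lit 5) (nat_lit 122) (nat_lit 5) (nat_lit 432)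 (nat_lit 429) (nat_lit 159)) (XT.nd (nat_lit 78) (nat_lit 0) (nat_lit 0) (XT.lf (nat_lit 0) (nat_lit 98785770766) (nat_lit 760) (nat_lit 148038202989) (nat_lit 836) (nat_lit 98755839938) (nat_lit 112) (nat_lit 5) (nat_lit 122) (nat_lit 5) (nat_lit 123) (nat_lit 5) (nat_lit 433) (nat_lit 429) (nat_lit 158)) (XT.lf (nat_lit 76) (nat_lit 23884887396) (nat_lit 0) (nat_lit 88798403180) (nat_lit 836) (nat_lit 241817014770) (nat_lit 113) (nat_lit 5) (nat_lit 112) (nat_lit 5) (nat_lit 123) (nat_lit 5) (nat_lit 434) (nat_lit 429) (nat_lit 157)))) (XT.nd (nat_lit 156) (nat_lit 0) (nat_lit 76) (XT.nd (nat_lit 78) (nat_lit 0) (nat_lit 0) (XT.lf (nat_lit 0) (nat_lit 131028041533) (nat_lit 760) (nat_lit 155443099321) (nat_lit 836) (nat_lit 77208062994) (nat_lit 113) (nat_lit 5) (nat_lit 123) (nat_lit 5) (nat_lit 124) (nat_lit 5) (nat_lit 435) (nat_lit 429) (nat_lit 156)) (XT.lf (nat_lit 76) (nat_lit 27925902293)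 (nat_lit 0) (nat_lit 124255807905) (nat_lit 836) (nat_lit 221040753093) (nat_lit 114) (nat_lit 5) (nat_lit 113) (nat_lit 5) (nat_lit 124) (nat_lit 5) (nat_lit 436) (nat_lit 429) (nat_lit 155))) (XT.nd (nat_lit 78) (nat_lit 0) (nat_lit 0) (XT.lf (nat_lit 0) (nat_lit 177787976909) (nat_lit 760) (nat_lit 158013741296) (nat_lit 836) (nat_lit 47271421790) (nat_lit 114) (nat_lit 5) (nat_lit 124) (nat_lit 5) (nat_lit 125) (nat_lit 5) (nat_lit 437) (nat_lit 429) (nat_lit 154)) (XT.lf (nat_lit 76) (nat_lit 37806250262) (nat_lit 0) (nat_lit 169495518520) (nat_lit 836) (nat_lit 185983221184) (nat_lit 115) (nat_lit 5) (nat_lit 114) (nat_lit 5) (nat_lit 125) (nat_lit 5) (nat_lit 438) (nat_lit 429) (nat_lit 153))))))) (XT.nd (nat_lit 1014) (nat_lit 1140) (nat_lit 0) (XT.nd (nat_lit 468) (nat_lit 1216) (nat_lit 0) (XT.nd (nat_lit 234) (nat_lit 760) (nat_lit 0) (XT.nd (nat_lit 78) (nat_lit 760) (nat_lit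 0) (XT.lf (nat_lit 0) (nat_lit 241091160977) (nat_lit 760) (nat_lit 155094435299) (nat_lit 76) (nat_lit 7681840643) (nat_lit 115) (nat_lit 5) (nat_lit 125) (nat_lit 5) (nat_lit 116) (nat_lit 5) (nat_lit 439) (nat_lit 429) (nat_lit 152)) (XT.nd (nat_lit 78) (nat_lit 0) (nat_lit 0) (XT.lf (nat_lit 0) (nat_lit 54267338304) (nat_lit 760) (nat_lit 225928537129) (nat_lit 836) (nat_lit 134601838172) (nat_lit 105) (nat_lit 5) (nat_lit 115) (nat_lit 5) (nat_lit 116) (nat_lit 5) (nat_lit 440) (nat_lit 429) (nat_lit 151)) (XT.lf (nat_lit 0) (nat_lit 279481704871) (nat_lit 760) (nat_lit 44400693348) (nat_lit 836) (nat_lit 102260777295) (nat_lit 105) (nat_lit 5) (nat_lit 115) (nat_lit 5) (nat_lit 116) (nat_lit 5) (nat_lit 441) (nat_lit 429) (nat_lit 150)))) (XT.nd (nat_lit 78) (nat_lit 380) (nat_lit 0) (XT.lf (nat_lit 0) (nat_lit 78118487195) (nat_lit 380) (nat_lit 295137030100) (nat_lit 456) (nat_lit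 64625279733) (nat_lit 100) (nat_lit 5) (nat_lit 105) (nat_lit 5) (nat_lit 106) (nat_lit 5) (nat_lit 442) (nat_lit 429) (nat_lit 149)) (XT.nd (nat_lit 78) (nat_lit 380) (nat_lit 0) (XT.lf (nat_lit 0) (nat_lit 318477226718) (nat_lit 380) (nat_lit 109819964230) (nat_lit 456) (nat_lit 21748113753) (nat_lit 100) (nat_lit 5) (nat_lit 105) (nat_lit 5) (nat_lit 106) (nat_lit 5) (nat_lit 443) (nat_lit 429) (nat_lit 148)) (XT.lf (nat_lit 0) (nat_lit 25622474903) (nat_lit 380) (nat_lit 352838227152) (nat_lit 76) (nat_lit 84184445810) (nat_lit 95) (nat_lit 5) (nat_lit 100) (nat_lit 5) (nat_lit 96) (nat_lit 5) (nat_lit 444) (nat_lit 429) (nat_lit 147))))) (XT.nd (nat_lit 234) (nat_lit 836) (nat_lit 0) (XT.nd (nat_lit 78) (nat_lit 380) (nat_lit 0) (XT.lf (nat_lit 0) (nat_lit 78695714439) (nat_lit 380) (nat_lit 110138564411) (nat_lit 76) (nat_lit 286819627993) (nat_lit 95) (nat_lit 5) (nat_lit 100) (nat_lit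 5) (nat_lit 96) (nat_lit 5) (nat_lit 445) (nat_lit 429) (nat_lit 146)) (XT.nd (nat_lit 78) (nat_lit 0) (nat_lit 0) (XT.lf (nat_lit 0) (nat_lit 136955058114) (nat_lit 456) (nat_lit 339914707936) (nat_lit 76) (nat_lit 12316715624) (nat_lit 90) (nat_lit 5) (nat_lit 96) (nat_lit 5) (nat_lit 91) (nat_lit 5) (nat_lit 446) (nat_lit 429) (nat_lit 145)) (XT.lf (nat_lit 0) (nat_lit 203118819364) (nat_lit 456) (nat_lit 80952277493) (nat_lit 76) (nat_lit 219075015884) (nat_lit 90) (nat_lit 5) (nat_lit 96) (nat_lit 5) (nat_lit 91) (nat_lit 5) (nat_lit 447) (nat_lit 429) (nat_lit 144)))) (XT.nd (nat_lit 156) (nat_lit 532) (nat_lit 0) (XT.nd (nat_lit 78) (nat_lit 0) (nat_lit 0) (XT.lf (nat_lit 0) (nat_lit 197272193795) (nat_lit 304) (nat_lit 78398526423) (nat_lit 380) (nat_lit 241979007579) (nat_lit 86) (nat_lit 5) (nat_lit 90) (nat_lit 5) (nat_lit 91) (nat_lit 5) (nat_lit 448) (nat_lit 429) (nat_lit 143))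 (XT.lf (nat_lit 0) (nat_lit 355391298041) (nat_lit 380) (nat_lit 42761765449) (nat_lit 76) (nat_lit 134548406030) (nat_lit 86) (nat_lit 5) (nat_lit 91) (nat_lit 5) (nat_lit 87) (nat_lit 5) (nat_lit 449) (nat_lit 429) (nat_lit 142))) (XT.nd (nat_lit 78) (nat_lit 228) (nat_lit 0) (XT.lf (nat_lit 0) (nat_lit 255631347009) (nat_lit 304) (nat_lit 188742882471) (nat_lit 380) (nat_lit 103867752626) (nat_lit 82) (nat_lit 5) (nat_lit 86) (nat_lit 5) (nat_lit 87) (nat_lit 5) (nat_lit 450) (nat_lit 429) (nat_lit 141)) (XT.lf (nat_lit 0) (nat_lit 5586144520) (nat_lit 228) (nat_lit 533529571697) (nat_lit 304) (nat_lit 25378333677) (nat_lit 79) (nat_lit 5) (nat_lit 82) (nat_lit 5) (nat_lit 83) (nat_lit 5) (nat_lit 451) (nat_lit 429) (nat_lit 140)))))) (XT.nd (nat_lit 546) (nat_lit 228) (nat_lit 0) (XT.nd (nat_lit 234) (nat_lit 532) (nat_lit 0) (XT.nd (nat_lit 78) (nat_lit 304) (nat_lit 0) (XT.lf (nat_lit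 0) (nat_lit 63340930237) (nat_lit 304) (nat_lit 256525293609) (nat_lit 76) (nat_lit 261241429590) (nat_lit 78) (nat_lit 5) (nat_lit 82) (nat_lit 5) (nat_lit 79) (nat_lit 5) (nat_lit 452) (nat_lit 429) (nat_lit 139)) (XT.nd (nat_lit 78) (nat_lit 0) (nat_lit 0) (XT.lf (nat_lit 0) (nat_lit 62562788458) (nat_lit 304) (nat_lit 94057253738) (nat_lit 380) (nat_lit 441862254892) (nat_lit 74) (nat_lit 5) (nat_lit 78) (nat_lit 5) (nat_lit 79) (nat_lit 5) (nat_lit 453) (nat_lit 429) (nat_lit 138)) (XT.lf (nat_lit 0) (nat_lit 261211981361) (nat_lit 380) (nat_lit 212301731148) (nat_lit 76) (nat_lit 142879516843) (nat_lit 74) (nat_lit 5) (nat_lit 79) (nat_lit 5) (nat_lit 75) (nat_lit 5) (nat_lit 454) (nat_lit 429) (nat_lit 137)))) (XT.nd (nat_lit 78) (nat_lit 304) (nat_lit 0) (XT.lf (nat_lit 0) (nat_lit 130119632552) (nat_lit 228) (nat_lit 244487323266) (nat_lit 304) (nat_lit 260414080502) (nat_lit 71)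 (nat_lit 5) (nat_lit 74) (nat_lit 5) (nat_lit 75) (nat_lit 5) (nat_lit 455) (nat_lit 429) (nat_lit 136)) (XT.nd (nat_lit 156) (nat_lit 304) (nat_lit 0) (XT.lf (nat_lit 0) (nat_lit 497032680179) (nat_lit 228) (nat_lit 234415816) (nat_lit 304) (nat_lit 157133366799) (nat_lit 71) (nat_lit 5) (nat_lit 74) (nat_lit 5) (nat_lit 75) (nat_lit 5) (nat_lit 456) (nat_lit 429) (nat_lit 135)) (XT.lf (nat_lit 0) (nat_lit 80980626862) (nat_lit 304) (nat_lit 94787525868) (nat_lit 76) (nat_lit 519401226107) (nat_lit 67) (nat_lit 5) (nat_lit 71) (nat_lit 5) (nat_lit 68) (nat_lit 5) (nat_lit 458) (nat_lit 429) (nat_lit 133))))) (XT.nd (nat_lit 51012) (nat_lit 0) (nat_lit 3572) (XT.nd (nat_lit 50856) (nat_lit 0) (nat_lit 3496) (XT.lf (nat_lit 0) (nat_lit 213837378454) (nat_lit 304) (nat_lit 416125333238) (nat_lit 76) (nat_lit 86691287503) (nat_lit 64) (nat_lit 5) (nat_lit 68) (nat_lit 5) (nat_lit 65) (nat_lit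 5) (nat_lit 459) (nat_lit 429) (nat_lit 132)) (XT.nd (nat_lit 78) (nat_lit 0) (nat_lit 0) (XT.lf (nat_lit 0) (nat_lit 37148483982) (nat_lit 836) (nat_lit 63558210425) (nat_lit 836) (nat_lit 63558210425) (nat_lit 110) (nat_lit 3) (nat_lit 121) (nat_lit 3) (nat_lit 121) (nat_lit 5) (nat_lit 430) (nat_lit 430) (nat_lit 160)) (XT.lf (nat_lit 76) (nat_lit 32205082375) (nat_lit 0) (nat_lit 44452711138) (nat_lit 836) (nat_lit 260060090909) (nat_lit 111) (nat_lit 5) (nat_lit 110) (nat_lit 3) (nat_lit 121) (nat_lit 5) (nat_lit 431) (nat_lit 430) (nat_lit 159)))) (XT.nd (nat_lit 156) (nat_lit 0) (nat_lit 76) (XT.nd (nat_lit 78) (nat_lit 0) (nat_lit 0) (XT.lf (nat_lit 0) (nat_lit 83203786547) (nat_lit 760) (nat_lit 143216276758) (nat_lit 836) (nat_lit 118691943329) (nat_lit 111) (nat_lit 5) (nat_lit 121) (nat_lit 5) (nat_lit 122) (nat_lit 5) (nat_lit 432) (nat_lit 430) (nat_lit 158)) (XT.lf (nat_lit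 76) (nat_lit 26256698542) (nat_lit 0) (nat_lit 64959018309) (nat_lit 836) (nat_lit 262653186250) (nat_lit 112) (nat_lit 5) (nat_lit 111) (nat_lit 5) (nat_lit 122) (nat_lit 5) (nat_lit 433) (nat_lit 430) (nat_lit 157))) (XT.nd (nat_lit 78) (nat_lit 0) (nat_lit 0) (XT.lf (nat_lit 0) (nat_lit 103726117525) (nat_lit 760) (nat_lit 155439398742) (nat_lit 836) (nat_lit 103693234456) (nat_lit 112) (nat_lit 5) (nat_lit 122) (nat_lit 5) (nat_lit 123) (nat_lit 5) (nat_lit 434) (nat_lit 430) (nat_lit 156)) (XT.lf (nat_lit 76) (nat_lit 25079834640) (nat_lit 0) (nat_lit 93238639268) (nat_lit 836) (nat_lit 253906795057) (nat_lit 113) (nat_lit 5) (nat_lit 112) (nat_lit 5) (nat_lit 123) (nat_lit 5) (nat_lit 435) (nat_lit 430) (nat_lit 155))))))))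
noncomputable def xc251 : XT := (XT.nd (nat_lit 52884) (nat_lit 0) (nat_lit 304) (XT.nd (nat_lit 936) (nat_lit 1748) (nat_lit 0) (XT.nd (nat_lit 468) (nat_lit 1140) (nat_lit 0) (XT.nd (nat_lit 234) (nat_lit 608) (nat_lit 0) (XT.nd (nat_lit 78) (nat_lit 0) (nat_lit 0) (XT.lf (nat_lit 0) (nat_lit 137580409201) (nat_lit 760) (nat_lit 163214530996) (nat_lit 836) (nat_lit 81068174889) (nat_lit 113) (nat_lit 5) (nat_lit 123) (nat_lit 5) (nat_lit 124) (nat_lit 5) (nat_lit 436) (nat_lit 430) (nat_lit 154)) (XT.nd (nat_lit 78) (nat_lit 0) (nat_lit 76) (XT.lf (nat_lit 76) (nat_lit 29322909032) (nat_lit 0) (nat_lit 130468817396) (nat_lit 836) (nat_lit 232091812848) (nat_lit 114) (nat_lit 5) (nat_lit 113) (nat_lit 5) (nat_lit 124) (nat_lit 5) (nat_lit 437) (nat_lit 430) (nat_lit 153)) (XT.lf (nat_lit 0) (nat_lit 186678258898) (nat_lit 760) (nat_lit 165913702434) (nat_lit 836) (nat_lit 49634790895) (nat_lit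 114) (nat_lit 5) (nat_lit 124) (nat_lit 5) (nat_lit 125) (nat_lit 5) (nat_lit 438) (nat_lit 430) (nat_lit 152)))) (XT.nd (nat_lit 78) (nat_lit 684) (nat_lit 0) (XT.lf (nat_lit 76) (nat_lit 39697276994) (nat_lit 0) (nat_lit 177970432467) (nat_lit 836) (nat_lit 195281486809) (nat_lit 115) (nat_lit 5) (nat_lit 114) (nat_lit 5) (nat_lit 125) (nat_lit 5) (nat_lit 439) (nat_lit 430) (nat_lit 151)) (XT.nd (nat_lit 78) (nat_lit 760) (nat_lit 0) (XT.lf (nat_lit 0) (nat_lit 253146528630) (nat_lit 760) (nat_lit 162848433665) (nat_lit 76) (nat_lit 8065805434) (nat_lit 115) (nat_lit 5) (nat_lit 125) (nat_lit 5) (nat_lit 116) (nat_lit 5) (nat_lit 440) (nat_lit 430) (nat_lit 150)) (XT.lf (nat_lit 0) (nat_lit 56981416951) (nat_lit 760) (nat_lit 237225034419) (nat_lit 836) (nat_lit 141331108279) (nat_lit 105) (nat_lit 5) (nat_lit 115) (nat_lit 5) (nat_lit 116) (nat_lit 5) (nat_lit 441) (nat_lit 430) (nat_lit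 149))))) (XT.nd (nat_lit 234) (nat_lit 760) (nat_lit 0) (XT.nd (nat_lit 78) (nat_lit 380) (nat_lit 0) (XT.lf (nat_lit 0) (nat_lit 293456467953) (nat_lit 760) (nat_lit 46620795095) (nat_lit 836) (nat_lit 107373033493) (nat_lit 105) (nat_lit 5) (nat_lit 115) (nat_lit 5) (nat_lit 116) (nat_lit 5) (nat_lit 442) (nat_lit 430) (nat_lit 148)) (XT.nd (nat_lit 78) (nat_lit 0) (nat_lit 0) (XT.lf (nat_lit 0) (nat_lit 82025116631) (nat_lit 380) (nat_lit 309893895985) (nat_lit 456) (nat_lit 67855787810) (nat_lit 100) (nat_lit 5) (nat_lit 105) (nat_lit 5) (nat_lit 106) (nat_lit 5) (nat_lit 443) (nat_lit 430) (nat_lit 147)) (XT.lf (nat_lit 0) (nat_lit 334401759556) (nat_lit 380) (nat_lit 115310976137) (nat_lit 456) (nat_lit 22834799527) (nat_lit 100) (nat_lit 5) (nat_lit 105) (nat_lit 5) (nat_lit 106) (nat_lit 5) (nat_lit 444) (nat_lit 430) (nat_lit 146)))) (XT.nd (nat_lit 78) (nat_lit 380) (nat_lit 0)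 (XT.lf (nat_lit 0) (nat_lit 26904273157) (nat_lit 380) (nat_lit 370479420755) (nat_lit 76) (nat_lit 88393677205) (nat_lit 95) (nat_lit 5) (nat_lit 100) (nat_lit 5) (nat_lit 96) (nat_lit 5) (nat_lit 445) (nat_lit 430) (nat_lit 145)) (XT.nd (nat_lit 78) (nat_lit 380) (nat_lit 0) (XT.lf (nat_lit 0) (nat_lit 82631142551) (nat_lit 380) (nat_lit 115644809056) (nat_lit 76) (nat_lit 301160618064) (nat_lit 95) (nat_lit 5) (nat_lit 100) (nat_lit 5) (nat_lit 96) (nat_lit 5) (nat_lit 446) (nat_lit 430) (nat_lit 144)) (XT.lf (nat_lit 0) (nat_lit 143803434105) (nat_lit 456) (nat_lit 356909740077) (nat_lit 76) (nat_lit 12932600047) (nat_lit 90) (nat_lit 5) (nat_lit 96) (nat_lit 5) (nat_lit 91) (nat_lit 5) (nat_lit 447) (nat_lit 430) (nat_lit 143)))))) (XT.nd (nat_lit 468) (nat_lit 836) (nat_lit 0) (XT.nd (nat_lit 234) (nat_lit 608) (nat_lit 0) (XT.nd (nat_lit 78) (nat_lit 304) (nat_lit 0) (XT.lf (nat_lit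 0) (nat_lit 213275353747) (nat_lit 456) (nat_lit 84999221600) (nat_lit 76) (nat_lit 230028813003) (nat_lit 90) (nat_lit 5) (nat_lit 96) (nat_lit 5) (nat_lit 91) (nat_lit 5) (nat_lit 448) (nat_lit 430) (nat_lit 142)) (XT.nd (nat_lit 78) (nat_lit 0) (nat_lit 0) (XT.lf (nat_lit 0) (nat_lit 207136462450) (nat_lit 304) (nat_lit 82318369223) (nat_lit 380) (nat_lit 254077353400) (nat_lit 86) (nat_lit 5) (nat_lit 90) (nat_lit 5) (nat_lit 91) (nat_lit 5) (nat_lit 449) (nat_lit 430) (nat_lit 141)) (XT.lf (nat_lit 0) (nat_lit 373161412228) (nat_lit 380) (nat_lit 44899199651) (nat_lit 76) (nat_lit 141275903329) (nat_lit 86) (nat_lit 5) (nat_lit 91) (nat_lit 5) (nat_lit 87) (nat_lit 5) (nat_lit 450) (nat_lit 430) (nat_lit 140)))) (XT.nd (nat_lit 78) (nat_lit 304) (nat_lit 0) (XT.lf (nat_lit 0) (nat_lit 268413557880) (nat_lit 304) (nat_lit 198179916249) (nat_lit 380) (nat_lit 109060580114) (nat_lit 82)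 (nat_lit 5) (nat_lit 86) (nat_lit 5) (nat_lit 87) (nat_lit 5) (nat_lit 451) (nat_lit 430) (nat_lit 139)) (XT.nd (nat_lit 78) (nat_lit 76) (nat_lit 0) (XT.lf (nat_lit 0) (nat_lit 5866109725) (nat_lit 228) (nat_lit 560205912002) (nat_lit 304) (nat_lit 26646704382) (nat_lit 79) (nat_lit 5) (nat_lit 82) (nat_lit 5) (nat_lit 83) (nat_lit 5) (nat_lit 452) (nat_lit 430) (nat_lit 138)) (XT.lf (nat_lit 0) (nat_lit 66508480086) (nat_lit 304) (nat_lit 269350914733) (nat_lit 76) (nat_lit 274303615855) (nat_lit 78) (nat_lit 5) (nat_lit 82) (nat_lit 5) (nat_lit 79) (nat_lit 5) (nat_lit 453) (nat_lit 430) (nat_lit 137))))) (XT.nd (nat_lit 312) (nat_lit 304) (nat_lit 0) (XT.nd (nat_lit 78) (nat_lit 228) (nat_lit 0) (XT.lf (nat_lit 0) (nat_lit 65691561058) (nat_lit 304) (nat_lit 98759972503) (nat_lit 380) (nat_lit 463954853665) (nat_lit 74) (nat_lit 5) (nat_lit 78) (nat_lit 5) (nat_lit 79) (nat_lit 5) (nat_lit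 454) (nat_lit 430) (nat_lit 136)) (XT.nd (nat_lit 156) (nat_lit 228) (nat_lit 0) (XT.lf (nat_lit 0) (nat_lit 274273048526) (nat_lit 380) (nat_lit 222916193280) (nat_lit 76) (nat_lit 150023625367) (nat_lit 74) (nat_lit 5) (nat_lit 79) (nat_lit 5) (nat_lit 75) (nat_lit 5) (nat_lit 455) (nat_lit 430) (nat_lit 135)) (XT.lf (nat_lit 0) (nat_lit 521884899287) (nat_lit 228) (nat_lit 245985220) (nat_lit 304) (nat_lit 164989579521) (nat_lit 71) (nat_lit 5) (nat_lit 74) (nat_lit 5) (nat_lit 75) (nat_lit 5) (nat_lit 457) (nat_lit 430) (nat_lit 133)))) (XT.nd (nat_lit 51012) (nat_lit 0) (nat_lit 3268) (XT.nd (nat_lit 78) (nat_lit 76) (nat_lit 0) (XT.lf (nat_lit 0) (nat_lit 220786227419) (nat_lit 228) (nat_lit 444225029806) (nat_lit 304) (nat_lit 43092646102) (nat_lit 68) (nat_lit 5) (nat_lit 71) (nat_lit 5) (nat_lit 72) (nat_lit 5) (nat_lit 458) (nat_lit 430) (nat_lit 132)) (XT.lf (nat_lit 0) (nat_lit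 85030069407) (nat_lit 304) (nat_lit 99526321815) (nat_lit 76) (nat_lit 545371435807) (nat_lit 67) (nat_lit 5) (nat_lit 71) (nat_lit 5) (nat_lit 68) (nat_lit 5) (nat_lit 459) (nat_lit 430) (nat_lit 131))) (XT.nd (nat_lit 78) (nat_lit 0) (nat_lit 0) (XT.lf (nat_lit 0) (nat_lit 39006488733) (nat_lit 836) (nat_lit 66735815951) (nat_lit 836) (nat_lit 66735815951) (nat_lit 110) (nat_lit 3) (nat_lit 121) (nat_lit 3) (nat_lit 121) (nat_lit 5) (nat_lit 431) (nat_lit 431) (nat_lit 158)) (XT.lf (nat_lit 76) (nat_lit 33815936645) (nat_lit 0) (nat_lit 46675861727) (nat_lit 836) (nat_lit 273061923731) (nat_lit 111) (nat_lit 5) (nat_lit 110) (nat_lit 3) (nat_lit 121) (nat_lit 5) (nat_lit 432) (nat_lit 431) (nat_lit 157))))))) (XT.nd (nat_lit 1014) (nat_lit 2204) (nat_lit 0) (XT.nd (nat_lit 468) (nat_lit 836) (nat_lit 0) (XT.nd (nat_lit 234) (nat_lit 0) (nat_lit 76) (XT.nd (nat_lit 78) (nat_lit 0) (nat_lit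 0) (XT.lf (nat_lit 0) (nat_lit 87365030295) (nat_lit 760) (nat_lit 150376457518) (nat_lit 836) (nat_lit 124626065688) (nat_lit 111) (nat_lit 5) (nat_lit 121) (nat_lit 5) (nat_lit 122) (nat_lit 5) (nat_lit 433) (nat_lit 431) (nat_lit 156)) (XT.nd (nat_lit 78) (nat_lit 0) (nat_lit 76) (XT.lf (nat_lit 76) (nat_lit 27570156336) (nat_lit 0) (nat_lit 68207360293) (nat_lit 836) (nat_lit 275784780222) (nat_lit 112) (nat_lit 5) (nat_lit 111) (nat_lit 5) (nat_lit 122) (nat_lit 5) (nat_lit 434) (nat_lit 431) (nat_lit 155)) (XT.lf (nat_lit 0) (nat_lit 108913383239) (nat_lit 760) (nat_lit 163210720700) (nat_lit 836) (nat_lit 108877535653) (nat_lit 112) (nat_lit 5) (nat_lit 122) (nat_lit 5) (nat_lit 123) (nat_lit 5) (nat_lit 435) (nat_lit 431) (nat_lit 154)))) (XT.nd (nat_lit 78) (nat_lit 0) (nat_lit 76) (XT.lf (nat_lit 76) (nat_lit 26334463899) (nat_lit 0) (nat_lit 97900857788) (nat_lit 836) (nat_lit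 266601163878) (nat_lit 113) (nat_lit 5) (nat_lit 112) (nat_lit 5) (nat_lit 123) (nat_lit 5) (nat_lit 436) (nat_lit 431) (nat_lit 153)) (XT.nd (nat_lit 78) (nat_lit 0) (nat_lit 0) (XT.lf (nat_lit 0) (nat_lit 144460305481) (nat_lit 760) (nat_lit 171374601500) (nat_lit 836) (nat_lit 85121319457) (nat_lit 113) (nat_lit 5) (nat_lit 123) (nat_lit 5) (nat_lit 124) (nat_lit 5) (nat_lit 437) (nat_lit 431) (nat_lit 152)) (XT.lf (nat_lit 76) (nat_lit 30789699948) (nat_lit 0) (nat_lit 136992456993) (nat_lit 836) (nat_lit 243695516507) (nat_lit 114) (nat_lit 5) (nat_lit 113) (nat_lit 5) (nat_lit 124) (nat_lit 5) (nat_lit 438) (nat_lit 431) (nat_lit 151))))) (XT.nd (nat_lit 234) (nat_lit 1064) (nat_lit 0) (XT.nd (nat_lit 78) (nat_lit 0) (nat_lit 0) (XT.lf (nat_lit 0) (nat_lit 196012972880) (nat_lit 760) (nat_lit 174208729118) (nat_lit 836) (nat_lit 52116347233) (nat_lit 114) (nat_lit 5) (nat_lit 124)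 (nat_lit 5) (nat_lit 125) (nat_lit 5) (nat_lit 439) (nat_lit 431) (nat_lit 150)) (XT.nd (nat_lit 78) (nat_lit 0) (nat_lit 76) (XT.lf (nat_lit 76) (nat_lit 41682788662) (nat_lit 0) (nat_lit 186869079279) (nat_lit 836) (nat_lit 205044748964) (nat_lit 115) (nat_lit 5) (nat_lit 114) (nat_lit 5) (nat_lit 125) (nat_lit 5) (nat_lit 440) (nat_lit 431) (nat_lit 149)) (XT.lf (nat_lit 0) (nat_lit 265804589397) (nat_lit 760) (nat_lit 170990199204) (nat_lit 76) (nat_lit 8468980294) (nat_lit 115) (nat_lit 5) (nat_lit 125) (nat_lit 5) (nat_lit 116) (nat_lit 5) (nat_lit 441) (nat_lit 431) (nat_lit 148)))) (XT.nd (nat_lit 156) (nat_lit 380) (nat_lit 0) (XT.nd (nat_lit 78) (nat_lit 0) (nat_lit 0) (XT.lf (nat_lit 0) (nat_lit 59831133359) (nat_lit 760) (nat_lit 249086350025) (nat_lit 836) (nat_lit 148396918296) (nat_lit 105) (nat_lit 5) (nat_lit 115) (nat_lit 5) (nat_lit 116) (nat_lit 5) (nat_lit 442) (nat_lit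 431) (nat_lit 147)) (XT.lf (nat_lit 0) (nat_lit 308129906171) (nat_lit 760) (nat_lit 48951895692) (nat_lit 836) (nat_lit 112740975265) (nat_lit 105) (nat_lit 5) (nat_lit 115) (nat_lit 5) (nat_lit 116) (nat_lit 5) (nat_lit 443) (nat_lit 431) (nat_lit 146))) (XT.nd (nat_lit 78) (nat_lit 0) (nat_lit 0) (XT.lf (nat_lit 0) (nat_lit 86127011988) (nat_lit 380) (nat_lit 325388603827) (nat_lit 456) (nat_lit 71247891569) (nat_lit 100) (nat_lit 5) (nat_lit 105) (nat_lit 5) (nat_lit 106) (nat_lit 5) (nat_lit 444) (nat_lit 431) (nat_lit 145)) (XT.lf (nat_lit 0) (nat_lit 351122456606) (nat_lit 380) (nat_lit 121076537366) (nat_lit 456) (nat_lit 23975886521) (nat_lit 100) (nat_lit 5) (nat_lit 105) (nat_lit 5) (nat_lit 106) (nat_lit 5) (nat_lit 445) (nat_lit 431) (nat_lit 144)))))) (XT.nd (nat_lit 468) (nat_lit 1140) (nat_lit 0) (XT.nd (nat_lit 234) (nat_lit 304) (nat_lit 0) (XT.nd (nat_lit 78) (nat_lit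 380) (nat_lit 0) (XT.lf (nat_lit 0) (nat_lit 28250098616) (nat_lit 380) (nat_lit 389002740768) (nat_lit 76) (nat_lit 92813369324) (nat_lit 95) (nat_lit 5) (nat_lit 100) (nat_lit 5) (nat_lit 96) (nat_lit 5) (nat_lit 446) (nat_lit 431) (nat_lit 143)) (XT.nd (nat_lit 78) (nat_lit 380) (nat_lit 0) (XT.lf (nat_lit 0) (nat_lit 86763282345) (nat_lit 380) (nat_lit 121426429485) (nat_lit 76) (nat_lit 316218656832) (nat_lit 95) (nat_lit 5) (nat_lit 100) (nat_lit 5) (nat_lit 96) (nat_lit 5) (nat_lit 447) (nat_lit 431) (nat_lit 142)) (XT.lf (nat_lit 0) (nat_lit 150994170967) (nat_lit 456) (nat_lit 374754589206) (nat_lit 76) (nat_lit 13579274168) (nat_lit 90) (nat_lit 5) (nat_lit 96) (nat_lit 5) (nat_lit 91) (nat_lit 5) (nat_lit 448) (nat_lit 431) (nat_lit 141)))) (XT.nd (nat_lit 78) (nat_lit 304) (nat_lit 0) (XT.lf (nat_lit 0) (nat_lit 223939659679) (nat_lit 456) (nat_lit 89248575181) (nat_lit 76) (nat_lit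 241530295671) (nat_lit 90) (nat_lit 5) (nat_lit 96) (nat_lit 5) (nat_lit 91) (nat_lit 5) (nat_lit 449) (nat_lit 431) (nat_lit 140)) (XT.nd (nat_lit 78) (nat_lit 0) (nat_lit 0) (XT.lf (nat_lit 0) (nat_lit 217493883274) (nat_lit 304) (nat_lit 86434211929) (nat_lit 380) (nat_lit 266780672718) (nat_lit 86) (nat_lit 5) (nat_lit 90) (nat_lit 5) (nat_lit 91) (nat_lit 5) (nat_lit 450) (nat_lit 431) (nat_lit 139)) (XT.lf (nat_lit 0) (nat_lit 391819981056) (nat_lit 380) (nat_lit 47143566372) (nat_lit 76) (nat_lit 148339768334) (nat_lit 86) (nat_lit 5) (nat_lit 91) (nat_lit 5) (nat_lit 87) (nat_lit 5) (nat_lit 451) (nat_lit 431) (nat_lit 138))))) (XT.nd (nat_lit 234) (nat_lit 532) (nat_lit 0) (XT.nd (nat_lit 78) (nat_lit 304) (nat_lit 0) (XT.lf (nat_lit 0) (nat_lit 281834819467) (nat_lit 304) (nat_lit 208088811974) (nat_lit 380) (nat_lit 114513101053) (nat_lit 82) (nat_lit 5) (nat_lit 86) (nat_lit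 5) (nat_lit 87) (nat_lit 5) (nat_lit 452) (nat_lit 431) (nat_lit 137)) (XT.nd (nat_lit 78) (nat_lit 76) (nat_lit 0) (XT.lf (nat_lit 0) (nat_lit 6160012018) (nat_lit 228) (nat_lit 588216082178) (nat_lit 304) (nat_lit 27978544382) (nat_lit 79) (nat_lit 5) (nat_lit 82) (nat_lit 5) (nat_lit 83) (nat_lit 5) (nat_lit 453) (nat_lit 431) (nat_lit 136)) (XT.lf (nat_lit 0) (nat_lit 69834360633) (nat_lit 304) (nat_lit 282817876745) (nat_lit 76) (nat_lit 288018900762) (nat_lit 78) (nat_lit 5) (nat_lit 82) (nat_lit 5) (nat_lit 79) (nat_lit 5) (nat_lit 454) (nat_lit 431) (nat_lit 135)))) (XT.nd (nat_lit 234) (nat_lit 0) (nat_lit 0) (XT.nd (nat_lit 156) (nat_lit 228) (nat_lit 0) (XT.lf (nat_lit 0) (nat_lit 68976713421) (nat_lit 304) (nat_lit 103697840586) (nat_lit 380) (nat_lit 487152130161) (nat_lit 74) (nat_lit 5) (nat_lit 78) (nat_lit 5) (nat_lit 79) (nat_lit 5) (nat_lit 455) (nat_lit 431) (nat_lit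 134)) (XT.lf (nat_lit 0) (nat_lit 143458097198) (nat_lit 228) (nat_lit 269546962819) (nat_lit 304) (nat_lit 287105587513) (nat_lit 71) (nat_lit 5) (nat_lit 74) (nat_lit 5) (nat_lit 75) (nat_lit 5) (nat_lit 457) (nat_lit 431) (nat_lit 132))) (XT.nd (nat_lit 51090) (nat_lit 0) (nat_lit 2964) (XT.lf (nat_lit 0) (nat_lit 547979674954) (nat_lit 228) (nat_lit 258147170) (nat_lit 304) (nat_lit 173238645238) (nat_lit 71) (nat_lit 5) (nat_lit 74) (nat_lit 5) (nat_lit 75) (nat_lit 5) (nat_lit 458) (nat_lit 431) (nat_lit 131)) (XT.lf (nat_lit 0) (nat_lit 40957339747) (nat_lit 836) (nat_lit 70072330110) (nat_lit 836) (nat_lit 70072330110) (nat_lit 110) (nat_lit 3) (nat_lit 121) (nat_lit 3) (nat_lit 121) (nat_lit 5) (nat_lit 432) (nat_lit 432) (nat_lit 156))))))))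
noncomputable def xc252 : XT := (XT.nd (nat_lit 53118) (nat_lit 0) (nat_lit 228) (XT.nd (nat_lit 936) (nat_lit 2584) (nat_lit 0) (XT.nd (nat_lit 468) (nat_lit 380) (nat_lit 0) (XT.nd (nat_lit 234) (nat_lit 0) (nat_lit 152) (XT.nd (nat_lit 78) (nat_lit 0) (nat_lit 76) (XT.lf (nat_lit 76) (nat_lit 35507277832) (nat_lit 0) (nat_lit 49010121963) (nat_lit 836) (nat_lit 286713957130) (nat_lit 111) (nat_lit 5) (nat_lit 110) (nat_lit 3) (nat_lit 121) (nat_lit 5) (nat_lit 433) (nat_lit 432) (nat_lit 155)) (XT.nd (nat_lit 78) (nat_lit 0) (nat_lit 0) (XT.lf (nat_lit 0) (nat_lit 91734238201) (nat_lit 760) (nat_lit 157894706173) (nat_lit 836) (nat_lit 130856938308) (nat_lit 111) (nat_lit 5) (nat_lit 121) (nat_lit 5) (nat_lit 122) (nat_lit 5) (nat_lit 434) (nat_lit 432) (nat_lit 154)) (XT.lf (nat_lit 76) (nat_lit 28949229112) (nat_lit 0) (nat_lit 71618083018) (nat_lit 836) (nat_lit 289573052938) (nat_lit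 112) (nat_lit 5) (nat_lit 111) (nat_lit 5) (nat_lit 122) (nat_lit 5) (nat_lit 435) (nat_lit 432) (nat_lit 153)))) (XT.nd (nat_lit 78) (nat_lit 0) (nat_lit 0) (XT.lf (nat_lit 0) (nat_lit 114359923002) (nat_lit 760) (nat_lit 171370668999) (nat_lit 836) (nat_lit 114321085429) (nat_lit 112) (nat_lit 5) (nat_lit 122) (nat_lit 5) (nat_lit 123) (nat_lit 5) (nat_lit 436) (nat_lit 432) (nat_lit 152)) (XT.nd (nat_lit 78) (nat_lit 0) (nat_lit 76) (XT.lf (nat_lit 76) (nat_lit 27651765351) (nat_lit 0) (nat_lit 102796160594) (nat_lit 836) (nat_lit 279930341409) (nat_lit 113) (nat_lit 5) (nat_lit 112) (nat_lit 5) (nat_lit 123) (nat_lit 5) (nat_lit 437) (nat_lit 432) (nat_lit 151)) (XT.lf (nat_lit 0) (nat_lit 151684115149) (nat_lit 760) (nat_lit 179942736522) (nat_lit 836) (nat_lit 89377145814) (nat_lit 113) (nat_lit 5) (nat_lit 123) (nat_lit 5) (nat_lit 124) (nat_lit 5) (nat_lit 438) (nat_lit 432) (nat_lit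 150))))) (XT.nd (nat_lit 234) (nat_lit 608) (nat_lit 0) (XT.nd (nat_lit 78) (nat_lit 0) (nat_lit 76) (XT.lf (nat_lit 76) (nat_lit 32329770401) (nat_lit 0) (nat_lit 143842260094) (nat_lit 836) (nat_lit 255879487812) (nat_lit 114) (nat_lit 5) (nat_lit 113) (nat_lit 5) (nat_lit 124) (nat_lit 5) (nat_lit 439) (nat_lit 432) (nat_lit 149)) (XT.nd (nat_lit 78) (nat_lit 0) (nat_lit 0) (XT.lf (nat_lit 0) (nat_lit 205814348088) (nat_lit 760) (nat_lit 182918568351) (nat_lit 836) (nat_lit 54721998422) (nat_lit 114) (nat_lit 5) (nat_lit 124) (nat_lit 5) (nat_lit 125) (nat_lit 5) (nat_lit 440) (nat_lit 432) (nat_lit 148)) (XT.lf (nat_lit 76) (nat_lit 43767515684) (nat_lit 0) (nat_lit 196212646793) (nat_lit 836) (nat_lit 215296249736) (nat_lit 115) (nat_lit 5) (nat_lit 114) (nat_lit 5) (nat_lit 125) (nat_lit 5) (nat_lit 441) (nat_lit 432) (nat_lit 147)))) (XT.nd (nat_lit 78) (nat_lit 760) (nat_lit 0) (XT.lf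 (nat_lit 0) (nat_lit 279095484931) (nat_lit 760) (nat_lit 179539114023) (nat_lit 76) (nat_lit 8892324628) (nat_lit 115) (nat_lit 5) (nat_lit 125) (nat_lit 5) (nat_lit 116) (nat_lit 5) (nat_lit 442) (nat_lit 432) (nat_lit 146)) (XT.nd (nat_lit 78) (nat_lit 0) (nat_lit 0) (XT.lf (nat_lit 0) (nat_lit 62823275570) (nat_lit 760) (nat_lit 261540725472) (nat_lit 836) (nat_lit 155816088113) (nat_lit 105) (nat_lit 5) (nat_lit 115) (nat_lit 5) (nat_lit 116) (nat_lit 5) (nat_lit 443) (nat_lit 432) (nat_lit 145)) (XT.lf (nat_lit 0) (nat_lit 323536959139) (nat_lit 760) (nat_lit 51399545663) (nat_lit 836) (nat_lit 118377380125) (nat_lit 105) (nat_lit 5) (nat_lit 115) (nat_lit 5) (nat_lit 116) (nat_lit 5) (nat_lit 444) (nat_lit 432) (nat_lit 144)))))) (XT.nd (nat_lit 468) (nat_lit 1444) (nat_lit 0) (XT.nd (nat_lit 234) (nat_lit 380) (nat_lit 0) (XT.nd (nat_lit 78) (nat_lit 380) (nat_lit 0) (XT.lf (nat_lit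 0) (nat_lit 90433942656) (nat_lit 380) (nat_lit 341658045849) (nat_lit 456) (nat_lit 74809664259) (nat_lit 100) (nat_lit 5) (nat_lit 105) (nat_lit 5) (nat_lit 106) (nat_lit 5) (nat_lit 445) (nat_lit 432) (nat_lit 143)) (XT.nd (nat_lit 78) (nat_lit 380) (nat_lit 0) (XT.lf (nat_lit 0) (nat_lit 368679131882) (nat_lit 380) (nat_lit 127130375501) (nat_lit 456) (nat_lit 25174088573) (nat_lit 100) (nat_lit 5) (nat_lit 105) (nat_lit 5) (nat_lit 106) (nat_lit 5) (nat_lit 446) (nat_lit 432) (nat_lit 142)) (XT.lf (nat_lit 0) (nat_lit 29663158467) (nat_lit 380) (nat_lit 408452287308) (nat_lit 76) (nat_lit 97454045281) (nat_lit 95) (nat_lit 5) (nat_lit 100) (nat_lit 5) (nat_lit 96) (nat_lit 5) (nat_lit 447) (nat_lit 432) (nat_lit 141)))) (XT.nd (nat_lit 78) (nat_lit 380) (nat_lit 0) (XT.lf (nat_lit 0) (nat_lit 91101974959) (nat_lit 380) (nat_lit 127497188580) (nat_lit 76) (nat_lit 332029596808) (nat_lit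 95) (nat_lit 5) (nat_lit 100) (nat_lit 5) (nat_lit 96) (nat_lit 5) (nat_lit 448) (nat_lit 432) (nat_lit 140)) (XT.nd (nat_lit 78) (nat_lit 0) (nat_lit 0) (XT.lf (nat_lit 0) (nat_lit 158544392129) (nat_lit 456) (nat_lit 393491740096) (nat_lit 76) (nat_lit 14258277894) (nat_lit 90) (nat_lit 5) (nat_lit 96) (nat_lit 5) (nat_lit 91) (nat_lit 5) (nat_lit 449) (nat_lit 432) (nat_lit 139)) (XT.lf (nat_lit 0) (nat_lit 235137130866) (nat_lit 456) (nat_lit 93710452920) (nat_lit 76) (nat_lit 253606848567) (nat_lit 90) (nat_lit 5) (nat_lit 96) (nat_lit 5) (nat_lit 91) (nat_lit 5) (nat_lit 450) (nat_lit 432) (nat_lit 138))))) (XT.nd (nat_lit 234) (nat_lit 836) (nat_lit 0) (XT.nd (nat_lit 78) (nat_lit 304) (nat_lit 0) (XT.lf (nat_lit 0) (nat_lit 228369119570) (nat_lit 304) (nat_lit 90755853813) (nat_lit 380) (nat_lit 280119208983) (nat_lit 86) (nat_lit 5) (nat_lit 90) (nat_lit 5) (nat_lit 91) (nat_lit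 5) (nat_lit 451) (nat_lit 432) (nat_lit 137)) (XT.nd (nat_lit 78) (nat_lit 304) (nat_lit 0) (XT.lf (nat_lit 0) (nat_lit 411411432007) (nat_lit 380) (nat_lit 49500206585) (nat_lit 76) (nat_lit 155756820097) (nat_lit 86) (nat_lit 5) (nat_lit 91) (nat_lit 5) (nat_lit 87) (nat_lit 5) (nat_lit 452) (nat_lit 432) (nat_lit 136)) (XT.lf (nat_lit 0) (nat_lit 295927089867) (nat_lit 304) (nat_lit 218493161791) (nat_lit 380) (nat_lit 120238295275) (nat_lit 82) (nat_lit 5) (nat_lit 86) (nat_lit 5) (nat_lit 87) (nat_lit 5) (nat_lit 453) (nat_lit 432) (nat_lit 135)))) (XT.nd (nat_lit 234) (nat_lit 532) (nat_lit 0) (XT.nd (nat_lit 78) (nat_lit 76) (nat_lit 0) (XT.lf (nat_lit 0) (nat_lit 6468553941) (nat_lit 228) (nat_lit 617626772524) (nat_lit 304) (nat_lit 29377022422) (nat_lit 79) (nat_lit 5) (nat_lit 82) (nat_lit 5) (nat_lit 83) (nat_lit 5) (nat_lit 454) (nat_lit 432) (nat_lit 134)) (XT.lf (nat_lit 0)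 (nat_lit 73326492761) (nat_lit 304) (nat_lit 296958241126) (nat_lit 76) (nat_lit 302419940234) (nat_lit 78) (nat_lit 5) (nat_lit 82) (nat_lit 5) (nat_lit 79) (nat_lit 5) (nat_lit 455) (nat_lit 432) (nat_lit 133))) (XT.nd (nat_lit 78) (nat_lit 228) (nat_lit 0) (XT.lf (nat_lit 0) (nat_lit 302386866910) (nat_lit 380) (nat_lit 245763994684) (nat_lit 76) (nat_lit 165401282488) (nat_lit 74) (nat_lit 5) (nat_lit 79) (nat_lit 5) (nat_lit 75) (nat_lit 5) (nat_lit 457) (nat_lit 432) (nat_lit 131)) (XT.lf (nat_lit 0) (nat_lit 150631507488) (nat_lit 228) (nat_lit 283024180187) (nat_lit 304) (nat_lit 301460473309) (nat_lit 71) (nat_lit 5) (nat_lit 74) (nat_lit 5) (nat_lit 75) (nat_lit 5) (nat_lit 458) (nat_lit 432) (nat_lit 130))))))) (XT.nd (nat_lit 1014) (nat_lit 2356) (nat_lit 0) (XT.nd (nat_lit 468) (nat_lit 380) (nat_lit 0) (XT.nd (nat_lit 234) (nat_lit 0) (nat_lit 76) (XT.nd (nat_lit 78) (nat_lit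 0) (nat_lit 0) (XT.lf (nat_lit 0) (nat_lit 43005684356) (nat_lit 836) (nat_lit 73575695695) (nat_lit 836) (nat_lit 73575695695) (nat_lit 110) (nat_lit 3) (nat_lit 121) (nat_lit 3) (nat_lit 121) (nat_lit 5) (nat_lit 433) (nat_lit 433) (nat_lit 154)) (XT.nd (nat_lit 78) (nat_lit 0) (nat_lit 76) (XT.lf (nat_lit 76) (nat_lit 37283135469) (nat_lit 0) (nat_lit 51461051780) (nat_lit 836) (nat_lit 301048691007) (nat_lit 111) (nat_lit 5) (nat_lit 110) (nat_lit 3) (nat_lit 121) (nat_lit 5) (nat_lit 434) (nat_lit 433) (nat_lit 153)) (XT.lf (nat_lit 0) (nat_lit 96321817585) (nat_lit 760) (nat_lit 165788920647) (nat_lit 836) (nat_lit 137399394598) (nat_lit 111) (nat_lit 5) (nat_lit 121) (nat_lit 5) (nat_lit 122) (nat_lit 5) (nat_lit 435) (nat_lit 433) (nat_lit 152)))) (XT.nd (nat_lit 78) (nat_lit 0) (nat_lit 76) (XT.lf (nat_lit 76) (nat_lit 30397203002) (nat_lit 0) (nat_lit 75199308901) (nat_lit 836)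 (nat_lit 304050829127) (nat_lit 112) (nat_lit 5) (nat_lit 111) (nat_lit 5) (nat_lit 122) (nat_lit 5) (nat_lit 436) (nat_lit 433) (nat_lit 151)) (XT.nd (nat_lit 78) (nat_lit 0) (nat_lit 0) (XT.lf (nat_lit 0) (nat_lit 120078708813) (nat_lit 760) (nat_lit 179938669355) (nat_lit 836) (nat_lit 120036843096) (nat_lit 112) (nat_lit 5) (nat_lit 122) (nat_lit 5) (nat_lit 123) (nat_lit 5) (nat_lit 437) (nat_lit 433) (nat_lit 150)) (XT.lf (nat_lit 76) (nat_lit 29034878114) (nat_lit 0) (nat_lit 107936204375) (nat_lit 836) (nat_lit 293926059692) (nat_lit 113) (nat_lit 5) (nat_lit 112) (nat_lit 5) (nat_lit 123) (nat_lit 5) (nat_lit 438) (nat_lit 433) (nat_lit 149))))) (XT.nd (nat_lit 234) (nat_lit 608) (nat_lit 0) (XT.nd (nat_lit 78) (nat_lit 0) (nat_lit 0) (XT.lf (nat_lit 0) (nat_lit 159269041446) (nat_lit 760) (nat_lit 188939333618) (nat_lit 836) (nat_lit 93845785766) (nat_lit 113) (nat_lit 5) (nat_lit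 123) (nat_lit 5) (nat_lit 124) (nat_lit 5) (nat_lit 439) (nat_lit 433) (nat_lit 148)) (XT.nd (nat_lit 78) (nat_lit 0) (nat_lit 76) (XT.lf (nat_lit 76) (nat_lit 33946789946) (nat_lit 0) (nat_lit 151034536592) (nat_lit 836) (nat_lit 268672732478) (nat_lit 114) (nat_lit 5) (nat_lit 113) (nat_lit 5) (nat_lit 124) (nat_lit 5) (nat_lit 440) (nat_lit 433) (nat_lit 147)) (XT.lf (nat_lit 0) (nat_lit 216105724508) (nat_lit 760) (nat_lit 192063955071) (nat_lit 836) (nat_lit 57457947619) (nat_lit 114) (nat_lit 5) (nat_lit 124) (nat_lit 5) (nat_lit 125) (nat_lit 5) (nat_lit 441) (nat_lit 433) (nat_lit 146)))) (XT.nd (nat_lit 156) (nat_lit 684) (nat_lit 0) (XT.nd (nat_lit 78) (nat_lit 0) (nat_lit 76) (XT.lf (nat_lit 76) (nat_lit 45956424430) (nat_lit 0) (nat_lit 206023382126) (nat_lit 836) (nat_lit 226060394036) (nat_lit 115) (nat_lit 5) (nat_lit 114) (nat_lit 5) (nat_lit 125) (nat_lit 5) (nat_lit 442)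 (nat_lit 433) (nat_lit 145)) (XT.lf (nat_lit 0) (nat_lit 293050863317) (nat_lit 760) (nat_lit 188515529913) (nat_lit 76) (nat_lit 9336845910) (nat_lit 115) (nat_lit 5) (nat_lit 125) (nat_lit 5) (nat_lit 116) (nat_lit 5) (nat_lit 443) (nat_lit 433) (nat_lit 144))) (XT.nd (nat_lit 78) (nat_lit 0) (nat_lit 0) (XT.lf (nat_lit 0) (nat_lit 65964970453) (nat_lit 760) (nat_lit 274617814304) (nat_lit 836) (nat_lit 163606279278) (nat_lit 105) (nat_lit 5) (nat_lit 115) (nat_lit 5) (nat_lit 116) (nat_lit 5) (nat_lit 444) (nat_lit 433) (nat_lit 143)) (XT.lf (nat_lit 0) (nat_lit 339714312910) (nat_lit 760) (nat_lit 53969573002) (nat_lit 836) (nat_lit 124295665093) (nat_lit 105) (nat_lit 5) (nat_lit 115) (nat_lit 5) (nat_lit 116) (nat_lit 5) (nat_lit 445) (nat_lit 433) (nat_lit 142)))))) (XT.nd (nat_lit 468) (nat_lit 1216) (nat_lit 0) (XT.nd (nat_lit 234) (nat_lit 380) (nat_lit 0) (XT.nd (nat_lit 78) (nat_lit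 380) (nat_lit 0) (XT.lf (nat_lit 0) (nat_lit 94956165928) (nat_lit 380) (nat_lit 358740958872) (nat_lit 456) (nat_lit 78549583401) (nat_lit 100) (nat_lit 5) (nat_lit 105) (nat_lit 5) (nat_lit 106) (nat_lit 5) (nat_lit 446) (nat_lit 433) (nat_lit 141)) (XT.nd (nat_lit 78) (nat_lit 380) (nat_lit 0) (XT.lf (nat_lit 0) (nat_lit 387113589561) (nat_lit 380) (nat_lit 133486904496) (nat_lit 456) (nat_lit 26432255791) (nat_lit 100) (nat_lit 5) (nat_lit 105) (nat_lit 5) (nat_lit 106) (nat_lit 5) (nat_lit 447) (nat_lit 433) (nat_lit 140)) (XT.lf (nat_lit 0) (nat_lit 31146819720) (nat_lit 380) (nat_lit 428874366075) (nat_lit 76) (nat_lit 102326754340) (nat_lit 95) (nat_lit 5) (nat_lit 100) (nat_lit 5) (nat_lit 96) (nat_lit 5) (nat_lit 448) (nat_lit 433) (nat_lit 139)))) (XT.nd (nat_lit 78) (nat_lit 380) (nat_lit 0) (XT.lf (nat_lit 0) (nat_lit 95657553068) (nat_lit 380) (nat_lit 133871537914) (nat_lit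 76) (nat_lit 348631083119) (nat_lit 95) (nat_lit 5) (nat_lit 100) (nat_lit 5) (nat_lit 96) (nat_lit 5) (nat_lit 449) (nat_lit 433) (nat_lit 138)) (XT.nd (nat_lit 78) (nat_lit 0) (nat_lit 0) (XT.lf (nat_lit 0) (nat_lit 166472076691) (nat_lit 456) (nat_lit 413165802320) (nat_lit 76) (nat_lit 14971228086) (nat_lit 90) (nat_lit 5) (nat_lit 96) (nat_lit 5) (nat_lit 91) (nat_lit 5) (nat_lit 450) (nat_lit 433) (nat_lit 137)) (XT.lf (nat_lit 0) (nat_lit 246894430224) (nat_lit 456) (nat_lit 98395475775) (nat_lit 76) (nat_lit 266287225564) (nat_lit 90) (nat_lit 5) (nat_lit 96) (nat_lit 5) (nat_lit 91) (nat_lit 5) (nat_lit 451) (nat_lit 433) (nat_lit 136))))) (XT.nd (nat_lit 390) (nat_lit 608) (nat_lit 0) (XT.nd (nat_lit 78) (nat_lit 304) (nat_lit 0) (XT.lf (nat_lit 0) (nat_lit 239788067278) (nat_lit 304) (nat_lit 95293584180) (nat_lit 380) (nat_lit 294124718302) (nat_lit 86) (nat_lit 5) (nat_lit 90)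 (nat_lit 5) (nat_lit 91) (nat_lit 5) (nat_lit 452) (nat_lit 433) (nat_lit 135)) (XT.nd (nat_lit 78) (nat_lit 304) (nat_lit 0) (XT.lf (nat_lit 0) (nat_lit 431982413492) (nat_lit 380) (nat_lit 51974728837) (nat_lit 76) (nat_lit 163544718559) (nat_lit 86) (nat_lit 5) (nat_lit 91) (nat_lit 5) (nat_lit 87) (nat_lit 5) (nat_lit 453) (nat_lit 433) (nat_lit 134)) (XT.lf (nat_lit 0) (nat_lit 310723924565) (nat_lit 304) (nat_lit 229417737539) (nat_lit 380) (nat_lit 126249792051) (nat_lit 82) (nat_lit 5) (nat_lit 86) (nat_lit 5) (nat_lit 87) (nat_lit 5) (nat_lit 454) (nat_lit 433) (nat_lit 133)))) (XT.nd (nat_lit 51402) (nat_lit 0) (nat_lit 2736) (XT.nd (nat_lit 51324) (nat_lit 0) (nat_lit 2736) (XT.lf (nat_lit 0) (nat_lit 76047845995) (nat_lit 304) (nat_lit 114326637524) (nat_lit 380) (nat_lit 537084395981) (nat_lit 74) (nat_lit 5) (nat_lit 78) (nat_lit 5) (nat_lit 79) (nat_lit 5) (nat_lit 457) (nat_lit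 433) (nat_lit 130)) (XT.lf (nat_lit 0) (nat_lit 45156401791) (nat_lit 836) (nat_lit 77254252888) (nat_lit 836) (nat_lit 77254252888) (nat_lit 110) (nat_lit 3) (nat_lit 121) (nat_lit 3) (nat_lit 121) (nat_lit 5) (nat_lit 434) (nat_lit 434) (nat_lit 152))) (XT.nd (nat_lit 78) (nat_lit 0) (nat_lit 76) (XT.lf (nat_lit 76) (nat_lit 39147740084) (nat_lit 0) (nat_lit 54034488694) (nat_lit 836) (nat_lit 316100251200) (nat_lit 111) (nat_lit 5) (nat_lit 110) (nat_lit 3) (nat_lit 121) (nat_lit 5) (nat_lit 435) (nat_lit 434) (nat_lit 151)) (XT.lf (nat_lit 0) (nat_lit 101138695290) (nat_lit 760) (nat_lit 174077894267) (nat_lit 836) (nat_lit 144269010019) (nat_lit 111) (nat_lit 5) (nat_lit 121) (nat_lit 5) (nat_lit 122) (nat_lit 5) (nat_lit 436) (nat_lit 434) (nat_lit 150))))))))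
noncomputable def xc253 : XT := (XT.nd (nat_lit 53352) (nat_lit 0) (nat_lit 304) (XT.nd (nat_lit 936) (nat_lit 1672) (nat_lit 0) (XT.nd (nat_lit 468) (nat_lit 836) (nat_lit 0) (XT.nd (nat_lit 234) (nat_lit 0) (nat_lit 152) (XT.nd (nat_lit 78) (nat_lit 0) (nat_lit 76) (XT.lf (nat_lit 76) (nat_lit 31917527945) (nat_lit 0) (nat_lit 78959566167) (nat_lit 836) (nat_lit 319252575610) (nat_lit 112) (nat_lit 5) (nat_lit 111) (nat_lit 5) (nat_lit 122) (nat_lit 5) (nat_lit 437) (nat_lit 434) (nat_lit 149)) (XT.nd (nat_lit 78) (nat_lit 0) (nat_lit 0) (XT.lf (nat_lit 0) (nat_lit 126083360499) (nat_lit 760) (nat_lit 188935119291) (nat_lit 836) (nat_lit 126038416221) (nat_lit 112) (nat_lit 5) (nat_lit 122) (nat_lit 5) (nat_lit 123) (nat_lit 5) (nat_lit 438) (nat_lit 434) (nat_lit 148)) (XT.lf (nat_lit 76) (nat_lit 30487097753) (nat_lit 0) (nat_lit 113333228427) (nat_lit 836) (nat_lit 308621638152) (nat_lit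 113) (nat_lit 5) (nat_lit 112) (nat_lit 5) (nat_lit 123) (nat_lit 5) (nat_lit 439) (nat_lit 434) (nat_lit 147)))) (XT.nd (nat_lit 78) (nat_lit 0) (nat_lit 0) (XT.lf (nat_lit 0) (nat_lit 167233147068) (nat_lit 760) (nat_lit 198385810747) (nat_lit 836) (nat_lit 98537877921) (nat_lit 113) (nat_lit 5) (nat_lit 123) (nat_lit 5) (nat_lit 124) (nat_lit 5) (nat_lit 440) (nat_lit 434) (nat_lit 146)) (XT.nd (nat_lit 78) (nat_lit 0) (nat_lit 76) (XT.lf (nat_lit 76) (nat_lit 35644611099) (nat_lit 0) (nat_lit 158586411715) (nat_lit 836) (nat_lit 282105707221) (nat_lit 114) (nat_lit 5) (nat_lit 113) (nat_lit 5) (nat_lit 124) (nat_lit 5) (nat_lit 441) (nat_lit 434) (nat_lit 145)) (XT.lf (nat_lit 0) (nat_lit 226911608479) (nat_lit 760) (nat_lit 201666661488) (nat_lit 836) (nat_lit 60330708288) (nat_lit 114) (nat_lit 5) (nat_lit 124) (nat_lit 5) (nat_lit 125) (nat_lit 5) (nat_lit 442) (nat_lit 434) (nat_lit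 144))))) (XT.nd (nat_lit 234) (nat_lit 380) (nat_lit 0) (XT.nd (nat_lit 78) (nat_lit 684) (nat_lit 0) (XT.lf (nat_lit 76) (nat_lit 48254729063) (nat_lit 0) (nat_lit 216324644650) (nat_lit 836) (nat_lit 237362807672) (nat_lit 115) (nat_lit 5) (nat_lit 114) (nat_lit 5) (nat_lit 125) (nat_lit 5) (nat_lit 443) (nat_lit 434) (nat_lit 143)) (XT.nd (nat_lit 78) (nat_lit 760) (nat_lit 0) (XT.lf (nat_lit 0) (nat_lit 307703954455) (nat_lit 760) (nat_lit 197940816784) (nat_lit 76) (nat_lit 9803602083) (nat_lit 115) (nat_lit 5) (nat_lit 125) (nat_lit 5) (nat_lit 116) (nat_lit 5) (nat_lit 444) (nat_lit 434) (nat_lit 142)) (XT.lf (nat_lit 0) (nat_lit 69263700703) (nat_lit 760) (nat_lit 288348752691) (nat_lit 836) (nat_lit 171786037015) (nat_lit 105) (nat_lit 5) (nat_lit 115) (nat_lit 5) (nat_lit 116) (nat_lit 5) (nat_lit 445) (nat_lit 434) (nat_lit 141)))) (XT.nd (nat_lit 78) (nat_lit 380) (nat_lit 0)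 (XT.lf (nat_lit 0) (nat_lit 356700487344) (nat_lit 760) (nat_lit 56668097054) (nat_lit 836) (nat_lit 130509918607) (nat_lit 105) (nat_lit 5) (nat_lit 115) (nat_lit 5) (nat_lit 116) (nat_lit 5) (nat_lit 446) (nat_lit 434) (nat_lit 140)) (XT.nd (nat_lit 78) (nat_lit 0) (nat_lit 0) (XT.lf (nat_lit 0) (nat_lit 99704451449) (nat_lit 380) (nat_lit 376678016549) (nat_lit 456) (nat_lit 82476550942) (nat_lit 100) (nat_lit 5) (nat_lit 105) (nat_lit 5) (nat_lit 106) (nat_lit 5) (nat_lit 447) (nat_lit 434) (nat_lit 139)) (XT.lf (nat_lit 0) (nat_lit 406469723538) (nat_lit 380) (nat_lit 140161258990) (nat_lit 456) (nat_lit 27753381315) (nat_lit 100) (nat_lit 5) (nat_lit 105) (nat_lit 5) (nat_lit 106) (nat_lit 5) (nat_lit 448) (nat_lit 434) (nat_lit 138)))))) (XT.nd (nat_lit 546) (nat_lit 608) (nat_lit 0) (XT.nd (nat_lit 234) (nat_lit 304) (nat_lit 0) (XT.nd (nat_lit 78) (nat_lit 380) (nat_lit 0) (XT.lf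 (nat_lit 0) (nat_lit 32704617241) (nat_lit 380) (nat_lit 450317598574) (nat_lit 76) (nat_lit 107443098220) (nat_lit 95) (nat_lit 5) (nat_lit 100) (nat_lit 5) (nat_lit 96) (nat_lit 5) (nat_lit 449) (nat_lit 434) (nat_lit 137)) (XT.nd (nat_lit 78) (nat_lit 380) (nat_lit 0) (XT.lf (nat_lit 0) (nat_lit 100440865517) (nat_lit 380) (nat_lit 140564652139) (nat_lit 76) (nat_lit 366062643145) (nat_lit 95) (nat_lit 5) (nat_lit 100) (nat_lit 5) (nat_lit 96) (nat_lit 5) (nat_lit 450) (nat_lit 434) (nat_lit 136)) (XT.lf (nat_lit 0) (nat_lit 174796102254) (nat_lit 456) (nat_lit 433823616445) (nat_lit 76) (nat_lit 15719822412) (nat_lit 90) (nat_lit 5) (nat_lit 96) (nat_lit 5) (nat_lit 91) (nat_lit 5) (nat_lit 451) (nat_lit 434) (nat_lit 135)))) (XT.nd (nat_lit 78) (nat_lit 304) (nat_lit 0) (XT.lf (nat_lit 0) (nat_lit 259239553382) (nat_lit 456) (nat_lit 103314796239) (nat_lit 76) (nat_lit 279601618196)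 (nat_lit 90) (nat_lit 5) (nat_lit 96) (nat_lit 5) (nat_lit 91) (nat_lit 5) (nat_lit 452) (nat_lit 434) (nat_lit 134)) (XT.nd (nat_lit 78) (nat_lit 0) (nat_lit 0) (XT.lf (nat_lit 0) (nat_lit 251777916656) (nat_lit 304) (nat_lit 100058206859) (nat_lit 380) (nat_lit 308830545029) (nat_lit 86) (nat_lit 5) (nat_lit 90) (nat_lit 5) (nat_lit 91) (nat_lit 5) (nat_lit 453) (nat_lit 434) (nat_lit 133)) (XT.lf (nat_lit 0) (nat_lit 453581905944) (nat_lit 380) (nat_lit 54573022578) (nat_lit 76) (nat_lit 171722006601) (nat_lit 86) (nat_lit 5) (nat_lit 91) (nat_lit 5) (nat_lit 87) (nat_lit 5) (nat_lit 454) (nat_lit 434) (nat_lit 132))))) (XT.nd (nat_lit 51558) (nat_lit 0) (nat_lit 2432) (XT.nd (nat_lit 78) (nat_lit 76) (nat_lit 0) (XT.lf (nat_lit 0) (nat_lit 7132541610) (nat_lit 228) (nat_lit 680933314769) (nat_lit 304) (nat_lit 32387369892) (nat_lit 79) (nat_lit 5) (nat_lit 82) (nat_lit 5) (nat_lit 83)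 (nat_lit 5) (nat_lit 456) (nat_lit 434) (nat_lit 130)) (XT.nd (nat_lit 51402) (nat_lit 0) (nat_lit 2432) (XT.lf (nat_lit 0) (nat_lit 80843193326) (nat_lit 304) (nat_lit 327395521014) (nat_lit 76) (nat_lit 333418151737) (nat_lit 78) (nat_lit 5) (nat_lit 82) (nat_lit 5) (nat_lit 79) (nat_lit 5) (nat_lit 457) (nat_lit 434) (nat_lit 129)) (XT.lf (nat_lit 0) (nat_lit 47414614821) (nat_lit 836) (nat_lit 81116759100) (nat_lit 836) (nat_lit 81116759100) (nat_lit 110) (nat_lit 3) (nat_lit 121) (nat_lit 3) (nat_lit 121) (nat_lit 5) (nat_lit 435) (nat_lit 435) (nat_lit 150)))) (XT.nd (nat_lit 156) (nat_lit 0) (nat_lit 76) (XT.nd (nat_lit 78) (nat_lit 0) (nat_lit 76) (XT.lf (nat_lit 76) (nat_lit 41105533294) (nat_lit 0) (nat_lit 56736561723) (nat_lit 836) (nat_lit 331904470691) (nat_lit 111) (nat_lit 5) (nat_lit 110) (nat_lit 3) (nat_lit 121) (nat_lit 5) (nat_lit 436) (nat_lit 435) (nat_lit 149)) (XT.lf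 (nat_lit 0) (nat_lit 106196343728) (nat_lit 760) (nat_lit 182781360488) (nat_lit 836) (nat_lit 151482139152) (nat_lit 111) (nat_lit 5) (nat_lit 121) (nat_lit 5) (nat_lit 122) (nat_lit 5) (nat_lit 437) (nat_lit 435) (nat_lit 148))) (XT.nd (nat_lit 78) (nat_lit 0) (nat_lit 76) (XT.lf (nat_lit 76) (nat_lit 33513825923) (nat_lit 0) (nat_lit 82907809166) (nat_lit 836) (nat_lit 335214483326) (nat_lit 112) (nat_lit 5) (nat_lit 111) (nat_lit 5) (nat_lit 122) (nat_lit 5) (nat_lit 438) (nat_lit 435) (nat_lit 147)) (XT.lf (nat_lit 0) (nat_lit 132388178180) (nat_lit 760) (nat_lit 198381436678) (nat_lit 836) (nat_lit 132340093015) (nat_lit 112) (nat_lit 5) (nat_lit 122) (nat_lit 5) (nat_lit 123) (nat_lit 5) (nat_lit 439) (nat_lit 435) (nat_lit 146))))))) (XT.nd (nat_lit 1014) (nat_lit 608) (nat_lit 0) (XT.nd (nat_lit 468) (nat_lit 1672) (nat_lit 0) (XT.nd (nat_lit 234) (nat_lit 0) (nat_lit 152) (XT.nd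 (nat_lit 78) (nat_lit 0) (nat_lit 76) (XT.lf (nat_lit 76) (nat_lit 32011884144) (nat_lit 0) (nat_lit 119000083801) (nat_lit 836) (nat_lit 324052062896) (nat_lit 113) (nat_lit 5) (nat_lit 112) (nat_lit 5) (nat_lit 123) (nat_lit 5) (nat_lit 440) (nat_lit 435) (nat_lit 145)) (XT.nd (nat_lit 78) (nat_lit 0) (nat_lit 0) (XT.lf (nat_lit 0) (nat_lit 175595397211) (nat_lit 760) (nat_lit 208304657247) (nat_lit 836) (nat_lit 103464593012) (nat_lit 113) (nat_lit 5) (nat_lit 123) (nat_lit 5) (nat_lit 124) (nat_lit 5) (nat_lit 441) (nat_lit 435) (nat_lit 144)) (XT.lf (nat_lit 76) (nat_lit 37427278530) (nat_lit 0) (nat_lit 166515866807) (nat_lit 836) (nat_lit 296210392237) (nat_lit 114) (nat_lit 5) (nat_lit 113) (nat_lit 5) (nat_lit 124) (nat_lit 5) (nat_lit 442) (nat_lit 435) (nat_lit 143)))) (XT.nd (nat_lit 78) (nat_lit 0) (nat_lit 0) (XT.lf (nat_lit 0) (nat_lit 238257731077) (nat_lit 760) (nat_lit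 211749548906) (nat_lit 836) (nat_lit 63347119702) (nat_lit 114) (nat_lit 5) (nat_lit 124) (nat_lit 5) (nat_lit 125) (nat_lit 5) (nat_lit 443) (nat_lit 435) (nat_lit 142)) (XT.nd (nat_lit 78) (nat_lit 0) (nat_lit 76) (XT.lf (nat_lit 76) (nat_lit 50667903985) (nat_lit 0) (nat_lit 227140961616) (nat_lit 836) (nat_lit 249230398337) (nat_lit 115) (nat_lit 5) (nat_lit 114) (nat_lit 5) (nat_lit 125) (nat_lit 5) (nat_lit 444) (nat_lit 435) (nat_lit 141)) (XT.lf (nat_lit 0) (nat_lit 323089649205) (nat_lit 760) (nat_lit 207837413519) (nat_lit 76) (nat_lit 10293704072) (nat_lit 115) (nat_lit 5) (nat_lit 125) (nat_lit 5) (nat_lit 116) (nat_lit 5) (nat_lit 445) (nat_lit 435) (nat_lit 140))))) (XT.nd (nat_lit 234) (nat_lit 760) (nat_lit 0) (XT.nd (nat_lit 78) (nat_lit 380) (nat_lit 0) (XT.lf (nat_lit 0) (nat_lit 72727322679) (nat_lit 760) (nat_lit 302766233566) (nat_lit 836) (nat_lit 180374834351) (nat_lit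 105) (nat_lit 5) (nat_lit 115) (nat_lit 5) (nat_lit 116) (nat_lit 5) (nat_lit 446) (nat_lit 435) (nat_lit 139)) (XT.nd (nat_lit 78) (nat_lit 380) (nat_lit 0) (XT.lf (nat_lit 0) (nat_lit 374535927845) (nat_lit 760) (nat_lit 59501543088) (nat_lit 836) (nat_lit 137034934048) (nat_lit 105) (nat_lit 5) (nat_lit 115) (nat_lit 5) (nat_lit 116) (nat_lit 5) (nat_lit 447) (nat_lit 435) (nat_lit 138)) (XT.lf (nat_lit 0) (nat_lit 104690106877) (nat_lit 380) (nat_lit 395511926204) (nat_lit 456) (nat_lit 86599914427) (nat_lit 100) (nat_lit 5) (nat_lit 105) (nat_lit 5) (nat_lit 106) (nat_lit 5) (nat_lit 448) (nat_lit 435) (nat_lit 137)))) (XT.nd (nat_lit 156) (nat_lit 380) (nat_lit 0) (XT.nd (nat_lit 78) (nat_lit 380) (nat_lit 0) (XT.lf (nat_lit 0) (nat_lit 426793621959) (nat_lit 380) (nat_lit 147169330347) (nat_lit 456) (nat_lit 29140608416) (nat_lit 100) (nat_lit 5) (nat_lit 105) (nat_lit 5) (nat_lit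 106) (nat_lit 5) (nat_lit 449) (nat_lit 435) (nat_lit 136)) (XT.lf (nat_lit 0) (nat_lit 34340262193) (nat_lit 380) (nat_lit 472833037864) (nat_lit 76) (nat_lit 112815258720) (nat_lit 95) (nat_lit 5) (nat_lit 100) (nat_lit 5) (nat_lit 96) (nat_lit 5) (nat_lit 450) (nat_lit 435) (nat_lit 135))) (XT.nd (nat_lit 78) (nat_lit 380) (nat_lit 0) (XT.lf (nat_lit 0) (nat_lit 105463303164) (nat_lit 380) (nat_lit 147592465090) (nat_lit 76) (nat_lit 384365780625) (nat_lit 95) (nat_lit 5) (nat_lit 100) (nat_lit 5) (nat_lit 96) (nat_lit 5) (nat_lit 451) (nat_lit 435) (nat_lit 134)) (XT.lf (nat_lit 0) (nat_lit 183536289887) (nat_lit 456) (nat_lit 455514365529) (nat_lit 76) (nat_lit 16505843395) (nat_lit 90) (nat_lit 5) (nat_lit 96) (nat_lit 5) (nat_lit 91) (nat_lit 5) (nat_lit 452) (nat_lit 435) (nat_lit 133)))))) (XT.nd (nat_lit 52104) (nat_lit 0) (nat_lit 2280) (XT.nd (nat_lit 51870) (nat_lit 0) (nat_lit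 2128) (XT.nd (nat_lit 234) (nat_lit 608) (nat_lit 0) (XT.lf (nat_lit 0) (nat_lit 272201895356) (nat_lit 456) (nat_lit 108480124871) (nat_lit 76) (nat_lit 293581727546) (nat_lit 90) (nat_lit 5) (nat_lit 96) (nat_lit 5) (nat_lit 91) (nat_lit 5) (nat_lit 453) (nat_lit 435) (nat_lit 132)) (XT.nd (nat_lit 51558) (nat_lit 0) (nat_lit 2128) (XT.lf (nat_lit 0) (nat_lit 342573979238) (nat_lit 304) (nat_lit 252932909474) (nat_lit 380) (nat_lit 139189653774) (nat_lit 82) (nat_lit 5) (nat_lit 86) (nat_lit 5) (nat_lit 87) (nat_lit 5) (nat_lit 456) (nat_lit 435) (nat_lit 129)) (XT.lf (nat_lit 0) (nat_lit 49785701970) (nat_lit 836) (nat_lit 85172409815) (nat_lit 836) (nat_lit 85172409815) (nat_lit 110) (nat_lit 3) (nat_lit 121) (nat_lit 3) (nat_lit 121) (nat_lit 5) (nat_lit 436) (nat_lit 436) (nat_lit 148)))) (XT.nd (nat_lit 78) (nat_lit 0) (nat_lit 76) (XT.lf (nat_lit 76) (nat_lit 43161178399) (nat_lit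 0) (nat_lit 59573705994) (nat_lit 836) (nat_lit 348498974889) (nat_lit 111) (nat_lit 5) (nat_lit 110) (nat_lit 3) (nat_lit 121) (nat_lit 5) (nat_lit 437) (nat_lit 436) (nat_lit 147)) (XT.nd (nat_lit 78) (nat_lit 0) (nat_lit 0) (XT.lf (nat_lit 0) (nat_lit 111506808238) (nat_lit 760) (nat_lit 191920039857) (nat_lit 836) (nat_lit 159055954619) (nat_lit 111) (nat_lit 5) (nat_lit 121) (nat_lit 5) (nat_lit 122) (nat_lit 5) (nat_lit 438) (nat_lit 436) (nat_lit 146)) (XT.lf (nat_lit 76) (nat_lit 35189899606) (nat_lit 0) (nat_lit 87053439706) (nat_lit 836) (nat_lit 351974553466) (nat_lit 112) (nat_lit 5) (nat_lit 111) (nat_lit 5) (nat_lit 122) (nat_lit 5) (nat_lit 439) (nat_lit 436) (nat_lit 145))))) (XT.nd (nat_lit 234) (nat_lit 0) (nat_lit 76) (XT.nd (nat_lit 78) (nat_lit 0) (nat_lit 0) (XT.lf (nat_lit 0) (nat_lit 139008176346) (nat_lit 760) (nat_lit 208300110709) (nat_lit 836) (nat_lit 138956876334)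 (nat_lit 112) (nat_lit 5) (nat_lit 122) (nat_lit 5) (nat_lit 123) (nat_lit 5) (nat_lit 440) (nat_lit 436) (nat_lit 144)) (XT.nd (nat_lit 78) (nat_lit 0) (nat_lit 76) (XT.lf (nat_lit 76) (nat_lit 33612869738) (nat_lit 0) (nat_lit 124950263912) (nat_lit 836) (nat_lit 340254069973) (nat_lit 113) (nat_lit 5) (nat_lit 112) (nat_lit 5) (nat_lit 123) (nat_lit 5) (nat_lit 441) (nat_lit 436) (nat_lit 143)) (XT.lf (nat_lit 0) (nat_lit 184375704749) (nat_lit 760) (nat_lit 218719487354) (nat_lit 836) (nat_lit 108637660481) (nat_lit 113) (nat_lit 5) (nat_lit 123) (nat_lit 5) (nat_lit 124) (nat_lit 5) (nat_lit 442) (nat_lit 436) (nat_lit 142)))) (XT.nd (nat_lit 156) (nat_lit 0) (nat_lit 76) (XT.nd (nat_lit 78) (nat_lit 0) (nat_lit 76) (XT.lf (nat_lit 76) (nat_lit 39299038716) (nat_lit 0) (nat_lit 174841782148) (nat_lit 836) (nat_lit 311020367318) (nat_lit 114) (nat_lit 5) (nat_lit 113) (nat_lit 5) (nat_lit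 124) (nat_lit 5) (nat_lit 443) (nat_lit 436) (nat_lit 141)) (XT.lf (nat_lit 0) (nat_lit 250171109398) (nat_lit 760) (nat_lit 222336622128) (nat_lit 836) (nat_lit 66514363214) (nat_lit 114) (nat_lit 5) (nat_lit 124) (nat_lit 5) (nat_lit 125) (nat_lit 5) (nat_lit 444) (nat_lit 436) (nat_lit 140))) (XT.nd (nat_lit 78) (nat_lit 0) (nat_lit 76) (XT.lf (nat_lit 76) (nat_lit 53201696888) (nat_lit 0) (nat_lit 238498086552) (nat_lit 836) (nat_lit 261691419642) (nat_lit 115) (nat_lit 5) (nat_lit 114) (nat_lit 5) (nat_lit 125) (nat_lit 5) (nat_lit 445) (nat_lit 436) (nat_lit 139)) (XT.lf (nat_lit 0) (nat_lit 339244582484) (nat_lit 760) (nat_lit 218228881379) (nat_lit 76) (nat_lit 10808318423) (nat_lit 115) (nat_lit 5) (nat_lit 125) (nat_lit 5) (nat_lit 116) (nat_lit 5) (nat_lit 446) (nat_lit 436) (nat_lit 138))))))))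
noncomputable def xc254 : XT := (XT.nd (nat_lit 105534) (nat_lit 0) (nat_lit 1064) (XT.nd (nat_lit 52650) (nat_lit 0) (nat_lit 304) (XT.nd (nat_lit 468) (nat_lit 684) (nat_lit 0) (XT.nd (nat_lit 234) (nat_lit 380) (nat_lit 0) (XT.nd (nat_lit 78) (nat_lit 380) (nat_lit 0) (XT.lf (nat_lit 0) (nat_lit 76364085132) (nat_lit 760) (nat_lit 317904584464) (nat_lit 836) (nat_lit 189393118459) (nat_lit 105) (nat_lit 5) (nat_lit 115) (nat_lit 5) (nat_lit 116) (nat_lit 5) (nat_lit 447) (nat_lit 436) (nat_lit 137)) (XT.nd (nat_lit 78) (nat_lit 380) (nat_lit 0) (XT.lf (nat_lit 0) (nat_lit 393263101684) (nat_lit 760) (nat_lit 62476657594) (nat_lit 836) (nat_lit 143886244932) (nat_lit 105) (nat_lit 5) (nat_lit 115) (nat_lit 5) (nat_lit 116) (nat_lit 5) (nat_lit 448) (nat_lit 436) (nat_lit 136)) (XT.lf (nat_lit 0) (nat_lit 109925004834) (nat_lit 380) (nat_lit 415287530522) (nat_lit 456) (nat_lit 90929489230)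 (nat_lit 100) (nat_lit 5) (nat_lit 105) (nat_lit 5) (nat_lit 106) (nat_lit 5) (nat_lit 449) (nat_lit 436) (nat_lit 135)))) (XT.nd (nat_lit 78) (nat_lit 380) (nat_lit 0) (XT.lf (nat_lit 0) (nat_lit 448133676974) (nat_lit 380) (nat_lit 154527804491) (nat_lit 456) (nat_lit 30597237963) (nat_lit 100) (nat_lit 5) (nat_lit 105) (nat_lit 5) (nat_lit 106) (nat_lit 5) (nat_lit 450) (nat_lit 436) (nat_lit 134)) (XT.nd (nat_lit 78) (nat_lit 0) (nat_lit 0) (XT.lf (nat_lit 0) (nat_lit 36057650895) (nat_lit 380) (nat_lit 496474290084) (nat_lit 76) (nat_lit 118456026727) (nat_lit 95) (nat_lit 5) (nat_lit 100) (nat_lit 5) (nat_lit 96) (nat_lit 5) (nat_lit 451) (nat_lit 436) (nat_lit 133)) (XT.lf (nat_lit 0) (nat_lit 110736826029) (nat_lit 380) (nat_lit 154971707704) (nat_lit 76) (nat_lit 403584074485) (nat_lit 95) (nat_lit 5) (nat_lit 100) (nat_lit 5) (nat_lit 96) (nat_lit 5) (nat_lit 452) (nat_lit 436)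 (nat_lit 132))))) (XT.nd (nat_lit 51948) (nat_lit 0) (nat_lit 1824) (XT.nd (nat_lit 234) (nat_lit 304) (nat_lit 0) (XT.lf (nat_lit 0) (nat_lit 192713451338) (nat_lit 456) (nat_lit 478289692206) (nat_lit 76) (nat_lit 17331162650) (nat_lit 90) (nat_lit 5) (nat_lit 96) (nat_lit 5) (nat_lit 91) (nat_lit 5) (nat_lit 453) (nat_lit 436) (nat_lit 131)) (XT.nd (nat_lit 51636) (nat_lit 0) (nat_lit 1824) (XT.lf (nat_lit 0) (nat_lit 500074711239) (nat_lit 380) (nat_lit 60165971562) (nat_lit 76) (nat_lit 189323604786) (nat_lit 86) (nat_lit 5) (nat_lit 91) (nat_lit 5) (nat_lit 87) (nat_lit 5) (nat_lit 456) (nat_lit 436) (nat_lit 128)) (XT.lf (nat_lit 0) (nat_lit 52275310342) (nat_lit 836) (nat_lit 89430860473) (nat_lit 836) (nat_lit 89430860473) (nat_lit 110) (nat_lit 3) (nat_lit 121) (nat_lit 3) (nat_lit 121) (nat_lit 5) (nat_lit 437) (nat_lit 437) (nat_lit 146)))) (XT.nd (nat_lit 78) (nat_lit 0) (nat_lit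 76) (XT.lf (nat_lit 76) (nat_lit 45319571506) (nat_lit 0) (nat_lit 62552678083) (nat_lit 836) (nat_lit 365923271174) (nat_lit 111) (nat_lit 5) (nat_lit 110) (nat_lit 3) (nat_lit 121) (nat_lit 5) (nat_lit 438) (nat_lit 437) (nat_lit 145)) (XT.nd (nat_lit 78) (nat_lit 0) (nat_lit 0) (XT.lf (nat_lit 0) (nat_lit 117082735791) (nat_lit 760) (nat_lit 201515689329) (nat_lit 836) (nat_lit 167008487959) (nat_lit 111) (nat_lit 5) (nat_lit 121) (nat_lit 5) (nat_lit 122) (nat_lit 5) (nat_lit 439) (nat_lit 437) (nat_lit 144)) (XT.lf (nat_lit 76) (nat_lit 36949741422) (nat_lit 0) (nat_lit 91406329453) (nat_lit 836) (nat_lit 369572687918) (nat_lit 112) (nat_lit 5) (nat_lit 111) (nat_lit 5) (nat_lit 122) (nat_lit 5) (nat_lit 440) (nat_lit 437) (nat_lit 143)))))) (XT.nd (nat_lit 468) (nat_lit 1672) (nat_lit 0) (XT.nd (nat_lit 234) (nat_lit 0) (nat_lit 76) (XT.nd (nat_lit 78) (nat_lit 0) (nat_lit 0) (XT.lf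 (nat_lit 0) (nat_lit 145959119637) (nat_lit 760) (nat_lit 218714755425) (nat_lit 836) (nat_lit 145904519397) (nat_lit 112) (nat_lit 5) (nat_lit 122) (nat_lit 5) (nat_lit 123) (nat_lit 5) (nat_lit 441) (nat_lit 437) (nat_lit 142)) (XT.nd (nat_lit 78) (nat_lit 0) (nat_lit 76) (XT.lf (nat_lit 76) (nat_lit 35293868224) (nat_lit 0) (nat_lit 131197936674) (nat_lit 836) (nat_lit 357266232821) (nat_lit 113) (nat_lit 5) (nat_lit 112) (nat_lit 5) (nat_lit 123) (nat_lit 5) (nat_lit 442) (nat_lit 437) (nat_lit 141)) (XT.lf (nat_lit 0) (nat_lit 193594977676) (nat_lit 760) (nat_lit 229655096411) (nat_lit 836) (nat_lit 114069396402) (nat_lit 113) (nat_lit 5) (nat_lit 123) (nat_lit 5) (nat_lit 124) (nat_lit 5) (nat_lit 443) (nat_lit 437) (nat_lit 140)))) (XT.nd (nat_lit 78) (nat_lit 0) (nat_lit 76) (XT.lf (nat_lit 76) (nat_lit 41264350070) (nat_lit 0) (nat_lit 183583981914) (nat_lit 836) (nat_lit 326570891778)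 (nat_lit 114) (nat_lit 5) (nat_lit 113) (nat_lit 5) (nat_lit 124) (nat_lit 5) (nat_lit 444) (nat_lit 437) (nat_lit 139)) (XT.nd (nat_lit 78) (nat_lit 0) (nat_lit 0) (XT.lf (nat_lit 0) (nat_lit 262680110915) (nat_lit 760) (nat_lit 233453086591) (nat_lit 836) (nat_lit 69839979359) (nat_lit 114) (nat_lit 5) (nat_lit 124) (nat_lit 5) (nat_lit 125) (nat_lit 5) (nat_lit 445) (nat_lit 437) (nat_lit 138)) (XT.lf (nat_lit 76) (nat_lit 55862142461) (nat_lit 0) (nat_lit 250423060589) (nat_lit 836) (nat_lit 274775538369) (nat_lit 115) (nat_lit 5) (nat_lit 114) (nat_lit 5) (nat_lit 125) (nat_lit 5) (nat_lit 446) (nat_lit 437) (nat_lit 137))))) (XT.nd (nat_lit 234) (nat_lit 1140) (nat_lit 0) (XT.nd (nat_lit 78) (nat_lit 760) (nat_lit 0) (XT.lf (nat_lit 0) (nat_lit 356207220513) (nat_lit 760) (nat_lit 229139960083) (nat_lit 76) (nat_lit 11348670079) (nat_lit 115) (nat_lit 5) (nat_lit 125) (nat_lit 5) (nat_lit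 116) (nat_lit 5) (nat_lit 447) (nat_lit 437) (nat_lit 136)) (XT.nd (nat_lit 78) (nat_lit 0) (nat_lit 0) (XT.lf (nat_lit 0) (nat_lit 80182648861) (nat_lit 760) (nat_lit 333799849261) (nat_lit 836) (nat_lit 198862359316) (nat_lit 105) (nat_lit 5) (nat_lit 115) (nat_lit 5) (nat_lit 116) (nat_lit 5) (nat_lit 448) (nat_lit 437) (nat_lit 135)) (XT.lf (nat_lit 0) (nat_lit 412926599123) (nat_lit 760) (nat_lit 65600524354) (nat_lit 836) (nat_lit 151080161878) (nat_lit 105) (nat_lit 5) (nat_lit 115) (nat_lit 5) (nat_lit 116) (nat_lit 5) (nat_lit 449) (nat_lit 437) (nat_lit 134)))) (XT.nd (nat_lit 156) (nat_lit 760) (nat_lit 0) (XT.nd (nat_lit 78) (nat_lit 0) (nat_lit 0) (XT.lf (nat_lit 0) (nat_lit 115421611188) (nat_lit 380) (nat_lit 436051914311) (nat_lit 456) (nat_lit 95475581906) (nat_lit 100) (nat_lit 5) (nat_lit 105) (nat_lit 5) (nat_lit 106) (nat_lit 5) (nat_lit 450) (nat_lit 437) (nat_lit 133))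 (XT.lf (nat_lit 0) (nat_lit 470540699977) (nat_lit 380) (nat_lit 162254201632) (nat_lit 456) (nat_lit 32126736256) (nat_lit 100) (nat_lit 5) (nat_lit 105) (nat_lit 5) (nat_lit 106) (nat_lit 5) (nat_lit 451) (nat_lit 437) (nat_lit 132))) (XT.nd (nat_lit 234) (nat_lit 380) (nat_lit 0) (XT.lf (nat_lit 0) (nat_lit 37860874113) (nat_lit 380) (nat_lit 521297642074) (nat_lit 76) (nat_lit 124378832662) (nat_lit 95) (nat_lit 5) (nat_lit 100) (nat_lit 5) (nat_lit 96) (nat_lit 5) (nat_lit 452) (nat_lit 437) (nat_lit 131)) (XT.lf (nat_lit 0) (nat_lit 300103236302) (nat_lit 456) (nat_lit 119598607793) (nat_lit 76) (nat_lit 323673905102) (nat_lit 90) (nat_lit 5) (nat_lit 96) (nat_lit 5) (nat_lit 91) (nat_lit 5) (nat_lit 455) (nat_lit 437) (nat_lit 128))))))) (XT.nd (nat_lit 1014) (nat_lit 380) (nat_lit 0) (XT.nd (nat_lit 468) (nat_lit 380) (nat_lit 0) (XT.nd (nat_lit 234) (nat_lit 0) (nat_lit 76) (XT.nd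 (nat_lit 78) (nat_lit 0) (nat_lit 0) (XT.lf (nat_lit 0) (nat_lit 54889369077) (nat_lit 836) (nat_lit 93902249454) (nat_lit 836) (nat_lit 93902249454) (nat_lit 110) (nat_lit 3) (nat_lit 121) (nat_lit 3) (nat_lit 121) (nat_lit 5) (nat_lit 438) (nat_lit 438) (nat_lit 144)) (XT.nd (nat_lit 78) (nat_lit 0) (nat_lit 76) (XT.lf (nat_lit 76) (nat_lit 47585853198) (nat_lit 0) (nat_lit 65680572113) (nat_lit 836) (nat_lit 384218842933) (nat_lit 111) (nat_lit 5) (nat_lit 110) (nat_lit 3) (nat_lit 121) (nat_lit 5) (nat_lit 439) (nat_lit 438) (nat_lit 143)) (XT.lf (nat_lit 0) (nat_lit 122937405134) (nat_lit 760) (nat_lit 211591154048) (nat_lit 836) (nat_lit 175358672547) (nat_lit 111) (nat_lit 5) (nat_lit 121) (nat_lit 5) (nat_lit 122) (nat_lit 5) (nat_lit 440) (nat_lit 438) (nat_lit 142)))) (XT.nd (nat_lit 78) (nat_lit 0) (nat_lit 76) (XT.lf (nat_lit 76) (nat_lit 38797543084) (nat_lit 0) (nat_lit 95976843441)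 (nat_lit 836) (nat_lit 388050784245) (nat_lit 112) (nat_lit 5) (nat_lit 111) (nat_lit 5) (nat_lit 122) (nat_lit 5) (nat_lit 441) (nat_lit 438) (nat_lit 141)) (XT.nd (nat_lit 78) (nat_lit 0) (nat_lit 0) (XT.lf (nat_lit 0) (nat_lit 153257560402) (nat_lit 760) (nat_lit 229650165923) (nat_lit 836) (nat_lit 153199563277) (nat_lit 112) (nat_lit 5) (nat_lit 122) (nat_lit 5) (nat_lit 123) (nat_lit 5) (nat_lit 442) (nat_lit 438) (nat_lit 140)) (XT.lf (nat_lit 76) (nat_lit 37058883630) (nat_lit 0) (nat_lit 137757978238) (nat_lit 836) (nat_lit 375129054075) (nat_lit 113) (nat_lit 5) (nat_lit 112) (nat_lit 5) (nat_lit 123) (nat_lit 5) (nat_lit 443) (nat_lit 438) (nat_lit 139))))) (XT.nd (nat_lit 234) (nat_lit 608) (nat_lit 0) (XT.nd (nat_lit 78) (nat_lit 0) (nat_lit 0) (XT.lf (nat_lit 0) (nat_lit 203275168908) (nat_lit 760) (nat_lit 241137519883) (nat_lit 836) (nat_lit 119772732795) (nat_lit 113) (nat_lit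 5) (nat_lit 123) (nat_lit 5) (nat_lit 124) (nat_lit 5) (nat_lit 444) (nat_lit 438) (nat_lit 138)) (XT.nd (nat_lit 78) (nat_lit 0) (nat_lit 76) (XT.lf (nat_lit 76) (nat_lit 43327893577) (nat_lit 0) (nat_lit 192763281381) (nat_lit 836) (nat_lit 342898988379) (nat_lit 114) (nat_lit 5) (nat_lit 113) (nat_lit 5) (nat_lit 124) (nat_lit 5) (nat_lit 445) (nat_lit 438) (nat_lit 137)) (XT.lf (nat_lit 0) (nat_lit 275814521039) (nat_lit 760) (nat_lit 245125408365) (nat_lit 836) (nat_lit 73331885795) (nat_lit 114) (nat_lit 5) (nat_lit 124) (nat_lit 5) (nat_lit 125) (nat_lit 5) (nat_lit 446) (nat_lit 438) (nat_lit 136)))) (XT.nd (nat_lit 156) (nat_lit 684) (nat_lit 0) (XT.nd (nat_lit 78) (nat_lit 0) (nat_lit 76) (XT.lf (nat_lit 76) (nat_lit 58655576776) (nat_lit 0) (nat_lit 262944276848) (nat_lit 836) (nat_lit 288513905079) (nat_lit 115) (nat_lit 5) (nat_lit 114) (nat_lit 5) (nat_lit 125) (nat_lit 5)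 (nat_lit 447) (nat_lit 438) (nat_lit 135)) (XT.lf (nat_lit 0) (nat_lit 374017952428) (nat_lit 760) (nat_lit 240596626690) (nat_lit 76) (nat_lit 11916045292) (nat_lit 115) (nat_lit 5) (nat_lit 125) (nat_lit 5) (nat_lit 116) (nat_lit 5) (nat_lit 448) (nat_lit 438) (nat_lit 134))) (XT.nd (nat_lit 78) (nat_lit 0) (nat_lit 0) (XT.lf (nat_lit 0) (nat_lit 84192107356) (nat_lit 760) (nat_lit 350489873990) (nat_lit 836) (nat_lit 208805100806) (nat_lit 105) (nat_lit 5) (nat_lit 115) (nat_lit 5) (nat_lit 116) (nat_lit 5) (nat_lit 449) (nat_lit 438) (nat_lit 133)) (XT.lf (nat_lit 0) (nat_lit 433573239605) (nat_lit 760) (nat_lit 68880581301) (nat_lit 836) (nat_lit 158633811423) (nat_lit 105) (nat_lit 5) (nat_lit 115) (nat_lit 5) (nat_lit 116) (nat_lit 5) (nat_lit 450) (nat_lit 438) (nat_lit 132)))))) (XT.nd (nat_lit 52494) (nat_lit 0) (nat_lit 912) (XT.nd (nat_lit 52260) (nat_lit 0) (nat_lit 760) (XT.nd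 (nat_lit 78) (nat_lit 0) (nat_lit 0) (XT.lf (nat_lit 0) (nat_lit 121193014751) (nat_lit 380) (nat_lit 457854516614) (nat_lit 456) (nat_lit 100249014711) (nat_lit 100) (nat_lit 5) (nat_lit 105) (nat_lit 5) (nat_lit 106) (nat_lit 5) (nat_lit 451) (nat_lit 438) (nat_lit 131)) (XT.nd (nat_lit 52104) (nat_lit 0) (nat_lit 760) (XT.lf (nat_lit 0) (nat_lit 494068042599) (nat_lit 380) (nat_lit 170366917988) (nat_lit 456) (nat_lit 33732743268) (nat_lit 100) (nat_lit 5) (nat_lit 105) (nat_lit 5) (nat_lit 106) (nat_lit 5) (nat_lit 452) (nat_lit 438) (nat_lit 130)) (XT.lf (nat_lit 0) (nat_lit 57634103489) (nat_lit 836) (nat_lit 98597222205) (nat_lit 836) (nat_lit 98597222205) (nat_lit 110) (nat_lit 3) (nat_lit 121) (nat_lit 3) (nat_lit 121) (nat_lit 5) (nat_lit 439) (nat_lit 439) (nat_lit 142)))) (XT.nd (nat_lit 78) (nat_lit 0) (nat_lit 76) (XT.lf (nat_lit 76) (nat_lit 49965420794) (nat_lit 0) (nat_lit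 68964836661) (nat_lit 836) (nat_lit 403429248300) (nat_lit 111) (nat_lit 5) (nat_lit 110) (nat_lit 3) (nat_lit 121) (nat_lit 5) (nat_lit 440) (nat_lit 439) (nat_lit 141)) (XT.nd (nat_lit 78) (nat_lit 0) (nat_lit 0) (XT.lf (nat_lit 0) (nat_lit 129084758434) (nat_lit 760) (nat_lit 222170421730) (nat_lit 836) (nat_lit 184126388659) (nat_lit 111) (nat_lit 5) (nat_lit 121) (nat_lit 5) (nat_lit 122) (nat_lit 5) (nat_lit 441) (nat_lit 439) (nat_lit 140)) (XT.lf (nat_lit 76) (nat_lit 40737705580) (nat_lit 0) (nat_lit 100775864766) (nat_lit 836) (nat_lit 407452835413) (nat_lit 112) (nat_lit 5) (nat_lit 111) (nat_lit 5) (nat_lit 122) (nat_lit 5) (nat_lit 442) (nat_lit 439) (nat_lit 139))))) (XT.nd (nat_lit 234) (nat_lit 0) (nat_lit 76) (XT.nd (nat_lit 78) (nat_lit 0) (nat_lit 0) (XT.lf (nat_lit 0) (nat_lit 160920878135) (nat_lit 760) (nat_lit 241132377373) (nat_lit 836) (nat_lit 160859376280) (nat_lit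 112) (nat_lit 5) (nat_lit 122) (nat_lit 5) (nat_lit 123) (nat_lit 5) (nat_lit 443) (nat_lit 439) (nat_lit 138)) (XT.nd (nat_lit 78) (nat_lit 0) (nat_lit 76) (XT.lf (nat_lit 76) (nat_lit 38912119870) (nat_lit 0) (nat_lit 144646008425) (nat_lit 836) (nat_lit 393885061984) (nat_lit 113) (nat_lit 5) (nat_lit 112) (nat_lit 5) (nat_lit 123) (nat_lit 5) (nat_lit 444) (nat_lit 439) (nat_lit 137)) (XT.lf (nat_lit 0) (nat_lit 213439328576) (nat_lit 760) (nat_lit 253194095335) (nat_lit 836) (nat_lit 125761248412) (nat_lit 113) (nat_lit 5) (nat_lit 123) (nat_lit 5) (nat_lit 124) (nat_lit 5) (nat_lit 445) (nat_lit 439) (nat_lit 136)))) (XT.nd (nat_lit 156) (nat_lit 0) (nat_lit 76) (XT.nd (nat_lit 78) (nat_lit 0) (nat_lit 76) (XT.lf (nat_lit 76) (nat_lit 45494583951) (nat_lit 0) (nat_lit 202401536489) (nat_lit 836) (nat_lit 360043531461) (nat_lit 114) (nat_lit 5) (nat_lit 113) (nat_lit 5) (nat_lit 124)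 (nat_lit 5) (nat_lit 446) (nat_lit 439) (nat_lit 135)) (XT.lf (nat_lit 0) (nat_lit 289605614055) (nat_lit 760) (nat_lit 257381377145) (nat_lit 836) (nat_lit 76998396156) (nat_lit 114) (nat_lit 5) (nat_lit 124) (nat_lit 5) (nat_lit 125) (nat_lit 5) (nat_lit 447) (nat_lit 439) (nat_lit 134))) (XT.nd (nat_lit 78) (nat_lit 0) (nat_lit 76) (XT.lf (nat_lit 76) (nat_lit 61588652388) (nat_lit 0) (nat_lit 276091548040) (nat_lit 836) (nat_lit 302939228261) (nat_lit 115) (nat_lit 5) (nat_lit 114) (nat_lit 5) (nat_lit 125) (nat_lit 5) (nat_lit 448) (nat_lit 439) (nat_lit 133)) (XT.lf (nat_lit 0) (nat_lit 392719186457) (nat_lit 760) (nat_lit 252626157437) (nat_lit 76) (nat_lit 12511794686) (nat_lit 115) (nat_lit 5) (nat_lit 125) (nat_lit 5) (nat_lit 116) (nat_lit 5) (nat_lit 449) (nat_lit 439) (nat_lit 132))))))))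
noncomputable def xc255 : XT := (XT.nd (nat_lit 158808) (nat_lit 0) (nat_lit 1140) (XT.nd (nat_lit 53118) (nat_lit 0) (nat_lit 760) (XT.nd (nat_lit 52572) (nat_lit 0) (nat_lit 1216) (XT.nd (nat_lit 52338) (nat_lit 0) (nat_lit 1140) (XT.nd (nat_lit 78) (nat_lit 760) (nat_lit 0) (XT.lf (nat_lit 0) (nat_lit 88402008463) (nat_lit 760) (nat_lit 368014396956) (nat_lit 836) (nat_lit 219245014371) (nat_lit 105) (nat_lit 5) (nat_lit 115) (nat_lit 5) (nat_lit 116) (nat_lit 5) (nat_lit 450) (nat_lit 439) (nat_lit 131)) (XT.nd (nat_lit 234) (nat_lit 760) (nat_lit 0) (XT.lf (nat_lit 0) (nat_lit 455252183241) (nat_lit 760) (nat_lit 72324638239) (nat_lit 836) (nat_lit 166565176780) (nat_lit 105) (nat_lit 5) (nat_lit 115) (nat_lit 5) (nat_lit 116) (nat_lit 5) (nat_lit 451) (nat_lit 439) (nat_lit 130)) (XT.lf (nat_lit 0) (nat_lit 41742218433) (nat_lit 380) (nat_lit 574730006893) (nat_lit 76) (nat_lit 137127671173)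 (nat_lit 95) (nat_lit 5) (nat_lit 100) (nat_lit 5) (nat_lit 96) (nat_lit 5) (nat_lit 454) (nat_lit 439) (nat_lit 127)))) (XT.nd (nat_lit 78) (nat_lit 0) (nat_lit 0) (XT.lf (nat_lit 0) (nat_lit 60516049894) (nat_lit 836) (nat_lit 103526956584) (nat_lit 836) (nat_lit 103526956584) (nat_lit 110) (nat_lit 3) (nat_lit 121) (nat_lit 3) (nat_lit 121) (nat_lit 5) (nat_lit 440) (nat_lit 440) (nat_lit 140)) (XT.nd (nat_lit 78) (nat_lit 0) (nat_lit 76) (XT.lf (nat_lit 76) (nat_lit 52463941209) (nat_lit 0) (nat_lit 72413292501) (nat_lit 836) (nat_lit 423600223840) (nat_lit 111) (nat_lit 5) (nat_lit 110) (nat_lit 3) (nat_lit 121) (nat_lit 5) (nat_lit 441) (nat_lit 440) (nat_lit 139)) (XT.lf (nat_lit 0) (nat_lit 135539434489) (nat_lit 760) (nat_lit 233278679759) (nat_lit 836) (nat_lit 193332510800) (nat_lit 111) (nat_lit 5) (nat_lit 121) (nat_lit 5) (nat_lit 122) (nat_lit 5) (nat_lit 442) (nat_lit 440)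 (nat_lit 138))))) (XT.nd (nat_lit 234) (nat_lit 0) (nat_lit 152) (XT.nd (nat_lit 78) (nat_lit 0) (nat_lit 76) (XT.lf (nat_lit 76) (nat_lit 42774849674) (nat_lit 0) (nat_lit 105814820501) (nat_lit 836) (nat_lit 427825034513) (nat_lit 112) (nat_lit 5) (nat_lit 111) (nat_lit 5) (nat_lit 122) (nat_lit 5) (nat_lit 443) (nat_lit 440) (nat_lit 137)) (XT.nd (nat_lit 78) (nat_lit 0) (nat_lit 0) (XT.lf (nat_lit 0) (nat_lit 168967320874) (nat_lit 760) (nat_lit 253188726993) (nat_lit 836) (nat_lit 168902195289) (nat_lit 112) (nat_lit 5) (nat_lit 122) (nat_lit 5) (nat_lit 123) (nat_lit 5) (nat_lit 444) (nat_lit 440) (nat_lit 136)) (XT.lf (nat_lit 76) (nat_lit 40857990770) (nat_lit 0) (nat_lit 151878427917) (nat_lit 836) (nat_lit 413578911641) (nat_lit 113) (nat_lit 5) (nat_lit 112) (nat_lit 5) (nat_lit 123) (nat_lit 5) (nat_lit 445) (nat_lit 440) (nat_lit 135)))) (XT.nd (nat_lit 156) (nat_lit 0) (nat_lit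 76) (XT.nd (nat_lit 78) (nat_lit 0) (nat_lit 0) (XT.lf (nat_lit 0) (nat_lit 224111658926) (nat_lit 760) (nat_lit 265853527502) (nat_lit 836) (nat_lit 132049201062) (nat_lit 113) (nat_lit 5) (nat_lit 123) (nat_lit 5) (nat_lit 124) (nat_lit 5) (nat_lit 446) (nat_lit 440) (nat_lit 134)) (XT.lf (nat_lit 76) (nat_lit 47769581353) (nat_lit 0) (nat_lit 212521695888) (nat_lit 836) (nat_lit 378045339474) (nat_lit 114) (nat_lit 5) (nat_lit 113) (nat_lit 5) (nat_lit 124) (nat_lit 5) (nat_lit 447) (nat_lit 440) (nat_lit 133))) (XT.nd (nat_lit 78) (nat_lit 0) (nat_lit 0) (XT.lf (nat_lit 0) (nat_lit 304086227606) (nat_lit 760) (nat_lit 270250172408) (nat_lit 836) (nat_lit 80848239838) (nat_lit 114) (nat_lit 5) (nat_lit 124) (nat_lit 5) (nat_lit 125) (nat_lit 5) (nat_lit 448) (nat_lit 440) (nat_lit 132)) (XT.lf (nat_lit 76) (nat_lit 64668354189) (nat_lit 0) (nat_lit 289896177461) (nat_lit 836) (nat_lit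 318085852194) (nat_lit 115) (nat_lit 5) (nat_lit 114) (nat_lit 5) (nat_lit 125) (nat_lit 5) (nat_lit 449) (nat_lit 440) (nat_lit 131)))))) (XT.nd (nat_lit 52806) (nat_lit 380) (nat_lit 0) (XT.nd (nat_lit 52572) (nat_lit 0) (nat_lit 76) (XT.nd (nat_lit 52416) (nat_lit 380) (nat_lit 0) (XT.lf (nat_lit 0) (nat_lit 412355450911) (nat_lit 760) (nat_lit 265257192668) (nat_lit 76) (nat_lit 13137336464) (nat_lit 115) (nat_lit 5) (nat_lit 125) (nat_lit 5) (nat_lit 116) (nat_lit 5) (nat_lit 450) (nat_lit 440) (nat_lit 130)) (XT.nd (nat_lit 78) (nat_lit 0) (nat_lit 0) (XT.lf (nat_lit 0) (nat_lit 63542071193) (nat_lit 836) (nat_lit 108703189464) (nat_lit 836) (nat_lit 108703189464) (nat_lit 110) (nat_lit 3) (nat_lit 121) (nat_lit 3) (nat_lit 121) (nat_lit 5) (nat_lit 441) (nat_lit 441) (nat_lit 138)) (XT.lf (nat_lit 76) (nat_lit 55087364460) (nat_lit 0) (nat_lit 76034151236) (nat_lit 836) (nat_lit 444779793422)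 (nat_lit 111) (nat_lit 5) (nat_lit 110) (nat_lit 3) (nat_lit 121) (nat_lit 5) (nat_lit 442) (nat_lit 441) (nat_lit 137)))) (XT.nd (nat_lit 78) (nat_lit 0) (nat_lit 0) (XT.lf (nat_lit 0) (nat_lit 142316803614) (nat_lit 760) (nat_lit 244942375147) (nat_lit 836) (nat_lit 202998957390) (nat_lit 111) (nat_lit 5) (nat_lit 121) (nat_lit 5) (nat_lit 122) (nat_lit 5) (nat_lit 443) (nat_lit 441) (nat_lit 136)) (XT.nd (nat_lit 78) (nat_lit 0) (nat_lit 76) (XT.lf (nat_lit 76) (nat_lit 44913826909) (nat_lit 0) (nat_lit 111105708916) (nat_lit 836) (nat_lit 449215884723) (nat_lit 112) (nat_lit 5) (nat_lit 111) (nat_lit 5) (nat_lit 122) (nat_lit 5) (nat_lit 444) (nat_lit 441) (nat_lit 135)) (XT.lf (nat_lit 0) (nat_lit 177416048671) (nat_lit 760) (nat_lit 265847919126) (nat_lit 836) (nat_lit 177347169175) (nat_lit 112) (nat_lit 5) (nat_lit 122) (nat_lit 5) (nat_lit 123) (nat_lit 5) (nat_lit 445) (nat_lit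 441) (nat_lit 134))))) (XT.nd (nat_lit 234) (nat_lit 532) (nat_lit 0) (XT.nd (nat_lit 78) (nat_lit 0) (nat_lit 76) (XT.lf (nat_lit 76) (nat_lit 42901130586) (nat_lit 0) (nat_lit 159472457313) (nat_lit 836) (nat_lit 434257491290) (nat_lit 113) (nat_lit 5) (nat_lit 112) (nat_lit 5) (nat_lit 123) (nat_lit 5) (nat_lit 446) (nat_lit 441) (nat_lit 133)) (XT.nd (nat_lit 78) (nat_lit 0) (nat_lit 0) (XT.lf (nat_lit 0) (nat_lit 235317571960) (nat_lit 760) (nat_lit 279145956620) (nat_lit 836) (nat_lit 138651561550) (nat_lit 113) (nat_lit 5) (nat_lit 123) (nat_lit 5) (nat_lit 124) (nat_lit 5) (nat_lit 447) (nat_lit 441) (nat_lit 132)) (XT.lf (nat_lit 76) (nat_lit 50158303689) (nat_lit 0) (nat_lit 223147855581) (nat_lit 836) (nat_lit 396947272153) (nat_lit 114) (nat_lit 5) (nat_lit 113) (nat_lit 5) (nat_lit 124) (nat_lit 5) (nat_lit 448) (nat_lit 441) (nat_lit 131)))) (XT.nd (nat_lit 312) (nat_lit 684)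 (nat_lit 0) (XT.nd (nat_lit 78) (nat_lit 0) (nat_lit 0) (XT.lf (nat_lit 0) (nat_lit 319290840888) (nat_lit 760) (nat_lit 283762432871) (nat_lit 836) (nat_lit 84890582781) (nat_lit 114) (nat_lit 5) (nat_lit 124) (nat_lit 5) (nat_lit 125) (nat_lit 5) (nat_lit 449) (nat_lit 441) (nat_lit 130)) (XT.lf (nat_lit 76) (nat_lit 67902016054) (nat_lit 0) (nat_lit 304391033517) (nat_lit 836) (nat_lit 333989838700) (nat_lit 115) (nat_lit 5) (nat_lit 114) (nat_lit 5) (nat_lit 125) (nat_lit 5) (nat_lit 450) (nat_lit 441) (nat_lit 129))) (XT.nd (nat_lit 52260) (nat_lit 0) (nat_lit 380) (XT.lf (nat_lit 0) (nat_lit 501916031986) (nat_lit 760) (nat_lit 79737963136) (nat_lit 836) (nat_lit 183637530117) (nat_lit 105) (nat_lit 5) (nat_lit 115) (nat_lit 5) (nat_lit 116) (nat_lit 5) (nat_lit 453) (nat_lit 441) (nat_lit 126)) (XT.lf (nat_lit 0) (nat_lit 66719373214) (nat_lit 836) (nat_lit 114138244674) (nat_lit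 836) (nat_lit 114138244674) (nat_lit 110) (nat_lit 3) (nat_lit 121) (nat_lit 3) (nat_lit 121) (nat_lit 5) (nat_lit 442) (nat_lit 442) (nat_lit 136))))))) (XT.nd (nat_lit 53586) (nat_lit 0) (nat_lit 0) (XT.nd (nat_lit 468) (nat_lit 0) (nat_lit 0) (XT.nd (nat_lit 234) (nat_lit 0) (nat_lit 152) (XT.nd (nat_lit 78) (nat_lit 0) (nat_lit 76) (XT.lf (nat_lit 76) (nat_lit 57841937845) (nat_lit 0) (nat_lit 79836034862) (nat_lit 836) (nat_lit 467018382540) (nat_lit 111) (nat_lit 5) (nat_lit 110) (nat_lit 3) (nat_lit 121) (nat_lit 5) (nat_lit 443) (nat_lit 442) (nat_lit 135)) (XT.nd (nat_lit 78) (nat_lit 0) (nat_lit 0) (XT.lf (nat_lit 0) (nat_lit 149433004248) (nat_lit 760) (nat_lit 257189277486) (nat_lit 836) (nat_lit 213148742946) (nat_lit 111) (nat_lit 5) (nat_lit 121) (nat_lit 5) (nat_lit 122) (nat_lit 5) (nat_lit 444) (nat_lit 442) (nat_lit 134)) (XT.lf (nat_lit 76) (nat_lit 47159731182) (nat_lit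 0) (nat_lit 116661128048) (nat_lit 836) (nat_lit 471676314772) (nat_lit 112) (nat_lit 5) (nat_lit 111) (nat_lit 5) (nat_lit 122) (nat_lit 5) (nat_lit 445) (nat_lit 442) (nat_lit 133)))) (XT.nd (nat_lit 78) (nat_lit 0) (nat_lit 0) (XT.lf (nat_lit 0) (nat_lit 186287179225) (nat_lit 760) (nat_lit 279140093571) (nat_lit 836) (nat_lit 186214404388) (nat_lit 112) (nat_lit 5) (nat_lit 122) (nat_lit 5) (nat_lit 123) (nat_lit 5) (nat_lit 446) (nat_lit 442) (nat_lit 132)) (XT.nd (nat_lit 78) (nat_lit 0) (nat_lit 76) (XT.lf (nat_lit 76) (nat_lit 45046405054) (nat_lit 0) (nat_lit 167446178138) (nat_lit 836) (nat_lit 455970033941) (nat_lit 113) (nat_lit 5) (nat_lit 112) (nat_lit 5) (nat_lit 123) (nat_lit 5) (nat_lit 447) (nat_lit 442) (nat_lit 131)) (XT.lf (nat_lit 0) (nat_lit 247083749957) (nat_lit 760) (nat_lit 293103030182) (nat_lit 836) (nat_lit 145584049319) (nat_lit 113) (nat_lit 5) (nat_lit 123)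 (nat_lit 5) (nat_lit 124) (nat_lit 5) (nat_lit 448) (nat_lit 442) (nat_lit 130))))) (XT.nd (nat_lit 52806) (nat_lit 0) (nat_lit 76) (XT.nd (nat_lit 52650) (nat_lit 228) (nat_lit 0) (XT.lf (nat_lit 76) (nat_lit 52666439525) (nat_lit 0) (nat_lit 234305316295) (nat_lit 836) (nat_lit 416794332545) (nat_lit 114) (nat_lit 5) (nat_lit 113) (nat_lit 5) (nat_lit 124) (nat_lit 5) (nat_lit 449) (nat_lit 442) (nat_lit 129)) (XT.nd (nat_lit 78) (nat_lit 0) (nat_lit 0) (XT.lf (nat_lit 0) (nat_lit 70055521885) (nat_lit 836) (nat_lit 119845062339) (nat_lit 836) (nat_lit 119845062339) (nat_lit 110) (nat_lit 3) (nat_lit 121) (nat_lit 3) (nat_lit 121) (nat_lit 5) (nat_lit 443) (nat_lit 443) (nat_lit 134)) (XT.lf (nat_lit 76) (nat_lit 60734220824) (nat_lit 0) (nat_lit 83827996300) (nat_lit 836) (nat_lit 490368938353) (nat_lit 111) (nat_lit 5) (nat_lit 110) (nat_lit 3) (nat_lit 121) (nat_lit 5) (nat_lit 444)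 (nat_lit 443) (nat_lit 133)))) (XT.nd (nat_lit 156) (nat_lit 0) (nat_lit 76) (XT.nd (nat_lit 78) (nat_lit 0) (nat_lit 0) (XT.lf (nat_lit 0) (nat_lit 156904981403) (nat_lit 760) (nat_lit 270048545063) (nat_lit 836) (nat_lit 223806032871) (nat_lit 111) (nat_lit 5) (nat_lit 121) (nat_lit 5) (nat_lit 122) (nat_lit 5) (nat_lit 445) (nat_lit 443) (nat_lit 132)) (XT.lf (nat_lit 76) (nat_lit 49517910872) (nat_lit 0) (nat_lit 122494305708) (nat_lit 836) (nat_lit 495259800183) (nat_lit 112) (nat_lit 5) (nat_lit 111) (nat_lit 5) (nat_lit 122) (nat_lit 5) (nat_lit 446) (nat_lit 443) (nat_lit 131))) (XT.nd (nat_lit 78) (nat_lit 0) (nat_lit 0) (XT.lf (nat_lit 0) (nat_lit 195601835801) (nat_lit 760) (nat_lit 293096897332) (nat_lit 836) (nat_lit 195525012821) (nat_lit 112) (nat_lit 5) (nat_lit 122) (nat_lit 5) (nat_lit 123) (nat_lit 5) (nat_lit 447) (nat_lit 443) (nat_lit 130)) (XT.lf (nat_lit 76) (nat_lit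 47298922984) (nat_lit 0) (nat_lit 175818575897) (nat_lit 836) (nat_lit 478768234584) (nat_lit 113) (nat_lit 5) (nat_lit 112) (nat_lit 5) (nat_lit 123) (nat_lit 5) (nat_lit 448) (nat_lit 443) (nat_lit 129)))))) (XT.nd (nat_lit 53274) (nat_lit 0) (nat_lit 0) (XT.nd (nat_lit 52884) (nat_lit 0) (nat_lit 76) (XT.nd (nat_lit 52728) (nat_lit 228) (nat_lit 0) (XT.lf (nat_lit 0) (nat_lit 259438209018) (nat_lit 760) (nat_lit 307757978272) (nat_lit 836) (nat_lit 152863169872) (nat_lit 113) (nat_lit 5) (nat_lit 123) (nat_lit 5) (nat_lit 124) (nat_lit 5) (nat_lit 449) (nat_lit 443) (nat_lit 128)) (XT.nd (nat_lit 78) (nat_lit 0) (nat_lit 0) (XT.lf (nat_lit 0) (nat_lit 73558461255) (nat_lit 836) (nat_lit 125837229679) (nat_lit 836) (nat_lit 125837229679) (nat_lit 110) (nat_lit 3) (nat_lit 121) (nat_lit 3) (nat_lit 121) (nat_lit 5) (nat_lit 444) (nat_lit 444) (nat_lit 132)) (XT.lf (nat_lit 76) (nat_lit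 63771100652) (nat_lit 0) (nat_lit 88019540963) (nat_lit 836) (nat_lit 514887055734) (nat_lit 111) (nat_lit 5) (nat_lit 110) (nat_lit 3) (nat_lit 121) (nat_lit 5) (nat_lit 445) (nat_lit 444) (nat_lit 131)))) (XT.nd (nat_lit 78) (nat_lit 0) (nat_lit 0) (XT.lf (nat_lit 0) (nat_lit 164750527019) (nat_lit 760) (nat_lit 283550794269) (nat_lit 836) (nat_lit 234996200980) (nat_lit 111) (nat_lit 5) (nat_lit 121) (nat_lit 5) (nat_lit 122) (nat_lit 5) (nat_lit 446) (nat_lit 444) (nat_lit 130)) (XT.nd (nat_lit 78) (nat_lit 0) (nat_lit 76) (XT.lf (nat_lit 76) (nat_lit 51993981591) (nat_lit 0) (nat_lit 128619130978) (nat_lit 836) (nat_lit 520022490575) (nat_lit 112) (nat_lit 5) (nat_lit 111) (nat_lit 5) (nat_lit 122) (nat_lit 5) (nat_lit 447) (nat_lit 444) (nat_lit 129)) (XT.lf (nat_lit 0) (nat_lit 205382197536) (nat_lit 760) (nat_lit 307751559961) (nat_lit 836) (nat_lit 205301162067) (nat_lit 112) (nat_lit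 5) (nat_lit 122) (nat_lit 5) (nat_lit 123) (nat_lit 5) (nat_lit 448) (nat_lit 444) (nat_lit 128))))) (XT.nd (nat_lit 52806) (nat_lit 0) (nat_lit 0) (XT.nd (nat_lit 52650) (nat_lit 228) (nat_lit 0) (XT.lf (nat_lit 76) (nat_lit 58065141253) (nat_lit 0) (nat_lit 258321731805) (nat_lit 836) (nat_lit 459515213399) (nat_lit 114) (nat_lit 5) (nat_lit 113) (nat_lit 5) (nat_lit 124) (nat_lit 5) (nat_lit 451) (nat_lit 444) (nat_lit 125)) (XT.nd (nat_lit 78) (nat_lit 0) (nat_lit 0) (XT.lf (nat_lit 0) (nat_lit 77236532412) (nat_lit 836) (nat_lit 132129013361) (nat_lit 836) (nat_lit 132129013361) (nat_lit 110) (nat_lit 3) (nat_lit 121) (nat_lit 3) (nat_lit 121) (nat_lit 5) (nat_lit 445) (nat_lit 445) (nat_lit 130)) (XT.lf (nat_lit 76) (nat_lit 66959808780) (nat_lit 0) (nat_lit 92420649393) (nat_lit 836) (nat_lit 540631109622) (nat_lit 111) (nat_lit 5) (nat_lit 110) (nat_lit 3) (nat_lit 121) (nat_lit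 5) (nat_lit 446) (nat_lit 445) (nat_lit 129)))) (XT.nd (nat_lit 53118) (nat_lit 76) (nat_lit 0) (XT.nd (nat_lit 234) (nat_lit 0) (nat_lit 76) (XT.lf (nat_lit 0) (nat_lit 172988322346) (nat_lit 760) (nat_lit 297728172489) (nat_lit 836) (nat_lit 246745889908) (nat_lit 111) (nat_lit 5) (nat_lit 121) (nat_lit 5) (nat_lit 122) (nat_lit 5) (nat_lit 447) (nat_lit 445) (nat_lit 128)) (XT.lf (nat_lit 76) (nat_lit 52147413482) (nat_lit 0) (nat_lit 193840137647) (nat_lit 836) (nat_lit 527841444232) (nat_lit 113) (nat_lit 5) (nat_lit 112) (nat_lit 5) (nat_lit 123) (nat_lit 5) (nat_lit 450) (nat_lit 445) (nat_lit 125))) (XT.nd (nat_lit 53274) (nat_lit 0) (nat_lit 76) (XT.lf (nat_lit 76) (nat_lit 70307938080) (nat_lit 0) (nat_lit 97041801029) (nat_lit 836) (nat_lit 567662393993) (nat_lit 111) (nat_lit 5) (nat_lit 110) (nat_lit 3) (nat_lit 121) (nat_lit 5) (nat_lit 447) (nat_lit 446) (nat_lit 127)) (XT.lf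 (nat_lit 0) (nat_lit 190720102842) (nat_lit 760) (nat_lit 328245023503) (nat_lit 836) (nat_lit 272037128625) (nat_lit 111) (nat_lit 5) (nat_lit 121) (nat_lit 5) (nat_lit 122) (nat_lit 5) (nat_lit 449) (nat_lit 447) (nat_lit 124))))))))

set_option maxRecDepth 10000000 in
noncomputable def Tp : PT := (PT.nd (nat_lit 9255714) (PT.nd (nat_lit 8619000) (PT.nd (nat_lit 7928856) (PT.nd (nat_lit 7291596) pc0 pc1) (PT.nd (nat_lit 424398) pc2 pc3)) (PT.nd (nat_lit 371514) (PT.nd (nat_lit 212082) pc4 pc5) (PT.nd (nat_lit 158574) pc6 pc7))) (PT.nd (nat_lit 370656) (PT.nd (nat_lit 211458) (PT.nd (nat_lit 106002) pc8 pc9) (PT.nd (nat_lit 54678) pc10 pc11)) (PT.nd (nat_lit 317382) (PT.nd (nat_lit 108420) pc12 pc13) (PT.nd (nat_lit 264888) pc14 pc15))))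

set_option maxRecDepth 10000000 in
noncomputable def Tx : XT := (XT.nd (nat_lit 14379300) (nat_lit 0) (nat_lit 76) XT.nil (XT.nd (nat_lit 9399546) (nat_lit 0) (nat_lit 0) (XT.nd (nat_lit 4347096) (nat_lit 0) (nat_lit 152) (XT.nd (nat_lit 2973594) (nat_lit 0) (nat_lit 0) (XT.nd (nat_lit 2118480) (nat_lit 0) (nat_lit 0) (XT.nd (nat_lit 1483248) (nat_lit 0) (nat_lit 0) (XT.nd (nat_lit 1008462) (nat_lit 0) (nat_lit 0) (XT.nd (nat_lit 690222) (nat_lit 0) (nat_lit 0) (XT.nd (nat_lit 477594) (nat_lit 0) (nat_lit 0) (XT.nd (nat_lit 318474) (nat_lit 0) (nat_lit 0) xc0 xc1) (XT.nd (nat_lit 106626) (nat_lit 0) (nat_lit 0) xc2 xc3)) (XT.nd (nat_lit 210132) (nat_lit 0) (nat_lit 0) (XT.nd (nat_lit 105378) (nat_lit 0) (nat_lit 0) xc4 xc5) (XT.nd (nat_lit 54132) (nat_lit 0) (nat_lit 0) xc6 xc7))) (XT.nd (nat_lit 263562) (nat_lit 0) (nat_lit 0) (XT.nd (nat_lit 157014) (nat_lit 0) (nat_lit 0) (XT.nd (nat_lit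 53820) (nat_lit 0) (nat_lit 0) xc8 xc9) (XT.nd (nat_lit 53352) (nat_lit 0) (nat_lit 0) xc10 xc11)) (XT.nd (nat_lit 105924) (nat_lit 0) (nat_lit 0) (XT.nd (nat_lit 53040) (nat_lit 0) (nat_lit 0) xc12 xc13) (XT.nd (nat_lit 52728) (nat_lit 0) (nat_lit 0) xc14 xc15)))) (XT.nd (nat_lit 320190) (nat_lit 0) (nat_lit 0) (XT.nd (nat_lit 160758) (nat_lit 0) (nat_lit 0) (XT.nd (nat_lit 56394) (nat_lit 0) (nat_lit 0) (XT.nd (nat_lit 3978) (nat_lit 0) (nat_lit 0) xc16 xc17) (XT.nd (nat_lit 52260) (nat_lit 0) (nat_lit 0) xc18 xc19)) (XT.nd (nat_lit 103740) (nat_lit 0) (nat_lit 0) (XT.nd (nat_lit 51948) (nat_lit 0) (nat_lit 0) xc20 xc21) (XT.nd (nat_lit 3978) (nat_lit 0) (nat_lit 0) xc22 xc23))) (XT.nd (nat_lit 158184) (nat_lit 0) (nat_lit 0) (XT.nd (nat_lit 55536) (nat_lit 0) (nat_lit 0) (XT.nd (nat_lit 51558) (nat_lit 0) (nat_lit 0) xc24 xc25) (XT.nd (nat_lit 51402) (nat_lit 0) (nat_lit 0) xc26 xc27))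 (XT.nd (nat_lit 55068) (nat_lit 0) (nat_lit 0) (XT.nd (nat_lit 51090) (nat_lit 0) (nat_lit 0) xc28 xc29) (XT.nd (nat_lit 50934) (nat_lit 0) (nat_lit 0) xc30 xc31))))) (XT.nd (nat_lit 477906) (nat_lit 0) (nat_lit 0) (XT.nd (nat_lit 217464) (nat_lit 0) (nat_lit 0) (XT.nd (nat_lit 109044) (nat_lit 0) (nat_lit 0) (XT.nd (nat_lit 54600) (nat_lit 0) (nat_lit 0) (XT.nd (nat_lit 3978) (nat_lit 152) (nat_lit 0) xc32 xc33) (XT.nd (nat_lit 3978) (nat_lit 0) (nat_lit 0) xc34 xc35)) (XT.nd (nat_lit 54288) (nat_lit 0) (nat_lit 0) (XT.nd (nat_lit 50310) (nat_lit 0) (nat_lit 152) xc36 xc37) (XT.nd (nat_lit 50154) (nat_lit 0) (nat_lit 0) xc38 xc39))) (XT.nd (nat_lit 153504) (nat_lit 0) (nat_lit 0) (XT.nd (nat_lit 53976) (nat_lit 0) (nat_lit 0) (XT.nd (nat_lit 49998) (nat_lit 0) (nat_lit 0) xc40 xc41) (XT.nd (nat_lit 49842) (nat_lit 0) (nat_lit 0) xc42 xc43)) (XT.nd (nat_lit 53508) (nat_lit 0) (nat_lit 0)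 (XT.nd (nat_lit 3978) (nat_lit 228) (nat_lit 0) xc44 xc45) (XT.nd (nat_lit 3978) (nat_lit 152) (nat_lit 0) xc46 xc47)))) (XT.nd (nat_lit 211848) (nat_lit 0) (nat_lit 0) (XT.nd (nat_lit 106236) (nat_lit 0) (nat_lit 0) (XT.nd (nat_lit 53196) (nat_lit 0) (nat_lit 0) (XT.nd (nat_lit 3978) (nat_lit 152) (nat_lit 0) xc48 xc49) (XT.nd (nat_lit 3978) (nat_lit 152) (nat_lit 0) xc50 xc51)) (XT.nd (nat_lit 52884) (nat_lit 0) (nat_lit 0) (XT.nd (nat_lit 3978) (nat_lit 152) (nat_lit 0) xc52 xc53) (XT.nd (nat_lit 3978) (nat_lit 228) (nat_lit 0) xc54 xc55))) (XT.nd (nat_lit 104988) (nat_lit 0) (nat_lit 0) (XT.nd (nat_lit 52572) (nat_lit 0) (nat_lit 0) (XT.nd (nat_lit 3978) (nat_lit 228) (nat_lit 0) xc56 xc57) (XT.nd (nat_lit 3978) (nat_lit 380) (nat_lit 0) xc58 xc59)) (XT.nd (nat_lit 7956) (nat_lit 0) (nat_lit 0) (XT.nd (nat_lit 3978) (nat_lit 608) (nat_lit 0) xc60 xc61) (XT.nd (nat_lit 48360) (nat_lit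 0) (nat_lit 76) xc62 xc63)))))) (XT.nd (nat_lit 690144) (nat_lit 0) (nat_lit 152) (XT.nd (nat_lit 369954) (nat_lit 0) (nat_lit 0) (XT.nd (nat_lit 207792) (nat_lit 0) (nat_lit 0) (XT.nd (nat_lit 104208) (nat_lit 0) (nat_lit 0) (XT.nd (nat_lit 52182) (nat_lit 0) (nat_lit 0) (XT.nd (nat_lit 48204) (nat_lit 0) (nat_lit 152) xc64 xc65) (XT.nd (nat_lit 48048) (nat_lit 0) (nat_lit 380) xc66 xc67)) (XT.nd (nat_lit 51870) (nat_lit 0) (nat_lit 0) (XT.nd (nat_lit 47892) (nat_lit 0) (nat_lit 684) xc68 xc69) (XT.nd (nat_lit 3978) (nat_lit 0) (nat_lit 0) xc70 xc71))) (XT.nd (nat_lit 102960) (nat_lit 0) (nat_lit 0) (XT.nd (nat_lit 51558) (nat_lit 0) (nat_lit 0) (XT.nd (nat_lit 3978) (nat_lit 152) (nat_lit 0) xc72 xc73) (XT.nd (nat_lit 3978) (nat_lit 380) (nat_lit 0) xc74 xc75)) (XT.nd (nat_lit 7956) (nat_lit 152) (nat_lit 0) (XT.nd (nat_lit 3978) (nat_lit 912) (nat_lit 0) xc76 xc77) (XT.nd (nat_lit 47268)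 (nat_lit 0) (nat_lit 380) xc78 xc79)))) (XT.nd (nat_lit 160758) (nat_lit 0) (nat_lit 0) (XT.nd (nat_lit 102024) (nat_lit 0) (nat_lit 0) (XT.nd (nat_lit 51090) (nat_lit 0) (nat_lit 0) (XT.nd (nat_lit 47112) (nat_lit 0) (nat_lit 1064) xc80 xc81) (XT.nd (nat_lit 3978) (nat_lit 152) (nat_lit 0) xc82 xc83)) (XT.nd (nat_lit 50778) (nat_lit 0) (nat_lit 152) (XT.nd (nat_lit 3978) (nat_lit 456) (nat_lit 0) xc84 xc85) (XT.nd (nat_lit 3978) (nat_lit 1292) (nat_lit 0) xc86 xc87))) (XT.nd (nat_lit 101088) (nat_lit 0) (nat_lit 0) (XT.nd (nat_lit 50622) (nat_lit 0) (nat_lit 0) (XT.nd (nat_lit 46644) (nat_lit 0) (nat_lit 760) xc88 xc89) (XT.nd (nat_lit 46488) (nat_lit 0) (nat_lit 2432) xc90 xc91)) (XT.nd (nat_lit 50310) (nat_lit 0) (nat_lit 228) (XT.nd (nat_lit 3978) (nat_lit 380) (nat_lit 0) xc92 xc93) (XT.nd (nat_lit 3978) (nat_lit 1368) (nat_lit 0) xc94 xc95))))) (XT.nd (nat_lit 318552) (nat_lit 0) (nat_lit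 0) (XT.nd (nat_lit 158886) (nat_lit 0) (nat_lit 0) (XT.nd (nat_lit 100542) (nat_lit 0) (nat_lit 0) (XT.nd (nat_lit 50232) (nat_lit 0) (nat_lit 0) (XT.nd (nat_lit 46254) (nat_lit 0) (nat_lit 836) xc96 xc97) (XT.nd (nat_lit 3978) (nat_lit 0) (nat_lit 0) xc98 xc99)) (XT.nd (nat_lit 50388) (nat_lit 0) (nat_lit 76) (XT.nd (nat_lit 3978) (nat_lit 456) (nat_lit 0) xc100 xc101) (XT.nd (nat_lit 3978) (nat_lit 1824) (nat_lit 0) xc102 xc103))) (XT.nd (nat_lit 101010) (nat_lit 0) (nat_lit 0) (XT.nd (nat_lit 50466) (nat_lit 0) (nat_lit 0) (XT.nd (nat_lit 46488) (nat_lit 0) (nat_lit 1064) xc104 xc105) (XT.nd (nat_lit 3978) (nat_lit 0) (nat_lit 0) xc106 xc107)) (XT.nd (nat_lit 50622) (nat_lit 0) (nat_lit 76) (XT.nd (nat_lit 3978) (nat_lit 532) (nat_lit 0) xc108 xc109) (XT.nd (nat_lit 3978) (nat_lit 1672) (nat_lit 0) xc110 xc111)))) (XT.nd (nat_lit 160290) (nat_lit 0) (nat_lit 0) (XT.nd (nat_lit 101478)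 (nat_lit 0) (nat_lit 0) (XT.nd (nat_lit 50700) (nat_lit 0) (nat_lit 0) (XT.nd (nat_lit 46722) (nat_lit 0) (nat_lit 912) xc112 xc113) (XT.nd (nat_lit 46800) (nat_lit 0) (nat_lit 2584) xc114 xc115)) (XT.nd (nat_lit 50856) (nat_lit 0) (nat_lit 0) (XT.nd (nat_lit 3978) (nat_lit 304) (nat_lit 0) xc116 xc117) (XT.nd (nat_lit 3978) (nat_lit 1292) (nat_lit 0) xc118 xc119))) (XT.nd (nat_lit 102024) (nat_lit 0) (nat_lit 0) (XT.nd (nat_lit 50934) (nat_lit 0) (nat_lit 0) (XT.nd (nat_lit 46956) (nat_lit 0) (nat_lit 532) xc120 xc121) (XT.nd (nat_lit 47112) (nat_lit 0) (nat_lit 1520) xc122 xc123)) (XT.nd (nat_lit 51168) (nat_lit 0) (nat_lit 0) (XT.nd (nat_lit 3978) (nat_lit 76) (nat_lit 0) xc124 xc125) (XT.nd (nat_lit 3978) (nat_lit 532) (nat_lit 0) xc126 xc127))))))) (XT.nd (nat_lit 1548144) (nat_lit 0) (nat_lit 532) (XT.nd (nat_lit 697866) (nat_lit 0) (nat_lit 228) (XT.nd (nat_lit 325104) (nat_lit 0)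 (nat_lit 76) (XT.nd (nat_lit 162162) (nat_lit 0) (nat_lit 76) (XT.nd (nat_lit 59280) (nat_lit 0) (nat_lit 0) (XT.nd (nat_lit 7956) (nat_lit 76) (nat_lit 0) (XT.nd (nat_lit 3978) (nat_lit 1444) (nat_lit 0) xc128 xc129) (XT.nd (nat_lit 47346) (nat_lit 0) (nat_lit 532) xc130 xc131)) (XT.nd (nat_lit 51402) (nat_lit 0) (nat_lit 0) (XT.nd (nat_lit 47424) (nat_lit 0) (nat_lit 1292) xc132 xc133) (XT.nd (nat_lit 47502) (nat_lit 0) (nat_lit 2584) xc134 xc135))) (XT.nd (nat_lit 103194) (nat_lit 0) (nat_lit 0) (XT.nd (nat_lit 51558) (nat_lit 0) (nat_lit 0) (XT.nd (nat_lit 3978) (nat_lit 228) (nat_lit 0) xc136 xc137) (XT.nd (nat_lit 3978) (nat_lit 912) (nat_lit 0) xc138 xc139)) (XT.nd (nat_lit 7956) (nat_lit 152) (nat_lit 0) (XT.nd (nat_lit 3978) (nat_lit 1672) (nat_lit 0) xc140 xc141) (XT.nd (nat_lit 47814) (nat_lit 0) (nat_lit 456) xc142 xc143)))) (XT.nd (nat_lit 207948) (nat_lit 0) (nat_lit 0) (XT.nd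 (nat_lit 103818) (nat_lit 0) (nat_lit 0) (XT.nd (nat_lit 51870) (nat_lit 0) (nat_lit 0) (XT.nd (nat_lit 47892) (nat_lit 0) (nat_lit 1064) xc144 xc145) (XT.nd (nat_lit 47970) (nat_lit 0) (nat_lit 1824) xc146 xc147)) (XT.nd (nat_lit 52026) (nat_lit 0) (nat_lit 0) (XT.nd (nat_lit 3978) (nat_lit 152) (nat_lit 0) xc148 xc149) (XT.nd (nat_lit 3978) (nat_lit 380) (nat_lit 0) xc150 xc151))) (XT.nd (nat_lit 104442) (nat_lit 0) (nat_lit 76) (XT.nd (nat_lit 52182) (nat_lit 0) (nat_lit 0) (XT.nd (nat_lit 3978) (nat_lit 836) (nat_lit 0) xc152 xc153) (XT.nd (nat_lit 3978) (nat_lit 1368) (nat_lit 0) xc154 xc155)) (XT.nd (nat_lit 7956) (nat_lit 76) (nat_lit 0) (XT.nd (nat_lit 3978) (nat_lit 1900) (nat_lit 0) xc156 xc157) (XT.nd (nat_lit 48360) (nat_lit 0) (nat_lit 304) xc158 xc159))))) (XT.nd (nat_lit 422292) (nat_lit 0) (nat_lit 76) (XT.nd (nat_lit 210444) (nat_lit 0) (nat_lit 0) (XT.nd (nat_lit 105066)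 (nat_lit 0) (nat_lit 0) (XT.nd (nat_lit 52494) (nat_lit 0) (nat_lit 0) (XT.nd (nat_lit 48516) (nat_lit 0) (nat_lit 456) xc160 xc161) (XT.nd (nat_lit 48594) (nat_lit 0) (nat_lit 684) xc162 xc163)) (XT.nd (nat_lit 52650) (nat_lit 0) (nat_lit 0) (XT.nd (nat_lit 48672) (nat_lit 0) (nat_lit 988) xc164 xc165) (XT.nd (nat_lit 48750) (nat_lit 0) (nat_lit 1216) xc166 xc167))) (XT.nd (nat_lit 105690) (nat_lit 0) (nat_lit 76) (XT.nd (nat_lit 52806) (nat_lit 0) (nat_lit 76) (XT.nd (nat_lit 48828) (nat_lit 0) (nat_lit 1520) xc168 xc169) (XT.nd (nat_lit 48906) (nat_lit 0) (nat_lit 1672) xc170 xc171)) (XT.nd (nat_lit 52962) (nat_lit 0) (nat_lit 0) (XT.nd (nat_lit 48984) (nat_lit 0) (nat_lit 1900) xc172 xc173) (XT.nd (nat_lit 49140) (nat_lit 0) (nat_lit 1900) xc174 xc175)))) (XT.nd (nat_lit 213252) (nat_lit 0) (nat_lit 152) (XT.nd (nat_lit 106470) (nat_lit 0) (nat_lit 76) (XT.nd (nat_lit 53196) (nat_lit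 0) (nat_lit 0) (XT.nd (nat_lit 49218) (nat_lit 0) (nat_lit 1900) xc176 xc177) (XT.nd (nat_lit 49296) (nat_lit 0) (nat_lit 1824) xc178 xc179)) (XT.nd (nat_lit 53352) (nat_lit 0) (nat_lit 76) (XT.nd (nat_lit 49374) (nat_lit 0) (nat_lit 1596) xc180 xc181) (XT.nd (nat_lit 49452) (nat_lit 0) (nat_lit 1292) xc182 xc183))) (XT.nd (nat_lit 107094) (nat_lit 0) (nat_lit 76) (XT.nd (nat_lit 53508) (nat_lit 0) (nat_lit 0) (XT.nd (nat_lit 49530) (nat_lit 0) (nat_lit 1140) xc184 xc185) (XT.nd (nat_lit 49608) (nat_lit 0) (nat_lit 912) xc186 xc187)) (XT.nd (nat_lit 53742) (nat_lit 0) (nat_lit 0) (XT.nd (nat_lit 49764) (nat_lit 0) (nat_lit 532) xc188 xc189) (XT.nd (nat_lit 49842) (nat_lit 0) (nat_lit 228) xc190 xc191)))))) (XT.nd (nat_lit 1111656) (nat_lit 0) (nat_lit 988) (XT.nd (nat_lit 527202) (nat_lit 0) (nat_lit 456) (XT.nd (nat_lit 262392) (nat_lit 0) (nat_lit 228) (XT.nd (nat_lit 153972) (nat_lit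 0) (nat_lit 152) (XT.nd (nat_lit 99918) (nat_lit 0) (nat_lit 76) (XT.nd (nat_lit 49920) (nat_lit 0) (nat_lit 0) xc192 xc193) (XT.nd (nat_lit 3978) (nat_lit 1672) (nat_lit 0) xc194 xc195)) (XT.nd (nat_lit 54132) (nat_lit 0) (nat_lit 76) (XT.nd (nat_lit 3978) (nat_lit 912) (nat_lit 0) xc196 xc197) (XT.nd (nat_lit 3978) (nat_lit 304) (nat_lit 0) xc198 xc199))) (XT.nd (nat_lit 108810) (nat_lit 0) (nat_lit 0) (XT.nd (nat_lit 54366) (nat_lit 0) (nat_lit 0) (XT.nd (nat_lit 50388) (nat_lit 0) (nat_lit 1444) xc200 xc201) (XT.nd (nat_lit 50466) (nat_lit 0) (nat_lit 532) xc202 xc203)) (XT.nd (nat_lit 101166) (nat_lit 0) (nat_lit 152) (XT.nd (nat_lit 50544) (nat_lit 0) (nat_lit 76) xc204 xc205) (XT.nd (nat_lit 3978) (nat_lit 1292) (nat_lit 0) xc206 xc207)))) (XT.nd (nat_lit 267072) (nat_lit 0) (nat_lit 228) (XT.nd (nat_lit 109746) (nat_lit 0) (nat_lit 76) (XT.nd (nat_lit 54834) (nat_lit 0) (nat_lit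 0) (XT.nd (nat_lit 3978) (nat_lit 76) (nat_lit 0) xc208 xc209) (XT.nd (nat_lit 50934) (nat_lit 0) (nat_lit 456) xc210 xc211)) (XT.nd (nat_lit 102102) (nat_lit 0) (nat_lit 152) (XT.nd (nat_lit 51012) (nat_lit 0) (nat_lit 0) xc212 xc213) (XT.nd (nat_lit 3978) (nat_lit 456) (nat_lit 0) xc214 xc215))) (XT.nd (nat_lit 158184) (nat_lit 0) (nat_lit 228) (XT.nd (nat_lit 55302) (nat_lit 0) (nat_lit 0) (XT.nd (nat_lit 51324) (nat_lit 0) (nat_lit 304) xc216 xc217) (XT.nd (nat_lit 51402) (nat_lit 0) (nat_lit 76) xc218 xc219)) (XT.nd (nat_lit 55614) (nat_lit 0) (nat_lit 0) (XT.nd (nat_lit 51636) (nat_lit 0) (nat_lit 988) xc220 xc221) (XT.nd (nat_lit 51714) (nat_lit 0) (nat_lit 0) xc222 xc223))))) (XT.nd (nat_lit 743730) (nat_lit 0) (nat_lit 1216) (XT.nd (nat_lit 320814) (nat_lit 0) (nat_lit 456) (XT.nd (nat_lit 159978) (nat_lit 0) (nat_lit 228) (XT.nd (nat_lit 55848) (nat_lit 0) (nat_lit 152) (XT.nd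 (nat_lit 51870) (nat_lit 0) (nat_lit 1064) xc224 xc225) (XT.nd (nat_lit 52026) (nat_lit 0) (nat_lit 0) xc226 xc227)) (XT.nd (nat_lit 56160) (nat_lit 0) (nat_lit 0) (XT.nd (nat_lit 52182) (nat_lit 0) (nat_lit 152) xc228 xc229) (XT.nd (nat_lit 52260) (nat_lit 0) (nat_lit 152) xc230 xc231))) (XT.nd (nat_lit 210600) (nat_lit 0) (nat_lit 304) (XT.nd (nat_lit 105066) (nat_lit 0) (nat_lit 228) (XT.nd (nat_lit 52494) (nat_lit 0) (nat_lit 0) xc232 xc233) (XT.nd (nat_lit 52728) (nat_lit 0) (nat_lit 76) xc234 xc235)) (XT.nd (nat_lit 105924) (nat_lit 0) (nat_lit 304) (XT.nd (nat_lit 52884) (nat_lit 0) (nat_lit 228) xc236 xc237) (XT.nd (nat_lit 53118) (nat_lit 0) (nat_lit 0) xc238 xc239)))) (XT.nd (nat_lit 479934) (nat_lit 0) (nat_lit 1216) (XT.nd (nat_lit 214032) (nat_lit 0) (nat_lit 532) (XT.nd (nat_lit 106782) (nat_lit 0) (nat_lit 304) (XT.nd (nat_lit 53352) (nat_lit 0) (nat_lit 152) xc240 xc241)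 (XT.nd (nat_lit 53586) (nat_lit 0) (nat_lit 0) xc242 xc243)) (XT.nd (nat_lit 107640) (nat_lit 0) (nat_lit 304) (XT.nd (nat_lit 53742) (nat_lit 0) (nat_lit 152) xc244 xc245) (XT.nd (nat_lit 104052) (nat_lit 0) (nat_lit 228) xc246 xc247))) (XT.nd (nat_lit 370890) (nat_lit 0) (nat_lit 1216) (XT.nd (nat_lit 159276) (nat_lit 0) (nat_lit 684) (XT.nd (nat_lit 54288) (nat_lit 0) (nat_lit 228) xc248 xc249) (XT.nd (nat_lit 105612) (nat_lit 0) (nat_lit 228) xc250 xc251)) (XT.nd (nat_lit 213564) (nat_lit 0) (nat_lit 1140) (XT.nd (nat_lit 106548) (nat_lit 0) (nat_lit 532) xc252 xc253) (XT.nd (nat_lit 159588) (nat_lit 0) (nat_lit 684) xc254 xc255)))))))) XT.nil))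

set_option maxRecDepth 10000000 in
noncomputable def Te : XT := XT.nil

set_option maxRecDepth 10000000 in
noncomputable def Tz : ZL := (ZL.cons (nat_lit 76) (nat_lit 6) (nat_lit 284888263781813962442) (ZL.cons (nat_lit 152) (nat_lit 6) (nat_lit 278455245338301209562) (ZL.cons (nat_lit 228) (nat_lit 3) (nat_lit 139063646208939633718) (ZL.cons (nat_lit 304) (nat_lit 6) (nat_lit 271700575972612819038) (ZL.cons (nat_lit 380) (nat_lit 6) (nat_lit 265592812740192554274) (ZL.cons (nat_lit 456) (nat_lit 3) (nat_lit 132640238312752495173) (ZL.cons (nat_lit 532) (nat_lit 6) (nat_lit 259179661346151276272) (ZL.cons (nat_lit 608) (nat_lit 6) (nat_lit 253383604383886548926) (ZL.cons (nat_lit 684) (nat_lit 3) (nat_lit 126543070708758720211) (ZL.cons (nat_lit 760) (nat_lit 6) (nat_lit 247297744573508585214) (ZL.cons (nat_lit 836) (nat_lit 6) (nat_lit 241800688916877070514) (ZL.cons (nat_lit 912) (nat_lit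 3) (nat_lit 120758695426834197874) (ZL.cons (nat_lit 988) (nat_lit 6) (nat_lit 236028780477413980080) (ZL.cons (nat_lit 1064) (nat_lit 6) (nat_lit 230818845324801875310) (ZL.cons (nat_lit 1140) (nat_lit 3) (nat_lit 115274518822777759196) (ZL.cons (nat_lit 1216) (nat_lit 6) (nat_lit 225348413414559165306) (ZL.cons (nat_lit 1292) (nat_lit 6) (nat_lit 220414525345779691406) (ZL.cons (nat_lit 1368) (nat_lit 3) (nat_lit 110078782825629675741) (ZL.cons (nat_lit 1444) (nat_lit 6) (nat_lit 215233942873561243812) (ZL.cons (nat_lit 1520) (nat_lit 6) (nat_lit 210565822170089370610) (ZL.cons (nat_lit 1596) (nat_lit 3) (nat_lit 105160549325749285341) (ZL.cons (nat_lit 1672) (nat_lit 6) (nat_lit 205664295431443903746) (ZL.cons (nat_lit 1748) (nat_lit 6) (nat_lit 201252445586682827128) (ZL.cons (nat_lit 1824) (nat_lit 3) (nat_lit 100509687784488651695) (ZL.cons (nat_lit 1900) (nat_lit 6) (nat_lit 196620003249683696682)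 (ZL.cons (nat_lit 1976) (nat_lit 6) (nat_lit 192455703777564765512) (ZL.cons (nat_lit 2052) (nat_lit 3) (nat_lit 96116866166065466689) (ZL.cons (nat_lit 2128) (nat_lit 6) (nat_lit 188083189331839887782) (ZL.cons (nat_lit 2204) (nat_lit 6) (nat_lit 184158492003571771692) (ZL.cons (nat_lit 2280) (nat_lit 3) (nat_lit 91973545313484061020) (ZL.cons (nat_lit 2356) (nat_lit 6) (nat_lit 180450295829878327688) (ZL.cons (nat_lit 2432) (nat_lit 6) (nat_lit 180037559808890249798) (ZL.cons (nat_lit 2508) (nat_lit 6) (nat_lit 176345288470896561830) (ZL.cons (nat_lit 2584) (nat_lit 3) (nat_lit 88071976913256066796) (ZL.cons (nat_lit 2660) (nat_lit 6) (nat_lit 172861485490753739836) (ZL.cons (nat_lit 2736) (nat_lit 6) (nat_lit 172468403566003189466) (ZL.cons (nat_lit 2812) (nat_lit 6) (nat_lit 169002157717219348504) (ZL.cons (nat_lit 2888) (nat_lit 3) (nat_lit 84405205218426613186) (ZL.cons (nat_lit 2964)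 (nat_lit 6) (nat_lit 165736963313853982514) (ZL.cons (nat_lit 3040) (nat_lit 6) (nat_lit 165362599575996315494) (ZL.cons (nat_lit 3116) (nat_lit 6) (nat_lit 162116761909954226092) (ZL.cons (nat_lit 3192) (nat_lit 3) (nat_lit 80967072726231340602) (ZL.cons (nat_lit 3268) (nat_lit 6) (nat_lit 159065169253807810334) (ZL.cons (nat_lit 3344) (nat_lit 6) (nat_lit 158708632360610032220) (ZL.cons (nat_lit 3420) (nat_lit 6) (nat_lit 156200555910756719614) (ZL.cons (nat_lit 3496) (nat_lit 6) (nat_lit 155678380507362528902) (ZL.cons (nat_lit 3572) (nat_lit 3) (nat_lit 77752230035828147838) (ZL.cons (nat_lit 3648) (nat_lit 6) (nat_lit 152836175007355296240) (ZL.cons (nat_lit 3724) (nat_lit 6) (nat_lit 152496616061452650416) (ZL.cons (nat_lit 3800) (nat_lit 6) (nat_lit 150175248704635936062) (ZL.cons (nat_lit 3876) (nat_lit 6) (nat_lit 149677938796641468720) (ZL.cons (nat_lit 3952) (nat_lit 3) (nat_lit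 74756150143222528061) (ZL.cons (nat_lit 4028) (nat_lit 6) (nat_lit 147041717140877962052) (ZL.cons (nat_lit 4104) (nat_lit 6) (nat_lit 146718327668589727936) (ZL.cons (nat_lit 4180) (nat_lit 6) (nat_lit 144581674375934122070) (ZL.cons (nat_lit 4256) (nat_lit 6) (nat_lit 144108045892129867456) (ZL.cons (nat_lit 4332) (nat_lit 3) (nat_lit 71975147465019022969) (ZL.cons (nat_lit 4408) (nat_lit 6) (nat_lit 142291953257131511056) (ZL.cons (nat_lit 4484) (nat_lit 6) (nat_lit 141675240000454855970) (ZL.cons (nat_lit 4560) (nat_lit 6) (nat_lit 141367250026847013954) (ZL.cons (nat_lit 4636) (nat_lit 6) (nat_lit 139414117598584514880) (ZL.cons (nat_lit 4712) (nat_lit 6) (nat_lit 138963042852104272392) (ZL.cons (nat_lit 4788) (nat_lit 3) (nat_lit 69406401920294125947) (ZL.cons (nat_lit 4864) (nat_lit 6) (nat_lit 137319295061752486226) (ZL.cons (nat_lit 4940) (nat_lit 6) (nat_lit 136731949103012814718)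 (ZL.cons (nat_lit 5016) (nat_lit 6) (nat_lit 136438625318624393748) (ZL.cons (nat_lit 5092) (nat_lit 6) (nat_lit 135385784717252027086) (ZL.cons (nat_lit 5168) (nat_lit 6) (nat_lit 134668656651598613652) (ZL.cons (nat_lit 5244) (nat_lit 6) (nat_lit 134239061654950763662) (ZL.cons (nat_lit 5320) (nat_lit 3) (nat_lit 67047988441039181595) (ZL.cons (nat_lit 5396) (nat_lit 6) (nat_lit 132768252896786873480) (ZL.cons (nat_lit 5472) (nat_lit 6) (nat_lit 132208875793225281564) (ZL.cons (nat_lit 5548) (nat_lit 6) (nat_lit 131929519808093452072) (ZL.cons (nat_lit 5624) (nat_lit 6) (nat_lit 131026213067732804344) (ZL.cons (nat_lit 5700) (nat_lit 6) (nat_lit 130343233957586696308) (ZL.cons (nat_lit 5776) (nat_lit 6) (nat_lit 129934095865541124890) (ZL.cons (nat_lit 5852) (nat_lit 3) (nat_lit 64898912326640847935) (ZL.cons (nat_lit 5928) (nat_lit 6) (nat_lit 129438389450557706076) (ZL.cons (nat_lit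 6004) (nat_lit 6) (nat_lit 128637694143664439834) (ZL.cons (nat_lit 6080) (nat_lit 6) (nat_lit 128104954045034352296) (ZL.cons (nat_lit 6156) (nat_lit 6) (nat_lit 127838900725861181350) (ZL.cons (nat_lit 6232) (nat_lit 6) (nat_lit 127088195542377744862) (ZL.cons (nat_lit 6308) (nat_lit 6) (nat_lit 126437739247000499118) (ZL.cons (nat_lit 6384) (nat_lit 6) (nat_lit 126048083921242812052) (ZL.cons (nat_lit 6460) (nat_lit 3) (nat_lit 62959150907164535063) (ZL.cons (nat_lit 6536) (nat_lit 6) (nat_lit 125691048871342595454) (ZL.cons (nat_lit 6612) (nat_lit 6) (nat_lit 124928481912396627606) (ZL.cons (nat_lit 6688) (nat_lit 6) (nat_lit 124421110389891782334) (ZL.cons (nat_lit 6764) (nat_lit 6) (nat_lit 124167726276393524288) (ZL.cons (nat_lit 6840) (nat_lit 6) (nat_lit 124442927590866050780) (ZL.cons (nat_lit 6916) (nat_lit 6) (nat_lit 123573588571378442832) (ZL.cons (nat_lit 6992) (nat_lit 6)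 (nat_lit 122954106385304875456) (ZL.cons (nat_lit 7068) (nat_lit 6) (nat_lit 122583006075059459204) (ZL.cons (nat_lit 7144) (nat_lit 3) (nat_lit 61229702034237471542) (ZL.cons (nat_lit 7220) (nat_lit 6) (nat_lit 123340859983613642870) (ZL.cons (nat_lit 7296) (nat_lit 6) (nat_lit 122369833287419711020) (ZL.cons (nat_lit 7372) (nat_lit 6) (nat_lit 121643579040804503544) (ZL.cons (nat_lit 7448) (nat_lit 6) (nat_lit 121160368066990365188) (ZL.cons (nat_lit 7524) (nat_lit 6) (nat_lit 120919049863658690862) (ZL.cons (nat_lit 7600) (nat_lit 6) (nat_lit 121314349976511006620) (ZL.cons (nat_lit 7676) (nat_lit 6) (nat_lit 120486408053189475242) (ZL.cons (nat_lit 7752) (nat_lit 6) (nat_lit 119896425018833696786) (ZL.cons (nat_lit 7828) (nat_lit 6) (nat_lit 119542996151933300356) (ZL.cons (nat_lit 7904) (nat_lit 3) (nat_lit 59712639977593071075) (ZL.cons (nat_lit 7980) (nat_lit 6) (nat_lit 120404625583150166048)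 (ZL.cons (nat_lit 8056) (nat_lit 6) (nat_lit 119479838253441659524) (ZL.cons (nat_lit 8132) (nat_lit 6) (nat_lit 118788167542379557166) (ZL.cons (nat_lit 8208) (nat_lit 6) (nat_lit 118327966614937520636) (ZL.cons (nat_lit 8284) (nat_lit 6) (nat_lit 118098139754621640326) (ZL.cons (nat_lit 8360) (nat_lit 3) (nat_lit 58954815639000919652) (ZL.cons (nat_lit 8436) (nat_lit 6) (nat_lit 117978457500229926972) (ZL.cons (nat_lit 8512) (nat_lit 6) (nat_lit 118185100038871875900) (ZL.cons (nat_lit 8588) (nat_lit 6) (nat_lit 118530050899972071678) (ZL.cons (nat_lit 8664) (nat_lit 6) (nat_lit 119014131395104562392) (ZL.cons (nat_lit 8740) (nat_lit 6) (nat_lit 119638494096876806356) (ZL.cons (nat_lit 8816) (nat_lit 6) (nat_lit 118621473046799752072) (ZL.cons (nat_lit 8892) (nat_lit 6) (nat_lit 117832956929350674568) (ZL.cons (nat_lit 8968) (nat_lit 6) (nat_lit 117271068325202314136) (ZL.cons (nat_lit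 9044) (nat_lit 6) (nat_lit 116934469404344793726) (ZL.cons (nat_lit 9120) (nat_lit 3) (nat_lit 58411179370388035811) (ZL.cons (nat_lit 9196) (nat_lit 6) (nat_lit 116493286487343670884) (ZL.cons (nat_lit 9272) (nat_lit 6) (nat_lit 116634380242911250604) (ZL.cons (nat_lit 9348) (nat_lit 6) (nat_lit 116916903691559666186) (ZL.cons (nat_lit 9424) (nat_lit 6) (nat_lit 117341529508166651950) (ZL.cons (nat_lit 9500) (nat_lit 6) (nat_lit 117909268706581272150) (ZL.cons (nat_lit 9576) (nat_lit 6) (nat_lit 117028518868763646886) (ZL.cons (nat_lit 9652) (nat_lit 6) (nat_lit 116369784858228311308) (ZL.cons (nat_lit 9728) (nat_lit 6) (nat_lit 115931498260664466996) (ZL.cons (nat_lit 9804) (nat_lit 6) (nat_lit 115712615536554104792) (ZL.cons (nat_lit 9880) (nat_lit 3) (nat_lit 57606606454472465742) (ZL.cons (nat_lit 9956) (nat_lit 6) (nat_lit 115285480442284423536) (ZL.cons (nat_lit 10032) (nat_lit 6)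 (nat_lit 115502455107858469910) (ZL.cons (nat_lit 10108) (nat_lit 6) (nat_lit 115864653512013675478) (ZL.cons (nat_lit 10184) (nat_lit 6) (nat_lit 116372938031902790728) (ZL.cons (nat_lit 10260) (nat_lit 6) (nat_lit 115621970300998907390) (ZL.cons (nat_lit 10336) (nat_lit 6) (nat_lit 115086838297048087932) (ZL.cons (nat_lit 10412) (nat_lit 6) (nat_lit 114766267896231401826) (ZL.cons (nat_lit 10488) (nat_lit 3) (nat_lit 57329747917844880863) (ZL.cons (nat_lit 10564) (nat_lit 6) (nat_lit 114135188970799426062) (ZL.cons (nat_lit 10640) (nat_lit 6) (nat_lit 114283337414145384768) (ZL.cons (nat_lit 10716) (nat_lit 6) (nat_lit 114579987035226221128) (ZL.cons (nat_lit 10792) (nat_lit 6) (nat_lit 115025844142663556182) (ZL.cons (nat_lit 10868) (nat_lit 6) (nat_lit 114398478418344188964) (ZL.cons (nat_lit 10944) (nat_lit 6) (nat_lit 113981062611140527712) (ZL.cons (nat_lit 11020) (nat_lit 6) (nat_lit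 113772602873892563710) (ZL.cons (nat_lit 11096) (nat_lit 3) (nat_lit 56590383519619218380) (ZL.cons (nat_lit 11172) (nat_lit 6) (nat_lit 113256647949244903414) (ZL.cons (nat_lit 11248) (nat_lit 6) (nat_lit 113484471348097652106) (ZL.cons (nat_lit 11324) (nat_lit 6) (nat_lit 113864779672460617952) (ZL.cons (nat_lit 11400) (nat_lit 6) (nat_lit 113355130144888408940) (ZL.cons (nat_lit 11476) (nat_lit 6) (nat_lit 113049825001253469792) (ZL.cons (nat_lit 11552) (nat_lit 3) (nat_lit 56474068662273572945) (ZL.cons (nat_lit 11628) (nat_lit 6) (nat_lit 112419942214431072318) (ZL.cons (nat_lit 11704) (nat_lit 6) (nat_lit 112575498079944328958) (ZL.cons (nat_lit 11780) (nat_lit 6) (nat_lit 112886980182079207136) (ZL.cons (nat_lit 11856) (nat_lit 6) (nat_lit 112489441318075720228) (ZL.cons (nat_lit 11932) (nat_lit 6) (nat_lit 112290908234982421180) (ZL.cons (nat_lit 12008) (nat_lit 3) (nat_lit 55885614026596214990)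 (ZL.cons (nat_lit 12084) (nat_lit 6) (nat_lit 111850903008699219966) (ZL.cons (nat_lit 12160) (nat_lit 6) (nat_lit 112090117577494606092) (ZL.cons (nat_lit 12236) (nat_lit 6) (nat_lit 111799350774032759284) (ZL.cons (nat_lit 12312) (nat_lit 3) (nat_lit 55851252683822892069) (ZL.cons (nat_lit 12388) (nat_lit 6) (nat_lit 111308960908002217728) (ZL.cons (nat_lit 12464) (nat_lit 6) (nat_lit 111472294566791137200) (ZL.cons (nat_lit 12540) (nat_lit 6) (nat_lit 111283215440035614294) (ZL.cons (nat_lit 12616) (nat_lit 3) (nat_lit 55474190719759164689) (ZL.cons (nat_lit 12692) (nat_lit 6) (nat_lit 111032040142800458864) (ZL.cons (nat_lit 12768) (nat_lit 3) (nat_lit 55469903211215955552) (ZL.cons (nat_lit 12844) (nat_lit 6) (nat_lit 110768306080703545660) (ZL.cons (nat_lit 12920) (nat_lit 1) (nat_lit 18446744073709551617) ZL.nil))))))))))))))))))))))))))))))))))))))))))))))))))))))))))))))))))))))))))))))))))))))))))))))))))))))))))))))))))))))))))))))))))))))))))))))))))))))))))))))))))))))))))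

noncomputable def vl : XL := ⟨(nat_lit 0), (nat_lit 76), (nat_lit 161253616), (nat_lit 228), (nat_lit 96947401), (nat_lit 76), (nat_lit 161253616), (nat_lit 1), (nat_lit 5), (nat_lit 3), (nat_lit 4), (nat_lit 1), (nat_lit 4), (nat_lit 0), (nat_lit 0), (nat_lit 0)⟩

noncomputable def cp0 : Nat := (nat_lit 1009910226880570253811865755589563929179998672710926361812534395055447360388625074827765620929053863947388106065715811557566180240865310878229739739701682632054488964407624791497130096707249904066386336559241546962397062748148419114309174341264252248258947291139256820188308839169515945250176409445292202318642499327515858320838135863380969258220203152421142273823869323356071143589029736134995862697134391572972979866850288797450735737487721116387277581107623169319289465358638726903002527062615891854660753175046687695620756921705188801835524362402460524251477978622978113174989888102796325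806315946207775860718711624935568028941242889597991270160561732963394724103161312580059543910929200609569227466531598951297094965775566582235121604929745397939407387383166055567844755935560895402274905732274821709328451693714786120415278349422530607708584472356405260929353348895206346613733137235275949240618465391709933169876453485464709494403261162364630111142091281653849372505284636371980597424826566592240456243410150812524238209348795663864232844499006573326908683447264610852624996996768807326151556992738905450798457862472620889280968765092163733223488314590522843249313916256276679432151012802559089513795416282304121798641582447682078752117305130065383291582700216205264636376979518793617202564870888941301479891159029219937319953411945089851310021435754660350848063305477391870807021299180116967229625086374915060818329146212908194954633074934085433920892470460157956035369479991469462732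923450608501875184241177285568489081866129158440963117491180196644042954891557700469851730001073187236493564515617361281468305329231837476662786732831293476739919629960440258154445524970651013832380135367215445577177890703237368045225991566098234943609496285536468420364570309783082766942404662983598198631447593813153197508735566243515885260294463947114603842676112756686139947752004337371899096769638269711766407746271304884493997504046809513045219400630906752864365698665694901251443356653577024465968908513392996158583875124084110119607067437751515736291764090738459129054821617917715169678055242042646409175402487181651506859899916565211704959575465114461200251008759764756759386971481190166112340598055461014145470452251975784354569032011225020812192286412301690896350760899038657216827171515689388825171158927213365424340905128543838967121778443322909027871148500709982638576718637923166160570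056122612589131231867825164644656566355967372876600753349509118394465947657973412489009484770456331278953286834305559279056687342486488977613134365624870407057621861587495293500636824717582125613740513930701614673080223454939316053697733694104021604857237728378509504295350911870718646842234524425405707512590521304537629556187023200866531540827440243281455934373318039268110858132117932708045693890876563226325521037548076710502492406419737727626314042904616843872342735458283187752832936117084664398482150052971268772529738680743447525517136541195123056250419512845073412089488040674135531504223165024344992814927534721261626858288858778478119603445662386663755118243980679117869364458047555573926130474761097059493512955877743020812242961076443233622837079014588805104269969210768246921774670688072897421973478489675868772982235338368863459204856220996083506655557436864189130476404967314436101741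96855590961253457378200659014830273362149504182044392129703625094969517427610862355512393611878046072361129661584281423245160692545052026337211007388911069332556844934472745975116835939525874707674333471723196818161032103348758417159479413735738232810631395556568275025967934073591475955304381111553053163395509078592551352949414563665669023158010693081565502204529355971775390257889940562412089601887711709939520187717293264338822556399996476788103570086450506631641611406405062706863439032885615497305716185450708764028302458461924000253640967896457366351339891457150669248053648240259227344012753956672531985334272)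

noncomputable def cp1 : Nat := (nat_lit 116882665458521925879316703376480843195602662705730334764671712843927416253642246861737267338829099164424039741224277877162018100552286927379404712544897307523815804341261724615449587004751640779117704152189927773291440487343367359293656305793090011466432531682563083576902284240518906219216717376802611600713967938393378100683623287753359476372990537663256327657663100004611088167215572635354012794534572770324180353740493156343238759508968583408169555025624717825231444091331617482420915884946582917495552179633366945169671252961209121443774081704571980072304156924939967252603617449016560062081866027575338674154944115543427362864600488598592853460202153901404680182245352793208033732554109068643085186131596681352543942766692128069350207751135089370115386274436348861183354945427001558928164396788697185034462325780527340505343314975497458548806546234663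201738350102179959252157275400261461921879227206273513782393454031340934202580573334841119342872752020729951779164826423179322632784761251958431934991156727525221794407702021089425633475158163480386513270270646810277859031346521231309529555634610342610164167350473206260911033335765232829504837613454592858214267932077369457838741653870570562128337763205504206974743244708934773603930693060451606992413977551420527902112108086133218272643664963519391004745128374547676284956344455608256870257690614286752080285339107216868038163957258284047759870709166515242517727324540509587765995407199319682326491495197272320654292514705874779894983315614601512211390158186047604988289279787620138192491298169467862247240555196919660856682775425848369505765442926691131648603355167424311897526570935366018466342560004008504943147480218994368807906045062594630640627845627790526202157192356254975659278971707319122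540949584798015663049443544492322227116035686375430862665969642234948689647613652201742479316153637203322917485942730866631361765727908356729380803939788334433293709568113021167514751146700064086489714960622717071215460335422678907399428812668154505603984350816329070173762907434492765063747281437889655003010859243800428439563656423521410488538748338176296896214956012909670707941192164760888739340545617727111284364956433929301041136997869757596695288322948057470541282234632866305502980697721320320824178314778406179467329116832482135706165201318710879825486091610591968502630961212054793408316094605004873668880848015875660553275780975740580358691818112728337671176186700822009753825729487419897687837390818146450323638263198315637174844320840399986695799068092299560978418830360728195340212465592001954749871113797048440096111040465071428753190832308593177880985728952994787168421931749461369478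006793881900255267569965255608270467170875975548143444380224497501123569018470612698075636553751659821570482445620496996480427401514293412168237154898095531972173280151653301033422302564283448817480373802163467167824141623095352479100706743941305433088007445207243380479657954887063920610385317322506966813852998220358947755384262972249033943864821514397346943149003989785710570436090922944104254610978525018371136085390863634127453741455447461708863689304974948704876987239258362027558133571665807493039735361098248361375049998057029316060425588578143019767076459196672455604336018280606226122404108088222369182527669802782554445781256978621052663042104250657571054405625800096135782852538919123202799034262730741765156845136644115005495894310499683860799434731625715662438797184346710840635141435225397357730161968785798017624468115542902137041221674353283487743739041925362559815827535261240926609838322641353955271700636006595678327207223421925212763609266541560206300640795663854080603243739712747620144536523245637342451711288354326032380429948646135692313802355321358980488428348818604393913274184879345647922244888164201231754614199859725331804508080575473387497179700551172192303186124605209577389390340090899012643543162726603765543872757760)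

noncomputable def rc0 : Nat := (nat_lit 101613560481256938593513716426991508342102108828974588238424539862069709151653712378122761727295126131646185321851957760014039058039481989528326371085670386362126389173219125897578705831647062752540774338148115606507533010963915570155425874665510440748339100177256640131539224286753647431574401681922155690211534088091359095278984104240019379191504636639737037588244290665594531393475201951905680438866139652693990964820060402651980579031347675303679630683746916672802518964099838648715894334726350166331136988117138734884144559008967323265736146552360119818839459401953771586464764664467711692161692634013214495851022560224406641732970056758216017388225415149250948254730147823990541811024683296891741241483747986623566838793329822035798714430010148185797141496996466835386033384191784336101093763529503472296211596010478816215951902274274660240723587426632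661577320355365218452290084612663094407524575440425535059407034626364404640136938689093361412298164212343749494530634444116976121271494228783885150917674155025791536901729325814957572463289957362494586354044688027690830850289857645623550029630549354822044300110123845953306481275674814918464514375100501053003597247554218884316574567441485361490580280557026614567799177511377125661793399525121150914580187894750439067032117093738385554530524443364437643932474551942287210841592404753553874437458833608693646422858913151391070846414943063562143322686401514700643001265228136528633699053509175288732904708998575542107061269393414768042494708454511271522975435712064844912714157627178410914572499396184136040902291742900201385689104158428306002858037786155660189674281127451739934762378314884072394972791266861070440809657739529952406161394950725717305313928686763022249051395320230120350451960401336835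104983699020201554372604997823520757499134377715651740094437600714350946043359352441971923059671982786271432734167462942044863249321998175191324150312692798715864859820319789035925031205262544998684059318777529706667359523975985997296985300760179952710148756744735823575101032933267737724285239039169069986609402358736915680510969414196811717387152610998476038633667957871881097174631035937010228089676000909222914334238056383325733145056257156706028235389282193050713137330962263696777668524329970605393999294994972805652089562244033940043389345716728809388298885208800344032902967464203433180564208666793951218810678580537605579941283274135889223289337475392754910873838734275594466374042884147824595882985474684549003871936136233275209296158194839689454921692946336208453549652862968554689619783864168788833121838189153691690971985799593858657128234096515922706784048195850036583442575551113194803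812770647355748922583744788522935046722723014870357141365915908828436503101782402337532478233667556754467334898405190064852470327109224902807179150523917739148287172143415547482080137175976746519929606037456186726028258448364302501081273773169130627333146604908731390535981829660093358970682774811784673940438650455619855905235967141766014028819013388147360289158002385446674430101722016191560021250916625604309275681460814941871276469947203306536570269626902443287980530177388736799229174769086035974911979330467752845110664821515262799831048503691147485993652932117883394004282814861268905205358106114599838629149103359238882529858819445931610624180012221470276833315821926888791890155636486622368051325614984395364100106500820215020118282213785457302553147243506634678944956003605816324788310603073751254314492331446818577672951229796518850885567611862676382241066938916918564312082558190729440499984263327080108965716640807859616549503825848407408258103358301408655617898216696258006269354517298379286392182444180624731311241261750153541005459261665901952649927858119544954258069428241758304620643623618643361806208764938779998504370594591844194492067170256558320124407292495834900680005957327914150777595491405958319937891156655526016966107070464)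

noncomputable def rc1 : Nat := (nat_lit 105296420770197746401044563719723843888678071627681094923394864305785160593899924826802709312599906454373685715195039108555451524503371029825245557115077365411826635409358449864202591713281136125385158559985147054136899548266231840872515024225589244516193371279947544634653056980515399838139866401850807216393304821260233221877354898935798944286548738389322845904401058812394219063249869392353095265667442475825156877691892107405242398599300647594938114596437629306448481153825159054336142470277175427594351714268868153263376125021721546143613982569056074669574791130677491572253666194302760030018893964258225171075474338107221887951414866291453895474579008840599022460767439851227158894570413255715563553410392692015261833051769263812095447882800771529020608131803636750967456177795972431250528358661544506434493430032473028014862542374757959970030754700006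434110479673725915630943055990436681879519111938783556755499333934445165091645375762448274958350775876674291299180535881328654097187446286909564013319517508022495958394079889853239727189852730078347679874392808386045861252075800786266610319586153968405769188261448916616252995703684369589391538220736832617916646712765764193707675498571085011225794044829520930336651253550414640164119339980192632124315533564774664431919560498643874605414284345868782270050264730155224170997470306695524768865804822718268940797835684215107083922915515366121297833273877308226954041980071304755716881550109298511483070491706964358601047760009509206655414705406794659802529731052394149508412028788687153765588115774548788146976745949887203564719297293574361979950178353671561776398198426667953463589893699265350678203154146831277735506198750472320795853995274743262721176410611759069630321304052314600049772962471708190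971645691093195828980091211202748537788454416856589881803437638683958293272382835689692325884704853404175962961082287336092305382851203072351363261030438427921149733539807554732764884805724699713774675558975718962996574738697438434254118159497056201966163599048490302538670897662929002305308546692002602619076667216936290401545970760028543519115713046121540872481640132934519687810063064352454341998623390685736001166177788402795642314094687452093350617318014012463449443302435833265149772261322436523655020048823086158664301489066236677962419447324126907511707304774896742641840697827005354623498511761443206795458188224316975817000761857943357241874491215920223161438512129970918708993338855545233845862944325834741152531116117487921857469532650795855480227150991544938552914455302791913042229395144929379603167225248901422729833902274308864333741913991599911953156528475789880167112707477097317144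207149267942860645278128176352145004113537064498003391242409458437590624369510204850301666977774724518397884630870250052367268011846041205711826481840676142979110195210371771021522943439666970262342932667314604231506086031344657605411184072377185327464548851485391144152229942560618958704430830426625487921092150521670079760870139423229762660975163578241023535101400588795314650399731811838286108000425958400888968115713605167716548037442992853969953435783145016173234640728118272624778346849633677000062870197178428060511998059266716864939839104957923761092157880488507783935508214432721346820935360395823784864885677702114794844124069927728379058639302977258716930813139216647367495300860866909022057605731055518471210797115134474217140618850822913128234148570674626309531696383054300311188871794259008422929992141145477472355597362818686979219894218447144343859662003787227816831648934705635161086526417638142199553294888042432289090565771091334764345554654802405198192914710910341581930221092306678829690493256469384762953088932713796608336043089169869583599078428418903076699862541361409950431457647788351592592490432672421639795791049456540282837637393630375291132469795552121603744964915244098502139302788938838024724093748320648948679155122176)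

noncomputable def rc2 : Nat := (nat_lit 109377090241375781917459034543322499146080771567643608580309946400978657285908472904816075894090611030793375599116410203795200448180500389880920710071839016731152502127974005410841449571822501296815095000549042581519428847089201576792573863512895359080521050493782809504248333788323763557435868788189717067835343534706758871866942509913114027170345497329624881550679776578638669864686278838461093747171108696417546519908458838284518315173855777482945616412443878315560138849399463474981221356244965447644407372959957984813626400038535742905233598400022602834337322288722717297238614007274637910433979254428998210707368403828484739239546803413472285495386115019183048212468147780989728711344033184502841787979739042983782869692285822382546845466635486011054402190575842402823588980127489328592254142563869275787446797094860882846702728559027281089020133499443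257604412052457030636133139767995390696129363477303365373527839045890494256048463062645566695739743852772165913520355164019992272558738066108637014942064989652268265750135734439537364403052444628801657177549668765633335203382111802285251126770617703414686348041619254027527202251392504265104648760031886523580234147092500374543766156075497911096131372334367730154543010255680772414197320127736336576135677389145674165315671056227299605440385194133675234272405223364500779206188902649172576953297161404109597108341445987842001458999927513191505198381905479444268202179559697635209532508246550244175476315201733378527104210204610412735299650622081539905421040301952246686739187654735709505426987730636238035574100681401470127449558519615793661957874282570689375327563882666692134373970139170086528906180631801321168481324023375422849822531115909362985134553367827873494669823342820770927292087140276620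837755168544014316896149449943189687863583747960926242561935397452945253850929789090129469077050666769927115175884733206530582270716821044517744087691620600874848407209483646724959675881527065898725656857993833029142172726409134478309983411463455962998502553592455430908918687759643268791525336628405929153029599930831874968409576414868852652711037423812320283249085700508710796581737650567974244524630993444860701866889688410290714213351015274604518951986512143932946779061753714090950719375209906226204213133351389644834166980060498863903520255727257910872968482310608771756109324442812366696613299782849324665929875414455581797804750305555221505043602987189133507340828786604590790282027808898937598837619858919185039440161512335738662824274378525469008816102085379414333871401743391793339663821811265454734676380704023338042941771314448723755301229681578642153390581318347699595415406829487147725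797382917292254523560118289397538905640206594387281595251214007337139882943690058571328510393721062811241401077985788765930955539107426716082264173108135860171339859124723064394550921090434680963384722876940859042260376782259656535992933739715904436496702468798435354435055122316397228013584070460799721935894079627461744525045249332236664475342444434879694638455645457895709718093560606589140117462526260850852592132489906274868212124068735723221191460738352869474226130280624483288607962953336020579151731310966699742451183304591624027484490810184685972877851739831088245602340586031044664873098805578996569638975432520071343530866612071367089042000910798929452950808337023672248222072050108024747501433809509653751628852382001888319073522111017881206361260132552131957032442676199316332925156199649704388593638806066094449777725699779849301951034356249268666014746470165477190105426242408106817295010977691194014703304443541526442787913603991008666707996850022767784140924844969547530409772136030517019405162510077807957661939607018233842728091757314884583908176412204960838546045160427629860581806500004781488348460715054194100550268268622564208954455318531039641360133024463114493804031846386917225486086635653178988908318623716988700059282440192)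

noncomputable def rc3 : Nat := (nat_lit 113790865705319445056935089636612106344525123424612201444306624438545069083446713963397096554577701832775635762661290206995855064382729909747916579262270495919386315820110949978122049022986861967061292728314187462962570874432389849770927802128583045227709498200914297594386873043202308608962433580867746325329452511670543903383621747395452371826937095799334861911865141081268018978951204440332529559895630051320329867072323236937185556066641638534574327198542566812610385003862160857833962517410174365453385074410207318505808335762871115064022940090961741234333111947515176443281469338408644198297630061723040240675958082478064901673566933532392112651315778880098372676402207586212442842921657576840539669474646229930899055890217306822251030691922512140232736920243100042766950528926268248760566175432679662696639552072855442859059387165013931859006353626540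600928901152417214857468993892891177536737267737065752766528902721410243936527749441755021453554817104040680452198296300009607953644611640391185992654056785618242637358406248703674073345711883238521469131256219992547154227825702902557242065592870632916040739019145209962296183494796552224294629151231651013766929190733174376969247592900839621827364989743700070827435769399214886236218286245897681242929829429374581640452631980282687647837805652239029055211699668214867048906843019961901763285684319317177072396622565529664191922413839026815115089215438504810848902991836371593591023370016666621955898195525878342417439714044872680775088642783831155680642042775038780294498861142232228752942688952918480184070214925417438121398295118770025147182706258151362078921734043805490621098410374256026231885568531690374127883763900675711095269208432172379748633431352918622464882054422894481498275537128264109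747165573691816437378392421469299204584210455502309829706252857022571876367822086002452002914070624149820757031797151690810542195879836542745423799791993119029335192620029744416051761258924200741943370589074803926191023802743599685244002497546237125179180232055749751119101333971482382324669309268595702343080426988141010964740329861519598578928001363944930781683950842198992920459968441012917625777592990413832421900207891359734803719276184801998109693128762109361099304795785595493854634186578443936109247296431202878261207457354972408077626225924481594397815693262327503384545874399774989999174464345417001251670540093151294861820463390590174348845289590211108447398328282874006900202393547412412183336698382911846882445000813304880160841654591067036956174281814578755001723409710587517776359002967097858261360464426063928828105103354847605389914529072756738999125070287754472725775912568944898784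889053878173955636632517781353625300945776659905773324754818859089280425629509563535605627503363409434840611752888214926263929993328966318043346473005701949457878934026363051270856854263638537804281628399972146222565061774552199392776606796291026071594582357485507783270940225979703775787855138102407373692501197737832279122096269115482611746543851000424589868360187224898960041461990490110190663090381061662547660848335170003177426494581846581620253351109821582478824037491621164702832663968536106692223679360521669928052446552542322073794945640007714030669878289461199683449312873143927489042665208399477447655265446242491940264613743246906357824335739811041925763103726189825089163102888035116747921831383219539872084990307190579842768133481585952584919064322992092241710517910882020555636702003372544172477037894591505182142738961182151543560108754619461653198804317592772601120197999290797291436923964317728343995939821831646124543120785490800234388986538648597754967679346405870527987970438609246202535493593499798219368747196567153146841380365316876267807927794444127368977100801908222623945185124541894214271317699306049834202581728166767083940845201133591803562665488507660093626955929648343523462052189951025777116245575925271198402779021312)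

noncomputable def rc4 : Nat := (nat_lit 116882665458521925879316703376480843195602662705730334764671712843927416253642246861737267338829099164424039741224277877162018100552286927379404712544897307523815804341261724615449587004751640779117704152189927773291440487343367359293656305793090011466432531682563083576902284240518906219216717376802611600713967938393378100683623287753359476372990537663256327657663100004611088167215572635354012794534572770324180353740493156343238759508968583408169555025624717825231444091331617482420915884946582917495552179633366945169671252961209121443774081704571980072304156924939967252603617449016560062081866027575338674154944115543427362864600488598592853460202153901404680182245352793208033732554109068643085186131596681352543942766692128069350207751135089370115386274436348861183354945427001558928164396788697185034462325780527340505343314975497458548806546234663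201738350102179959252157275400261461921879227206273513782393454031340934202580573334841119342872752020729951779164826423179322632784761251958431934991156727525221794407702021089425633475158163480386513270270646810277859031346521231309529555634610342610164167350473206260911033335765232829504837613454592858214267932077369457838741653870570562128337763205504206974743244708934773603930693060451606992413977551420527902112108086133218272643664963519391004745128374547676284956344455608256870257690614286752080285339107216868038163957258284047759870709166515242517727324540509587765995407199319682326491495197272320654292514705874779894983315614601512211390158186047604988289279787620138192491298169467862247240555196919660856682775425848369505765442926691131648603355167424311897526570935366018466342560004008504943147480218994368807906045062594630640627845627790526202157192356254975659278971707319122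540949584798015663049443544492322227116035686375430862665969642234948689647613652201742479316153637203322917485942730866631361765727908356729380803939788334433293709568113021167514751146700064086489714960622717071215460335422678907399428812668154505603984350816329070173762907434492765063747281437889655003010859243800428439563656423521410488538748338176296896214956012909670707941192164760888739340545617727111284364956433929301041136997869757596695288322948057470541282234632866305502980697721320320824178314778406179467329116832482135706165201318710879825486091610591968502630961212054793408316094605004873668880848015875660553275780975740580358691818112728337671176186700822009753825729487419897687837390818146450323638263198315637174844320840399986695799068092299560978418830360728195340212465592001954749871113797048440096111040465071428753190832308593177880985728952994787168421931749461369478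006793881900255267569965255608270467170875975548143444380224497501123569018470612698075636553751659821570482445620496996480427401514293412168237154898095531972173280151653301033422302564283448817480373802163467167824141623095352479100706743941305433088007445207243380479657954887063920610385317322506966813852998220358947755384262972249033943864821514397346943149003989785710570436090922944104254610978525018371136085390863634127453741455447461708863689304974948704876987239258362027558133571665807493039735361098248361375049998057029316060425588578143019767076459196672455604336018280606226122404108088222369182527669802782554445781256978621052663042104250657571054405625800096135782852538919123202799034262730741765156845136644115005495894310499683860799434731625715662438797184346710840635141435225397357730161968785798017624468115542902137041221674353283487743739041925362559815827535261240926609838322641353955271700636006595678327207223421925212763609266541560206300640795663854080603243739712747620144536523245637342451711288354326032380429948646135692313802355321358980488428348818604393913274184879345647922244888164201231754614199859725331804508080575473387497179700551172192303186124605209577389390340090899012643543162726603765543872757760)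

end Vale.Agent.Lib.P154.PChain.BG.S4
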