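import Vale.Agent.Lib.P154.PChain.BG.R4_0

set_option linter.all false

namespace Vale.Agent.Lib.P154.PChain.BG.S5

open Vale.Agent.Lib.P154.Chain

noncomputable def pc0 : PT := (PT.nd (nat_lit 6760884) (PT.nd (nat_lit 6442488) (PT.nd (nat_lit 6283290) (PT.nd (nat_lit 6230094) (PT.nd (nat_lit 6124014) (PT.nd (nat_lit 6123936) PT.nil (PT.lf (nat_lit 76) (nat_lit 6) (nat_lit 1) (nat_lit 3) (nat_lit 197) (nat_lit 115) (nat_lit 198))) (PT.nd (nat_lit 53040) (PT.lf (nat_lit 76) (nat_lit 6) (nat_lit 1) (nat_lit 1) (nat_lit 198) (nat_lit 115) (nat_lit 197)) (PT.lf (nat_lit 228) (nat_lit 3) (nat_lit 3) (nat_lit 1) (nat_lit 197) (nat_lit 116) (nat_lit 197)))) (PT.nd (nat_lit 53040) (PT.nd (nat_lit 78) (PT.lf (nat_lit 304) (nat_lit 6) (nat_lit 4) (nat_lit 3) (nat_lit 196) (nat_lit 117) (nat_lit 197)) (PT.lf (nat_lit 304) (nat_lit 6) (nat_lit 4) (nat_lit 1) (nat_lit 197) (nat_lit 117) (nat_lit 196))) (PT.nd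 (nat_lit 78) (PT.lf (nat_lit 380) (nat_lit 6) (nat_lit 5) (nat_lit 3) (nat_lit 195) (nat_lit 118) (nat_lit 197)) (PT.lf (nat_lit 456) (nat_lit 3) (nat_lit 6) (nat_lit 1) (nat_lit 196) (nat_lit 118) (nat_lit 196))))) (PT.nd (nat_lit 106002) (PT.nd (nat_lit 52962) (PT.lf (nat_lit 380) (nat_lit 6) (nat_lit 5) (nat_lit 1) (nat_lit 197) (nat_lit 118) (nat_lit 195)) (PT.nd (nat_lit 78) (PT.lf (nat_lit 532) (nat_lit 6) (nat_lit 7) (nat_lit 3) (nat_lit 195) (nat_lit 119) (nat_lit 196)) (PT.lf (nat_lit 532) (nat_lit 6) (nat_lit 7) (nat_lit 1) (nat_lit 196) (nat_lit 119) (nat_lit 195)))) (PT.nd (nat_lit 156) (PT.nd (nat_lit 78) (PT.lf (nat_lit 608) (nat_lit 6) (nat_lit 8) (nat_lit 3) (nat_lit 194) (nat_lit 120) (nat_lit 196)) (PT.lf (nat_lit 684) (nat_lit 3) (nat_lit 9) (nat_lit 1) (nat_lit 195) (nat_lit 120) (nat_lit 195))) (PT.nd (nat_lit 52962) (PT.lf (nat_lit 608) (nat_lit 6) (nat_lit 8) (nat_lit 1)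 (nat_lit 196) (nat_lit 120) (nat_lit 194)) (PT.lf (nat_lit 760) (nat_lit 6) (nat_lit 10) (nat_lit 3) (nat_lit 194) (nat_lit 121) (nat_lit 195)))))) (PT.nd (nat_lit 159198) (PT.nd (nat_lit 53118) (PT.nd (nat_lit 52962) (PT.lf (nat_lit 760) (nat_lit 6) (nat_lit 10) (nat_lit 1) (nat_lit 195) (nat_lit 121) (nat_lit 194)) (PT.nd (nat_lit 78) (PT.lf (nat_lit 836) (nat_lit 6) (nat_lit 11) (nat_lit 3) (nat_lit 193) (nat_lit 122) (nat_lit 195)) (PT.lf (nat_lit 912) (nat_lit 3) (nat_lit 12) (nat_lit 1) (nat_lit 194) (nat_lit 122) (nat_lit 194)))) (PT.nd (nat_lit 53040) (PT.nd (nat_lit 52962) (PT.lf (nat_lit 836) (nat_lit 6) (nat_lit 11) (nat_lit 1) (nat_lit 195) (nat_lit 122) (nat_lit 193)) (PT.lf (nat_lit 988) (nat_lit 6) (nat_lit 13) (nat_lit 3) (nat_lit 193) (nat_lit 123) (nat_lit 194))) (PT.nd (nat_lit 52962) (PT.lf (nat_lit 988) (nat_lit 6) (nat_lit 13) (nat_lit 1) (nat_lit 194) (nat_lit 123) (nat_lit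 193)) (PT.lf (nat_lit 1064) (nat_lit 6) (nat_lit 14) (nat_lit 3) (nat_lit 192) (nat_lit 124) (nat_lit 194))))) (PT.nd (nat_lit 53118) (PT.nd (nat_lit 78) (PT.lf (nat_lit 1140) (nat_lit 3) (nat_lit 15) (nat_lit 1) (nat_lit 193) (nat_lit 124) (nat_lit 193)) (PT.nd (nat_lit 52962) (PT.lf (nat_lit 1064) (nat_lit 6) (nat_lit 14) (nat_lit 1) (nat_lit 194) (nat_lit 124) (nat_lit 192)) (PT.lf (nat_lit 1216) (nat_lit 6) (nat_lit 16) (nat_lit 3) (nat_lit 192) (nat_lit 125) (nat_lit 193)))) (PT.nd (nat_lit 53040) (PT.nd (nat_lit 52962) (PT.lf (nat_lit 1216) (nat_lit 6) (nat_lit 16) (nat_lit 1) (nat_lit 193) (nat_lit 125) (nat_lit 192)) (PT.lf (nat_lit 1292) (nat_lit 6) (nat_lit 17) (nat_lit 3) (nat_lit 191) (nat_lit 126) (nat_lit 193))) (PT.nd (nat_lit 78) (PT.lf (nat_lit 1368) (nat_lit 3) (nat_lit 18) (nat_lit 1) (nat_lit 192) (nat_lit 126) (nat_lit 192)) (PT.lf (nat_lit 1292) (nat_lit 6) (nat_lit 17)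 (nat_lit 1) (nat_lit 193) (nat_lit 126) (nat_lit 191))))))) (PT.nd (nat_lit 265512) (PT.nd (nat_lit 159198) (PT.nd (nat_lit 53118) (PT.nd (nat_lit 78) (PT.lf (nat_lit 1444) (nat_lit 6) (nat_lit 19) (nat_lit 3) (nat_lit 191) (nat_lit 127) (nat_lit 192)) (PT.nd (nat_lit 52962) (PT.lf (nat_lit 1444) (nat_lit 6) (nat_lit 19) (nat_lit 1) (nat_lit 192) (nat_lit 127) (nat_lit 191)) (PT.lf (nat_lit 1520) (nat_lit 6) (nat_lit 20) (nat_lit 3) (nat_lit 190) (nat_lit 128) (nat_lit 192)))) (PT.nd (nat_lit 53040) (PT.nd (nat_lit 78) (PT.lf (nat_lit 1596) (nat_lit 3) (nat_lit 21) (nat_lit 1) (nat_lit 191) (nat_lit 128) (nat_lit 191)) (PT.lf (nat_lit 1520) (nat_lit 6) (nat_lit 20) (nat_lit 1) (nat_lit 192) (nat_lit 128) (nat_lit 190))) (PT.nd (nat_lit 78) (PT.lf (nat_lit 1672) (nat_lit 6) (nat_lit 22) (nat_lit 3) (nat_lit 190) (nat_lit 129) (nat_lit 191)) (PT.lf (nat_lit 1672) (nat_lit 6) (nat_lit 22) (nat_lit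 1) (nat_lit 191) (nat_lit 129) (nat_lit 190))))) (PT.nd (nat_lit 53118) (PT.nd (nat_lit 78) (PT.lf (nat_lit 1748) (nat_lit 6) (nat_lit 23) (nat_lit 3) (nat_lit 189) (nat_lit 130) (nat_lit 191)) (PT.nd (nat_lit 78) (PT.lf (nat_lit 1824) (nat_lit 3) (nat_lit 24) (nat_lit 1) (nat_lit 190) (nat_lit 130) (nat_lit 190)) (PT.lf (nat_lit 1748) (nat_lit 6) (nat_lit 23) (nat_lit 1) (nat_lit 191) (nat_lit 130) (nat_lit 189)))) (PT.nd (nat_lit 53040) (PT.nd (nat_lit 78) (PT.lf (nat_lit 1900) (nat_lit 6) (nat_lit 25) (nat_lit 3) (nat_lit 189) (nat_lit 131) (nat_lit 190)) (PT.lf (nat_lit 1900) (nat_lit 6) (nat_lit 25) (nat_lit 1) (nat_lit 190) (nat_lit 131) (nat_lit 189))) (PT.nd (nat_lit 78) (PT.lf (nat_lit 1976) (nat_lit 6) (nat_lit 26) (nat_lit 3) (nat_lit 188) (nat_lit 132) (nat_lit 190)) (PT.lf (nat_lit 2052) (nat_lit 3) (nat_lit 27) (nat_lit 1) (nat_lit 189) (nat_lit 132) (nat_lit 189)))))) (PT.nd (nat_lit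 159120) (PT.nd (nat_lit 106002) (PT.nd (nat_lit 52962) (PT.lf (nat_lit 1976) (nat_lit 6) (nat_lit 26) (nat_lit 1) (nat_lit 190) (nat_lit 132) (nat_lit 188)) (PT.nd (nat_lit 78) (PT.lf (nat_lit 2128) (nat_lit 6) (nat_lit 28) (nat_lit 3) (nat_lit 188) (nat_lit 133) (nat_lit 189)) (PT.lf (nat_lit 2128) (nat_lit 6) (nat_lit 28) (nat_lit 1) (nat_lit 189) (nat_lit 133) (nat_lit 188)))) (PT.nd (nat_lit 156) (PT.nd (nat_lit 78) (PT.lf (nat_lit 2204) (nat_lit 6) (nat_lit 29) (nat_lit 3) (nat_lit 187) (nat_lit 134) (nat_lit 189)) (PT.lf (nat_lit 2280) (nat_lit 3) (nat_lit 30) (nat_lit 1) (nat_lit 188) (nat_lit 134) (nat_lit 188))) (PT.nd (nat_lit 52884) (PT.lf (nat_lit 2204) (nat_lit 6) (nat_lit 29) (nat_lit 1) (nat_lit 189) (nat_lit 134) (nat_lit 187)) (PT.lf (nat_lit 2356) (nat_lit 6) (nat_lit 31) (nat_lit 3) (nat_lit 186) (nat_lit 135) (nat_lit 189))))) (PT.nd (nat_lit 53118) (PT.nd (nat_lit 156) (PT.nd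 (nat_lit 78) (PT.lf (nat_lit 2432) (nat_lit 6) (nat_lit 32) (nat_lit 3) (nat_lit 187) (nat_lit 135) (nat_lit 188)) (PT.lf (nat_lit 2432) (nat_lit 6) (nat_lit 32) (nat_lit 1) (nat_lit 188) (nat_lit 135) (nat_lit 187))) (PT.nd (nat_lit 52884) (PT.lf (nat_lit 2356) (nat_lit 6) (nat_lit 31) (nat_lit 1) (nat_lit 189) (nat_lit 135) (nat_lit 186)) (PT.lf (nat_lit 2508) (nat_lit 6) (nat_lit 33) (nat_lit 3) (nat_lit 186) (nat_lit 136) (nat_lit 188)))) (PT.nd (nat_lit 52962) (PT.nd (nat_lit 78) (PT.lf (nat_lit 2584) (nat_lit 3) (nat_lit 34) (nat_lit 1) (nat_lit 187) (nat_lit 136) (nat_lit 187)) (PT.lf (nat_lit 2508) (nat_lit 6) (nat_lit 33) (nat_lit 1) (nat_lit 188) (nat_lit 136) (nat_lit 186))) (PT.nd (nat_lit 78) (PT.lf (nat_lit 2660) (nat_lit 6) (nat_lit 35) (nat_lit 3) (nat_lit 185) (nat_lit 137) (nat_lit 188)) (PT.lf (nat_lit 2736) (nat_lit 6) (nat_lit 36) (nat_lit 3) (nat_lit 186) (nat_lit 137) (nat_lit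 187))))))))
noncomputable def pc1 : PT := (PT.nd (nat_lit 371592) (PT.nd (nat_lit 212316) (PT.nd (nat_lit 106158) (PT.nd (nat_lit 53040) (PT.nd (nat_lit 78) (PT.lf (nat_lit 2736) (nat_lit 6) (nat_lit 36) (nat_lit 1) (nat_lit 187) (nat_lit 137) (nat_lit 186)) (PT.nd (nat_lit 52884) (PT.lf (nat_lit 2660) (nat_lit 6) (nat_lit 35) (nat_lit 1) (nat_lit 188) (nat_lit 137) (nat_lit 185)) (PT.lf (nat_lit 2812) (nat_lit 6) (nat_lit 37) (nat_lit 3) (nat_lit 185) (nat_lit 138) (nat_lit 187)))) (PT.nd (nat_lit 52962) (PT.nd (nat_lit 78) (PT.lf (nat_lit 2888) (nat_lit 3) (nat_lit 38) (nat_lit 1) (nat_lit 186) (nat_lit 138) (nat_lit 186)) (PT.lf (nat_lit 2812) (nat_lit 6) (nat_lit 37) (nat_lit 1) (nat_lit 187) (nat_lit 138) (nat_lit 185))) (PT.nd (nat_lit 78) (PT.lf (nat_lit 2964) (nat_lit 6) (nat_lit 39) (nat_lit 3) (nat_lit 184) (nat_lit 139) (nat_lit 187)) (PT.lf (nat_lit 3040) (nat_lit 6) (nat_lit 40)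 (nat_lit 3) (nat_lit 185) (nat_lit 139) (nat_lit 186))))) (PT.nd (nat_lit 53040) (PT.nd (nat_lit 78) (PT.lf (nat_lit 3040) (nat_lit 6) (nat_lit 40) (nat_lit 1) (nat_lit 186) (nat_lit 139) (nat_lit 185)) (PT.nd (nat_lit 52884) (PT.lf (nat_lit 2964) (nat_lit 6) (nat_lit 39) (nat_lit 1) (nat_lit 187) (nat_lit 139) (nat_lit 184)) (PT.lf (nat_lit 3116) (nat_lit 6) (nat_lit 41) (nat_lit 3) (nat_lit 184) (nat_lit 140) (nat_lit 186)))) (PT.nd (nat_lit 52962) (PT.nd (nat_lit 78) (PT.lf (nat_lit 3192) (nat_lit 3) (nat_lit 42) (nat_lit 1) (nat_lit 185) (nat_lit 140) (nat_lit 185)) (PT.lf (nat_lit 3116) (nat_lit 6) (nat_lit 41) (nat_lit 1) (nat_lit 186) (nat_lit 140) (nat_lit 184))) (PT.nd (nat_lit 78) (PT.lf (nat_lit 3268) (nat_lit 6) (nat_lit 43) (nat_lit 3) (nat_lit 183) (nat_lit 141) (nat_lit 186)) (PT.lf (nat_lit 3344) (nat_lit 6) (nat_lit 44) (nat_lit 3) (nat_lit 184) (nat_lit 141) (nat_lit 185))))))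 (PT.nd (nat_lit 106002) (PT.nd (nat_lit 52962) (PT.nd (nat_lit 78) (PT.lf (nat_lit 3344) (nat_lit 6) (nat_lit 44) (nat_lit 1) (nat_lit 185) (nat_lit 141) (nat_lit 184)) (PT.nd (nat_lit 52806) (PT.lf (nat_lit 3268) (nat_lit 6) (nat_lit 43) (nat_lit 1) (nat_lit 186) (nat_lit 141) (nat_lit 183)) (PT.lf (nat_lit 3420) (nat_lit 6) (nat_lit 45) (nat_lit 3) (nat_lit 182) (nat_lit 142) (nat_lit 186)))) (PT.nd (nat_lit 156) (PT.nd (nat_lit 78) (PT.lf (nat_lit 3496) (nat_lit 6) (nat_lit 46) (nat_lit 3) (nat_lit 183) (nat_lit 142) (nat_lit 185)) (PT.lf (nat_lit 3572) (nat_lit 3) (nat_lit 47) (nat_lit 1) (nat_lit 184) (nat_lit 142) (nat_lit 184))) (PT.nd (nat_lit 78) (PT.lf (nat_lit 3496) (nat_lit 6) (nat_lit 46) (nat_lit 1) (nat_lit 185) (nat_lit 142) (nat_lit 183)) (PT.lf (nat_lit 3420) (nat_lit 6) (nat_lit 45) (nat_lit 1) (nat_lit 186) (nat_lit 142) (nat_lit 182))))) (PT.nd (nat_lit 234) (PT.nd (nat_lit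 78) (PT.lf (nat_lit 3648) (nat_lit 6) (nat_lit 48) (nat_lit 3) (nat_lit 182) (nat_lit 143) (nat_lit 185)) (PT.nd (nat_lit 78) (PT.lf (nat_lit 3724) (nat_lit 6) (nat_lit 49) (nat_lit 3) (nat_lit 183) (nat_lit 143) (nat_lit 184)) (PT.lf (nat_lit 3724) (nat_lit 6) (nat_lit 49) (nat_lit 1) (nat_lit 184) (nat_lit 143) (nat_lit 183)))) (PT.nd (nat_lit 52884) (PT.nd (nat_lit 52806) (PT.lf (nat_lit 3648) (nat_lit 6) (nat_lit 48) (nat_lit 1) (nat_lit 185) (nat_lit 143) (nat_lit 182)) (PT.lf (nat_lit 3800) (nat_lit 6) (nat_lit 50) (nat_lit 3) (nat_lit 181) (nat_lit 144) (nat_lit 185))) (PT.nd (nat_lit 78) (PT.lf (nat_lit 3876) (nat_lit 6) (nat_lit 51) (nat_lit 3) (nat_lit 182) (nat_lit 144) (nat_lit 184)) (PT.lf (nat_lit 3952) (nat_lit 3) (nat_lit 52) (nat_lit 1) (nat_lit 183) (nat_lit 144) (nat_lit 183))))))) (PT.nd (nat_lit 159198) (PT.nd (nat_lit 106002) (PT.nd (nat_lit 52962) (PT.nd (nat_lit 78) (PT.lf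 (nat_lit 3876) (nat_lit 6) (nat_lit 51) (nat_lit 1) (nat_lit 184) (nat_lit 144) (nat_lit 182)) (PT.nd (nat_lit 52806) (PT.lf (nat_lit 3800) (nat_lit 6) (nat_lit 50) (nat_lit 1) (nat_lit 185) (nat_lit 144) (nat_lit 181)) (PT.lf (nat_lit 4028) (nat_lit 6) (nat_lit 53) (nat_lit 3) (nat_lit 181) (nat_lit 145) (nat_lit 184)))) (PT.nd (nat_lit 156) (PT.nd (nat_lit 78) (PT.lf (nat_lit 4104) (nat_lit 6) (nat_lit 54) (nat_lit 3) (nat_lit 182) (nat_lit 145) (nat_lit 183)) (PT.lf (nat_lit 4104) (nat_lit 6) (nat_lit 54) (nat_lit 1) (nat_lit 183) (nat_lit 145) (nat_lit 182))) (PT.nd (nat_lit 52806) (PT.lf (nat_lit 4028) (nat_lit 6) (nat_lit 53) (nat_lit 1) (nat_lit 184) (nat_lit 145) (nat_lit 181)) (PT.lf (nat_lit 4180) (nat_lit 6) (nat_lit 55) (nat_lit 3) (nat_lit 180) (nat_lit 146) (nat_lit 184))))) (PT.nd (nat_lit 234) (PT.nd (nat_lit 78) (PT.lf (nat_lit 4256) (nat_lit 6) (nat_lit 56) (nat_lit 3) (nat_lit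 181) (nat_lit 146) (nat_lit 183)) (PT.nd (nat_lit 78) (PT.lf (nat_lit 4332) (nat_lit 3) (nat_lit 57) (nat_lit 1) (nat_lit 182) (nat_lit 146) (nat_lit 182)) (PT.lf (nat_lit 4256) (nat_lit 6) (nat_lit 56) (nat_lit 1) (nat_lit 183) (nat_lit 146) (nat_lit 181)))) (PT.nd (nat_lit 52806) (PT.nd (nat_lit 52728) (PT.lf (nat_lit 4180) (nat_lit 6) (nat_lit 55) (nat_lit 1) (nat_lit 184) (nat_lit 146) (nat_lit 180)) (PT.lf (nat_lit 4408) (nat_lit 6) (nat_lit 58) (nat_lit 3) (nat_lit 179) (nat_lit 147) (nat_lit 184))) (PT.nd (nat_lit 78) (PT.lf (nat_lit 4484) (nat_lit 6) (nat_lit 59) (nat_lit 3) (nat_lit 180) (nat_lit 147) (nat_lit 183)) (PT.lf (nat_lit 4560) (nat_lit 6) (nat_lit 60) (nat_lit 3) (nat_lit 181) (nat_lit 147) (nat_lit 182)))))) (PT.nd (nat_lit 53196) (PT.nd (nat_lit 52884) (PT.nd (nat_lit 78) (PT.lf (nat_lit 4560) (nat_lit 6) (nat_lit 60) (nat_lit 1) (nat_lit 182) (nat_lit 147) (nat_lit 181))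 (PT.nd (nat_lit 78) (PT.lf (nat_lit 4484) (nat_lit 6) (nat_lit 59) (nat_lit 1) (nat_lit 183) (nat_lit 147) (nat_lit 180)) (PT.lf (nat_lit 4408) (nat_lit 6) (nat_lit 58) (nat_lit 1) (nat_lit 184) (nat_lit 147) (nat_lit 179)))) (PT.nd (nat_lit 156) (PT.nd (nat_lit 78) (PT.lf (nat_lit 4636) (nat_lit 6) (nat_lit 61) (nat_lit 3) (nat_lit 179) (nat_lit 148) (nat_lit 183)) (PT.lf (nat_lit 4712) (nat_lit 6) (nat_lit 62) (nat_lit 3) (nat_lit 180) (nat_lit 148) (nat_lit 182))) (PT.nd (nat_lit 78) (PT.lf (nat_lit 4788) (nat_lit 3) (nat_lit 63) (nat_lit 1) (nat_lit 181) (nat_lit 148) (nat_lit 181)) (PT.lf (nat_lit 4712) (nat_lit 6) (nat_lit 62) (nat_lit 1) (nat_lit 182) (nat_lit 148) (nat_lit 180))))) (PT.nd (nat_lit 52962) (PT.nd (nat_lit 52806) (PT.nd (nat_lit 52728) (PT.lf (nat_lit 4636) (nat_lit 6) (nat_lit 61) (nat_lit 1) (nat_lit 183) (nat_lit 148) (nat_lit 179)) (PT.lf (nat_lit 4864) (nat_lit 6) (nat_lit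 64) (nat_lit 3) (nat_lit 178) (nat_lit 149) (nat_lit 183))) (PT.nd (nat_lit 78) (PT.lf (nat_lit 4940) (nat_lit 6) (nat_lit 65) (nat_lit 3) (nat_lit 179) (nat_lit 149) (nat_lit 182)) (PT.lf (nat_lit 5016) (nat_lit 6) (nat_lit 66) (nat_lit 3) (nat_lit 180) (nat_lit 149) (nat_lit 181)))) (PT.nd (nat_lit 156) (PT.nd (nat_lit 78) (PT.lf (nat_lit 5016) (nat_lit 6) (nat_lit 66) (nat_lit 1) (nat_lit 181) (nat_lit 149) (nat_lit 180)) (PT.lf (nat_lit 4940) (nat_lit 6) (nat_lit 65) (nat_lit 1) (nat_lit 182) (nat_lit 149) (nat_lit 179))) (PT.nd (nat_lit 52650) (PT.lf (nat_lit 4864) (nat_lit 6) (nat_lit 64) (nat_lit 1) (nat_lit 183) (nat_lit 149) (nat_lit 178)) (PT.lf (nat_lit 5092) (nat_lit 6) (nat_lit 67) (nat_lit 3) (nat_lit 177) (nat_lit 150) (nat_lit 183))))))))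
noncomputable def pc2 : PT := (PT.nd (nat_lit 212316) (PT.nd (nat_lit 106236) (PT.nd (nat_lit 53118) (PT.nd (nat_lit 234) (PT.nd (nat_lit 78) (PT.lf (nat_lit 5168) (nat_lit 6) (nat_lit 68) (nat_lit 3) (nat_lit 178) (nat_lit 150) (nat_lit 182)) (PT.nd (nat_lit 78) (PT.lf (nat_lit 5244) (nat_lit 6) (nat_lit 69) (nat_lit 3) (nat_lit 179) (nat_lit 150) (nat_lit 181)) (PT.lf (nat_lit 5320) (nat_lit 3) (nat_lit 70) (nat_lit 1) (nat_lit 180) (nat_lit 150) (nat_lit 180)))) (PT.nd (nat_lit 156) (PT.nd (nat_lit 78) (PT.lf (nat_lit 5244) (nat_lit 6) (nat_lit 69) (nat_lit 1) (nat_lit 181) (nat_lit 150) (nat_lit 179)) (PT.lf (nat_lit 5168) (nat_lit 6) (nat_lit 68) (nat_lit 1) (nat_lit 182) (nat_lit 150) (nat_lit 178))) (PT.nd (nat_lit 52650) (PT.lf (nat_lit 5092) (nat_lit 6) (nat_lit 67) (nat_lit 1) (nat_lit 183) (nat_lit 150) (nat_lit 177)) (PT.lf (nat_lit 5396) (nat_lit 6) (nat_lit 71) (nat_lit 3) (nat_lit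 177) (nat_lit 151) (nat_lit 182))))) (PT.nd (nat_lit 234) (PT.nd (nat_lit 78) (PT.lf (nat_lit 5472) (nat_lit 6) (nat_lit 72) (nat_lit 3) (nat_lit 178) (nat_lit 151) (nat_lit 181)) (PT.nd (nat_lit 78) (PT.lf (nat_lit 5548) (nat_lit 6) (nat_lit 73) (nat_lit 3) (nat_lit 179) (nat_lit 151) (nat_lit 180)) (PT.lf (nat_lit 5548) (nat_lit 6) (nat_lit 73) (nat_lit 1) (nat_lit 180) (nat_lit 151) (nat_lit 179)))) (PT.nd (nat_lit 52728) (PT.nd (nat_lit 78) (PT.lf (nat_lit 5472) (nat_lit 6) (nat_lit 72) (nat_lit 1) (nat_lit 181) (nat_lit 151) (nat_lit 178)) (PT.lf (nat_lit 5396) (nat_lit 6) (nat_lit 71) (nat_lit 1) (nat_lit 182) (nat_lit 151) (nat_lit 177))) (PT.nd (nat_lit 78) (PT.lf (nat_lit 5624) (nat_lit 6) (nat_lit 74) (nat_lit 3) (nat_lit 176) (nat_lit 152) (nat_lit 182)) (PT.lf (nat_lit 5700) (nat_lit 6) (nat_lit 75) (nat_lit 3) (nat_lit 177) (nat_lit 152) (nat_lit 181)))))) (PT.nd (nat_lit 53040)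 (PT.nd (nat_lit 234) (PT.nd (nat_lit 78) (PT.lf (nat_lit 5776) (nat_lit 6) (nat_lit 76) (nat_lit 3) (nat_lit 178) (nat_lit 152) (nat_lit 180)) (PT.nd (nat_lit 78) (PT.lf (nat_lit 5852) (nat_lit 3) (nat_lit 77) (nat_lit 1) (nat_lit 179) (nat_lit 152) (nat_lit 179)) (PT.lf (nat_lit 5776) (nat_lit 6) (nat_lit 76) (nat_lit 1) (nat_lit 180) (nat_lit 152) (nat_lit 178)))) (PT.nd (nat_lit 52650) (PT.nd (nat_lit 78) (PT.lf (nat_lit 5700) (nat_lit 6) (nat_lit 75) (nat_lit 1) (nat_lit 181) (nat_lit 152) (nat_lit 177)) (PT.lf (nat_lit 5624) (nat_lit 6) (nat_lit 74) (nat_lit 1) (nat_lit 182) (nat_lit 152) (nat_lit 176))) (PT.nd (nat_lit 78) (PT.lf (nat_lit 5928) (nat_lit 6) (nat_lit 78) (nat_lit 3) (nat_lit 175) (nat_lit 153) (nat_lit 182)) (PT.lf (nat_lit 6004) (nat_lit 6) (nat_lit 79) (nat_lit 3) (nat_lit 176) (nat_lit 153) (nat_lit 181))))) (PT.nd (nat_lit 234) (PT.nd (nat_lit 78) (PT.lf (nat_lit 6080)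 (nat_lit 6) (nat_lit 80) (nat_lit 3) (nat_lit 177) (nat_lit 153) (nat_lit 180)) (PT.nd (nat_lit 78) (PT.lf (nat_lit 6156) (nat_lit 6) (nat_lit 81) (nat_lit 3) (nat_lit 178) (nat_lit 153) (nat_lit 179)) (PT.lf (nat_lit 6156) (nat_lit 6) (nat_lit 81) (nat_lit 1) (nat_lit 179) (nat_lit 153) (nat_lit 178)))) (PT.nd (nat_lit 156) (PT.nd (nat_lit 78) (PT.lf (nat_lit 6080) (nat_lit 6) (nat_lit 80) (nat_lit 1) (nat_lit 180) (nat_lit 153) (nat_lit 177)) (PT.lf (nat_lit 6004) (nat_lit 6) (nat_lit 79) (nat_lit 1) (nat_lit 181) (nat_lit 153) (nat_lit 176))) (PT.nd (nat_lit 52572) (PT.lf (nat_lit 5928) (nat_lit 6) (nat_lit 78) (nat_lit 1) (nat_lit 182) (nat_lit 153) (nat_lit 175)) (PT.lf (nat_lit 6232) (nat_lit 6) (nat_lit 82) (nat_lit 3) (nat_lit 175) (nat_lit 154) (nat_lit 181))))))) (PT.nd (nat_lit 106002) (PT.nd (nat_lit 53040) (PT.nd (nat_lit 234) (PT.nd (nat_lit 78) (PT.lf (nat_lit 6308) (nat_lit 6)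 (nat_lit 83) (nat_lit 3) (nat_lit 176) (nat_lit 154) (nat_lit 180)) (PT.nd (nat_lit 78) (PT.lf (nat_lit 6384) (nat_lit 6) (nat_lit 84) (nat_lit 3) (nat_lit 177) (nat_lit 154) (nat_lit 179)) (PT.lf (nat_lit 6460) (nat_lit 3) (nat_lit 85) (nat_lit 1) (nat_lit 178) (nat_lit 154) (nat_lit 178)))) (PT.nd (nat_lit 156) (PT.nd (nat_lit 78) (PT.lf (nat_lit 6384) (nat_lit 6) (nat_lit 84) (nat_lit 1) (nat_lit 179) (nat_lit 154) (nat_lit 177)) (PT.lf (nat_lit 6308) (nat_lit 6) (nat_lit 83) (nat_lit 1) (nat_lit 180) (nat_lit 154) (nat_lit 176))) (PT.nd (nat_lit 52572) (PT.lf (nat_lit 6232) (nat_lit 6) (nat_lit 82) (nat_lit 1) (nat_lit 181) (nat_lit 154) (nat_lit 175)) (PT.lf (nat_lit 6536) (nat_lit 6) (nat_lit 86) (nat_lit 3) (nat_lit 174) (nat_lit 155) (nat_lit 181))))) (PT.nd (nat_lit 234) (PT.nd (nat_lit 78) (PT.lf (nat_lit 6612) (nat_lit 6) (nat_lit 87) (nat_lit 3) (nat_lit 175) (nat_lit 155) (nat_lit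 180)) (PT.nd (nat_lit 78) (PT.lf (nat_lit 6688) (nat_lit 6) (nat_lit 88) (nat_lit 3) (nat_lit 176) (nat_lit 155) (nat_lit 179)) (PT.lf (nat_lit 6764) (nat_lit 6) (nat_lit 89) (nat_lit 3) (nat_lit 177) (nat_lit 155) (nat_lit 178)))) (PT.nd (nat_lit 156) (PT.nd (nat_lit 78) (PT.lf (nat_lit 6764) (nat_lit 6) (nat_lit 89) (nat_lit 1) (nat_lit 178) (nat_lit 155) (nat_lit 177)) (PT.lf (nat_lit 6688) (nat_lit 6) (nat_lit 88) (nat_lit 1) (nat_lit 179) (nat_lit 155) (nat_lit 176))) (PT.nd (nat_lit 78) (PT.lf (nat_lit 6612) (nat_lit 6) (nat_lit 87) (nat_lit 1) (nat_lit 180) (nat_lit 155) (nat_lit 175)) (PT.lf (nat_lit 6536) (nat_lit 6) (nat_lit 86) (nat_lit 1) (nat_lit 181) (nat_lit 155) (nat_lit 174)))))) (PT.nd (nat_lit 546) (PT.nd (nat_lit 234) (PT.nd (nat_lit 78) (PT.lf (nat_lit 6840) (nat_lit 6) (nat_lit 90) (nat_lit 3) (nat_lit 173) (nat_lit 156) (nat_lit 181)) (PT.nd (nat_lit 78) (PT.lf (nat_lit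 6916) (nat_lit 6) (nat_lit 91) (nat_lit 3) (nat_lit 174) (nat_lit 156) (nat_lit 180)) (PT.lf (nat_lit 6992) (nat_lit 6) (nat_lit 92) (nat_lit 3) (nat_lit 175) (nat_lit 156) (nat_lit 179)))) (PT.nd (nat_lit 156) (PT.nd (nat_lit 78) (PT.lf (nat_lit 7068) (nat_lit 6) (nat_lit 93) (nat_lit 3) (nat_lit 176) (nat_lit 156) (nat_lit 178)) (PT.lf (nat_lit 7144) (nat_lit 3) (nat_lit 94) (nat_lit 1) (nat_lit 177) (nat_lit 156) (nat_lit 177))) (PT.nd (nat_lit 78) (PT.lf (nat_lit 7068) (nat_lit 6) (nat_lit 93) (nat_lit 1) (nat_lit 178) (nat_lit 156) (nat_lit 176)) (PT.lf (nat_lit 6992) (nat_lit 6) (nat_lit 92) (nat_lit 1) (nat_lit 179) (nat_lit 156) (nat_lit 175))))) (PT.nd (nat_lit 52650) (PT.nd (nat_lit 52494) (PT.nd (nat_lit 78) (PT.lf (nat_lit 6916) (nat_lit 6) (nat_lit 91) (nat_lit 1) (nat_lit 180) (nat_lit 156) (nat_lit 174)) (PT.lf (nat_lit 6840) (nat_lit 6) (nat_lit 90) (nat_lit 1) (nat_lit 181) (nat_lit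 156) (nat_lit 173))) (PT.nd (nat_lit 78) (PT.lf (nat_lit 7220) (nat_lit 6) (nat_lit 95) (nat_lit 3) (nat_lit 172) (nat_lit 157) (nat_lit 181)) (PT.lf (nat_lit 7296) (nat_lit 6) (nat_lit 96) (nat_lit 3) (nat_lit 173) (nat_lit 157) (nat_lit 180)))) (PT.nd (nat_lit 156) (PT.nd (nat_lit 78) (PT.lf (nat_lit 7372) (nat_lit 6) (nat_lit 97) (nat_lit 3) (nat_lit 174) (nat_lit 157) (nat_lit 179)) (PT.lf (nat_lit 7448) (nat_lit 6) (nat_lit 98) (nat_lit 3) (nat_lit 175) (nat_lit 157) (nat_lit 178))) (PT.nd (nat_lit 78) (PT.lf (nat_lit 7524) (nat_lit 6) (nat_lit 99) (nat_lit 3) (nat_lit 176) (nat_lit 157) (nat_lit 177)) (PT.lf (nat_lit 7524) (nat_lit 6) (nat_lit 99) (nat_lit 1) (nat_lit 177) (nat_lit 157) (nat_lit 176))))))))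
noncomputable def pc3 : PT := (PT.nd (nat_lit 159120) (PT.nd (nat_lit 105768) (PT.nd (nat_lit 52884) (PT.nd (nat_lit 234) (PT.nd (nat_lit 78) (PT.lf (nat_lit 7448) (nat_lit 6) (nat_lit 98) (nat_lit 1) (nat_lit 178) (nat_lit 157) (nat_lit 175)) (PT.nd (nat_lit 78) (PT.lf (nat_lit 7372) (nat_lit 6) (nat_lit 97) (nat_lit 1) (nat_lit 179) (nat_lit 157) (nat_lit 174)) (PT.lf (nat_lit 7296) (nat_lit 6) (nat_lit 96) (nat_lit 1) (nat_lit 180) (nat_lit 157) (nat_lit 173)))) (PT.nd (nat_lit 52494) (PT.nd (nat_lit 52416) (PT.lf (nat_lit 7220) (nat_lit 6) (nat_lit 95) (nat_lit 1) (nat_lit 181) (nat_lit 157) (nat_lit 172)) (PT.lf (nat_lit 7600) (nat_lit 6) (nat_lit 100) (nat_lit 3) (nat_lit 172) (nat_lit 158) (nat_lit 180))) (PT.nd (nat_lit 78) (PT.lf (nat_lit 7676) (nat_lit 6) (nat_lit 101) (nat_lit 3) (nat_lit 173) (nat_lit 158) (nat_lit 179)) (PT.lf (nat_lit 7752) (nat_lit 6) (nat_lit 102) (nat_lit 3)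 (nat_lit 174) (nat_lit 158) (nat_lit 178))))) (PT.nd (nat_lit 234) (PT.nd (nat_lit 78) (PT.lf (nat_lit 7828) (nat_lit 6) (nat_lit 103) (nat_lit 3) (nat_lit 175) (nat_lit 158) (nat_lit 177)) (PT.nd (nat_lit 78) (PT.lf (nat_lit 7904) (nat_lit 3) (nat_lit 104) (nat_lit 1) (nat_lit 176) (nat_lit 158) (nat_lit 176)) (PT.lf (nat_lit 7828) (nat_lit 6) (nat_lit 103) (nat_lit 1) (nat_lit 177) (nat_lit 158) (nat_lit 175)))) (PT.nd (nat_lit 156) (PT.nd (nat_lit 78) (PT.lf (nat_lit 7752) (nat_lit 6) (nat_lit 102) (nat_lit 1) (nat_lit 178) (nat_lit 158) (nat_lit 174)) (PT.lf (nat_lit 7676) (nat_lit 6) (nat_lit 101) (nat_lit 1) (nat_lit 179) (nat_lit 158) (nat_lit 173))) (PT.nd (nat_lit 52416) (PT.lf (nat_lit 7600) (nat_lit 6) (nat_lit 100) (nat_lit 1) (nat_lit 180) (nat_lit 158) (nat_lit 172)) (PT.lf (nat_lit 7980) (nat_lit 6) (nat_lit 105) (nat_lit 3) (nat_lit 171) (nat_lit 159) (nat_lit 180)))))) (PT.nd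 (nat_lit 546) (PT.nd (nat_lit 234) (PT.nd (nat_lit 78) (PT.lf (nat_lit 8056) (nat_lit 6) (nat_lit 106) (nat_lit 3) (nat_lit 172) (nat_lit 159) (nat_lit 179)) (PT.nd (nat_lit 78) (PT.lf (nat_lit 8132) (nat_lit 6) (nat_lit 107) (nat_lit 3) (nat_lit 173) (nat_lit 159) (nat_lit 178)) (PT.lf (nat_lit 8208) (nat_lit 6) (nat_lit 108) (nat_lit 3) (nat_lit 174) (nat_lit 159) (nat_lit 177)))) (PT.nd (nat_lit 156) (PT.nd (nat_lit 78) (PT.lf (nat_lit 8284) (nat_lit 6) (nat_lit 109) (nat_lit 3) (nat_lit 175) (nat_lit 159) (nat_lit 176)) (PT.lf (nat_lit 8284) (nat_lit 6) (nat_lit 109) (nat_lit 1) (nat_lit 176) (nat_lit 159) (nat_lit 175))) (PT.nd (nat_lit 78) (PT.lf (nat_lit 8208) (nat_lit 6) (nat_lit 108) (nat_lit 1) (nat_lit 177) (nat_lit 159) (nat_lit 174)) (PT.lf (nat_lit 8132) (nat_lit 6) (nat_lit 107) (nat_lit 1) (nat_lit 178) (nat_lit 159) (nat_lit 173))))) (PT.nd (nat_lit 52494) (PT.nd (nat_lit 78)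 (PT.lf (nat_lit 8056) (nat_lit 6) (nat_lit 106) (nat_lit 1) (nat_lit 179) (nat_lit 159) (nat_lit 172)) (PT.nd (nat_lit 52338) (PT.lf (nat_lit 7980) (nat_lit 6) (nat_lit 105) (nat_lit 1) (nat_lit 180) (nat_lit 159) (nat_lit 171)) (PT.lf (nat_lit 8740) (nat_lit 6) (nat_lit 115) (nat_lit 3) (nat_lit 170) (nat_lit 160) (nat_lit 180)))) (PT.nd (nat_lit 156) (PT.nd (nat_lit 78) (PT.lf (nat_lit 8816) (nat_lit 6) (nat_lit 116) (nat_lit 3) (nat_lit 171) (nat_lit 160) (nat_lit 179)) (PT.lf (nat_lit 8892) (nat_lit 6) (nat_lit 117) (nat_lit 3) (nat_lit 172) (nat_lit 160) (nat_lit 178))) (PT.nd (nat_lit 78) (PT.lf (nat_lit 8968) (nat_lit 6) (nat_lit 118) (nat_lit 3) (nat_lit 173) (nat_lit 160) (nat_lit 177)) (PT.lf (nat_lit 9044) (nat_lit 6) (nat_lit 119) (nat_lit 3) (nat_lit 174) (nat_lit 160) (nat_lit 176))))))) (PT.nd (nat_lit 53274) (PT.nd (nat_lit 52728) (PT.nd (nat_lit 234) (PT.nd (nat_lit 78) (PT.lf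 (nat_lit 9120) (nat_lit 3) (nat_lit 120) (nat_lit 1) (nat_lit 175) (nat_lit 160) (nat_lit 175)) (PT.nd (nat_lit 78) (PT.lf (nat_lit 9044) (nat_lit 6) (nat_lit 119) (nat_lit 1) (nat_lit 176) (nat_lit 160) (nat_lit 174)) (PT.lf (nat_lit 8968) (nat_lit 6) (nat_lit 118) (nat_lit 1) (nat_lit 177) (nat_lit 160) (nat_lit 173)))) (PT.nd (nat_lit 156) (PT.nd (nat_lit 78) (PT.lf (nat_lit 8892) (nat_lit 6) (nat_lit 117) (nat_lit 1) (nat_lit 178) (nat_lit 160) (nat_lit 172)) (PT.lf (nat_lit 8816) (nat_lit 6) (nat_lit 116) (nat_lit 1) (nat_lit 179) (nat_lit 160) (nat_lit 171))) (PT.nd (nat_lit 52260) (PT.lf (nat_lit 8740) (nat_lit 6) (nat_lit 115) (nat_lit 1) (nat_lit 180) (nat_lit 160) (nat_lit 170)) (PT.lf (nat_lit 8664) (nat_lit 6) (nat_lit 114) (nat_lit 3) (nat_lit 169) (nat_lit 161) (nat_lit 180))))) (PT.nd (nat_lit 234) (PT.nd (nat_lit 78) (PT.lf (nat_lit 9500) (nat_lit 6) (nat_lit 125) (nat_lit 3)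 (nat_lit 170) (nat_lit 161) (nat_lit 179)) (PT.nd (nat_lit 78) (PT.lf (nat_lit 9576) (nat_lit 6) (nat_lit 126) (nat_lit 3) (nat_lit 171) (nat_lit 161) (nat_lit 178)) (PT.lf (nat_lit 9652) (nat_lit 6) (nat_lit 127) (nat_lit 3) (nat_lit 172) (nat_lit 161) (nat_lit 177)))) (PT.nd (nat_lit 156) (PT.nd (nat_lit 78) (PT.lf (nat_lit 9728) (nat_lit 6) (nat_lit 128) (nat_lit 3) (nat_lit 173) (nat_lit 161) (nat_lit 176)) (PT.lf (nat_lit 9804) (nat_lit 6) (nat_lit 129) (nat_lit 3) (nat_lit 174) (nat_lit 161) (nat_lit 175))) (PT.nd (nat_lit 78) (PT.lf (nat_lit 9804) (nat_lit 6) (nat_lit 129) (nat_lit 1) (nat_lit 175) (nat_lit 161) (nat_lit 174)) (PT.lf (nat_lit 9728) (nat_lit 6) (nat_lit 128) (nat_lit 1) (nat_lit 176) (nat_lit 161) (nat_lit 173)))))) (PT.nd (nat_lit 52650) (PT.nd (nat_lit 234) (PT.nd (nat_lit 78) (PT.lf (nat_lit 9652) (nat_lit 6) (nat_lit 127) (nat_lit 1) (nat_lit 177) (nat_lit 161) (nat_lit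 172)) (PT.nd (nat_lit 78) (PT.lf (nat_lit 9576) (nat_lit 6) (nat_lit 126) (nat_lit 1) (nat_lit 178) (nat_lit 161) (nat_lit 171)) (PT.lf (nat_lit 9500) (nat_lit 6) (nat_lit 125) (nat_lit 1) (nat_lit 179) (nat_lit 161) (nat_lit 170)))) (PT.nd (nat_lit 52260) (PT.nd (nat_lit 52182) (PT.lf (nat_lit 8664) (nat_lit 6) (nat_lit 114) (nat_lit 1) (nat_lit 180) (nat_lit 161) (nat_lit 169)) (PT.lf (nat_lit 8588) (nat_lit 6) (nat_lit 113) (nat_lit 3) (nat_lit 168) (nat_lit 162) (nat_lit 180))) (PT.nd (nat_lit 78) (PT.lf (nat_lit 9424) (nat_lit 6) (nat_lit 124) (nat_lit 3) (nat_lit 169) (nat_lit 162) (nat_lit 179)) (PT.lf (nat_lit 10184) (nat_lit 6) (nat_lit 134) (nat_lit 3) (nat_lit 170) (nat_lit 162) (nat_lit 178))))) (PT.nd (nat_lit 312) (PT.nd (nat_lit 156) (PT.nd (nat_lit 78) (PT.lf (nat_lit 10260) (nat_lit 6) (nat_lit 135) (nat_lit 3) (nat_lit 171) (nat_lit 162) (nat_lit 177)) (PT.lf (nat_lit 10336)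 (nat_lit 6) (nat_lit 136) (nat_lit 3) (nat_lit 172) (nat_lit 162) (nat_lit 176))) (PT.nd (nat_lit 78) (PT.lf (nat_lit 10412) (nat_lit 6) (nat_lit 137) (nat_lit 3) (nat_lit 173) (nat_lit 162) (nat_lit 175)) (PT.lf (nat_lit 10488) (nat_lit 3) (nat_lit 138) (nat_lit 1) (nat_lit 174) (nat_lit 162) (nat_lit 174)))) (PT.nd (nat_lit 156) (PT.nd (nat_lit 78) (PT.lf (nat_lit 10412) (nat_lit 6) (nat_lit 137) (nat_lit 1) (nat_lit 175) (nat_lit 162) (nat_lit 173)) (PT.lf (nat_lit 10336) (nat_lit 6) (nat_lit 136) (nat_lit 1) (nat_lit 176) (nat_lit 162) (nat_lit 172))) (PT.nd (nat_lit 78) (PT.lf (nat_lit 10260) (nat_lit 6) (nat_lit 135) (nat_lit 1) (nat_lit 177) (nat_lit 162) (nat_lit 171)) (PT.lf (nat_lit 10184) (nat_lit 6) (nat_lit 134) (nat_lit 1) (nat_lit 178) (nat_lit 162) (nat_lit 170))))))))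
noncomputable def pc4 : PT := (PT.nd (nat_lit 106158) (PT.nd (nat_lit 53118) (PT.nd (nat_lit 52572) (PT.nd (nat_lit 52260) (PT.nd (nat_lit 78) (PT.lf (nat_lit 9424) (nat_lit 6) (nat_lit 124) (nat_lit 1) (nat_lit 179) (nat_lit 162) (nat_lit 169)) (PT.nd (nat_lit 52104) (PT.lf (nat_lit 8588) (nat_lit 6) (nat_lit 113) (nat_lit 1) (nat_lit 180) (nat_lit 162) (nat_lit 168)) (PT.lf (nat_lit 8512) (nat_lit 6) (nat_lit 112) (nat_lit 3) (nat_lit 167) (nat_lit 163) (nat_lit 180)))) (PT.nd (nat_lit 156) (PT.nd (nat_lit 78) (PT.lf (nat_lit 9348) (nat_lit 6) (nat_lit 123) (nat_lit 3) (nat_lit 168) (nat_lit 163) (nat_lit 179)) (PT.lf (nat_lit 10108) (nat_lit 6) (nat_lit 133) (nat_lit 3) (nat_lit 169) (nat_lit 163) (nat_lit 178))) (PT.nd (nat_lit 78) (PT.lf (nat_lit 10792) (nat_lit 6) (nat_lit 142) (nat_lit 3) (nat_lit 170) (nat_lit 163) (nat_lit 177)) (PT.lf (nat_lit 10868) (nat_lit 6) (nat_lit 143) (nat_lit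 3) (nat_lit 171) (nat_lit 163) (nat_lit 176))))) (PT.nd (nat_lit 234) (PT.nd (nat_lit 78) (PT.lf (nat_lit 10944) (nat_lit 6) (nat_lit 144) (nat_lit 3) (nat_lit 172) (nat_lit 163) (nat_lit 175)) (PT.nd (nat_lit 78) (PT.lf (nat_lit 11020) (nat_lit 6) (nat_lit 145) (nat_lit 3) (nat_lit 173) (nat_lit 163) (nat_lit 174)) (PT.lf (nat_lit 11020) (nat_lit 6) (nat_lit 145) (nat_lit 1) (nat_lit 174) (nat_lit 163) (nat_lit 173)))) (PT.nd (nat_lit 156) (PT.nd (nat_lit 78) (PT.lf (nat_lit 10944) (nat_lit 6) (nat_lit 144) (nat_lit 1) (nat_lit 175) (nat_lit 163) (nat_lit 172)) (PT.lf (nat_lit 10868) (nat_lit 6) (nat_lit 143) (nat_lit 1) (nat_lit 176) (nat_lit 163) (nat_lit 171))) (PT.nd (nat_lit 78) (PT.lf (nat_lit 10792) (nat_lit 6) (nat_lit 142) (nat_lit 1) (nat_lit 177) (nat_lit 163) (nat_lit 170)) (PT.lf (nat_lit 10108) (nat_lit 6) (nat_lit 133) (nat_lit 1) (nat_lit 178) (nat_lit 163) (nat_lit 169))))))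 (PT.nd (nat_lit 52494) (PT.nd (nat_lit 52182) (PT.nd (nat_lit 78) (PT.lf (nat_lit 9348) (nat_lit 6) (nat_lit 123) (nat_lit 1) (nat_lit 179) (nat_lit 163) (nat_lit 168)) (PT.nd (nat_lit 52026) (PT.lf (nat_lit 8512) (nat_lit 6) (nat_lit 112) (nat_lit 1) (nat_lit 180) (nat_lit 163) (nat_lit 167)) (PT.lf (nat_lit 8436) (nat_lit 6) (nat_lit 111) (nat_lit 3) (nat_lit 166) (nat_lit 164) (nat_lit 180)))) (PT.nd (nat_lit 156) (PT.nd (nat_lit 78) (PT.lf (nat_lit 9272) (nat_lit 6) (nat_lit 122) (nat_lit 3) (nat_lit 167) (nat_lit 164) (nat_lit 179)) (PT.lf (nat_lit 10032) (nat_lit 6) (nat_lit 132) (nat_lit 3) (nat_lit 168) (nat_lit 164) (nat_lit 178))) (PT.nd (nat_lit 78) (PT.lf (nat_lit 10716) (nat_lit 6) (nat_lit 141) (nat_lit 3) (nat_lit 169) (nat_lit 164) (nat_lit 177)) (PT.lf (nat_lit 11324) (nat_lit 6) (nat_lit 149) (nat_lit 3) (nat_lit 170) (nat_lit 164) (nat_lit 176))))) (PT.nd (nat_lit 234) (PT.nd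 (nat_lit 78) (PT.lf (nat_lit 11400) (nat_lit 6) (nat_lit 150) (nat_lit 3) (nat_lit 171) (nat_lit 164) (nat_lit 175)) (PT.nd (nat_lit 78) (PT.lf (nat_lit 11476) (nat_lit 6) (nat_lit 151) (nat_lit 3) (nat_lit 172) (nat_lit 164) (nat_lit 174)) (PT.lf (nat_lit 11552) (nat_lit 3) (nat_lit 152) (nat_lit 1) (nat_lit 173) (nat_lit 164) (nat_lit 173)))) (PT.nd (nat_lit 156) (PT.nd (nat_lit 78) (PT.lf (nat_lit 11476) (nat_lit 6) (nat_lit 151) (nat_lit 1) (nat_lit 174) (nat_lit 164) (nat_lit 172)) (PT.lf (nat_lit 11400) (nat_lit 6) (nat_lit 150) (nat_lit 1) (nat_lit 175) (nat_lit 164) (nat_lit 171))) (PT.nd (nat_lit 78) (PT.lf (nat_lit 11324) (nat_lit 6) (nat_lit 149) (nat_lit 1) (nat_lit 176) (nat_lit 164) (nat_lit 170)) (PT.lf (nat_lit 10716) (nat_lit 6) (nat_lit 141) (nat_lit 1) (nat_lit 177) (nat_lit 164) (nat_lit 169))))))) (PT.nd (nat_lit 52962) (PT.nd (nat_lit 52416) (PT.nd (nat_lit 52104) (PT.nd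 (nat_lit 78) (PT.lf (nat_lit 10032) (nat_lit 6) (nat_lit 132) (nat_lit 1) (nat_lit 178) (nat_lit 164) (nat_lit 168)) (PT.nd (nat_lit 78) (PT.lf (nat_lit 9272) (nat_lit 6) (nat_lit 122) (nat_lit 1) (nat_lit 179) (nat_lit 164) (nat_lit 167)) (PT.lf (nat_lit 8436) (nat_lit 6) (nat_lit 111) (nat_lit 1) (nat_lit 180) (nat_lit 164) (nat_lit 166)))) (PT.nd (nat_lit 156) (PT.nd (nat_lit 78) (PT.lf (nat_lit 8360) (nat_lit 3) (nat_lit 110) (nat_lit 3) (nat_lit 165) (nat_lit 165) (nat_lit 180)) (PT.lf (nat_lit 9196) (nat_lit 6) (nat_lit 121) (nat_lit 3) (nat_lit 166) (nat_lit 165) (nat_lit 179))) (PT.nd (nat_lit 78) (PT.lf (nat_lit 9956) (nat_lit 6) (nat_lit 131) (nat_lit 3) (nat_lit 167) (nat_lit 165) (nat_lit 178)) (PT.lf (nat_lit 10640) (nat_lit 6) (nat_lit 140) (nat_lit 3) (nat_lit 168) (nat_lit 165) (nat_lit 177))))) (PT.nd (nat_lit 234) (PT.nd (nat_lit 78) (PT.lf (nat_lit 11248) (nat_lit 6) (nat_lit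 148) (nat_lit 3) (nat_lit 169) (nat_lit 165) (nat_lit 176)) (PT.nd (nat_lit 78) (PT.lf (nat_lit 11780) (nat_lit 6) (nat_lit 155) (nat_lit 3) (nat_lit 170) (nat_lit 165) (nat_lit 175)) (PT.lf (nat_lit 11856) (nat_lit 6) (nat_lit 156) (nat_lit 3) (nat_lit 171) (nat_lit 165) (nat_lit 174)))) (PT.nd (nat_lit 156) (PT.nd (nat_lit 78) (PT.lf (nat_lit 11932) (nat_lit 6) (nat_lit 157) (nat_lit 3) (nat_lit 172) (nat_lit 165) (nat_lit 173)) (PT.lf (nat_lit 11932) (nat_lit 6) (nat_lit 157) (nat_lit 1) (nat_lit 173) (nat_lit 165) (nat_lit 172))) (PT.nd (nat_lit 78) (PT.lf (nat_lit 11856) (nat_lit 6) (nat_lit 156) (nat_lit 1) (nat_lit 174) (nat_lit 165) (nat_lit 171)) (PT.lf (nat_lit 11780) (nat_lit 6) (nat_lit 155) (nat_lit 1) (nat_lit 175) (nat_lit 165) (nat_lit 170)))))) (PT.nd (nat_lit 52338) (PT.nd (nat_lit 234) (PT.nd (nat_lit 78) (PT.lf (nat_lit 11248) (nat_lit 6) (nat_lit 148) (nat_lit 1) (nat_lit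 176) (nat_lit 165) (nat_lit 169)) (PT.nd (nat_lit 78) (PT.lf (nat_lit 10640) (nat_lit 6) (nat_lit 140) (nat_lit 1) (nat_lit 177) (nat_lit 165) (nat_lit 168)) (PT.lf (nat_lit 9956) (nat_lit 6) (nat_lit 131) (nat_lit 1) (nat_lit 178) (nat_lit 165) (nat_lit 167)))) (PT.nd (nat_lit 51948) (PT.nd (nat_lit 78) (PT.lf (nat_lit 9196) (nat_lit 6) (nat_lit 121) (nat_lit 1) (nat_lit 179) (nat_lit 165) (nat_lit 166)) (PT.lf (nat_lit 8360) (nat_lit 3) (nat_lit 110) (nat_lit 0) (nat_lit 180) (nat_lit 165) (nat_lit 165))) (PT.nd (nat_lit 78) (PT.lf (nat_lit 8436) (nat_lit 6) (nat_lit 111) (nat_lit 5) (nat_lit 164) (nat_lit 166) (nat_lit 180)) (PT.lf (nat_lit 9196) (nat_lit 6) (nat_lit 121) (nat_lit 5) (nat_lit 165) (nat_lit 166) (nat_lit 179))))) (PT.nd (nat_lit 312) (PT.nd (nat_lit 156) (PT.nd (nat_lit 78) (PT.lf (nat_lit 9880) (nat_lit 3) (nat_lit 130) (nat_lit 3) (nat_lit 166) (nat_lit 166) (nat_lit 178))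 (PT.lf (nat_lit 10564) (nat_lit 6) (nat_lit 139) (nat_lit 3) (nat_lit 167) (nat_lit 166) (nat_lit 177))) (PT.nd (nat_lit 78) (PT.lf (nat_lit 11172) (nat_lit 6) (nat_lit 147) (nat_lit 3) (nat_lit 168) (nat_lit 166) (nat_lit 176)) (PT.lf (nat_lit 11704) (nat_lit 6) (nat_lit 154) (nat_lit 3) (nat_lit 169) (nat_lit 166) (nat_lit 175)))) (PT.nd (nat_lit 156) (PT.nd (nat_lit 78) (PT.lf (nat_lit 12160) (nat_lit 6) (nat_lit 160) (nat_lit 3) (nat_lit 170) (nat_lit 166) (nat_lit 174)) (PT.lf (nat_lit 12236) (nat_lit 6) (nat_lit 161) (nat_lit 3) (nat_lit 171) (nat_lit 166) (nat_lit 173))) (PT.nd (nat_lit 78) (PT.lf (nat_lit 12312) (nat_lit 3) (nat_lit 162) (nat_lit 1) (nat_lit 172) (nat_lit 166) (nat_lit 172)) (PT.lf (nat_lit 12236) (nat_lit 6) (nat_lit 161) (nat_lit 1) (nat_lit 173) (nat_lit 166) (nat_lit 171))))))))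
noncomputable def pc5 : PT := (PT.nd (nat_lit 105534) (PT.nd (nat_lit 52806) (PT.nd (nat_lit 52260) (PT.nd (nat_lit 234) (PT.nd (nat_lit 78) (PT.lf (nat_lit 12160) (nat_lit 6) (nat_lit 160) (nat_lit 1) (nat_lit 174) (nat_lit 166) (nat_lit 170)) (PT.nd (nat_lit 78) (PT.lf (nat_lit 11704) (nat_lit 6) (nat_lit 154) (nat_lit 1) (nat_lit 175) (nat_lit 166) (nat_lit 169)) (PT.lf (nat_lit 11172) (nat_lit 6) (nat_lit 147) (nat_lit 1) (nat_lit 176) (nat_lit 166) (nat_lit 168)))) (PT.nd (nat_lit 156) (PT.nd (nat_lit 78) (PT.lf (nat_lit 10564) (nat_lit 6) (nat_lit 139) (nat_lit 1) (nat_lit 177) (nat_lit 166) (nat_lit 167)) (PT.lf (nat_lit 9880) (nat_lit 3) (nat_lit 130) (nat_lit 0) (nat_lit 178) (nat_lit 166) (nat_lit 166))) (PT.nd (nat_lit 78) (PT.lf (nat_lit 9196) (nat_lit 6) (nat_lit 121) (nat_lit 0) (nat_lit 179) (nat_lit 166) (nat_lit 165)) (PT.lf (nat_lit 8436) (nat_lit 6) (nat_lit 111) (nat_lit 0)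 (nat_lit 180) (nat_lit 166) (nat_lit 164))))) (PT.nd (nat_lit 234) (PT.nd (nat_lit 78) (PT.lf (nat_lit 8512) (nat_lit 6) (nat_lit 112) (nat_lit 5) (nat_lit 163) (nat_lit 167) (nat_lit 180)) (PT.nd (nat_lit 78) (PT.lf (nat_lit 9272) (nat_lit 6) (nat_lit 122) (nat_lit 5) (nat_lit 164) (nat_lit 167) (nat_lit 179)) (PT.lf (nat_lit 9956) (nat_lit 6) (nat_lit 131) (nat_lit 5) (nat_lit 165) (nat_lit 167) (nat_lit 178)))) (PT.nd (nat_lit 156) (PT.nd (nat_lit 78) (PT.lf (nat_lit 10564) (nat_lit 6) (nat_lit 139) (nat_lit 5) (nat_lit 166) (nat_lit 167) (nat_lit 177)) (PT.lf (nat_lit 11096) (nat_lit 3) (nat_lit 146) (nat_lit 3) (nat_lit 167) (nat_lit 167) (nat_lit 176))) (PT.nd (nat_lit 78) (PT.lf (nat_lit 11628) (nat_lit 6) (nat_lit 153) (nat_lit 3) (nat_lit 168) (nat_lit 167) (nat_lit 175)) (PT.lf (nat_lit 12084) (nat_lit 6) (nat_lit 159) (nat_lit 3) (nat_lit 169) (nat_lit 167) (nat_lit 174)))))) (PT.nd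 (nat_lit 546) (PT.nd (nat_lit 234) (PT.nd (nat_lit 78) (PT.lf (nat_lit 12464) (nat_lit 6) (nat_lit 164) (nat_lit 3) (nat_lit 170) (nat_lit 167) (nat_lit 173)) (PT.nd (nat_lit 78) (PT.lf (nat_lit 12540) (nat_lit 6) (nat_lit 165) (nat_lit 3) (nat_lit 171) (nat_lit 167) (nat_lit 172)) (PT.lf (nat_lit 12540) (nat_lit 6) (nat_lit 165) (nat_lit 1) (nat_lit 172) (nat_lit 167) (nat_lit 171)))) (PT.nd (nat_lit 156) (PT.nd (nat_lit 78) (PT.lf (nat_lit 12464) (nat_lit 6) (nat_lit 164) (nat_lit 1) (nat_lit 173) (nat_lit 167) (nat_lit 170)) (PT.lf (nat_lit 12084) (nat_lit 6) (nat_lit 159) (nat_lit 1) (nat_lit 174) (nat_lit 167) (nat_lit 169))) (PT.nd (nat_lit 78) (PT.lf (nat_lit 11628) (nat_lit 6) (nat_lit 153) (nat_lit 1) (nat_lit 175) (nat_lit 167) (nat_lit 168)) (PT.lf (nat_lit 11096) (nat_lit 3) (nat_lit 146) (nat_lit 0) (nat_lit 176) (nat_lit 167) (nat_lit 167))))) (PT.nd (nat_lit 234) (PT.nd (nat_lit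 78) (PT.lf (nat_lit 10564) (nat_lit 6) (nat_lit 139) (nat_lit 0) (nat_lit 177) (nat_lit 167) (nat_lit 166)) (PT.nd (nat_lit 78) (PT.lf (nat_lit 9956) (nat_lit 6) (nat_lit 131) (nat_lit 0) (nat_lit 178) (nat_lit 167) (nat_lit 165)) (PT.lf (nat_lit 9272) (nat_lit 6) (nat_lit 122) (nat_lit 0) (nat_lit 179) (nat_lit 167) (nat_lit 164)))) (PT.nd (nat_lit 51792) (PT.nd (nat_lit 51714) (PT.lf (nat_lit 8512) (nat_lit 6) (nat_lit 112) (nat_lit 0) (nat_lit 180) (nat_lit 167) (nat_lit 163)) (PT.lf (nat_lit 8588) (nat_lit 6) (nat_lit 113) (nat_lit 5) (nat_lit 162) (nat_lit 168) (nat_lit 180))) (PT.nd (nat_lit 78) (PT.lf (nat_lit 9348) (nat_lit 6) (nat_lit 123) (nat_lit 5) (nat_lit 163) (nat_lit 168) (nat_lit 179)) (PT.lf (nat_lit 10032) (nat_lit 6) (nat_lit 132) (nat_lit 5) (nat_lit 164) (nat_lit 168) (nat_lit 178))))))) (PT.nd (nat_lit 1092) (PT.nd (nat_lit 546) (PT.nd (nat_lit 234) (PT.nd (nat_lit 78)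 (PT.lf (nat_lit 10640) (nat_lit 6) (nat_lit 140) (nat_lit 5) (nat_lit 165) (nat_lit 168) (nat_lit 177)) (PT.nd (nat_lit 78) (PT.lf (nat_lit 11172) (nat_lit 6) (nat_lit 147) (nat_lit 5) (nat_lit 166) (nat_lit 168) (nat_lit 176)) (PT.lf (nat_lit 11628) (nat_lit 6) (nat_lit 153) (nat_lit 5) (nat_lit 167) (nat_lit 168) (nat_lit 175)))) (PT.nd (nat_lit 156) (PT.nd (nat_lit 78) (PT.lf (nat_lit 12008) (nat_lit 3) (nat_lit 158) (nat_lit 3) (nat_lit 168) (nat_lit 168) (nat_lit 174)) (PT.lf (nat_lit 12388) (nat_lit 6) (nat_lit 163) (nat_lit 3) (nat_lit 169) (nat_lit 168) (nat_lit 173))) (PT.nd (nat_lit 78) (PT.lf (nat_lit 12692) (nat_lit 6) (nat_lit 167) (nat_lit 3) (nat_lit 170) (nat_lit 168) (nat_lit 172)) (PT.lf (nat_lit 12768) (nat_lit 3) (nat_lit 168) (nat_lit 1) (nat_lit 171) (nat_lit 168) (nat_lit 171))))) (PT.nd (nat_lit 234) (PT.nd (nat_lit 78) (PT.lf (nat_lit 12692) (nat_lit 6) (nat_lit 167)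 (nat_lit 1) (nat_lit 172) (nat_lit 168) (nat_lit 170)) (PT.nd (nat_lit 78) (PT.lf (nat_lit 12388) (nat_lit 6) (nat_lit 163) (nat_lit 1) (nat_lit 173) (nat_lit 168) (nat_lit 169)) (PT.lf (nat_lit 12008) (nat_lit 3) (nat_lit 158) (nat_lit 0) (nat_lit 174) (nat_lit 168) (nat_lit 168)))) (PT.nd (nat_lit 156) (PT.nd (nat_lit 78) (PT.lf (nat_lit 11628) (nat_lit 6) (nat_lit 153) (nat_lit 0) (nat_lit 175) (nat_lit 168) (nat_lit 167)) (PT.lf (nat_lit 11172) (nat_lit 6) (nat_lit 147) (nat_lit 0) (nat_lit 176) (nat_lit 168) (nat_lit 166))) (PT.nd (nat_lit 78) (PT.lf (nat_lit 10640) (nat_lit 6) (nat_lit 140) (nat_lit 0) (nat_lit 177) (nat_lit 168) (nat_lit 165)) (PT.lf (nat_lit 10032) (nat_lit 6) (nat_lit 132) (nat_lit 0) (nat_lit 178) (nat_lit 168) (nat_lit 164)))))) (PT.nd (nat_lit 52104) (PT.nd (nat_lit 51792) (PT.nd (nat_lit 78) (PT.lf (nat_lit 9348) (nat_lit 6) (nat_lit 123) (nat_lit 0) (nat_lit 179)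 (nat_lit 168) (nat_lit 163)) (PT.nd (nat_lit 51636) (PT.lf (nat_lit 8588) (nat_lit 6) (nat_lit 113) (nat_lit 0) (nat_lit 180) (nat_lit 168) (nat_lit 162)) (PT.lf (nat_lit 8664) (nat_lit 6) (nat_lit 114) (nat_lit 5) (nat_lit 161) (nat_lit 169) (nat_lit 180)))) (PT.nd (nat_lit 156) (PT.nd (nat_lit 78) (PT.lf (nat_lit 9424) (nat_lit 6) (nat_lit 124) (nat_lit 5) (nat_lit 162) (nat_lit 169) (nat_lit 179)) (PT.lf (nat_lit 10108) (nat_lit 6) (nat_lit 133) (nat_lit 5) (nat_lit 163) (nat_lit 169) (nat_lit 178))) (PT.nd (nat_lit 78) (PT.lf (nat_lit 10716) (nat_lit 6) (nat_lit 141) (nat_lit 5) (nat_lit 164) (nat_lit 169) (nat_lit 177)) (PT.lf (nat_lit 11248) (nat_lit 6) (nat_lit 148) (nat_lit 5) (nat_lit 165) (nat_lit 169) (nat_lit 176))))) (PT.nd (nat_lit 312) (PT.nd (nat_lit 156) (PT.nd (nat_lit 78) (PT.lf (nat_lit 11704) (nat_lit 6) (nat_lit 154) (nat_lit 5) (nat_lit 166) (nat_lit 169) (nat_lit 175))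 (PT.lf (nat_lit 12084) (nat_lit 6) (nat_lit 159) (nat_lit 5) (nat_lit 167) (nat_lit 169) (nat_lit 174))) (PT.nd (nat_lit 78) (PT.lf (nat_lit 12388) (nat_lit 6) (nat_lit 163) (nat_lit 5) (nat_lit 168) (nat_lit 169) (nat_lit 173)) (PT.lf (nat_lit 12616) (nat_lit 3) (nat_lit 166) (nat_lit 3) (nat_lit 169) (nat_lit 169) (nat_lit 172)))) (PT.nd (nat_lit 156) (PT.nd (nat_lit 78) (PT.lf (nat_lit 12844) (nat_lit 6) (nat_lit 169) (nat_lit 3) (nat_lit 170) (nat_lit 169) (nat_lit 171)) (PT.lf (nat_lit 12844) (nat_lit 6) (nat_lit 169) (nat_lit 1) (nat_lit 171) (nat_lit 169) (nat_lit 170))) (PT.nd (nat_lit 78) (PT.lf (nat_lit 12616) (nat_lit 3) (nat_lit 166) (nat_lit 0) (nat_lit 172) (nat_lit 169) (nat_lit 169)) (PT.lf (nat_lit 12388) (nat_lit 6) (nat_lit 163) (nat_lit 0) (nat_lit 173) (nat_lit 169) (nat_lit 168))))))))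
noncomputable def pc6 : PT := (PT.nd (nat_lit 105066) (PT.nd (nat_lit 52572) (PT.nd (nat_lit 52026) (PT.nd (nat_lit 234) (PT.nd (nat_lit 78) (PT.lf (nat_lit 12084) (nat_lit 6) (nat_lit 159) (nat_lit 0) (nat_lit 174) (nat_lit 169) (nat_lit 167)) (PT.nd (nat_lit 78) (PT.lf (nat_lit 11704) (nat_lit 6) (nat_lit 154) (nat_lit 0) (nat_lit 175) (nat_lit 169) (nat_lit 166)) (PT.lf (nat_lit 11248) (nat_lit 6) (nat_lit 148) (nat_lit 0) (nat_lit 176) (nat_lit 169) (nat_lit 165)))) (PT.nd (nat_lit 156) (PT.nd (nat_lit 78) (PT.lf (nat_lit 10716) (nat_lit 6) (nat_lit 141) (nat_lit 0) (nat_lit 177) (nat_lit 169) (nat_lit 164)) (PT.lf (nat_lit 10108) (nat_lit 6) (nat_lit 133) (nat_lit 0) (nat_lit 178) (nat_lit 169) (nat_lit 163))) (PT.nd (nat_lit 78) (PT.lf (nat_lit 9424) (nat_lit 6) (nat_lit 124) (nat_lit 0) (nat_lit 179) (nat_lit 169) (nat_lit 162)) (PT.lf (nat_lit 8664) (nat_lit 6) (nat_lit 114) (nat_lit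 0) (nat_lit 180) (nat_lit 169) (nat_lit 161))))) (PT.nd (nat_lit 234) (PT.nd (nat_lit 78) (PT.lf (nat_lit 8740) (nat_lit 6) (nat_lit 115) (nat_lit 5) (nat_lit 160) (nat_lit 170) (nat_lit 180)) (PT.nd (nat_lit 78) (PT.lf (nat_lit 9500) (nat_lit 6) (nat_lit 125) (nat_lit 5) (nat_lit 161) (nat_lit 170) (nat_lit 179)) (PT.lf (nat_lit 10184) (nat_lit 6) (nat_lit 134) (nat_lit 5) (nat_lit 162) (nat_lit 170) (nat_lit 178)))) (PT.nd (nat_lit 156) (PT.nd (nat_lit 78) (PT.lf (nat_lit 10792) (nat_lit 6) (nat_lit 142) (nat_lit 5) (nat_lit 163) (nat_lit 170) (nat_lit 177)) (PT.lf (nat_lit 11324) (nat_lit 6) (nat_lit 149) (nat_lit 5) (nat_lit 164) (nat_lit 170) (nat_lit 176))) (PT.nd (nat_lit 78) (PT.lf (nat_lit 11780) (nat_lit 6) (nat_lit 155) (nat_lit 5) (nat_lit 165) (nat_lit 170) (nat_lit 175)) (PT.lf (nat_lit 12160) (nat_lit 6) (nat_lit 160) (nat_lit 5) (nat_lit 166) (nat_lit 170) (nat_lit 174)))))) (PT.nd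 (nat_lit 546) (PT.nd (nat_lit 234) (PT.nd (nat_lit 78) (PT.lf (nat_lit 12464) (nat_lit 6) (nat_lit 164) (nat_lit 5) (nat_lit 167) (nat_lit 170) (nat_lit 173)) (PT.nd (nat_lit 78) (PT.lf (nat_lit 12692) (nat_lit 6) (nat_lit 167) (nat_lit 5) (nat_lit 168) (nat_lit 170) (nat_lit 172)) (PT.lf (nat_lit 12844) (nat_lit 6) (nat_lit 169) (nat_lit 5) (nat_lit 169) (nat_lit 170) (nat_lit 171)))) (PT.nd (nat_lit 156) (PT.nd (nat_lit 78) (PT.lf (nat_lit 12920) (nat_lit 1) (nat_lit 170) (nat_lit 0) (nat_lit 170) (nat_lit 170) (nat_lit 170)) (PT.lf (nat_lit 12844) (nat_lit 6) (nat_lit 169) (nat_lit 0) (nat_lit 171) (nat_lit 170) (nat_lit 169))) (PT.nd (nat_lit 78) (PT.lf (nat_lit 12692) (nat_lit 6) (nat_lit 167) (nat_lit 0) (nat_lit 172) (nat_lit 170) (nat_lit 168)) (PT.lf (nat_lit 12464) (nat_lit 6) (nat_lit 164) (nat_lit 0) (nat_lit 173) (nat_lit 170) (nat_lit 167))))) (PT.nd (nat_lit 234) (PT.nd (nat_lit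 78) (PT.lf (nat_lit 12160) (nat_lit 6) (nat_lit 160) (nat_lit 0) (nat_lit 174) (nat_lit 170) (nat_lit 166)) (PT.nd (nat_lit 78) (PT.lf (nat_lit 11780) (nat_lit 6) (nat_lit 155) (nat_lit 0) (nat_lit 175) (nat_lit 170) (nat_lit 165)) (PT.lf (nat_lit 11324) (nat_lit 6) (nat_lit 149) (nat_lit 0) (nat_lit 176) (nat_lit 170) (nat_lit 164)))) (PT.nd (nat_lit 156) (PT.nd (nat_lit 78) (PT.lf (nat_lit 10792) (nat_lit 6) (nat_lit 142) (nat_lit 0) (nat_lit 177) (nat_lit 170) (nat_lit 163)) (PT.lf (nat_lit 10184) (nat_lit 6) (nat_lit 134) (nat_lit 0) (nat_lit 178) (nat_lit 170) (nat_lit 162))) (PT.nd (nat_lit 78) (PT.lf (nat_lit 9500) (nat_lit 6) (nat_lit 125) (nat_lit 0) (nat_lit 179) (nat_lit 170) (nat_lit 161)) (PT.lf (nat_lit 8740) (nat_lit 6) (nat_lit 115) (nat_lit 0) (nat_lit 180) (nat_lit 170) (nat_lit 160))))))) (PT.nd (nat_lit 1092) (PT.nd (nat_lit 546) (PT.nd (nat_lit 234) (PT.nd (nat_lit 78) (PT.lf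 (nat_lit 7980) (nat_lit 6) (nat_lit 105) (nat_lit 5) (nat_lit 159) (nat_lit 171) (nat_lit 180)) (PT.nd (nat_lit 78) (PT.lf (nat_lit 8816) (nat_lit 6) (nat_lit 116) (nat_lit 5) (nat_lit 160) (nat_lit 171) (nat_lit 179)) (PT.lf (nat_lit 9576) (nat_lit 6) (nat_lit 126) (nat_lit 5) (nat_lit 161) (nat_lit 171) (nat_lit 178)))) (PT.nd (nat_lit 156) (PT.nd (nat_lit 78) (PT.lf (nat_lit 10260) (nat_lit 6) (nat_lit 135) (nat_lit 5) (nat_lit 162) (nat_lit 171) (nat_lit 177)) (PT.lf (nat_lit 10868) (nat_lit 6) (nat_lit 143) (nat_lit 5) (nat_lit 163) (nat_lit 171) (nat_lit 176))) (PT.nd (nat_lit 78) (PT.lf (nat_lit 11400) (nat_lit 6) (nat_lit 150) (nat_lit 5) (nat_lit 164) (nat_lit 171) (nat_lit 175)) (PT.lf (nat_lit 11856) (nat_lit 6) (nat_lit 156) (nat_lit 5) (nat_lit 165) (nat_lit 171) (nat_lit 174))))) (PT.nd (nat_lit 234) (PT.nd (nat_lit 78) (PT.lf (nat_lit 12236) (nat_lit 6) (nat_lit 161) (nat_lit 5)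 (nat_lit 166) (nat_lit 171) (nat_lit 173)) (PT.nd (nat_lit 78) (PT.lf (nat_lit 12540) (nat_lit 6) (nat_lit 165) (nat_lit 5) (nat_lit 167) (nat_lit 171) (nat_lit 172)) (PT.lf (nat_lit 12768) (nat_lit 3) (nat_lit 168) (nat_lit 4) (nat_lit 168) (nat_lit 171) (nat_lit 171)))) (PT.nd (nat_lit 156) (PT.nd (nat_lit 78) (PT.lf (nat_lit 12844) (nat_lit 6) (nat_lit 169) (nat_lit 4) (nat_lit 169) (nat_lit 171) (nat_lit 170)) (PT.lf (nat_lit 12844) (nat_lit 6) (nat_lit 169) (nat_lit 2) (nat_lit 170) (nat_lit 171) (nat_lit 169))) (PT.nd (nat_lit 78) (PT.lf (nat_lit 12768) (nat_lit 3) (nat_lit 168) (nat_lit 0) (nat_lit 171) (nat_lit 171) (nat_lit 168)) (PT.lf (nat_lit 12540) (nat_lit 6) (nat_lit 165) (nat_lit 0) (nat_lit 172) (nat_lit 171) (nat_lit 167)))))) (PT.nd (nat_lit 546) (PT.nd (nat_lit 234) (PT.nd (nat_lit 78) (PT.lf (nat_lit 12236) (nat_lit 6) (nat_lit 161) (nat_lit 0) (nat_lit 173) (nat_lit 171)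 (nat_lit 166)) (PT.nd (nat_lit 78) (PT.lf (nat_lit 11856) (nat_lit 6) (nat_lit 156) (nat_lit 0) (nat_lit 174) (nat_lit 171) (nat_lit 165)) (PT.lf (nat_lit 11400) (nat_lit 6) (nat_lit 150) (nat_lit 0) (nat_lit 175) (nat_lit 171) (nat_lit 164)))) (PT.nd (nat_lit 156) (PT.nd (nat_lit 78) (PT.lf (nat_lit 10868) (nat_lit 6) (nat_lit 143) (nat_lit 0) (nat_lit 176) (nat_lit 171) (nat_lit 163)) (PT.lf (nat_lit 10260) (nat_lit 6) (nat_lit 135) (nat_lit 0) (nat_lit 177) (nat_lit 171) (nat_lit 162))) (PT.nd (nat_lit 78) (PT.lf (nat_lit 9576) (nat_lit 6) (nat_lit 126) (nat_lit 0) (nat_lit 178) (nat_lit 171) (nat_lit 161)) (PT.lf (nat_lit 8816) (nat_lit 6) (nat_lit 116) (nat_lit 0) (nat_lit 179) (nat_lit 171) (nat_lit 160))))) (PT.nd (nat_lit 51558) (PT.nd (nat_lit 51402) (PT.nd (nat_lit 51324) (PT.lf (nat_lit 7980) (nat_lit 6) (nat_lit 105) (nat_lit 0) (nat_lit 180) (nat_lit 171) (nat_lit 159)) (PT.lf (nat_lit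 7220) (nat_lit 6) (nat_lit 95) (nat_lit 5) (nat_lit 157) (nat_lit 172) (nat_lit 181))) (PT.nd (nat_lit 78) (PT.lf (nat_lit 7600) (nat_lit 6) (nat_lit 100) (nat_lit 5) (nat_lit 158) (nat_lit 172) (nat_lit 180)) (PT.lf (nat_lit 8056) (nat_lit 6) (nat_lit 106) (nat_lit 5) (nat_lit 159) (nat_lit 172) (nat_lit 179)))) (PT.nd (nat_lit 156) (PT.nd (nat_lit 78) (PT.lf (nat_lit 8892) (nat_lit 6) (nat_lit 117) (nat_lit 5) (nat_lit 160) (nat_lit 172) (nat_lit 178)) (PT.lf (nat_lit 9652) (nat_lit 6) (nat_lit 127) (nat_lit 5) (nat_lit 161) (nat_lit 172) (nat_lit 177))) (PT.nd (nat_lit 78) (PT.lf (nat_lit 10336) (nat_lit 6) (nat_lit 136) (nat_lit 5) (nat_lit 162) (nat_lit 172) (nat_lit 176)) (PT.lf (nat_lit 10944) (nat_lit 6) (nat_lit 144) (nat_lit 5) (nat_lit 163) (nat_lit 172) (nat_lit 175))))))))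
noncomputable def pc7 : PT := (PT.nd (nat_lit 53274) (PT.nd (nat_lit 1092) (PT.nd (nat_lit 546) (PT.nd (nat_lit 234) (PT.nd (nat_lit 78) (PT.lf (nat_lit 11476) (nat_lit 6) (nat_lit 151) (nat_lit 5) (nat_lit 164) (nat_lit 172) (nat_lit 174)) (PT.nd (nat_lit 78) (PT.lf (nat_lit 11932) (nat_lit 6) (nat_lit 157) (nat_lit 5) (nat_lit 165) (nat_lit 172) (nat_lit 173)) (PT.lf (nat_lit 12312) (nat_lit 3) (nat_lit 162) (nat_lit 4) (nat_lit 166) (nat_lit 172) (nat_lit 172)))) (PT.nd (nat_lit 156) (PT.nd (nat_lit 78) (PT.lf (nat_lit 12540) (nat_lit 6) (nat_lit 165) (nat_lit 4) (nat_lit 167) (nat_lit 172) (nat_lit 171)) (PT.lf (nat_lit 12692) (nat_lit 6) (nat_lit 167) (nat_lit 4) (nat_lit 168) (nat_lit 172) (nat_lit 170))) (PT.nd (nat_lit 78) (PT.lf (nat_lit 12616) (nat_lit 3) (nat_lit 166) (nat_lit 2) (nat_lit 169) (nat_lit 172) (nat_lit 169)) (PT.lf (nat_lit 12692) (nat_lit 6) (nat_lit 167) (nat_lit 2)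 (nat_lit 170) (nat_lit 172) (nat_lit 168))))) (PT.nd (nat_lit 234) (PT.nd (nat_lit 78) (PT.lf (nat_lit 12540) (nat_lit 6) (nat_lit 165) (nat_lit 2) (nat_lit 171) (nat_lit 172) (nat_lit 167)) (PT.nd (nat_lit 78) (PT.lf (nat_lit 12312) (nat_lit 3) (nat_lit 162) (nat_lit 0) (nat_lit 172) (nat_lit 172) (nat_lit 166)) (PT.lf (nat_lit 11932) (nat_lit 6) (nat_lit 157) (nat_lit 0) (nat_lit 173) (nat_lit 172) (nat_lit 165)))) (PT.nd (nat_lit 156) (PT.nd (nat_lit 78) (PT.lf (nat_lit 11476) (nat_lit 6) (nat_lit 151) (nat_lit 0) (nat_lit 174) (nat_lit 172) (nat_lit 164)) (PT.lf (nat_lit 10944) (nat_lit 6) (nat_lit 144) (nat_lit 0) (nat_lit 175) (nat_lit 172) (nat_lit 163))) (PT.nd (nat_lit 78) (PT.lf (nat_lit 10336) (nat_lit 6) (nat_lit 136) (nat_lit 0) (nat_lit 176) (nat_lit 172) (nat_lit 162)) (PT.lf (nat_lit 9652) (nat_lit 6) (nat_lit 127) (nat_lit 0) (nat_lit 177) (nat_lit 172) (nat_lit 161)))))) (PT.nd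 (nat_lit 51636) (PT.nd (nat_lit 234) (PT.nd (nat_lit 78) (PT.lf (nat_lit 8892) (nat_lit 6) (nat_lit 117) (nat_lit 0) (nat_lit 178) (nat_lit 172) (nat_lit 160)) (PT.nd (nat_lit 78) (PT.lf (nat_lit 8056) (nat_lit 6) (nat_lit 106) (nat_lit 0) (nat_lit 179) (nat_lit 172) (nat_lit 159)) (PT.lf (nat_lit 7600) (nat_lit 6) (nat_lit 100) (nat_lit 0) (nat_lit 180) (nat_lit 172) (nat_lit 158)))) (PT.nd (nat_lit 51246) (PT.nd (nat_lit 51168) (PT.lf (nat_lit 7220) (nat_lit 6) (nat_lit 95) (nat_lit 0) (nat_lit 181) (nat_lit 172) (nat_lit 157)) (PT.lf (nat_lit 6840) (nat_lit 6) (nat_lit 90) (nat_lit 5) (nat_lit 156) (nat_lit 173) (nat_lit 181))) (PT.nd (nat_lit 78) (PT.lf (nat_lit 7296) (nat_lit 6) (nat_lit 96) (nat_lit 5) (nat_lit 157) (nat_lit 173) (nat_lit 180)) (PT.lf (nat_lit 7676) (nat_lit 6) (nat_lit 101) (nat_lit 5) (nat_lit 158) (nat_lit 173) (nat_lit 179))))) (PT.nd (nat_lit 234) (PT.nd (nat_lit 78)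 (PT.lf (nat_lit 8132) (nat_lit 6) (nat_lit 107) (nat_lit 5) (nat_lit 159) (nat_lit 173) (nat_lit 178)) (PT.nd (nat_lit 78) (PT.lf (nat_lit 8968) (nat_lit 6) (nat_lit 118) (nat_lit 5) (nat_lit 160) (nat_lit 173) (nat_lit 177)) (PT.lf (nat_lit 9728) (nat_lit 6) (nat_lit 128) (nat_lit 5) (nat_lit 161) (nat_lit 173) (nat_lit 176)))) (PT.nd (nat_lit 156) (PT.nd (nat_lit 78) (PT.lf (nat_lit 10412) (nat_lit 6) (nat_lit 137) (nat_lit 5) (nat_lit 162) (nat_lit 173) (nat_lit 175)) (PT.lf (nat_lit 11020) (nat_lit 6) (nat_lit 145) (nat_lit 5) (nat_lit 163) (nat_lit 173) (nat_lit 174))) (PT.nd (nat_lit 78) (PT.lf (nat_lit 11552) (nat_lit 3) (nat_lit 152) (nat_lit 4) (nat_lit 164) (nat_lit 173) (nat_lit 173)) (PT.lf (nat_lit 11932) (nat_lit 6) (nat_lit 157) (nat_lit 4) (nat_lit 165) (nat_lit 173) (nat_lit 172))))))) (PT.nd (nat_lit 1092) (PT.nd (nat_lit 546) (PT.nd (nat_lit 234) (PT.nd (nat_lit 78) (PT.lf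 (nat_lit 12236) (nat_lit 6) (nat_lit 161) (nat_lit 4) (nat_lit 166) (nat_lit 173) (nat_lit 171)) (PT.nd (nat_lit 78) (PT.lf (nat_lit 12464) (nat_lit 6) (nat_lit 164) (nat_lit 4) (nat_lit 167) (nat_lit 173) (nat_lit 170)) (PT.lf (nat_lit 12388) (nat_lit 6) (nat_lit 163) (nat_lit 4) (nat_lit 168) (nat_lit 173) (nat_lit 169)))) (PT.nd (nat_lit 156) (PT.nd (nat_lit 78) (PT.lf (nat_lit 12388) (nat_lit 6) (nat_lit 163) (nat_lit 2) (nat_lit 169) (nat_lit 173) (nat_lit 168)) (PT.lf (nat_lit 12464) (nat_lit 6) (nat_lit 164) (nat_lit 2) (nat_lit 170) (nat_lit 173) (nat_lit 167))) (PT.nd (nat_lit 78) (PT.lf (nat_lit 12236) (nat_lit 6) (nat_lit 161) (nat_lit 2) (nat_lit 171) (nat_lit 173) (nat_lit 166)) (PT.lf (nat_lit 11932) (nat_lit 6) (nat_lit 157) (nat_lit 2) (nat_lit 172) (nat_lit 173) (nat_lit 165))))) (PT.nd (nat_lit 234) (PT.nd (nat_lit 78) (PT.lf (nat_lit 11552) (nat_lit 3) (nat_lit 152) (nat_lit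 0) (nat_lit 173) (nat_lit 173) (nat_lit 164)) (PT.nd (nat_lit 78) (PT.lf (nat_lit 11020) (nat_lit 6) (nat_lit 145) (nat_lit 0) (nat_lit 174) (nat_lit 173) (nat_lit 163)) (PT.lf (nat_lit 10412) (nat_lit 6) (nat_lit 137) (nat_lit 0) (nat_lit 175) (nat_lit 173) (nat_lit 162)))) (PT.nd (nat_lit 156) (PT.nd (nat_lit 78) (PT.lf (nat_lit 9728) (nat_lit 6) (nat_lit 128) (nat_lit 0) (nat_lit 176) (nat_lit 173) (nat_lit 161)) (PT.lf (nat_lit 8968) (nat_lit 6) (nat_lit 118) (nat_lit 0) (nat_lit 177) (nat_lit 173) (nat_lit 160))) (PT.nd (nat_lit 78) (PT.lf (nat_lit 8132) (nat_lit 6) (nat_lit 107) (nat_lit 0) (nat_lit 178) (nat_lit 173) (nat_lit 159)) (PT.lf (nat_lit 7676) (nat_lit 6) (nat_lit 101) (nat_lit 0) (nat_lit 179) (nat_lit 173) (nat_lit 158)))))) (PT.nd (nat_lit 51558) (PT.nd (nat_lit 51246) (PT.nd (nat_lit 78) (PT.lf (nat_lit 7296) (nat_lit 6) (nat_lit 96) (nat_lit 0) (nat_lit 180) (nat_lit 173)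 (nat_lit 157)) (PT.nd (nat_lit 51090) (PT.lf (nat_lit 6840) (nat_lit 6) (nat_lit 90) (nat_lit 0) (nat_lit 181) (nat_lit 173) (nat_lit 156)) (PT.lf (nat_lit 6536) (nat_lit 6) (nat_lit 86) (nat_lit 5) (nat_lit 155) (nat_lit 174) (nat_lit 181)))) (PT.nd (nat_lit 156) (PT.nd (nat_lit 78) (PT.lf (nat_lit 6916) (nat_lit 6) (nat_lit 91) (nat_lit 5) (nat_lit 156) (nat_lit 174) (nat_lit 180)) (PT.lf (nat_lit 7372) (nat_lit 6) (nat_lit 97) (nat_lit 5) (nat_lit 157) (nat_lit 174) (nat_lit 179))) (PT.nd (nat_lit 78) (PT.lf (nat_lit 7752) (nat_lit 6) (nat_lit 102) (nat_lit 5) (nat_lit 158) (nat_lit 174) (nat_lit 178)) (PT.lf (nat_lit 8208) (nat_lit 6) (nat_lit 108) (nat_lit 5) (nat_lit 159) (nat_lit 174) (nat_lit 177))))) (PT.nd (nat_lit 312) (PT.nd (nat_lit 156) (PT.nd (nat_lit 78) (PT.lf (nat_lit 9044) (nat_lit 6) (nat_lit 119) (nat_lit 5) (nat_lit 160) (nat_lit 174) (nat_lit 176)) (PT.lf (nat_lit 9804)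 (nat_lit 6) (nat_lit 129) (nat_lit 5) (nat_lit 161) (nat_lit 174) (nat_lit 175))) (PT.nd (nat_lit 78) (PT.lf (nat_lit 10488) (nat_lit 3) (nat_lit 138) (nat_lit 4) (nat_lit 162) (nat_lit 174) (nat_lit 174)) (PT.lf (nat_lit 11020) (nat_lit 6) (nat_lit 145) (nat_lit 4) (nat_lit 163) (nat_lit 174) (nat_lit 173)))) (PT.nd (nat_lit 156) (PT.nd (nat_lit 78) (PT.lf (nat_lit 11476) (nat_lit 6) (nat_lit 151) (nat_lit 4) (nat_lit 164) (nat_lit 174) (nat_lit 172)) (PT.lf (nat_lit 11856) (nat_lit 6) (nat_lit 156) (nat_lit 4) (nat_lit 165) (nat_lit 174) (nat_lit 171))) (PT.nd (nat_lit 78) (PT.lf (nat_lit 12160) (nat_lit 6) (nat_lit 160) (nat_lit 4) (nat_lit 166) (nat_lit 174) (nat_lit 170)) (PT.lf (nat_lit 12084) (nat_lit 6) (nat_lit 159) (nat_lit 4) (nat_lit 167) (nat_lit 174) (nat_lit 169))))))))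
noncomputable def pc8 : PT := (PT.nd (nat_lit 53040) (PT.nd (nat_lit 51948) (PT.nd (nat_lit 546) (PT.nd (nat_lit 234) (PT.nd (nat_lit 78) (PT.lf (nat_lit 12008) (nat_lit 3) (nat_lit 158) (nat_lit 2) (nat_lit 168) (nat_lit 174) (nat_lit 168)) (PT.nd (nat_lit 78) (PT.lf (nat_lit 12084) (nat_lit 6) (nat_lit 159) (nat_lit 2) (nat_lit 169) (nat_lit 174) (nat_lit 167)) (PT.lf (nat_lit 12160) (nat_lit 6) (nat_lit 160) (nat_lit 2) (nat_lit 170) (nat_lit 174) (nat_lit 166)))) (PT.nd (nat_lit 156) (PT.nd (nat_lit 78) (PT.lf (nat_lit 11856) (nat_lit 6) (nat_lit 156) (nat_lit 2) (nat_lit 171) (nat_lit 174) (nat_lit 165)) (PT.lf (nat_lit 11476) (nat_lit 6) (nat_lit 151) (nat_lit 2) (nat_lit 172) (nat_lit 174) (nat_lit 164))) (PT.nd (nat_lit 78) (PT.lf (nat_lit 11020) (nat_lit 6) (nat_lit 145) (nat_lit 2) (nat_lit 173) (nat_lit 174) (nat_lit 163)) (PT.lf (nat_lit 10488) (nat_lit 3) (nat_lit 138) (nat_lit 0)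 (nat_lit 174) (nat_lit 174) (nat_lit 162))))) (PT.nd (nat_lit 234) (PT.nd (nat_lit 78) (PT.lf (nat_lit 9804) (nat_lit 6) (nat_lit 129) (nat_lit 0) (nat_lit 175) (nat_lit 174) (nat_lit 161)) (PT.nd (nat_lit 78) (PT.lf (nat_lit 9044) (nat_lit 6) (nat_lit 119) (nat_lit 0) (nat_lit 176) (nat_lit 174) (nat_lit 160)) (PT.lf (nat_lit 8208) (nat_lit 6) (nat_lit 108) (nat_lit 0) (nat_lit 177) (nat_lit 174) (nat_lit 159)))) (PT.nd (nat_lit 156) (PT.nd (nat_lit 78) (PT.lf (nat_lit 7752) (nat_lit 6) (nat_lit 102) (nat_lit 0) (nat_lit 178) (nat_lit 174) (nat_lit 158)) (PT.lf (nat_lit 7372) (nat_lit 6) (nat_lit 97) (nat_lit 0) (nat_lit 179) (nat_lit 174) (nat_lit 157))) (PT.nd (nat_lit 78) (PT.lf (nat_lit 6916) (nat_lit 6) (nat_lit 91) (nat_lit 0) (nat_lit 180) (nat_lit 174) (nat_lit 156)) (PT.lf (nat_lit 6536) (nat_lit 6) (nat_lit 86) (nat_lit 0) (nat_lit 181) (nat_lit 174) (nat_lit 155)))))) (PT.nd (nat_lit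 546) (PT.nd (nat_lit 234) (PT.nd (nat_lit 78) (PT.lf (nat_lit 5928) (nat_lit 6) (nat_lit 78) (nat_lit 5) (nat_lit 153) (nat_lit 175) (nat_lit 182)) (PT.nd (nat_lit 78) (PT.lf (nat_lit 6232) (nat_lit 6) (nat_lit 82) (nat_lit 5) (nat_lit 154) (nat_lit 175) (nat_lit 181)) (PT.lf (nat_lit 6612) (nat_lit 6) (nat_lit 87) (nat_lit 5) (nat_lit 155) (nat_lit 175) (nat_lit 180)))) (PT.nd (nat_lit 156) (PT.nd (nat_lit 78) (PT.lf (nat_lit 6992) (nat_lit 6) (nat_lit 92) (nat_lit 5) (nat_lit 156) (nat_lit 175) (nat_lit 179)) (PT.lf (nat_lit 7448) (nat_lit 6) (nat_lit 98) (nat_lit 5) (nat_lit 157) (nat_lit 175) (nat_lit 178))) (PT.nd (nat_lit 78) (PT.lf (nat_lit 7828) (nat_lit 6) (nat_lit 103) (nat_lit 5) (nat_lit 158) (nat_lit 175) (nat_lit 177)) (PT.lf (nat_lit 8284) (nat_lit 6) (nat_lit 109) (nat_lit 5) (nat_lit 159) (nat_lit 175) (nat_lit 176))))) (PT.nd (nat_lit 234) (PT.nd (nat_lit 78) (PT.lf (nat_lit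 9120) (nat_lit 3) (nat_lit 120) (nat_lit 4) (nat_lit 160) (nat_lit 175) (nat_lit 175)) (PT.nd (nat_lit 78) (PT.lf (nat_lit 9804) (nat_lit 6) (nat_lit 129) (nat_lit 4) (nat_lit 161) (nat_lit 175) (nat_lit 174)) (PT.lf (nat_lit 10412) (nat_lit 6) (nat_lit 137) (nat_lit 4) (nat_lit 162) (nat_lit 175) (nat_lit 173)))) (PT.nd (nat_lit 156) (PT.nd (nat_lit 78) (PT.lf (nat_lit 10944) (nat_lit 6) (nat_lit 144) (nat_lit 4) (nat_lit 163) (nat_lit 175) (nat_lit 172)) (PT.lf (nat_lit 11400) (nat_lit 6) (nat_lit 150) (nat_lit 4) (nat_lit 164) (nat_lit 175) (nat_lit 171))) (PT.nd (nat_lit 78) (PT.lf (nat_lit 11780) (nat_lit 6) (nat_lit 155) (nat_lit 4) (nat_lit 165) (nat_lit 175) (nat_lit 170)) (PT.lf (nat_lit 11704) (nat_lit 6) (nat_lit 154) (nat_lit 4) (nat_lit 166) (nat_lit 175) (nat_lit 169))))))) (PT.nd (nat_lit 1092) (PT.nd (nat_lit 546) (PT.nd (nat_lit 234) (PT.nd (nat_lit 78) (PT.lf (nat_lit 11628)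 (nat_lit 6) (nat_lit 153) (nat_lit 4) (nat_lit 167) (nat_lit 175) (nat_lit 168)) (PT.nd (nat_lit 78) (PT.lf (nat_lit 11628) (nat_lit 6) (nat_lit 153) (nat_lit 2) (nat_lit 168) (nat_lit 175) (nat_lit 167)) (PT.lf (nat_lit 11704) (nat_lit 6) (nat_lit 154) (nat_lit 2) (nat_lit 169) (nat_lit 175) (nat_lit 166)))) (PT.nd (nat_lit 156) (PT.nd (nat_lit 78) (PT.lf (nat_lit 11780) (nat_lit 6) (nat_lit 155) (nat_lit 2) (nat_lit 170) (nat_lit 175) (nat_lit 165)) (PT.lf (nat_lit 11400) (nat_lit 6) (nat_lit 150) (nat_lit 2) (nat_lit 171) (nat_lit 175) (nat_lit 164))) (PT.nd (nat_lit 78) (PT.lf (nat_lit 10944) (nat_lit 6) (nat_lit 144) (nat_lit 2) (nat_lit 172) (nat_lit 175) (nat_lit 163)) (PT.lf (nat_lit 10412) (nat_lit 6) (nat_lit 137) (nat_lit 2) (nat_lit 173) (nat_lit 175) (nat_lit 162))))) (PT.nd (nat_lit 234) (PT.nd (nat_lit 78) (PT.lf (nat_lit 9804) (nat_lit 6) (nat_lit 129) (nat_lit 2) (nat_lit 174)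 (nat_lit 175) (nat_lit 161)) (PT.nd (nat_lit 78) (PT.lf (nat_lit 9120) (nat_lit 3) (nat_lit 120) (nat_lit 0) (nat_lit 175) (nat_lit 175) (nat_lit 160)) (PT.lf (nat_lit 8284) (nat_lit 6) (nat_lit 109) (nat_lit 0) (nat_lit 176) (nat_lit 175) (nat_lit 159)))) (PT.nd (nat_lit 156) (PT.nd (nat_lit 78) (PT.lf (nat_lit 7828) (nat_lit 6) (nat_lit 103) (nat_lit 0) (nat_lit 177) (nat_lit 175) (nat_lit 158)) (PT.lf (nat_lit 7448) (nat_lit 6) (nat_lit 98) (nat_lit 0) (nat_lit 178) (nat_lit 175) (nat_lit 157))) (PT.nd (nat_lit 78) (PT.lf (nat_lit 6992) (nat_lit 6) (nat_lit 92) (nat_lit 0) (nat_lit 179) (nat_lit 175) (nat_lit 156)) (PT.lf (nat_lit 6612) (nat_lit 6) (nat_lit 87) (nat_lit 0) (nat_lit 180) (nat_lit 175) (nat_lit 155)))))) (PT.nd (nat_lit 51246) (PT.nd (nat_lit 50934) (PT.nd (nat_lit 78) (PT.lf (nat_lit 6232) (nat_lit 6) (nat_lit 82) (nat_lit 0) (nat_lit 181) (nat_lit 175) (nat_lit 154)) (PT.nd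 (nat_lit 50778) (PT.lf (nat_lit 5928) (nat_lit 6) (nat_lit 78) (nat_lit 0) (nat_lit 182) (nat_lit 175) (nat_lit 153)) (PT.lf (nat_lit 5624) (nat_lit 6) (nat_lit 74) (nat_lit 5) (nat_lit 152) (nat_lit 176) (nat_lit 182)))) (PT.nd (nat_lit 156) (PT.nd (nat_lit 78) (PT.lf (nat_lit 6004) (nat_lit 6) (nat_lit 79) (nat_lit 5) (nat_lit 153) (nat_lit 176) (nat_lit 181)) (PT.lf (nat_lit 6308) (nat_lit 6) (nat_lit 83) (nat_lit 5) (nat_lit 154) (nat_lit 176) (nat_lit 180))) (PT.nd (nat_lit 78) (PT.lf (nat_lit 6688) (nat_lit 6) (nat_lit 88) (nat_lit 5) (nat_lit 155) (nat_lit 176) (nat_lit 179)) (PT.lf (nat_lit 7068) (nat_lit 6) (nat_lit 93) (nat_lit 5) (nat_lit 156) (nat_lit 176) (nat_lit 178))))) (PT.nd (nat_lit 312) (PT.nd (nat_lit 156) (PT.nd (nat_lit 78) (PT.lf (nat_lit 7524) (nat_lit 6) (nat_lit 99) (nat_lit 5) (nat_lit 157) (nat_lit 176) (nat_lit 177)) (PT.lf (nat_lit 7904) (nat_lit 3) (nat_lit 104)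 (nat_lit 4) (nat_lit 158) (nat_lit 176) (nat_lit 176))) (PT.nd (nat_lit 78) (PT.lf (nat_lit 8284) (nat_lit 6) (nat_lit 109) (nat_lit 4) (nat_lit 159) (nat_lit 176) (nat_lit 175)) (PT.lf (nat_lit 9044) (nat_lit 6) (nat_lit 119) (nat_lit 4) (nat_lit 160) (nat_lit 176) (nat_lit 174)))) (PT.nd (nat_lit 156) (PT.nd (nat_lit 78) (PT.lf (nat_lit 9728) (nat_lit 6) (nat_lit 128) (nat_lit 4) (nat_lit 161) (nat_lit 176) (nat_lit 173)) (PT.lf (nat_lit 10336) (nat_lit 6) (nat_lit 136) (nat_lit 4) (nat_lit 162) (nat_lit 176) (nat_lit 172))) (PT.nd (nat_lit 78) (PT.lf (nat_lit 10868) (nat_lit 6) (nat_lit 143) (nat_lit 4) (nat_lit 163) (nat_lit 176) (nat_lit 171)) (PT.lf (nat_lit 11324) (nat_lit 6) (nat_lit 149) (nat_lit 4) (nat_lit 164) (nat_lit 176) (nat_lit 170))))))))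
noncomputable def pc9 : PT := (PT.nd (nat_lit 52728) (PT.nd (nat_lit 1092) (PT.nd (nat_lit 546) (PT.nd (nat_lit 234) (PT.nd (nat_lit 78) (PT.lf (nat_lit 11248) (nat_lit 6) (nat_lit 148) (nat_lit 4) (nat_lit 165) (nat_lit 176) (nat_lit 169)) (PT.nd (nat_lit 78) (PT.lf (nat_lit 11172) (nat_lit 6) (nat_lit 147) (nat_lit 4) (nat_lit 166) (nat_lit 176) (nat_lit 168)) (PT.lf (nat_lit 11096) (nat_lit 3) (nat_lit 146) (nat_lit 2) (nat_lit 167) (nat_lit 176) (nat_lit 167)))) (PT.nd (nat_lit 156) (PT.nd (nat_lit 78) (PT.lf (nat_lit 11172) (nat_lit 6) (nat_lit 147) (nat_lit 2) (nat_lit 168) (nat_lit 176) (nat_lit 166)) (PT.lf (nat_lit 11248) (nat_lit 6) (nat_lit 148) (nat_lit 2) (nat_lit 169) (nat_lit 176) (nat_lit 165))) (PT.nd (nat_lit 78) (PT.lf (nat_lit 11324) (nat_lit 6) (nat_lit 149) (nat_lit 2) (nat_lit 170) (nat_lit 176) (nat_lit 164)) (PT.lf (nat_lit 10868) (nat_lit 6) (nat_lit 143) (nat_lit 2)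 (nat_lit 171) (nat_lit 176) (nat_lit 163))))) (PT.nd (nat_lit 234) (PT.nd (nat_lit 78) (PT.lf (nat_lit 10336) (nat_lit 6) (nat_lit 136) (nat_lit 2) (nat_lit 172) (nat_lit 176) (nat_lit 162)) (PT.nd (nat_lit 78) (PT.lf (nat_lit 9728) (nat_lit 6) (nat_lit 128) (nat_lit 2) (nat_lit 173) (nat_lit 176) (nat_lit 161)) (PT.lf (nat_lit 9044) (nat_lit 6) (nat_lit 119) (nat_lit 2) (nat_lit 174) (nat_lit 176) (nat_lit 160)))) (PT.nd (nat_lit 156) (PT.nd (nat_lit 78) (PT.lf (nat_lit 8284) (nat_lit 6) (nat_lit 109) (nat_lit 2) (nat_lit 175) (nat_lit 176) (nat_lit 159)) (PT.lf (nat_lit 7904) (nat_lit 3) (nat_lit 104) (nat_lit 0) (nat_lit 176) (nat_lit 176) (nat_lit 158))) (PT.nd (nat_lit 78) (PT.lf (nat_lit 7524) (nat_lit 6) (nat_lit 99) (nat_lit 0) (nat_lit 177) (nat_lit 176) (nat_lit 157)) (PT.lf (nat_lit 7068) (nat_lit 6) (nat_lit 93) (nat_lit 0) (nat_lit 178) (nat_lit 176) (nat_lit 156)))))) (PT.nd (nat_lit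 51090) (PT.nd (nat_lit 234) (PT.nd (nat_lit 78) (PT.lf (nat_lit 6688) (nat_lit 6) (nat_lit 88) (nat_lit 0) (nat_lit 179) (nat_lit 176) (nat_lit 155)) (PT.nd (nat_lit 78) (PT.lf (nat_lit 6308) (nat_lit 6) (nat_lit 83) (nat_lit 0) (nat_lit 180) (nat_lit 176) (nat_lit 154)) (PT.lf (nat_lit 6004) (nat_lit 6) (nat_lit 79) (nat_lit 0) (nat_lit 181) (nat_lit 176) (nat_lit 153)))) (PT.nd (nat_lit 50700) (PT.nd (nat_lit 50622) (PT.lf (nat_lit 5624) (nat_lit 6) (nat_lit 74) (nat_lit 0) (nat_lit 182) (nat_lit 176) (nat_lit 152)) (PT.lf (nat_lit 5092) (nat_lit 6) (nat_lit 67) (nat_lit 5) (nat_lit 150) (nat_lit 177) (nat_lit 183))) (PT.nd (nat_lit 78) (PT.lf (nat_lit 5396) (nat_lit 6) (nat_lit 71) (nat_lit 5) (nat_lit 151) (nat_lit 177) (nat_lit 182)) (PT.lf (nat_lit 5700) (nat_lit 6) (nat_lit 75) (nat_lit 5) (nat_lit 152) (nat_lit 177) (nat_lit 181))))) (PT.nd (nat_lit 234) (PT.nd (nat_lit 78) (PT.lf (nat_lit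 6080) (nat_lit 6) (nat_lit 80) (nat_lit 5) (nat_lit 153) (nat_lit 177) (nat_lit 180)) (PT.nd (nat_lit 78) (PT.lf (nat_lit 6384) (nat_lit 6) (nat_lit 84) (nat_lit 5) (nat_lit 154) (nat_lit 177) (nat_lit 179)) (PT.lf (nat_lit 6764) (nat_lit 6) (nat_lit 89) (nat_lit 5) (nat_lit 155) (nat_lit 177) (nat_lit 178)))) (PT.nd (nat_lit 156) (PT.nd (nat_lit 78) (PT.lf (nat_lit 7144) (nat_lit 3) (nat_lit 94) (nat_lit 4) (nat_lit 156) (nat_lit 177) (nat_lit 177)) (PT.lf (nat_lit 7524) (nat_lit 6) (nat_lit 99) (nat_lit 4) (nat_lit 157) (nat_lit 177) (nat_lit 176))) (PT.nd (nat_lit 78) (PT.lf (nat_lit 7828) (nat_lit 6) (nat_lit 103) (nat_lit 4) (nat_lit 158) (nat_lit 177) (nat_lit 175)) (PT.lf (nat_lit 8208) (nat_lit 6) (nat_lit 108) (nat_lit 4) (nat_lit 159) (nat_lit 177) (nat_lit 174))))))) (PT.nd (nat_lit 1092) (PT.nd (nat_lit 546) (PT.nd (nat_lit 234) (PT.nd (nat_lit 78) (PT.lf (nat_lit 8968) (nat_lit 6)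 (nat_lit 118) (nat_lit 4) (nat_lit 160) (nat_lit 177) (nat_lit 173)) (PT.nd (nat_lit 78) (PT.lf (nat_lit 9652) (nat_lit 6) (nat_lit 127) (nat_lit 4) (nat_lit 161) (nat_lit 177) (nat_lit 172)) (PT.lf (nat_lit 10260) (nat_lit 6) (nat_lit 135) (nat_lit 4) (nat_lit 162) (nat_lit 177) (nat_lit 171)))) (PT.nd (nat_lit 156) (PT.nd (nat_lit 78) (PT.lf (nat_lit 10792) (nat_lit 6) (nat_lit 142) (nat_lit 4) (nat_lit 163) (nat_lit 177) (nat_lit 170)) (PT.lf (nat_lit 10716) (nat_lit 6) (nat_lit 141) (nat_lit 4) (nat_lit 164) (nat_lit 177) (nat_lit 169))) (PT.nd (nat_lit 78) (PT.lf (nat_lit 10640) (nat_lit 6) (nat_lit 140) (nat_lit 4) (nat_lit 165) (nat_lit 177) (nat_lit 168)) (PT.lf (nat_lit 10564) (nat_lit 6) (nat_lit 139) (nat_lit 4) (nat_lit 166) (nat_lit 177) (nat_lit 167))))) (PT.nd (nat_lit 234) (PT.nd (nat_lit 78) (PT.lf (nat_lit 10564) (nat_lit 6) (nat_lit 139) (nat_lit 2) (nat_lit 167) (nat_lit 177)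 (nat_lit 166)) (PT.nd (nat_lit 78) (PT.lf (nat_lit 10640) (nat_lit 6) (nat_lit 140) (nat_lit 2) (nat_lit 168) (nat_lit 177) (nat_lit 165)) (PT.lf (nat_lit 10716) (nat_lit 6) (nat_lit 141) (nat_lit 2) (nat_lit 169) (nat_lit 177) (nat_lit 164)))) (PT.nd (nat_lit 156) (PT.nd (nat_lit 78) (PT.lf (nat_lit 10792) (nat_lit 6) (nat_lit 142) (nat_lit 2) (nat_lit 170) (nat_lit 177) (nat_lit 163)) (PT.lf (nat_lit 10260) (nat_lit 6) (nat_lit 135) (nat_lit 2) (nat_lit 171) (nat_lit 177) (nat_lit 162))) (PT.nd (nat_lit 78) (PT.lf (nat_lit 9652) (nat_lit 6) (nat_lit 127) (nat_lit 2) (nat_lit 172) (nat_lit 177) (nat_lit 161)) (PT.lf (nat_lit 8968) (nat_lit 6) (nat_lit 118) (nat_lit 2) (nat_lit 173) (nat_lit 177) (nat_lit 160)))))) (PT.nd (nat_lit 546) (PT.nd (nat_lit 234) (PT.nd (nat_lit 78) (PT.lf (nat_lit 8208) (nat_lit 6) (nat_lit 108) (nat_lit 2) (nat_lit 174) (nat_lit 177) (nat_lit 159)) (PT.nd (nat_lit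 78) (PT.lf (nat_lit 7828) (nat_lit 6) (nat_lit 103) (nat_lit 2) (nat_lit 175) (nat_lit 177) (nat_lit 158)) (PT.lf (nat_lit 7524) (nat_lit 6) (nat_lit 99) (nat_lit 2) (nat_lit 176) (nat_lit 177) (nat_lit 157)))) (PT.nd (nat_lit 156) (PT.nd (nat_lit 78) (PT.lf (nat_lit 7144) (nat_lit 3) (nat_lit 94) (nat_lit 0) (nat_lit 177) (nat_lit 177) (nat_lit 156)) (PT.lf (nat_lit 6764) (nat_lit 6) (nat_lit 89) (nat_lit 0) (nat_lit 178) (nat_lit 177) (nat_lit 155))) (PT.nd (nat_lit 78) (PT.lf (nat_lit 6384) (nat_lit 6) (nat_lit 84) (nat_lit 0) (nat_lit 179) (nat_lit 177) (nat_lit 154)) (PT.lf (nat_lit 6080) (nat_lit 6) (nat_lit 80) (nat_lit 0) (nat_lit 180) (nat_lit 177) (nat_lit 153))))) (PT.nd (nat_lit 50700) (PT.nd (nat_lit 156) (PT.nd (nat_lit 78) (PT.lf (nat_lit 5700) (nat_lit 6) (nat_lit 75) (nat_lit 0) (nat_lit 181) (nat_lit 177) (nat_lit 152)) (PT.lf (nat_lit 5396) (nat_lit 6) (nat_lit 71) (nat_lit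 0) (nat_lit 182) (nat_lit 177) (nat_lit 151))) (PT.nd (nat_lit 50466) (PT.lf (nat_lit 5092) (nat_lit 6) (nat_lit 67) (nat_lit 0) (nat_lit 183) (nat_lit 177) (nat_lit 150)) (PT.lf (nat_lit 4864) (nat_lit 6) (nat_lit 64) (nat_lit 5) (nat_lit 149) (nat_lit 178) (nat_lit 183)))) (PT.nd (nat_lit 156) (PT.nd (nat_lit 78) (PT.lf (nat_lit 5168) (nat_lit 6) (nat_lit 68) (nat_lit 5) (nat_lit 150) (nat_lit 178) (nat_lit 182)) (PT.lf (nat_lit 5472) (nat_lit 6) (nat_lit 72) (nat_lit 5) (nat_lit 151) (nat_lit 178) (nat_lit 181))) (PT.nd (nat_lit 78) (PT.lf (nat_lit 5776) (nat_lit 6) (nat_lit 76) (nat_lit 5) (nat_lit 152) (nat_lit 178) (nat_lit 180)) (PT.lf (nat_lit 6156) (nat_lit 6) (nat_lit 81) (nat_lit 5) (nat_lit 153) (nat_lit 178) (nat_lit 179))))))))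
noncomputable def pc10 : PT := (PT.nd (nat_lit 2184) (PT.nd (nat_lit 1092) (PT.nd (nat_lit 546) (PT.nd (nat_lit 234) (PT.nd (nat_lit 78) (PT.lf (nat_lit 6460) (nat_lit 3) (nat_lit 85) (nat_lit 4) (nat_lit 154) (nat_lit 178) (nat_lit 178)) (PT.nd (nat_lit 78) (PT.lf (nat_lit 6764) (nat_lit 6) (nat_lit 89) (nat_lit 4) (nat_lit 155) (nat_lit 178) (nat_lit 177)) (PT.lf (nat_lit 7068) (nat_lit 6) (nat_lit 93) (nat_lit 4) (nat_lit 156) (nat_lit 178) (nat_lit 176)))) (PT.nd (nat_lit 156) (PT.nd (nat_lit 78) (PT.lf (nat_lit 7448) (nat_lit 6) (nat_lit 98) (nat_lit 4) (nat_lit 157) (nat_lit 178) (nat_lit 175)) (PT.lf (nat_lit 7752) (nat_lit 6) (nat_lit 102) (nat_lit 4) (nat_lit 158) (nat_lit 178) (nat_lit 174))) (PT.nd (nat_lit 78) (PT.lf (nat_lit 8132) (nat_lit 6) (nat_lit 107) (nat_lit 4) (nat_lit 159) (nat_lit 178) (nat_lit 173)) (PT.lf (nat_lit 8892) (nat_lit 6) (nat_lit 117) (nat_lit 4) (nat_lit 160)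 (nat_lit 178) (nat_lit 172))))) (PT.nd (nat_lit 234) (PT.nd (nat_lit 78) (PT.lf (nat_lit 9576) (nat_lit 6) (nat_lit 126) (nat_lit 4) (nat_lit 161) (nat_lit 178) (nat_lit 171)) (PT.nd (nat_lit 78) (PT.lf (nat_lit 10184) (nat_lit 6) (nat_lit 134) (nat_lit 4) (nat_lit 162) (nat_lit 178) (nat_lit 170)) (PT.lf (nat_lit 10108) (nat_lit 6) (nat_lit 133) (nat_lit 4) (nat_lit 163) (nat_lit 178) (nat_lit 169)))) (PT.nd (nat_lit 156) (PT.nd (nat_lit 78) (PT.lf (nat_lit 10032) (nat_lit 6) (nat_lit 132) (nat_lit 4) (nat_lit 164) (nat_lit 178) (nat_lit 168)) (PT.lf (nat_lit 9956) (nat_lit 6) (nat_lit 131) (nat_lit 4) (nat_lit 165) (nat_lit 178) (nat_lit 167))) (PT.nd (nat_lit 78) (PT.lf (nat_lit 9880) (nat_lit 3) (nat_lit 130) (nat_lit 2) (nat_lit 166) (nat_lit 178) (nat_lit 166)) (PT.lf (nat_lit 9956) (nat_lit 6) (nat_lit 131) (nat_lit 2) (nat_lit 167) (nat_lit 178) (nat_lit 165)))))) (PT.nd (nat_lit 546)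 (PT.nd (nat_lit 234) (PT.nd (nat_lit 78) (PT.lf (nat_lit 10032) (nat_lit 6) (nat_lit 132) (nat_lit 2) (nat_lit 168) (nat_lit 178) (nat_lit 164)) (PT.nd (nat_lit 78) (PT.lf (nat_lit 10108) (nat_lit 6) (nat_lit 133) (nat_lit 2) (nat_lit 169) (nat_lit 178) (nat_lit 163)) (PT.lf (nat_lit 10184) (nat_lit 6) (nat_lit 134) (nat_lit 2) (nat_lit 170) (nat_lit 178) (nat_lit 162)))) (PT.nd (nat_lit 156) (PT.nd (nat_lit 78) (PT.lf (nat_lit 9576) (nat_lit 6) (nat_lit 126) (nat_lit 2) (nat_lit 171) (nat_lit 178) (nat_lit 161)) (PT.lf (nat_lit 8892) (nat_lit 6) (nat_lit 117) (nat_lit 2) (nat_lit 172) (nat_lit 178) (nat_lit 160))) (PT.nd (nat_lit 78) (PT.lf (nat_lit 8132) (nat_lit 6) (nat_lit 107) (nat_lit 2) (nat_lit 173) (nat_lit 178) (nat_lit 159)) (PT.lf (nat_lit 7752) (nat_lit 6) (nat_lit 102) (nat_lit 2) (nat_lit 174) (nat_lit 178) (nat_lit 158))))) (PT.nd (nat_lit 234) (PT.nd (nat_lit 78) (PT.lf (nat_lit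 7448) (nat_lit 6) (nat_lit 98) (nat_lit 2) (nat_lit 175) (nat_lit 178) (nat_lit 157)) (PT.nd (nat_lit 78) (PT.lf (nat_lit 7068) (nat_lit 6) (nat_lit 93) (nat_lit 2) (nat_lit 176) (nat_lit 178) (nat_lit 156)) (PT.lf (nat_lit 6764) (nat_lit 6) (nat_lit 89) (nat_lit 2) (nat_lit 177) (nat_lit 178) (nat_lit 155)))) (PT.nd (nat_lit 156) (PT.nd (nat_lit 78) (PT.lf (nat_lit 6460) (nat_lit 3) (nat_lit 85) (nat_lit 0) (nat_lit 178) (nat_lit 178) (nat_lit 154)) (PT.lf (nat_lit 6156) (nat_lit 6) (nat_lit 81) (nat_lit 0) (nat_lit 179) (nat_lit 178) (nat_lit 153))) (PT.nd (nat_lit 78) (PT.lf (nat_lit 5776) (nat_lit 6) (nat_lit 76) (nat_lit 0) (nat_lit 180) (nat_lit 178) (nat_lit 152)) (PT.lf (nat_lit 5472) (nat_lit 6) (nat_lit 72) (nat_lit 0) (nat_lit 181) (nat_lit 178) (nat_lit 151))))))) (PT.nd (nat_lit 51324) (PT.nd (nat_lit 50778) (PT.nd (nat_lit 50466) (PT.nd (nat_lit 78) (PT.lf (nat_lit 5168) (nat_lit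 6) (nat_lit 68) (nat_lit 0) (nat_lit 182) (nat_lit 178) (nat_lit 150)) (PT.nd (nat_lit 50310) (PT.lf (nat_lit 4864) (nat_lit 6) (nat_lit 64) (nat_lit 0) (nat_lit 183) (nat_lit 178) (nat_lit 149)) (PT.lf (nat_lit 4408) (nat_lit 6) (nat_lit 58) (nat_lit 5) (nat_lit 147) (nat_lit 179) (nat_lit 184)))) (PT.nd (nat_lit 156) (PT.nd (nat_lit 78) (PT.lf (nat_lit 4636) (nat_lit 6) (nat_lit 61) (nat_lit 5) (nat_lit 148) (nat_lit 179) (nat_lit 183)) (PT.lf (nat_lit 4940) (nat_lit 6) (nat_lit 65) (nat_lit 5) (nat_lit 149) (nat_lit 179) (nat_lit 182))) (PT.nd (nat_lit 78) (PT.lf (nat_lit 5244) (nat_lit 6) (nat_lit 69) (nat_lit 5) (nat_lit 150) (nat_lit 179) (nat_lit 181)) (PT.lf (nat_lit 5548) (nat_lit 6) (nat_lit 73) (nat_lit 5) (nat_lit 151) (nat_lit 179) (nat_lit 180))))) (PT.nd (nat_lit 234) (PT.nd (nat_lit 78) (PT.lf (nat_lit 5852) (nat_lit 3) (nat_lit 77) (nat_lit 4) (nat_lit 152) (nat_lit 179) (nat_lit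 179)) (PT.nd (nat_lit 78) (PT.lf (nat_lit 6156) (nat_lit 6) (nat_lit 81) (nat_lit 4) (nat_lit 153) (nat_lit 179) (nat_lit 178)) (PT.lf (nat_lit 6384) (nat_lit 6) (nat_lit 84) (nat_lit 4) (nat_lit 154) (nat_lit 179) (nat_lit 177)))) (PT.nd (nat_lit 156) (PT.nd (nat_lit 78) (PT.lf (nat_lit 6688) (nat_lit 6) (nat_lit 88) (nat_lit 4) (nat_lit 155) (nat_lit 179) (nat_lit 176)) (PT.lf (nat_lit 6992) (nat_lit 6) (nat_lit 92) (nat_lit 4) (nat_lit 156) (nat_lit 179) (nat_lit 175))) (PT.nd (nat_lit 78) (PT.lf (nat_lit 7372) (nat_lit 6) (nat_lit 97) (nat_lit 4) (nat_lit 157) (nat_lit 179) (nat_lit 174)) (PT.lf (nat_lit 7676) (nat_lit 6) (nat_lit 101) (nat_lit 4) (nat_lit 158) (nat_lit 179) (nat_lit 173)))))) (PT.nd (nat_lit 546) (PT.nd (nat_lit 234) (PT.nd (nat_lit 78) (PT.lf (nat_lit 8056) (nat_lit 6) (nat_lit 106) (nat_lit 4) (nat_lit 159) (nat_lit 179) (nat_lit 172)) (PT.nd (nat_lit 78) (PT.lf (nat_lit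 8816) (nat_lit 6) (nat_lit 116) (nat_lit 4) (nat_lit 160) (nat_lit 179) (nat_lit 171)) (PT.lf (nat_lit 9500) (nat_lit 6) (nat_lit 125) (nat_lit 4) (nat_lit 161) (nat_lit 179) (nat_lit 170)))) (PT.nd (nat_lit 156) (PT.nd (nat_lit 78) (PT.lf (nat_lit 9424) (nat_lit 6) (nat_lit 124) (nat_lit 4) (nat_lit 162) (nat_lit 179) (nat_lit 169)) (PT.lf (nat_lit 9348) (nat_lit 6) (nat_lit 123) (nat_lit 4) (nat_lit 163) (nat_lit 179) (nat_lit 168))) (PT.nd (nat_lit 78) (PT.lf (nat_lit 9272) (nat_lit 6) (nat_lit 122) (nat_lit 4) (nat_lit 164) (nat_lit 179) (nat_lit 167)) (PT.lf (nat_lit 9196) (nat_lit 6) (nat_lit 121) (nat_lit 4) (nat_lit 165) (nat_lit 179) (nat_lit 166))))) (PT.nd (nat_lit 312) (PT.nd (nat_lit 156) (PT.nd (nat_lit 78) (PT.lf (nat_lit 9196) (nat_lit 6) (nat_lit 121) (nat_lit 2) (nat_lit 166) (nat_lit 179) (nat_lit 165)) (PT.lf (nat_lit 9272) (nat_lit 6) (nat_lit 122) (nat_lit 2) (nat_lit 167)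 (nat_lit 179) (nat_lit 164))) (PT.nd (nat_lit 78) (PT.lf (nat_lit 9348) (nat_lit 6) (nat_lit 123) (nat_lit 2) (nat_lit 168) (nat_lit 179) (nat_lit 163)) (PT.lf (nat_lit 9424) (nat_lit 6) (nat_lit 124) (nat_lit 2) (nat_lit 169) (nat_lit 179) (nat_lit 162)))) (PT.nd (nat_lit 156) (PT.nd (nat_lit 78) (PT.lf (nat_lit 9500) (nat_lit 6) (nat_lit 125) (nat_lit 2) (nat_lit 170) (nat_lit 179) (nat_lit 161)) (PT.lf (nat_lit 8816) (nat_lit 6) (nat_lit 116) (nat_lit 2) (nat_lit 171) (nat_lit 179) (nat_lit 160))) (PT.nd (nat_lit 78) (PT.lf (nat_lit 8056) (nat_lit 6) (nat_lit 106) (nat_lit 2) (nat_lit 172) (nat_lit 179) (nat_lit 159)) (PT.lf (nat_lit 7676) (nat_lit 6) (nat_lit 101) (nat_lit 2) (nat_lit 173) (nat_lit 179) (nat_lit 158))))))))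
noncomputable def pc11 : PT := (PT.nd (nat_lit 52260) (PT.nd (nat_lit 51168) (PT.nd (nat_lit 546) (PT.nd (nat_lit 234) (PT.nd (nat_lit 78) (PT.lf (nat_lit 7372) (nat_lit 6) (nat_lit 97) (nat_lit 2) (nat_lit 174) (nat_lit 179) (nat_lit 157)) (PT.nd (nat_lit 78) (PT.lf (nat_lit 6992) (nat_lit 6) (nat_lit 92) (nat_lit 2) (nat_lit 175) (nat_lit 179) (nat_lit 156)) (PT.lf (nat_lit 6688) (nat_lit 6) (nat_lit 88) (nat_lit 2) (nat_lit 176) (nat_lit 179) (nat_lit 155)))) (PT.nd (nat_lit 156) (PT.nd (nat_lit 78) (PT.lf (nat_lit 6384) (nat_lit 6) (nat_lit 84) (nat_lit 2) (nat_lit 177) (nat_lit 179) (nat_lit 154)) (PT.lf (nat_lit 6156) (nat_lit 6) (nat_lit 81) (nat_lit 2) (nat_lit 178) (nat_lit 179) (nat_lit 153))) (PT.nd (nat_lit 78) (PT.lf (nat_lit 5852) (nat_lit 3) (nat_lit 77) (nat_lit 0) (nat_lit 179) (nat_lit 179) (nat_lit 152)) (PT.lf (nat_lit 5548) (nat_lit 6) (nat_lit 73) (nat_lit 0) (nat_lit 180)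 (nat_lit 179) (nat_lit 151))))) (PT.nd (nat_lit 234) (PT.nd (nat_lit 78) (PT.lf (nat_lit 5244) (nat_lit 6) (nat_lit 69) (nat_lit 0) (nat_lit 181) (nat_lit 179) (nat_lit 150)) (PT.nd (nat_lit 78) (PT.lf (nat_lit 4940) (nat_lit 6) (nat_lit 65) (nat_lit 0) (nat_lit 182) (nat_lit 179) (nat_lit 149)) (PT.lf (nat_lit 4636) (nat_lit 6) (nat_lit 61) (nat_lit 0) (nat_lit 183) (nat_lit 179) (nat_lit 148)))) (PT.nd (nat_lit 50232) (PT.nd (nat_lit 50154) (PT.lf (nat_lit 4408) (nat_lit 6) (nat_lit 58) (nat_lit 0) (nat_lit 184) (nat_lit 179) (nat_lit 147)) (PT.lf (nat_lit 4180) (nat_lit 6) (nat_lit 55) (nat_lit 5) (nat_lit 146) (nat_lit 180) (nat_lit 184))) (PT.nd (nat_lit 78) (PT.lf (nat_lit 4484) (nat_lit 6) (nat_lit 59) (nat_lit 5) (nat_lit 147) (nat_lit 180) (nat_lit 183)) (PT.lf (nat_lit 4712) (nat_lit 6) (nat_lit 62) (nat_lit 5) (nat_lit 148) (nat_lit 180) (nat_lit 182)))))) (PT.nd (nat_lit 546) (PT.nd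 (nat_lit 234) (PT.nd (nat_lit 78) (PT.lf (nat_lit 5016) (nat_lit 6) (nat_lit 66) (nat_lit 5) (nat_lit 149) (nat_lit 180) (nat_lit 181)) (PT.nd (nat_lit 78) (PT.lf (nat_lit 5320) (nat_lit 3) (nat_lit 70) (nat_lit 4) (nat_lit 150) (nat_lit 180) (nat_lit 180)) (PT.lf (nat_lit 5548) (nat_lit 6) (nat_lit 73) (nat_lit 4) (nat_lit 151) (nat_lit 180) (nat_lit 179)))) (PT.nd (nat_lit 156) (PT.nd (nat_lit 78) (PT.lf (nat_lit 5776) (nat_lit 6) (nat_lit 76) (nat_lit 4) (nat_lit 152) (nat_lit 180) (nat_lit 178)) (PT.lf (nat_lit 6080) (nat_lit 6) (nat_lit 80) (nat_lit 4) (nat_lit 153) (nat_lit 180) (nat_lit 177))) (PT.nd (nat_lit 78) (PT.lf (nat_lit 6308) (nat_lit 6) (nat_lit 83) (nat_lit 4) (nat_lit 154) (nat_lit 180) (nat_lit 176)) (PT.lf (nat_lit 6612) (nat_lit 6) (nat_lit 87) (nat_lit 4) (nat_lit 155) (nat_lit 180) (nat_lit 175))))) (PT.nd (nat_lit 234) (PT.nd (nat_lit 78) (PT.lf (nat_lit 6916) (nat_lit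 6) (nat_lit 91) (nat_lit 4) (nat_lit 156) (nat_lit 180) (nat_lit 174)) (PT.nd (nat_lit 78) (PT.lf (nat_lit 7296) (nat_lit 6) (nat_lit 96) (nat_lit 4) (nat_lit 157) (nat_lit 180) (nat_lit 173)) (PT.lf (nat_lit 7600) (nat_lit 6) (nat_lit 100) (nat_lit 4) (nat_lit 158) (nat_lit 180) (nat_lit 172)))) (PT.nd (nat_lit 156) (PT.nd (nat_lit 78) (PT.lf (nat_lit 7980) (nat_lit 6) (nat_lit 105) (nat_lit 4) (nat_lit 159) (nat_lit 180) (nat_lit 171)) (PT.lf (nat_lit 8740) (nat_lit 6) (nat_lit 115) (nat_lit 4) (nat_lit 160) (nat_lit 180) (nat_lit 170))) (PT.nd (nat_lit 78) (PT.lf (nat_lit 8664) (nat_lit 6) (nat_lit 114) (nat_lit 4) (nat_lit 161) (nat_lit 180) (nat_lit 169)) (PT.lf (nat_lit 8588) (nat_lit 6) (nat_lit 113) (nat_lit 4) (nat_lit 162) (nat_lit 180) (nat_lit 168))))))) (PT.nd (nat_lit 1092) (PT.nd (nat_lit 546) (PT.nd (nat_lit 234) (PT.nd (nat_lit 78) (PT.lf (nat_lit 8512) (nat_lit 6) (nat_lit 112)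 (nat_lit 4) (nat_lit 163) (nat_lit 180) (nat_lit 167)) (PT.nd (nat_lit 78) (PT.lf (nat_lit 8436) (nat_lit 6) (nat_lit 111) (nat_lit 4) (nat_lit 164) (nat_lit 180) (nat_lit 166)) (PT.lf (nat_lit 8360) (nat_lit 3) (nat_lit 110) (nat_lit 2) (nat_lit 165) (nat_lit 180) (nat_lit 165)))) (PT.nd (nat_lit 156) (PT.nd (nat_lit 78) (PT.lf (nat_lit 8436) (nat_lit 6) (nat_lit 111) (nat_lit 2) (nat_lit 166) (nat_lit 180) (nat_lit 164)) (PT.lf (nat_lit 8512) (nat_lit 6) (nat_lit 112) (nat_lit 2) (nat_lit 167) (nat_lit 180) (nat_lit 163))) (PT.nd (nat_lit 78) (PT.lf (nat_lit 8588) (nat_lit 6) (nat_lit 113) (nat_lit 2) (nat_lit 168) (nat_lit 180) (nat_lit 162)) (PT.lf (nat_lit 8664) (nat_lit 6) (nat_lit 114) (nat_lit 2) (nat_lit 169) (nat_lit 180) (nat_lit 161))))) (PT.nd (nat_lit 234) (PT.nd (nat_lit 78) (PT.lf (nat_lit 8740) (nat_lit 6) (nat_lit 115) (nat_lit 2) (nat_lit 170) (nat_lit 180) (nat_lit 160)) (PT.nd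 (nat_lit 78) (PT.lf (nat_lit 7980) (nat_lit 6) (nat_lit 105) (nat_lit 2) (nat_lit 171) (nat_lit 180) (nat_lit 159)) (PT.lf (nat_lit 7600) (nat_lit 6) (nat_lit 100) (nat_lit 2) (nat_lit 172) (nat_lit 180) (nat_lit 158)))) (PT.nd (nat_lit 156) (PT.nd (nat_lit 78) (PT.lf (nat_lit 7296) (nat_lit 6) (nat_lit 96) (nat_lit 2) (nat_lit 173) (nat_lit 180) (nat_lit 157)) (PT.lf (nat_lit 6916) (nat_lit 6) (nat_lit 91) (nat_lit 2) (nat_lit 174) (nat_lit 180) (nat_lit 156))) (PT.nd (nat_lit 78) (PT.lf (nat_lit 6612) (nat_lit 6) (nat_lit 87) (nat_lit 2) (nat_lit 175) (nat_lit 180) (nat_lit 155)) (PT.lf (nat_lit 6308) (nat_lit 6) (nat_lit 83) (nat_lit 2) (nat_lit 176) (nat_lit 180) (nat_lit 154)))))) (PT.nd (nat_lit 546) (PT.nd (nat_lit 234) (PT.nd (nat_lit 78) (PT.lf (nat_lit 6080) (nat_lit 6) (nat_lit 80) (nat_lit 2) (nat_lit 177) (nat_lit 180) (nat_lit 153)) (PT.nd (nat_lit 78) (PT.lf (nat_lit 5776) (nat_lit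 6) (nat_lit 76) (nat_lit 2) (nat_lit 178) (nat_lit 180) (nat_lit 152)) (PT.lf (nat_lit 5548) (nat_lit 6) (nat_lit 73) (nat_lit 2) (nat_lit 179) (nat_lit 180) (nat_lit 151)))) (PT.nd (nat_lit 156) (PT.nd (nat_lit 78) (PT.lf (nat_lit 5320) (nat_lit 3) (nat_lit 70) (nat_lit 0) (nat_lit 180) (nat_lit 180) (nat_lit 150)) (PT.lf (nat_lit 5016) (nat_lit 6) (nat_lit 66) (nat_lit 0) (nat_lit 181) (nat_lit 180) (nat_lit 149))) (PT.nd (nat_lit 78) (PT.lf (nat_lit 4712) (nat_lit 6) (nat_lit 62) (nat_lit 0) (nat_lit 182) (nat_lit 180) (nat_lit 148)) (PT.lf (nat_lit 4484) (nat_lit 6) (nat_lit 59) (nat_lit 0) (nat_lit 183) (nat_lit 180) (nat_lit 147))))) (PT.nd (nat_lit 50232) (PT.nd (nat_lit 50076) (PT.nd (nat_lit 49998) (PT.lf (nat_lit 4180) (nat_lit 6) (nat_lit 55) (nat_lit 0) (nat_lit 184) (nat_lit 180) (nat_lit 146)) (PT.lf (nat_lit 3800) (nat_lit 6) (nat_lit 50) (nat_lit 5) (nat_lit 144) (nat_lit 181)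 (nat_lit 185))) (PT.nd (nat_lit 78) (PT.lf (nat_lit 4028) (nat_lit 6) (nat_lit 53) (nat_lit 5) (nat_lit 145) (nat_lit 181) (nat_lit 184)) (PT.lf (nat_lit 4256) (nat_lit 6) (nat_lit 56) (nat_lit 5) (nat_lit 146) (nat_lit 181) (nat_lit 183)))) (PT.nd (nat_lit 156) (PT.nd (nat_lit 78) (PT.lf (nat_lit 4560) (nat_lit 6) (nat_lit 60) (nat_lit 5) (nat_lit 147) (nat_lit 181) (nat_lit 182)) (PT.lf (nat_lit 4788) (nat_lit 3) (nat_lit 63) (nat_lit 4) (nat_lit 148) (nat_lit 181) (nat_lit 181))) (PT.nd (nat_lit 78) (PT.lf (nat_lit 5016) (nat_lit 6) (nat_lit 66) (nat_lit 4) (nat_lit 149) (nat_lit 181) (nat_lit 180)) (PT.lf (nat_lit 5244) (nat_lit 6) (nat_lit 69) (nat_lit 4) (nat_lit 150) (nat_lit 181) (nat_lit 179))))))))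
noncomputable def pc12 : PT := (PT.nd (nat_lit 52962) (PT.nd (nat_lit 2184) (PT.nd (nat_lit 1638) (PT.nd (nat_lit 234) (PT.nd (nat_lit 78) (PT.lf (nat_lit 5472) (nat_lit 6) (nat_lit 72) (nat_lit 4) (nat_lit 151) (nat_lit 181) (nat_lit 178)) (PT.nd (nat_lit 78) (PT.lf (nat_lit 5700) (nat_lit 6) (nat_lit 75) (nat_lit 4) (nat_lit 152) (nat_lit 181) (nat_lit 177)) (PT.lf (nat_lit 6004) (nat_lit 6) (nat_lit 79) (nat_lit 4) (nat_lit 153) (nat_lit 181) (nat_lit 176)))) (PT.nd (nat_lit 156) (PT.nd (nat_lit 78) (PT.lf (nat_lit 6232) (nat_lit 6) (nat_lit 82) (nat_lit 4) (nat_lit 154) (nat_lit 181) (nat_lit 175)) (PT.lf (nat_lit 6536) (nat_lit 6) (nat_lit 86) (nat_lit 4) (nat_lit 155) (nat_lit 181) (nat_lit 174))) (PT.nd (nat_lit 78) (PT.lf (nat_lit 6840) (nat_lit 6) (nat_lit 90) (nat_lit 4) (nat_lit 156) (nat_lit 181) (nat_lit 173)) (PT.lf (nat_lit 7220) (nat_lit 6) (nat_lit 95) (nat_lit 4) (nat_lit 157)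 (nat_lit 181) (nat_lit 172))))) (PT.nd (nat_lit 234) (PT.nd (nat_lit 78) (PT.lf (nat_lit 7220) (nat_lit 6) (nat_lit 95) (nat_lit 2) (nat_lit 172) (nat_lit 181) (nat_lit 157)) (PT.nd (nat_lit 78) (PT.lf (nat_lit 6840) (nat_lit 6) (nat_lit 90) (nat_lit 2) (nat_lit 173) (nat_lit 181) (nat_lit 156)) (PT.lf (nat_lit 6536) (nat_lit 6) (nat_lit 86) (nat_lit 2) (nat_lit 174) (nat_lit 181) (nat_lit 155)))) (PT.nd (nat_lit 156) (PT.nd (nat_lit 78) (PT.lf (nat_lit 6232) (nat_lit 6) (nat_lit 82) (nat_lit 2) (nat_lit 175) (nat_lit 181) (nat_lit 154)) (PT.lf (nat_lit 6004) (nat_lit 6) (nat_lit 79) (nat_lit 2) (nat_lit 176) (nat_lit 181) (nat_lit 153))) (PT.nd (nat_lit 78) (PT.lf (nat_lit 5700) (nat_lit 6) (nat_lit 75) (nat_lit 2) (nat_lit 177) (nat_lit 181) (nat_lit 152)) (PT.lf (nat_lit 5472) (nat_lit 6) (nat_lit 72) (nat_lit 2) (nat_lit 178) (nat_lit 181) (nat_lit 151)))))) (PT.nd (nat_lit 50232) (PT.nd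 (nat_lit 234) (PT.nd (nat_lit 78) (PT.lf (nat_lit 5244) (nat_lit 6) (nat_lit 69) (nat_lit 2) (nat_lit 179) (nat_lit 181) (nat_lit 150)) (PT.nd (nat_lit 78) (PT.lf (nat_lit 5016) (nat_lit 6) (nat_lit 66) (nat_lit 2) (nat_lit 180) (nat_lit 181) (nat_lit 149)) (PT.lf (nat_lit 4788) (nat_lit 3) (nat_lit 63) (nat_lit 0) (nat_lit 181) (nat_lit 181) (nat_lit 148)))) (PT.nd (nat_lit 156) (PT.nd (nat_lit 78) (PT.lf (nat_lit 4560) (nat_lit 6) (nat_lit 60) (nat_lit 0) (nat_lit 182) (nat_lit 181) (nat_lit 147)) (PT.lf (nat_lit 4256) (nat_lit 6) (nat_lit 56) (nat_lit 0) (nat_lit 183) (nat_lit 181) (nat_lit 146))) (PT.nd (nat_lit 78) (PT.lf (nat_lit 4028) (nat_lit 6) (nat_lit 53) (nat_lit 0) (nat_lit 184) (nat_lit 181) (nat_lit 145)) (PT.lf (nat_lit 3800) (nat_lit 6) (nat_lit 50) (nat_lit 0) (nat_lit 185) (nat_lit 181) (nat_lit 144))))) (PT.nd (nat_lit 234) (PT.nd (nat_lit 78) (PT.lf (nat_lit 3420) (nat_lit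 6) (nat_lit 45) (nat_lit 5) (nat_lit 142) (nat_lit 182) (nat_lit 186)) (PT.nd (nat_lit 78) (PT.lf (nat_lit 3648) (nat_lit 6) (nat_lit 48) (nat_lit 5) (nat_lit 143) (nat_lit 182) (nat_lit 185)) (PT.lf (nat_lit 3876) (nat_lit 6) (nat_lit 51) (nat_lit 5) (nat_lit 144) (nat_lit 182) (nat_lit 184)))) (PT.nd (nat_lit 156) (PT.nd (nat_lit 78) (PT.lf (nat_lit 4104) (nat_lit 6) (nat_lit 54) (nat_lit 5) (nat_lit 145) (nat_lit 182) (nat_lit 183)) (PT.lf (nat_lit 4332) (nat_lit 3) (nat_lit 57) (nat_lit 4) (nat_lit 146) (nat_lit 182) (nat_lit 182))) (PT.nd (nat_lit 78) (PT.lf (nat_lit 4560) (nat_lit 6) (nat_lit 60) (nat_lit 4) (nat_lit 147) (nat_lit 182) (nat_lit 181)) (PT.lf (nat_lit 4712) (nat_lit 6) (nat_lit 62) (nat_lit 4) (nat_lit 148) (nat_lit 182) (nat_lit 180))))))) (PT.nd (nat_lit 2730) (PT.nd (nat_lit 2184) (PT.nd (nat_lit 234) (PT.nd (nat_lit 78) (PT.lf (nat_lit 4940) (nat_lit 6) (nat_lit 65) (nat_lit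 4) (nat_lit 149) (nat_lit 182) (nat_lit 179)) (PT.nd (nat_lit 78) (PT.lf (nat_lit 5168) (nat_lit 6) (nat_lit 68) (nat_lit 4) (nat_lit 150) (nat_lit 182) (nat_lit 178)) (PT.lf (nat_lit 5396) (nat_lit 6) (nat_lit 71) (nat_lit 4) (nat_lit 151) (nat_lit 182) (nat_lit 177)))) (PT.nd (nat_lit 1794) (PT.nd (nat_lit 78) (PT.lf (nat_lit 5624) (nat_lit 6) (nat_lit 74) (nat_lit 4) (nat_lit 152) (nat_lit 182) (nat_lit 176)) (PT.lf (nat_lit 5928) (nat_lit 6) (nat_lit 78) (nat_lit 4) (nat_lit 153) (nat_lit 182) (nat_lit 175))) (PT.nd (nat_lit 78) (PT.lf (nat_lit 5928) (nat_lit 6) (nat_lit 78) (nat_lit 2) (nat_lit 175) (nat_lit 182) (nat_lit 153)) (PT.lf (nat_lit 5624) (nat_lit 6) (nat_lit 74) (nat_lit 2) (nat_lit 176) (nat_lit 182) (nat_lit 152))))) (PT.nd (nat_lit 234) (PT.nd (nat_lit 78) (PT.lf (nat_lit 5396) (nat_lit 6) (nat_lit 71) (nat_lit 2) (nat_lit 177) (nat_lit 182) (nat_lit 151)) (PT.nd (nat_lit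 78) (PT.lf (nat_lit 5168) (nat_lit 6) (nat_lit 68) (nat_lit 2) (nat_lit 178) (nat_lit 182) (nat_lit 150)) (PT.lf (nat_lit 4940) (nat_lit 6) (nat_lit 65) (nat_lit 2) (nat_lit 179) (nat_lit 182) (nat_lit 149)))) (PT.nd (nat_lit 156) (PT.nd (nat_lit 78) (PT.lf (nat_lit 4712) (nat_lit 6) (nat_lit 62) (nat_lit 2) (nat_lit 180) (nat_lit 182) (nat_lit 148)) (PT.lf (nat_lit 4560) (nat_lit 6) (nat_lit 60) (nat_lit 2) (nat_lit 181) (nat_lit 182) (nat_lit 147))) (PT.nd (nat_lit 78) (PT.lf (nat_lit 4332) (nat_lit 3) (nat_lit 57) (nat_lit 0) (nat_lit 182) (nat_lit 182) (nat_lit 146)) (PT.lf (nat_lit 4104) (nat_lit 6) (nat_lit 54) (nat_lit 0) (nat_lit 183) (nat_lit 182) (nat_lit 145)))))) (PT.nd (nat_lit 50076) (PT.nd (nat_lit 49764) (PT.nd (nat_lit 78) (PT.lf (nat_lit 3876) (nat_lit 6) (nat_lit 51) (nat_lit 0) (nat_lit 184) (nat_lit 182) (nat_lit 144)) (PT.nd (nat_lit 78) (PT.lf (nat_lit 3648) (nat_lit 6)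 (nat_lit 48) (nat_lit 0) (nat_lit 185) (nat_lit 182) (nat_lit 143)) (PT.lf (nat_lit 3420) (nat_lit 6) (nat_lit 45) (nat_lit 0) (nat_lit 186) (nat_lit 182) (nat_lit 142)))) (PT.nd (nat_lit 156) (PT.nd (nat_lit 78) (PT.lf (nat_lit 3268) (nat_lit 6) (nat_lit 43) (nat_lit 5) (nat_lit 141) (nat_lit 183) (nat_lit 186)) (PT.lf (nat_lit 3496) (nat_lit 6) (nat_lit 46) (nat_lit 5) (nat_lit 142) (nat_lit 183) (nat_lit 185))) (PT.nd (nat_lit 78) (PT.lf (nat_lit 3724) (nat_lit 6) (nat_lit 49) (nat_lit 5) (nat_lit 143) (nat_lit 183) (nat_lit 184)) (PT.lf (nat_lit 3952) (nat_lit 3) (nat_lit 52) (nat_lit 4) (nat_lit 144) (nat_lit 183) (nat_lit 183))))) (PT.nd (nat_lit 312) (PT.nd (nat_lit 156) (PT.nd (nat_lit 78) (PT.lf (nat_lit 4104) (nat_lit 6) (nat_lit 54) (nat_lit 4) (nat_lit 145) (nat_lit 183) (nat_lit 182)) (PT.lf (nat_lit 4256) (nat_lit 6) (nat_lit 56) (nat_lit 4) (nat_lit 146) (nat_lit 183) (nat_lit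 181))) (PT.nd (nat_lit 78) (PT.lf (nat_lit 4484) (nat_lit 6) (nat_lit 59) (nat_lit 4) (nat_lit 147) (nat_lit 183) (nat_lit 180)) (PT.lf (nat_lit 4636) (nat_lit 6) (nat_lit 61) (nat_lit 4) (nat_lit 148) (nat_lit 183) (nat_lit 179)))) (PT.nd (nat_lit 2184) (PT.nd (nat_lit 78) (PT.lf (nat_lit 4864) (nat_lit 6) (nat_lit 64) (nat_lit 4) (nat_lit 149) (nat_lit 183) (nat_lit 178)) (PT.lf (nat_lit 5092) (nat_lit 6) (nat_lit 67) (nat_lit 4) (nat_lit 150) (nat_lit 183) (nat_lit 177))) (PT.nd (nat_lit 78) (PT.lf (nat_lit 5092) (nat_lit 6) (nat_lit 67) (nat_lit 2) (nat_lit 177) (nat_lit 183) (nat_lit 150)) (PT.lf (nat_lit 4864) (nat_lit 6) (nat_lit 64) (nat_lit 2) (nat_lit 178) (nat_lit 183) (nat_lit 149))))))))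
noncomputable def pc13 : PT := (PT.nd (nat_lit 103116) (PT.nd (nat_lit 50466) (PT.nd (nat_lit 546) (PT.nd (nat_lit 234) (PT.nd (nat_lit 78) (PT.lf (nat_lit 4636) (nat_lit 6) (nat_lit 61) (nat_lit 2) (nat_lit 179) (nat_lit 183) (nat_lit 148)) (PT.nd (nat_lit 78) (PT.lf (nat_lit 4484) (nat_lit 6) (nat_lit 59) (nat_lit 2) (nat_lit 180) (nat_lit 183) (nat_lit 147)) (PT.lf (nat_lit 4256) (nat_lit 6) (nat_lit 56) (nat_lit 2) (nat_lit 181) (nat_lit 183) (nat_lit 146)))) (PT.nd (nat_lit 156) (PT.nd (nat_lit 78) (PT.lf (nat_lit 4104) (nat_lit 6) (nat_lit 54) (nat_lit 2) (nat_lit 182) (nat_lit 183) (nat_lit 145)) (PT.lf (nat_lit 3952) (nat_lit 3) (nat_lit 52) (nat_lit 0) (nat_lit 183) (nat_lit 183) (nat_lit 144))) (PT.nd (nat_lit 78) (PT.lf (nat_lit 3724) (nat_lit 6) (nat_lit 49) (nat_lit 0) (nat_lit 184) (nat_lit 183) (nat_lit 143)) (PT.lf (nat_lit 3496) (nat_lit 6) (nat_lit 46) (nat_lit 0) (nat_lit 185)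 (nat_lit 183) (nat_lit 142))))) (PT.nd (nat_lit 49608) (PT.nd (nat_lit 49452) (PT.lf (nat_lit 3268) (nat_lit 6) (nat_lit 43) (nat_lit 0) (nat_lit 186) (nat_lit 183) (nat_lit 141)) (PT.nd (nat_lit 78) (PT.lf (nat_lit 2964) (nat_lit 6) (nat_lit 39) (nat_lit 5) (nat_lit 139) (nat_lit 184) (nat_lit 187)) (PT.lf (nat_lit 3116) (nat_lit 6) (nat_lit 41) (nat_lit 5) (nat_lit 140) (nat_lit 184) (nat_lit 186)))) (PT.nd (nat_lit 156) (PT.nd (nat_lit 78) (PT.lf (nat_lit 3344) (nat_lit 6) (nat_lit 44) (nat_lit 5) (nat_lit 141) (nat_lit 184) (nat_lit 185)) (PT.lf (nat_lit 3572) (nat_lit 3) (nat_lit 47) (nat_lit 4) (nat_lit 142) (nat_lit 184) (nat_lit 184))) (PT.nd (nat_lit 78) (PT.lf (nat_lit 3724) (nat_lit 6) (nat_lit 49) (nat_lit 4) (nat_lit 143) (nat_lit 184) (nat_lit 183)) (PT.lf (nat_lit 3876) (nat_lit 6) (nat_lit 51) (nat_lit 4) (nat_lit 144) (nat_lit 184) (nat_lit 182)))))) (PT.nd (nat_lit 2964) (PT.nd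 (nat_lit 2652) (PT.nd (nat_lit 78) (PT.lf (nat_lit 4028) (nat_lit 6) (nat_lit 53) (nat_lit 4) (nat_lit 145) (nat_lit 184) (nat_lit 181)) (PT.nd (nat_lit 78) (PT.lf (nat_lit 4180) (nat_lit 6) (nat_lit 55) (nat_lit 4) (nat_lit 146) (nat_lit 184) (nat_lit 180)) (PT.lf (nat_lit 4408) (nat_lit 6) (nat_lit 58) (nat_lit 4) (nat_lit 147) (nat_lit 184) (nat_lit 179)))) (PT.nd (nat_lit 156) (PT.nd (nat_lit 78) (PT.lf (nat_lit 4408) (nat_lit 6) (nat_lit 58) (nat_lit 2) (nat_lit 179) (nat_lit 184) (nat_lit 147)) (PT.lf (nat_lit 4180) (nat_lit 6) (nat_lit 55) (nat_lit 2) (nat_lit 180) (nat_lit 184) (nat_lit 146))) (PT.nd (nat_lit 78) (PT.lf (nat_lit 4028) (nat_lit 6) (nat_lit 53) (nat_lit 2) (nat_lit 181) (nat_lit 184) (nat_lit 145)) (PT.lf (nat_lit 3876) (nat_lit 6) (nat_lit 51) (nat_lit 2) (nat_lit 182) (nat_lit 184) (nat_lit 144))))) (PT.nd (nat_lit 234) (PT.nd (nat_lit 78) (PT.lf (nat_lit 3724) (nat_lit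 6) (nat_lit 49) (nat_lit 2) (nat_lit 183) (nat_lit 184) (nat_lit 143)) (PT.nd (nat_lit 78) (PT.lf (nat_lit 3572) (nat_lit 3) (nat_lit 47) (nat_lit 0) (nat_lit 184) (nat_lit 184) (nat_lit 142)) (PT.lf (nat_lit 3344) (nat_lit 6) (nat_lit 44) (nat_lit 0) (nat_lit 185) (nat_lit 184) (nat_lit 141)))) (PT.nd (nat_lit 49296) (PT.nd (nat_lit 78) (PT.lf (nat_lit 3116) (nat_lit 6) (nat_lit 41) (nat_lit 0) (nat_lit 186) (nat_lit 184) (nat_lit 140)) (PT.lf (nat_lit 2964) (nat_lit 6) (nat_lit 39) (nat_lit 0) (nat_lit 187) (nat_lit 184) (nat_lit 139))) (PT.nd (nat_lit 78) (PT.lf (nat_lit 2660) (nat_lit 6) (nat_lit 35) (nat_lit 5) (nat_lit 137) (nat_lit 185) (nat_lit 188)) (PT.lf (nat_lit 2812) (nat_lit 6) (nat_lit 37) (nat_lit 5) (nat_lit 138) (nat_lit 185) (nat_lit 187))))))) (PT.nd (nat_lit 52806) (PT.nd (nat_lit 3354) (PT.nd (nat_lit 234) (PT.nd (nat_lit 78) (PT.lf (nat_lit 3040) (nat_lit 6) (nat_lit 40)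 (nat_lit 5) (nat_lit 139) (nat_lit 185) (nat_lit 186)) (PT.nd (nat_lit 78) (PT.lf (nat_lit 3192) (nat_lit 3) (nat_lit 42) (nat_lit 4) (nat_lit 140) (nat_lit 185) (nat_lit 185)) (PT.lf (nat_lit 3344) (nat_lit 6) (nat_lit 44) (nat_lit 4) (nat_lit 141) (nat_lit 185) (nat_lit 184)))) (PT.nd (nat_lit 156) (PT.nd (nat_lit 78) (PT.lf (nat_lit 3496) (nat_lit 6) (nat_lit 46) (nat_lit 4) (nat_lit 142) (nat_lit 185) (nat_lit 183)) (PT.lf (nat_lit 3648) (nat_lit 6) (nat_lit 48) (nat_lit 4) (nat_lit 143) (nat_lit 185) (nat_lit 182))) (PT.nd (nat_lit 2886) (PT.lf (nat_lit 3800) (nat_lit 6) (nat_lit 50) (nat_lit 4) (nat_lit 144) (nat_lit 185) (nat_lit 181)) (PT.lf (nat_lit 3800) (nat_lit 6) (nat_lit 50) (nat_lit 2) (nat_lit 181) (nat_lit 185) (nat_lit 144))))) (PT.nd (nat_lit 234) (PT.nd (nat_lit 78) (PT.lf (nat_lit 3648) (nat_lit 6) (nat_lit 48) (nat_lit 2) (nat_lit 182) (nat_lit 185) (nat_lit 143)) (PT.nd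 (nat_lit 78) (PT.lf (nat_lit 3496) (nat_lit 6) (nat_lit 46) (nat_lit 2) (nat_lit 183) (nat_lit 185) (nat_lit 142)) (PT.lf (nat_lit 3344) (nat_lit 6) (nat_lit 44) (nat_lit 2) (nat_lit 184) (nat_lit 185) (nat_lit 141)))) (PT.nd (nat_lit 156) (PT.nd (nat_lit 78) (PT.lf (nat_lit 3192) (nat_lit 3) (nat_lit 42) (nat_lit 0) (nat_lit 185) (nat_lit 185) (nat_lit 140)) (PT.lf (nat_lit 3040) (nat_lit 6) (nat_lit 40) (nat_lit 0) (nat_lit 186) (nat_lit 185) (nat_lit 139))) (PT.nd (nat_lit 78) (PT.lf (nat_lit 2812) (nat_lit 6) (nat_lit 37) (nat_lit 0) (nat_lit 187) (nat_lit 185) (nat_lit 138)) (PT.lf (nat_lit 2660) (nat_lit 6) (nat_lit 35) (nat_lit 0) (nat_lit 188) (nat_lit 185) (nat_lit 137)))))) (PT.nd (nat_lit 546) (PT.nd (nat_lit 234) (PT.nd (nat_lit 78) (PT.lf (nat_lit 2356) (nat_lit 6) (nat_lit 31) (nat_lit 5) (nat_lit 135) (nat_lit 186) (nat_lit 189)) (PT.nd (nat_lit 78) (PT.lf (nat_lit 2508) (nat_lit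 6) (nat_lit 33) (nat_lit 5) (nat_lit 136) (nat_lit 186) (nat_lit 188)) (PT.lf (nat_lit 2736) (nat_lit 6) (nat_lit 36) (nat_lit 5) (nat_lit 137) (nat_lit 186) (nat_lit 187)))) (PT.nd (nat_lit 156) (PT.nd (nat_lit 78) (PT.lf (nat_lit 2888) (nat_lit 3) (nat_lit 38) (nat_lit 4) (nat_lit 138) (nat_lit 186) (nat_lit 186)) (PT.lf (nat_lit 3040) (nat_lit 6) (nat_lit 40) (nat_lit 4) (nat_lit 139) (nat_lit 186) (nat_lit 185))) (PT.nd (nat_lit 78) (PT.lf (nat_lit 3116) (nat_lit 6) (nat_lit 41) (nat_lit 4) (nat_lit 140) (nat_lit 186) (nat_lit 184)) (PT.lf (nat_lit 3268) (nat_lit 6) (nat_lit 43) (nat_lit 4) (nat_lit 141) (nat_lit 186) (nat_lit 183))))) (PT.nd (nat_lit 3354) (PT.nd (nat_lit 3198) (PT.nd (nat_lit 3120) (PT.lf (nat_lit 3420) (nat_lit 6) (nat_lit 45) (nat_lit 4) (nat_lit 142) (nat_lit 186) (nat_lit 182)) (PT.lf (nat_lit 3420) (nat_lit 6) (nat_lit 45) (nat_lit 2) (nat_lit 182) (nat_lit 186) (nat_lit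 142))) (PT.nd (nat_lit 78) (PT.lf (nat_lit 3268) (nat_lit 6) (nat_lit 43) (nat_lit 2) (nat_lit 183) (nat_lit 186) (nat_lit 141)) (PT.lf (nat_lit 3116) (nat_lit 6) (nat_lit 41) (nat_lit 2) (nat_lit 184) (nat_lit 186) (nat_lit 140)))) (PT.nd (nat_lit 156) (PT.nd (nat_lit 78) (PT.lf (nat_lit 3040) (nat_lit 6) (nat_lit 40) (nat_lit 2) (nat_lit 185) (nat_lit 186) (nat_lit 139)) (PT.lf (nat_lit 2888) (nat_lit 3) (nat_lit 38) (nat_lit 0) (nat_lit 186) (nat_lit 186) (nat_lit 138))) (PT.nd (nat_lit 78) (PT.lf (nat_lit 2736) (nat_lit 6) (nat_lit 36) (nat_lit 0) (nat_lit 187) (nat_lit 186) (nat_lit 137)) (PT.lf (nat_lit 2508) (nat_lit 6) (nat_lit 33) (nat_lit 0) (nat_lit 188) (nat_lit 186) (nat_lit 136))))))))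
noncomputable def pc14 : PT := (PT.nd (nat_lit 154986) (PT.nd (nat_lit 101868) (PT.nd (nat_lit 52728) (PT.nd (nat_lit 48984) (PT.nd (nat_lit 48828) (PT.lf (nat_lit 2356) (nat_lit 6) (nat_lit 31) (nat_lit 0) (nat_lit 189) (nat_lit 186) (nat_lit 135)) (PT.nd (nat_lit 78) (PT.lf (nat_lit 2204) (nat_lit 6) (nat_lit 29) (nat_lit 5) (nat_lit 134) (nat_lit 187) (nat_lit 189)) (PT.lf (nat_lit 2432) (nat_lit 6) (nat_lit 32) (nat_lit 5) (nat_lit 135) (nat_lit 187) (nat_lit 188)))) (PT.nd (nat_lit 156) (PT.nd (nat_lit 78) (PT.lf (nat_lit 2584) (nat_lit 3) (nat_lit 34) (nat_lit 4) (nat_lit 136) (nat_lit 187) (nat_lit 187)) (PT.lf (nat_lit 2736) (nat_lit 6) (nat_lit 36) (nat_lit 4) (nat_lit 137) (nat_lit 187) (nat_lit 186))) (PT.nd (nat_lit 78) (PT.lf (nat_lit 2812) (nat_lit 6) (nat_lit 37) (nat_lit 4) (nat_lit 138) (nat_lit 187) (nat_lit 185)) (PT.lf (nat_lit 2964) (nat_lit 6) (nat_lit 39) (nat_lit 4) (nat_lit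 139) (nat_lit 187) (nat_lit 184))))) (PT.nd (nat_lit 234) (PT.nd (nat_lit 78) (PT.lf (nat_lit 2964) (nat_lit 6) (nat_lit 39) (nat_lit 2) (nat_lit 184) (nat_lit 187) (nat_lit 139)) (PT.nd (nat_lit 78) (PT.lf (nat_lit 2812) (nat_lit 6) (nat_lit 37) (nat_lit 2) (nat_lit 185) (nat_lit 187) (nat_lit 138)) (PT.lf (nat_lit 2736) (nat_lit 6) (nat_lit 36) (nat_lit 2) (nat_lit 186) (nat_lit 187) (nat_lit 137)))) (PT.nd (nat_lit 156) (PT.nd (nat_lit 78) (PT.lf (nat_lit 2584) (nat_lit 3) (nat_lit 34) (nat_lit 0) (nat_lit 187) (nat_lit 187) (nat_lit 136)) (PT.lf (nat_lit 2432) (nat_lit 6) (nat_lit 32) (nat_lit 0) (nat_lit 188) (nat_lit 187) (nat_lit 135))) (PT.nd (nat_lit 48672) (PT.lf (nat_lit 2204) (nat_lit 6) (nat_lit 29) (nat_lit 0) (nat_lit 189) (nat_lit 187) (nat_lit 134)) (PT.lf (nat_lit 1976) (nat_lit 6) (nat_lit 26) (nat_lit 5) (nat_lit 132) (nat_lit 188) (nat_lit 190)))))) (PT.nd (nat_lit 4212)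 (PT.nd (nat_lit 234) (PT.nd (nat_lit 78) (PT.lf (nat_lit 2128) (nat_lit 6) (nat_lit 28) (nat_lit 5) (nat_lit 133) (nat_lit 188) (nat_lit 189)) (PT.nd (nat_lit 78) (PT.lf (nat_lit 2280) (nat_lit 3) (nat_lit 30) (nat_lit 4) (nat_lit 134) (nat_lit 188) (nat_lit 188)) (PT.lf (nat_lit 2432) (nat_lit 6) (nat_lit 32) (nat_lit 4) (nat_lit 135) (nat_lit 188) (nat_lit 187)))) (PT.nd (nat_lit 3822) (PT.nd (nat_lit 78) (PT.lf (nat_lit 2508) (nat_lit 6) (nat_lit 33) (nat_lit 4) (nat_lit 136) (nat_lit 188) (nat_lit 186)) (PT.lf (nat_lit 2660) (nat_lit 6) (nat_lit 35) (nat_lit 4) (nat_lit 137) (nat_lit 188) (nat_lit 185))) (PT.nd (nat_lit 78) (PT.lf (nat_lit 2660) (nat_lit 6) (nat_lit 35) (nat_lit 2) (nat_lit 185) (nat_lit 188) (nat_lit 137)) (PT.lf (nat_lit 2508) (nat_lit 6) (nat_lit 33) (nat_lit 2) (nat_lit 186) (nat_lit 188) (nat_lit 136))))) (PT.nd (nat_lit 234) (PT.nd (nat_lit 78) (PT.lf (nat_lit 2432)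 (nat_lit 6) (nat_lit 32) (nat_lit 2) (nat_lit 187) (nat_lit 188) (nat_lit 135)) (PT.nd (nat_lit 78) (PT.lf (nat_lit 2280) (nat_lit 3) (nat_lit 30) (nat_lit 0) (nat_lit 188) (nat_lit 188) (nat_lit 134)) (PT.lf (nat_lit 2128) (nat_lit 6) (nat_lit 28) (nat_lit 0) (nat_lit 189) (nat_lit 188) (nat_lit 133)))) (PT.nd (nat_lit 48516) (PT.nd (nat_lit 48438) (PT.lf (nat_lit 1976) (nat_lit 6) (nat_lit 26) (nat_lit 0) (nat_lit 190) (nat_lit 188) (nat_lit 132)) (PT.lf (nat_lit 1748) (nat_lit 6) (nat_lit 23) (nat_lit 5) (nat_lit 130) (nat_lit 189) (nat_lit 191))) (PT.nd (nat_lit 78) (PT.lf (nat_lit 1900) (nat_lit 6) (nat_lit 25) (nat_lit 5) (nat_lit 131) (nat_lit 189) (nat_lit 190)) (PT.lf (nat_lit 2052) (nat_lit 3) (nat_lit 27) (nat_lit 4) (nat_lit 132) (nat_lit 189) (nat_lit 189))))))) (PT.nd (nat_lit 57408) (PT.nd (nat_lit 4446) (PT.nd (nat_lit 4134) (PT.nd (nat_lit 78) (PT.lf (nat_lit 2128) (nat_lit 6)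 (nat_lit 28) (nat_lit 4) (nat_lit 133) (nat_lit 189) (nat_lit 188)) (PT.nd (nat_lit 78) (PT.lf (nat_lit 2204) (nat_lit 6) (nat_lit 29) (nat_lit 4) (nat_lit 134) (nat_lit 189) (nat_lit 187)) (PT.lf (nat_lit 2356) (nat_lit 6) (nat_lit 31) (nat_lit 4) (nat_lit 135) (nat_lit 189) (nat_lit 186)))) (PT.nd (nat_lit 156) (PT.nd (nat_lit 78) (PT.lf (nat_lit 2356) (nat_lit 6) (nat_lit 31) (nat_lit 2) (nat_lit 186) (nat_lit 189) (nat_lit 135)) (PT.lf (nat_lit 2204) (nat_lit 6) (nat_lit 29) (nat_lit 2) (nat_lit 187) (nat_lit 189) (nat_lit 134))) (PT.nd (nat_lit 78) (PT.lf (nat_lit 2128) (nat_lit 6) (nat_lit 28) (nat_lit 2) (nat_lit 188) (nat_lit 189) (nat_lit 133)) (PT.lf (nat_lit 2052) (nat_lit 3) (nat_lit 27) (nat_lit 0) (nat_lit 189) (nat_lit 189) (nat_lit 132))))) (PT.nd (nat_lit 48360) (PT.nd (nat_lit 78) (PT.lf (nat_lit 1900) (nat_lit 6) (nat_lit 25) (nat_lit 0) (nat_lit 190) (nat_lit 189) (nat_lit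 131)) (PT.nd (nat_lit 48204) (PT.lf (nat_lit 1748) (nat_lit 6) (nat_lit 23) (nat_lit 0) (nat_lit 191) (nat_lit 189) (nat_lit 130)) (PT.lf (nat_lit 1520) (nat_lit 6) (nat_lit 20) (nat_lit 5) (nat_lit 128) (nat_lit 190) (nat_lit 192)))) (PT.nd (nat_lit 156) (PT.nd (nat_lit 78) (PT.lf (nat_lit 1672) (nat_lit 6) (nat_lit 22) (nat_lit 5) (nat_lit 129) (nat_lit 190) (nat_lit 191)) (PT.lf (nat_lit 1824) (nat_lit 3) (nat_lit 24) (nat_lit 4) (nat_lit 130) (nat_lit 190) (nat_lit 190))) (PT.nd (nat_lit 78) (PT.lf (nat_lit 1900) (nat_lit 6) (nat_lit 25) (nat_lit 4) (nat_lit 131) (nat_lit 190) (nat_lit 189)) (PT.lf (nat_lit 1976) (nat_lit 6) (nat_lit 26) (nat_lit 4) (nat_lit 132) (nat_lit 190) (nat_lit 188)))))) (PT.nd (nat_lit 48438) (PT.nd (nat_lit 234) (PT.nd (nat_lit 78) (PT.lf (nat_lit 1976) (nat_lit 6) (nat_lit 26) (nat_lit 2) (nat_lit 188) (nat_lit 190) (nat_lit 132)) (PT.nd (nat_lit 78) (PT.lf (nat_lit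 1900) (nat_lit 6) (nat_lit 25) (nat_lit 2) (nat_lit 189) (nat_lit 190) (nat_lit 131)) (PT.lf (nat_lit 1824) (nat_lit 3) (nat_lit 24) (nat_lit 0) (nat_lit 190) (nat_lit 190) (nat_lit 130)))) (PT.nd (nat_lit 48048) (PT.nd (nat_lit 78) (PT.lf (nat_lit 1672) (nat_lit 6) (nat_lit 22) (nat_lit 0) (nat_lit 191) (nat_lit 190) (nat_lit 129)) (PT.lf (nat_lit 1520) (nat_lit 6) (nat_lit 20) (nat_lit 0) (nat_lit 192) (nat_lit 190) (nat_lit 128))) (PT.nd (nat_lit 78) (PT.lf (nat_lit 1292) (nat_lit 6) (nat_lit 17) (nat_lit 5) (nat_lit 126) (nat_lit 191) (nat_lit 193)) (PT.lf (nat_lit 1444) (nat_lit 6) (nat_lit 19) (nat_lit 5) (nat_lit 127) (nat_lit 191) (nat_lit 192))))) (PT.nd (nat_lit 4836) (PT.nd (nat_lit 156) (PT.nd (nat_lit 78) (PT.lf (nat_lit 1596) (nat_lit 3) (nat_lit 21) (nat_lit 4) (nat_lit 128) (nat_lit 191) (nat_lit 191)) (PT.lf (nat_lit 1672) (nat_lit 6) (nat_lit 22) (nat_lit 4) (nat_lit 129) (nat_lit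 191) (nat_lit 190))) (PT.nd (nat_lit 4602) (PT.lf (nat_lit 1748) (nat_lit 6) (nat_lit 23) (nat_lit 4) (nat_lit 130) (nat_lit 191) (nat_lit 189)) (PT.lf (nat_lit 1748) (nat_lit 6) (nat_lit 23) (nat_lit 2) (nat_lit 189) (nat_lit 191) (nat_lit 130)))) (PT.nd (nat_lit 156) (PT.nd (nat_lit 78) (PT.lf (nat_lit 1672) (nat_lit 6) (nat_lit 22) (nat_lit 2) (nat_lit 190) (nat_lit 191) (nat_lit 129)) (PT.lf (nat_lit 1596) (nat_lit 3) (nat_lit 21) (nat_lit 0) (nat_lit 191) (nat_lit 191) (nat_lit 128))) (PT.nd (nat_lit 78) (PT.lf (nat_lit 1444) (nat_lit 6) (nat_lit 19) (nat_lit 0) (nat_lit 192) (nat_lit 191) (nat_lit 127)) (PT.lf (nat_lit 1292) (nat_lit 6) (nat_lit 17) (nat_lit 0) (nat_lit 193) (nat_lit 191) (nat_lit 126))))))))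
noncomputable def pc15 : PT := (PT.nd (nat_lit 111852) (PT.nd (nat_lit 53274) (PT.nd (nat_lit 5304) (PT.nd (nat_lit 234) (PT.nd (nat_lit 78) (PT.lf (nat_lit 1064) (nat_lit 6) (nat_lit 14) (nat_lit 5) (nat_lit 124) (nat_lit 192) (nat_lit 194)) (PT.nd (nat_lit 78) (PT.lf (nat_lit 1216) (nat_lit 6) (nat_lit 16) (nat_lit 5) (nat_lit 125) (nat_lit 192) (nat_lit 193)) (PT.lf (nat_lit 1368) (nat_lit 3) (nat_lit 18) (nat_lit 4) (nat_lit 126) (nat_lit 192) (nat_lit 192)))) (PT.nd (nat_lit 4914) (PT.nd (nat_lit 78) (PT.lf (nat_lit 1444) (nat_lit 6) (nat_lit 19) (nat_lit 4) (nat_lit 127) (nat_lit 192) (nat_lit 191)) (PT.lf (nat_lit 1520) (nat_lit 6) (nat_lit 20) (nat_lit 4) (nat_lit 128) (nat_lit 192) (nat_lit 190))) (PT.nd (nat_lit 78) (PT.lf (nat_lit 1520) (nat_lit 6) (nat_lit 20) (nat_lit 2) (nat_lit 190) (nat_lit 192) (nat_lit 128)) (PT.lf (nat_lit 1444) (nat_lit 6) (nat_lit 19) (nat_lit 2) (nat_lit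 191) (nat_lit 192) (nat_lit 127))))) (PT.nd (nat_lit 47658) (PT.nd (nat_lit 78) (PT.lf (nat_lit 1368) (nat_lit 3) (nat_lit 18) (nat_lit 0) (nat_lit 192) (nat_lit 192) (nat_lit 126)) (PT.nd (nat_lit 78) (PT.lf (nat_lit 1216) (nat_lit 6) (nat_lit 16) (nat_lit 0) (nat_lit 193) (nat_lit 192) (nat_lit 125)) (PT.lf (nat_lit 1064) (nat_lit 6) (nat_lit 14) (nat_lit 0) (nat_lit 194) (nat_lit 192) (nat_lit 124)))) (PT.nd (nat_lit 156) (PT.nd (nat_lit 78) (PT.lf (nat_lit 836) (nat_lit 6) (nat_lit 11) (nat_lit 5) (nat_lit 122) (nat_lit 193) (nat_lit 195)) (PT.lf (nat_lit 988) (nat_lit 6) (nat_lit 13) (nat_lit 5) (nat_lit 123) (nat_lit 193) (nat_lit 194))) (PT.nd (nat_lit 78) (PT.lf (nat_lit 1140) (nat_lit 3) (nat_lit 15) (nat_lit 4) (nat_lit 124) (nat_lit 193) (nat_lit 193)) (PT.lf (nat_lit 1216) (nat_lit 6) (nat_lit 16) (nat_lit 4) (nat_lit 125) (nat_lit 193) (nat_lit 192)))))) (PT.nd (nat_lit 52728) (PT.nd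 (nat_lit 5226) (PT.nd (nat_lit 5070) (PT.lf (nat_lit 1292) (nat_lit 6) (nat_lit 17) (nat_lit 4) (nat_lit 126) (nat_lit 193) (nat_lit 191)) (PT.nd (nat_lit 78) (PT.lf (nat_lit 1292) (nat_lit 6) (nat_lit 17) (nat_lit 2) (nat_lit 191) (nat_lit 193) (nat_lit 126)) (PT.lf (nat_lit 1216) (nat_lit 6) (nat_lit 16) (nat_lit 2) (nat_lit 192) (nat_lit 193) (nat_lit 125)))) (PT.nd (nat_lit 156) (PT.nd (nat_lit 78) (PT.lf (nat_lit 1140) (nat_lit 3) (nat_lit 15) (nat_lit 0) (nat_lit 193) (nat_lit 193) (nat_lit 124)) (PT.lf (nat_lit 988) (nat_lit 6) (nat_lit 13) (nat_lit 0) (nat_lit 194) (nat_lit 193) (nat_lit 123))) (PT.nd (nat_lit 47268) (PT.lf (nat_lit 836) (nat_lit 6) (nat_lit 11) (nat_lit 0) (nat_lit 195) (nat_lit 193) (nat_lit 122)) (PT.lf (nat_lit 608) (nat_lit 6) (nat_lit 8) (nat_lit 5) (nat_lit 120) (nat_lit 194) (nat_lit 196))))) (PT.nd (nat_lit 5538) (PT.nd (nat_lit 156) (PT.nd (nat_lit 78) (PT.lf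 (nat_lit 760) (nat_lit 6) (nat_lit 10) (nat_lit 5) (nat_lit 121) (nat_lit 194) (nat_lit 195)) (PT.lf (nat_lit 912) (nat_lit 3) (nat_lit 12) (nat_lit 4) (nat_lit 122) (nat_lit 194) (nat_lit 194))) (PT.nd (nat_lit 78) (PT.lf (nat_lit 988) (nat_lit 6) (nat_lit 13) (nat_lit 4) (nat_lit 123) (nat_lit 194) (nat_lit 193)) (PT.lf (nat_lit 1064) (nat_lit 6) (nat_lit 14) (nat_lit 4) (nat_lit 124) (nat_lit 194) (nat_lit 192)))) (PT.nd (nat_lit 156) (PT.nd (nat_lit 78) (PT.lf (nat_lit 1064) (nat_lit 6) (nat_lit 14) (nat_lit 2) (nat_lit 192) (nat_lit 194) (nat_lit 124)) (PT.lf (nat_lit 988) (nat_lit 6) (nat_lit 13) (nat_lit 2) (nat_lit 193) (nat_lit 194) (nat_lit 123))) (PT.nd (nat_lit 78) (PT.lf (nat_lit 912) (nat_lit 3) (nat_lit 12) (nat_lit 0) (nat_lit 194) (nat_lit 194) (nat_lit 122)) (PT.lf (nat_lit 760) (nat_lit 6) (nat_lit 10) (nat_lit 0) (nat_lit 195) (nat_lit 194) (nat_lit 121))))))) (PT.nd (nat_lit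 100308) (PT.nd (nat_lit 52962) (PT.nd (nat_lit 47190) (PT.nd (nat_lit 47034) (PT.lf (nat_lit 608) (nat_lit 6) (nat_lit 8) (nat_lit 0) (nat_lit 196) (nat_lit 194) (nat_lit 120)) (PT.nd (nat_lit 78) (PT.lf (nat_lit 380) (nat_lit 6) (nat_lit 5) (nat_lit 5) (nat_lit 118) (nat_lit 195) (nat_lit 197)) (PT.lf (nat_lit 532) (nat_lit 6) (nat_lit 7) (nat_lit 5) (nat_lit 119) (nat_lit 195) (nat_lit 196)))) (PT.nd (nat_lit 156) (PT.nd (nat_lit 78) (PT.lf (nat_lit 684) (nat_lit 3) (nat_lit 9) (nat_lit 4) (nat_lit 120) (nat_lit 195) (nat_lit 195)) (PT.lf (nat_lit 760) (nat_lit 6) (nat_lit 10) (nat_lit 4) (nat_lit 121) (nat_lit 195) (nat_lit 194))) (PT.nd (nat_lit 5538) (PT.lf (nat_lit 836) (nat_lit 6) (nat_lit 11) (nat_lit 4) (nat_lit 122) (nat_lit 195) (nat_lit 193)) (PT.lf (nat_lit 836) (nat_lit 6) (nat_lit 11) (nat_lit 2) (nat_lit 193) (nat_lit 195) (nat_lit 122))))) (PT.nd (nat_lit 234) (PT.nd (nat_lit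 78) (PT.lf (nat_lit 760) (nat_lit 6) (nat_lit 10) (nat_lit 2) (nat_lit 194) (nat_lit 195) (nat_lit 121)) (PT.nd (nat_lit 78) (PT.lf (nat_lit 684) (nat_lit 3) (nat_lit 9) (nat_lit 0) (nat_lit 195) (nat_lit 195) (nat_lit 120)) (PT.lf (nat_lit 532) (nat_lit 6) (nat_lit 7) (nat_lit 0) (nat_lit 196) (nat_lit 195) (nat_lit 119)))) (PT.nd (nat_lit 46956) (PT.nd (nat_lit 46878) (PT.lf (nat_lit 380) (nat_lit 6) (nat_lit 5) (nat_lit 0) (nat_lit 197) (nat_lit 195) (nat_lit 118)) (PT.lf (nat_lit 304) (nat_lit 6) (nat_lit 4) (nat_lit 5) (nat_lit 117) (nat_lit 196) (nat_lit 197))) (PT.nd (nat_lit 78) (PT.lf (nat_lit 456) (nat_lit 3) (nat_lit 6) (nat_lit 4) (nat_lit 118) (nat_lit 196) (nat_lit 196)) (PT.lf (nat_lit 532) (nat_lit 6) (nat_lit 7) (nat_lit 4) (nat_lit 119) (nat_lit 196) (nat_lit 195)))))) (PT.nd (nat_lit 52884) (PT.nd (nat_lit 5928) (PT.nd (nat_lit 5772) (PT.lf (nat_lit 608) (nat_lit 6) (nat_lit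 8) (nat_lit 4) (nat_lit 120) (nat_lit 196) (nat_lit 194)) (PT.nd (nat_lit 78) (PT.lf (nat_lit 608) (nat_lit 6) (nat_lit 8) (nat_lit 2) (nat_lit 194) (nat_lit 196) (nat_lit 120)) (PT.lf (nat_lit 532) (nat_lit 6) (nat_lit 7) (nat_lit 2) (nat_lit 195) (nat_lit 196) (nat_lit 119)))) (PT.nd (nat_lit 46800) (PT.nd (nat_lit 78) (PT.lf (nat_lit 456) (nat_lit 3) (nat_lit 6) (nat_lit 0) (nat_lit 196) (nat_lit 196) (nat_lit 118)) (PT.lf (nat_lit 304) (nat_lit 6) (nat_lit 4) (nat_lit 0) (nat_lit 197) (nat_lit 196) (nat_lit 117))) (PT.nd (nat_lit 78) (PT.lf (nat_lit 76) (nat_lit 6) (nat_lit 1) (nat_lit 5) (nat_lit 115) (nat_lit 197) (nat_lit 198)) (PT.lf (nat_lit 228) (nat_lit 3) (nat_lit 3) (nat_lit 4) (nat_lit 116) (nat_lit 197) (nat_lit 197))))) (PT.nd (nat_lit 6240) (PT.nd (nat_lit 6084) (PT.nd (nat_lit 78) (PT.lf (nat_lit 304) (nat_lit 6) (nat_lit 4) (nat_lit 4) (nat_lit 117) (nat_lit 197) (nat_lit 196))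 (PT.lf (nat_lit 380) (nat_lit 6) (nat_lit 5) (nat_lit 4) (nat_lit 118) (nat_lit 197) (nat_lit 195))) (PT.nd (nat_lit 78) (PT.lf (nat_lit 380) (nat_lit 6) (nat_lit 5) (nat_lit 2) (nat_lit 195) (nat_lit 197) (nat_lit 118)) (PT.lf (nat_lit 304) (nat_lit 6) (nat_lit 4) (nat_lit 2) (nat_lit 196) (nat_lit 197) (nat_lit 117)))) (PT.nd (nat_lit 46722) (PT.nd (nat_lit 78) (PT.lf (nat_lit 228) (nat_lit 3) (nat_lit 3) (nat_lit 0) (nat_lit 197) (nat_lit 197) (nat_lit 116)) (PT.lf (nat_lit 76) (nat_lit 6) (nat_lit 1) (nat_lit 0) (nat_lit 198) (nat_lit 197) (nat_lit 115))) (PT.nd (nat_lit 6396) (PT.lf (nat_lit 76) (nat_lit 6) (nat_lit 1) (nat_lit 4) (nat_lit 115) (nat_lit 198) (nat_lit 197)) (PT.lf (nat_lit 76) (nat_lit 6) (nat_lit 1) (nat_lit 2) (nat_lit 197) (nat_lit 198) (nat_lit 115))))))))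
noncomputable def xc0 : XT := (XT.nd (nat_lit 211848) (nat_lit 0) (nat_lit 0) (XT.nd (nat_lit 106236) (nat_lit 0) (nat_lit 0) (XT.nd (nat_lit 53196) (nat_lit 0) (nat_lit 0) (XT.nd (nat_lit 52962) (nat_lit 0) (nat_lit 0) (XT.nd (nat_lit 78) (nat_lit 0) (nat_lit 0) (XT.lf (nat_lit 0) (nat_lit 7483769814) (nat_lit 152) (nat_lit 31883170106) (nat_lit 0) (nat_lit 7483769814) (nat_lit 3) (nat_lit 5) (nat_lit 5) (nat_lit 4) (nat_lit 3) (nat_lit 4) (nat_lit 436) (nat_lit 292) (nat_lit 292)) (XT.nd (nat_lit 78) (nat_lit 0) (nat_lit 0) (XT.lf (nat_lit 0) (nat_lit 22629774642) (nat_lit 152) (nat_lit 53045474969) (nat_lit 0) (nat_lit 22499497215) (nat_lit 3) (nat_lit 5) (nat_lit 5) (nat_lit 4) (nat_lit 3) (nat_lit 4) (nat_lit 437) (nat_lit 292) (nat_lit 291)) (XT.lf (nat_lit 0) (nat_lit 30453096352) (nat_lit 152) (nat_lit 42226566825) (nat_lit 0) (nat_lit 30198745185) (nat_lit 3) (nat_lit 5) (nat_lit 5)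 (nat_lit 4) (nat_lit 3) (nat_lit 4) (nat_lit 438) (nat_lit 292) (nat_lit 290)))) (XT.nd (nat_lit 78) (nat_lit 0) (nat_lit 0) (XT.lf (nat_lit 0) (nat_lit 154946788) (nat_lit 152) (nat_lit 42390157045) (nat_lit 0) (nat_lit 154946788) (nat_lit 3) (nat_lit 5) (nat_lit 5) (nat_lit 4) (nat_lit 3) (nat_lit 4) (nat_lit 434) (nat_lit 293) (nat_lit 293)) (XT.nd (nat_lit 78) (nat_lit 0) (nat_lit 0) (XT.lf (nat_lit 0) (nat_lit 7584939190) (nat_lit 152) (nat_lit 74414688428) (nat_lit 0) (nat_lit 7448147892) (nat_lit 3) (nat_lit 5) (nat_lit 5) (nat_lit 4) (nat_lit 3) (nat_lit 4) (nat_lit 435) (nat_lit 293) (nat_lit 292)) (XT.lf (nat_lit 0) (nat_lit 14990610776) (nat_lit 152) (nat_lit 63990681863) (nat_lit 0) (nat_lit 14723542050) (nat_lit 3) (nat_lit 5) (nat_lit 5) (nat_lit 4) (nat_lit 3) (nat_lit 4) (nat_lit 436) (nat_lit 293) (nat_lit 291))))) (XT.nd (nat_lit 52806) (nat_lit 0) (nat_lit 0) (XT.nd (nat_lit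 78) (nat_lit 0) (nat_lit 0) (XT.lf (nat_lit 0) (nat_lit 22544540885) (nat_lit 152) (nat_lit 53483475332) (nat_lit 0) (nat_lit 22153398419) (nat_lit 3) (nat_lit 5) (nat_lit 5) (nat_lit 4) (nat_lit 3) (nat_lit 4) (nat_lit 437) (nat_lit 293) (nat_lit 290)) (XT.nd (nat_lit 52650) (nat_lit 0) (nat_lit 152) (XT.lf (nat_lit 0) (nat_lit 30264715066) (nat_lit 152) (nat_lit 42868051677) (nat_lit 0) (nat_lit 29755407133) (nat_lit 3) (nat_lit 5) (nat_lit 5) (nat_lit 4) (nat_lit 3) (nat_lit 4) (nat_lit 438) (nat_lit 293) (nat_lit 289)) (XT.lf (nat_lit 0) (nat_lit 25423101097) (nat_lit 76) (nat_lit 6757260817) (nat_lit 76) (nat_lit 6757260817) (nat_lit 5) (nat_lit 4) (nat_lit 6) (nat_lit 5) (nat_lit 6) (nat_lit 4) (nat_lit 432) (nat_lit 294) (nat_lit 294)))) (XT.nd (nat_lit 78) (nat_lit 152) (nat_lit 0) (XT.lf (nat_lit 0) (nat_lit 68117191695) (nat_lit 76) (nat_lit 6787531161) (nat_lit 76) (nat_lit 6639591371)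 (nat_lit 5) (nat_lit 4) (nat_lit 6) (nat_lit 5) (nat_lit 6) (nat_lit 4) (nat_lit 433) (nat_lit 294) (nat_lit 293)) (XT.nd (nat_lit 78) (nat_lit 0) (nat_lit 0) (XT.lf (nat_lit 0) (nat_lit 334118282) (nat_lit 152) (nat_lit 85015872823) (nat_lit 0) (nat_lit 53696120) (nat_lit 3) (nat_lit 5) (nat_lit 5) (nat_lit 4) (nat_lit 3) (nat_lit 4) (nat_lit 434) (nat_lit 294) (nat_lit 292)) (XT.lf (nat_lit 0) (nat_lit 7495443745) (nat_lit 152) (nat_lit 74874588809) (nat_lit 0) (nat_lit 7084744156) (nat_lit 3) (nat_lit 5) (nat_lit 5) (nat_lit 4) (nat_lit 3) (nat_lit 4) (nat_lit 435) (nat_lit 294) (nat_lit 291)))))) (XT.nd (nat_lit 52884) (nat_lit 0) (nat_lit 0) (XT.nd (nat_lit 52650) (nat_lit 0) (nat_lit 152) (XT.nd (nat_lit 78) (nat_lit 0) (nat_lit 0) (XT.lf (nat_lit 0) (nat_lit 14792810425) (nat_lit 152) (nat_lit 64664240957) (nat_lit 0) (nat_lit 14258037096) (nat_lit 3) (nat_lit 5) (nat_lit 5) (nat_lit 4)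 (nat_lit 3) (nat_lit 4) (nat_lit 436) (nat_lit 294) (nat_lit 290)) (XT.nd (nat_lit 78) (nat_lit 0) (nat_lit 0) (XT.lf (nat_lit 0) (nat_lit 22243593006) (nat_lit 152) (nat_lit 54360518915) (nat_lit 0) (nat_lit 21590654210) (nat_lit 3) (nat_lit 5) (nat_lit 5) (nat_lit 4) (nat_lit 3) (nat_lit 4) (nat_lit 437) (nat_lit 294) (nat_lit 289)) (XT.lf (nat_lit 0) (nat_lit 29865531445) (nat_lit 152) (nat_lit 43938890012) (nat_lit 0) (nat_lit 29100054109) (nat_lit 3) (nat_lit 5) (nat_lit 5) (nat_lit 4) (nat_lit 3) (nat_lit 4) (nat_lit 438) (nat_lit 294) (nat_lit 288)))) (XT.nd (nat_lit 78) (nat_lit 0) (nat_lit 0) (XT.lf (nat_lit 0) (nat_lit 8794629078) (nat_lit 76) (nat_lit 13370280235) (nat_lit 76) (nat_lit 13370280235) (nat_lit 5) (nat_lit 4) (nat_lit 6) (nat_lit 5) (nat_lit 6) (nat_lit 4) (nat_lit 430) (nat_lit 295) (nat_lit 295)) (XT.nd (nat_lit 78) (nat_lit 0) (nat_lit 0) (XT.lf (nat_lit 0) (nat_lit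 33933834425) (nat_lit 76) (nat_lit 20304736110) (nat_lit 76) (nat_lit 20149399331) (nat_lit 5) (nat_lit 4) (nat_lit 6) (nat_lit 5) (nat_lit 6) (nat_lit 4) (nat_lit 431) (nat_lit 295) (nat_lit 294)) (XT.lf (nat_lit 0) (nat_lit 50608642849) (nat_lit 76) (nat_lit 13786751636) (nat_lit 76) (nat_lit 13483475068) (nat_lit 5) (nat_lit 4) (nat_lit 6) (nat_lit 5) (nat_lit 6) (nat_lit 4) (nat_lit 432) (nat_lit 295) (nat_lit 293))))) (XT.nd (nat_lit 234) (nat_lit 0) (nat_lit 0) (XT.nd (nat_lit 78) (nat_lit 152) (nat_lit 0) (XT.lf (nat_lit 0) (nat_lit 67653385355) (nat_lit 76) (nat_lit 7171088040) (nat_lit 76) (nat_lit 6726916434) (nat_lit 5) (nat_lit 4) (nat_lit 6) (nat_lit 5) (nat_lit 6) (nat_lit 4) (nat_lit 433) (nat_lit 295) (nat_lit 292)) (XT.nd (nat_lit 78) (nat_lit 76) (nat_lit 0) (XT.lf (nat_lit 0) (nat_lit 133702669) (nat_lit 152) (nat_lit 306940936) (nat_lit 76) (nat_lit 84973591857) (nat_lit 4)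 (nat_lit 5) (nat_lit 6) (nat_lit 5) (nat_lit 5) (nat_lit 4) (nat_lit 434) (nat_lit 295) (nat_lit 291)) (XT.lf (nat_lit 0) (nat_lit 7179448472) (nat_lit 152) (nat_lit 75795484572) (nat_lit 0) (nat_lit 6493862736) (nat_lit 3) (nat_lit 5) (nat_lit 5) (nat_lit 4) (nat_lit 3) (nat_lit 4) (nat_lit 435) (nat_lit 295) (nat_lit 290)))) (XT.nd (nat_lit 78) (nat_lit 0) (nat_lit 0) (XT.lf (nat_lit 0) (nat_lit 14373667624) (nat_lit 152) (nat_lit 65788621209) (nat_lit 0) (nat_lit 13569916421) (nat_lit 3) (nat_lit 5) (nat_lit 5) (nat_lit 4) (nat_lit 3) (nat_lit 4) (nat_lit 436) (nat_lit 295) (nat_lit 289)) (XT.nd (nat_lit 78) (nat_lit 0) (nat_lit 0) (XT.lf (nat_lit 0) (nat_lit 21726214462) (nat_lit 152) (nat_lit 55678693919) (nat_lit 0) (nat_lit 20809924720) (nat_lit 3) (nat_lit 5) (nat_lit 5) (nat_lit 4) (nat_lit 3) (nat_lit 4) (nat_lit 437) (nat_lit 295) (nat_lit 288)) (XT.lf (nat_lit 0) (nat_lit 29254595052)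 (nat_lit 152) (nat_lit 45441631446) (nat_lit 0) (nat_lit 28231125748) (nat_lit 3) (nat_lit 5) (nat_lit 5) (nat_lit 4) (nat_lit 3) (nat_lit 4) (nat_lit 438) (nat_lit 295) (nat_lit 287))))))) (XT.nd (nat_lit 53040) (nat_lit 0) (nat_lit 0) (XT.nd (nat_lit 468) (nat_lit 152) (nat_lit 0) (XT.nd (nat_lit 234) (nat_lit 0) (nat_lit 0) (XT.nd (nat_lit 78) (nat_lit 76) (nat_lit 0) (XT.lf (nat_lit 0) (nat_lit 12796716320) (nat_lit 152) (nat_lit 6864511635) (nat_lit 0) (nat_lit 12796716320) (nat_lit 6) (nat_lit 5) (nat_lit 8) (nat_lit 4) (nat_lit 6) (nat_lit 4) (nat_lit 428) (nat_lit 296) (nat_lit 296)) (XT.nd (nat_lit 78) (nat_lit 0) (nat_lit 0) (XT.lf (nat_lit 0) (nat_lit 1535998387) (nat_lit 76) (nat_lit 33272651728) (nat_lit 76) (nat_lit 33109548110) (nat_lit 5) (nat_lit 4) (nat_lit 6) (nat_lit 5) (nat_lit 6) (nat_lit 4) (nat_lit 429) (nat_lit 296) (nat_lit 295)) (XT.lf (nat_lit 0) (nat_lit 17339820844)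 (nat_lit 76) (nat_lit 27026401972) (nat_lit 76) (nat_lit 26707961575) (nat_lit 5) (nat_lit 4) (nat_lit 6) (nat_lit 5) (nat_lit 6) (nat_lit 4) (nat_lit 430) (nat_lit 296) (nat_lit 294)))) (XT.nd (nat_lit 78) (nat_lit 0) (nat_lit 0) (XT.lf (nat_lit 0) (nat_lit 33446837768) (nat_lit 76) (nat_lit 20707470833) (nat_lit 76) (nat_lit 20241090647) (nat_lit 5) (nat_lit 4) (nat_lit 6) (nat_lit 5) (nat_lit 6) (nat_lit 4) (nat_lit 431) (nat_lit 296) (nat_lit 293)) (XT.nd (nat_lit 78) (nat_lit 0) (nat_lit 0) (XT.lf (nat_lit 0) (nat_lit 49895399197) (nat_lit 76) (nat_lit 14300813238) (nat_lit 76) (nat_lit 13693538015) (nat_lit 5) (nat_lit 4) (nat_lit 6) (nat_lit 5) (nat_lit 6) (nat_lit 4) (nat_lit 432) (nat_lit 296) (nat_lit 292)) (XT.lf (nat_lit 0) (nat_lit 66724668373) (nat_lit 76) (nat_lit 7791175240) (nat_lit 76) (nat_lit 7049714267) (nat_lit 5) (nat_lit 4) (nat_lit 6) (nat_lit 5) (nat_lit 6) (nat_lit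 4) (nat_lit 433) (nat_lit 296) (nat_lit 291))))) (XT.nd (nat_lit 234) (nat_lit 0) (nat_lit 0) (XT.nd (nat_lit 78) (nat_lit 152) (nat_lit 0) (XT.lf (nat_lit 0) (nat_lit 83974714986) (nat_lit 76) (nat_lit 1163057701) (nat_lit 76) (nat_lit 293800775) (nat_lit 5) (nat_lit 4) (nat_lit 6) (nat_lit 5) (nat_lit 6) (nat_lit 4) (nat_lit 434) (nat_lit 296) (nat_lit 290)) (XT.nd (nat_lit 78) (nat_lit 0) (nat_lit 0) (XT.lf (nat_lit 0) (nat_lit 6636201001) (nat_lit 152) (nat_lit 77179568326) (nat_lit 0) (nat_lit 5674096771) (nat_lit 3) (nat_lit 5) (nat_lit 5) (nat_lit 4) (nat_lit 3) (nat_lit 4) (nat_lit 435) (nat_lit 296) (nat_lit 289)) (XT.lf (nat_lit 0) (nat_lit 13732184411) (nat_lit 152) (nat_lit 67366499715) (nat_lit 0) (nat_lit 12657541642) (nat_lit 3) (nat_lit 5) (nat_lit 5) (nat_lit 4) (nat_lit 3) (nat_lit 4) (nat_lit 436) (nat_lit 296) (nat_lit 288)))) (XT.nd (nat_lit 78) (nat_lit 0) (nat_lit 0) (XT.lf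 (nat_lit 0) (nat_lit 20991173400) (nat_lit 152) (nat_lit 57441138855) (nat_lit 0) (nat_lit 19809351069) (nat_lit 3) (nat_lit 5) (nat_lit 5) (nat_lit 4) (nat_lit 3) (nat_lit 4) (nat_lit 437) (nat_lit 296) (nat_lit 287)) (XT.nd (nat_lit 52182) (nat_lit 0) (nat_lit 228) (XT.lf (nat_lit 0) (nat_lit 28430451277) (nat_lit 152) (nat_lit 47379853934) (nat_lit 0) (nat_lit 27146553173) (nat_lit 3) (nat_lit 5) (nat_lit 5) (nat_lit 4) (nat_lit 3) (nat_lit 4) (nat_lit 438) (nat_lit 296) (nat_lit 286)) (XT.lf (nat_lit 0) (nat_lit 4014627294) (nat_lit 152) (nat_lit 21646446090) (nat_lit 0) (nat_lit 4014627294) (nat_lit 6) (nat_lit 5) (nat_lit 8) (nat_lit 4) (nat_lit 6) (nat_lit 4) (nat_lit 426) (nat_lit 297) (nat_lit 297)))))) (XT.nd (nat_lit 468) (nat_lit 152) (nat_lit 0) (XT.nd (nat_lit 234) (nat_lit 0) (nat_lit 0) (XT.nd (nat_lit 78) (nat_lit 76) (nat_lit 0) (XT.lf (nat_lit 0) (nat_lit 16747537251) (nat_lit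 152) (nat_lit 28739961831) (nat_lit 0) (nat_lit 16576278452) (nat_lit 6) (nat_lit 5) (nat_lit 8) (nat_lit 4) (nat_lit 6) (nat_lit 4) (nat_lit 427) (nat_lit 297) (nat_lit 296)) (XT.nd (nat_lit 78) (nat_lit 76) (nat_lit 0) (XT.lf (nat_lit 0) (nat_lit 25634174669) (nat_lit 152) (nat_lit 13985821657) (nat_lit 0) (nat_lit 25299812253) (nat_lit 6) (nat_lit 5) (nat_lit 8) (nat_lit 4) (nat_lit 6) (nat_lit 4) (nat_lit 428) (nat_lit 297) (nat_lit 295)) (XT.lf (nat_lit 0) (nat_lit 1024651897) (nat_lit 76) (nat_lit 33695523188) (nat_lit 76) (nat_lit 33205823993) (nat_lit 5) (nat_lit 4) (nat_lit 6) (nat_lit 5) (nat_lit 6) (nat_lit 4) (nat_lit 429) (nat_lit 297) (nat_lit 294)))) (XT.nd (nat_lit 78) (nat_lit 0) (nat_lit 0) (XT.lf (nat_lit 0) (nat_lit 16590915009) (nat_lit 76) (nat_lit 27566166653) (nat_lit 76) (nat_lit 26928527669) (nat_lit 5) (nat_lit 4) (nat_lit 6) (nat_lit 5) (nat_lit 6) (nat_lit 4) (nat_lit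 430) (nat_lit 297) (nat_lit 293)) (XT.nd (nat_lit 78) (nat_lit 0) (nat_lit 0) (XT.lf (nat_lit 0) (nat_lit 32471684937) (nat_lit 76) (nat_lit 21358562393) (nat_lit 76) (nat_lit 20580028371) (nat_lit 5) (nat_lit 4) (nat_lit 6) (nat_lit 5) (nat_lit 6) (nat_lit 4) (nat_lit 431) (nat_lit 297) (nat_lit 292)) (XT.lf (nat_lit 0) (nat_lit 48704773038) (nat_lit 76) (nat_lit 15057930396) (nat_lit 76) (nat_lit 14145210625) (nat_lit 5) (nat_lit 4) (nat_lit 6) (nat_lit 5) (nat_lit 6) (nat_lit 4) (nat_lit 432) (nat_lit 297) (nat_lit 291))))) (XT.nd (nat_lit 234) (nat_lit 0) (nat_lit 0) (XT.nd (nat_lit 78) (nat_lit 152) (nat_lit 0) (XT.lf (nat_lit 0) (nat_lit 65328829520) (nat_lit 76) (nat_lit 8649269159) (nat_lit 76) (nat_lit 7608753434) (nat_lit 5) (nat_lit 4) (nat_lit 6) (nat_lit 5) (nat_lit 6) (nat_lit 4) (nat_lit 433) (nat_lit 297) (nat_lit 290)) (XT.nd (nat_lit 78) (nat_lit 152) (nat_lit 0) (XT.lf (nat_lit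 0) (nat_lit 82383435472) (nat_lit 76) (nat_lit 2117319963) (nat_lit 76) (nat_lit 955093808) (nat_lit 5) (nat_lit 4) (nat_lit 6) (nat_lit 5) (nat_lit 6) (nat_lit 4) (nat_lit 434) (nat_lit 297) (nat_lit 289)) (XT.lf (nat_lit 0) (nat_lit 5864407886) (nat_lit 152) (nat_lit 79030135508) (nat_lit 0) (nat_lit 4623494438) (nat_lit 3) (nat_lit 5) (nat_lit 5) (nat_lit 4) (nat_lit 3) (nat_lit 4) (nat_lit 435) (nat_lit 297) (nat_lit 288)))) (XT.nd (nat_lit 156) (nat_lit 0) (nat_lit 0) (XT.nd (nat_lit 78) (nat_lit 0) (nat_lit 0) (XT.lf (nat_lit 0) (nat_lit 12866833447) (nat_lit 152) (nat_lit 69401633327) (nat_lit 0) (nat_lit 11518740437) (nat_lit 3) (nat_lit 5) (nat_lit 5) (nat_lit 4) (nat_lit 3) (nat_lit 4) (nat_lit 436) (nat_lit 297) (nat_lit 287)) (XT.lf (nat_lit 0) (nat_lit 20036719723) (nat_lit 152) (nat_lit 59652050019) (nat_lit 0) (nat_lit 18586550940) (nat_lit 3) (nat_lit 5) (nat_lit 5) (nat_lit 4)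 (nat_lit 3) (nat_lit 4) (nat_lit 437) (nat_lit 297) (nat_lit 286))) (XT.nd (nat_lit 52026) (nat_lit 0) (nat_lit 380) (XT.lf (nat_lit 0) (nat_lit 27391137872) (nat_lit 152) (nat_lit 49758172291) (nat_lit 0) (nat_lit 25843754067) (nat_lit 3) (nat_lit 5) (nat_lit 5) (nat_lit 4) (nat_lit 3) (nat_lit 4) (nat_lit 438) (nat_lit 297) (nat_lit 285)) (XT.lf (nat_lit 0) (nat_lit 18582576502) (nat_lit 76) (nat_lit 4288148004) (nat_lit 76) (nat_lit 4288148004) (nat_lit 8) (nat_lit 4) (nat_lit 9) (nat_lit 5) (nat_lit 9) (nat_lit 4) (nat_lit 424) (nat_lit 298) (nat_lit 298))))))))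
noncomputable def xc1 : XT := (XT.nd (nat_lit 53664) (nat_lit 0) (nat_lit 0) (XT.nd (nat_lit 936) (nat_lit 0) (nat_lit 0) (XT.nd (nat_lit 468) (nat_lit 152) (nat_lit 0) (XT.nd (nat_lit 234) (nat_lit 76) (nat_lit 0) (XT.nd (nat_lit 78) (nat_lit 152) (nat_lit 0) (XT.lf (nat_lit 0) (nat_lit 55881511364) (nat_lit 76) (nat_lit 539701788) (nat_lit 76) (nat_lit 354485397) (nat_lit 8) (nat_lit 4) (nat_lit 9) (nat_lit 5) (nat_lit 9) (nat_lit 4) (nat_lit 425) (nat_lit 298) (nat_lit 297)) (XT.nd (nat_lit 78) (nat_lit 0) (nat_lit 0) (XT.lf (nat_lit 0) (nat_lit 8072033720) (nat_lit 152) (nat_lit 43562530487) (nat_lit 0) (nat_lit 7720953183) (nat_lit 6) (nat_lit 5) (nat_lit 8) (nat_lit 4) (nat_lit 6) (nat_lit 4) (nat_lit 426) (nat_lit 298) (nat_lit 296)) (XT.lf (nat_lit 0) (nat_lit 16659799613) (nat_lit 152) (nat_lit 29266398524) (nat_lit 0) (nat_lit 16145615458) (nat_lit 6) (nat_lit 5) (nat_lit 8) (nat_lit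 4) (nat_lit 6) (nat_lit 4) (nat_lit 427) (nat_lit 298) (nat_lit 295)))) (XT.nd (nat_lit 78) (nat_lit 76) (nat_lit 0) (XT.lf (nat_lit 0) (nat_lit 25422135346) (nat_lit 152) (nat_lit 14756828241) (nat_lit 0) (nat_lit 24752614412) (nat_lit 6) (nat_lit 5) (nat_lit 8) (nat_lit 4) (nat_lit 6) (nat_lit 4) (nat_lit 428) (nat_lit 298) (nat_lit 294)) (XT.nd (nat_lit 78) (nat_lit 0) (nat_lit 0) (XT.lf (nat_lit 0) (nat_lit 741425) (nat_lit 76) (nat_lit 34379169326) (nat_lit 76) (nat_lit 33561708603) (nat_lit 5) (nat_lit 4) (nat_lit 6) (nat_lit 5) (nat_lit 6) (nat_lit 4) (nat_lit 429) (nat_lit 298) (nat_lit 293)) (XT.lf (nat_lit 0) (nat_lit 15340757542) (nat_lit 76) (nat_lit 28361139670) (nat_lit 76) (nat_lit 27402783909) (nat_lit 5) (nat_lit 4) (nat_lit 6) (nat_lit 5) (nat_lit 6) (nat_lit 4) (nat_lit 430) (nat_lit 298) (nat_lit 292))))) (XT.nd (nat_lit 234) (nat_lit 152) (nat_lit 0) (XT.nd (nat_lit 78) (nat_lit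 0) (nat_lit 0) (XT.lf (nat_lit 0) (nat_lit 31006054141) (nat_lit 76) (nat_lit 22259561008) (nat_lit 76) (nat_lit 21167019497) (nat_lit 5) (nat_lit 4) (nat_lit 6) (nat_lit 5) (nat_lit 6) (nat_lit 4) (nat_lit 431) (nat_lit 298) (nat_lit 291)) (XT.nd (nat_lit 78) (nat_lit 0) (nat_lit 0) (XT.lf (nat_lit 0) (nat_lit 47033929548) (nat_lit 76) (nat_lit 16059905771) (nat_lit 76) (nat_lit 14839568309) (nat_lit 5) (nat_lit 4) (nat_lit 6) (nat_lit 5) (nat_lit 6) (nat_lit 4) (nat_lit 432) (nat_lit 298) (nat_lit 290)) (XT.lf (nat_lit 0) (nat_lit 63462545369) (nat_lit 76) (nat_lit 9747412877) (nat_lit 76) (nat_lit 8405364983) (nat_lit 5) (nat_lit 4) (nat_lit 6) (nat_lit 5) (nat_lit 6) (nat_lit 4) (nat_lit 433) (nat_lit 298) (nat_lit 289)))) (XT.nd (nat_lit 78) (nat_lit 152) (nat_lit 0) (XT.lf (nat_lit 0) (nat_lit 80331017357) (nat_lit 76) (nat_lit 3307052579) (nat_lit 76) (nat_lit 1849089990) (nat_lit 5) (nat_lit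 4) (nat_lit 6) (nat_lit 5) (nat_lit 6) (nat_lit 4) (nat_lit 434) (nat_lit 298) (nat_lit 288)) (XT.nd (nat_lit 78) (nat_lit 0) (nat_lit 0) (XT.lf (nat_lit 0) (nat_lit 4862231524) (nat_lit 152) (nat_lit 81351592231) (nat_lit 0) (nat_lit 3339554303) (nat_lit 3) (nat_lit 5) (nat_lit 5) (nat_lit 4) (nat_lit 3) (nat_lit 4) (nat_lit 435) (nat_lit 298) (nat_lit 287)) (XT.lf (nat_lit 0) (nat_lit 11775554372) (nat_lit 152) (nat_lit 71898867602) (nat_lit 0) (nat_lit 10150801377) (nat_lit 3) (nat_lit 5) (nat_lit 5) (nat_lit 4) (nat_lit 3) (nat_lit 4) (nat_lit 436) (nat_lit 298) (nat_lit 286)))))) (XT.nd (nat_lit 52260) (nat_lit 0) (nat_lit 152) (XT.nd (nat_lit 52026) (nat_lit 0) (nat_lit 380) (XT.nd (nat_lit 78) (nat_lit 0) (nat_lit 0) (XT.lf (nat_lit 0) (nat_lit 18860580920) (nat_lit 152) (nat_lit 62316691487) (nat_lit 0) (nat_lit 17138612904) (nat_lit 3) (nat_lit 5) (nat_lit 5) (nat_lit 4) (nat_lit 3)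 (nat_lit 4) (nat_lit 437) (nat_lit 298) (nat_lit 285)) (XT.nd (nat_lit 51870) (nat_lit 0) (nat_lit 380) (XT.lf (nat_lit 0) (nat_lit 26134180281) (nat_lit 152) (nat_lit 52582249181) (nat_lit 0) (nat_lit 24319626530) (nat_lit 3) (nat_lit 5) (nat_lit 5) (nat_lit 4) (nat_lit 3) (nat_lit 4) (nat_lit 438) (nat_lit 298) (nat_lit 284)) (XT.lf (nat_lit 0) (nat_lit 527705815) (nat_lit 76) (nat_lit 12178001770) (nat_lit 76) (nat_lit 12178001770) (nat_lit 8) (nat_lit 4) (nat_lit 9) (nat_lit 5) (nat_lit 9) (nat_lit 4) (nat_lit 422) (nat_lit 299) (nat_lit 299)))) (XT.nd (nat_lit 78) (nat_lit 0) (nat_lit 0) (XT.lf (nat_lit 0) (nat_lit 18809187956) (nat_lit 76) (nat_lit 16685124245) (nat_lit 76) (nat_lit 16490647035) (nat_lit 8) (nat_lit 4) (nat_lit 9) (nat_lit 5) (nat_lit 9) (nat_lit 4) (nat_lit 423) (nat_lit 299) (nat_lit 298)) (XT.nd (nat_lit 78) (nat_lit 0) (nat_lit 0) (XT.lf (nat_lit 0) (nat_lit 36893248155)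 (nat_lit 76) (nat_lit 8904175344) (nat_lit 76) (nat_lit 8524481743) (nat_lit 8) (nat_lit 4) (nat_lit 9) (nat_lit 5) (nat_lit 9) (nat_lit 4) (nat_lit 424) (nat_lit 299) (nat_lit 297)) (XT.lf (nat_lit 0) (nat_lit 55350649514) (nat_lit 76) (nat_lit 994630768) (nat_lit 76) (nat_lit 438540604) (nat_lit 8) (nat_lit 4) (nat_lit 9) (nat_lit 5) (nat_lit 9) (nat_lit 4) (nat_lit 425) (nat_lit 299) (nat_lit 296))))) (XT.nd (nat_lit 234) (nat_lit 76) (nat_lit 0) (XT.nd (nat_lit 78) (nat_lit 0) (nat_lit 0) (XT.lf (nat_lit 0) (nat_lit 7849392431) (nat_lit 152) (nat_lit 44372087400) (nat_lit 0) (nat_lit 7146395451) (nat_lit 6) (nat_lit 5) (nat_lit 8) (nat_lit 4) (nat_lit 6) (nat_lit 4) (nat_lit 426) (nat_lit 299) (nat_lit 295)) (XT.nd (nat_lit 78) (nat_lit 0) (nat_lit 0) (XT.lf (nat_lit 0) (nat_lit 16312856639) (nat_lit 152) (nat_lit 30320525329) (nat_lit 0) (nat_lit 15454522879) (nat_lit 6) (nat_lit 5) (nat_lit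 8) (nat_lit 4) (nat_lit 6) (nat_lit 4) (nat_lit 427) (nat_lit 299) (nat_lit 294)) (XT.lf (nat_lit 0) (nat_lit 24956809815) (nat_lit 152) (nat_lit 16043878752) (nat_lit 0) (nat_lit 23950536266) (nat_lit 6) (nat_lit 5) (nat_lit 8) (nat_lit 4) (nat_lit 6) (nat_lit 4) (nat_lit 428) (nat_lit 299) (nat_lit 293)))) (XT.nd (nat_lit 78) (nat_lit 76) (nat_lit 0) (XT.lf (nat_lit 0) (nat_lit 33801832800) (nat_lit 152) (nat_lit 1508155655) (nat_lit 0) (nat_lit 32654664214) (nat_lit 6) (nat_lit 5) (nat_lit 8) (nat_lit 4) (nat_lit 6) (nat_lit 4) (nat_lit 429) (nat_lit 299) (nat_lit 292)) (XT.nd (nat_lit 78) (nat_lit 0) (nat_lit 0) (XT.lf (nat_lit 0) (nat_lit 13586371878) (nat_lit 76) (nat_lit 29413213814) (nat_lit 76) (nat_lit 28131859478) (nat_lit 5) (nat_lit 4) (nat_lit 6) (nat_lit 5) (nat_lit 6) (nat_lit 4) (nat_lit 430) (nat_lit 299) (nat_lit 291)) (XT.lf (nat_lit 0) (nat_lit 29046455783) (nat_lit 76) (nat_lit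 23412611912) (nat_lit 76) (nat_lit 22003461624) (nat_lit 5) (nat_lit 4) (nat_lit 6) (nat_lit 5) (nat_lit 6) (nat_lit 4) (nat_lit 431) (nat_lit 299) (nat_lit 290))))))) (XT.nd (nat_lit 52572) (nat_lit 0) (nat_lit 0) (XT.nd (nat_lit 468) (nat_lit 0) (nat_lit 0) (XT.nd (nat_lit 234) (nat_lit 152) (nat_lit 0) (XT.nd (nat_lit 78) (nat_lit 0) (nat_lit 0) (XT.lf (nat_lit 0) (nat_lit 44878890528) (nat_lit 76) (nat_lit 17309125019) (nat_lit 76) (nat_lit 15778264300) (nat_lit 5) (nat_lit 4) (nat_lit 6) (nat_lit 5) (nat_lit 6) (nat_lit 4) (nat_lit 432) (nat_lit 299) (nat_lit 289)) (XT.nd (nat_lit 78) (nat_lit 0) (nat_lit 0) (XT.lf (nat_lit 0) (nat_lit 61121372386) (nat_lit 76) (nat_lit 11088221023) (nat_lit 76) (nat_lit 9441445608) (nat_lit 5) (nat_lit 4) (nat_lit 6) (nat_lit 5) (nat_lit 6) (nat_lit 4) (nat_lit 433) (nat_lit 299) (nat_lit 288)) (XT.lf (nat_lit 0) (nat_lit 77812573934) (nat_lit 76) (nat_lit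 4735088247) (nat_lit 76) (nat_lit 2977917883) (nat_lit 5) (nat_lit 4) (nat_lit 6) (nat_lit 5) (nat_lit 6) (nat_lit 4) (nat_lit 434) (nat_lit 299) (nat_lit 287)))) (XT.nd (nat_lit 78) (nat_lit 0) (nat_lit 0) (XT.lf (nat_lit 0) (nat_lit 3627285782) (nat_lit 152) (nat_lit 84149465773) (nat_lit 0) (nat_lit 1819219364) (nat_lit 3) (nat_lit 5) (nat_lit 5) (nat_lit 4) (nat_lit 3) (nat_lit 4) (nat_lit 435) (nat_lit 299) (nat_lit 286)) (XT.nd (nat_lit 78) (nat_lit 0) (nat_lit 0) (XT.lf (nat_lit 0) (nat_lit 10455748902) (nat_lit 152) (nat_lit 74864148337) (nat_lit 0) (nat_lit 8550467462) (nat_lit 3) (nat_lit 5) (nat_lit 5) (nat_lit 4) (nat_lit 3) (nat_lit 4) (nat_lit 436) (nat_lit 299) (nat_lit 285)) (XT.lf (nat_lit 0) (nat_lit 17459956663) (nat_lit 152) (nat_lit 65441407644) (nat_lit 0) (nat_lit 15462089488) (nat_lit 3) (nat_lit 5) (nat_lit 5) (nat_lit 4) (nat_lit 3) (nat_lit 4) (nat_lit 437) (nat_lit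 299) (nat_lit 284))))) (XT.nd (nat_lit 51870) (nat_lit 0) (nat_lit 380) (XT.nd (nat_lit 51714) (nat_lit 0) (nat_lit 456) (XT.lf (nat_lit 0) (nat_lit 24656585750) (nat_lit 152) (nat_lit 55858808596) (nat_lit 0) (nat_lit 22570541684) (nat_lit 3) (nat_lit 5) (nat_lit 5) (nat_lit 4) (nat_lit 3) (nat_lit 4) (nat_lit 438) (nat_lit 299) (nat_lit 283)) (XT.nd (nat_lit 78) (nat_lit 0) (nat_lit 0) (XT.lf (nat_lit 0) (nat_lit 3243995653) (nat_lit 152) (nat_lit 16339762753) (nat_lit 0) (nat_lit 3243995653) (nat_lit 9) (nat_lit 5) (nat_lit 11) (nat_lit 4) (nat_lit 9) (nat_lit 4) (nat_lit 420) (nat_lit 300) (nat_lit 300)) (XT.lf (nat_lit 0) (nat_lit 15886672919) (nat_lit 152) (nat_lit 16090126648) (nat_lit 0) (nat_lit 15682471848) (nat_lit 9) (nat_lit 5) (nat_lit 11) (nat_lit 4) (nat_lit 9) (nat_lit 4) (nat_lit 421) (nat_lit 300) (nat_lit 299)))) (XT.nd (nat_lit 78) (nat_lit 0) (nat_lit 0) (XT.lf (nat_lit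 0) (nat_lit 769911537) (nat_lit 76) (nat_lit 24700276843) (nat_lit 76) (nat_lit 24301598562) (nat_lit 8) (nat_lit 4) (nat_lit 9) (nat_lit 5) (nat_lit 9) (nat_lit 4) (nat_lit 422) (nat_lit 300) (nat_lit 298)) (XT.nd (nat_lit 78) (nat_lit 0) (nat_lit 0) (XT.lf (nat_lit 0) (nat_lit 18251783013) (nat_lit 76) (nat_lit 17162799674) (nat_lit 76) (nat_lit 16578905003) (nat_lit 8) (nat_lit 4) (nat_lit 9) (nat_lit 5) (nat_lit 9) (nat_lit 4) (nat_lit 423) (nat_lit 300) (nat_lit 297)) (XT.lf (nat_lit 0) (nat_lit 36076886212) (nat_lit 76) (nat_lit 9508900417) (nat_lit 76) (nat_lit 8748609183) (nat_lit 8) (nat_lit 4) (nat_lit 9) (nat_lit 5) (nat_lit 9) (nat_lit 4) (nat_lit 424) (nat_lit 300) (nat_lit 296)))))) (XT.nd (nat_lit 468) (nat_lit 152) (nat_lit 0) (XT.nd (nat_lit 234) (nat_lit 76) (nat_lit 0) (XT.nd (nat_lit 78) (nat_lit 152) (nat_lit 0) (XT.lf (nat_lit 0) (nat_lit 54287661857) (nat_lit 76) (nat_lit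 1720355501) (nat_lit 76) (nat_lit 792067541) (nat_lit 8) (nat_lit 4) (nat_lit 9) (nat_lit 5) (nat_lit 9) (nat_lit 4) (nat_lit 425) (nat_lit 300) (nat_lit 295)) (XT.nd (nat_lit 78) (nat_lit 0) (nat_lit 0) (XT.lf (nat_lit 0) (nat_lit 7360800623) (nat_lit 152) (nat_lit 45723490437) (nat_lit 0) (nat_lit 6304213397) (nat_lit 6) (nat_lit 5) (nat_lit 8) (nat_lit 4) (nat_lit 6) (nat_lit 4) (nat_lit 426) (nat_lit 300) (nat_lit 294)) (XT.lf (nat_lit 0) (nat_lit 15705882274) (nat_lit 152) (nat_lit 31904852073) (nat_lit 0) (nat_lit 14501355259) (nat_lit 6) (nat_lit 5) (nat_lit 8) (nat_lit 4) (nat_lit 6) (nat_lit 4) (nat_lit 427) (nat_lit 300) (nat_lit 293)))) (XT.nd (nat_lit 78) (nat_lit 76) (nat_lit 0) (XT.lf (nat_lit 0) (nat_lit 24237090158) (nat_lit 152) (nat_lit 17850037598) (nat_lit 0) (nat_lit 22891668105) (nat_lit 6) (nat_lit 5) (nat_lit 8) (nat_lit 4) (nat_lit 6) (nat_lit 4) (nat_lit 428) (nat_lit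 300) (nat_lit 292)) (XT.nd (nat_lit 78) (nat_lit 76) (nat_lit 0) (XT.lf (nat_lit 0) (nat_lit 32974736674) (nat_lit 152) (nat_lit 3525583169) (nat_lit 0) (nat_lit 31495128872) (nat_lit 6) (nat_lit 5) (nat_lit 8) (nat_lit 4) (nat_lit 6) (nat_lit 4) (nat_lit 429) (nat_lit 300) (nat_lit 291)) (XT.lf (nat_lit 0) (nat_lit 11323580907) (nat_lit 76) (nat_lit 30724894023) (nat_lit 76) (nat_lit 29117490268) (nat_lit 5) (nat_lit 4) (nat_lit 6) (nat_lit 5) (nat_lit 6) (nat_lit 4) (nat_lit 430) (nat_lit 300) (nat_lit 290))))) (XT.nd (nat_lit 234) (nat_lit 152) (nat_lit 0) (XT.nd (nat_lit 78) (nat_lit 0) (nat_lit 0) (XT.lf (nat_lit 0) (nat_lit 26588224151) (nat_lit 76) (nat_lit 24820460465) (nat_lit 76) (nat_lit 23091346279) (nat_lit 5) (nat_lit 4) (nat_lit 6) (nat_lit 5) (nat_lit 6) (nat_lit 4) (nat_lit 431) (nat_lit 300) (nat_lit 289)) (XT.nd (nat_lit 78) (nat_lit 0) (nat_lit 0) (XT.lf (nat_lit 0) (nat_lit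 42234524933) (nat_lit 76) (nat_lit 18808562470) (nat_lit 76) (nat_lit 16963533588) (nat_lit 5) (nat_lit 4) (nat_lit 6) (nat_lit 5) (nat_lit 6) (nat_lit 4) (nat_lit 432) (nat_lit 300) (nat_lit 288)) (XT.lf (nat_lit 0) (nat_lit 58299736351) (nat_lit 76) (nat_lit 12674885996) (nat_lit 76) (nat_lit 10719462166) (nat_lit 5) (nat_lit 4) (nat_lit 6) (nat_lit 5) (nat_lit 6) (nat_lit 4) (nat_lit 433) (nat_lit 300) (nat_lit 287)))) (XT.nd (nat_lit 156) (nat_lit 0) (nat_lit 0) (XT.nd (nat_lit 78) (nat_lit 152) (nat_lit 0) (XT.lf (nat_lit 0) (nat_lit 74822108907) (nat_lit 76) (nat_lit 6404827051) (nat_lit 76) (nat_lit 4344265174) (nat_lit 5) (nat_lit 4) (nat_lit 6) (nat_lit 5) (nat_lit 6) (nat_lit 4) (nat_lit 434) (nat_lit 300) (nat_lit 286)) (XT.lf (nat_lit 0) (nat_lit 2156630311) (nat_lit 152) (nat_lit 87430417737) (nat_lit 0) (nat_lit 58869778) (nat_lit 3) (nat_lit 5) (nat_lit 5) (nat_lit 4) (nat_lit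 3) (nat_lit 4) (nat_lit 435) (nat_lit 300) (nat_lit 285))) (XT.nd (nat_lit 78) (nat_lit 0) (nat_lit 0) (XT.lf (nat_lit 0) (nat_lit 8904274643) (nat_lit 152) (nat_lit 78304535722) (nat_lit 0) (nat_lit 6713928375) (nat_lit 3) (nat_lit 5) (nat_lit 5) (nat_lit 4) (nat_lit 3) (nat_lit 4) (nat_lit 436) (nat_lit 300) (nat_lit 284)) (XT.lf (nat_lit 0) (nat_lit 15831512130) (nat_lit 152) (nat_lit 69033638288) (nat_lit 0) (nat_lit 13552988971) (nat_lit 3) (nat_lit 5) (nat_lit 5) (nat_lit 4) (nat_lit 3) (nat_lit 4) (nat_lit 437) (nat_lit 300) (nat_lit 283))))))))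
noncomputable def xc2 : XT := (XT.nd (nat_lit 104676) (nat_lit 0) (nat_lit 0) (XT.nd (nat_lit 52416) (nat_lit 0) (nat_lit 0) (XT.nd (nat_lit 51948) (nat_lit 0) (nat_lit 228) (XT.nd (nat_lit 51714) (nat_lit 0) (nat_lit 456) (XT.nd (nat_lit 51558) (nat_lit 0) (nat_lit 608) (XT.lf (nat_lit 0) (nat_lit 22954836194) (nat_lit 152) (nat_lit 59595651868) (nat_lit 0) (nat_lit 20592335044) (nat_lit 3) (nat_lit 5) (nat_lit 5) (nat_lit 4) (nat_lit 3) (nat_lit 4) (nat_lit 438) (nat_lit 300) (nat_lit 282)) (XT.nd (nat_lit 78) (nat_lit 0) (nat_lit 0) (XT.lf (nat_lit 0) (nat_lit 9587204628) (nat_lit 76) (nat_lit 5690902125) (nat_lit 76) (nat_lit 5690902125) (nat_lit 11) (nat_lit 4) (nat_lit 12) (nat_lit 5) (nat_lit 12) (nat_lit 4) (nat_lit 418) (nat_lit 301) (nat_lit 301)) (XT.lf (nat_lit 0) (nat_lit 38507948664) (nat_lit 76) (nat_lit 2732886297) (nat_lit 76) (nat_lit 2512042839) (nat_lit 11) (nat_lit 4) (nat_lit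 12) (nat_lit 5) (nat_lit 12) (nat_lit 4) (nat_lit 419) (nat_lit 301) (nat_lit 300)))) (XT.nd (nat_lit 78) (nat_lit 0) (nat_lit 0) (XT.lf (nat_lit 0) (nat_lit 6552584800) (nat_lit 152) (nat_lit 32973450912) (nat_lit 0) (nat_lit 6133972605) (nat_lit 9) (nat_lit 5) (nat_lit 11) (nat_lit 4) (nat_lit 9) (nat_lit 4) (nat_lit 420) (nat_lit 301) (nat_lit 299)) (XT.nd (nat_lit 78) (nat_lit 0) (nat_lit 0) (XT.lf (nat_lit 0) (nat_lit 15808582952) (nat_lit 152) (nat_lit 16663981011) (nat_lit 0) (nat_lit 15195493547) (nat_lit 9) (nat_lit 5) (nat_lit 11) (nat_lit 4) (nat_lit 9) (nat_lit 4) (nat_lit 421) (nat_lit 301) (nat_lit 298)) (XT.lf (nat_lit 0) (nat_lit 25248808545) (nat_lit 152) (nat_lit 85565579) (nat_lit 0) (nat_lit 24450502749) (nat_lit 9) (nat_lit 5) (nat_lit 11) (nat_lit 4) (nat_lit 9) (nat_lit 4) (nat_lit 422) (nat_lit 301) (nat_lit 297))))) (XT.nd (nat_lit 234) (nat_lit 152) (nat_lit 0) (XT.nd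 (nat_lit 78) (nat_lit 0) (nat_lit 0) (XT.lf (nat_lit 0) (nat_lit 17135645973) (nat_lit 76) (nat_lit 17924810644) (nat_lit 76) (nat_lit 16950108286) (nat_lit 8) (nat_lit 4) (nat_lit 9) (nat_lit 5) (nat_lit 9) (nat_lit 4) (nat_lit 423) (nat_lit 301) (nat_lit 296)) (XT.nd (nat_lit 78) (nat_lit 0) (nat_lit 0) (XT.lf (nat_lit 0) (nat_lit 34714123457) (nat_lit 76) (nat_lit 10391911048) (nat_lit 76) (nat_lit 9249211963) (nat_lit 8) (nat_lit 4) (nat_lit 9) (nat_lit 5) (nat_lit 9) (nat_lit 4) (nat_lit 424) (nat_lit 301) (nat_lit 295)) (XT.lf (nat_lit 0) (nat_lit 52690017469) (nat_lit 76) (nat_lit 2718603905) (nat_lit 76) (nat_lit 1415907938) (nat_lit 8) (nat_lit 4) (nat_lit 9) (nat_lit 5) (nat_lit 9) (nat_lit 4) (nat_lit 425) (nat_lit 301) (nat_lit 294)))) (XT.nd (nat_lit 78) (nat_lit 0) (nat_lit 0) (XT.lf (nat_lit 0) (nat_lit 6605094983) (nat_lit 152) (nat_lit 47619957225) (nat_lit 0) (nat_lit 5192401828)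 (nat_lit 6) (nat_lit 5) (nat_lit 8) (nat_lit 4) (nat_lit 6) (nat_lit 4) (nat_lit 426) (nat_lit 301) (nat_lit 293)) (XT.nd (nat_lit 78) (nat_lit 0) (nat_lit 0) (XT.lf (nat_lit 0) (nat_lit 14837431341) (nat_lit 152) (nat_lit 34023150962) (nat_lit 0) (nat_lit 13283843149) (nat_lit 6) (nat_lit 5) (nat_lit 8) (nat_lit 4) (nat_lit 6) (nat_lit 4) (nat_lit 427) (nat_lit 301) (nat_lit 292)) (XT.lf (nat_lit 0) (nat_lit 23261262756) (nat_lit 152) (nat_lit 20179605155) (nat_lit 0) (nat_lit 21573488813) (nat_lit 6) (nat_lit 5) (nat_lit 8) (nat_lit 4) (nat_lit 6) (nat_lit 4) (nat_lit 428) (nat_lit 301) (nat_lit 291)))))) (XT.nd (nat_lit 468) (nat_lit 152) (nat_lit 0) (XT.nd (nat_lit 234) (nat_lit 0) (nat_lit 0) (XT.nd (nat_lit 78) (nat_lit 76) (nat_lit 0) (XT.lf (nat_lit 0) (nat_lit 31896645969) (nat_lit 152) (nat_lit 6056358981) (nat_lit 0) (nat_lit 30081076074) (nat_lit 6) (nat_lit 5) (nat_lit 8) (nat_lit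 4) (nat_lit 6) (nat_lit 4) (nat_lit 429) (nat_lit 301) (nat_lit 290)) (XT.nd (nat_lit 78) (nat_lit 0) (nat_lit 0) (XT.lf (nat_lit 0) (nat_lit 8546997032) (nat_lit 76) (nat_lit 32299303347) (nat_lit 76) (nat_lit 30362023021) (nat_lit 5) (nat_lit 4) (nat_lit 6) (nat_lit 5) (nat_lit 6) (nat_lit 4) (nat_lit 430) (nat_lit 301) (nat_lit 289)) (XT.lf (nat_lit 0) (nat_lit 23625506313) (nat_lit 76) (nat_lit 26486458687) (nat_lit 76) (nat_lit 24433263665) (nat_lit 5) (nat_lit 4) (nat_lit 6) (nat_lit 5) (nat_lit 6) (nat_lit 4) (nat_lit 431) (nat_lit 301) (nat_lit 288)))) (XT.nd (nat_lit 78) (nat_lit 0) (nat_lit 0) (XT.lf (nat_lit 0) (nat_lit 39094536655) (nat_lit 76) (nat_lit 20561788214) (nat_lit 76) (nat_lit 18398198244) (nat_lit 5) (nat_lit 4) (nat_lit 6) (nat_lit 5) (nat_lit 6) (nat_lit 4) (nat_lit 432) (nat_lit 301) (nat_lit 287)) (XT.nd (nat_lit 78) (nat_lit 0) (nat_lit 0) (XT.lf (nat_lit 0) (nat_lit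 54990919081) (nat_lit 76) (nat_lit 14511185571) (nat_lit 76) (nat_lit 12242457554) (nat_lit 5) (nat_lit 4) (nat_lit 6) (nat_lit 5) (nat_lit 6) (nat_lit 4) (nat_lit 433) (nat_lit 301) (nat_lit 286)) (XT.lf (nat_lit 0) (nat_lit 71352502122) (nat_lit 76) (nat_lit 8320244560) (nat_lit 76) (nat_lit 5951385071) (nat_lit 5) (nat_lit 4) (nat_lit 6) (nat_lit 5) (nat_lit 6) (nat_lit 4) (nat_lit 434) (nat_lit 301) (nat_lit 285))))) (XT.nd (nat_lit 234) (nat_lit 0) (nat_lit 0) (XT.nd (nat_lit 78) (nat_lit 76) (nat_lit 0) (XT.lf (nat_lit 0) (nat_lit 480436325) (nat_lit 152) (nat_lit 1488937055) (nat_lit 76) (nat_lit 87732954137) (nat_lit 4) (nat_lit 5) (nat_lit 6) (nat_lit 5) (nat_lit 5) (nat_lit 4) (nat_lit 435) (nat_lit 301) (nat_lit 284)) (XT.nd (nat_lit 78) (nat_lit 0) (nat_lit 0) (XT.lf (nat_lit 0) (nat_lit 7117437610) (nat_lit 152) (nat_lit 82228221158) (nat_lit 0) (nat_lit 4636811402) (nat_lit 3) (nat_lit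 5) (nat_lit 5) (nat_lit 4) (nat_lit 3) (nat_lit 4) (nat_lit 436) (nat_lit 301) (nat_lit 283)) (XT.lf (nat_lit 0) (nat_lit 13971370074) (nat_lit 152) (nat_lit 73101936351) (nat_lit 0) (nat_lit 11406765875) (nat_lit 3) (nat_lit 5) (nat_lit 5) (nat_lit 4) (nat_lit 3) (nat_lit 4) (nat_lit 437) (nat_lit 301) (nat_lit 282)))) (XT.nd (nat_lit 51402) (nat_lit 0) (nat_lit 608) (XT.lf (nat_lit 0) (nat_lit 21024879830) (nat_lit 152) (nat_lit 63801676243) (nat_lit 0) (nat_lit 18380296592) (nat_lit 3) (nat_lit 5) (nat_lit 5) (nat_lit 4) (nat_lit 3) (nat_lit 4) (nat_lit 438) (nat_lit 301) (nat_lit 281)) (XT.nd (nat_lit 78) (nat_lit 76) (nat_lit 0) (XT.lf (nat_lit 0) (nat_lit 5183652906) (nat_lit 152) (nat_lit 8922738410) (nat_lit 0) (nat_lit 5183652906) (nat_lit 12) (nat_lit 5) (nat_lit 14) (nat_lit 4) (nat_lit 12) (nat_lit 4) (nat_lit 416) (nat_lit 302) (nat_lit 302)) (XT.lf (nat_lit 0) (nat_lit 182891251)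 (nat_lit 76) (nat_lit 20133727734) (nat_lit 76) (nat_lit 19901842103) (nat_lit 11) (nat_lit 4) (nat_lit 12) (nat_lit 5) (nat_lit 12) (nat_lit 4) (nat_lit 417) (nat_lit 302) (nat_lit 301))))))) (XT.nd (nat_lit 936) (nat_lit 228) (nat_lit 0) (XT.nd (nat_lit 468) (nat_lit 152) (nat_lit 0) (XT.nd (nat_lit 234) (nat_lit 76) (nat_lit 0) (XT.nd (nat_lit 78) (nat_lit 152) (nat_lit 0) (XT.lf (nat_lit 0) (nat_lit 18878041208) (nat_lit 76) (nat_lit 11758627341) (nat_lit 76) (nat_lit 11305898252) (nat_lit 11) (nat_lit 4) (nat_lit 12) (nat_lit 5) (nat_lit 12) (nat_lit 4) (nat_lit 418) (nat_lit 302) (nat_lit 300)) (XT.nd (nat_lit 78) (nat_lit 152) (nat_lit 0) (XT.lf (nat_lit 0) (nat_lit 37929325333) (nat_lit 76) (nat_lit 3247745065) (nat_lit 76) (nat_lit 2584688873) (nat_lit 11) (nat_lit 4) (nat_lit 12) (nat_lit 5) (nat_lit 12) (nat_lit 4) (nat_lit 419) (nat_lit 302) (nat_lit 299)) (XT.lf (nat_lit 0) (nat_lit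 6327906876) (nat_lit 152) (nat_lit 33855926951) (nat_lit 0) (nat_lit 5489685791) (nat_lit 9) (nat_lit 5) (nat_lit 11) (nat_lit 4) (nat_lit 9) (nat_lit 4) (nat_lit 420) (nat_lit 302) (nat_lit 298)))) (XT.nd (nat_lit 78) (nat_lit 76) (nat_lit 0) (XT.lf (nat_lit 0) (nat_lit 15448016020) (nat_lit 152) (nat_lit 17813056057) (nat_lit 0) (nat_lit 14424578544) (nat_lit 9) (nat_lit 5) (nat_lit 11) (nat_lit 4) (nat_lit 9) (nat_lit 4) (nat_lit 421) (nat_lit 302) (nat_lit 297)) (XT.nd (nat_lit 78) (nat_lit 76) (nat_lit 0) (XT.lf (nat_lit 0) (nat_lit 24758823510) (nat_lit 152) (nat_lit 1488544441) (nat_lit 0) (nat_lit 23558989471) (nat_lit 9) (nat_lit 5) (nat_lit 11) (nat_lit 4) (nat_lit 9) (nat_lit 4) (nat_lit 422) (nat_lit 302) (nat_lit 296)) (XT.lf (nat_lit 0) (nat_lit 15458119366) (nat_lit 76) (nat_lit 18972971468) (nat_lit 76) (nat_lit 17605140702) (nat_lit 8) (nat_lit 4) (nat_lit 9) (nat_lit 5) (nat_lit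 9) (nat_lit 4) (nat_lit 423) (nat_lit 302) (nat_lit 295))))) (XT.nd (nat_lit 234) (nat_lit 0) (nat_lit 0) (XT.nd (nat_lit 78) (nat_lit 152) (nat_lit 0) (XT.lf (nat_lit 0) (nat_lit 32801715218) (nat_lit 76) (nat_lit 11555309643) (nat_lit 76) (nat_lit 10027481996) (nat_lit 8) (nat_lit 4) (nat_lit 9) (nat_lit 5) (nat_lit 9) (nat_lit 4) (nat_lit 424) (nat_lit 302) (nat_lit 294)) (XT.nd (nat_lit 78) (nat_lit 152) (nat_lit 0) (XT.lf (nat_lit 0) (nat_lit 50553912437) (nat_lit 76) (nat_lit 3991752759) (nat_lit 76) (nat_lit 2311547129) (nat_lit 8) (nat_lit 4) (nat_lit 9) (nat_lit 5) (nat_lit 9) (nat_lit 4) (nat_lit 425) (nat_lit 302) (nat_lit 293)) (XT.lf (nat_lit 0) (nat_lit 5580476212) (nat_lit 152) (nat_lit 50066003160) (nat_lit 0) (nat_lit 3808313572) (nat_lit 6) (nat_lit 5) (nat_lit 8) (nat_lit 4) (nat_lit 6) (nat_lit 4) (nat_lit 426) (nat_lit 302) (nat_lit 292)))) (XT.nd (nat_lit 78) (nat_lit 0)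 (nat_lit 0) (XT.lf (nat_lit 0) (nat_lit 13705436101) (nat_lit 152) (nat_lit 36680465565) (nat_lit 0) (nat_lit 11799087711) (nat_lit 6) (nat_lit 5) (nat_lit 8) (nat_lit 4) (nat_lit 6) (nat_lit 4) (nat_lit 427) (nat_lit 302) (nat_lit 291)) (XT.nd (nat_lit 78) (nat_lit 0) (nat_lit 0) (XT.lf (nat_lit 0) (nat_lit 22027004212) (nat_lit 152) (nat_lit 23038128013) (nat_lit 0) (nat_lit 19992859870) (nat_lit 6) (nat_lit 5) (nat_lit 8) (nat_lit 4) (nat_lit 6) (nat_lit 4) (nat_lit 428) (nat_lit 302) (nat_lit 290)) (XT.lf (nat_lit 0) (nat_lit 30564993802) (nat_lit 152) (nat_lit 9106508749) (nat_lit 0) (nat_lit 28409139029) (nat_lit 6) (nat_lit 5) (nat_lit 8) (nat_lit 4) (nat_lit 6) (nat_lit 4) (nat_lit 429) (nat_lit 302) (nat_lit 289)))))) (XT.nd (nat_lit 468) (nat_lit 152) (nat_lit 0) (XT.nd (nat_lit 234) (nat_lit 0) (nat_lit 0) (XT.nd (nat_lit 78) (nat_lit 0) (nat_lit 0) (XT.lf (nat_lit 0) (nat_lit 5250009340)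 (nat_lit 76) (nat_lit 34140190379) (nat_lit 76) (nat_lit 31868420910) (nat_lit 5) (nat_lit 4) (nat_lit 6) (nat_lit 5) (nat_lit 6) (nat_lit 4) (nat_lit 430) (nat_lit 302) (nat_lit 288)) (XT.nd (nat_lit 78) (nat_lit 0) (nat_lit 0) (XT.lf (nat_lit 0) (nat_lit 20151248181) (nat_lit 76) (nat_lit 28414573241) (nat_lit 76) (nat_lit 26032408823) (nat_lit 5) (nat_lit 4) (nat_lit 6) (nat_lit 5) (nat_lit 6) (nat_lit 4) (nat_lit 431) (nat_lit 302) (nat_lit 287)) (XT.lf (nat_lit 0) (nat_lit 35451449531) (nat_lit 76) (nat_lit 22572976599) (nat_lit 76) (nat_lit 20085674135) (nat_lit 5) (nat_lit 4) (nat_lit 6) (nat_lit 5) (nat_lit 6) (nat_lit 4) (nat_lit 432) (nat_lit 302) (nat_lit 286)))) (XT.nd (nat_lit 78) (nat_lit 0) (nat_lit 0) (XT.lf (nat_lit 0) (nat_lit 51187042441) (nat_lit 76) (nat_lit 16601491889) (nat_lit 76) (nat_lit 14014057953) (nat_lit 5) (nat_lit 4) (nat_lit 6) (nat_lit 5) (nat_lit 6) (nat_lit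 4) (nat_lit 433) (nat_lit 302) (nat_lit 285)) (XT.nd (nat_lit 78) (nat_lit 0) (nat_lit 0) (XT.lf (nat_lit 0) (nat_lit 67395492610) (nat_lit 76) (nat_lit 10485901292) (nat_lit 76) (nat_lit 7803104048) (nat_lit 5) (nat_lit 4) (nat_lit 6) (nat_lit 5) (nat_lit 6) (nat_lit 4) (nat_lit 434) (nat_lit 302) (nat_lit 284)) (XT.lf (nat_lit 0) (nat_lit 84115391585) (nat_lit 76) (nat_lit 4211643876) (nat_lit 76) (nat_lit 1438024435) (nat_lit 5) (nat_lit 4) (nat_lit 6) (nat_lit 5) (nat_lit 6) (nat_lit 4) (nat_lit 435) (nat_lit 302) (nat_lit 283))))) (XT.nd (nat_lit 51402) (nat_lit 0) (nat_lit 684) (XT.nd (nat_lit 78) (nat_lit 0) (nat_lit 0) (XT.lf (nat_lit 0) (nat_lit 5090983428) (nat_lit 152) (nat_lit 86644546751) (nat_lit 0) (nat_lit 2314171028) (nat_lit 3) (nat_lit 5) (nat_lit 5) (nat_lit 4) (nat_lit 3) (nat_lit 4) (nat_lit 436) (nat_lit 302) (nat_lit 282)) (XT.nd (nat_lit 78) (nat_lit 0) (nat_lit 0) (XT.lf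 (nat_lit 0) (nat_lit 11875101585) (nat_lit 152) (nat_lit 77655988256) (nat_lit 0) (nat_lit 9018310145) (nat_lit 3) (nat_lit 5) (nat_lit 5) (nat_lit 4) (nat_lit 3) (nat_lit 4) (nat_lit 437) (nat_lit 302) (nat_lit 281)) (XT.lf (nat_lit 0) (nat_lit 18862121524) (nat_lit 152) (nat_lit 68486896064) (nat_lit 0) (nat_lit 15929159572) (nat_lit 3) (nat_lit 5) (nat_lit 5) (nat_lit 4) (nat_lit 3) (nat_lit 4) (nat_lit 438) (nat_lit 302) (nat_lit 280)))) (XT.nd (nat_lit 156) (nat_lit 0) (nat_lit 0) (XT.nd (nat_lit 78) (nat_lit 152) (nat_lit 0) (XT.lf (nat_lit 0) (nat_lit 9221239214) (nat_lit 76) (nat_lit 4275910967) (nat_lit 76) (nat_lit 4275910967) (nat_lit 14) (nat_lit 4) (nat_lit 15) (nat_lit 5) (nat_lit 15) (nat_lit 4) (nat_lit 414) (nat_lit 303) (nat_lit 303)) (XT.lf (nat_lit 0) (nat_lit 832331199) (nat_lit 152) (nat_lit 35607651175) (nat_lit 0) (nat_lit 588851286) (nat_lit 12) (nat_lit 5) (nat_lit 14)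 (nat_lit 4) (nat_lit 12) (nat_lit 4) (nat_lit 415) (nat_lit 303) (nat_lit 302))) (XT.nd (nat_lit 78) (nat_lit 0) (nat_lit 0) (XT.lf (nat_lit 0) (nat_lit 10454774924) (nat_lit 152) (nat_lit 18150590902) (nat_lit 0) (nat_lit 9979409380) (nat_lit 12) (nat_lit 5) (nat_lit 14) (nat_lit 4) (nat_lit 12) (nat_lit 4) (nat_lit 416) (nat_lit 303) (nat_lit 301)) (XT.lf (nat_lit 0) (nat_lit 20253748317) (nat_lit 152) (nat_lit 416376536) (nat_lit 0) (nat_lit 19557539315) (nat_lit 12) (nat_lit 5) (nat_lit 14) (nat_lit 4) (nat_lit 12) (nat_lit 4) (nat_lit 417) (nat_lit 303) (nat_lit 300))))))))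
noncomputable def xc3 : XT := (XT.nd (nat_lit 52962) (nat_lit 0) (nat_lit 0) (XT.nd (nat_lit 936) (nat_lit 228) (nat_lit 0) (XT.nd (nat_lit 468) (nat_lit 152) (nat_lit 0) (XT.nd (nat_lit 234) (nat_lit 76) (nat_lit 0) (XT.nd (nat_lit 78) (nat_lit 152) (nat_lit 0) (XT.lf (nat_lit 0) (nat_lit 17988231428) (nat_lit 76) (nat_lit 12437264723) (nat_lit 76) (nat_lit 11530728619) (nat_lit 11) (nat_lit 4) (nat_lit 12) (nat_lit 5) (nat_lit 12) (nat_lit 4) (nat_lit 418) (nat_lit 303) (nat_lit 299)) (XT.nd (nat_lit 78) (nat_lit 152) (nat_lit 0) (XT.lf (nat_lit 0) (nat_lit 36770700997) (nat_lit 76) (nat_lit 4057844996) (nat_lit 76) (nat_lit 2950997365) (nat_lit 11) (nat_lit 4) (nat_lit 12) (nat_lit 5) (nat_lit 12) (nat_lit 4) (nat_lit 419) (nat_lit 303) (nat_lit 298)) (XT.lf (nat_lit 0) (nat_lit 5813422590) (nat_lit 152) (nat_lit 35329054756) (nat_lit 0) (nat_lit 4553596849) (nat_lit 9) (nat_lit 5) (nat_lit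 11) (nat_lit 4) (nat_lit 9) (nat_lit 4) (nat_lit 420) (nat_lit 303) (nat_lit 297)))) (XT.nd (nat_lit 78) (nat_lit 76) (nat_lit 0) (XT.lf (nat_lit 0) (nat_lit 14804113630) (nat_lit 152) (nat_lit 19540087678) (nat_lit 0) (nat_lit 13367891327) (nat_lit 9) (nat_lit 5) (nat_lit 11) (nat_lit 4) (nat_lit 9) (nat_lit 4) (nat_lit 421) (nat_lit 303) (nat_lit 296)) (XT.nd (nat_lit 78) (nat_lit 76) (nat_lit 0) (XT.lf (nat_lit 0) (nat_lit 23991665783) (nat_lit 152) (nat_lit 3457389221) (nat_lit 0) (nat_lit 22387446754) (nat_lit 9) (nat_lit 5) (nat_lit 11) (nat_lit 4) (nat_lit 9) (nat_lit 4) (nat_lit 422) (nat_lit 303) (nat_lit 295)) (XT.lf (nat_lit 0) (nat_lit 13215209082) (nat_lit 76) (nat_lit 20309777765) (nat_lit 76) (nat_lit 18545561853) (nat_lit 8) (nat_lit 4) (nat_lit 9) (nat_lit 5) (nat_lit 9) (nat_lit 4) (nat_lit 423) (nat_lit 303) (nat_lit 294))))) (XT.nd (nat_lit 234) (nat_lit 0) (nat_lit 0) (XT.nd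 (nat_lit 78) (nat_lit 152) (nat_lit 0) (XT.lf (nat_lit 0) (nat_lit 30335108140) (nat_lit 76) (nat_lit 13001866200) (nat_lit 76) (nat_lit 11085272305) (nat_lit 8) (nat_lit 4) (nat_lit 9) (nat_lit 5) (nat_lit 9) (nat_lit 4) (nat_lit 424) (nat_lit 303) (nat_lit 293)) (XT.nd (nat_lit 78) (nat_lit 152) (nat_lit 0) (XT.lf (nat_lit 0) (nat_lit 47874260794) (nat_lit 76) (nat_lit 5542833372) (nat_lit 76) (nat_lit 3481117588) (nat_lit 8) (nat_lit 4) (nat_lit 9) (nat_lit 5) (nat_lit 9) (nat_lit 4) (nat_lit 425) (nat_lit 303) (nat_lit 292)) (XT.lf (nat_lit 0) (nat_lit 4284504740) (nat_lit 152) (nat_lit 53067452161) (nat_lit 0) (nat_lit 2148653181) (nat_lit 6) (nat_lit 5) (nat_lit 8) (nat_lit 4) (nat_lit 6) (nat_lit 4) (nat_lit 426) (nat_lit 303) (nat_lit 291)))) (XT.nd (nat_lit 78) (nat_lit 0) (nat_lit 0) (XT.lf (nat_lit 0) (nat_lit 12307201326) (nat_lit 152) (nat_lit 39883122821) (nat_lit 0) (nat_lit 10043553814)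 (nat_lit 6) (nat_lit 5) (nat_lit 8) (nat_lit 4) (nat_lit 6) (nat_lit 4) (nat_lit 427) (nat_lit 303) (nat_lit 290)) (XT.nd (nat_lit 78) (nat_lit 0) (nat_lit 0) (XT.lf (nat_lit 0) (nat_lit 20531375814) (nat_lit 152) (nat_lit 26432412180) (nat_lit 0) (nat_lit 18146017872) (nat_lit 6) (nat_lit 5) (nat_lit 8) (nat_lit 4) (nat_lit 6) (nat_lit 4) (nat_lit 428) (nat_lit 303) (nat_lit 289)) (XT.lf (nat_lit 0) (nat_lit 28976609573) (nat_lit 152) (nat_lit 12683294734) (nat_lit 0) (nat_lit 26475336935) (nat_lit 6) (nat_lit 5) (nat_lit 8) (nat_lit 4) (nat_lit 6) (nat_lit 4) (nat_lit 429) (nat_lit 303) (nat_lit 288)))))) (XT.nd (nat_lit 468) (nat_lit 152) (nat_lit 0) (XT.nd (nat_lit 234) (nat_lit 0) (nat_lit 0) (XT.nd (nat_lit 78) (nat_lit 0) (nat_lit 0) (XT.lf (nat_lit 0) (nat_lit 1424767860) (nat_lit 76) (nat_lit 36251938182) (nat_lit 76) (nat_lit 33640270595) (nat_lit 5) (nat_lit 4) (nat_lit 6) (nat_lit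 5) (nat_lit 6) (nat_lit 4) (nat_lit 430) (nat_lit 303) (nat_lit 287)) (XT.nd (nat_lit 78) (nat_lit 0) (nat_lit 0) (XT.lf (nat_lit 0) (nat_lit 16157177709) (nat_lit 76) (nat_lit 30609394875) (nat_lit 76) (nat_lit 27892589242) (nat_lit 5) (nat_lit 4) (nat_lit 6) (nat_lit 5) (nat_lit 6) (nat_lit 4) (nat_lit 431) (nat_lit 303) (nat_lit 286)) (XT.lf (nat_lit 0) (nat_lit 31296589543) (nat_lit 76) (nat_lit 24846916167) (nat_lit 76) (nat_lit 22029979061) (nat_lit 5) (nat_lit 4) (nat_lit 6) (nat_lit 5) (nat_lit 6) (nat_lit 4) (nat_lit 432) (nat_lit 303) (nat_lit 285)))) (XT.nd (nat_lit 78) (nat_lit 0) (nat_lit 0) (XT.lf (nat_lit 0) (nat_lit 46879049582) (nat_lit 76) (nat_lit 18950781871) (nat_lit 76) (nat_lit 16038481458) (nat_lit 5) (nat_lit 4) (nat_lit 6) (nat_lit 5) (nat_lit 6) (nat_lit 4) (nat_lit 433) (nat_lit 303) (nat_lit 284)) (XT.nd (nat_lit 78) (nat_lit 0) (nat_lit 0) (XT.lf (nat_lit 0) (nat_lit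 62941658921) (nat_lit 76) (nat_lit 12906953571) (nat_lit 76) (nat_lit 9903830961) (nat_lit 5) (nat_lit 4) (nat_lit 6) (nat_lit 5) (nat_lit 6) (nat_lit 4) (nat_lit 434) (nat_lit 303) (nat_lit 283)) (XT.lf (nat_lit 0) (nat_lit 79522661867) (nat_lit 76) (nat_lit 6701041202) (nat_lit 76) (nat_lit 3611421260) (nat_lit 5) (nat_lit 4) (nat_lit 6) (nat_lit 5) (nat_lit 6) (nat_lit 4) (nat_lit 435) (nat_lit 303) (nat_lit 282))))) (XT.nd (nat_lit 51246) (nat_lit 0) (nat_lit 684) (XT.nd (nat_lit 78) (nat_lit 0) (nat_lit 0) (XT.lf (nat_lit 0) (nat_lit 2557943692) (nat_lit 76) (nat_lit 264687856) (nat_lit 152) (nat_lit 91301884048) (nat_lit 3) (nat_lit 5) (nat_lit 4) (nat_lit 5) (nat_lit 5) (nat_lit 4) (nat_lit 436) (nat_lit 303) (nat_lit 281)) (XT.nd (nat_lit 78) (nat_lit 0) (nat_lit 0) (XT.lf (nat_lit 0) (nat_lit 9537715546) (nat_lit 152) (nat_lit 82706636984) (nat_lit 0) (nat_lit 6381934982) (nat_lit 3)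 (nat_lit 5) (nat_lit 5) (nat_lit 4) (nat_lit 3) (nat_lit 4) (nat_lit 437) (nat_lit 303) (nat_lit 280)) (XT.lf (nat_lit 0) (nat_lit 16461411851) (nat_lit 152) (nat_lit 73662466617) (nat_lit 0) (nat_lit 13233087941) (nat_lit 3) (nat_lit 5) (nat_lit 5) (nat_lit 4) (nat_lit 3) (nat_lit 4) (nat_lit 438) (nat_lit 303) (nat_lit 279)))) (XT.nd (nat_lit 156) (nat_lit 228) (nat_lit 0) (XT.nd (nat_lit 78) (nat_lit 0) (nat_lit 0) (XT.lf (nat_lit 0) (nat_lit 3245876665) (nat_lit 152) (nat_lit 9910542271) (nat_lit 0) (nat_lit 3245876665) (nat_lit 15) (nat_lit 5) (nat_lit 17) (nat_lit 4) (nat_lit 15) (nat_lit 4) (nat_lit 412) (nat_lit 304) (nat_lit 304)) (XT.lf (nat_lit 0) (nat_lit 16614231465) (nat_lit 152) (nat_lit 1176996919) (nat_lit 0) (nat_lit 16350907940) (nat_lit 15) (nat_lit 5) (nat_lit 17) (nat_lit 4) (nat_lit 15) (nat_lit 4) (nat_lit 413) (nat_lit 304) (nat_lit 303))) (XT.nd (nat_lit 78) (nat_lit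 152) (nat_lit 0) (XT.lf (nat_lit 0) (nat_lit 18134860615) (nat_lit 76) (nat_lit 8965053879) (nat_lit 76) (nat_lit 8450946043) (nat_lit 14) (nat_lit 4) (nat_lit 15) (nat_lit 5) (nat_lit 15) (nat_lit 4) (nat_lit 414) (nat_lit 304) (nat_lit 302)) (XT.lf (nat_lit 0) (nat_lit 768162962) (nat_lit 152) (nat_lit 36233135042) (nat_lit 0) (nat_lit 37143511) (nat_lit 12) (nat_lit 5) (nat_lit 14) (nat_lit 4) (nat_lit 12) (nat_lit 4) (nat_lit 415) (nat_lit 304) (nat_lit 301))))))) (XT.nd (nat_lit 936) (nat_lit 228) (nat_lit 0) (XT.nd (nat_lit 468) (nat_lit 228) (nat_lit 0) (XT.nd (nat_lit 234) (nat_lit 152) (nat_lit 0) (XT.nd (nat_lit 78) (nat_lit 76) (nat_lit 0) (XT.lf (nat_lit 0) (nat_lit 10242024971) (nat_lit 152) (nat_lit 19066659608) (nat_lit 0) (nat_lit 9290162062) (nat_lit 12) (nat_lit 5) (nat_lit 14) (nat_lit 4) (nat_lit 12) (nat_lit 4) (nat_lit 416) (nat_lit 304) (nat_lit 300)) (XT.nd (nat_lit 78)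 (nat_lit 76) (nat_lit 0) (XT.lf (nat_lit 0) (nat_lit 19899491968) (nat_lit 152) (nat_lit 1609192708) (nat_lit 0) (nat_lit 18737301955) (nat_lit 12) (nat_lit 5) (nat_lit 14) (nat_lit 4) (nat_lit 12) (nat_lit 4) (nat_lit 417) (nat_lit 304) (nat_lit 299)) (XT.lf (nat_lit 0) (nat_lit 16502861319) (nat_lit 76) (nat_lit 13419332200) (nat_lit 76) (nat_lit 12056830661) (nat_lit 11) (nat_lit 4) (nat_lit 12) (nat_lit 5) (nat_lit 12) (nat_lit 4) (nat_lit 418) (nat_lit 304) (nat_lit 298)))) (XT.nd (nat_lit 78) (nat_lit 152) (nat_lit 0) (XT.lf (nat_lit 0) (nat_lit 35029317025) (nat_lit 76) (nat_lit 5165114901) (nat_lit 76) (nat_lit 3611840479) (nat_lit 11) (nat_lit 4) (nat_lit 12) (nat_lit 5) (nat_lit 12) (nat_lit 4) (nat_lit 419) (nat_lit 304) (nat_lit 297)) (XT.nd (nat_lit 78) (nat_lit 0) (nat_lit 0) (XT.lf (nat_lit 0) (nat_lit 5007906977) (nat_lit 152) (nat_lit 37396341775) (nat_lit 0) (nat_lit 3323476995)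 (nat_lit 9) (nat_lit 5) (nat_lit 11) (nat_lit 4) (nat_lit 9) (nat_lit 4) (nat_lit 420) (nat_lit 304) (nat_lit 296)) (XT.lf (nat_lit 0) (nat_lit 13875342681) (nat_lit 152) (nat_lit 21849187855) (nat_lit 0) (nat_lit 12022915973) (nat_lit 9) (nat_lit 5) (nat_lit 11) (nat_lit 4) (nat_lit 9) (nat_lit 4) (nat_lit 421) (nat_lit 304) (nat_lit 295))))) (XT.nd (nat_lit 234) (nat_lit 152) (nat_lit 0) (XT.nd (nat_lit 78) (nat_lit 76) (nat_lit 0) (XT.lf (nat_lit 0) (nat_lit 22945508799) (nat_lit 152) (nat_lit 5996787644) (nat_lit 0) (nat_lit 20933085210) (nat_lit 9) (nat_lit 5) (nat_lit 11) (nat_lit 4) (nat_lit 9) (nat_lit 4) (nat_lit 422) (nat_lit 304) (nat_lit 294)) (XT.nd (nat_lit 78) (nat_lit 0) (nat_lit 0) (XT.lf (nat_lit 0) (nat_lit 10401574857) (nat_lit 76) (nat_lit 21938412408) (nat_lit 76) (nat_lit 19773610836) (nat_lit 8) (nat_lit 4) (nat_lit 9) (nat_lit 5) (nat_lit 9) (nat_lit 4) (nat_lit 423)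 (nat_lit 304) (nat_lit 293)) (XT.lf (nat_lit 0) (nat_lit 27308429351) (nat_lit 76) (nat_lit 14735024900) (nat_lit 76) (nat_lit 12425101438) (nat_lit 8) (nat_lit 4) (nat_lit 9) (nat_lit 5) (nat_lit 9) (nat_lit 4) (nat_lit 424) (nat_lit 304) (nat_lit 292)))) (XT.nd (nat_lit 78) (nat_lit 152) (nat_lit 0) (XT.lf (nat_lit 0) (nat_lit 44644682419) (nat_lit 76) (nat_lit 7375538792) (nat_lit 76) (nat_lit 4927404008) (nat_lit 8) (nat_lit 4) (nat_lit 9) (nat_lit 5) (nat_lit 9) (nat_lit 4) (nat_lit 425) (nat_lit 304) (nat_lit 291)) (XT.nd (nat_lit 78) (nat_lit 0) (nat_lit 0) (XT.lf (nat_lit 0) (nat_lit 2714094922) (nat_lit 152) (nat_lit 56631450536) (nat_lit 0) (nat_lit 209469083) (nat_lit 6) (nat_lit 5) (nat_lit 8) (nat_lit 4) (nat_lit 6) (nat_lit 4) (nat_lit 426) (nat_lit 304) (nat_lit 290)) (XT.lf (nat_lit 0) (nat_lit 10639397885) (nat_lit 152) (nat_lit 43638748106) (nat_lit 0) (nat_lit 8013061615) (nat_lit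 6) (nat_lit 5) (nat_lit 8) (nat_lit 4) (nat_lit 6) (nat_lit 4) (nat_lit 427) (nat_lit 304) (nat_lit 289)))))) (XT.nd (nat_lit 468) (nat_lit 152) (nat_lit 0) (XT.nd (nat_lit 234) (nat_lit 76) (nat_lit 0) (XT.nd (nat_lit 78) (nat_lit 0) (nat_lit 0) (XT.lf (nat_lit 0) (nat_lit 18770816543) (nat_lit 152) (nat_lit 30370539283) (nat_lit 0) (nat_lit 16028565576) (nat_lit 6) (nat_lit 5) (nat_lit 8) (nat_lit 4) (nat_lit 6) (nat_lit 4) (nat_lit 428) (nat_lit 304) (nat_lit 288)) (XT.nd (nat_lit 78) (nat_lit 0) (nat_lit 0) (XT.lf (nat_lit 0) (nat_lit 27127711415) (nat_lit 152) (nat_lit 16795233094) (nat_lit 0) (nat_lit 24275065500) (nat_lit 6) (nat_lit 5) (nat_lit 8) (nat_lit 4) (nat_lit 6) (nat_lit 4) (nat_lit 429) (nat_lit 304) (nat_lit 287)) (XT.lf (nat_lit 0) (nat_lit 35729979871) (nat_lit 152) (nat_lit 2880507381) (nat_lit 0) (nat_lit 32772195910) (nat_lit 6) (nat_lit 5) (nat_lit 8) (nat_lit 4) (nat_lit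 6) (nat_lit 4) (nat_lit 430) (nat_lit 304) (nat_lit 286)))) (XT.nd (nat_lit 78) (nat_lit 0) (nat_lit 0) (XT.lf (nat_lit 0) (nat_lit 11633785206) (nat_lit 76) (nat_lit 33076149355) (nat_lit 76) (nat_lit 30018233922) (nat_lit 5) (nat_lit 4) (nat_lit 6) (nat_lit 5) (nat_lit 6) (nat_lit 4) (nat_lit 431) (nat_lit 304) (nat_lit 285)) (XT.nd (nat_lit 78) (nat_lit 0) (nat_lit 0) (XT.lf (nat_lit 0) (nat_lit 26620064169) (nat_lit 76) (nat_lit 27389021061) (nat_lit 76) (nat_lit 24235742320) (nat_lit 5) (nat_lit 4) (nat_lit 6) (nat_lit 5) (nat_lit 6) (nat_lit 4) (nat_lit 432) (nat_lit 304) (nat_lit 284)) (XT.lf (nat_lit 0) (nat_lit 42056683378) (nat_lit 76) (nat_lit 21564649063) (nat_lit 76) (nat_lit 18320548124) (nat_lit 5) (nat_lit 4) (nat_lit 6) (nat_lit 5) (nat_lit 6) (nat_lit 4) (nat_lit 433) (nat_lit 304) (nat_lit 283))))) (XT.nd (nat_lit 234) (nat_lit 76) (nat_lit 0) (XT.nd (nat_lit 78) (nat_lit 76)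 (nat_lit 0) (XT.lf (nat_lit 0) (nat_lit 57980396687) (nat_lit 76) (nat_lit 15589165810) (nat_lit 76) (nat_lit 12258567540) (nat_lit 5) (nat_lit 4) (nat_lit 6) (nat_lit 5) (nat_lit 6) (nat_lit 4) (nat_lit 434) (nat_lit 304) (nat_lit 282)) (XT.nd (nat_lit 78) (nat_lit 76) (nat_lit 0) (XT.lf (nat_lit 0) (nat_lit 74429117701) (nat_lit 76) (nat_lit 9448343960) (nat_lit 76) (nat_lit 6035367280) (nat_lit 5) (nat_lit 4) (nat_lit 6) (nat_lit 5) (nat_lit 6) (nat_lit 4) (nat_lit 435) (nat_lit 304) (nat_lit 281)) (XT.lf (nat_lit 0) (nat_lit 356769388) (nat_lit 152) (nat_lit 2767190449) (nat_lit 76) (nat_lit 91081637980) (nat_lit 4) (nat_lit 5) (nat_lit 6) (nat_lit 5) (nat_lit 5) (nat_lit 4) (nat_lit 436) (nat_lit 304) (nat_lit 280)))) (XT.nd (nat_lit 51012) (nat_lit 0) (nat_lit 1064) (XT.nd (nat_lit 78) (nat_lit 0) (nat_lit 0) (XT.lf (nat_lit 0) (nat_lit 6953646754) (nat_lit 152) (nat_lit 88265907890) (nat_lit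 0) (nat_lit 3491363303) (nat_lit 3) (nat_lit 5) (nat_lit 5) (nat_lit 4) (nat_lit 3) (nat_lit 4) (nat_lit 437) (nat_lit 304) (nat_lit 279)) (XT.lf (nat_lit 0) (nat_lit 13817034835) (nat_lit 152) (nat_lit 79340710689) (nat_lit 0) (nat_lit 10285662482) (nat_lit 3) (nat_lit 5) (nat_lit 5) (nat_lit 4) (nat_lit 3) (nat_lit 4) (nat_lit 438) (nat_lit 304) (nat_lit 278))) (XT.nd (nat_lit 78) (nat_lit 0) (nat_lit 0) (XT.lf (nat_lit 0) (nat_lit 2453449726) (nat_lit 76) (nat_lit 6354814241) (nat_lit 76) (nat_lit 6354814241) (nat_lit 17) (nat_lit 4) (nat_lit 18) (nat_lit 5) (nat_lit 18) (nat_lit 4) (nat_lit 410) (nat_lit 305) (nat_lit 305)) (XT.lf (nat_lit 0) (nat_lit 24946262194) (nat_lit 76) (nat_lit 3437467259) (nat_lit 76) (nat_lit 3152682867) (nat_lit 17) (nat_lit 4) (nat_lit 18) (nat_lit 5) (nat_lit 18) (nat_lit 4) (nat_lit 411) (nat_lit 305) (nat_lit 304))))))))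
noncomputable def xc4 : XT := (XT.nd (nat_lit 1872) (nat_lit 152) (nat_lit 0) (XT.nd (nat_lit 936) (nat_lit 228) (nat_lit 0) (XT.nd (nat_lit 468) (nat_lit 304) (nat_lit 0) (XT.nd (nat_lit 234) (nat_lit 152) (nat_lit 0) (XT.nd (nat_lit 78) (nat_lit 76) (nat_lit 0) (XT.lf (nat_lit 0) (nat_lit 6605753030) (nat_lit 152) (nat_lit 20137780378) (nat_lit 0) (nat_lit 6065939803) (nat_lit 15) (nat_lit 5) (nat_lit 17) (nat_lit 4) (nat_lit 15) (nat_lit 4) (nat_lit 412) (nat_lit 305) (nat_lit 303)) (XT.nd (nat_lit 78) (nat_lit 76) (nat_lit 0) (XT.lf (nat_lit 0) (nat_lit 16573478781) (nat_lit 152) (nat_lit 1795307838) (nat_lit 0) (nat_lit 15782881244) (nat_lit 15) (nat_lit 5) (nat_lit 17) (nat_lit 4) (nat_lit 15) (nat_lit 4) (nat_lit 413) (nat_lit 305) (nat_lit 302)) (XT.lf (nat_lit 0) (nat_lit 17211274750) (nat_lit 76) (nat_lit 9691625764) (nat_lit 76) (nat_lit 8662186027) (nat_lit 14) (nat_lit 4) (nat_lit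 15) (nat_lit 5) (nat_lit 15) (nat_lit 4) (nat_lit 414) (nat_lit 305) (nat_lit 301)))) (XT.nd (nat_lit 78) (nat_lit 76) (nat_lit 0) (XT.lf (nat_lit 0) (nat_lit 408466610) (nat_lit 152) (nat_lit 427721279) (nat_lit 76) (nat_lit 36221124028) (nat_lit 13) (nat_lit 5) (nat_lit 15) (nat_lit 5) (nat_lit 14) (nat_lit 4) (nat_lit 415) (nat_lit 305) (nat_lit 300)) (XT.nd (nat_lit 78) (nat_lit 0) (nat_lit 0) (XT.lf (nat_lit 0) (nat_lit 9728549408) (nat_lit 152) (nat_lit 20595864055) (nat_lit 0) (nat_lit 8297922792) (nat_lit 12) (nat_lit 5) (nat_lit 14) (nat_lit 4) (nat_lit 12) (nat_lit 4) (nat_lit 416) (nat_lit 305) (nat_lit 299)) (XT.lf (nat_lit 0) (nat_lit 19251248408) (nat_lit 152) (nat_lit 3401966171) (nat_lit 0) (nat_lit 17620310266) (nat_lit 12) (nat_lit 5) (nat_lit 14) (nat_lit 4) (nat_lit 12) (nat_lit 4) (nat_lit 417) (nat_lit 305) (nat_lit 298))))) (XT.nd (nat_lit 234) (nat_lit 76) (nat_lit 0)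 (XT.nd (nat_lit 78) (nat_lit 152) (nat_lit 0) (XT.lf (nat_lit 0) (nat_lit 14418394287) (nat_lit 76) (nat_lit 14707168027) (nat_lit 76) (nat_lit 12885457002) (nat_lit 11) (nat_lit 4) (nat_lit 12) (nat_lit 5) (nat_lit 12) (nat_lit 4) (nat_lit 418) (nat_lit 305) (nat_lit 297)) (XT.nd (nat_lit 78) (nat_lit 152) (nat_lit 0) (XT.lf (nat_lit 0) (nat_lit 32701027267) (nat_lit 76) (nat_lit 6572191135) (nat_lit 76) (nat_lit 4568791651) (nat_lit 11) (nat_lit 4) (nat_lit 12) (nat_lit 5) (nat_lit 12) (nat_lit 4) (nat_lit 419) (nat_lit 305) (nat_lit 296)) (XT.lf (nat_lit 0) (nat_lit 3909442143) (nat_lit 152) (nat_lit 40062710119) (nat_lit 0) (nat_lit 1796397374) (nat_lit 9) (nat_lit 5) (nat_lit 11) (nat_lit 4) (nat_lit 9) (nat_lit 4) (nat_lit 420) (nat_lit 305) (nat_lit 295)))) (XT.nd (nat_lit 78) (nat_lit 76) (nat_lit 0) (XT.lf (nat_lit 0) (nat_lit 12659491813) (nat_lit 152) (nat_lit 24745854446) (nat_lit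 0) (nat_lit 10386450162) (nat_lit 9) (nat_lit 5) (nat_lit 11) (nat_lit 4) (nat_lit 9) (nat_lit 4) (nat_lit 421) (nat_lit 305) (nat_lit 294)) (XT.nd (nat_lit 78) (nat_lit 76) (nat_lit 0) (XT.lf (nat_lit 0) (nat_lit 21617861708) (nat_lit 152) (nat_lit 9112785898) (nat_lit 0) (nat_lit 19192442073) (nat_lit 9) (nat_lit 5) (nat_lit 11) (nat_lit 4) (nat_lit 9) (nat_lit 4) (nat_lit 422) (nat_lit 305) (nat_lit 293)) (XT.lf (nat_lit 0) (nat_lit 7010517564) (nat_lit 76) (nat_lit 23862753100) (nat_lit 76) (nat_lit 21292211577) (nat_lit 8) (nat_lit 4) (nat_lit 9) (nat_lit 5) (nat_lit 9) (nat_lit 4) (nat_lit 423) (nat_lit 305) (nat_lit 292)))))) (XT.nd (nat_lit 468) (nat_lit 76) (nat_lit 0) (XT.nd (nat_lit 234) (nat_lit 76) (nat_lit 0) (XT.nd (nat_lit 78) (nat_lit 76) (nat_lit 0) (XT.lf (nat_lit 0) (nat_lit 23714472472) (nat_lit 76) (nat_lit 16758912311) (nat_lit 76) (nat_lit 14050159466) (nat_lit 8) (nat_lit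 4) (nat_lit 9) (nat_lit 5) (nat_lit 9) (nat_lit 4) (nat_lit 424) (nat_lit 305) (nat_lit 291)) (XT.nd (nat_lit 78) (nat_lit 76) (nat_lit 0) (XT.lf (nat_lit 0) (nat_lit 40857487840) (nat_lit 76) (nat_lit 9494232604) (nat_lit 76) (nat_lit 6653849928) (nat_lit 8) (nat_lit 4) (nat_lit 9) (nat_lit 5) (nat_lit 9) (nat_lit 4) (nat_lit 425) (nat_lit 305) (nat_lit 290)) (XT.lf (nat_lit 0) (nat_lit 896485479) (nat_lit 152) (nat_lit 1145878897) (nat_lit 76) (nat_lit 57574842145) (nat_lit 7) (nat_lit 5) (nat_lit 9) (nat_lit 5) (nat_lit 8) (nat_lit 4) (nat_lit 426) (nat_lit 305) (nat_lit 289)))) (XT.nd (nat_lit 78) (nat_lit 0) (nat_lit 0) (XT.lf (nat_lit 0) (nat_lit 8698054819) (nat_lit 152) (nat_lit 47956283383) (nat_lit 0) (nat_lit 5702776608) (nat_lit 6) (nat_lit 5) (nat_lit 8) (nat_lit 4) (nat_lit 6) (nat_lit 4) (nat_lit 427) (nat_lit 305) (nat_lit 288)) (XT.nd (nat_lit 78) (nat_lit 0) (nat_lit 0) (XT.lf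 (nat_lit 0) (nat_lit 16741134590) (nat_lit 152) (nat_lit 34861885816) (nat_lit 0) (nat_lit 13635461430) (nat_lit 6) (nat_lit 5) (nat_lit 8) (nat_lit 4) (nat_lit 6) (nat_lit 4) (nat_lit 428) (nat_lit 305) (nat_lit 287)) (XT.lf (nat_lit 0) (nat_lit 25013897189) (nat_lit 152) (nat_lit 21452114157) (nat_lit 0) (nat_lit 21803085983) (nat_lit 6) (nat_lit 5) (nat_lit 8) (nat_lit 4) (nat_lit 6) (nat_lit 4) (nat_lit 429) (nat_lit 305) (nat_lit 286))))) (XT.nd (nat_lit 234) (nat_lit 0) (nat_lit 0) (XT.nd (nat_lit 78) (nat_lit 76) (nat_lit 0) (XT.lf (nat_lit 0) (nat_lit 33536039670) (nat_lit 152) (nat_lit 7695040377) (nat_lit 0) (nat_lit 30225096992) (nat_lit 6) (nat_lit 5) (nat_lit 8) (nat_lit 4) (nat_lit 6) (nat_lit 4) (nat_lit 430) (nat_lit 305) (nat_lit 285)) (XT.nd (nat_lit 78) (nat_lit 0) (nat_lit 0) (XT.lf (nat_lit 0) (nat_lit 6570300692) (nat_lit 76) (nat_lit 35820709907) (nat_lit 76) (nat_lit 32414403922)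 (nat_lit 5) (nat_lit 4) (nat_lit 6) (nat_lit 5) (nat_lit 6) (nat_lit 4) (nat_lit 431) (nat_lit 305) (nat_lit 284)) (XT.lf (nat_lit 0) (nat_lit 21410738824) (nat_lit 76) (nat_lit 30205343911) (nat_lit 76) (nat_lit 26708215728) (nat_lit 5) (nat_lit 4) (nat_lit 6) (nat_lit 5) (nat_lit 6) (nat_lit 4) (nat_lit 432) (nat_lit 305) (nat_lit 283)))) (XT.nd (nat_lit 78) (nat_lit 0) (nat_lit 0) (XT.lf (nat_lit 0) (nat_lit 36708462003) (nat_lit 76) (nat_lit 24449316959) (nat_lit 76) (nat_lit 20865691446) (nat_lit 5) (nat_lit 4) (nat_lit 6) (nat_lit 5) (nat_lit 6) (nat_lit 4) (nat_lit 433) (nat_lit 305) (nat_lit 282)) (XT.nd (nat_lit 78) (nat_lit 0) (nat_lit 0) (XT.lf (nat_lit 0) (nat_lit 52499893381) (nat_lit 76) (nat_lit 18538924226) (nat_lit 76) (nat_lit 14872920302) (nat_lit 5) (nat_lit 4) (nat_lit 6) (nat_lit 5) (nat_lit 6) (nat_lit 4) (nat_lit 434) (nat_lit 305) (nat_lit 281)) (XT.lf (nat_lit 0) (nat_lit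 68822631602) (nat_lit 76) (nat_lit 12460093348) (nat_lit 76) (nat_lit 8715633795) (nat_lit 5) (nat_lit 4) (nat_lit 6) (nat_lit 5) (nat_lit 6) (nat_lit 4) (nat_lit 435) (nat_lit 305) (nat_lit 280))))))) (XT.nd (nat_lit 51636) (nat_lit 0) (nat_lit 228) (XT.nd (nat_lit 51168) (nat_lit 0) (nat_lit 684) (XT.nd (nat_lit 50934) (nat_lit 0) (nat_lit 1064) (XT.nd (nat_lit 78) (nat_lit 152) (nat_lit 0) (XT.lf (nat_lit 0) (nat_lit 85715540329) (nat_lit 76) (nat_lit 6198350917) (nat_lit 76) (nat_lit 2379171718) (nat_lit 5) (nat_lit 4) (nat_lit 6) (nat_lit 5) (nat_lit 6) (nat_lit 4) (nat_lit 436) (nat_lit 305) (nat_lit 279)) (XT.nd (nat_lit 78) (nat_lit 0) (nat_lit 0) (XT.lf (nat_lit 0) (nat_lit 4116742664) (nat_lit 152) (nat_lit 94347037331) (nat_lit 0) (nat_lit 339712792) (nat_lit 3) (nat_lit 5) (nat_lit 5) (nat_lit 4) (nat_lit 3) (nat_lit 4) (nat_lit 437) (nat_lit 305) (nat_lit 278)) (XT.lf (nat_lit 0)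 (nat_lit 10922694341) (nat_lit 152) (nat_lit 85535147908) (nat_lit 0) (nat_lit 7079865516) (nat_lit 3) (nat_lit 5) (nat_lit 5) (nat_lit 4) (nat_lit 3) (nat_lit 4) (nat_lit 438) (nat_lit 305) (nat_lit 277)))) (XT.nd (nat_lit 78) (nat_lit 228) (nat_lit 0) (XT.lf (nat_lit 0) (nat_lit 11498789917) (nat_lit 76) (nat_lit 1272303518) (nat_lit 76) (nat_lit 1272303518) (nat_lit 20) (nat_lit 4) (nat_lit 21) (nat_lit 5) (nat_lit 21) (nat_lit 4) (nat_lit 408) (nat_lit 306) (nat_lit 306)) (XT.nd (nat_lit 78) (nat_lit 76) (nat_lit 0) (XT.lf (nat_lit 0) (nat_lit 7482616833) (nat_lit 152) (nat_lit 14512690839) (nat_lit 0) (nat_lit 7183593221) (nat_lit 18) (nat_lit 5) (nat_lit 20) (nat_lit 4) (nat_lit 18) (nat_lit 4) (nat_lit 409) (nat_lit 306) (nat_lit 305)) (XT.lf (nat_lit 0) (nat_lit 4587641102) (nat_lit 76) (nat_lit 13163629822) (nat_lit 76) (nat_lit 12579821817) (nat_lit 17) (nat_lit 4) (nat_lit 18) (nat_lit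 5) (nat_lit 18) (nat_lit 4) (nat_lit 410) (nat_lit 306) (nat_lit 304))))) (XT.nd (nat_lit 234) (nat_lit 228) (nat_lit 0) (XT.nd (nat_lit 78) (nat_lit 152) (nat_lit 0) (XT.lf (nat_lit 0) (nat_lit 24322948271) (nat_lit 76) (nat_lit 4039066433) (nat_lit 76) (nat_lit 3184035197) (nat_lit 17) (nat_lit 4) (nat_lit 18) (nat_lit 5) (nat_lit 18) (nat_lit 4) (nat_lit 411) (nat_lit 306) (nat_lit 303)) (XT.nd (nat_lit 78) (nat_lit 0) (nat_lit 0) (XT.lf (nat_lit 0) (nat_lit 6408210328) (nat_lit 152) (nat_lit 21088621925) (nat_lit 0) (nat_lit 5327298604) (nat_lit 15) (nat_lit 5) (nat_lit 17) (nat_lit 4) (nat_lit 15) (nat_lit 4) (nat_lit 412) (nat_lit 306) (nat_lit 302)) (XT.lf (nat_lit 0) (nat_lit 16228552856) (nat_lit 152) (nat_lit 3033401844) (nat_lit 0) (nat_lit 14908798932) (nat_lit 15) (nat_lit 5) (nat_lit 17) (nat_lit 4) (nat_lit 15) (nat_lit 4) (nat_lit 413) (nat_lit 306) (nat_lit 301)))) (XT.nd (nat_lit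 78) (nat_lit 152) (nat_lit 0) (XT.lf (nat_lit 0) (nat_lit 15669521821) (nat_lit 76) (nat_lit 10733267522) (nat_lit 76) (nat_lit 9186044837) (nat_lit 14) (nat_lit 4) (nat_lit 15) (nat_lit 5) (nat_lit 15) (nat_lit 4) (nat_lit 414) (nat_lit 306) (nat_lit 300)) (XT.nd (nat_lit 78) (nat_lit 152) (nat_lit 0) (XT.lf (nat_lit 0) (nat_lit 34826230588) (nat_lit 76) (nat_lit 2011450889) (nat_lit 76) (nat_lit 247591288) (nat_lit 14) (nat_lit 4) (nat_lit 15) (nat_lit 5) (nat_lit 15) (nat_lit 4) (nat_lit 415) (nat_lit 306) (nat_lit 299)) (XT.lf (nat_lit 0) (nat_lit 8913125674) (nat_lit 152) (nat_lit 22741845206) (nat_lit 0) (nat_lit 7000329098) (nat_lit 12) (nat_lit 5) (nat_lit 14) (nat_lit 4) (nat_lit 12) (nat_lit 4) (nat_lit 416) (nat_lit 306) (nat_lit 298)))))) (XT.nd (nat_lit 468) (nat_lit 228) (nat_lit 0) (XT.nd (nat_lit 234) (nat_lit 152) (nat_lit 0) (XT.nd (nat_lit 78) (nat_lit 76) (nat_lit 0) (XT.lf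 (nat_lit 0) (nat_lit 18307474201) (nat_lit 152) (nat_lit 5798965432) (nat_lit 0) (nat_lit 16203904742) (nat_lit 12) (nat_lit 5) (nat_lit 14) (nat_lit 4) (nat_lit 12) (nat_lit 4) (nat_lit 417) (nat_lit 306) (nat_lit 297)) (XT.nd (nat_lit 78) (nat_lit 0) (nat_lit 0) (XT.lf (nat_lit 0) (nat_lit 11729867315) (nat_lit 76) (nat_lit 16303838481) (nat_lit 76) (nat_lit 14018580563) (nat_lit 11) (nat_lit 4) (nat_lit 12) (nat_lit 5) (nat_lit 12) (nat_lit 4) (nat_lit 418) (nat_lit 306) (nat_lit 296)) (XT.lf (nat_lit 0) (nat_lit 29780288175) (nat_lit 76) (nat_lit 8282423881) (nat_lit 76) (nat_lit 5824129335) (nat_lit 11) (nat_lit 4) (nat_lit 12) (nat_lit 5) (nat_lit 12) (nat_lit 4) (nat_lit 419) (nat_lit 306) (nat_lit 295)))) (XT.nd (nat_lit 78) (nat_lit 0) (nat_lit 0) (XT.lf (nat_lit 0) (nat_lit 2483818934) (nat_lit 76) (nat_lit 31900410) (nat_lit 152) (nat_lit 43302914522) (nat_lit 9) (nat_lit 5) (nat_lit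 10) (nat_lit 5) (nat_lit 11) (nat_lit 4) (nat_lit 420) (nat_lit 306) (nat_lit 294)) (XT.nd (nat_lit 78) (nat_lit 0) (nat_lit 0) (XT.lf (nat_lit 0) (nat_lit 11153666144) (nat_lit 152) (nat_lit 28236984275) (nat_lit 0) (nat_lit 8454597544) (nat_lit 9) (nat_lit 5) (nat_lit 11) (nat_lit 4) (nat_lit 9) (nat_lit 4) (nat_lit 421) (nat_lit 306) (nat_lit 293)) (XT.lf (nat_lit 0) (nat_lit 20005563445) (nat_lit 152) (nat_lit 12812803026) (nat_lit 0) (nat_lit 17161372957) (nat_lit 9) (nat_lit 5) (nat_lit 11) (nat_lit 4) (nat_lit 9) (nat_lit 4) (nat_lit 422) (nat_lit 306) (nat_lit 292))))) (XT.nd (nat_lit 234) (nat_lit 152) (nat_lit 0) (XT.nd (nat_lit 78) (nat_lit 0) (nat_lit 0) (XT.lf (nat_lit 0) (nat_lit 3033963255) (nat_lit 76) (nat_lit 26087381602) (nat_lit 76) (nat_lit 23104979792) (nat_lit 8) (nat_lit 4) (nat_lit 9) (nat_lit 5) (nat_lit 9) (nat_lit 4) (nat_lit 423) (nat_lit 306) (nat_lit 291)) (XT.nd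 (nat_lit 78) (nat_lit 0) (nat_lit 0) (XT.lf (nat_lit 0) (nat_lit 19544680463) (nat_lit 76) (nat_lit 19078347214) (nat_lit 76) (nat_lit 15964315573) (nat_lit 8) (nat_lit 4) (nat_lit 9) (nat_lit 5) (nat_lit 9) (nat_lit 4) (nat_lit 424) (nat_lit 306) (nat_lit 290)) (XT.lf (nat_lit 0) (nat_lit 36503659925) (nat_lit 76) (nat_lit 11903959317) (nat_lit 76) (nat_lit 8664565932) (nat_lit 8) (nat_lit 4) (nat_lit 9) (nat_lit 5) (nat_lit 9) (nat_lit 4) (nat_lit 425) (nat_lit 306) (nat_lit 289)))) (XT.nd (nat_lit 156) (nat_lit 0) (nat_lit 0) (XT.nd (nat_lit 78) (nat_lit 152) (nat_lit 0) (XT.lf (nat_lit 0) (nat_lit 53951280164) (nat_lit 76) (nat_lit 4547136034) (nat_lit 76) (nat_lit 1188350512) (nat_lit 8) (nat_lit 4) (nat_lit 9) (nat_lit 5) (nat_lit 9) (nat_lit 4) (nat_lit 426) (nat_lit 306) (nat_lit 288)) (XT.lf (nat_lit 0) (nat_lit 6478549882) (nat_lit 152) (nat_lit 52846008499) (nat_lit 0) (nat_lit 3107198116)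 (nat_lit 6) (nat_lit 5) (nat_lit 8) (nat_lit 4) (nat_lit 6) (nat_lit 4) (nat_lit 427) (nat_lit 306) (nat_lit 287))) (XT.nd (nat_lit 78) (nat_lit 0) (nat_lit 0) (XT.lf (nat_lit 0) (nat_lit 14437497379) (nat_lit 152) (nat_lit 39917145462) (nat_lit 0) (nat_lit 10961007567) (nat_lit 6) (nat_lit 5) (nat_lit 8) (nat_lit 4) (nat_lit 6) (nat_lit 4) (nat_lit 428) (nat_lit 306) (nat_lit 286)) (XT.lf (nat_lit 0) (nat_lit 22630134004) (nat_lit 152) (nat_lit 26665025736) (nat_lit 0) (nat_lit 19053512719) (nat_lit 6) (nat_lit 5) (nat_lit 8) (nat_lit 4) (nat_lit 6) (nat_lit 4) (nat_lit 429) (nat_lit 306) (nat_lit 285))))))))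
noncomputable def xc5 : XT := (XT.nd (nat_lit 52416) (nat_lit 0) (nat_lit 0) (XT.nd (nat_lit 51480) (nat_lit 0) (nat_lit 532) (XT.nd (nat_lit 468) (nat_lit 152) (nat_lit 0) (XT.nd (nat_lit 234) (nat_lit 0) (nat_lit 0) (XT.nd (nat_lit 78) (nat_lit 76) (nat_lit 0) (XT.lf (nat_lit 0) (nat_lit 31075966034) (nat_lit 152) (nat_lit 13058096654) (nat_lit 0) (nat_lit 27403981442) (nat_lit 6) (nat_lit 5) (nat_lit 8) (nat_lit 4) (nat_lit 6) (nat_lit 4) (nat_lit 430) (nat_lit 306) (nat_lit 284)) (XT.nd (nat_lit 78) (nat_lit 0) (nat_lit 0) (XT.lf (nat_lit 0) (nat_lit 954668249) (nat_lit 76) (nat_lit 38849611198) (nat_lit 76) (nat_lit 35086804409) (nat_lit 5) (nat_lit 4) (nat_lit 6) (nat_lit 5) (nat_lit 6) (nat_lit 4) (nat_lit 431) (nat_lit 306) (nat_lit 283)) (XT.lf (nat_lit 0) (nat_lit 15656210352) (nat_lit 76) (nat_lit 33302590248) (nat_lit 76) (nat_lit 29453286128) (nat_lit 5) (nat_lit 4) (nat_lit 6) (nat_lit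 5) (nat_lit 6) (nat_lit 4) (nat_lit 432) (nat_lit 306) (nat_lit 282)))) (XT.nd (nat_lit 78) (nat_lit 0) (nat_lit 0) (XT.lf (nat_lit 0) (nat_lit 30821651599) (nat_lit 76) (nat_lit 27611653816) (nat_lit 76) (nat_lit 23679971286) (nat_lit 5) (nat_lit 4) (nat_lit 6) (nat_lit 5) (nat_lit 6) (nat_lit 4) (nat_lit 433) (nat_lit 306) (nat_lit 281)) (XT.nd (nat_lit 78) (nat_lit 0) (nat_lit 0) (XT.lf (nat_lit 0) (nat_lit 46487100184) (nat_lit 76) (nat_lit 21763252055) (nat_lit 76) (nat_lit 17753113895) (nat_lit 5) (nat_lit 4) (nat_lit 6) (nat_lit 5) (nat_lit 6) (nat_lit 4) (nat_lit 434) (nat_lit 306) (nat_lit 280)) (XT.lf (nat_lit 0) (nat_lit 62689854793) (nat_lit 76) (nat_lit 15743460197) (nat_lit 76) (nat_lit 11658602391) (nat_lit 5) (nat_lit 4) (nat_lit 6) (nat_lit 5) (nat_lit 6) (nat_lit 4) (nat_lit 435) (nat_lit 306) (nat_lit 279))))) (XT.nd (nat_lit 50778) (nat_lit 0) (nat_lit 1292) (XT.nd (nat_lit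 78) (nat_lit 152) (nat_lit 0) (XT.lf (nat_lit 0) (nat_lit 79468493413) (nat_lit 76) (nat_lit 9537945405) (nat_lit 76) (nat_lit 5381926031) (nat_lit 5) (nat_lit 4) (nat_lit 6) (nat_lit 5) (nat_lit 6) (nat_lit 4) (nat_lit 436) (nat_lit 306) (nat_lit 278)) (XT.nd (nat_lit 78) (nat_lit 76) (nat_lit 0) (XT.lf (nat_lit 0) (nat_lit 1070553536) (nat_lit 152) (nat_lit 2050568616) (nat_lit 76) (nat_lit 95781601156) (nat_lit 4) (nat_lit 5) (nat_lit 6) (nat_lit 5) (nat_lit 5) (nat_lit 4) (nat_lit 437) (nat_lit 306) (nat_lit 277)) (XT.lf (nat_lit 0) (nat_lit 7771499082) (nat_lit 152) (nat_lit 92260526935) (nat_lit 0) (nat_lit 3608064192) (nat_lit 3) (nat_lit 5) (nat_lit 5) (nat_lit 4) (nat_lit 3) (nat_lit 4) (nat_lit 438) (nat_lit 306) (nat_lit 276)))) (XT.nd (nat_lit 78) (nat_lit 76) (nat_lit 0) (XT.lf (nat_lit 0) (nat_lit 2339534362) (nat_lit 152) (nat_lit 8350416954) (nat_lit 0) (nat_lit 2339534362) (nat_lit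 21) (nat_lit 5) (nat_lit 23) (nat_lit 4) (nat_lit 21) (nat_lit 4) (nat_lit 406) (nat_lit 307) (nat_lit 307)) (XT.nd (nat_lit 78) (nat_lit 0) (nat_lit 0) (XT.lf (nat_lit 0) (nat_lit 2655611744) (nat_lit 76) (nat_lit 12357971051) (nat_lit 76) (nat_lit 12034577014) (nat_lit 20) (nat_lit 4) (nat_lit 21) (nat_lit 5) (nat_lit 21) (nat_lit 4) (nat_lit 407) (nat_lit 307) (nat_lit 306)) (XT.lf (nat_lit 0) (nat_lit 22682057781) (nat_lit 76) (nat_lit 3020511687) (nat_lit 76) (nat_lit 2389123330) (nat_lit 20) (nat_lit 4) (nat_lit 21) (nat_lit 5) (nat_lit 21) (nat_lit 4) (nat_lit 408) (nat_lit 307) (nat_lit 305)))))) (XT.nd (nat_lit 468) (nat_lit 304) (nat_lit 0) (XT.nd (nat_lit 234) (nat_lit 228) (nat_lit 0) (XT.nd (nat_lit 78) (nat_lit 76) (nat_lit 0) (XT.lf (nat_lit 0) (nat_lit 7466107604) (nat_lit 152) (nat_lit 15154399204) (nat_lit 0) (nat_lit 6568324806) (nat_lit 18) (nat_lit 5) (nat_lit 20) (nat_lit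 4) (nat_lit 18) (nat_lit 4) (nat_lit 409) (nat_lit 307) (nat_lit 304)) (XT.nd (nat_lit 78) (nat_lit 0) (nat_lit 0) (XT.lf (nat_lit 0) (nat_lit 3629105909) (nat_lit 76) (nat_lit 13942906789) (nat_lit 76) (nat_lit 12773900760) (nat_lit 17) (nat_lit 4) (nat_lit 18) (nat_lit 5) (nat_lit 18) (nat_lit 4) (nat_lit 410) (nat_lit 307) (nat_lit 303)) (XT.lf (nat_lit 0) (nat_lit 23074836343) (nat_lit 76) (nat_lit 4958912766) (nat_lit 76) (nat_lit 3531598898) (nat_lit 17) (nat_lit 4) (nat_lit 18) (nat_lit 5) (nat_lit 18) (nat_lit 4) (nat_lit 411) (nat_lit 307) (nat_lit 302)))) (XT.nd (nat_lit 78) (nat_lit 76) (nat_lit 0) (XT.lf (nat_lit 0) (nat_lit 5898654884) (nat_lit 152) (nat_lit 22675873090) (nat_lit 0) (nat_lit 4274071065) (nat_lit 15) (nat_lit 5) (nat_lit 17) (nat_lit 4) (nat_lit 15) (nat_lit 4) (nat_lit 412) (nat_lit 307) (nat_lit 301)) (XT.nd (nat_lit 78) (nat_lit 76) (nat_lit 0) (XT.lf (nat_lit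 0) (nat_lit 15578632438) (nat_lit 152) (nat_lit 4894226780) (nat_lit 0) (nat_lit 13726579857) (nat_lit 15) (nat_lit 5) (nat_lit 17) (nat_lit 4) (nat_lit 15) (nat_lit 4) (nat_lit 413) (nat_lit 307) (nat_lit 300)) (XT.lf (nat_lit 0) (nat_lit 13505930986) (nat_lit 76) (nat_lit 12092459253) (nat_lit 76) (nat_lit 10023769756) (nat_lit 14) (nat_lit 4) (nat_lit 15) (nat_lit 5) (nat_lit 15) (nat_lit 4) (nat_lit 414) (nat_lit 307) (nat_lit 299))))) (XT.nd (nat_lit 234) (nat_lit 152) (nat_lit 0) (XT.nd (nat_lit 78) (nat_lit 152) (nat_lit 0) (XT.lf (nat_lit 0) (nat_lit 32409561817) (nat_lit 76) (nat_lit 3493972648) (nat_lit 76) (nat_lit 1218962278) (nat_lit 14) (nat_lit 4) (nat_lit 15) (nat_lit 5) (nat_lit 15) (nat_lit 4) (nat_lit 415) (nat_lit 307) (nat_lit 298)) (XT.nd (nat_lit 78) (nat_lit 0) (nat_lit 0) (XT.lf (nat_lit 0) (nat_lit 7793812284) (nat_lit 152) (nat_lit 25509712540) (nat_lit 0) (nat_lit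 5394291470) (nat_lit 12) (nat_lit 5) (nat_lit 14) (nat_lit 4) (nat_lit 12) (nat_lit 4) (nat_lit 416) (nat_lit 307) (nat_lit 297)) (XT.lf (nat_lit 0) (nat_lit 17065922265) (nat_lit 152) (nat_lit 8805897632) (nat_lit 0) (nat_lit 14484712991) (nat_lit 12) (nat_lit 5) (nat_lit 14) (nat_lit 4) (nat_lit 12) (nat_lit 4) (nat_lit 417) (nat_lit 307) (nat_lit 296)))) (XT.nd (nat_lit 78) (nat_lit 76) (nat_lit 0) (XT.lf (nat_lit 0) (nat_lit 8430879148) (nat_lit 76) (nat_lit 18213145157) (nat_lit 76) (nat_lit 15458899255) (nat_lit 11) (nat_lit 4) (nat_lit 12) (nat_lit 5) (nat_lit 12) (nat_lit 4) (nat_lit 418) (nat_lit 307) (nat_lit 295)) (XT.nd (nat_lit 78) (nat_lit 76) (nat_lit 0) (XT.lf (nat_lit 0) (nat_lit 26260145608) (nat_lit 76) (nat_lit 10299885121) (nat_lit 76) (nat_lit 7380842431) (nat_lit 11) (nat_lit 4) (nat_lit 12) (nat_lit 5) (nat_lit 12) (nat_lit 4) (nat_lit 419) (nat_lit 307) (nat_lit 294))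 (XT.lf (nat_lit 0) (nat_lit 856818645) (nat_lit 152) (nat_lit 1336650162) (nat_lit 76) (nat_lit 43683626919) (nat_lit 10) (nat_lit 5) (nat_lit 12) (nat_lit 5) (nat_lit 11) (nat_lit 4) (nat_lit 420) (nat_lit 307) (nat_lit 293))))))) (XT.nd (nat_lit 936) (nat_lit 152) (nat_lit 0) (XT.nd (nat_lit 468) (nat_lit 228) (nat_lit 0) (XT.nd (nat_lit 234) (nat_lit 76) (nat_lit 0) (XT.nd (nat_lit 78) (nat_lit 0) (nat_lit 0) (XT.lf (nat_lit 0) (nat_lit 9354280373) (nat_lit 152) (nat_lit 32330889557) (nat_lit 0) (nat_lit 6222758472) (nat_lit 9) (nat_lit 5) (nat_lit 11) (nat_lit 4) (nat_lit 9) (nat_lit 4) (nat_lit 421) (nat_lit 307) (nat_lit 292)) (XT.nd (nat_lit 78) (nat_lit 0) (nat_lit 0) (XT.lf (nat_lit 0) (nat_lit 18104775204) (nat_lit 152) (nat_lit 17105648591) (nat_lit 0) (nat_lit 14835041981) (nat_lit 9) (nat_lit 5) (nat_lit 11) (nat_lit 4) (nat_lit 9) (nat_lit 4) (nat_lit 422) (nat_lit 307) (nat_lit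 291)) (XT.lf (nat_lit 0) (nat_lit 27094818525) (nat_lit 152) (nat_lit 1507552798) (nat_lit 0) (nat_lit 23693455471) (nat_lit 9) (nat_lit 5) (nat_lit 11) (nat_lit 4) (nat_lit 9) (nat_lit 4) (nat_lit 423) (nat_lit 307) (nat_lit 290)))) (XT.nd (nat_lit 78) (nat_lit 0) (nat_lit 0) (XT.lf (nat_lit 0) (nat_lit 14789125247) (nat_lit 76) (nat_lit 21698852072) (nat_lit 76) (nat_lit 18172127274) (nat_lit 8) (nat_lit 4) (nat_lit 9) (nat_lit 5) (nat_lit 9) (nat_lit 4) (nat_lit 424) (nat_lit 307) (nat_lit 289)) (XT.nd (nat_lit 78) (nat_lit 0) (nat_lit 0) (XT.lf (nat_lit 0) (nat_lit 31572832418) (nat_lit 76) (nat_lit 14610456375) (nat_lit 76) (nat_lit 10964339440) (nat_lit 8) (nat_lit 4) (nat_lit 9) (nat_lit 5) (nat_lit 9) (nat_lit 4) (nat_lit 425) (nat_lit 307) (nat_lit 288)) (XT.lf (nat_lit 0) (nat_lit 48853526667) (nat_lit 76) (nat_lit 7335530425) (nat_lit 76) (nat_lit 3575706693) (nat_lit 8) (nat_lit 4)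 (nat_lit 9) (nat_lit 5) (nat_lit 9) (nat_lit 4) (nat_lit 426) (nat_lit 307) (nat_lit 287))))) (XT.nd (nat_lit 234) (nat_lit 76) (nat_lit 0) (XT.nd (nat_lit 78) (nat_lit 0) (nat_lit 0) (XT.lf (nat_lit 0) (nat_lit 3975598538) (nat_lit 152) (nat_lit 58319565657) (nat_lit 0) (nat_lit 220146189) (nat_lit 6) (nat_lit 5) (nat_lit 8) (nat_lit 4) (nat_lit 6) (nat_lit 4) (nat_lit 427) (nat_lit 307) (nat_lit 286)) (XT.nd (nat_lit 78) (nat_lit 0) (nat_lit 0) (XT.lf (nat_lit 0) (nat_lit 11854420061) (nat_lit 152) (nat_lit 45548354553) (nat_lit 0) (nat_lit 7998836239) (nat_lit 6) (nat_lit 5) (nat_lit 8) (nat_lit 4) (nat_lit 6) (nat_lit 4) (nat_lit 428) (nat_lit 307) (nat_lit 285)) (XT.lf (nat_lit 0) (nat_lit 19970746234) (nat_lit 152) (nat_lit 32446379524) (nat_lit 0) (nat_lit 16019799105) (nat_lit 6) (nat_lit 5) (nat_lit 8) (nat_lit 4) (nat_lit 6) (nat_lit 4) (nat_lit 429) (nat_lit 307) (nat_lit 284)))) (XT.nd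 (nat_lit 78) (nat_lit 76) (nat_lit 0) (XT.lf (nat_lit 0) (nat_lit 28343901643) (nat_lit 152) (nat_lit 18982445393) (nat_lit 0) (nat_lit 24302132317) (nat_lit 6) (nat_lit 5) (nat_lit 8) (nat_lit 4) (nat_lit 6) (nat_lit 4) (nat_lit 430) (nat_lit 307) (nat_lit 283)) (XT.nd (nat_lit 78) (nat_lit 76) (nat_lit 0) (XT.lf (nat_lit 0) (nat_lit 36993822372) (nat_lit 152) (nat_lit 5124495173) (nat_lit 0) (nat_lit 32865555715) (nat_lit 6) (nat_lit 5) (nat_lit 8) (nat_lit 4) (nat_lit 6) (nat_lit 4) (nat_lit 431) (nat_lit 307) (nat_lit 282)) (XT.lf (nat_lit 0) (nat_lit 9342777495) (nat_lit 76) (nat_lit 36688134468) (nat_lit 76) (nat_lit 32477489401) (nat_lit 5) (nat_lit 4) (nat_lit 6) (nat_lit 5) (nat_lit 6) (nat_lit 4) (nat_lit 432) (nat_lit 307) (nat_lit 281)))))) (XT.nd (nat_lit 50856) (nat_lit 0) (nat_lit 1064) (XT.nd (nat_lit 234) (nat_lit 152) (nat_lit 0) (XT.nd (nat_lit 78) (nat_lit 0) (nat_lit 0) (XT.lf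 (nat_lit 0) (nat_lit 24382235950) (nat_lit 76) (nat_lit 31059189008) (nat_lit 76) (nat_lit 26770088312) (nat_lit 5) (nat_lit 4) (nat_lit 6) (nat_lit 5) (nat_lit 6) (nat_lit 4) (nat_lit 433) (nat_lit 307) (nat_lit 280)) (XT.nd (nat_lit 78) (nat_lit 0) (nat_lit 0) (XT.lf (nat_lit 0) (nat_lit 39927700922) (nat_lit 76) (nat_lit 25269826267) (nat_lit 76) (nat_lit 20906005924) (nat_lit 5) (nat_lit 4) (nat_lit 6) (nat_lit 5) (nat_lit 6) (nat_lit 4) (nat_lit 434) (nat_lit 307) (nat_lit 279)) (XT.lf (nat_lit 0) (nat_lit 56016185424) (nat_lit 76) (nat_lit 19306262047) (nat_lit 76) (nat_lit 14871280137) (nat_lit 5) (nat_lit 4) (nat_lit 6) (nat_lit 5) (nat_lit 6) (nat_lit 4) (nat_lit 435) (nat_lit 307) (nat_lit 278)))) (XT.nd (nat_lit 78) (nat_lit 152) (nat_lit 0) (XT.lf (nat_lit 0) (nat_lit 72685995372) (nat_lit 76) (nat_lit 13154297388) (nat_lit 76) (nat_lit 8651542555) (nat_lit 5) (nat_lit 4) (nat_lit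 6) (nat_lit 5) (nat_lit 6) (nat_lit 4) (nat_lit 436) (nat_lit 307) (nat_lit 277)) (XT.nd (nat_lit 78) (nat_lit 152) (nat_lit 0) (XT.lf (nat_lit 0) (nat_lit 89976820788) (nat_lit 76) (nat_lit 6799284753) (nat_lit 76) (nat_lit 2231984280) (nat_lit 5) (nat_lit 4) (nat_lit 6) (nat_lit 5) (nat_lit 6) (nat_lit 4) (nat_lit 437) (nat_lit 307) (nat_lit 276)) (XT.lf (nat_lit 0) (nat_lit 4216544922) (nat_lit 76) (nat_lit 140754305) (nat_lit 152) (nat_lit 99393459288) (nat_lit 3) (nat_lit 5) (nat_lit 4) (nat_lit 5) (nat_lit 5) (nat_lit 4) (nat_lit 438) (nat_lit 307) (nat_lit 275))))) (XT.nd (nat_lit 234) (nat_lit 304) (nat_lit 0) (XT.nd (nat_lit 78) (nat_lit 228) (nat_lit 0) (XT.lf (nat_lit 0) (nat_lit 4732725981) (nat_lit 152) (nat_lit 2646364547) (nat_lit 0) (nat_lit 4732725981) (nat_lit 24) (nat_lit 5) (nat_lit 26) (nat_lit 4) (nat_lit 24) (nat_lit 4) (nat_lit 404) (nat_lit 308) (nat_lit 308)) (XT.nd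 (nat_lit 78) (nat_lit 152) (nat_lit 0) (XT.lf (nat_lit 0) (nat_lit 14629363549) (nat_lit 76) (nat_lit 5420129915) (nat_lit 76) (nat_lit 5070379265) (nat_lit 23) (nat_lit 4) (nat_lit 24) (nat_lit 5) (nat_lit 24) (nat_lit 4) (nat_lit 405) (nat_lit 308) (nat_lit 307)) (XT.lf (nat_lit 0) (nat_lit 4850655091) (nat_lit 152) (nat_lit 17025667244) (nat_lit 0) (nat_lit 4187697316) (nat_lit 21) (nat_lit 5) (nat_lit 23) (nat_lit 4) (nat_lit 21) (nat_lit 4) (nat_lit 406) (nat_lit 308) (nat_lit 306)))) (XT.nd (nat_lit 156) (nat_lit 228) (nat_lit 0) (XT.nd (nat_lit 78) (nat_lit 0) (nat_lit 0) (XT.lf (nat_lit 0) (nat_lit 2008791536) (nat_lit 76) (nat_lit 13010181547) (nat_lit 76) (nat_lit 12039229451) (nat_lit 20) (nat_lit 4) (nat_lit 21) (nat_lit 5) (nat_lit 21) (nat_lit 4) (nat_lit 407) (nat_lit 308) (nat_lit 305)) (XT.lf (nat_lit 0) (nat_lit 21734740379) (nat_lit 76) (nat_lit 3817970387) (nat_lit 76) (nat_lit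 2553690366) (nat_lit 20) (nat_lit 4) (nat_lit 21) (nat_lit 5) (nat_lit 21) (nat_lit 4) (nat_lit 408) (nat_lit 308) (nat_lit 304))) (XT.nd (nat_lit 78) (nat_lit 76) (nat_lit 0) (XT.lf (nat_lit 0) (nat_lit 7134026225) (nat_lit 152) (nat_lit 16439343811) (nat_lit 0) (nat_lit 5635346664) (nat_lit 18) (nat_lit 5) (nat_lit 20) (nat_lit 4) (nat_lit 18) (nat_lit 4) (nat_lit 409) (nat_lit 308) (nat_lit 303)) (XT.lf (nat_lit 0) (nat_lit 2029011649) (nat_lit 76) (nat_lit 15049314805) (nat_lit 76) (nat_lit 13292327404) (nat_lit 17) (nat_lit 4) (nat_lit 18) (nat_lit 5) (nat_lit 18) (nat_lit 4) (nat_lit 410) (nat_lit 308) (nat_lit 302))))))))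
noncomputable def xc6 : XT := (XT.nd (nat_lit 1872) (nat_lit 76) (nat_lit 0) (XT.nd (nat_lit 936) (nat_lit 304) (nat_lit 0) (XT.nd (nat_lit 468) (nat_lit 228) (nat_lit 0) (XT.nd (nat_lit 234) (nat_lit 228) (nat_lit 0) (XT.nd (nat_lit 78) (nat_lit 152) (nat_lit 0) (XT.lf (nat_lit 0) (nat_lit 21198954715) (nat_lit 76) (nat_lit 6199196369) (nat_lit 76) (nat_lit 4196201502) (nat_lit 17) (nat_lit 4) (nat_lit 18) (nat_lit 5) (nat_lit 18) (nat_lit 4) (nat_lit 411) (nat_lit 308) (nat_lit 301)) (XT.nd (nat_lit 78) (nat_lit 0) (nat_lit 0) (XT.lf (nat_lit 0) (nat_lit 5075873472) (nat_lit 152) (nat_lit 24903313044) (nat_lit 0) (nat_lit 2903749500) (nat_lit 15) (nat_lit 5) (nat_lit 17) (nat_lit 4) (nat_lit 15) (nat_lit 4) (nat_lit 412) (nat_lit 308) (nat_lit 300)) (XT.lf (nat_lit 0) (nat_lit 14622170099) (nat_lit 152) (nat_lit 7382213181) (nat_lit 0) (nat_lit 12233409211) (nat_lit 15) (nat_lit 5) (nat_lit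 17) (nat_lit 4) (nat_lit 15) (nat_lit 4) (nat_lit 413) (nat_lit 308) (nat_lit 299)))) (XT.nd (nat_lit 78) (nat_lit 152) (nat_lit 0) (XT.lf (nat_lit 0) (nat_lit 10715350840) (nat_lit 76) (nat_lit 13772437127) (nat_lit 76) (nat_lit 11177355367) (nat_lit 14) (nat_lit 4) (nat_lit 15) (nat_lit 5) (nat_lit 15) (nat_lit 4) (nat_lit 414) (nat_lit 308) (nat_lit 298)) (XT.nd (nat_lit 78) (nat_lit 152) (nat_lit 0) (XT.lf (nat_lit 0) (nat_lit 29377955064) (nat_lit 76) (nat_lit 5291407691) (nat_lit 76) (nat_lit 2499829862) (nat_lit 14) (nat_lit 4) (nat_lit 15) (nat_lit 5) (nat_lit 15) (nat_lit 4) (nat_lit 415) (nat_lit 308) (nat_lit 297)) (XT.lf (nat_lit 0) (nat_lit 6367944205) (nat_lit 152) (nat_lit 28906056217) (nat_lit 0) (nat_lit 3475986008) (nat_lit 12) (nat_lit 5) (nat_lit 14) (nat_lit 4) (nat_lit 12) (nat_lit 4) (nat_lit 416) (nat_lit 308) (nat_lit 296))))) (XT.nd (nat_lit 234) (nat_lit 152) (nat_lit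 0) (XT.nd (nat_lit 78) (nat_lit 76) (nat_lit 0) (XT.lf (nat_lit 0) (nat_lit 15523636523) (nat_lit 152) (nat_lit 12429922134) (nat_lit 0) (nat_lit 12458641699) (nat_lit 12) (nat_lit 5) (nat_lit 14) (nat_lit 4) (nat_lit 12) (nat_lit 4) (nat_lit 417) (nat_lit 308) (nat_lit 295)) (XT.nd (nat_lit 78) (nat_lit 0) (nat_lit 0) (XT.lf (nat_lit 0) (nat_lit 4513575052) (nat_lit 76) (nat_lit 20439634023) (nat_lit 76) (nat_lit 17209842410) (nat_lit 11) (nat_lit 4) (nat_lit 12) (nat_lit 5) (nat_lit 12) (nat_lit 4) (nat_lit 418) (nat_lit 308) (nat_lit 294)) (XT.lf (nat_lit 0) (nat_lit 22132218274) (nat_lit 76) (nat_lit 12629378335) (nat_lit 76) (nat_lit 9242637399) (nat_lit 11) (nat_lit 4) (nat_lit 12) (nat_lit 5) (nat_lit 12) (nat_lit 4) (nat_lit 419) (nat_lit 308) (nat_lit 293)))) (XT.nd (nat_lit 78) (nat_lit 152) (nat_lit 0) (XT.lf (nat_lit 0) (nat_lit 40220576858) (nat_lit 76) (nat_lit 4629713587) (nat_lit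 76) (nat_lit 1093497106) (nat_lit 11) (nat_lit 4) (nat_lit 12) (nat_lit 5) (nat_lit 12) (nat_lit 4) (nat_lit 420) (nat_lit 308) (nat_lit 292)) (XT.nd (nat_lit 78) (nat_lit 0) (nat_lit 0) (XT.lf (nat_lit 0) (nat_lit 7257050250) (nat_lit 152) (nat_lit 37037317685) (nat_lit 0) (nat_lit 3685619043) (nat_lit 9) (nat_lit 5) (nat_lit 11) (nat_lit 4) (nat_lit 9) (nat_lit 4) (nat_lit 421) (nat_lit 308) (nat_lit 291)) (XT.lf (nat_lit 0) (nat_lit 15910971300) (nat_lit 152) (nat_lit 22001543656) (nat_lit 0) (nat_lit 12207910262) (nat_lit 9) (nat_lit 5) (nat_lit 11) (nat_lit 4) (nat_lit 9) (nat_lit 4) (nat_lit 422) (nat_lit 308) (nat_lit 290)))))) (XT.nd (nat_lit 468) (nat_lit 76) (nat_lit 0) (XT.nd (nat_lit 234) (nat_lit 152) (nat_lit 0) (XT.nd (nat_lit 78) (nat_lit 76) (nat_lit 0) (XT.lf (nat_lit 0) (nat_lit 24809039591) (nat_lit 152) (nat_lit 6583892565) (nat_lit 0) (nat_lit 20980616809) (nat_lit 9) (nat_lit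 5) (nat_lit 11) (nat_lit 4) (nat_lit 9) (nat_lit 4) (nat_lit 423) (nat_lit 308) (nat_lit 289)) (XT.nd (nat_lit 78) (nat_lit 0) (nat_lit 0) (XT.lf (nat_lit 0) (nat_lit 9436484074) (nat_lit 76) (nat_lit 24626666183) (nat_lit 76) (nat_lit 20678851264) (nat_lit 8) (nat_lit 4) (nat_lit 9) (nat_lit 5) (nat_lit 9) (nat_lit 4) (nat_lit 424) (nat_lit 308) (nat_lit 288)) (XT.lf (nat_lit 0) (nat_lit 26053265255) (nat_lit 76) (nat_lit 17620167818) (nat_lit 76) (nat_lit 13558646103) (nat_lit 8) (nat_lit 4) (nat_lit 9) (nat_lit 5) (nat_lit 9) (nat_lit 4) (nat_lit 425) (nat_lit 308) (nat_lit 287)))) (XT.nd (nat_lit 78) (nat_lit 152) (nat_lit 0) (XT.lf (nat_lit 0) (nat_lit 43174982368) (nat_lit 76) (nat_lit 10423239329) (nat_lit 76) (nat_lit 6253425426) (nat_lit 8) (nat_lit 4) (nat_lit 9) (nat_lit 5) (nat_lit 9) (nat_lit 4) (nat_lit 426) (nat_lit 308) (nat_lit 286)) (XT.nd (nat_lit 78) (nat_lit 76) (nat_lit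 0) (XT.lf (nat_lit 0) (nat_lit 1229730107) (nat_lit 152) (nat_lit 1776597200) (nat_lit 76) (nat_lit 59600253438) (nat_lit 7) (nat_lit 5) (nat_lit 9) (nat_lit 5) (nat_lit 8) (nat_lit 4) (nat_lit 427) (nat_lit 308) (nat_lit 285)) (XT.lf (nat_lit 0) (nat_lit 8985752450) (nat_lit 152) (nat_lit 51768920729) (nat_lit 0) (nat_lit 4741894658) (nat_lit 6) (nat_lit 5) (nat_lit 8) (nat_lit 4) (nat_lit 6) (nat_lit 4) (nat_lit 428) (nat_lit 308) (nat_lit 284))))) (XT.nd (nat_lit 234) (nat_lit 76) (nat_lit 0) (XT.nd (nat_lit 78) (nat_lit 0) (nat_lit 0) (XT.lf (nat_lit 0) (nat_lit 17029402002) (nat_lit 152) (nat_lit 38809940651) (nat_lit 0) (nat_lit 12694722012) (nat_lit 6) (nat_lit 5) (nat_lit 8) (nat_lit 4) (nat_lit 6) (nat_lit 4) (nat_lit 429) (nat_lit 308) (nat_lit 283)) (XT.nd (nat_lit 78) (nat_lit 0) (nat_lit 0) (XT.lf (nat_lit 0) (nat_lit 25333341582) (nat_lit 152) (nat_lit 25482192187) (nat_lit 0) (nat_lit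 20912164261) (nat_lit 6) (nat_lit 5) (nat_lit 8) (nat_lit 4) (nat_lit 6) (nat_lit 4) (nat_lit 430) (nat_lit 308) (nat_lit 282)) (XT.lf (nat_lit 0) (nat_lit 33917342474) (nat_lit 152) (nat_lit 11753942602) (nat_lit 0) (nat_lit 29413786743) (nat_lit 6) (nat_lit 5) (nat_lit 8) (nat_lit 4) (nat_lit 6) (nat_lit 4) (nat_lit 431) (nat_lit 308) (nat_lit 281)))) (XT.nd (nat_lit 78) (nat_lit 0) (nat_lit 0) (XT.lf (nat_lit 0) (nat_lit 2455408271) (nat_lit 76) (nat_lit 40370037391) (nat_lit 76) (nat_lit 35788026031) (nat_lit 5) (nat_lit 4) (nat_lit 6) (nat_lit 5) (nat_lit 6) (nat_lit 4) (nat_lit 432) (nat_lit 308) (nat_lit 280)) (XT.nd (nat_lit 78) (nat_lit 0) (nat_lit 0) (XT.lf (nat_lit 0) (nat_lit 17374883113) (nat_lit 76) (nat_lit 34800130951) (nat_lit 76) (nat_lit 30143399945) (nat_lit 5) (nat_lit 4) (nat_lit 6) (nat_lit 5) (nat_lit 6) (nat_lit 4) (nat_lit 433) (nat_lit 308) (nat_lit 279)) (XT.lf (nat_lit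 0) (nat_lit 32806077979) (nat_lit 76) (nat_lit 29066995848) (nat_lit 76) (nat_lit 24339103274) (nat_lit 5) (nat_lit 4) (nat_lit 6) (nat_lit 5) (nat_lit 6) (nat_lit 4) (nat_lit 434) (nat_lit 308) (nat_lit 278))))))) (XT.nd (nat_lit 51168) (nat_lit 0) (nat_lit 380) (XT.nd (nat_lit 50700) (nat_lit 0) (nat_lit 1064) (XT.nd (nat_lit 234) (nat_lit 76) (nat_lit 0) (XT.nd (nat_lit 78) (nat_lit 0) (nat_lit 0) (XT.lf (nat_lit 0) (nat_lit 48785733808) (nat_lit 76) (nat_lit 23156981761) (nat_lit 76) (nat_lit 18361316264) (nat_lit 5) (nat_lit 4) (nat_lit 6) (nat_lit 5) (nat_lit 6) (nat_lit 4) (nat_lit 435) (nat_lit 308) (nat_lit 277)) (XT.nd (nat_lit 78) (nat_lit 0) (nat_lit 0) (XT.lf (nat_lit 0) (nat_lit 65351897400) (nat_lit 76) (nat_lit 17056017227) (nat_lit 76) (nat_lit 12195806090) (nat_lit 5) (nat_lit 4) (nat_lit 6) (nat_lit 5) (nat_lit 6) (nat_lit 4) (nat_lit 436) (nat_lit 308) (nat_lit 276)) (XT.lf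 (nat_lit 0) (nat_lit 82544012002) (nat_lit 76) (nat_lit 10749576140) (nat_lit 76) (nat_lit 5827892965) (nat_lit 5) (nat_lit 4) (nat_lit 6) (nat_lit 5) (nat_lit 6) (nat_lit 4) (nat_lit 437) (nat_lit 308) (nat_lit 275)))) (XT.nd (nat_lit 50310) (nat_lit 0) (nat_lit 1672) (XT.lf (nat_lit 0) (nat_lit 742801599) (nat_lit 152) (nat_lit 3472340725) (nat_lit 76) (nat_lit 99652708780) (nat_lit 4) (nat_lit 5) (nat_lit 6) (nat_lit 5) (nat_lit 5) (nat_lit 4) (nat_lit 438) (nat_lit 308) (nat_lit 274)) (XT.nd (nat_lit 78) (nat_lit 0) (nat_lit 0) (XT.lf (nat_lit 0) (nat_lit 994352136) (nat_lit 76) (nat_lit 5143169621) (nat_lit 76) (nat_lit 5143169621) (nat_lit 26) (nat_lit 4) (nat_lit 27) (nat_lit 5) (nat_lit 27) (nat_lit 4) (nat_lit 402) (nat_lit 309) (nat_lit 309)) (XT.lf (nat_lit 0) (nat_lit 22142197827) (nat_lit 76) (nat_lit 805586957) (nat_lit 76) (nat_lit 427331628) (nat_lit 26) (nat_lit 4) (nat_lit 27)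 (nat_lit 5) (nat_lit 27) (nat_lit 4) (nat_lit 403) (nat_lit 309) (nat_lit 308))))) (XT.nd (nat_lit 234) (nat_lit 228) (nat_lit 0) (XT.nd (nat_lit 78) (nat_lit 228) (nat_lit 0) (XT.lf (nat_lit 0) (nat_lit 9665958199) (nat_lit 152) (nat_lit 5613717119) (nat_lit 0) (nat_lit 8948969366) (nat_lit 24) (nat_lit 5) (nat_lit 26) (nat_lit 4) (nat_lit 24) (nat_lit 4) (nat_lit 404) (nat_lit 309) (nat_lit 307)) (XT.nd (nat_lit 78) (nat_lit 152) (nat_lit 0) (XT.lf (nat_lit 0) (nat_lit 13990200266) (nat_lit 76) (nat_lit 6094863076) (nat_lit 76) (nat_lit 5044778385) (nat_lit 23) (nat_lit 4) (nat_lit 24) (nat_lit 5) (nat_lit 24) (nat_lit 4) (nat_lit 405) (nat_lit 309) (nat_lit 306)) (XT.lf (nat_lit 0) (nat_lit 4702864957) (nat_lit 152) (nat_lit 18000940663) (nat_lit 0) (nat_lit 3375370936) (nat_lit 21) (nat_lit 5) (nat_lit 23) (nat_lit 4) (nat_lit 21) (nat_lit 4) (nat_lit 406) (nat_lit 309) (nat_lit 305)))) (XT.nd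 (nat_lit 78) (nat_lit 152) (nat_lit 0) (XT.lf (nat_lit 0) (nat_lit 713611070) (nat_lit 76) (nat_lit 13992761384) (nat_lit 76) (nat_lit 12371939439) (nat_lit 20) (nat_lit 4) (nat_lit 21) (nat_lit 5) (nat_lit 21) (nat_lit 4) (nat_lit 407) (nat_lit 309) (nat_lit 304)) (XT.nd (nat_lit 78) (nat_lit 152) (nat_lit 0) (XT.lf (nat_lit 0) (nat_lit 20153372110) (nat_lit 76) (nat_lit 4938881846) (nat_lit 76) (nat_lit 3038699973) (nat_lit 20) (nat_lit 4) (nat_lit 21) (nat_lit 5) (nat_lit 21) (nat_lit 4) (nat_lit 408) (nat_lit 309) (nat_lit 303)) (XT.lf (nat_lit 0) (nat_lit 6485582027) (nat_lit 152) (nat_lit 18370584052) (nat_lit 0) (nat_lit 4382437418) (nat_lit 18) (nat_lit 5) (nat_lit 20) (nat_lit 4) (nat_lit 18) (nat_lit 4) (nat_lit 409) (nat_lit 309) (nat_lit 302)))))) (XT.nd (nat_lit 468) (nat_lit 380) (nat_lit 0) (XT.nd (nat_lit 234) (nat_lit 76) (nat_lit 0) (XT.nd (nat_lit 78) (nat_lit 228) (nat_lit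 0) (XT.lf (nat_lit 0) (nat_lit 16271117412) (nat_lit 152) (nat_lit 212227679) (nat_lit 0) (nat_lit 13921965336) (nat_lit 18) (nat_lit 5) (nat_lit 20) (nat_lit 4) (nat_lit 18) (nat_lit 4) (nat_lit 410) (nat_lit 309) (nat_lit 301)) (XT.nd (nat_lit 78) (nat_lit 152) (nat_lit 0) (XT.lf (nat_lit 0) (nat_lit 18690837004) (nat_lit 76) (nat_lit 7762870298) (nat_lit 76) (nat_lit 5179425398) (nat_lit 17) (nat_lit 4) (nat_lit 18) (nat_lit 5) (nat_lit 18) (nat_lit 4) (nat_lit 411) (nat_lit 309) (nat_lit 300)) (XT.lf (nat_lit 0) (nat_lit 3937907089) (nat_lit 152) (nat_lit 27776245214) (nat_lit 0) (nat_lit 1213071241) (nat_lit 15) (nat_lit 5) (nat_lit 17) (nat_lit 4) (nat_lit 15) (nat_lit 4) (nat_lit 412) (nat_lit 309) (nat_lit 299)))) (XT.nd (nat_lit 78) (nat_lit 76) (nat_lit 0) (XT.lf (nat_lit 0) (nat_lit 13356888547) (nat_lit 152) (nat_lit 10503284826) (nat_lit 0) (nat_lit 10425731826) (nat_lit 15) (nat_lit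 5) (nat_lit 17) (nat_lit 4) (nat_lit 15) (nat_lit 4) (nat_lit 413) (nat_lit 309) (nat_lit 298)) (XT.nd (nat_lit 78) (nat_lit 0) (nat_lit 0) (XT.lf (nat_lit 0) (nat_lit 7291137144) (nat_lit 76) (nat_lit 15777201093) (nat_lit 76) (nat_lit 12649548303) (nat_lit 14) (nat_lit 4) (nat_lit 15) (nat_lit 5) (nat_lit 15) (nat_lit 4) (nat_lit 414) (nat_lit 309) (nat_lit 297)) (XT.lf (nat_lit 0) (nat_lit 25724192219) (nat_lit 76) (nat_lit 7408035627) (nat_lit 76) (nat_lit 4093243725) (nat_lit 14) (nat_lit 4) (nat_lit 15) (nat_lit 5) (nat_lit 15) (nat_lit 4) (nat_lit 415) (nat_lit 309) (nat_lit 296))))) (XT.nd (nat_lit 234) (nat_lit 228) (nat_lit 0) (XT.nd (nat_lit 78) (nat_lit 0) (nat_lit 0) (XT.lf (nat_lit 0) (nat_lit 4632126514) (nat_lit 152) (nat_lit 32938962769) (nat_lit 0) (nat_lit 1240845320) (nat_lit 12) (nat_lit 5) (nat_lit 14) (nat_lit 4) (nat_lit 12) (nat_lit 4) (nat_lit 416) (nat_lit 309) (nat_lit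 295)) (XT.nd (nat_lit 78) (nat_lit 0) (nat_lit 0) (XT.lf (nat_lit 0) (nat_lit 13676944868) (nat_lit 152) (nat_lit 16679667568) (nat_lit 0) (nat_lit 10120866886) (nat_lit 12) (nat_lit 5) (nat_lit 14) (nat_lit 4) (nat_lit 12) (nat_lit 4) (nat_lit 417) (nat_lit 309) (nat_lit 294)) (XT.lf (nat_lit 0) (nat_lit 22957535924) (nat_lit 152) (nat_lit 30759707) (nat_lit 0) (nat_lit 19244508619) (nat_lit 12) (nat_lit 5) (nat_lit 14) (nat_lit 4) (nat_lit 12) (nat_lit 4) (nat_lit 418) (nat_lit 309) (nat_lit 293)))) (XT.nd (nat_lit 156) (nat_lit 152) (nat_lit 0) (XT.nd (nat_lit 78) (nat_lit 0) (nat_lit 0) (XT.lf (nat_lit 0) (nat_lit 17386677775) (nat_lit 76) (nat_lit 15276449934) (nat_lit 76) (nat_lit 11413947084) (nat_lit 11) (nat_lit 4) (nat_lit 12) (nat_lit 5) (nat_lit 12) (nat_lit 4) (nat_lit 419) (nat_lit 309) (nat_lit 292)) (XT.lf (nat_lit 0) (nat_lit 35283994874) (nat_lit 76) (nat_lit 7370213166) (nat_lit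 76) (nat_lit 3365352654) (nat_lit 11) (nat_lit 4) (nat_lit 12) (nat_lit 5) (nat_lit 12) (nat_lit 4) (nat_lit 420) (nat_lit 309) (nat_lit 291))) (XT.nd (nat_lit 78) (nat_lit 0) (nat_lit 0) (XT.lf (nat_lit 0) (nat_lit 4856982369) (nat_lit 152) (nat_lit 42367474440) (nat_lit 0) (nat_lit 837138449) (nat_lit 9) (nat_lit 5) (nat_lit 11) (nat_lit 4) (nat_lit 9) (nat_lit 4) (nat_lit 421) (nat_lit 309) (nat_lit 290)) (XT.lf (nat_lit 0) (nat_lit 13418928389) (nat_lit 152) (nat_lit 27512145113) (nat_lit 0) (nat_lit 9273722725) (nat_lit 9) (nat_lit 5) (nat_lit 11) (nat_lit 4) (nat_lit 9) (nat_lit 4) (nat_lit 422) (nat_lit 309) (nat_lit 289))))))))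
noncomputable def xc7 : XT := (XT.nd (nat_lit 52026) (nat_lit 0) (nat_lit 0) (XT.nd (nat_lit 936) (nat_lit 0) (nat_lit 0) (XT.nd (nat_lit 468) (nat_lit 76) (nat_lit 0) (XT.nd (nat_lit 234) (nat_lit 152) (nat_lit 0) (XT.nd (nat_lit 78) (nat_lit 76) (nat_lit 0) (XT.lf (nat_lit 0) (nat_lit 22229401414) (nat_lit 152) (nat_lit 12266346119) (nat_lit 0) (nat_lit 17964803613) (nat_lit 9) (nat_lit 5) (nat_lit 11) (nat_lit 4) (nat_lit 9) (nat_lit 4) (nat_lit 423) (nat_lit 309) (nat_lit 288)) (XT.nd (nat_lit 78) (nat_lit 0) (nat_lit 0) (XT.lf (nat_lit 0) (nat_lit 3474012561) (nat_lit 76) (nat_lit 27868760532) (nat_lit 76) (nat_lit 23490455934) (nat_lit 8) (nat_lit 4) (nat_lit 9) (nat_lit 5) (nat_lit 9) (nat_lit 4) (nat_lit 424) (nat_lit 309) (nat_lit 287)) (XT.lf (nat_lit 0) (nat_lit 19931816607) (nat_lit 76) (nat_lit 20940259628) (nat_lit 76) (nat_lit 16453662842) (nat_lit 8) (nat_lit 4) (nat_lit 9) (nat_lit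 5) (nat_lit 9) (nat_lit 4) (nat_lit 425) (nat_lit 309) (nat_lit 286)))) (XT.nd (nat_lit 78) (nat_lit 152) (nat_lit 0) (XT.lf (nat_lit 0) (nat_lit 36902126926) (nat_lit 76) (nat_lit 13817614434) (nat_lit 76) (nat_lit 9227882231) (nat_lit 8) (nat_lit 4) (nat_lit 9) (nat_lit 5) (nat_lit 9) (nat_lit 4) (nat_lit 426) (nat_lit 309) (nat_lit 285)) (XT.nd (nat_lit 78) (nat_lit 152) (nat_lit 0) (XT.lf (nat_lit 0) (nat_lit 54425349019) (nat_lit 76) (nat_lit 6483866272) (nat_lit 76) (nat_lit 1795909862) (nat_lit 8) (nat_lit 4) (nat_lit 9) (nat_lit 5) (nat_lit 9) (nat_lit 4) (nat_lit 427) (nat_lit 309) (nat_lit 284)) (XT.lf (nat_lit 0) (nat_lit 5824664386) (nat_lit 152) (nat_lit 58593654862) (nat_lit 0) (nat_lit 1182428200) (nat_lit 6) (nat_lit 5) (nat_lit 8) (nat_lit 4) (nat_lit 6) (nat_lit 4) (nat_lit 428) (nat_lit 309) (nat_lit 283))))) (XT.nd (nat_lit 234) (nat_lit 76) (nat_lit 0) (XT.nd (nat_lit 78)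 (nat_lit 0) (nat_lit 0) (XT.lf (nat_lit 0) (nat_lit 13799098109) (nat_lit 152) (nat_lit 45770860451) (nat_lit 0) (nat_lit 9070364592) (nat_lit 6) (nat_lit 5) (nat_lit 8) (nat_lit 4) (nat_lit 6) (nat_lit 4) (nat_lit 429) (nat_lit 309) (nat_lit 282)) (XT.nd (nat_lit 78) (nat_lit 0) (nat_lit 0) (XT.lf (nat_lit 0) (nat_lit 22037117852) (nat_lit 152) (nat_lit 32572812623) (nat_lit 0) (nat_lit 17226005924) (nat_lit 6) (nat_lit 5) (nat_lit 8) (nat_lit 4) (nat_lit 6) (nat_lit 4) (nat_lit 430) (nat_lit 309) (nat_lit 281)) (XT.lf (nat_lit 0) (nat_lit 30558337946) (nat_lit 152) (nat_lit 18968087452) (nat_lit 0) (nat_lit 25668770389) (nat_lit 6) (nat_lit 5) (nat_lit 8) (nat_lit 4) (nat_lit 6) (nat_lit 4) (nat_lit 431) (nat_lit 309) (nat_lit 280)))) (XT.nd (nat_lit 78) (nat_lit 76) (nat_lit 0) (XT.lf (nat_lit 0) (nat_lit 39383047012) (nat_lit 152) (nat_lit 4924292738) (nat_lit 0) (nat_lit 34418759809) (nat_lit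 6) (nat_lit 5) (nat_lit 8) (nat_lit 4) (nat_lit 6) (nat_lit 4) (nat_lit 432) (nat_lit 309) (nat_lit 279)) (XT.nd (nat_lit 78) (nat_lit 0) (nat_lit 0) (XT.lf (nat_lit 0) (nat_lit 9782908916) (nat_lit 76) (nat_lit 38843386650) (nat_lit 76) (nat_lit 33807937879) (nat_lit 5) (nat_lit 4) (nat_lit 6) (nat_lit 5) (nat_lit 6) (nat_lit 4) (nat_lit 433) (nat_lit 309) (nat_lit 278)) (XT.lf (nat_lit 0) (nat_lit 25105275108) (nat_lit 76) (nat_lit 33163801680) (nat_lit 76) (nat_lit 28060579986) (nat_lit 5) (nat_lit 4) (nat_lit 6) (nat_lit 5) (nat_lit 6) (nat_lit 4) (nat_lit 434) (nat_lit 309) (nat_lit 277)))))) (XT.nd (nat_lit 50544) (nat_lit 0) (nat_lit 1140) (XT.nd (nat_lit 234) (nat_lit 0) (nat_lit 0) (XT.nd (nat_lit 78) (nat_lit 0) (nat_lit 0) (XT.lf (nat_lit 0) (nat_lit 40981284582) (nat_lit 76) (nat_lit 27304787718) (nat_lit 76) (nat_lit 22137020384) (nat_lit 5) (nat_lit 4) (nat_lit 6) (nat_lit 5) (nat_lit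 6) (nat_lit 4) (nat_lit 435) (nat_lit 309) (nat_lit 276)) (XT.nd (nat_lit 78) (nat_lit 0) (nat_lit 0) (XT.lf (nat_lit 0) (nat_lit 57448737359) (nat_lit 76) (nat_lit 21252394732) (nat_lit 76) (nat_lit 16023155360) (nat_lit 5) (nat_lit 4) (nat_lit 6) (nat_lit 5) (nat_lit 6) (nat_lit 4) (nat_lit 436) (nat_lit 309) (nat_lit 275)) (XT.lf (nat_lit 0) (nat_lit 74546841661) (nat_lit 76) (nat_lit 14992212263) (nat_lit 76) (nat_lit 9704428093) (nat_lit 5) (nat_lit 4) (nat_lit 6) (nat_lit 5) (nat_lit 6) (nat_lit 4) (nat_lit 437) (nat_lit 309) (nat_lit 274)))) (XT.nd (nat_lit 50154) (nat_lit 0) (nat_lit 1672) (XT.lf (nat_lit 0) (nat_lit 92316307260) (nat_lit 76) (nat_lit 8509335113) (nat_lit 76) (nat_lit 3165793992) (nat_lit 5) (nat_lit 4) (nat_lit 6) (nat_lit 5) (nat_lit 6) (nat_lit 4) (nat_lit 438) (nat_lit 309) (nat_lit 273)) (XT.nd (nat_lit 78) (nat_lit 152) (nat_lit 0) (XT.lf (nat_lit 0) (nat_lit 2973151689)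 (nat_lit 76) (nat_lit 3776721092) (nat_lit 76) (nat_lit 3776721092) (nat_lit 29) (nat_lit 4) (nat_lit 30) (nat_lit 5) (nat_lit 30) (nat_lit 4) (nat_lit 400) (nat_lit 310) (nat_lit 310)) (XT.lf (nat_lit 0) (nat_lit 2349887896) (nat_lit 152) (nat_lit 17488545372) (nat_lit 0) (nat_lit 1952719800) (nat_lit 27) (nat_lit 5) (nat_lit 29) (nat_lit 4) (nat_lit 27) (nat_lit 4) (nat_lit 401) (nat_lit 310) (nat_lit 309))))) (XT.nd (nat_lit 234) (nat_lit 304) (nat_lit 0) (XT.nd (nat_lit 78) (nat_lit 152) (nat_lit 0) (XT.lf (nat_lit 0) (nat_lit 1665251719) (nat_lit 76) (nat_lit 10838312196) (nat_lit 76) (nat_lit 10062888772) (nat_lit 26) (nat_lit 4) (nat_lit 27) (nat_lit 5) (nat_lit 27) (nat_lit 4) (nat_lit 402) (nat_lit 310) (nat_lit 308)) (XT.nd (nat_lit 78) (nat_lit 152) (nat_lit 0) (XT.lf (nat_lit 0) (nat_lit 21510695221) (nat_lit 76) (nat_lit 1504993107) (nat_lit 76) (nat_lit 369326513) (nat_lit 26) (nat_lit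 4) (nat_lit 27) (nat_lit 5) (nat_lit 27) (nat_lit 4) (nat_lit 403) (nat_lit 310) (nat_lit 307)) (XT.lf (nat_lit 0) (nat_lit 9550965471) (nat_lit 152) (nat_lit 6577445449) (nat_lit 0) (nat_lit 8115280687) (nat_lit 24) (nat_lit 5) (nat_lit 26) (nat_lit 4) (nat_lit 24) (nat_lit 4) (nat_lit 404) (nat_lit 310) (nat_lit 306)))) (XT.nd (nat_lit 156) (nat_lit 76) (nat_lit 0) (XT.nd (nat_lit 78) (nat_lit 152) (nat_lit 0) (XT.lf (nat_lit 0) (nat_lit 12710351883) (nat_lit 76) (nat_lit 7096185255) (nat_lit 76) (nat_lit 5343266320) (nat_lit 23) (nat_lit 4) (nat_lit 24) (nat_lit 5) (nat_lit 24) (nat_lit 4) (nat_lit 405) (nat_lit 310) (nat_lit 305)) (XT.lf (nat_lit 0) (nat_lit 4235346441) (nat_lit 152) (nat_lit 19628976246) (nat_lit 0) (nat_lit 2240155473) (nat_lit 21) (nat_lit 5) (nat_lit 23) (nat_lit 4) (nat_lit 21) (nat_lit 4) (nat_lit 406) (nat_lit 310) (nat_lit 304))) (XT.nd (nat_lit 78) (nat_lit 76) (nat_lit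 0) (XT.lf (nat_lit 0) (nat_lit 14086889103) (nat_lit 152) (nat_lit 1208952882) (nat_lit 0) (nat_lit 11812338207) (nat_lit 21) (nat_lit 5) (nat_lit 23) (nat_lit 4) (nat_lit 21) (nat_lit 4) (nat_lit 407) (nat_lit 310) (nat_lit 303)) (XT.lf (nat_lit 0) (nat_lit 17934187811) (nat_lit 76) (nat_lit 6385914903) (nat_lit 76) (nat_lit 3845306934) (nat_lit 20) (nat_lit 4) (nat_lit 21) (nat_lit 5) (nat_lit 21) (nat_lit 4) (nat_lit 408) (nat_lit 310) (nat_lit 302))))))) (XT.nd (nat_lit 936) (nat_lit 456) (nat_lit 0) (XT.nd (nat_lit 468) (nat_lit 228) (nat_lit 0) (XT.nd (nat_lit 234) (nat_lit 228) (nat_lit 0) (XT.nd (nat_lit 78) (nat_lit 76) (nat_lit 0) (XT.lf (nat_lit 0) (nat_lit 5519231096) (nat_lit 152) (nat_lit 20952718118) (nat_lit 0) (nat_lit 2806613950) (nat_lit 18) (nat_lit 5) (nat_lit 20) (nat_lit 4) (nat_lit 18) (nat_lit 4) (nat_lit 409) (nat_lit 310) (nat_lit 301)) (XT.nd (nat_lit 78) (nat_lit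 76) (nat_lit 0) (XT.lf (nat_lit 0) (nat_lit 15172137201) (nat_lit 152) (nat_lit 3051891043) (nat_lit 0) (nat_lit 12225227231) (nat_lit 18) (nat_lit 5) (nat_lit 20) (nat_lit 4) (nat_lit 18) (nat_lit 4) (nat_lit 410) (nat_lit 310) (nat_lit 300)) (XT.lf (nat_lit 0) (nat_lit 15544511499) (nat_lit 76) (nat_lit 9653657586) (nat_lit 76) (nat_lit 6483611593) (nat_lit 17) (nat_lit 4) (nat_lit 18) (nat_lit 5) (nat_lit 18) (nat_lit 4) (nat_lit 411) (nat_lit 310) (nat_lit 299)))) (XT.nd (nat_lit 78) (nat_lit 76) (nat_lit 0) (XT.lf (nat_lit 0) (nat_lit 1671958633) (nat_lit 76) (nat_lit 817950295) (nat_lit 152) (nat_lit 30491422259) (nat_lit 15) (nat_lit 5) (nat_lit 16) (nat_lit 5) (nat_lit 17) (nat_lit 4) (nat_lit 412) (nat_lit 310) (nat_lit 298)) (XT.nd (nat_lit 78) (nat_lit 76) (nat_lit 0) (XT.lf (nat_lit 0) (nat_lit 11779775206) (nat_lit 152) (nat_lit 14264872836) (nat_lit 0) (nat_lit 8299243708) (nat_lit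 15) (nat_lit 5) (nat_lit 17) (nat_lit 4) (nat_lit 15) (nat_lit 4) (nat_lit 413) (nat_lit 310) (nat_lit 297)) (XT.lf (nat_lit 0) (nat_lit 3225137007) (nat_lit 76) (nat_lit 18111524396) (nat_lit 76) (nat_lit 14443853785) (nat_lit 14) (nat_lit 4) (nat_lit 15) (nat_lit 5) (nat_lit 15) (nat_lit 4) (nat_lit 414) (nat_lit 310) (nat_lit 296))))) (XT.nd (nat_lit 234) (nat_lit 76) (nat_lit 0) (XT.nd (nat_lit 78) (nat_lit 152) (nat_lit 0) (XT.lf (nat_lit 0) (nat_lit 21439573845) (nat_lit 76) (nat_lit 9848896046) (nat_lit 76) (nat_lit 6002997708) (nat_lit 14) (nat_lit 4) (nat_lit 15) (nat_lit 5) (nat_lit 15) (nat_lit 4) (nat_lit 415) (nat_lit 310) (nat_lit 295)) (XT.nd (nat_lit 78) (nat_lit 0) (nat_lit 0) (XT.lf (nat_lit 0) (nat_lit 1252480365) (nat_lit 76) (nat_lit 1342652341) (nat_lit 152) (nat_lit 36288288410) (nat_lit 12) (nat_lit 5) (nat_lit 13) (nat_lit 5) (nat_lit 14) (nat_lit 4) (nat_lit 416) (nat_lit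 310) (nat_lit 294)) (XT.lf (nat_lit 0) (nat_lit 11521450414) (nat_lit 152) (nat_lit 21565252374) (nat_lit 0) (nat_lit 7465822421) (nat_lit 12) (nat_lit 5) (nat_lit 14) (nat_lit 4) (nat_lit 12) (nat_lit 4) (nat_lit 417) (nat_lit 310) (nat_lit 293)))) (XT.nd (nat_lit 78) (nat_lit 76) (nat_lit 0) (XT.lf (nat_lit 0) (nat_lit 20701475515) (nat_lit 152) (nat_lit 5113023771) (nat_lit 0) (nat_lit 16496371978) (nat_lit 12) (nat_lit 5) (nat_lit 14) (nat_lit 4) (nat_lit 12) (nat_lit 4) (nat_lit 418) (nat_lit 310) (nat_lit 292)) (XT.nd (nat_lit 78) (nat_lit 0) (nat_lit 0) (XT.lf (nat_lit 0) (nat_lit 12012225205) (nat_lit 76) (nat_lit 18247402471) (nat_lit 76) (nat_lit 13899941271) (nat_lit 11) (nat_lit 4) (nat_lit 12) (nat_lit 5) (nat_lit 12) (nat_lit 4) (nat_lit 419) (nat_lit 310) (nat_lit 291)) (XT.lf (nat_lit 0) (nat_lit 29727598031) (nat_lit 76) (nat_lit 10430144730) (nat_lit 76) (nat_lit 5947104804)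 (nat_lit 11) (nat_lit 4) (nat_lit 12) (nat_lit 5) (nat_lit 12) (nat_lit 4) (nat_lit 420) (nat_lit 310) (nat_lit 290)))))) (XT.nd (nat_lit 468) (nat_lit 228) (nat_lit 0) (XT.nd (nat_lit 234) (nat_lit 76) (nat_lit 0) (XT.nd (nat_lit 78) (nat_lit 76) (nat_lit 0) (XT.lf (nat_lit 0) (nat_lit 2173167172) (nat_lit 152) (nat_lit 200633162) (nat_lit 76) (nat_lit 45778403068) (nat_lit 10) (nat_lit 5) (nat_lit 12) (nat_lit 5) (nat_lit 11) (nat_lit 4) (nat_lit 421) (nat_lit 310) (nat_lit 289)) (XT.nd (nat_lit 78) (nat_lit 0) (nat_lit 0) (XT.lf (nat_lit 0) (nat_lit 10622713037) (nat_lit 152) (nat_lit 33650573442) (nat_lit 0) (nat_lit 6025493209) (nat_lit 9) (nat_lit 5) (nat_lit 11) (nat_lit 4) (nat_lit 9) (nat_lit 4) (nat_lit 422) (nat_lit 310) (nat_lit 288)) (XT.lf (nat_lit 0) (nat_lit 19349761998) (nat_lit 152) (nat_lit 18568443112) (nat_lit 0) (nat_lit 14638835373) (nat_lit 9) (nat_lit 5) (nat_lit 11)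 (nat_lit 4) (nat_lit 9) (nat_lit 4) (nat_lit 423) (nat_lit 310) (nat_lit 287)))) (XT.nd (nat_lit 78) (nat_lit 76) (nat_lit 0) (XT.lf (nat_lit 0) (nat_lit 28350287855) (nat_lit 152) (nat_lit 3051749846) (nat_lit 0) (nat_lit 23531069043) (nat_lit 9) (nat_lit 5) (nat_lit 11) (nat_lit 4) (nat_lit 9) (nat_lit 4) (nat_lit 424) (nat_lit 310) (nat_lit 286)) (XT.nd (nat_lit 78) (nat_lit 0) (nat_lit 0) (XT.lf (nat_lit 0) (nat_lit 13193911598) (nat_lit 76) (nat_lit 24578636783) (nat_lit 76) (nat_lit 19656282554) (nat_lit 8) (nat_lit 4) (nat_lit 9) (nat_lit 5) (nat_lit 9) (nat_lit 4) (nat_lit 425) (nat_lit 310) (nat_lit 285)) (XT.lf (nat_lit 0) (nat_lit 30020024969) (nat_lit 76) (nat_lit 17526737585) (nat_lit 76) (nat_lit 12506159149) (nat_lit 8) (nat_lit 4) (nat_lit 9) (nat_lit 5) (nat_lit 9) (nat_lit 4) (nat_lit 426) (nat_lit 310) (nat_lit 284))))) (XT.nd (nat_lit 234) (nat_lit 76) (nat_lit 0) (XT.nd (nat_lit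 78) (nat_lit 152) (nat_lit 0) (XT.lf (nat_lit 0) (nat_lit 47405916636) (nat_lit 76) (nat_lit 10260366561) (nat_lit 76) (nat_lit 5146241262) (nat_lit 8) (nat_lit 4) (nat_lit 9) (nat_lit 5) (nat_lit 9) (nat_lit 4) (nat_lit 427) (nat_lit 310) (nat_lit 283)) (XT.nd (nat_lit 78) (nat_lit 76) (nat_lit 0) (XT.lf (nat_lit 0) (nat_lit 2393362121) (nat_lit 152) (nat_lit 344692442) (nat_lit 76) (nat_lit 62975451192) (nat_lit 7) (nat_lit 5) (nat_lit 9) (nat_lit 5) (nat_lit 8) (nat_lit 4) (nat_lit 428) (nat_lit 310) (nat_lit 282)) (XT.lf (nat_lit 0) (nat_lit 10272143355) (nat_lit 152) (nat_lit 53345712545) (nat_lit 0) (nat_lit 5138097420) (nat_lit 6) (nat_lit 5) (nat_lit 8) (nat_lit 4) (nat_lit 6) (nat_lit 4) (nat_lit 429) (nat_lit 310) (nat_lit 281)))) (XT.nd (nat_lit 156) (nat_lit 76) (nat_lit 0) (XT.nd (nat_lit 78) (nat_lit 0) (nat_lit 0) (XT.lf (nat_lit 0) (nat_lit 18447382300) (nat_lit 152) (nat_lit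 40271189130) (nat_lit 0) (nat_lit 13234880736) (nat_lit 6) (nat_lit 5) (nat_lit 8) (nat_lit 4) (nat_lit 6) (nat_lit 4) (nat_lit 430) (nat_lit 310) (nat_lit 280)) (XT.lf (nat_lit 0) (nat_lit 26908811159) (nat_lit 152) (nat_lit 26784106260) (nat_lit 0) (nat_lit 21621589949) (nat_lit 6) (nat_lit 5) (nat_lit 8) (nat_lit 4) (nat_lit 6) (nat_lit 4) (nat_lit 431) (nat_lit 310) (nat_lit 279))) (XT.nd (nat_lit 78) (nat_lit 76) (nat_lit 0) (XT.lf (nat_lit 0) (nat_lit 35676576191) (nat_lit 152) (nat_lit 12852351831) (nat_lit 0) (nat_lit 30318193412) (nat_lit 6) (nat_lit 5) (nat_lit 8) (nat_lit 4) (nat_lit 6) (nat_lit 4) (nat_lit 432) (nat_lit 310) (nat_lit 278)) (XT.lf (nat_lit 0) (nat_lit 1588237229) (nat_lit 76) (nat_lit 43198582905) (nat_lit 76) (nat_lit 37772427205) (nat_lit 5) (nat_lit 4) (nat_lit 6) (nat_lit 5) (nat_lit 6) (nat_lit 4) (nat_lit 433) (nat_lit 310) (nat_lit 277))))))))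
noncomputable def xc8 : XT := (XT.nd (nat_lit 51792) (nat_lit 0) (nat_lit 0) (XT.nd (nat_lit 50856) (nat_lit 0) (nat_lit 608) (XT.nd (nat_lit 50388) (nat_lit 0) (nat_lit 1444) (XT.nd (nat_lit 234) (nat_lit 0) (nat_lit 0) (XT.nd (nat_lit 78) (nat_lit 0) (nat_lit 0) (XT.lf (nat_lit 0) (nat_lit 16806957066) (nat_lit 76) (nat_lit 37569998060) (nat_lit 76) (nat_lit 32079296720) (nat_lit 5) (nat_lit 4) (nat_lit 6) (nat_lit 5) (nat_lit 6) (nat_lit 4) (nat_lit 434) (nat_lit 310) (nat_lit 276)) (XT.nd (nat_lit 78) (nat_lit 0) (nat_lit 0) (XT.lf (nat_lit 0) (nat_lit 32584255725) (nat_lit 76) (nat_lit 31759555647) (nat_lit 76) (nat_lit 26207382268) (nat_lit 5) (nat_lit 4) (nat_lit 6) (nat_lit 5) (nat_lit 6) (nat_lit 4) (nat_lit 435) (nat_lit 310) (nat_lit 275)) (XT.lf (nat_lit 0) (nat_lit 48957698203) (nat_lit 76) (nat_lit 25753421278) (nat_lit 76) (nat_lit 20142703101) (nat_lit 5) (nat_lit 4) (nat_lit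 6) (nat_lit 5) (nat_lit 6) (nat_lit 4) (nat_lit 436) (nat_lit 310) (nat_lit 274)))) (XT.nd (nat_lit 78) (nat_lit 0) (nat_lit 0) (XT.lf (nat_lit 0) (nat_lit 65966268886) (nat_lit 76) (nat_lit 19537294635) (nat_lit 76) (nat_lit 13870819507) (nat_lit 5) (nat_lit 4) (nat_lit 6) (nat_lit 5) (nat_lit 6) (nat_lit 4) (nat_lit 437) (nat_lit 310) (nat_lit 273)) (XT.nd (nat_lit 49998) (nat_lit 0) (nat_lit 2052) (XT.lf (nat_lit 0) (nat_lit 83650464372) (nat_lit 76) (nat_lit 13096375415) (nat_lit 76) (nat_lit 7376798430) (nat_lit 5) (nat_lit 4) (nat_lit 6) (nat_lit 5) (nat_lit 6) (nat_lit 4) (nat_lit 438) (nat_lit 310) (nat_lit 272)) (XT.lf (nat_lit 0) (nat_lit 3581300708) (nat_lit 76) (nat_lit 3130289362) (nat_lit 76) (nat_lit 3130289362) (nat_lit 32) (nat_lit 4) (nat_lit 33) (nat_lit 5) (nat_lit 33) (nat_lit 4) (nat_lit 398) (nat_lit 311) (nat_lit 311))))) (XT.nd (nat_lit 234) (nat_lit 228) (nat_lit 0)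 (XT.nd (nat_lit 78) (nat_lit 228) (nat_lit 0) (XT.lf (nat_lit 0) (nat_lit 3612707344) (nat_lit 152) (nat_lit 13557954473) (nat_lit 0) (nat_lit 3183170049) (nat_lit 30) (nat_lit 5) (nat_lit 32) (nat_lit 4) (nat_lit 30) (nat_lit 4) (nat_lit 399) (nat_lit 311) (nat_lit 310)) (XT.nd (nat_lit 78) (nat_lit 152) (nat_lit 0) (XT.lf (nat_lit 0) (nat_lit 5626779929) (nat_lit 76) (nat_lit 8135031869) (nat_lit 76) (nat_lit 7296411436) (nat_lit 29) (nat_lit 4) (nat_lit 30) (nat_lit 5) (nat_lit 30) (nat_lit 4) (nat_lit 400) (nat_lit 311) (nat_lit 309)) (XT.lf (nat_lit 0) (nat_lit 2427560526) (nat_lit 152) (nat_lit 18138684073) (nat_lit 0) (nat_lit 1235110603) (nat_lit 27) (nat_lit 5) (nat_lit 29) (nat_lit 4) (nat_lit 27) (nat_lit 4) (nat_lit 401) (nat_lit 311) (nat_lit 308)))) (XT.nd (nat_lit 78) (nat_lit 152) (nat_lit 0) (XT.lf (nat_lit 0) (nat_lit 694123932) (nat_lit 76) (nat_lit 11720121851) (nat_lit 76)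 (nat_lit 10167428757) (nat_lit 26) (nat_lit 4) (nat_lit 27) (nat_lit 5) (nat_lit 27) (nat_lit 4) (nat_lit 402) (nat_lit 311) (nat_lit 307)) (XT.nd (nat_lit 78) (nat_lit 152) (nat_lit 0) (XT.lf (nat_lit 0) (nat_lit 20246186433) (nat_lit 76) (nat_lit 2527215331) (nat_lit 76) (nat_lit 631433503) (nat_lit 26) (nat_lit 4) (nat_lit 27) (nat_lit 5) (nat_lit 27) (nat_lit 4) (nat_lit 403) (nat_lit 311) (nat_lit 306)) (XT.lf (nat_lit 0) (nat_lit 9120199985) (nat_lit 152) (nat_lit 8186208678) (nat_lit 0) (nat_lit 6962400954) (nat_lit 24) (nat_lit 5) (nat_lit 26) (nat_lit 4) (nat_lit 24) (nat_lit 4) (nat_lit 404) (nat_lit 311) (nat_lit 305)))))) (XT.nd (nat_lit 468) (nat_lit 380) (nat_lit 0) (XT.nd (nat_lit 234) (nat_lit 228) (nat_lit 0) (XT.nd (nat_lit 78) (nat_lit 152) (nat_lit 0) (XT.lf (nat_lit 0) (nat_lit 10786771141) (nat_lit 76) (nat_lit 8426480551) (nat_lit 76) (nat_lit 5966553758) (nat_lit 23) (nat_lit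 4) (nat_lit 24) (nat_lit 5) (nat_lit 24) (nat_lit 4) (nat_lit 405) (nat_lit 311) (nat_lit 304)) (XT.nd (nat_lit 78) (nat_lit 0) (nat_lit 0) (XT.lf (nat_lit 0) (nat_lit 3446986402) (nat_lit 152) (nat_lit 21913650266) (nat_lit 0) (nat_lit 779348033) (nat_lit 21) (nat_lit 5) (nat_lit 23) (nat_lit 4) (nat_lit 21) (nat_lit 4) (nat_lit 406) (nat_lit 311) (nat_lit 303)) (XT.lf (nat_lit 0) (nat_lit 13160333665) (nat_lit 152) (nat_lit 3760868092) (nat_lit 0) (nat_lit 10226638222) (nat_lit 21) (nat_lit 5) (nat_lit 23) (nat_lit 4) (nat_lit 21) (nat_lit 4) (nat_lit 407) (nat_lit 311) (nat_lit 302)))) (XT.nd (nat_lit 78) (nat_lit 152) (nat_lit 0) (XT.lf (nat_lit 0) (nat_lit 15071903711) (nat_lit 76) (nat_lit 8162514874) (nat_lit 76) (nat_lit 4975431742) (nat_lit 20) (nat_lit 4) (nat_lit 21) (nat_lit 5) (nat_lit 21) (nat_lit 4) (nat_lit 408) (nat_lit 311) (nat_lit 301)) (XT.nd (nat_lit 78) (nat_lit 0) (nat_lit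 0) (XT.lf (nat_lit 0) (nat_lit 4232672594) (nat_lit 152) (nat_lit 24191893948) (nat_lit 0) (nat_lit 904124301) (nat_lit 18) (nat_lit 5) (nat_lit 20) (nat_lit 4) (nat_lit 18) (nat_lit 4) (nat_lit 409) (nat_lit 311) (nat_lit 300)) (XT.lf (nat_lit 0) (nat_lit 13759265100) (nat_lit 152) (nat_lit 6536332870) (nat_lit 0) (nat_lit 10207580783) (nat_lit 18) (nat_lit 5) (nat_lit 20) (nat_lit 4) (nat_lit 18) (nat_lit 4) (nat_lit 410) (nat_lit 311) (nat_lit 299))))) (XT.nd (nat_lit 234) (nat_lit 152) (nat_lit 0) (XT.nd (nat_lit 78) (nat_lit 152) (nat_lit 0) (XT.lf (nat_lit 0) (nat_lit 11752486950) (nat_lit 76) (nat_lit 11876060108) (nat_lit 76) (nat_lit 8111865294) (nat_lit 17) (nat_lit 4) (nat_lit 18) (nat_lit 5) (nat_lit 18) (nat_lit 4) (nat_lit 411) (nat_lit 311) (nat_lit 298)) (XT.nd (nat_lit 78) (nat_lit 76) (nat_lit 0) (XT.lf (nat_lit 0) (nat_lit 759443801) (nat_lit 152) (nat_lit 2424914848) (nat_lit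 76) (nat_lit 29860098752) (nat_lit 16) (nat_lit 5) (nat_lit 18) (nat_lit 5) (nat_lit 17) (nat_lit 4) (nat_lit 412) (nat_lit 311) (nat_lit 297)) (XT.lf (nat_lit 0) (nat_lit 9887075045) (nat_lit 152) (nat_lit 18675933375) (nat_lit 0) (nat_lit 5848881790) (nat_lit 15) (nat_lit 5) (nat_lit 17) (nat_lit 4) (nat_lit 15) (nat_lit 4) (nat_lit 413) (nat_lit 311) (nat_lit 296)))) (XT.nd (nat_lit 78) (nat_lit 152) (nat_lit 0) (XT.lf (nat_lit 0) (nat_lit 19302979624) (nat_lit 152) (nat_lit 1463209777) (nat_lit 0) (nat_lit 15086558642) (nat_lit 15) (nat_lit 5) (nat_lit 17) (nat_lit 4) (nat_lit 15) (nat_lit 4) (nat_lit 414) (nat_lit 311) (nat_lit 295)) (XT.nd (nat_lit 78) (nat_lit 76) (nat_lit 0) (XT.lf (nat_lit 0) (nat_lit 16513898471) (nat_lit 76) (nat_lit 12619800520) (nat_lit 76) (nat_lit 8233638846) (nat_lit 14) (nat_lit 4) (nat_lit 15) (nat_lit 5) (nat_lit 15) (nat_lit 4) (nat_lit 415) (nat_lit 311)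 (nat_lit 294)) (XT.lf (nat_lit 0) (nat_lit 293307982) (nat_lit 152) (nat_lit 3952404272) (nat_lit 76) (nat_lit 34717668066) (nat_lit 13) (nat_lit 5) (nat_lit 15) (nat_lit 5) (nat_lit 14) (nat_lit 4) (nat_lit 416) (nat_lit 311) (nat_lit 293))))))) (XT.nd (nat_lit 936) (nat_lit 228) (nat_lit 0) (XT.nd (nat_lit 468) (nat_lit 76) (nat_lit 0) (XT.nd (nat_lit 234) (nat_lit 152) (nat_lit 0) (XT.nd (nat_lit 78) (nat_lit 76) (nat_lit 0) (XT.lf (nat_lit 0) (nat_lit 9052021031) (nat_lit 152) (nat_lit 27098308899) (nat_lit 0) (nat_lit 4487186771) (nat_lit 12) (nat_lit 5) (nat_lit 14) (nat_lit 4) (nat_lit 12) (nat_lit 4) (nat_lit 417) (nat_lit 311) (nat_lit 292)) (XT.nd (nat_lit 78) (nat_lit 76) (nat_lit 0) (XT.lf (nat_lit 0) (nat_lit 18136269034) (nat_lit 152) (nat_lit 10833393874) (nat_lit 0) (nat_lit 13429077111) (nat_lit 12) (nat_lit 5) (nat_lit 14) (nat_lit 4) (nat_lit 12) (nat_lit 4) (nat_lit 418) (nat_lit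 311) (nat_lit 291)) (XT.lf (nat_lit 0) (nat_lit 5996064248) (nat_lit 76) (nat_lit 21549309641) (nat_lit 76) (nat_lit 16706538993) (nat_lit 11) (nat_lit 4) (nat_lit 12) (nat_lit 5) (nat_lit 12) (nat_lit 4) (nat_lit 419) (nat_lit 311) (nat_lit 290)))) (XT.nd (nat_lit 78) (nat_lit 152) (nat_lit 0) (XT.lf (nat_lit 0) (nat_lit 23538156815) (nat_lit 76) (nat_lit 13816793832) (nat_lit 76) (nat_lit 8844900588) (nat_lit 11) (nat_lit 4) (nat_lit 12) (nat_lit 5) (nat_lit 12) (nat_lit 4) (nat_lit 420) (nat_lit 311) (nat_lit 289)) (XT.nd (nat_lit 78) (nat_lit 152) (nat_lit 0) (XT.lf (nat_lit 0) (nat_lit 41619044933) (nat_lit 76) (nat_lit 5863100764) (nat_lit 76) (nat_lit 768233619) (nat_lit 11) (nat_lit 4) (nat_lit 12) (nat_lit 5) (nat_lit 12) (nat_lit 4) (nat_lit 421) (nat_lit 311) (nat_lit 288)) (XT.lf (nat_lit 0) (nat_lit 7515667587) (nat_lit 152) (nat_lit 40431443949) (nat_lit 0) (nat_lit 2455487834)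 (nat_lit 9) (nat_lit 5) (nat_lit 11) (nat_lit 4) (nat_lit 9) (nat_lit 4) (nat_lit 422) (nat_lit 311) (nat_lit 287))))) (XT.nd (nat_lit 234) (nat_lit 0) (nat_lit 0) (XT.nd (nat_lit 78) (nat_lit 76) (nat_lit 0) (XT.lf (nat_lit 0) (nat_lit 16163265060) (nat_lit 152) (nat_lit 25505188536) (nat_lit 0) (nat_lit 10994793119) (nat_lit 9) (nat_lit 5) (nat_lit 11) (nat_lit 4) (nat_lit 9) (nat_lit 4) (nat_lit 423) (nat_lit 311) (nat_lit 286)) (XT.nd (nat_lit 78) (nat_lit 76) (nat_lit 0) (XT.lf (nat_lit 0) (nat_lit 25088122832) (nat_lit 152) (nat_lit 10136947574) (nat_lit 0) (nat_lit 19816515475) (nat_lit 9) (nat_lit 5) (nat_lit 11) (nat_lit 4) (nat_lit 9) (nat_lit 4) (nat_lit 424) (nat_lit 311) (nat_lit 285)) (XT.lf (nat_lit 0) (nat_lit 5823507596) (nat_lit 76) (nat_lit 28543962087) (nat_lit 76) (nat_lit 23174130523) (nat_lit 8) (nat_lit 4) (nat_lit 9) (nat_lit 5) (nat_lit 9) (nat_lit 4) (nat_lit 425) (nat_lit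 311) (nat_lit 284)))) (XT.nd (nat_lit 78) (nat_lit 0) (nat_lit 0) (XT.lf (nat_lit 0) (nat_lit 22512290542) (nat_lit 76) (nat_lit 21559440028) (nat_lit 76) (nat_lit 16096061600) (nat_lit 8) (nat_lit 4) (nat_lit 9) (nat_lit 5) (nat_lit 9) (nat_lit 4) (nat_lit 426) (nat_lit 311) (nat_lit 283)) (XT.nd (nat_lit 78) (nat_lit 0) (nat_lit 0) (XT.lf (nat_lit 0) (nat_lit 39767391326) (nat_lit 76) (nat_lit 14357237708) (nat_lit 76) (nat_lit 8804767029) (nat_lit 8) (nat_lit 4) (nat_lit 9) (nat_lit 5) (nat_lit 9) (nat_lit 4) (nat_lit 427) (nat_lit 311) (nat_lit 282)) (XT.lf (nat_lit 0) (nat_lit 57629893524) (nat_lit 76) (nat_lit 6920207026) (nat_lit 76) (nat_lit 1282886585) (nat_lit 8) (nat_lit 4) (nat_lit 9) (nat_lit 5) (nat_lit 9) (nat_lit 4) (nat_lit 428) (nat_lit 311) (nat_lit 281)))))) (XT.nd (nat_lit 468) (nat_lit 0) (nat_lit 0) (XT.nd (nat_lit 234) (nat_lit 76) (nat_lit 0) (XT.nd (nat_lit 78) (nat_lit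 0) (nat_lit 0) (XT.lf (nat_lit 0) (nat_lit 6440140228) (nat_lit 152) (nat_lit 61552532292) (nat_lit 0) (nat_lit 888557957) (nat_lit 6) (nat_lit 5) (nat_lit 8) (nat_lit 4) (nat_lit 6) (nat_lit 4) (nat_lit 429) (nat_lit 311) (nat_lit 280)) (XT.nd (nat_lit 78) (nat_lit 0) (nat_lit 0) (XT.lf (nat_lit 0) (nat_lit 14555587937) (nat_lit 152) (nat_lit 48595651178) (nat_lit 0) (nat_lit 8929286020) (nat_lit 6) (nat_lit 5) (nat_lit 8) (nat_lit 4) (nat_lit 6) (nat_lit 4) (nat_lit 430) (nat_lit 311) (nat_lit 279)) (XT.lf (nat_lit 0) (nat_lit 22960072762) (nat_lit 152) (nat_lit 35220608593) (nat_lit 0) (nat_lit 17262609277) (nat_lit 6) (nat_lit 5) (nat_lit 8) (nat_lit 4) (nat_lit 6) (nat_lit 4) (nat_lit 431) (nat_lit 311) (nat_lit 278)))) (XT.nd (nat_lit 78) (nat_lit 76) (nat_lit 0) (XT.lf (nat_lit 0) (nat_lit 31673605380) (nat_lit 152) (nat_lit 21395559197) (nat_lit 0) (nat_lit 25908368973) (nat_lit 6) (nat_lit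 5) (nat_lit 8) (nat_lit 4) (nat_lit 6) (nat_lit 4) (nat_lit 432) (nat_lit 311) (nat_lit 277)) (XT.nd (nat_lit 78) (nat_lit 76) (nat_lit 0) (XT.lf (nat_lit 0) (nat_lit 40716932299) (nat_lit 152) (nat_lit 7087586207) (nat_lit 0) (nat_lit 34887150252) (nat_lit 6) (nat_lit 5) (nat_lit 8) (nat_lit 4) (nat_lit 6) (nat_lit 4) (nat_lit 433) (nat_lit 311) (nat_lit 276)) (XT.lf (nat_lit 0) (nat_lit 7891365951) (nat_lit 76) (nat_lit 42296075934) (nat_lit 76) (nat_lit 36404821848) (nat_lit 5) (nat_lit 4) (nat_lit 6) (nat_lit 5) (nat_lit 6) (nat_lit 4) (nat_lit 434) (nat_lit 311) (nat_lit 275))))) (XT.nd (nat_lit 234) (nat_lit 0) (nat_lit 0) (XT.nd (nat_lit 78) (nat_lit 0) (nat_lit 0) (XT.lf (nat_lit 0) (nat_lit 23574654311) (nat_lit 76) (nat_lit 36531892137) (nat_lit 76) (nat_lit 30582093254) (nat_lit 5) (nat_lit 4) (nat_lit 6) (nat_lit 5) (nat_lit 6) (nat_lit 4) (nat_lit 435) (nat_lit 311) (nat_lit 274))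 (XT.nd (nat_lit 78) (nat_lit 0) (nat_lit 0) (XT.lf (nat_lit 0) (nat_lit 39858563170) (nat_lit 76) (nat_lit 30569813595) (nat_lit 76) (nat_lit 24564257761) (nat_lit 5) (nat_lit 4) (nat_lit 6) (nat_lit 5) (nat_lit 6) (nat_lit 4) (nat_lit 436) (nat_lit 311) (nat_lit 273)) (XT.lf (nat_lit 0) (nat_lit 56781863740) (nat_lit 76) (nat_lit 24395644881) (nat_lit 76) (nat_lit 18336987189) (nat_lit 5) (nat_lit 4) (nat_lit 6) (nat_lit 5) (nat_lit 6) (nat_lit 4) (nat_lit 437) (nat_lit 311) (nat_lit 272)))) (XT.nd (nat_lit 49920) (nat_lit 0) (nat_lit 2052) (XT.nd (nat_lit 49842) (nat_lit 0) (nat_lit 2280) (XT.lf (nat_lit 0) (nat_lit 74384849595) (nat_lit 76) (nat_lit 17994685594) (nat_lit 76) (nat_lit 11885454704) (nat_lit 5) (nat_lit 4) (nat_lit 6) (nat_lit 5) (nat_lit 6) (nat_lit 4) (nat_lit 438) (nat_lit 311) (nat_lit 271)) (XT.lf (nat_lit 0) (nat_lit 3107043760) (nat_lit 152) (nat_lit 3056066504) (nat_lit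 152) (nat_lit 3056066504) (nat_lit 35) (nat_lit 4) (nat_lit 37) (nat_lit 5) (nat_lit 37) (nat_lit 4) (nat_lit 396) (nat_lit 312) (nat_lit 312))) (XT.nd (nat_lit 78) (nat_lit 76) (nat_lit 0) (XT.lf (nat_lit 0) (nat_lit 3662963869) (nat_lit 152) (nat_lit 12186642309) (nat_lit 0) (nat_lit 3198419285) (nat_lit 33) (nat_lit 5) (nat_lit 35) (nat_lit 4) (nat_lit 33) (nat_lit 4) (nat_lit 397) (nat_lit 312) (nat_lit 311)) (XT.lf (nat_lit 0) (nat_lit 6847016079) (nat_lit 76) (nat_lit 6874356809) (nat_lit 76) (nat_lit 5967388810) (nat_lit 32) (nat_lit 4) (nat_lit 33) (nat_lit 5) (nat_lit 33) (nat_lit 4) (nat_lit 398) (nat_lit 312) (nat_lit 310))))))))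
noncomputable def xc9 : XT := (XT.nd (nat_lit 1872) (nat_lit 304) (nat_lit 0) (XT.nd (nat_lit 936) (nat_lit 684) (nat_lit 0) (XT.nd (nat_lit 468) (nat_lit 456) (nat_lit 0) (XT.nd (nat_lit 234) (nat_lit 228) (nat_lit 0) (XT.nd (nat_lit 78) (nat_lit 228) (nat_lit 0) (XT.lf (nat_lit 0) (nat_lit 3726702310) (nat_lit 152) (nat_lit 14200195685) (nat_lit 0) (nat_lit 2437067717) (nat_lit 30) (nat_lit 5) (nat_lit 32) (nat_lit 4) (nat_lit 30) (nat_lit 4) (nat_lit 399) (nat_lit 312) (nat_lit 309)) (XT.nd (nat_lit 78) (nat_lit 152) (nat_lit 0) (XT.lf (nat_lit 0) (nat_lit 4667448810) (nat_lit 76) (nat_lit 9042565222) (nat_lit 76) (nat_lit 7363327641) (nat_lit 29) (nat_lit 4) (nat_lit 30) (nat_lit 5) (nat_lit 30) (nat_lit 4) (nat_lit 400) (nat_lit 312) (nat_lit 308)) (XT.lf (nat_lit 0) (nat_lit 2185922628) (nat_lit 152) (nat_lit 19440509423) (nat_lit 0) (nat_lit 195351709) (nat_lit 27) (nat_lit 5) (nat_lit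 29) (nat_lit 4) (nat_lit 27) (nat_lit 4) (nat_lit 401) (nat_lit 312) (nat_lit 307)))) (XT.nd (nat_lit 78) (nat_lit 228) (nat_lit 0) (XT.lf (nat_lit 0) (nat_lit 12015787266) (nat_lit 152) (nat_lit 908902357) (nat_lit 0) (nat_lit 9682127614) (nat_lit 27) (nat_lit 5) (nat_lit 29) (nat_lit 4) (nat_lit 27) (nat_lit 4) (nat_lit 402) (nat_lit 312) (nat_lit 306)) (XT.nd (nat_lit 78) (nat_lit 152) (nat_lit 0) (XT.lf (nat_lit 0) (nat_lit 18345660727) (nat_lit 76) (nat_lit 3874687491) (nat_lit 76) (nat_lit 1214276664) (nat_lit 26) (nat_lit 4) (nat_lit 27) (nat_lit 5) (nat_lit 27) (nat_lit 4) (nat_lit 403) (nat_lit 312) (nat_lit 305)) (XT.lf (nat_lit 0) (nat_lit 8372636110) (nat_lit 152) (nat_lit 10443837193) (nat_lit 0) (nat_lit 5487585215) (nat_lit 24) (nat_lit 5) (nat_lit 26) (nat_lit 4) (nat_lit 24) (nat_lit 4) (nat_lit 404) (nat_lit 312) (nat_lit 304))))) (XT.nd (nat_lit 234) (nat_lit 228) (nat_lit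 0) (XT.nd (nat_lit 78) (nat_lit 152) (nat_lit 0) (XT.lf (nat_lit 0) (nat_lit 8214878087) (nat_lit 76) (nat_lit 10088916335) (nat_lit 76) (nat_lit 6916124714) (nat_lit 23) (nat_lit 4) (nat_lit 24) (nat_lit 5) (nat_lit 24) (nat_lit 4) (nat_lit 405) (nat_lit 312) (nat_lit 303)) (XT.nd (nat_lit 78) (nat_lit 0) (nat_lit 0) (XT.lf (nat_lit 0) (nat_lit 1315173931) (nat_lit 76) (nat_lit 1030641013) (nat_lit 152) (nat_lit 23839668564) (nat_lit 21) (nat_lit 5) (nat_lit 22) (nat_lit 5) (nat_lit 23) (nat_lit 4) (nat_lit 406) (nat_lit 312) (nat_lit 302)) (XT.lf (nat_lit 0) (nat_lit 11917640391) (nat_lit 152) (nat_lit 6962135670) (nat_lit 0) (nat_lit 8317815412) (nat_lit 21) (nat_lit 5) (nat_lit 23) (nat_lit 4) (nat_lit 21) (nat_lit 4) (nat_lit 407) (nat_lit 312) (nat_lit 301)))) (XT.nd (nat_lit 78) (nat_lit 152) (nat_lit 0) (XT.lf (nat_lit 0) (nat_lit 11559704847) (nat_lit 76) (nat_lit 10272911759) (nat_lit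 76) (nat_lit 6431765171) (nat_lit 20) (nat_lit 4) (nat_lit 21) (nat_lit 5) (nat_lit 21) (nat_lit 4) (nat_lit 408) (nat_lit 312) (nat_lit 300)) (XT.nd (nat_lit 78) (nat_lit 0) (nat_lit 0) (XT.lf (nat_lit 0) (nat_lit 1279856061) (nat_lit 76) (nat_lit 1356022142) (nat_lit 152) (nat_lit 26752836636) (nat_lit 18) (nat_lit 5) (nat_lit 19) (nat_lit 5) (nat_lit 20) (nat_lit 4) (nat_lit 409) (nat_lit 312) (nat_lit 299)) (XT.lf (nat_lit 0) (nat_lit 12029137128) (nat_lit 152) (nat_lit 10673849451) (nat_lit 0) (nat_lit 7864222074) (nat_lit 18) (nat_lit 5) (nat_lit 20) (nat_lit 4) (nat_lit 18) (nat_lit 4) (nat_lit 410) (nat_lit 312) (nat_lit 298)))))) (XT.nd (nat_lit 468) (nat_lit 380) (nat_lit 0) (XT.nd (nat_lit 234) (nat_lit 76) (nat_lit 0) (XT.nd (nat_lit 78) (nat_lit 152) (nat_lit 0) (XT.lf (nat_lit 0) (nat_lit 7305734727) (nat_lit 76) (nat_lit 14435369299) (nat_lit 76) (nat_lit 10068063294) (nat_lit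 17) (nat_lit 4) (nat_lit 18) (nat_lit 5) (nat_lit 18) (nat_lit 4) (nat_lit 411) (nat_lit 312) (nat_lit 297)) (XT.nd (nat_lit 78) (nat_lit 152) (nat_lit 0) (XT.lf (nat_lit 0) (nat_lit 25964372605) (nat_lit 76) (nat_lit 5856231759) (nat_lit 76) (nat_lit 1296172467) (nat_lit 17) (nat_lit 4) (nat_lit 18) (nat_lit 5) (nat_lit 18) (nat_lit 4) (nat_lit 412) (nat_lit 312) (nat_lit 296)) (XT.lf (nat_lit 0) (nat_lit 7674281635) (nat_lit 152) (nat_lit 23746968966) (nat_lit 0) (nat_lit 3068811877) (nat_lit 15) (nat_lit 5) (nat_lit 17) (nat_lit 4) (nat_lit 15) (nat_lit 4) (nat_lit 413) (nat_lit 312) (nat_lit 295)))) (XT.nd (nat_lit 78) (nat_lit 76) (nat_lit 0) (XT.lf (nat_lit 0) (nat_lit 16985443709) (nat_lit 152) (nat_lit 6738390328) (nat_lit 0) (nat_lit 12210233259) (nat_lit 15) (nat_lit 5) (nat_lit 17) (nat_lit 4) (nat_lit 15) (nat_lit 4) (nat_lit 414) (nat_lit 312) (nat_lit 294)) (XT.nd (nat_lit 78) (nat_lit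 0) (nat_lit 0) (XT.lf (nat_lit 0) (nat_lit 10935438299) (nat_lit 76) (nat_lit 15727346440) (nat_lit 76) (nat_lit 10790478188) (nat_lit 14) (nat_lit 4) (nat_lit 15) (nat_lit 5) (nat_lit 15) (nat_lit 4) (nat_lit 415) (nat_lit 312) (nat_lit 293)) (XT.lf (nat_lit 0) (nat_lit 29246627058) (nat_lit 76) (nat_lit 7448250775) (nat_lit 76) (nat_lit 2357422712) (nat_lit 14) (nat_lit 4) (nat_lit 15) (nat_lit 5) (nat_lit 15) (nat_lit 4) (nat_lit 416) (nat_lit 312) (nat_lit 292))))) (XT.nd (nat_lit 234) (nat_lit 228) (nat_lit 0) (XT.nd (nat_lit 78) (nat_lit 0) (nat_lit 0) (XT.lf (nat_lit 0) (nat_lit 6262777126) (nat_lit 152) (nat_lit 33292011085) (nat_lit 0) (nat_lit 1177867945) (nat_lit 12) (nat_lit 5) (nat_lit 14) (nat_lit 4) (nat_lit 12) (nat_lit 4) (nat_lit 417) (nat_lit 312) (nat_lit 291)) (XT.nd (nat_lit 78) (nat_lit 0) (nat_lit 0) (XT.lf (nat_lit 0) (nat_lit 15255808844) (nat_lit 152) (nat_lit 17205489945)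 (nat_lit 0) (nat_lit 10035320937) (nat_lit 12) (nat_lit 5) (nat_lit 14) (nat_lit 4) (nat_lit 12) (nat_lit 4) (nat_lit 418) (nat_lit 312) (nat_lit 290)) (XT.lf (nat_lit 0) (nat_lit 24520403210) (nat_lit 152) (nat_lit 662935569) (nat_lit 0) (nat_lit 19170792708) (nat_lit 12) (nat_lit 5) (nat_lit 14) (nat_lit 4) (nat_lit 12) (nat_lit 4) (nat_lit 419) (nat_lit 312) (nat_lit 289)))) (XT.nd (nat_lit 78) (nat_lit 152) (nat_lit 0) (XT.lf (nat_lit 0) (nat_lit 16700934461) (nat_lit 76) (nat_lit 17538223921) (nat_lit 76) (nat_lit 12065639518) (nat_lit 11) (nat_lit 4) (nat_lit 12) (nat_lit 5) (nat_lit 12) (nat_lit 4) (nat_lit 420) (nat_lit 312) (nat_lit 288)) (XT.nd (nat_lit 78) (nat_lit 152) (nat_lit 0) (XT.lf (nat_lit 0) (nat_lit 34624652275) (nat_lit 76) (nat_lit 9661394283) (nat_lit 76) (nat_lit 4071691879) (nat_lit 11) (nat_lit 4) (nat_lit 12) (nat_lit 5) (nat_lit 12) (nat_lit 4) (nat_lit 421) (nat_lit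 312) (nat_lit 287)) (XT.lf (nat_lit 0) (nat_lit 2631011321) (nat_lit 76) (nat_lit 1473547633) (nat_lit 152) (nat_lit 46411518570) (nat_lit 9) (nat_lit 5) (nat_lit 10) (nat_lit 5) (nat_lit 11) (nat_lit 4) (nat_lit 422) (nat_lit 312) (nat_lit 286))))))) (XT.nd (nat_lit 936) (nat_lit 76) (nat_lit 0) (XT.nd (nat_lit 468) (nat_lit 152) (nat_lit 0) (XT.nd (nat_lit 234) (nat_lit 76) (nat_lit 0) (XT.nd (nat_lit 78) (nat_lit 0) (nat_lit 0) (XT.lf (nat_lit 0) (nat_lit 12662323701) (nat_lit 152) (nat_lit 33093098452) (nat_lit 0) (nat_lit 7024000559) (nat_lit 9) (nat_lit 5) (nat_lit 11) (nat_lit 4) (nat_lit 9) (nat_lit 4) (nat_lit 423) (nat_lit 312) (nat_lit 285)) (XT.nd (nat_lit 78) (nat_lit 0) (nat_lit 0) (XT.lf (nat_lit 0) (nat_lit 21515116631) (nat_lit 152) (nat_lit 17866240635) (nat_lit 0) (nat_lit 15778569282) (nat_lit 9) (nat_lit 5) (nat_lit 11) (nat_lit 4) (nat_lit 9) (nat_lit 4) (nat_lit 424) (nat_lit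 312) (nat_lit 284)) (XT.lf (nat_lit 0) (nat_lit 30669851182) (nat_lit 152) (nat_lit 2154073688) (nat_lit 0) (nat_lit 24839756970) (nat_lit 9) (nat_lit 5) (nat_lit 11) (nat_lit 4) (nat_lit 9) (nat_lit 4) (nat_lit 425) (nat_lit 312) (nat_lit 283)))) (XT.nd (nat_lit 78) (nat_lit 0) (nat_lit 0) (XT.lf (nat_lit 0) (nat_lit 14361048084) (nat_lit 76) (nat_lit 25925323435) (nat_lit 76) (nat_lit 20006136972) (nat_lit 8) (nat_lit 4) (nat_lit 9) (nat_lit 5) (nat_lit 9) (nat_lit 4) (nat_lit 426) (nat_lit 312) (nat_lit 282)) (XT.nd (nat_lit 78) (nat_lit 0) (nat_lit 0) (XT.lf (nat_lit 0) (nat_lit 31491586124) (nat_lit 76) (nat_lit 18784234166) (nat_lit 76) (nat_lit 12780197940) (nat_lit 8) (nat_lit 4) (nat_lit 9) (nat_lit 5) (nat_lit 9) (nat_lit 4) (nat_lit 427) (nat_lit 312) (nat_lit 281)) (XT.lf (nat_lit 0) (nat_lit 49235457136) (nat_lit 76) (nat_lit 11405406390) (nat_lit 76) (nat_lit 5320560866) (nat_lit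 8) (nat_lit 4) (nat_lit 9) (nat_lit 5) (nat_lit 9) (nat_lit 4) (nat_lit 428) (nat_lit 312) (nat_lit 280))))) (XT.nd (nat_lit 234) (nat_lit 0) (nat_lit 0) (XT.nd (nat_lit 78) (nat_lit 76) (nat_lit 0) (XT.lf (nat_lit 0) (nat_lit 2343887335) (nat_lit 152) (nat_lit 1403715468) (nat_lit 76) (nat_lit 65267352430) (nat_lit 7) (nat_lit 5) (nat_lit 9) (nat_lit 5) (nat_lit 8) (nat_lit 4) (nat_lit 429) (nat_lit 312) (nat_lit 279)) (XT.nd (nat_lit 78) (nat_lit 0) (nat_lit 0) (XT.lf (nat_lit 0) (nat_lit 10352468586) (nat_lit 152) (nat_lit 57566018913) (nat_lit 0) (nat_lit 4298970359) (nat_lit 6) (nat_lit 5) (nat_lit 8) (nat_lit 4) (nat_lit 6) (nat_lit 4) (nat_lit 430) (nat_lit 312) (nat_lit 278)) (XT.lf (nat_lit 0) (nat_lit 18702720998) (nat_lit 152) (nat_lit 44297681361) (nat_lit 0) (nat_lit 12581449848) (nat_lit 6) (nat_lit 5) (nat_lit 8) (nat_lit 4) (nat_lit 6) (nat_lit 4) (nat_lit 431) (nat_lit 312) (nat_lit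 277)))) (XT.nd (nat_lit 78) (nat_lit 0) (nat_lit 0) (XT.lf (nat_lit 0) (nat_lit 27364603699) (nat_lit 152) (nat_lit 30574255807) (nat_lit 0) (nat_lit 21178786909) (nat_lit 6) (nat_lit 5) (nat_lit 8) (nat_lit 4) (nat_lit 6) (nat_lit 4) (nat_lit 432) (nat_lit 312) (nat_lit 276)) (XT.nd (nat_lit 78) (nat_lit 0) (nat_lit 0) (XT.lf (nat_lit 0) (nat_lit 36358740220) (nat_lit 152) (nat_lit 16363067429) (nat_lit 0) (nat_lit 30111451392) (nat_lit 6) (nat_lit 5) (nat_lit 8) (nat_lit 4) (nat_lit 6) (nat_lit 4) (nat_lit 433) (nat_lit 312) (nat_lit 275)) (XT.lf (nat_lit 0) (nat_lit 45706545171) (nat_lit 152) (nat_lit 1630280062) (nat_lit 0) (nat_lit 39400711545) (nat_lit 6) (nat_lit 5) (nat_lit 8) (nat_lit 4) (nat_lit 6) (nat_lit 4) (nat_lit 434) (nat_lit 312) (nat_lit 274)))))) (XT.nd (nat_lit 50076) (nat_lit 0) (nat_lit 1672) (XT.nd (nat_lit 234) (nat_lit 0) (nat_lit 0) (XT.nd (nat_lit 78) (nat_lit 0) (nat_lit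 0) (XT.lf (nat_lit 0) (nat_lit 13931028908) (nat_lit 76) (nat_lit 41633159896) (nat_lit 76) (nat_lit 35271569319) (nat_lit 5) (nat_lit 4) (nat_lit 6) (nat_lit 5) (nat_lit 6) (nat_lit 4) (nat_lit 435) (nat_lit 312) (nat_lit 273)) (XT.nd (nat_lit 78) (nat_lit 0) (nat_lit 0) (XT.lf (nat_lit 0) (nat_lit 30129667654) (nat_lit 76) (nat_lit 35713039283) (nat_lit 76) (nat_lit 29298346849) (nat_lit 5) (nat_lit 4) (nat_lit 6) (nat_lit 5) (nat_lit 6) (nat_lit 4) (nat_lit 436) (nat_lit 312) (nat_lit 272)) (XT.lf (nat_lit 0) (nat_lit 46971758592) (nat_lit 76) (nat_lit 29578830502) (nat_lit 76) (nat_lit 23113564870) (nat_lit 5) (nat_lit 4) (nat_lit 6) (nat_lit 5) (nat_lit 6) (nat_lit 4) (nat_lit 437) (nat_lit 312) (nat_lit 271)))) (XT.nd (nat_lit 49686) (nat_lit 0) (nat_lit 2432) (XT.lf (nat_lit 0) (nat_lit 64497401941) (nat_lit 76) (nat_lit 23215928294) (nat_lit 76) (nat_lit 16702497711) (nat_lit 5) (nat_lit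 4) (nat_lit 6) (nat_lit 5) (nat_lit 6) (nat_lit 4) (nat_lit 438) (nat_lit 312) (nat_lit 270)) (XT.nd (nat_lit 78) (nat_lit 152) (nat_lit 0) (XT.lf (nat_lit 0) (nat_lit 1791441941) (nat_lit 152) (nat_lit 3430292134) (nat_lit 152) (nat_lit 3430292134) (nat_lit 39) (nat_lit 4) (nat_lit 41) (nat_lit 5) (nat_lit 41) (nat_lit 4) (nat_lit 394) (nat_lit 313) (nat_lit 313)) (XT.lf (nat_lit 0) (nat_lit 2763106285) (nat_lit 152) (nat_lit 12836050146) (nat_lit 0) (nat_lit 2260701317) (nat_lit 37) (nat_lit 5) (nat_lit 39) (nat_lit 4) (nat_lit 37) (nat_lit 4) (nat_lit 395) (nat_lit 313) (nat_lit 312))))) (XT.nd (nat_lit 234) (nat_lit 380) (nat_lit 0) (XT.nd (nat_lit 78) (nat_lit 228) (nat_lit 0) (XT.lf (nat_lit 0) (nat_lit 5902453238) (nat_lit 152) (nat_lit 6760879132) (nat_lit 152) (nat_lit 5779993242) (nat_lit 35) (nat_lit 4) (nat_lit 37) (nat_lit 5) (nat_lit 37) (nat_lit 4) (nat_lit 396) (nat_lit 313) (nat_lit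 311)) (XT.nd (nat_lit 78) (nat_lit 76) (nat_lit 0) (XT.lf (nat_lit 0) (nat_lit 3815933294) (nat_lit 152) (nat_lit 12820967926) (nat_lit 0) (nat_lit 2421193483) (nat_lit 33) (nat_lit 5) (nat_lit 35) (nat_lit 4) (nat_lit 33) (nat_lit 4) (nat_lit 397) (nat_lit 313) (nat_lit 310)) (XT.lf (nat_lit 0) (nat_lit 5899508675) (nat_lit 76) (nat_lit 7810184437) (nat_lit 76) (nat_lit 5994088993) (nat_lit 32) (nat_lit 4) (nat_lit 33) (nat_lit 5) (nat_lit 33) (nat_lit 4) (nat_lit 398) (nat_lit 313) (nat_lit 309)))) (XT.nd (nat_lit 156) (nat_lit 152) (nat_lit 0) (XT.nd (nat_lit 78) (nat_lit 76) (nat_lit 0) (XT.lf (nat_lit 0) (nat_lit 3525426364) (nat_lit 152) (nat_lit 15486207255) (nat_lit 0) (nat_lit 1372623915) (nat_lit 30) (nat_lit 5) (nat_lit 32) (nat_lit 4) (nat_lit 30) (nat_lit 4) (nat_lit 399) (nat_lit 313) (nat_lit 308)) (XT.lf (nat_lit 0) (nat_lit 3066025900) (nat_lit 76) (nat_lit 10278203040) (nat_lit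 76) (nat_lit 7754350126) (nat_lit 29) (nat_lit 4) (nat_lit 30) (nat_lit 5) (nat_lit 30) (nat_lit 4) (nat_lit 400) (nat_lit 313) (nat_lit 307))) (XT.nd (nat_lit 78) (nat_lit 0) (nat_lit 0) (XT.lf (nat_lit 0) (nat_lit 443561438) (nat_lit 76) (nat_lit 1192298535) (nat_lit 152) (nat_lit 20216283574) (nat_lit 27) (nat_lit 5) (nat_lit 28) (nat_lit 5) (nat_lit 29) (nat_lit 4) (nat_lit 401) (nat_lit 313) (nat_lit 306)) (XT.lf (nat_lit 0) (nat_lit 11311265153) (nat_lit 152) (nat_lit 3139472113) (nat_lit 0) (nat_lit 8191082609) (nat_lit 27) (nat_lit 5) (nat_lit 29) (nat_lit 4) (nat_lit 27) (nat_lit 4) (nat_lit 402) (nat_lit 313) (nat_lit 305))))))))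
noncomputable def xc10 : XT := (XT.nd (nat_lit 1872) (nat_lit 228) (nat_lit 0) (XT.nd (nat_lit 936) (nat_lit 532) (nat_lit 0) (XT.nd (nat_lit 468) (nat_lit 380) (nat_lit 0) (XT.nd (nat_lit 234) (nat_lit 228) (nat_lit 0) (XT.nd (nat_lit 78) (nat_lit 228) (nat_lit 0) (XT.lf (nat_lit 0) (nat_lit 15804593042) (nat_lit 76) (nat_lit 5550617854) (nat_lit 76) (nat_lit 2119243716) (nat_lit 26) (nat_lit 4) (nat_lit 27) (nat_lit 5) (nat_lit 27) (nat_lit 4) (nat_lit 403) (nat_lit 313) (nat_lit 304)) (XT.nd (nat_lit 78) (nat_lit 76) (nat_lit 0) (XT.lf (nat_lit 0) (nat_lit 7306493931) (nat_lit 152) (nat_lit 13355706300) (nat_lit 0) (nat_lit 3687322003) (nat_lit 24) (nat_lit 5) (nat_lit 26) (nat_lit 4) (nat_lit 24) (nat_lit 4) (nat_lit 404) (nat_lit 313) (nat_lit 303)) (XT.lf (nat_lit 0) (nat_lit 4988549166) (nat_lit 76) (nat_lit 12087450788) (nat_lit 76) (nat_lit 8194240073) (nat_lit 23) (nat_lit 4) (nat_lit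 24) (nat_lit 5) (nat_lit 24) (nat_lit 4) (nat_lit 405) (nat_lit 313) (nat_lit 302)))) (XT.nd (nat_lit 78) (nat_lit 152) (nat_lit 0) (XT.lf (nat_lit 0) (nat_lit 951969510) (nat_lit 152) (nat_lit 2221701929) (nat_lit 76) (nat_lit 23066728694) (nat_lit 22) (nat_lit 5) (nat_lit 24) (nat_lit 5) (nat_lit 23) (nat_lit 4) (nat_lit 406) (nat_lit 313) (nat_lit 301)) (XT.nd (nat_lit 78) (nat_lit 76) (nat_lit 0) (XT.lf (nat_lit 0) (nat_lit 10355850487) (nat_lit 152) (nat_lit 10820377680) (nat_lit 0) (nat_lit 6081324960) (nat_lit 21) (nat_lit 5) (nat_lit 23) (nat_lit 4) (nat_lit 21) (nat_lit 4) (nat_lit 407) (nat_lit 313) (nat_lit 300)) (XT.lf (nat_lit 0) (nat_lit 7389228841) (nat_lit 76) (nat_lit 12722130313) (nat_lit 76) (nat_lit 8217774682) (nat_lit 20) (nat_lit 4) (nat_lit 21) (nat_lit 5) (nat_lit 21) (nat_lit 4) (nat_lit 408) (nat_lit 313) (nat_lit 299))))) (XT.nd (nat_lit 234) (nat_lit 152) (nat_lit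 0) (XT.nd (nat_lit 78) (nat_lit 152) (nat_lit 0) (XT.lf (nat_lit 0) (nat_lit 755415248) (nat_lit 152) (nat_lit 3189748490) (nat_lit 76) (nat_lit 25512703251) (nat_lit 19) (nat_lit 5) (nat_lit 21) (nat_lit 5) (nat_lit 20) (nat_lit 4) (nat_lit 409) (nat_lit 313) (nat_lit 298)) (XT.nd (nat_lit 78) (nat_lit 76) (nat_lit 0) (XT.lf (nat_lit 0) (nat_lit 9977633933) (nat_lit 152) (nat_lit 15474292015) (nat_lit 0) (nat_lit 5189571677) (nat_lit 18) (nat_lit 5) (nat_lit 20) (nat_lit 4) (nat_lit 18) (nat_lit 4) (nat_lit 410) (nat_lit 313) (nat_lit 297)) (XT.lf (nat_lit 0) (nat_lit 2193667324) (nat_lit 76) (nat_lit 17337678751) (nat_lit 76) (nat_lit 12356863208) (nat_lit 17) (nat_lit 4) (nat_lit 18) (nat_lit 5) (nat_lit 18) (nat_lit 4) (nat_lit 411) (nat_lit 313) (nat_lit 296)))) (XT.nd (nat_lit 78) (nat_lit 152) (nat_lit 0) (XT.lf (nat_lit 0) (nat_lit 20646508423) (nat_lit 76) (nat_lit 8858441236) (nat_lit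 76) (nat_lit 3694051134) (nat_lit 17) (nat_lit 4) (nat_lit 18) (nat_lit 5) (nat_lit 18) (nat_lit 4) (nat_lit 412) (nat_lit 313) (nat_lit 295)) (XT.nd (nat_lit 78) (nat_lit 0) (nat_lit 0) (XT.lf (nat_lit 0) (nat_lit 5088060657) (nat_lit 76) (nat_lit 48532284) (nat_lit 152) (nat_lit 29441987742) (nat_lit 15) (nat_lit 5) (nat_lit 16) (nat_lit 5) (nat_lit 17) (nat_lit 4) (nat_lit 413) (nat_lit 313) (nat_lit 294)) (XT.lf (nat_lit 0) (nat_lit 14347533728) (nat_lit 152) (nat_lit 12675898638) (nat_lit 0) (nat_lit 9002164261) (nat_lit 15) (nat_lit 5) (nat_lit 17) (nat_lit 4) (nat_lit 15) (nat_lit 4) (nat_lit 414) (nat_lit 313) (nat_lit 293)))))) (XT.nd (nat_lit 468) (nat_lit 228) (nat_lit 0) (XT.nd (nat_lit 234) (nat_lit 76) (nat_lit 0) (XT.nd (nat_lit 78) (nat_lit 152) (nat_lit 0) (XT.lf (nat_lit 0) (nat_lit 4690911279) (nat_lit 76) (nat_lit 19178932725) (nat_lit 76) (nat_lit 13679603447) (nat_lit 14)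 (nat_lit 4) (nat_lit 15) (nat_lit 5) (nat_lit 15) (nat_lit 4) (nat_lit 415) (nat_lit 313) (nat_lit 292)) (XT.nd (nat_lit 78) (nat_lit 152) (nat_lit 0) (XT.lf (nat_lit 0) (nat_lit 22822242274) (nat_lit 76) (nat_lit 10987485409) (nat_lit 76) (nat_lit 5341527739) (nat_lit 14) (nat_lit 4) (nat_lit 15) (nat_lit 5) (nat_lit 15) (nat_lit 4) (nat_lit 416) (nat_lit 313) (nat_lit 291)) (XT.lf (nat_lit 0) (nat_lit 652121964) (nat_lit 76) (nat_lit 2519171495) (nat_lit 152) (nat_lit 37666150166) (nat_lit 12) (nat_lit 5) (nat_lit 13) (nat_lit 5) (nat_lit 14) (nat_lit 4) (nat_lit 417) (nat_lit 313) (nat_lit 290)))) (XT.nd (nat_lit 78) (nat_lit 76) (nat_lit 0) (XT.lf (nat_lit 0) (nat_lit 12053236707) (nat_lit 152) (nat_lit 24244483641) (nat_lit 0) (nat_lit 6307023083) (nat_lit 12) (nat_lit 5) (nat_lit 14) (nat_lit 4) (nat_lit 12) (nat_lit 4) (nat_lit 418) (nat_lit 313) (nat_lit 289)) (XT.nd (nat_lit 78) (nat_lit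 76) (nat_lit 0) (XT.lf (nat_lit 0) (nat_lit 21235095214) (nat_lit 152) (nat_lit 7863737777) (nat_lit 0) (nat_lit 15365907690) (nat_lit 12) (nat_lit 5) (nat_lit 14) (nat_lit 4) (nat_lit 12) (nat_lit 4) (nat_lit 419) (nat_lit 313) (nat_lit 288)) (XT.lf (nat_lit 0) (nat_lit 9199651867) (nat_lit 76) (nat_lit 21603295545) (nat_lit 76) (nat_lit 15616990020) (nat_lit 11) (nat_lit 4) (nat_lit 12) (nat_lit 5) (nat_lit 12) (nat_lit 4) (nat_lit 420) (nat_lit 313) (nat_lit 287))))) (XT.nd (nat_lit 234) (nat_lit 76) (nat_lit 0) (XT.nd (nat_lit 78) (nat_lit 152) (nat_lit 0) (XT.lf (nat_lit 0) (nat_lit 26973683678) (nat_lit 76) (nat_lit 13799669174) (nat_lit 76) (nat_lit 7701822695) (nat_lit 11) (nat_lit 4) (nat_lit 12) (nat_lit 5) (nat_lit 12) (nat_lit 4) (nat_lit 421) (nat_lit 313) (nat_lit 286)) (XT.nd (nat_lit 78) (nat_lit 76) (nat_lit 0) (XT.lf (nat_lit 0) (nat_lit 446409388) (nat_lit 152) (nat_lit 5297864898)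 (nat_lit 76) (nat_lit 44893255731) (nat_lit 10) (nat_lit 5) (nat_lit 12) (nat_lit 5) (nat_lit 11) (nat_lit 4) (nat_lit 422) (nat_lit 313) (nat_lit 285)) (XT.lf (nat_lit 0) (nat_lit 8838602347) (nat_lit 152) (nat_lit 41350239313) (nat_lit 0) (nat_lit 2717003424) (nat_lit 9) (nat_lit 5) (nat_lit 11) (nat_lit 4) (nat_lit 9) (nat_lit 4) (nat_lit 423) (nat_lit 313) (nat_lit 284)))) (XT.nd (nat_lit 78) (nat_lit 76) (nat_lit 0) (XT.lf (nat_lit 0) (nat_lit 17622762094) (nat_lit 152) (nat_lit 26258032111) (nat_lit 0) (nat_lit 11407616308) (nat_lit 9) (nat_lit 5) (nat_lit 11) (nat_lit 4) (nat_lit 9) (nat_lit 4) (nat_lit 424) (nat_lit 313) (nat_lit 283)) (XT.nd (nat_lit 78) (nat_lit 76) (nat_lit 0) (XT.lf (nat_lit 0) (nat_lit 26712131708) (nat_lit 152) (nat_lit 10674103844) (nat_lit 0) (nat_lit 20407893671) (nat_lit 9) (nat_lit 5) (nat_lit 11) (nat_lit 4) (nat_lit 9) (nat_lit 4) (nat_lit 425) (nat_lit 313)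 (nat_lit 282)) (XT.lf (nat_lit 0) (nat_lit 5546889877) (nat_lit 76) (nat_lit 30634782767) (nat_lit 76) (nat_lit 24245694968) (nat_lit 8) (nat_lit 4) (nat_lit 9) (nat_lit 5) (nat_lit 9) (nat_lit 4) (nat_lit 426) (nat_lit 313) (nat_lit 281))))))) (XT.nd (nat_lit 50388) (nat_lit 0) (nat_lit 1444) (XT.nd (nat_lit 468) (nat_lit 76) (nat_lit 0) (XT.nd (nat_lit 234) (nat_lit 152) (nat_lit 0) (XT.nd (nat_lit 78) (nat_lit 0) (nat_lit 0) (XT.lf (nat_lit 0) (nat_lit 22558796732) (nat_lit 76) (nat_lit 23551896404) (nat_lit 76) (nat_lit 17081999306) (nat_lit 8) (nat_lit 4) (nat_lit 9) (nat_lit 5) (nat_lit 9) (nat_lit 4) (nat_lit 427) (nat_lit 313) (nat_lit 280)) (XT.nd (nat_lit 78) (nat_lit 0) (nat_lit 0) (XT.lf (nat_lit 0) (nat_lit 40189685662) (nat_lit 76) (nat_lit 16228499966) (nat_lit 76) (nat_lit 9681641633) (nat_lit 8) (nat_lit 4) (nat_lit 9) (nat_lit 5) (nat_lit 9) (nat_lit 4) (nat_lit 428) (nat_lit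 313) (nat_lit 279)) (XT.lf (nat_lit 0) (nat_lit 58481534976) (nat_lit 76) (nat_lit 8647156797) (nat_lit 76) (nat_lit 2027002049) (nat_lit 8) (nat_lit 4) (nat_lit 9) (nat_lit 5) (nat_lit 9) (nat_lit 4) (nat_lit 429) (nat_lit 313) (nat_lit 278)))) (XT.nd (nat_lit 78) (nat_lit 0) (nat_lit 0) (XT.lf (nat_lit 0) (nat_lit 5154189704) (nat_lit 76) (nat_lit 680367223) (nat_lit 152) (nat_lit 66529823236) (nat_lit 6) (nat_lit 5) (nat_lit 7) (nat_lit 5) (nat_lit 8) (nat_lit 4) (nat_lit 430) (nat_lit 313) (nat_lit 277)) (XT.nd (nat_lit 78) (nat_lit 0) (nat_lit 0) (XT.lf (nat_lit 0) (nat_lit 14126619315) (nat_lit 152) (nat_lit 54036936644) (nat_lit 0) (nat_lit 7566966045) (nat_lit 6) (nat_lit 5) (nat_lit 8) (nat_lit 4) (nat_lit 6) (nat_lit 4) (nat_lit 431) (nat_lit 313) (nat_lit 276)) (XT.lf (nat_lit 0) (nat_lit 22739311618) (nat_lit 152) (nat_lit 40410295701) (nat_lit 0) (nat_lit 16118186311) (nat_lit 6)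 (nat_lit 5) (nat_lit 8) (nat_lit 4) (nat_lit 6) (nat_lit 4) (nat_lit 432) (nat_lit 313) (nat_lit 275))))) (XT.nd (nat_lit 234) (nat_lit 0) (nat_lit 0) (XT.nd (nat_lit 78) (nat_lit 76) (nat_lit 0) (XT.lf (nat_lit 0) (nat_lit 31686600141) (nat_lit 152) (nat_lit 26291283142) (nat_lit 0) (nat_lit 25006930036) (nat_lit 6) (nat_lit 5) (nat_lit 8) (nat_lit 4) (nat_lit 6) (nat_lit 4) (nat_lit 433) (nat_lit 313) (nat_lit 274)) (XT.nd (nat_lit 78) (nat_lit 76) (nat_lit 0) (XT.lf (nat_lit 0) (nat_lit 40989787952) (nat_lit 152) (nat_lit 11646282271) (nat_lit 0) (nat_lit 34254360896) (nat_lit 6) (nat_lit 5) (nat_lit 8) (nat_lit 4) (nat_lit 6) (nat_lit 4) (nat_lit 434) (nat_lit 313) (nat_lit 273)) (XT.lf (nat_lit 0) (nat_lit 3630418503) (nat_lit 76) (nat_lit 47075504799) (nat_lit 76) (nat_lit 40286975884) (nat_lit 5) (nat_lit 4) (nat_lit 6) (nat_lit 5) (nat_lit 6) (nat_lit 4) (nat_lit 435) (nat_lit 313) (nat_lit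 272)))) (XT.nd (nat_lit 78) (nat_lit 0) (nat_lit 0) (XT.lf (nat_lit 0) (nat_lit 19747847617) (nat_lit 76) (nat_lit 41195344119) (nat_lit 76) (nat_lit 34356242006) (nat_lit 5) (nat_lit 4) (nat_lit 6) (nat_lit 5) (nat_lit 6) (nat_lit 4) (nat_lit 436) (nat_lit 313) (nat_lit 271)) (XT.nd (nat_lit 78) (nat_lit 0) (nat_lit 0) (XT.lf (nat_lit 0) (nat_lit 36512596050) (nat_lit 76) (nat_lit 35099192417) (nat_lit 76) (nat_lit 28211925354) (nat_lit 5) (nat_lit 4) (nat_lit 6) (nat_lit 5) (nat_lit 6) (nat_lit 4) (nat_lit 437) (nat_lit 313) (nat_lit 270)) (XT.lf (nat_lit 0) (nat_lit 53964579868) (nat_lit 76) (nat_lit 28772535046) (nat_lit 76) (nat_lit 21839396602) (nat_lit 5) (nat_lit 4) (nat_lit 6) (nat_lit 5) (nat_lit 6) (nat_lit 4) (nat_lit 438) (nat_lit 313) (nat_lit 269)))))) (XT.nd (nat_lit 468) (nat_lit 684) (nat_lit 0) (XT.nd (nat_lit 234) (nat_lit 456) (nat_lit 0) (XT.nd (nat_lit 78) (nat_lit 456)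 (nat_lit 0) (XT.lf (nat_lit 0) (nat_lit 3986770269) (nat_lit 152) (nat_lit 161171329) (nat_lit 0) (nat_lit 3986770269) (nat_lit 45) (nat_lit 5) (nat_lit 47) (nat_lit 4) (nat_lit 45) (nat_lit 4) (nat_lit 392) (nat_lit 314) (nat_lit 314)) (XT.nd (nat_lit 78) (nat_lit 152) (nat_lit 0) (XT.lf (nat_lit 0) (nat_lit 1132396498) (nat_lit 152) (nat_lit 15055721588) (nat_lit 0) (nat_lit 589045525) (nat_lit 41) (nat_lit 5) (nat_lit 43) (nat_lit 4) (nat_lit 41) (nat_lit 4) (nat_lit 393) (nat_lit 314) (nat_lit 313)) (XT.lf (nat_lit 0) (nat_lit 3275217811) (nat_lit 152) (nat_lit 7547303004) (nat_lit 152) (nat_lit 6486474914) (nat_lit 39) (nat_lit 4) (nat_lit 41) (nat_lit 5) (nat_lit 41) (nat_lit 4) (nat_lit 394) (nat_lit 314) (nat_lit 312)))) (XT.nd (nat_lit 78) (nat_lit 304) (nat_lit 0) (XT.lf (nat_lit 0) (nat_lit 2957921606) (nat_lit 152) (nat_lit 13462434158) (nat_lit 0) (nat_lit 1449510500) (nat_lit 37)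 (nat_lit 5) (nat_lit 39) (nat_lit 4) (nat_lit 37) (nat_lit 4) (nat_lit 395) (nat_lit 314) (nat_lit 311)) (XT.nd (nat_lit 78) (nat_lit 152) (nat_lit 0) (XT.lf (nat_lit 0) (nat_lit 4966808400) (nat_lit 152) (nat_lit 7727776243) (nat_lit 152) (nat_lit 5763669020) (nat_lit 35) (nat_lit 4) (nat_lit 37) (nat_lit 5) (nat_lit 37) (nat_lit 4) (nat_lit 396) (nat_lit 314) (nat_lit 310)) (XT.lf (nat_lit 0) (nat_lit 3657691773) (nat_lit 152) (nat_lit 14091129458) (nat_lit 0) (nat_lit 1329435924) (nat_lit 33) (nat_lit 5) (nat_lit 35) (nat_lit 4) (nat_lit 33) (nat_lit 4) (nat_lit 397) (nat_lit 314) (nat_lit 309))))) (XT.nd (nat_lit 234) (nat_lit 380) (nat_lit 0) (XT.nd (nat_lit 78) (nat_lit 228) (nat_lit 0) (XT.lf (nat_lit 0) (nat_lit 4317823234) (nat_lit 76) (nat_lit 9070289772) (nat_lit 76) (nat_lit 6340742846) (nat_lit 32) (nat_lit 4) (nat_lit 33) (nat_lit 5) (nat_lit 33) (nat_lit 4) (nat_lit 398) (nat_lit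 314) (nat_lit 308)) (XT.nd (nat_lit 78) (nat_lit 76) (nat_lit 0) (XT.lf (nat_lit 0) (nat_lit 2995576327) (nat_lit 76) (nat_lit 12948417) (nat_lit 152) (nat_lit 17406227166) (nat_lit 30) (nat_lit 5) (nat_lit 31) (nat_lit 5) (nat_lit 32) (nat_lit 4) (nat_lit 399) (nat_lit 314) (nat_lit 307)) (XT.lf (nat_lit 0) (nat_lit 818698288) (nat_lit 76) (nat_lit 11844887317) (nat_lit 76) (nat_lit 8470409896) (nat_lit 29) (nat_lit 4) (nat_lit 30) (nat_lit 5) (nat_lit 30) (nat_lit 4) (nat_lit 400) (nat_lit 314) (nat_lit 306)))) (XT.nd (nat_lit 156) (nat_lit 228) (nat_lit 0) (XT.nd (nat_lit 78) (nat_lit 76) (nat_lit 0) (XT.lf (nat_lit 0) (nat_lit 790357164) (nat_lit 152) (nat_lit 2106606086) (nat_lit 76) (nat_lit 18995114774) (nat_lit 28) (nat_lit 5) (nat_lit 30) (nat_lit 5) (nat_lit 29) (nat_lit 4) (nat_lit 401) (nat_lit 314) (nat_lit 305)) (XT.lf (nat_lit 0) (nat_lit 10292329666) (nat_lit 152) (nat_lit 6016441076)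 (nat_lit 0) (nat_lit 6378195225) (nat_lit 27) (nat_lit 5) (nat_lit 29) (nat_lit 4) (nat_lit 27) (nat_lit 4) (nat_lit 402) (nat_lit 314) (nat_lit 304))) (XT.nd (nat_lit 78) (nat_lit 152) (nat_lit 0) (XT.lf (nat_lit 0) (nat_lit 12616933216) (nat_lit 76) (nat_lit 7558996732) (nat_lit 76) (nat_lit 3348489344) (nat_lit 26) (nat_lit 4) (nat_lit 27) (nat_lit 5) (nat_lit 27) (nat_lit 4) (nat_lit 403) (nat_lit 314) (nat_lit 303)) (XT.lf (nat_lit 0) (nat_lit 5919235016) (nat_lit 152) (nat_lit 16928749021) (nat_lit 0) (nat_lit 1557324979) (nat_lit 24) (nat_lit 5) (nat_lit 26) (nat_lit 4) (nat_lit 24) (nat_lit 4) (nat_lit 404) (nat_lit 314) (nat_lit 302))))))))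
noncomputable def xc11 : XT := (XT.nd (nat_lit 1950) (nat_lit 228) (nat_lit 0) (XT.nd (nat_lit 936) (nat_lit 456) (nat_lit 0) (XT.nd (nat_lit 468) (nat_lit 304) (nat_lit 0) (XT.nd (nat_lit 234) (nat_lit 228) (nat_lit 0) (XT.nd (nat_lit 78) (nat_lit 152) (nat_lit 0) (XT.lf (nat_lit 0) (nat_lit 1100102642) (nat_lit 76) (nat_lit 14426842324) (nat_lit 76) (nat_lit 9803942966) (nat_lit 23) (nat_lit 4) (nat_lit 24) (nat_lit 5) (nat_lit 24) (nat_lit 4) (nat_lit 405) (nat_lit 314) (nat_lit 301)) (XT.nd (nat_lit 78) (nat_lit 152) (nat_lit 0) (XT.lf (nat_lit 0) (nat_lit 19907204470) (nat_lit 76) (nat_lit 5634606482) (nat_lit 76) (nat_lit 763145867) (nat_lit 23) (nat_lit 4) (nat_lit 24) (nat_lit 5) (nat_lit 24) (nat_lit 4) (nat_lit 406) (nat_lit 314) (nat_lit 300)) (XT.lf (nat_lit 0) (nat_lit 8471245405) (nat_lit 152) (nat_lit 15344780414) (nat_lit 0) (nat_lit 3511841888) (nat_lit 21) (nat_lit 5) (nat_lit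 23) (nat_lit 4) (nat_lit 21) (nat_lit 4) (nat_lit 407) (nat_lit 314) (nat_lit 299)))) (XT.nd (nat_lit 78) (nat_lit 152) (nat_lit 0) (XT.lf (nat_lit 0) (nat_lit 2550545989) (nat_lit 76) (nat_lit 15516002007) (nat_lit 76) (nat_lit 10337712677) (nat_lit 20) (nat_lit 4) (nat_lit 21) (nat_lit 5) (nat_lit 21) (nat_lit 4) (nat_lit 408) (nat_lit 314) (nat_lit 298)) (XT.nd (nat_lit 78) (nat_lit 152) (nat_lit 0) (XT.lf (nat_lit 0) (nat_lit 21223506114) (nat_lit 76) (nat_lit 6849888832) (nat_lit 76) (nat_lit 1463136822) (nat_lit 20) (nat_lit 4) (nat_lit 21) (nat_lit 5) (nat_lit 21) (nat_lit 4) (nat_lit 409) (nat_lit 314) (nat_lit 297)) (XT.lf (nat_lit 0) (nat_lit 7599870984) (nat_lit 152) (nat_lit 20949090188) (nat_lit 0) (nat_lit 2177261377) (nat_lit 18) (nat_lit 5) (nat_lit 20) (nat_lit 4) (nat_lit 18) (nat_lit 4) (nat_lit 410) (nat_lit 314) (nat_lit 296))))) (XT.nd (nat_lit 234) (nat_lit 152) (nat_lit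 0) (XT.nd (nat_lit 78) (nat_lit 152) (nat_lit 0) (XT.lf (nat_lit 0) (nat_lit 17028577743) (nat_lit 152) (nat_lit 3525718142) (nat_lit 0) (nat_lit 11422393578) (nat_lit 18) (nat_lit 5) (nat_lit 20) (nat_lit 4) (nat_lit 18) (nat_lit 4) (nat_lit 411) (nat_lit 314) (nat_lit 295)) (XT.nd (nat_lit 78) (nat_lit 76) (nat_lit 0) (XT.lf (nat_lit 0) (nat_lit 14660957319) (nat_lit 76) (nat_lit 12205804091) (nat_lit 76) (nat_lit 6424787012) (nat_lit 17) (nat_lit 4) (nat_lit 18) (nat_lit 5) (nat_lit 18) (nat_lit 4) (nat_lit 412) (nat_lit 314) (nat_lit 294)) (XT.lf (nat_lit 0) (nat_lit 2313226991) (nat_lit 152) (nat_lit 1251673822) (nat_lit 76) (nat_lit 31111396967) (nat_lit 16) (nat_lit 5) (nat_lit 18) (nat_lit 5) (nat_lit 17) (nat_lit 4) (nat_lit 413) (nat_lit 314) (nat_lit 293)))) (XT.nd (nat_lit 78) (nat_lit 76) (nat_lit 0) (XT.lf (nat_lit 0) (nat_lit 11382968942) (nat_lit 152) (nat_lit 19289871630) (nat_lit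 0) (nat_lit 5454713388) (nat_lit 15) (nat_lit 5) (nat_lit 17) (nat_lit 4) (nat_lit 15) (nat_lit 4) (nat_lit 414) (nat_lit 314) (nat_lit 292)) (XT.nd (nat_lit 78) (nat_lit 76) (nat_lit 0) (XT.lf (nat_lit 0) (nat_lit 20769706796) (nat_lit 152) (nat_lit 2190946380) (nat_lit 0) (nat_lit 14694822850) (nat_lit 15) (nat_lit 5) (nat_lit 17) (nat_lit 4) (nat_lit 15) (nat_lit 4) (nat_lit 415) (nat_lit 314) (nat_lit 291)) (XT.lf (nat_lit 0) (nat_lit 15725487376) (nat_lit 76) (nat_lit 14874804740) (nat_lit 76) (nat_lit 8660274707) (nat_lit 14) (nat_lit 4) (nat_lit 15) (nat_lit 5) (nat_lit 15) (nat_lit 4) (nat_lit 416) (nat_lit 314) (nat_lit 290)))))) (XT.nd (nat_lit 468) (nat_lit 228) (nat_lit 0) (XT.nd (nat_lit 234) (nat_lit 76) (nat_lit 0) (XT.nd (nat_lit 78) (nat_lit 152) (nat_lit 0) (XT.lf (nat_lit 0) (nat_lit 34249097753) (nat_lit 76) (nat_lit 6524407659) (nat_lit 76) (nat_lit 176881352) (nat_lit 14)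 (nat_lit 4) (nat_lit 15) (nat_lit 5) (nat_lit 15) (nat_lit 4) (nat_lit 417) (nat_lit 314) (nat_lit 289)) (XT.nd (nat_lit 78) (nat_lit 0) (nat_lit 0) (XT.lf (nat_lit 0) (nat_lit 8520927452) (nat_lit 152) (nat_lit 31967134470) (nat_lit 0) (nat_lit 2235306650) (nat_lit 12) (nat_lit 5) (nat_lit 14) (nat_lit 4) (nat_lit 12) (nat_lit 4) (nat_lit 418) (nat_lit 314) (nat_lit 288)) (XT.lf (nat_lit 0) (nat_lit 17623989903) (nat_lit 152) (nat_lit 15740491951) (nat_lit 0) (nat_lit 11221251100) (nat_lit 12) (nat_lit 5) (nat_lit 14) (nat_lit 4) (nat_lit 12) (nat_lit 4) (nat_lit 419) (nat_lit 314) (nat_lit 287)))) (XT.nd (nat_lit 78) (nat_lit 0) (nat_lit 0) (XT.lf (nat_lit 0) (nat_lit 1016448837) (nat_lit 76) (nat_lit 26021687447) (nat_lit 76) (nat_lit 19507407691) (nat_lit 11) (nat_lit 4) (nat_lit 12) (nat_lit 5) (nat_lit 12) (nat_lit 4) (nat_lit 420) (nat_lit 314) (nat_lit 286)) (XT.nd (nat_lit 78) (nat_lit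 0) (nat_lit 0) (XT.lf (nat_lit 0) (nat_lit 18647922550) (nat_lit 76) (nat_lit 18287778472) (nat_lit 76) (nat_lit 11667269237) (nat_lit 11) (nat_lit 4) (nat_lit 12) (nat_lit 5) (nat_lit 12) (nat_lit 4) (nat_lit 421) (nat_lit 314) (nat_lit 285)) (XT.lf (nat_lit 0) (nat_lit 36882642234) (nat_lit 76) (nat_lit 10303288965) (nat_lit 76) (nat_lit 3581608797) (nat_lit 11) (nat_lit 4) (nat_lit 12) (nat_lit 5) (nat_lit 12) (nat_lit 4) (nat_lit 422) (nat_lit 314) (nat_lit 284))))) (XT.nd (nat_lit 234) (nat_lit 76) (nat_lit 0) (XT.nd (nat_lit 78) (nat_lit 0) (nat_lit 0) (XT.lf (nat_lit 0) (nat_lit 2726989483) (nat_lit 76) (nat_lit 1974992250) (nat_lit 152) (nat_lit 48340263560) (nat_lit 9) (nat_lit 5) (nat_lit 10) (nat_lit 5) (nat_lit 11) (nat_lit 4) (nat_lit 423) (nat_lit 314) (nat_lit 283)) (XT.nd (nat_lit 78) (nat_lit 0) (nat_lit 0) (XT.lf (nat_lit 0) (nat_lit 13401791710) (nat_lit 152) (nat_lit 35332302456)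 (nat_lit 0) (nat_lit 6693249521) (nat_lit 9) (nat_lit 5) (nat_lit 11) (nat_lit 4) (nat_lit 9) (nat_lit 4) (nat_lit 424) (nat_lit 314) (nat_lit 282)) (XT.lf (nat_lit 0) (nat_lit 22428909004) (nat_lit 152) (nat_lit 19870506266) (nat_lit 0) (nat_lit 15635517052) (nat_lit 9) (nat_lit 5) (nat_lit 11) (nat_lit 4) (nat_lit 9) (nat_lit 4) (nat_lit 425) (nat_lit 314) (nat_lit 281)))) (XT.nd (nat_lit 156) (nat_lit 0) (nat_lit 0) (XT.nd (nat_lit 78) (nat_lit 76) (nat_lit 0) (XT.lf (nat_lit 0) (nat_lit 31785841918) (nat_lit 152) (nat_lit 3874068608) (nat_lit 0) (nat_lit 24911640668) (nat_lit 9) (nat_lit 5) (nat_lit 11) (nat_lit 4) (nat_lit 9) (nat_lit 4) (nat_lit 426) (nat_lit 314) (nat_lit 280)) (XT.lf (nat_lit 0) (nat_lit 12947754603) (nat_lit 76) (nat_lit 28671575998) (nat_lit 76) (nat_lit 21720413512) (nat_lit 8) (nat_lit 4) (nat_lit 9) (nat_lit 5) (nat_lit 9) (nat_lit 4) (nat_lit 427) (nat_lit 314)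 (nat_lit 279))) (XT.nd (nat_lit 78) (nat_lit 0) (nat_lit 0) (XT.lf (nat_lit 0) (nat_lit 30471041551) (nat_lit 76) (nat_lit 21400971312) (nat_lit 76) (nat_lit 14376512411) (nat_lit 8) (nat_lit 4) (nat_lit 9) (nat_lit 5) (nat_lit 9) (nat_lit 4) (nat_lit 428) (nat_lit 314) (nat_lit 278)) (XT.lf (nat_lit 0) (nat_lit 48660412786) (nat_lit 76) (nat_lit 13869906001) (nat_lit 76) (nat_lit 6775640990) (nat_lit 8) (nat_lit 4) (nat_lit 9) (nat_lit 5) (nat_lit 9) (nat_lit 4) (nat_lit 429) (nat_lit 314) (nat_lit 277))))))) (XT.nd (nat_lit 50232) (nat_lit 0) (nat_lit 1444) (XT.nd (nat_lit 468) (nat_lit 76) (nat_lit 0) (XT.nd (nat_lit 234) (nat_lit 0) (nat_lit 0) (XT.nd (nat_lit 78) (nat_lit 76) (nat_lit 0) (XT.lf (nat_lit 0) (nat_lit 1078827284) (nat_lit 152) (nat_lit 4970727633) (nat_lit 76) (nat_lit 66469455010) (nat_lit 7) (nat_lit 5) (nat_lit 9) (nat_lit 5) (nat_lit 8) (nat_lit 4) (nat_lit 430) (nat_lit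 314) (nat_lit 276)) (XT.nd (nat_lit 78) (nat_lit 0) (nat_lit 0) (XT.lf (nat_lit 0) (nat_lit 9220872232) (nat_lit 152) (nat_lit 64461563143) (nat_lit 0) (nat_lit 2207218621) (nat_lit 6) (nat_lit 5) (nat_lit 8) (nat_lit 4) (nat_lit 6) (nat_lit 4) (nat_lit 431) (nat_lit 314) (nat_lit 275)) (XT.lf (nat_lit 0) (nat_lit 17786716538) (nat_lit 152) (nat_lit 50927098020) (nat_lit 0) (nat_lit 10714518129) (nat_lit 6) (nat_lit 5) (nat_lit 8) (nat_lit 4) (nat_lit 6) (nat_lit 4) (nat_lit 432) (nat_lit 314) (nat_lit 274)))) (XT.nd (nat_lit 78) (nat_lit 0) (nat_lit 0) (XT.lf (nat_lit 0) (nat_lit 26689387920) (nat_lit 152) (nat_lit 36895871957) (nat_lit 0) (nat_lit 19561432560) (nat_lit 6) (nat_lit 5) (nat_lit 8) (nat_lit 4) (nat_lit 6) (nat_lit 4) (nat_lit 433) (nat_lit 314) (nat_lit 273)) (XT.nd (nat_lit 78) (nat_lit 0) (nat_lit 0) (XT.lf (nat_lit 0) (nat_lit 35950083216) (nat_lit 152) (nat_lit 22334477272)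 (nat_lit 0) (nat_lit 28769025999) (nat_lit 6) (nat_lit 5) (nat_lit 8) (nat_lit 4) (nat_lit 6) (nat_lit 4) (nat_lit 434) (nat_lit 314) (nat_lit 272)) (XT.lf (nat_lit 0) (nat_lit 45590851700) (nat_lit 152) (nat_lit 7208243977) (nat_lit 0) (nat_lit 38359221285) (nat_lit 6) (nat_lit 5) (nat_lit 8) (nat_lit 4) (nat_lit 6) (nat_lit 4) (nat_lit 435) (nat_lit 314) (nat_lit 271))))) (XT.nd (nat_lit 49530) (nat_lit 0) (nat_lit 3040) (XT.nd (nat_lit 78) (nat_lit 0) (nat_lit 0) (XT.lf (nat_lit 0) (nat_lit 8688384441) (nat_lit 76) (nat_lit 47029781208) (nat_lit 76) (nat_lit 39749985842) (nat_lit 5) (nat_lit 4) (nat_lit 6) (nat_lit 5) (nat_lit 6) (nat_lit 4) (nat_lit 436) (nat_lit 314) (nat_lit 270)) (XT.nd (nat_lit 78) (nat_lit 0) (nat_lit 0) (XT.lf (nat_lit 0) (nat_lit 25379473344) (nat_lit 76) (nat_lit 40969874343) (nat_lit 76) (nat_lit 33644207595) (nat_lit 5) (nat_lit 4) (nat_lit 6) (nat_lit 5) (nat_lit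 6) (nat_lit 4) (nat_lit 437) (nat_lit 314) (nat_lit 269)) (XT.lf (nat_lit 0) (nat_lit 42761305230) (nat_lit 76) (nat_lit 34677735865) (nat_lit 76) (nat_lit 27308382087) (nat_lit 5) (nat_lit 4) (nat_lit 6) (nat_lit 5) (nat_lit 6) (nat_lit 4) (nat_lit 438) (nat_lit 314) (nat_lit 268)))) (XT.nd (nat_lit 78) (nat_lit 304) (nat_lit 0) (XT.lf (nat_lit 0) (nat_lit 2559596515) (nat_lit 152) (nat_lit 2542454235) (nat_lit 0) (nat_lit 2559596515) (nat_lit 49) (nat_lit 5) (nat_lit 51) (nat_lit 4) (nat_lit 49) (nat_lit 4) (nat_lit 390) (nat_lit 315) (nat_lit 315)) (XT.nd (nat_lit 78) (nat_lit 152) (nat_lit 0) (XT.lf (nat_lit 0) (nat_lit 13133488334) (nat_lit 152) (nat_lit 1629742285) (nat_lit 152) (nat_lit 1024479186) (nat_lit 47) (nat_lit 4) (nat_lit 49) (nat_lit 5) (nat_lit 49) (nat_lit 4) (nat_lit 391) (nat_lit 315) (nat_lit 314)) (XT.lf (nat_lit 0) (nat_lit 8400722695) (nat_lit 152) (nat_lit 620093011)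 (nat_lit 0) (nat_lit 7253437115) (nat_lit 45) (nat_lit 5) (nat_lit 47) (nat_lit 4) (nat_lit 45) (nat_lit 4) (nat_lit 392) (nat_lit 315) (nat_lit 313)))))) (XT.nd (nat_lit 468) (nat_lit 608) (nat_lit 0) (XT.nd (nat_lit 234) (nat_lit 380) (nat_lit 0) (XT.nd (nat_lit 78) (nat_lit 304) (nat_lit 0) (XT.lf (nat_lit 0) (nat_lit 1110368794) (nat_lit 76) (nat_lit 264338498) (nat_lit 152) (nat_lit 15412331988) (nat_lit 41) (nat_lit 5) (nat_lit 42) (nat_lit 5) (nat_lit 43) (nat_lit 4) (nat_lit 393) (nat_lit 315) (nat_lit 312)) (XT.nd (nat_lit 78) (nat_lit 152) (nat_lit 0) (XT.lf (nat_lit 0) (nat_lit 2351487060) (nat_lit 152) (nat_lit 8548266164) (nat_lit 152) (nat_lit 6424084202) (nat_lit 39) (nat_lit 4) (nat_lit 41) (nat_lit 5) (nat_lit 41) (nat_lit 4) (nat_lit 394) (nat_lit 315) (nat_lit 311)) (XT.lf (nat_lit 0) (nat_lit 2845611127) (nat_lit 152) (nat_lit 14716693571) (nat_lit 0) (nat_lit 327602427) (nat_lit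 37) (nat_lit 5) (nat_lit 39) (nat_lit 4) (nat_lit 37) (nat_lit 4) (nat_lit 395) (nat_lit 315) (nat_lit 310)))) (XT.nd (nat_lit 78) (nat_lit 228) (nat_lit 0) (XT.lf (nat_lit 0) (nat_lit 3404925283) (nat_lit 152) (nat_lit 9015126479) (nat_lit 152) (nat_lit 6063121478) (nat_lit 35) (nat_lit 4) (nat_lit 37) (nat_lit 5) (nat_lit 37) (nat_lit 4) (nat_lit 396) (nat_lit 315) (nat_lit 309)) (XT.nd (nat_lit 78) (nat_lit 76) (nat_lit 0) (XT.lf (nat_lit 0) (nat_lit 3107607410) (nat_lit 76) (nat_lit 81034078) (nat_lit 152) (nat_lit 15919895972) (nat_lit 33) (nat_lit 5) (nat_lit 34) (nat_lit 5) (nat_lit 35) (nat_lit 4) (nat_lit 397) (nat_lit 315) (nat_lit 308)) (XT.lf (nat_lit 0) (nat_lit 2098193837) (nat_lit 76) (nat_lit 10657673064) (nat_lit 76) (nat_lit 7008175734) (nat_lit 32) (nat_lit 4) (nat_lit 33) (nat_lit 5) (nat_lit 33) (nat_lit 4) (nat_lit 398) (nat_lit 315) (nat_lit 307))))) (XT.nd (nat_lit 234)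 (nat_lit 380) (nat_lit 0) (XT.nd (nat_lit 78) (nat_lit 76) (nat_lit 0) (XT.lf (nat_lit 0) (nat_lit 434812645) (nat_lit 76) (nat_lit 1756464602) (nat_lit 152) (nat_lit 18263748886) (nat_lit 30) (nat_lit 5) (nat_lit 31) (nat_lit 5) (nat_lit 32) (nat_lit 4) (nat_lit 399) (nat_lit 315) (nat_lit 306)) (XT.nd (nat_lit 78) (nat_lit 76) (nat_lit 0) (XT.lf (nat_lit 0) (nat_lit 11686456571) (nat_lit 152) (nat_lit 2039298763) (nat_lit 0) (nat_lit 7453320174) (nat_lit 30) (nat_lit 5) (nat_lit 32) (nat_lit 4) (nat_lit 30) (nat_lit 4) (nat_lit 400) (nat_lit 315) (nat_lit 305)) (XT.lf (nat_lit 0) (nat_lit 16644514917) (nat_lit 76) (nat_lit 4925542269) (nat_lit 76) (nat_lit 371878529) (nat_lit 29) (nat_lit 4) (nat_lit 30) (nat_lit 5) (nat_lit 30) (nat_lit 4) (nat_lit 401) (nat_lit 315) (nat_lit 304)))) (XT.nd (nat_lit 156) (nat_lit 152) (nat_lit 0) (XT.nd (nat_lit 78) (nat_lit 76) (nat_lit 0) (XT.lf (nat_lit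 0) (nat_lit 8956554768) (nat_lit 152) (nat_lit 9546659170) (nat_lit 0) (nat_lit 4239149063) (nat_lit 27) (nat_lit 5) (nat_lit 29) (nat_lit 4) (nat_lit 27) (nat_lit 4) (nat_lit 402) (nat_lit 315) (nat_lit 303)) (XT.lf (nat_lit 0) (nat_lit 8775091584) (nat_lit 76) (nat_lit 9904605977) (nat_lit 76) (nat_lit 4904940322) (nat_lit 26) (nat_lit 4) (nat_lit 27) (nat_lit 5) (nat_lit 27) (nat_lit 4) (nat_lit 403) (nat_lit 315) (nat_lit 302))) (XT.nd (nat_lit 78) (nat_lit 0) (nat_lit 0) (XT.lf (nat_lit 0) (nat_lit 3290915345) (nat_lit 76) (nat_lit 925537856) (nat_lit 152) (nat_lit 20254831579) (nat_lit 24) (nat_lit 5) (nat_lit 25) (nat_lit 5) (nat_lit 26) (nat_lit 4) (nat_lit 404) (nat_lit 315) (nat_lit 301)) (XT.lf (nat_lit 0) (nat_lit 13686198175) (nat_lit 152) (nat_lit 3392208098) (nat_lit 0) (nat_lit 8322603271) (nat_lit 24) (nat_lit 5) (nat_lit 26) (nat_lit 4) (nat_lit 24) (nat_lit 4) (nat_lit 405)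 (nat_lit 315) (nat_lit 300))))))))
noncomputable def xc12 : XT := (XT.nd (nat_lit 1872) (nat_lit 228) (nat_lit 0) (XT.nd (nat_lit 936) (nat_lit 456) (nat_lit 0) (XT.nd (nat_lit 468) (nat_lit 304) (nat_lit 0) (XT.nd (nat_lit 234) (nat_lit 228) (nat_lit 0) (XT.nd (nat_lit 78) (nat_lit 152) (nat_lit 0) (XT.lf (nat_lit 0) (nat_lit 15125800960) (nat_lit 76) (nat_lit 8427025540) (nat_lit 76) (nat_lit 2826705629) (nat_lit 23) (nat_lit 4) (nat_lit 24) (nat_lit 5) (nat_lit 24) (nat_lit 4) (nat_lit 406) (nat_lit 315) (nat_lit 299)) (XT.nd (nat_lit 78) (nat_lit 0) (nat_lit 0) (XT.lf (nat_lit 0) (nat_lit 6259337991) (nat_lit 152) (nat_lit 20546116260) (nat_lit 0) (nat_lit 603248381) (nat_lit 21) (nat_lit 5) (nat_lit 23) (nat_lit 4) (nat_lit 21) (nat_lit 4) (nat_lit 407) (nat_lit 315) (nat_lit 298)) (XT.lf (nat_lit 0) (nat_lit 15721843463) (nat_lit 152) (nat_lit 2909950659) (nat_lit 0) (nat_lit 9857291174)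 (nat_lit 21) (nat_lit 5) (nat_lit 23) (nat_lit 4) (nat_lit 21) (nat_lit 4) (nat_lit 408) (nat_lit 315) (nat_lit 297)))) (XT.nd (nat_lit 78) (nat_lit 152) (nat_lit 0) (XT.lf (nat_lit 0) (nat_lit 15501707413) (nat_lit 76) (nat_lit 10093375444) (nat_lit 76) (nat_lit 4030287269) (nat_lit 20) (nat_lit 4) (nat_lit 21) (nat_lit 5) (nat_lit 21) (nat_lit 4) (nat_lit 409) (nat_lit 315) (nat_lit 296)) (XT.nd (nat_lit 78) (nat_lit 0) (nat_lit 0) (XT.lf (nat_lit 0) (nat_lit 3698391464) (nat_lit 76) (nat_lit 1203362937) (nat_lit 152) (nat_lit 25919483727) (nat_lit 18) (nat_lit 5) (nat_lit 19) (nat_lit 5) (nat_lit 20) (nat_lit 4) (nat_lit 410) (nat_lit 315) (nat_lit 295)) (XT.lf (nat_lit 0) (nat_lit 14219923689) (nat_lit 152) (nat_lit 9880079484) (nat_lit 0) (nat_lit 7975022843) (nat_lit 18) (nat_lit 5) (nat_lit 20) (nat_lit 4) (nat_lit 18) (nat_lit 4) (nat_lit 411) (nat_lit 315) (nat_lit 294))))) (XT.nd (nat_lit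 234) (nat_lit 76) (nat_lit 0) (XT.nd (nat_lit 78) (nat_lit 152) (nat_lit 0) (XT.lf (nat_lit 0) (nat_lit 7993467981) (nat_lit 76) (nat_lit 15906290235) (nat_lit 76) (nat_lit 9494881854) (nat_lit 17) (nat_lit 4) (nat_lit 18) (nat_lit 5) (nat_lit 18) (nat_lit 4) (nat_lit 412) (nat_lit 315) (nat_lit 293)) (XT.nd (nat_lit 78) (nat_lit 152) (nat_lit 0) (XT.lf (nat_lit 0) (nat_lit 26602718680) (nat_lit 76) (nat_lit 7375043412) (nat_lit 76) (nat_lit 805056424) (nat_lit 17) (nat_lit 4) (nat_lit 18) (nat_lit 5) (nat_lit 18) (nat_lit 4) (nat_lit 413) (nat_lit 315) (nat_lit 292)) (XT.lf (nat_lit 0) (nat_lit 8084690864) (nat_lit 152) (nat_lit 26596056861) (nat_lit 0) (nat_lit 1559434329) (nat_lit 15) (nat_lit 5) (nat_lit 17) (nat_lit 4) (nat_lit 15) (nat_lit 4) (nat_lit 414) (nat_lit 315) (nat_lit 291)))) (XT.nd (nat_lit 78) (nat_lit 76) (nat_lit 0) (XT.lf (nat_lit 0) (nat_lit 17385256801) (nat_lit 152) (nat_lit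 9665082174) (nat_lit 0) (nat_lit 10720354178) (nat_lit 15) (nat_lit 5) (nat_lit 17) (nat_lit 4) (nat_lit 15) (nat_lit 4) (nat_lit 415) (nat_lit 315) (nat_lit 290)) (XT.nd (nat_lit 78) (nat_lit 0) (nat_lit 0) (XT.lf (nat_lit 0) (nat_lit 7939465330) (nat_lit 76) (nat_lit 19119464291) (nat_lit 76) (nat_lit 12321565394) (nat_lit 14) (nat_lit 4) (nat_lit 15) (nat_lit 5) (nat_lit 15) (nat_lit 4) (nat_lit 416) (nat_lit 315) (nat_lit 289)) (XT.lf (nat_lit 0) (nat_lit 26307707807) (nat_lit 76) (nat_lit 10844781148) (nat_lit 76) (nat_lit 3920219133) (nat_lit 14) (nat_lit 4) (nat_lit 15) (nat_lit 5) (nat_lit 15) (nat_lit 4) (nat_lit 417) (nat_lit 315) (nat_lit 288)))))) (XT.nd (nat_lit 468) (nat_lit 152) (nat_lit 0) (XT.nd (nat_lit 234) (nat_lit 152) (nat_lit 0) (XT.nd (nat_lit 78) (nat_lit 0) (nat_lit 0) (XT.lf (nat_lit 0) (nat_lit 2438838005) (nat_lit 76) (nat_lit 2233098724) (nat_lit 152) (nat_lit 38180196885)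 (nat_lit 12) (nat_lit 5) (nat_lit 13) (nat_lit 5) (nat_lit 14) (nat_lit 4) (nat_lit 418) (nat_lit 315) (nat_lit 287)) (XT.nd (nat_lit 78) (nat_lit 0) (nat_lit 0) (XT.lf (nat_lit 0) (nat_lit 13678489406) (nat_lit 152) (nat_lit 24311952268) (nat_lit 0) (nat_lit 6726954709) (nat_lit 12) (nat_lit 5) (nat_lit 14) (nat_lit 4) (nat_lit 12) (nat_lit 4) (nat_lit 419) (nat_lit 315) (nat_lit 286)) (XT.lf (nat_lit 0) (nat_lit 23011394713) (nat_lit 152) (nat_lit 7714622334) (nat_lit 0) (nat_lit 15953630537) (nat_lit 12) (nat_lit 5) (nat_lit 14) (nat_lit 4) (nat_lit 12) (nat_lit 4) (nat_lit 420) (nat_lit 315) (nat_lit 285)))) (XT.nd (nat_lit 78) (nat_lit 76) (nat_lit 0) (XT.lf (nat_lit 0) (nat_lit 9627545650) (nat_lit 76) (nat_lit 23136408152) (nat_lit 76) (nat_lit 15977473043) (nat_lit 11) (nat_lit 4) (nat_lit 12) (nat_lit 5) (nat_lit 12) (nat_lit 4) (nat_lit 421) (nat_lit 315) (nat_lit 284)) (XT.nd (nat_lit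 78) (nat_lit 76) (nat_lit 0) (XT.lf (nat_lit 0) (nat_lit 27732960936) (nat_lit 76) (nat_lit 15215154379) (nat_lit 76) (nat_lit 7959866001) (nat_lit 11) (nat_lit 4) (nat_lit 12) (nat_lit 5) (nat_lit 12) (nat_lit 4) (nat_lit 422) (nat_lit 315) (nat_lit 283)) (XT.lf (nat_lit 0) (nat_lit 319398578) (nat_lit 152) (nat_lit 6698674281) (nat_lit 76) (nat_lit 46168571666) (nat_lit 10) (nat_lit 5) (nat_lit 12) (nat_lit 5) (nat_lit 11) (nat_lit 4) (nat_lit 423) (nat_lit 315) (nat_lit 282))))) (XT.nd (nat_lit 234) (nat_lit 76) (nat_lit 0) (XT.nd (nat_lit 78) (nat_lit 0) (nat_lit 0) (XT.lf (nat_lit 0) (nat_lit 8842155551) (nat_lit 152) (nat_lit 45110657075) (nat_lit 0) (nat_lit 1624244238) (nat_lit 9) (nat_lit 5) (nat_lit 11) (nat_lit 4) (nat_lit 9) (nat_lit 4) (nat_lit 424) (nat_lit 315) (nat_lit 281)) (XT.nd (nat_lit 78) (nat_lit 0) (nat_lit 0) (XT.lf (nat_lit 0) (nat_lit 17809984920) (nat_lit 152) (nat_lit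 29765177149) (nat_lit 0) (nat_lit 10511264310) (nat_lit 9) (nat_lit 5) (nat_lit 11) (nat_lit 4) (nat_lit 9) (nat_lit 4) (nat_lit 425) (nat_lit 315) (nat_lit 280)) (XT.lf (nat_lit 0) (nat_lit 27110453144) (nat_lit 152) (nat_lit 13879516885) (nat_lit 0) (nat_lit 19734771298) (nat_lit 9) (nat_lit 5) (nat_lit 11) (nat_lit 4) (nat_lit 9) (nat_lit 4) (nat_lit 426) (nat_lit 315) (nat_lit 279)))) (XT.nd (nat_lit 78) (nat_lit 0) (nat_lit 0) (XT.lf (nat_lit 0) (nat_lit 2635576304) (nat_lit 76) (nat_lit 34155462662) (nat_lit 76) (nat_lit 26706484400) (nat_lit 8) (nat_lit 4) (nat_lit 9) (nat_lit 5) (nat_lit 9) (nat_lit 4) (nat_lit 427) (nat_lit 315) (nat_lit 278)) (XT.nd (nat_lit 78) (nat_lit 0) (nat_lit 0) (XT.lf (nat_lit 0) (nat_lit 20056385174) (nat_lit 76) (nat_lit 26935135834) (nat_lit 76) (nat_lit 19416351463) (nat_lit 8) (nat_lit 4) (nat_lit 9) (nat_lit 5) (nat_lit 9) (nat_lit 4) (nat_lit 428) (nat_lit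 315) (nat_lit 277)) (XT.lf (nat_lit 0) (nat_lit 38148158239) (nat_lit 76) (nat_lit 19451954197) (nat_lit 76) (nat_lit 11866687817) (nat_lit 8) (nat_lit 4) (nat_lit 9) (nat_lit 5) (nat_lit 9) (nat_lit 4) (nat_lit 429) (nat_lit 315) (nat_lit 276))))))) (XT.nd (nat_lit 50076) (nat_lit 0) (nat_lit 1596) (XT.nd (nat_lit 468) (nat_lit 76) (nat_lit 0) (XT.nd (nat_lit 234) (nat_lit 0) (nat_lit 0) (XT.nd (nat_lit 78) (nat_lit 152) (nat_lit 0) (XT.lf (nat_lit 0) (nat_lit 56953971149) (nat_lit 76) (nat_lit 11688100653) (nat_lit 76) (nat_lit 4039518074) (nat_lit 8) (nat_lit 4) (nat_lit 9) (nat_lit 5) (nat_lit 9) (nat_lit 4) (nat_lit 430) (nat_lit 315) (nat_lit 275)) (XT.nd (nat_lit 78) (nat_lit 0) (nat_lit 0) (XT.lf (nat_lit 0) (nat_lit 427795964) (nat_lit 76) (nat_lit 3580420629) (nat_lit 152) (nat_lit 72050377962) (nat_lit 6) (nat_lit 5) (nat_lit 7) (nat_lit 5) (nat_lit 8) (nat_lit 4) (nat_lit 431) (nat_lit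 315) (nat_lit 274)) (XT.lf (nat_lit 0) (nat_lit 12495026565) (nat_lit 152) (nat_lit 62149702771) (nat_lit 0) (nat_lit 4954916487) (nat_lit 6) (nat_lit 5) (nat_lit 8) (nat_lit 4) (nat_lit 6) (nat_lit 4) (nat_lit 432) (nat_lit 315) (nat_lit 273)))) (XT.nd (nat_lit 78) (nat_lit 0) (nat_lit 0) (XT.lf (nat_lit 0) (nat_lit 21355205433) (nat_lit 152) (nat_lit 48202082894) (nat_lit 0) (nat_lit 13761993496) (nat_lit 6) (nat_lit 5) (nat_lit 8) (nat_lit 4) (nat_lit 6) (nat_lit 4) (nat_lit 433) (nat_lit 315) (nat_lit 272)) (XT.nd (nat_lit 78) (nat_lit 0) (nat_lit 0) (XT.lf (nat_lit 0) (nat_lit 30575431667) (nat_lit 152) (nat_lit 33720313147) (nat_lit 0) (nat_lit 22931646533) (nat_lit 6) (nat_lit 5) (nat_lit 8) (nat_lit 4) (nat_lit 6) (nat_lit 4) (nat_lit 434) (nat_lit 315) (nat_lit 271)) (XT.lf (nat_lit 0) (nat_lit 40177658187) (nat_lit 152) (nat_lit 18669913128) (nat_lit 0) (nat_lit 32485708102) (nat_lit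 6) (nat_lit 5) (nat_lit 8) (nat_lit 4) (nat_lit 6) (nat_lit 4) (nat_lit 435) (nat_lit 315) (nat_lit 270))))) (XT.nd (nat_lit 49374) (nat_lit 0) (nat_lit 3344) (XT.nd (nat_lit 78) (nat_lit 76) (nat_lit 0) (XT.lf (nat_lit 0) (nat_lit 50184747438) (nat_lit 152) (nat_lit 3015048551) (nat_lit 0) (nat_lit 42446925972) (nat_lit 6) (nat_lit 5) (nat_lit 8) (nat_lit 4) (nat_lit 6) (nat_lit 4) (nat_lit 436) (nat_lit 315) (nat_lit 269)) (XT.nd (nat_lit 78) (nat_lit 0) (nat_lit 0) (XT.lf (nat_lit 0) (nat_lit 13545883040) (nat_lit 76) (nat_lit 47204854095) (nat_lit 76) (nat_lit 39423345599) (nat_lit 5) (nat_lit 4) (nat_lit 6) (nat_lit 5) (nat_lit 6) (nat_lit 4) (nat_lit 437) (nat_lit 315) (nat_lit 268)) (XT.lf (nat_lit 0) (nat_lit 30860903561) (nat_lit 76) (nat_lit 40945590752) (nat_lit 76) (nat_lit 33122475561) (nat_lit 5) (nat_lit 4) (nat_lit 6) (nat_lit 5) (nat_lit 6) (nat_lit 4) (nat_lit 438) (nat_lit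 315) (nat_lit 267)))) (XT.nd (nat_lit 78) (nat_lit 304) (nat_lit 0) (XT.lf (nat_lit 0) (nat_lit 988897326) (nat_lit 152) (nat_lit 5251211900) (nat_lit 0) (nat_lit 988897326) (nat_lit 53) (nat_lit 5) (nat_lit 55) (nat_lit 4) (nat_lit 53) (nat_lit 4) (nat_lit 388) (nat_lit 316) (nat_lit 316)) (XT.nd (nat_lit 78) (nat_lit 152) (nat_lit 0) (XT.lf (nat_lit 0) (nat_lit 7080895526) (nat_lit 152) (nat_lit 4227949803) (nat_lit 152) (nat_lit 3573357760) (nat_lit 51) (nat_lit 4) (nat_lit 53) (nat_lit 5) (nat_lit 53) (nat_lit 4) (nat_lit 389) (nat_lit 316) (nat_lit 315)) (XT.lf (nat_lit 0) (nat_lit 5595084493) (nat_lit 152) (nat_lit 5378720738) (nat_lit 0) (nat_lit 4354295139) (nat_lit 49) (nat_lit 5) (nat_lit 51) (nat_lit 4) (nat_lit 49) (nat_lit 4) (nat_lit 390) (nat_lit 316) (nat_lit 314)))))) (XT.nd (nat_lit 468) (nat_lit 684) (nat_lit 0) (XT.nd (nat_lit 234) (nat_lit 532) (nat_lit 0) (XT.nd (nat_lit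 78) (nat_lit 380) (nat_lit 0) (XT.lf (nat_lit 0) (nat_lit 12548438429) (nat_lit 152) (nat_lit 2533026661) (nat_lit 152) (nat_lit 715796260) (nat_lit 47) (nat_lit 4) (nat_lit 49) (nat_lit 5) (nat_lit 49) (nat_lit 4) (nat_lit 391) (nat_lit 316) (nat_lit 313)) (XT.nd (nat_lit 78) (nat_lit 228) (nat_lit 0) (XT.lf (nat_lit 0) (nat_lit 8536000688) (nat_lit 152) (nat_lit 1514052998) (nat_lit 0) (nat_lit 6238697897) (nat_lit 45) (nat_lit 5) (nat_lit 47) (nat_lit 4) (nat_lit 45) (nat_lit 4) (nat_lit 392) (nat_lit 316) (nat_lit 312)) (XT.lf (nat_lit 0) (nat_lit 1323941741) (nat_lit 228) (nat_lit 117321466) (nat_lit 76) (nat_lit 15365329318) (nat_lit 42) (nat_lit 5) (nat_lit 45) (nat_lit 5) (nat_lit 43) (nat_lit 4) (nat_lit 393) (nat_lit 316) (nat_lit 311)))) (XT.nd (nat_lit 78) (nat_lit 304) (nat_lit 0) (XT.lf (nat_lit 0) (nat_lit 809492269) (nat_lit 152) (nat_lit 9865856993) (nat_lit 152) (nat_lit 6673263585)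 (nat_lit 39) (nat_lit 4) (nat_lit 41) (nat_lit 5) (nat_lit 41) (nat_lit 4) (nat_lit 394) (nat_lit 316) (nat_lit 310)) (XT.nd (nat_lit 78) (nat_lit 152) (nat_lit 0) (XT.lf (nat_lit 0) (nat_lit 1307027791) (nat_lit 76) (nat_lit 1129739395) (nat_lit 152) (nat_lit 15482935069) (nat_lit 37) (nat_lit 5) (nat_lit 38) (nat_lit 5) (nat_lit 39) (nat_lit 4) (nat_lit 395) (nat_lit 316) (nat_lit 309)) (XT.lf (nat_lit 0) (nat_lit 1213085117) (nat_lit 152) (nat_lit 10625994959) (nat_lit 152) (nat_lit 6679063596) (nat_lit 35) (nat_lit 4) (nat_lit 37) (nat_lit 5) (nat_lit 37) (nat_lit 4) (nat_lit 396) (nat_lit 316) (nat_lit 308))))) (XT.nd (nat_lit 234) (nat_lit 380) (nat_lit 0) (XT.nd (nat_lit 78) (nat_lit 152) (nat_lit 0) (XT.lf (nat_lit 0) (nat_lit 578234120) (nat_lit 76) (nat_lit 1844826432) (nat_lit 152) (nat_lit 16725485312) (nat_lit 33) (nat_lit 5) (nat_lit 34) (nat_lit 5) (nat_lit 35) (nat_lit 4) (nat_lit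 397) (nat_lit 316) (nat_lit 307)) (XT.nd (nat_lit 78) (nat_lit 152) (nat_lit 0) (XT.lf (nat_lit 0) (nat_lit 11818799874) (nat_lit 152) (nat_lit 749742989) (nat_lit 0) (nat_lit 7240662860) (nat_lit 33) (nat_lit 5) (nat_lit 35) (nat_lit 4) (nat_lit 33) (nat_lit 4) (nat_lit 398) (nat_lit 316) (nat_lit 306)) (XT.lf (nat_lit 0) (nat_lit 1084970141) (nat_lit 152) (nat_lit 2722297946) (nat_lit 76) (nat_lit 16697511041) (nat_lit 31) (nat_lit 5) (nat_lit 33) (nat_lit 5) (nat_lit 32) (nat_lit 4) (nat_lit 399) (nat_lit 316) (nat_lit 305)))) (XT.nd (nat_lit 156) (nat_lit 228) (nat_lit 0) (XT.nd (nat_lit 78) (nat_lit 76) (nat_lit 0) (XT.lf (nat_lit 0) (nat_lit 10404671049) (nat_lit 152) (nat_lit 5526633922) (nat_lit 0) (nat_lit 5302796779) (nat_lit 30) (nat_lit 5) (nat_lit 32) (nat_lit 4) (nat_lit 30) (nat_lit 4) (nat_lit 400) (nat_lit 316) (nat_lit 304)) (XT.lf (nat_lit 0) (nat_lit 12849341632) (nat_lit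 76) (nat_lit 7279770987) (nat_lit 76) (nat_lit 1872632581) (nat_lit 29) (nat_lit 4) (nat_lit 30) (nat_lit 5) (nat_lit 30) (nat_lit 4) (nat_lit 401) (nat_lit 316) (nat_lit 303))) (XT.nd (nat_lit 78) (nat_lit 76) (nat_lit 0) (XT.lf (nat_lit 0) (nat_lit 7300760044) (nat_lit 152) (nat_lit 13738531678) (nat_lit 0) (nat_lit 1768851156) (nat_lit 27) (nat_lit 5) (nat_lit 29) (nat_lit 4) (nat_lit 27) (nat_lit 4) (nat_lit 402) (nat_lit 316) (nat_lit 302)) (XT.lf (nat_lit 0) (nat_lit 4269920903) (nat_lit 76) (nat_lit 12593030375) (nat_lit 76) (nat_lit 6792302487) (nat_lit 26) (nat_lit 4) (nat_lit 27) (nat_lit 5) (nat_lit 27) (nat_lit 4) (nat_lit 403) (nat_lit 316) (nat_lit 301))))))))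
noncomputable def xc13 : XT := (XT.nd (nat_lit 1872) (nat_lit 304) (nat_lit 0) (XT.nd (nat_lit 936) (nat_lit 456) (nat_lit 0) (XT.nd (nat_lit 468) (nat_lit 380) (nat_lit 0) (XT.nd (nat_lit 234) (nat_lit 228) (nat_lit 0) (XT.nd (nat_lit 78) (nat_lit 152) (nat_lit 0) (XT.lf (nat_lit 0) (nat_lit 2219001442) (nat_lit 152) (nat_lit 1552173055) (nat_lit 76) (nat_lit 20775684902) (nat_lit 25) (nat_lit 5) (nat_lit 27) (nat_lit 5) (nat_lit 26) (nat_lit 4) (nat_lit 404) (nat_lit 316) (nat_lit 300)) (XT.nd (nat_lit 78) (nat_lit 76) (nat_lit 0) (XT.lf (nat_lit 0) (nat_lit 11533173620) (nat_lit 152) (nat_lit 8531971588) (nat_lit 0) (nat_lit 5416112707) (nat_lit 24) (nat_lit 5) (nat_lit 26) (nat_lit 4) (nat_lit 24) (nat_lit 4) (nat_lit 405) (nat_lit 316) (nat_lit 299)) (XT.lf (nat_lit 0) (nat_lit 9672716406) (nat_lit 76) (nat_lit 11567190255) (nat_lit 76) (nat_lit 5224676954) (nat_lit 23) (nat_lit 4) (nat_lit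 24) (nat_lit 5) (nat_lit 24) (nat_lit 4) (nat_lit 406) (nat_lit 316) (nat_lit 298)))) (XT.nd (nat_lit 78) (nat_lit 76) (nat_lit 0) (XT.lf (nat_lit 0) (nat_lit 1036707268) (nat_lit 76) (nat_lit 2704148460) (nat_lit 152) (nat_lit 23758614818) (nat_lit 21) (nat_lit 5) (nat_lit 22) (nat_lit 5) (nat_lit 23) (nat_lit 4) (nat_lit 407) (nat_lit 316) (nat_lit 297)) (XT.nd (nat_lit 78) (nat_lit 76) (nat_lit 0) (XT.lf (nat_lit 0) (nat_lit 13074243737) (nat_lit 152) (nat_lit 9000023238) (nat_lit 0) (nat_lit 6509465268) (nat_lit 21) (nat_lit 5) (nat_lit 23) (nat_lit 4) (nat_lit 21) (nat_lit 4) (nat_lit 408) (nat_lit 316) (nat_lit 296)) (XT.lf (nat_lit 0) (nat_lit 9096727278) (nat_lit 76) (nat_lit 13690974376) (nat_lit 76) (nat_lit 6937114111) (nat_lit 20) (nat_lit 4) (nat_lit 21) (nat_lit 5) (nat_lit 21) (nat_lit 4) (nat_lit 409) (nat_lit 316) (nat_lit 295))))) (XT.nd (nat_lit 234) (nat_lit 152) (nat_lit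 0) (XT.nd (nat_lit 78) (nat_lit 152) (nat_lit 0) (XT.lf (nat_lit 0) (nat_lit 1919841050) (nat_lit 152) (nat_lit 3036660833) (nat_lit 76) (nat_lit 25968979276) (nat_lit 19) (nat_lit 5) (nat_lit 21) (nat_lit 5) (nat_lit 20) (nat_lit 4) (nat_lit 410) (nat_lit 316) (nat_lit 294)) (XT.nd (nat_lit 78) (nat_lit 76) (nat_lit 0) (XT.lf (nat_lit 0) (nat_lit 11077609769) (nat_lit 152) (nat_lit 16927352484) (nat_lit 0) (nat_lit 4179123432) (nat_lit 18) (nat_lit 5) (nat_lit 20) (nat_lit 4) (nat_lit 18) (nat_lit 4) (nat_lit 411) (nat_lit 316) (nat_lit 293)) (XT.lf (nat_lit 0) (nat_lit 628165434) (nat_lit 76) (nat_lit 19968710351) (nat_lit 76) (nat_lit 12911645408) (nat_lit 17) (nat_lit 4) (nat_lit 18) (nat_lit 5) (nat_lit 18) (nat_lit 4) (nat_lit 412) (nat_lit 316) (nat_lit 292)))) (XT.nd (nat_lit 78) (nat_lit 152) (nat_lit 0) (XT.lf (nat_lit 0) (nat_lit 19068106613) (nat_lit 76) (nat_lit 11519651525) (nat_lit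 76) (nat_lit 4311559338) (nat_lit 17) (nat_lit 4) (nat_lit 18) (nat_lit 5) (nat_lit 18) (nat_lit 4) (nat_lit 413) (nat_lit 316) (nat_lit 291)) (XT.nd (nat_lit 78) (nat_lit 0) (nat_lit 0) (XT.lf (nat_lit 0) (nat_lit 1724705572) (nat_lit 76) (nat_lit 2746542323) (nat_lit 152) (nat_lit 31891709130) (nat_lit 15) (nat_lit 5) (nat_lit 16) (nat_lit 5) (nat_lit 17) (nat_lit 4) (nat_lit 414) (nat_lit 316) (nat_lit 290)) (XT.lf (nat_lit 0) (nat_lit 13663343894) (nat_lit 152) (nat_lit 17840828239) (nat_lit 0) (nat_lit 6392553779) (nat_lit 15) (nat_lit 5) (nat_lit 17) (nat_lit 4) (nat_lit 15) (nat_lit 4) (nat_lit 415) (nat_lit 316) (nat_lit 289)))))) (XT.nd (nat_lit 468) (nat_lit 228) (nat_lit 0) (XT.nd (nat_lit 234) (nat_lit 76) (nat_lit 0) (XT.nd (nat_lit 78) (nat_lit 152) (nat_lit 0) (XT.lf (nat_lit 0) (nat_lit 23182537248) (nat_lit 152) (nat_lit 543544412) (nat_lit 0) (nat_lit 15785084014) (nat_lit 15)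 (nat_lit 5) (nat_lit 17) (nat_lit 4) (nat_lit 15) (nat_lit 4) (nat_lit 416) (nat_lit 316) (nat_lit 288)) (XT.nd (nat_lit 78) (nat_lit 76) (nat_lit 0) (XT.lf (nat_lit 0) (nat_lit 17665911037) (nat_lit 76) (nat_lit 15528995763) (nat_lit 76) (nat_lit 8010910989) (nat_lit 14) (nat_lit 4) (nat_lit 15) (nat_lit 5) (nat_lit 15) (nat_lit 4) (nat_lit 417) (nat_lit 316) (nat_lit 287)) (XT.lf (nat_lit 0) (nat_lit 564658455) (nat_lit 152) (nat_lit 6486715291) (nat_lit 76) (nat_lit 35937944646) (nat_lit 13) (nat_lit 5) (nat_lit 15) (nat_lit 5) (nat_lit 14) (nat_lit 4) (nat_lit 418) (nat_lit 316) (nat_lit 286)))) (XT.nd (nat_lit 78) (nat_lit 0) (nat_lit 0) (XT.lf (nat_lit 0) (nat_lit 9389199675) (nat_lit 152) (nat_lit 33598526968) (nat_lit 0) (nat_lit 1872317810) (nat_lit 12) (nat_lit 5) (nat_lit 14) (nat_lit 4) (nat_lit 12) (nat_lit 4) (nat_lit 419) (nat_lit 316) (nat_lit 285)) (XT.nd (nat_lit 78) (nat_lit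 0) (nat_lit 0) (XT.lf (nat_lit 0) (nat_lit 18654037986) (nat_lit 152) (nat_lit 17134317296) (nat_lit 0) (nat_lit 11035985189) (nat_lit 12) (nat_lit 5) (nat_lit 14) (nat_lit 4) (nat_lit 12) (nat_lit 4) (nat_lit 420) (nat_lit 316) (nat_lit 284)) (XT.lf (nat_lit 0) (nat_lit 28249225506) (nat_lit 152) (nat_lit 106798607) (nat_lit 0) (nat_lit 20534819440) (nat_lit 12) (nat_lit 5) (nat_lit 14) (nat_lit 4) (nat_lit 12) (nat_lit 4) (nat_lit 421) (nat_lit 316) (nat_lit 283))))) (XT.nd (nat_lit 234) (nat_lit 0) (nat_lit 0) (XT.nd (nat_lit 78) (nat_lit 152) (nat_lit 0) (XT.lf (nat_lit 0) (nat_lit 17873344131) (nat_lit 76) (nat_lit 20496073305) (nat_lit 76) (nat_lit 12689902221) (nat_lit 11) (nat_lit 4) (nat_lit 12) (nat_lit 5) (nat_lit 12) (nat_lit 4) (nat_lit 422) (nat_lit 316) (nat_lit 282)) (XT.nd (nat_lit 78) (nat_lit 152) (nat_lit 0) (XT.lf (nat_lit 0) (nat_lit 36514295839) (nat_lit 76) (nat_lit 12359573761)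 (nat_lit 76) (nat_lit 4466007421) (nat_lit 11) (nat_lit 4) (nat_lit 12) (nat_lit 5) (nat_lit 12) (nat_lit 4) (nat_lit 423) (nat_lit 316) (nat_lit 281)) (XT.lf (nat_lit 0) (nat_lit 83040378) (nat_lit 76) (nat_lit 3887324298) (nat_lit 152) (nat_lit 51766420807) (nat_lit 9) (nat_lit 5) (nat_lit 10) (nat_lit 5) (nat_lit 11) (nat_lit 4) (nat_lit 424) (nat_lit 316) (nat_lit 280)))) (XT.nd (nat_lit 78) (nat_lit 0) (nat_lit 0) (XT.lf (nat_lit 0) (nat_lit 12844362018) (nat_lit 152) (nat_lit 40381675235) (nat_lit 0) (nat_lit 5022934843) (nat_lit 9) (nat_lit 5) (nat_lit 11) (nat_lit 4) (nat_lit 9) (nat_lit 4) (nat_lit 425) (nat_lit 316) (nat_lit 279)) (XT.nd (nat_lit 78) (nat_lit 0) (nat_lit 0) (XT.lf (nat_lit 0) (nat_lit 22091054347) (nat_lit 152) (nat_lit 24601517250) (nat_lit 0) (nat_lit 14196330757) (nat_lit 9) (nat_lit 5) (nat_lit 11) (nat_lit 4) (nat_lit 9) (nat_lit 4) (nat_lit 426) (nat_lit 316)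 (nat_lit 278)) (XT.lf (nat_lit 0) (nat_lit 31695090259) (nat_lit 152) (nat_lit 8238332009) (nat_lit 0) (nat_lit 23730560560) (nat_lit 9) (nat_lit 5) (nat_lit 11) (nat_lit 4) (nat_lit 9) (nat_lit 4) (nat_lit 427) (nat_lit 316) (nat_lit 277))))))) (XT.nd (nat_lit 49920) (nat_lit 0) (nat_lit 2052) (XT.nd (nat_lit 468) (nat_lit 76) (nat_lit 0) (XT.nd (nat_lit 234) (nat_lit 152) (nat_lit 0) (XT.nd (nat_lit 78) (nat_lit 0) (nat_lit 0) (XT.lf (nat_lit 0) (nat_lit 8920919730) (nat_lit 76) (nat_lit 32844170115) (nat_lit 76) (nat_lit 24813158406) (nat_lit 8) (nat_lit 4) (nat_lit 9) (nat_lit 5) (nat_lit 9) (nat_lit 4) (nat_lit 428) (nat_lit 316) (nat_lit 276)) (XT.nd (nat_lit 78) (nat_lit 0) (nat_lit 0) (XT.lf (nat_lit 0) (nat_lit 26919742157) (nat_lit 76) (nat_lit 25406591978) (nat_lit 76) (nat_lit 17312264070) (nat_lit 8) (nat_lit 4) (nat_lit 9) (nat_lit 5) (nat_lit 9) (nat_lit 4) (nat_lit 429) (nat_lit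 316) (nat_lit 275)) (XT.lf (nat_lit 0) (nat_lit 45637030650) (nat_lit 76) (nat_lit 17686170338) (nat_lit 76) (nat_lit 9531541288) (nat_lit 8) (nat_lit 4) (nat_lit 9) (nat_lit 5) (nat_lit 9) (nat_lit 4) (nat_lit 430) (nat_lit 316) (nat_lit 274)))) (XT.nd (nat_lit 78) (nat_lit 152) (nat_lit 0) (XT.lf (nat_lit 0) (nat_lit 65117350182) (nat_lit 76) (nat_lit 9664523239) (nat_lit 76) (nat_lit 1452464530) (nat_lit 8) (nat_lit 4) (nat_lit 9) (nat_lit 5) (nat_lit 9) (nat_lit 4) (nat_lit 431) (nat_lit 316) (nat_lit 273)) (XT.nd (nat_lit 78) (nat_lit 0) (nat_lit 0) (XT.lf (nat_lit 0) (nat_lit 5665452036) (nat_lit 76) (nat_lit 1197703460) (nat_lit 152) (nat_lit 72918640038) (nat_lit 6) (nat_lit 5) (nat_lit 7) (nat_lit 5) (nat_lit 8) (nat_lit 4) (nat_lit 432) (nat_lit 316) (nat_lit 272)) (XT.lf (nat_lit 0) (nat_lit 15671352244) (nat_lit 152) (nat_lit 60236835502) (nat_lit 0) (nat_lit 7594804655) (nat_lit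 6) (nat_lit 5) (nat_lit 8) (nat_lit 4) (nat_lit 6) (nat_lit 4) (nat_lit 433) (nat_lit 316) (nat_lit 271))))) (XT.nd (nat_lit 234) (nat_lit 76) (nat_lit 0) (XT.nd (nat_lit 78) (nat_lit 0) (nat_lit 0) (XT.lf (nat_lit 0) (nat_lit 24853036514) (nat_lit 152) (nat_lit 45830899031) (nat_lit 0) (nat_lit 16728323975) (nat_lit 6) (nat_lit 5) (nat_lit 8) (nat_lit 4) (nat_lit 6) (nat_lit 4) (nat_lit 434) (nat_lit 316) (nat_lit 270)) (XT.nd (nat_lit 78) (nat_lit 0) (nat_lit 0) (XT.lf (nat_lit 0) (nat_lit 34418556403) (nat_lit 152) (nat_lit 30852721179) (nat_lit 0) (nat_lit 26247972482) (nat_lit 6) (nat_lit 5) (nat_lit 8) (nat_lit 4) (nat_lit 6) (nat_lit 4) (nat_lit 435) (nat_lit 316) (nat_lit 269)) (XT.lf (nat_lit 0) (nat_lit 44390686956) (nat_lit 152) (nat_lit 15266639617) (nat_lit 0) (nat_lit 36176416005) (nat_lit 6) (nat_lit 5) (nat_lit 8) (nat_lit 4) (nat_lit 6) (nat_lit 4) (nat_lit 436) (nat_lit 316)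 (nat_lit 268)))) (XT.nd (nat_lit 78) (nat_lit 0) (nat_lit 0) (XT.lf (nat_lit 0) (nat_lit 983649924) (nat_lit 76) (nat_lit 53818976863) (nat_lit 76) (nat_lit 45563099217) (nat_lit 5) (nat_lit 4) (nat_lit 6) (nat_lit 5) (nat_lit 6) (nat_lit 4) (nat_lit 437) (nat_lit 316) (nat_lit 267)) (XT.nd (nat_lit 49062) (nat_lit 0) (nat_lit 4180) (XT.lf (nat_lit 0) (nat_lit 18235040573) (nat_lit 76) (nat_lit 47591023173) (nat_lit 76) (nat_lit 39295520104) (nat_lit 5) (nat_lit 4) (nat_lit 6) (nat_lit 5) (nat_lit 6) (nat_lit 4) (nat_lit 438) (nat_lit 316) (nat_lit 266)) (XT.lf (nat_lit 0) (nat_lit 5503452311) (nat_lit 152) (nat_lit 664365881) (nat_lit 152) (nat_lit 664365881) (nat_lit 60) (nat_lit 4) (nat_lit 62) (nat_lit 5) (nat_lit 62) (nat_lit 4) (nat_lit 386) (nat_lit 317) (nat_lit 317)))))) (XT.nd (nat_lit 468) (nat_lit 988) (nat_lit 0) (XT.nd (nat_lit 234) (nat_lit 456) (nat_lit 0) (XT.nd (nat_lit 78)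 (nat_lit 304) (nat_lit 0) (XT.lf (nat_lit 0) (nat_lit 565754333) (nat_lit 152) (nat_lit 7097855559) (nat_lit 152) (nat_lit 6389914266) (nat_lit 55) (nat_lit 4) (nat_lit 57) (nat_lit 5) (nat_lit 57) (nat_lit 4) (nat_lit 387) (nat_lit 317) (nat_lit 316)) (XT.nd (nat_lit 78) (nat_lit 152) (nat_lit 0) (XT.lf (nat_lit 0) (nat_lit 2506222480) (nat_lit 152) (nat_lit 10792266812) (nat_lit 0) (nat_lit 1164308793) (nat_lit 53) (nat_lit 5) (nat_lit 55) (nat_lit 4) (nat_lit 53) (nat_lit 4) (nat_lit 388) (nat_lit 317) (nat_lit 315)) (XT.lf (nat_lit 0) (nat_lit 6503749350) (nat_lit 152) (nat_lit 5176648478) (nat_lit 152) (nat_lit 3211313799) (nat_lit 51) (nat_lit 4) (nat_lit 53) (nat_lit 5) (nat_lit 53) (nat_lit 4) (nat_lit 389) (nat_lit 317) (nat_lit 314)))) (XT.nd (nat_lit 78) (nat_lit 304) (nat_lit 0) (XT.lf (nat_lit 0) (nat_lit 5783102603) (nat_lit 152) (nat_lit 6260857092) (nat_lit 0) (nat_lit 3298569635)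 (nat_lit 49) (nat_lit 5) (nat_lit 51) (nat_lit 4) (nat_lit 49) (nat_lit 4) (nat_lit 390) (nat_lit 317) (nat_lit 313)) (XT.nd (nat_lit 78) (nat_lit 152) (nat_lit 0) (XT.lf (nat_lit 0) (nat_lit 11376945643) (nat_lit 152) (nat_lit 3736482990) (nat_lit 152) (nat_lit 702958548) (nat_lit 47) (nat_lit 4) (nat_lit 49) (nat_lit 5) (nat_lit 49) (nat_lit 4) (nat_lit 391) (nat_lit 317) (nat_lit 312)) (XT.lf (nat_lit 0) (nat_lit 8379696606) (nat_lit 152) (nat_lit 3006351094) (nat_lit 0) (nat_lit 4926906835) (nat_lit 45) (nat_lit 5) (nat_lit 47) (nat_lit 4) (nat_lit 45) (nat_lit 4) (nat_lit 392) (nat_lit 317) (nat_lit 311))))) (XT.nd (nat_lit 234) (nat_lit 456) (nat_lit 0) (XT.nd (nat_lit 78) (nat_lit 304) (nat_lit 0) (XT.lf (nat_lit 0) (nat_lit 989645330) (nat_lit 228) (nat_lit 1927257759) (nat_lit 76) (nat_lit 13918676820) (nat_lit 42) (nat_lit 5) (nat_lit 45) (nat_lit 5) (nat_lit 43) (nat_lit 4) (nat_lit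 393) (nat_lit 317) (nat_lit 310)) (XT.nd (nat_lit 78) (nat_lit 228) (nat_lit 0) (XT.lf (nat_lit 0) (nat_lit 10161794324) (nat_lit 152) (nat_lit 1328008013) (nat_lit 0) (nat_lit 5893188055) (nat_lit 41) (nat_lit 5) (nat_lit 43) (nat_lit 4) (nat_lit 41) (nat_lit 4) (nat_lit 394) (nat_lit 317) (nat_lit 309)) (XT.lf (nat_lit 0) (nat_lit 1737295783) (nat_lit 228) (nat_lit 1167625533) (nat_lit 76) (nat_lit 15054194897) (nat_lit 38) (nat_lit 5) (nat_lit 41) (nat_lit 5) (nat_lit 39) (nat_lit 4) (nat_lit 395) (nat_lit 317) (nat_lit 308)))) (XT.nd (nat_lit 156) (nat_lit 152) (nat_lit 0) (XT.nd (nat_lit 78) (nat_lit 228) (nat_lit 0) (XT.lf (nat_lit 0) (nat_lit 10965800410) (nat_lit 152) (nat_lit 1582437161) (nat_lit 0) (nat_lit 6014545230) (nat_lit 37) (nat_lit 5) (nat_lit 39) (nat_lit 4) (nat_lit 37) (nat_lit 4) (nat_lit 396) (nat_lit 317) (nat_lit 307)) (XT.lf (nat_lit 0) (nat_lit 1371023639) (nat_lit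 228) (nat_lit 2542979513) (nat_lit 76) (nat_lit 15284017549) (nat_lit 34) (nat_lit 5) (nat_lit 37) (nat_lit 5) (nat_lit 35) (nat_lit 4) (nat_lit 397) (nat_lit 317) (nat_lit 306))) (XT.nd (nat_lit 78) (nat_lit 76) (nat_lit 0) (XT.lf (nat_lit 0) (nat_lit 10593730640) (nat_lit 152) (nat_lit 4194096892) (nat_lit 0) (nat_lit 5076053617) (nat_lit 33) (nat_lit 5) (nat_lit 35) (nat_lit 4) (nat_lit 33) (nat_lit 4) (nat_lit 398) (nat_lit 317) (nat_lit 305)) (XT.lf (nat_lit 0) (nat_lit 14045039317) (nat_lit 76) (nat_lit 6183650384) (nat_lit 76) (nat_lit 335830198) (nat_lit 32) (nat_lit 4) (nat_lit 33) (nat_lit 5) (nat_lit 33) (nat_lit 4) (nat_lit 399) (nat_lit 317) (nat_lit 304))))))))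
noncomputable def xc14 : XT := (XT.nd (nat_lit 1872) (nat_lit 380) (nat_lit 0) (XT.nd (nat_lit 936) (nat_lit 532) (nat_lit 0) (XT.nd (nat_lit 468) (nat_lit 456) (nat_lit 0) (XT.nd (nat_lit 234) (nat_lit 228) (nat_lit 0) (XT.nd (nat_lit 78) (nat_lit 228) (nat_lit 0) (XT.lf (nat_lit 0) (nat_lit 8807307339) (nat_lit 152) (nat_lit 9667586121) (nat_lit 0) (nat_lit 2824547877) (nat_lit 30) (nat_lit 5) (nat_lit 32) (nat_lit 4) (nat_lit 30) (nat_lit 4) (nat_lit 400) (nat_lit 317) (nat_lit 303)) (XT.nd (nat_lit 78) (nat_lit 152) (nat_lit 0) (XT.lf (nat_lit 0) (nat_lit 8398897016) (nat_lit 76) (nat_lit 9973235767) (nat_lit 76) (nat_lit 3699748556) (nat_lit 29) (nat_lit 4) (nat_lit 30) (nat_lit 5) (nat_lit 30) (nat_lit 4) (nat_lit 401) (nat_lit 317) (nat_lit 302)) (XT.lf (nat_lit 0) (nat_lit 4271935343) (nat_lit 76) (nat_lit 1059249939) (nat_lit 152) (nat_lit 17552971466) (nat_lit 27) (nat_lit 5) (nat_lit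 28) (nat_lit 5) (nat_lit 29) (nat_lit 4) (nat_lit 402) (nat_lit 317) (nat_lit 301)))) (XT.nd (nat_lit 78) (nat_lit 228) (nat_lit 0) (XT.lf (nat_lit 0) (nat_lit 14730106313) (nat_lit 152) (nat_lit 891561598) (nat_lit 0) (nat_lit 8114504935) (nat_lit 27) (nat_lit 5) (nat_lit 29) (nat_lit 4) (nat_lit 27) (nat_lit 4) (nat_lit 403) (nat_lit 317) (nat_lit 300)) (XT.nd (nat_lit 78) (nat_lit 152) (nat_lit 0) (XT.lf (nat_lit 0) (nat_lit 17629367181) (nat_lit 76) (nat_lit 6931011213) (nat_lit 76) (nat_lit 71583077) (nat_lit 26) (nat_lit 4) (nat_lit 27) (nat_lit 5) (nat_lit 27) (nat_lit 4) (nat_lit 404) (nat_lit 317) (nat_lit 299)) (XT.lf (nat_lit 0) (nat_lit 9052170194) (nat_lit 152) (nat_lit 14352892325) (nat_lit 0) (nat_lit 2167078840) (nat_lit 24) (nat_lit 5) (nat_lit 26) (nat_lit 4) (nat_lit 24) (nat_lit 4) (nat_lit 405) (nat_lit 317) (nat_lit 298))))) (XT.nd (nat_lit 234) (nat_lit 228) (nat_lit 0)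 (XT.nd (nat_lit 78) (nat_lit 152) (nat_lit 0) (XT.lf (nat_lit 0) (nat_lit 3534967274) (nat_lit 76) (nat_lit 15062577210) (nat_lit 76) (nat_lit 7962769296) (nat_lit 23) (nat_lit 4) (nat_lit 24) (nat_lit 5) (nat_lit 24) (nat_lit 4) (nat_lit 406) (nat_lit 317) (nat_lit 297)) (XT.nd (nat_lit 78) (nat_lit 76) (nat_lit 0) (XT.lf (nat_lit 0) (nat_lit 945914321) (nat_lit 152) (nat_lit 5384093802) (nat_lit 76) (nat_lit 21269296076) (nat_lit 22) (nat_lit 5) (nat_lit 24) (nat_lit 5) (nat_lit 23) (nat_lit 4) (nat_lit 407) (nat_lit 317) (nat_lit 296)) (XT.lf (nat_lit 0) (nat_lit 10092927599) (nat_lit 152) (nat_lit 15783942260) (nat_lit 0) (nat_lit 2812292526) (nat_lit 21) (nat_lit 5) (nat_lit 23) (nat_lit 4) (nat_lit 21) (nat_lit 4) (nat_lit 408) (nat_lit 317) (nat_lit 295)))) (XT.nd (nat_lit 78) (nat_lit 152) (nat_lit 0) (XT.lf (nat_lit 0) (nat_lit 1993315756) (nat_lit 76) (nat_lit 17651251337) (nat_lit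 76) (nat_lit 10190538364) (nat_lit 20) (nat_lit 4) (nat_lit 21) (nat_lit 5) (nat_lit 21) (nat_lit 4) (nat_lit 409) (nat_lit 317) (nat_lit 294)) (XT.nd (nat_lit 78) (nat_lit 152) (nat_lit 0) (XT.lf (nat_lit 0) (nat_lit 20629100949) (nat_lit 76) (nat_lit 9021089091) (nat_lit 76) (nat_lit 1388873355) (nat_lit 20) (nat_lit 4) (nat_lit 21) (nat_lit 5) (nat_lit 21) (nat_lit 4) (nat_lit 410) (nat_lit 317) (nat_lit 293)) (XT.lf (nat_lit 0) (nat_lit 7594154283) (nat_lit 152) (nat_lit 24684316364) (nat_lit 0) (nat_lit 25657487) (nat_lit 18) (nat_lit 5) (nat_lit 20) (nat_lit 4) (nat_lit 18) (nat_lit 4) (nat_lit 411) (nat_lit 317) (nat_lit 292)))))) (XT.nd (nat_lit 468) (nat_lit 228) (nat_lit 0) (XT.nd (nat_lit 234) (nat_lit 152) (nat_lit 0) (XT.nd (nat_lit 78) (nat_lit 152) (nat_lit 0) (XT.lf (nat_lit 0) (nat_lit 17021887973) (nat_lit 152) (nat_lit 7307061896) (nat_lit 0) (nat_lit 9302363933) (nat_lit 18)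 (nat_lit 5) (nat_lit 20) (nat_lit 4) (nat_lit 18) (nat_lit 4) (nat_lit 412) (nat_lit 317) (nat_lit 291)) (XT.nd (nat_lit 78) (nat_lit 76) (nat_lit 0) (XT.lf (nat_lit 0) (nat_lit 10826207261) (nat_lit 76) (nat_lit 16031952324) (nat_lit 76) (nat_lit 8168592814) (nat_lit 17) (nat_lit 4) (nat_lit 18) (nat_lit 5) (nat_lit 18) (nat_lit 4) (nat_lit 413) (nat_lit 317) (nat_lit 290)) (XT.lf (nat_lit 0) (nat_lit 593092200) (nat_lit 152) (nat_lit 6796368504) (nat_lit 76) (nat_lit 29104938824) (nat_lit 16) (nat_lit 5) (nat_lit 18) (nat_lit 5) (nat_lit 17) (nat_lit 4) (nat_lit 414) (nat_lit 317) (nat_lit 289)))) (XT.nd (nat_lit 78) (nat_lit 76) (nat_lit 0) (XT.lf (nat_lit 0) (nat_lit 9595106380) (nat_lit 152) (nat_lit 26737650638) (nat_lit 0) (nat_lit 1701117367) (nat_lit 15) (nat_lit 5) (nat_lit 17) (nat_lit 4) (nat_lit 15) (nat_lit 4) (nat_lit 415) (nat_lit 317) (nat_lit 288)) (XT.nd (nat_lit 78) (nat_lit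 76) (nat_lit 0) (XT.lf (nat_lit 0) (nat_lit 19039861191) (nat_lit 152) (nat_lit 9585448822) (nat_lit 0) (nat_lit 11025240637) (nat_lit 15) (nat_lit 5) (nat_lit 17) (nat_lit 4) (nat_lit 15) (nat_lit 4) (nat_lit 416) (nat_lit 317) (nat_lit 287)) (XT.lf (nat_lit 0) (nat_lit 8303131735) (nat_lit 76) (nat_lit 20588204396) (nat_lit 76) (nat_lit 12458696660) (nat_lit 14) (nat_lit 4) (nat_lit 15) (nat_lit 5) (nat_lit 15) (nat_lit 4) (nat_lit 417) (nat_lit 317) (nat_lit 286))))) (XT.nd (nat_lit 234) (nat_lit 76) (nat_lit 0) (XT.nd (nat_lit 78) (nat_lit 152) (nat_lit 0) (XT.lf (nat_lit 0) (nat_lit 27011313110) (nat_lit 76) (nat_lit 12181688870) (nat_lit 76) (nat_lit 3942764770) (nat_lit 14) (nat_lit 4) (nat_lit 15) (nat_lit 5) (nat_lit 15) (nat_lit 4) (nat_lit 418) (nat_lit 317) (nat_lit 285)) (XT.nd (nat_lit 78) (nat_lit 0) (nat_lit 0) (XT.lf (nat_lit 0) (nat_lit 1357818834) (nat_lit 76) (nat_lit 3420973774)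 (nat_lit 152) (nat_lit 40234237660) (nat_lit 12) (nat_lit 5) (nat_lit 13) (nat_lit 5) (nat_lit 14) (nat_lit 4) (nat_lit 419) (nat_lit 317) (nat_lit 284)) (XT.lf (nat_lit 0) (nat_lit 13945920716) (nat_lit 152) (nat_lit 27284898473) (nat_lit 0) (nat_lit 5749441077) (nat_lit 12) (nat_lit 5) (nat_lit 14) (nat_lit 4) (nat_lit 12) (nat_lit 4) (nat_lit 420) (nat_lit 317) (nat_lit 283)))) (XT.nd (nat_lit 78) (nat_lit 76) (nat_lit 0) (XT.lf (nat_lit 0) (nat_lit 23479369464) (nat_lit 152) (nat_lit 10378123786) (nat_lit 0) (nat_lit 15191124807) (nat_lit 12) (nat_lit 5) (nat_lit 14) (nat_lit 4) (nat_lit 12) (nat_lit 4) (nat_lit 421) (nat_lit 317) (nat_lit 282)) (XT.nd (nat_lit 78) (nat_lit 0) (nat_lit 0) (XT.lf (nat_lit 0) (nat_lit 7280316541) (nat_lit 76) (nat_lit 26158619362) (nat_lit 76) (nat_lit 17782979449) (nat_lit 11) (nat_lit 4) (nat_lit 12) (nat_lit 5) (nat_lit 12) (nat_lit 4) (nat_lit 422) (nat_lit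 317) (nat_lit 281)) (XT.lf (nat_lit 0) (nat_lit 25809570248) (nat_lit 76) (nat_lit 18076745221) (nat_lit 76) (nat_lit 9617871732) (nat_lit 11) (nat_lit 4) (nat_lit 12) (nat_lit 5) (nat_lit 12) (nat_lit 4) (nat_lit 423) (nat_lit 317) (nat_lit 280))))))) (XT.nd (nat_lit 936) (nat_lit 0) (nat_lit 0) (XT.nd (nat_lit 468) (nat_lit 152) (nat_lit 0) (XT.nd (nat_lit 234) (nat_lit 76) (nat_lit 0) (XT.nd (nat_lit 78) (nat_lit 152) (nat_lit 0) (XT.lf (nat_lit 0) (nat_lit 45047209593) (nat_lit 76) (nat_lit 9697426973) (nat_lit 76) (nat_lit 1159283411) (nat_lit 11) (nat_lit 4) (nat_lit 12) (nat_lit 5) (nat_lit 12) (nat_lit 4) (nat_lit 424) (nat_lit 317) (nat_lit 279)) (XT.nd (nat_lit 78) (nat_lit 0) (nat_lit 0) (XT.lf (nat_lit 0) (nat_lit 6669170597) (nat_lit 76) (nat_lit 859306972) (nat_lit 152) (nat_lit 50894231110) (nat_lit 9) (nat_lit 5) (nat_lit 10) (nat_lit 5) (nat_lit 11) (nat_lit 4) (nat_lit 425)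 (nat_lit 317) (nat_lit 278)) (XT.lf (nat_lit 0) (nat_lit 16715694576) (nat_lit 152) (nat_lit 36065598276) (nat_lit 0) (nat_lit 8283132282) (nat_lit 9) (nat_lit 5) (nat_lit 11) (nat_lit 4) (nat_lit 9) (nat_lit 4) (nat_lit 426) (nat_lit 317) (nat_lit 277)))) (XT.nd (nat_lit 78) (nat_lit 76) (nat_lit 0) (XT.lf (nat_lit 0) (nat_lit 26270954167) (nat_lit 152) (nat_lit 19798106712) (nat_lit 0) (nat_lit 17771909864) (nat_lit 9) (nat_lit 5) (nat_lit 11) (nat_lit 4) (nat_lit 9) (nat_lit 4) (nat_lit 427) (nat_lit 317) (nat_lit 276)) (XT.nd (nat_lit 78) (nat_lit 76) (nat_lit 0) (XT.lf (nat_lit 0) (nat_lit 36208746775) (nat_lit 152) (nat_lit 2904071085) (nat_lit 0) (nat_lit 27646386272) (nat_lit 9) (nat_lit 5) (nat_lit 11) (nat_lit 4) (nat_lit 9) (nat_lit 4) (nat_lit 428) (nat_lit 317) (nat_lit 275)) (XT.lf (nat_lit 0) (nat_lit 14948430215) (nat_lit 76) (nat_lit 31747997051) (nat_lit 76) (nat_lit 23125335407)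 (nat_lit 8) (nat_lit 4) (nat_lit 9) (nat_lit 5) (nat_lit 9) (nat_lit 4) (nat_lit 429) (nat_lit 317) (nat_lit 274))))) (XT.nd (nat_lit 234) (nat_lit 76) (nat_lit 0) (XT.nd (nat_lit 78) (nat_lit 76) (nat_lit 0) (XT.lf (nat_lit 0) (nat_lit 33581409740) (nat_lit 76) (nat_lit 24068939130) (nat_lit 76) (nat_lit 15388847826) (nat_lit 8) (nat_lit 4) (nat_lit 9) (nat_lit 5) (nat_lit 9) (nat_lit 4) (nat_lit 430) (nat_lit 317) (nat_lit 273)) (XT.nd (nat_lit 78) (nat_lit 76) (nat_lit 0) (XT.lf (nat_lit 0) (nat_lit 52981435016) (nat_lit 76) (nat_lit 16086686049) (nat_lit 76) (nat_lit 7351899831) (nat_lit 8) (nat_lit 4) (nat_lit 9) (nat_lit 5) (nat_lit 9) (nat_lit 4) (nat_lit 431) (nat_lit 317) (nat_lit 272)) (XT.lf (nat_lit 0) (nat_lit 985039942) (nat_lit 152) (nat_lit 6787245528) (nat_lit 76) (nat_lit 72199709666) (nat_lit 7) (nat_lit 5) (nat_lit 9) (nat_lit 5) (nat_lit 8) (nat_lit 4) (nat_lit 432) (nat_lit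 317) (nat_lit 271)))) (XT.nd (nat_lit 78) (nat_lit 0) (nat_lit 0) (XT.lf (nat_lit 0) (nat_lit 9624295370) (nat_lit 152) (nat_lit 73028783955) (nat_lit 0) (nat_lit 1045182253) (nat_lit 6) (nat_lit 5) (nat_lit 8) (nat_lit 4) (nat_lit 6) (nat_lit 4) (nat_lit 433) (nat_lit 317) (nat_lit 270)) (XT.nd (nat_lit 78) (nat_lit 0) (nat_lit 0) (XT.lf (nat_lit 0) (nat_lit 18769273009) (nat_lit 152) (nat_lit 58695069652) (nat_lit 0) (nat_lit 10144288511) (nat_lit 6) (nat_lit 5) (nat_lit 8) (nat_lit 4) (nat_lit 6) (nat_lit 4) (nat_lit 434) (nat_lit 317) (nat_lit 269)) (XT.lf (nat_lit 0) (nat_lit 28299834200) (nat_lit 152) (nat_lit 43785674816) (nat_lit 0) (nat_lit 19631162672) (nat_lit 6) (nat_lit 5) (nat_lit 8) (nat_lit 4) (nat_lit 6) (nat_lit 4) (nat_lit 435) (nat_lit 317) (nat_lit 268)))))) (XT.nd (nat_lit 49374) (nat_lit 0) (nat_lit 2660) (XT.nd (nat_lit 49140) (nat_lit 0) (nat_lit 3876) (XT.nd (nat_lit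 78) (nat_lit 0) (nat_lit 0) (XT.lf (nat_lit 0) (nat_lit 38238670756) (nat_lit 152) (nat_lit 28265100888) (nat_lit 0) (nat_lit 29528392533) (nat_lit 6) (nat_lit 5) (nat_lit 8) (nat_lit 4) (nat_lit 6) (nat_lit 4) (nat_lit 436) (nat_lit 317) (nat_lit 267)) (XT.nd (nat_lit 48984) (nat_lit 0) (nat_lit 4484) (XT.lf (nat_lit 0) (nat_lit 48609446573) (nat_lit 152) (nat_lit 12096394122) (nat_lit 0) (nat_lit 39859542926) (nat_lit 6) (nat_lit 5) (nat_lit 8) (nat_lit 4) (nat_lit 6) (nat_lit 4) (nat_lit 437) (nat_lit 317) (nat_lit 266)) (XT.lf (nat_lit 0) (nat_lit 1763495775) (nat_lit 152) (nat_lit 2351942847) (nat_lit 152) (nat_lit 2351942847) (nat_lit 65) (nat_lit 4) (nat_lit 67) (nat_lit 5) (nat_lit 67) (nat_lit 4) (nat_lit 384) (nat_lit 318) (nat_lit 318)))) (XT.nd (nat_lit 78) (nat_lit 380) (nat_lit 0) (XT.lf (nat_lit 0) (nat_lit 3982998891) (nat_lit 228) (nat_lit 6092360290) (nat_lit 0) (nat_lit 3217360382)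 (nat_lit 62) (nat_lit 5) (nat_lit 65) (nat_lit 4) (nat_lit 62) (nat_lit 4) (nat_lit 385) (nat_lit 318) (nat_lit 317)) (XT.nd (nat_lit 78) (nat_lit 228) (nat_lit 0) (XT.lf (nat_lit 0) (nat_lit 10733193532) (nat_lit 152) (nat_lit 2215298193) (nat_lit 152) (nat_lit 720480152) (nat_lit 60) (nat_lit 4) (nat_lit 62) (nat_lit 5) (nat_lit 62) (nat_lit 4) (nat_lit 386) (nat_lit 318) (nat_lit 316)) (XT.lf (nat_lit 0) (nat_lit 8092577338) (nat_lit 228) (nat_lit 3348420) (nat_lit 0) (nat_lit 5967067882) (nat_lit 57) (nat_lit 5) (nat_lit 60) (nat_lit 4) (nat_lit 57) (nat_lit 4) (nat_lit 387) (nat_lit 318) (nat_lit 315))))) (XT.nd (nat_lit 234) (nat_lit 608) (nat_lit 0) (XT.nd (nat_lit 78) (nat_lit 304) (nat_lit 0) (XT.lf (nat_lit 0) (nat_lit 2750850435) (nat_lit 152) (nat_lit 11662485950) (nat_lit 0) (nat_lit 63828029) (nat_lit 53) (nat_lit 5) (nat_lit 55) (nat_lit 4) (nat_lit 53) (nat_lit 4) (nat_lit 388)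 (nat_lit 318) (nat_lit 314)) (XT.nd (nat_lit 78) (nat_lit 152) (nat_lit 0) (XT.lf (nat_lit 0) (nat_lit 5348082839) (nat_lit 152) (nat_lit 6421712594) (nat_lit 152) (nat_lit 3140955910) (nat_lit 51) (nat_lit 4) (nat_lit 53) (nat_lit 5) (nat_lit 53) (nat_lit 4) (nat_lit 389) (nat_lit 318) (nat_lit 313)) (XT.lf (nat_lit 0) (nat_lit 5683695023) (nat_lit 152) (nat_lit 7733417859) (nat_lit 0) (nat_lit 1949502885) (nat_lit 49) (nat_lit 5) (nat_lit 51) (nat_lit 4) (nat_lit 49) (nat_lit 4) (nat_lit 390) (nat_lit 318) (nat_lit 312)))) (XT.nd (nat_lit 156) (nat_lit 304) (nat_lit 0) (XT.nd (nat_lit 78) (nat_lit 152) (nat_lit 0) (XT.lf (nat_lit 0) (nat_lit 9616220708) (nat_lit 152) (nat_lit 5242976645) (nat_lit 152) (nat_lit 985935485) (nat_lit 47) (nat_lit 4) (nat_lit 49) (nat_lit 5) (nat_lit 49) (nat_lit 4) (nat_lit 391) (nat_lit 318) (nat_lit 311)) (XT.lf (nat_lit 0) (nat_lit 7931438299) (nat_lit 152)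 (nat_lit 5100540392) (nat_lit 0) (nat_lit 3314940619) (nat_lit 45) (nat_lit 5) (nat_lit 47) (nat_lit 4) (nat_lit 45) (nat_lit 4) (nat_lit 392) (nat_lit 318) (nat_lit 310))) (XT.nd (nat_lit 78) (nat_lit 76) (nat_lit 0) (XT.lf (nat_lit 0) (nat_lit 360348573) (nat_lit 228) (nat_lit 4345416750) (nat_lit 76) (nat_lit 12168625334) (nat_lit 42) (nat_lit 5) (nat_lit 45) (nat_lit 5) (nat_lit 43) (nat_lit 4) (nat_lit 393) (nat_lit 318) (nat_lit 309)) (XT.lf (nat_lit 0) (nat_lit 9358624257) (nat_lit 152) (nat_lit 4064563117) (nat_lit 0) (nat_lit 4003841780) (nat_lit 41) (nat_lit 5) (nat_lit 43) (nat_lit 4) (nat_lit 41) (nat_lit 4) (nat_lit 394) (nat_lit 318) (nat_lit 308))))))))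
noncomputable def xc15 : XT := (XT.nd (nat_lit 1950) (nat_lit 608) (nat_lit 0) (XT.nd (nat_lit 936) (nat_lit 760) (nat_lit 0) (XT.nd (nat_lit 468) (nat_lit 456) (nat_lit 0) (XT.nd (nat_lit 234) (nat_lit 304) (nat_lit 0) (XT.nd (nat_lit 78) (nat_lit 304) (nat_lit 0) (XT.lf (nat_lit 0) (nat_lit 749506815) (nat_lit 228) (nat_lit 4238740503) (nat_lit 76) (nat_lit 13019876263) (nat_lit 38) (nat_lit 5) (nat_lit 41) (nat_lit 5) (nat_lit 39) (nat_lit 4) (nat_lit 395) (nat_lit 318) (nat_lit 307)) (XT.nd (nat_lit 78) (nat_lit 228) (nat_lit 0) (XT.lf (nat_lit 0) (nat_lit 9800413813) (nat_lit 152) (nat_lit 4983668575) (nat_lit 0) (nat_lit 3833046113) (nat_lit 37) (nat_lit 5) (nat_lit 39) (nat_lit 4) (nat_lit 37) (nat_lit 4) (nat_lit 396) (nat_lit 318) (nat_lit 306)) (XT.lf (nat_lit 0) (nat_lit 16841931) (nat_lit 228) (nat_lit 6290228409) (nat_lit 76) (nat_lit 12950404949) (nat_lit 34) (nat_lit 5) (nat_lit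 37) (nat_lit 5) (nat_lit 35) (nat_lit 4) (nat_lit 397) (nat_lit 318) (nat_lit 305)))) (XT.nd (nat_lit 78) (nat_lit 228) (nat_lit 0) (XT.lf (nat_lit 0) (nat_lit 9057573248) (nat_lit 152) (nat_lit 8284012032) (nat_lit 0) (nat_lit 2587218889) (nat_lit 33) (nat_lit 5) (nat_lit 35) (nat_lit 4) (nat_lit 33) (nat_lit 4) (nat_lit 398) (nat_lit 318) (nat_lit 304)) (XT.nd (nat_lit 78) (nat_lit 152) (nat_lit 0) (XT.lf (nat_lit 0) (nat_lit 9649446240) (nat_lit 76) (nat_lit 8884765717) (nat_lit 76) (nat_lit 2099989298) (nat_lit 32) (nat_lit 4) (nat_lit 33) (nat_lit 5) (nat_lit 33) (nat_lit 4) (nat_lit 399) (nat_lit 318) (nat_lit 303)) (XT.lf (nat_lit 0) (nat_lit 6890562196) (nat_lit 152) (nat_lit 14472014768) (nat_lit 0) (nat_lit 12672876) (nat_lit 30) (nat_lit 5) (nat_lit 32) (nat_lit 4) (nat_lit 30) (nat_lit 4) (nat_lit 400) (nat_lit 318) (nat_lit 302))))) (XT.nd (nat_lit 234) (nat_lit 228) (nat_lit 0)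 (XT.nd (nat_lit 78) (nat_lit 152) (nat_lit 0) (XT.lf (nat_lit 0) (nat_lit 3282584770) (nat_lit 76) (nat_lit 13012349621) (nat_lit 76) (nat_lit 5857576730) (nat_lit 29) (nat_lit 4) (nat_lit 30) (nat_lit 5) (nat_lit 30) (nat_lit 4) (nat_lit 401) (nat_lit 318) (nat_lit 301)) (XT.nd (nat_lit 78) (nat_lit 76) (nat_lit 0) (XT.lf (nat_lit 0) (nat_lit 3065370293) (nat_lit 152) (nat_lit 1195769832) (nat_lit 76) (nat_lit 18708778595) (nat_lit 28) (nat_lit 5) (nat_lit 30) (nat_lit 5) (nat_lit 29) (nat_lit 4) (nat_lit 402) (nat_lit 318) (nat_lit 300)) (XT.lf (nat_lit 0) (nat_lit 12314965916) (nat_lit 152) (nat_lit 6642715816) (nat_lit 0) (nat_lit 4868739616) (nat_lit 27) (nat_lit 5) (nat_lit 29) (nat_lit 4) (nat_lit 27) (nat_lit 4) (nat_lit 403) (nat_lit 318) (nat_lit 299)))) (XT.nd (nat_lit 78) (nat_lit 152) (nat_lit 0) (XT.lf (nat_lit 0) (nat_lit 11565181908) (nat_lit 76) (nat_lit 10420137167) (nat_lit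 76) (nat_lit 2741694908) (nat_lit 26) (nat_lit 4) (nat_lit 27) (nat_lit 5) (nat_lit 27) (nat_lit 4) (nat_lit 404) (nat_lit 318) (nat_lit 298)) (XT.nd (nat_lit 78) (nat_lit 0) (nat_lit 0) (XT.lf (nat_lit 0) (nat_lit 4790583865) (nat_lit 76) (nat_lit 1460738391) (nat_lit 152) (nat_lit 19422132764) (nat_lit 24) (nat_lit 5) (nat_lit 25) (nat_lit 5) (nat_lit 26) (nat_lit 4) (nat_lit 405) (nat_lit 318) (nat_lit 297)) (XT.lf (nat_lit 0) (nat_lit 15651190051) (nat_lit 152) (nat_lit 3237625039) (nat_lit 0) (nat_lit 7777183220) (nat_lit 24) (nat_lit 5) (nat_lit 26) (nat_lit 4) (nat_lit 24) (nat_lit 4) (nat_lit 406) (nat_lit 318) (nat_lit 296)))))) (XT.nd (nat_lit 468) (nat_lit 304) (nat_lit 0) (XT.nd (nat_lit 234) (nat_lit 228) (nat_lit 0) (XT.nd (nat_lit 78) (nat_lit 152) (nat_lit 0) (XT.lf (nat_lit 0) (nat_lit 15205439496) (nat_lit 76) (nat_lit 10286192010) (nat_lit 76) (nat_lit 2217430929) (nat_lit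 23) (nat_lit 4) (nat_lit 24) (nat_lit 5) (nat_lit 24) (nat_lit 4) (nat_lit 407) (nat_lit 318) (nat_lit 295)) (XT.nd (nat_lit 78) (nat_lit 0) (nat_lit 0) (XT.lf (nat_lit 0) (nat_lit 5515214672) (nat_lit 76) (nat_lit 1267768574) (nat_lit 152) (nat_lit 22022277906) (nat_lit 21) (nat_lit 5) (nat_lit 22) (nat_lit 5) (nat_lit 23) (nat_lit 4) (nat_lit 408) (nat_lit 318) (nat_lit 294)) (XT.lf (nat_lit 0) (nat_lit 16214193217) (nat_lit 152) (nat_lit 5711764719) (nat_lit 0) (nat_lit 8028863932) (nat_lit 21) (nat_lit 5) (nat_lit 23) (nat_lit 4) (nat_lit 21) (nat_lit 4) (nat_lit 409) (nat_lit 318) (nat_lit 293)))) (XT.nd (nat_lit 78) (nat_lit 152) (nat_lit 0) (XT.lf (nat_lit 0) (nat_lit 12643017074) (nat_lit 76) (nat_lit 13434352949) (nat_lit 76) (nat_lit 5085687700) (nat_lit 20) (nat_lit 4) (nat_lit 21) (nat_lit 5) (nat_lit 21) (nat_lit 4) (nat_lit 410) (nat_lit 318) (nat_lit 292)) (XT.nd (nat_lit 78) (nat_lit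 76) (nat_lit 0) (XT.lf (nat_lit 0) (nat_lit 3812826521) (nat_lit 152) (nat_lit 764185470) (nat_lit 76) (nat_lit 27856880289) (nat_lit 19) (nat_lit 5) (nat_lit 21) (nat_lit 5) (nat_lit 20) (nat_lit 4) (nat_lit 411) (nat_lit 318) (nat_lit 291)) (XT.lf (nat_lit 0) (nat_lit 13107574107) (nat_lit 152) (nat_lit 15950286265) (nat_lit 0) (nat_lit 4707211151) (nat_lit 18) (nat_lit 5) (nat_lit 20) (nat_lit 4) (nat_lit 18) (nat_lit 4) (nat_lit 412) (nat_lit 318) (nat_lit 290))))) (XT.nd (nat_lit 234) (nat_lit 76) (nat_lit 0) (XT.nd (nat_lit 78) (nat_lit 152) (nat_lit 0) (XT.lf (nat_lit 0) (nat_lit 1857397054) (nat_lit 76) (nat_lit 20922689382) (nat_lit 76) (nat_lit 12385340264) (nat_lit 17) (nat_lit 4) (nat_lit 18) (nat_lit 5) (nat_lit 18) (nat_lit 4) (nat_lit 413) (nat_lit 318) (nat_lit 289)) (XT.nd (nat_lit 78) (nat_lit 152) (nat_lit 0) (XT.lf (nat_lit 0) (nat_lit 20588953956) (nat_lit 76) (nat_lit 12357183913)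 (nat_lit 76) (nat_lit 3689371784) (nat_lit 17) (nat_lit 4) (nat_lit 18) (nat_lit 5) (nat_lit 18) (nat_lit 4) (nat_lit 414) (nat_lit 318) (nat_lit 288)) (XT.lf (nat_lit 0) (nat_lit 1771751669) (nat_lit 76) (nat_lit 3432097732) (nat_lit 152) (nat_lit 32977625970) (nat_lit 15) (nat_lit 5) (nat_lit 16) (nat_lit 5) (nat_lit 17) (nat_lit 4) (nat_lit 415) (nat_lit 318) (nat_lit 287)))) (XT.nd (nat_lit 156) (nat_lit 76) (nat_lit 0) (XT.nd (nat_lit 78) (nat_lit 0) (nat_lit 0) (XT.lf (nat_lit 0) (nat_lit 14544718939) (nat_lit 152) (nat_lit 19362703808) (nat_lit 0) (nat_lit 5893848634) (nat_lit 15) (nat_lit 5) (nat_lit 17) (nat_lit 4) (nat_lit 15) (nat_lit 4) (nat_lit 416) (nat_lit 318) (nat_lit 286)) (XT.lf (nat_lit 0) (nat_lit 24248861146) (nat_lit 152) (nat_lit 1767740919) (nat_lit 0) (nat_lit 15488574477) (nat_lit 15) (nat_lit 5) (nat_lit 17) (nat_lit 4) (nat_lit 15) (nat_lit 4) (nat_lit 417) (nat_lit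 318) (nat_lit 285))) (XT.nd (nat_lit 78) (nat_lit 0) (nat_lit 0) (XT.lf (nat_lit 0) (nat_lit 16777437390) (nat_lit 76) (nat_lit 17690227300) (nat_lit 76) (nat_lit 8825734571) (nat_lit 14) (nat_lit 4) (nat_lit 15) (nat_lit 5) (nat_lit 15) (nat_lit 4) (nat_lit 418) (nat_lit 318) (nat_lit 284)) (XT.lf (nat_lit 0) (nat_lit 36037258831) (nat_lit 76) (nat_lit 9050404441) (nat_lit 76) (nat_lit 86667844) (nat_lit 14) (nat_lit 4) (nat_lit 15) (nat_lit 5) (nat_lit 15) (nat_lit 4) (nat_lit 419) (nat_lit 318) (nat_lit 283))))))) (XT.nd (nat_lit 936) (nat_lit 152) (nat_lit 0) (XT.nd (nat_lit 468) (nat_lit 152) (nat_lit 0) (XT.nd (nat_lit 234) (nat_lit 152) (nat_lit 0) (XT.nd (nat_lit 78) (nat_lit 0) (nat_lit 0) (XT.lf (nat_lit 0) (nat_lit 8875833099) (nat_lit 152) (nat_lit 38190533914) (nat_lit 0) (nat_lit 81411191) (nat_lit 12) (nat_lit 5) (nat_lit 14) (nat_lit 4) (nat_lit 12) (nat_lit 4) (nat_lit 420) (nat_lit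 318) (nat_lit 282)) (XT.nd (nat_lit 78) (nat_lit 0) (nat_lit 0) (XT.lf (nat_lit 0) (nat_lit 18350483016) (nat_lit 152) (nat_lit 21398753516) (nat_lit 0) (nat_lit 9468665853) (nat_lit 12) (nat_lit 5) (nat_lit 14) (nat_lit 4) (nat_lit 12) (nat_lit 4) (nat_lit 421) (nat_lit 318) (nat_lit 281)) (XT.lf (nat_lit 0) (nat_lit 28184067713) (nat_lit 152) (nat_lit 3991896756) (nat_lit 0) (nat_lit 19219016973) (nat_lit 12) (nat_lit 5) (nat_lit 14) (nat_lit 4) (nat_lit 12) (nat_lit 4) (nat_lit 422) (nat_lit 318) (nat_lit 280)))) (XT.nd (nat_lit 78) (nat_lit 76) (nat_lit 0) (XT.lf (nat_lit 0) (nat_lit 14351531330) (nat_lit 76) (nat_lit 24186424854) (nat_lit 76) (nat_lit 15142104040) (nat_lit 11) (nat_lit 4) (nat_lit 12) (nat_lit 5) (nat_lit 12) (nat_lit 4) (nat_lit 423) (nat_lit 318) (nat_lit 279)) (XT.nd (nat_lit 78) (nat_lit 76) (nat_lit 0) (XT.lf (nat_lit 0) (nat_lit 33487857296) (nat_lit 76) (nat_lit 15856653458)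 (nat_lit 76) (nat_lit 6736837337) (nat_lit 11) (nat_lit 4) (nat_lit 12) (nat_lit 5) (nat_lit 12) (nat_lit 4) (nat_lit 424) (nat_lit 318) (nat_lit 278)) (XT.lf (nat_lit 0) (nat_lit 1945862119) (nat_lit 152) (nat_lit 5241616310) (nat_lit 76) (nat_lit 51417685737) (nat_lit 10) (nat_lit 5) (nat_lit 12) (nat_lit 5) (nat_lit 11) (nat_lit 4) (nat_lit 425) (nat_lit 318) (nat_lit 277))))) (XT.nd (nat_lit 234) (nat_lit 76) (nat_lit 0) (XT.nd (nat_lit 78) (nat_lit 0) (nat_lit 0) (XT.lf (nat_lit 0) (nat_lit 10971575357) (nat_lit 152) (nat_lit 48299055393) (nat_lit 0) (nat_lit 1981096830) (nat_lit 9) (nat_lit 5) (nat_lit 11) (nat_lit 4) (nat_lit 9) (nat_lit 4) (nat_lit 426) (nat_lit 318) (nat_lit 276)) (XT.nd (nat_lit 78) (nat_lit 0) (nat_lit 0) (XT.lf (nat_lit 0) (nat_lit 20480381308) (nat_lit 152) (nat_lit 32122700666) (nat_lit 0) (nat_lit 11426586581) (nat_lit 9) (nat_lit 5) (nat_lit 11) (nat_lit 4) (nat_lit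 9) (nat_lit 4) (nat_lit 427) (nat_lit 318) (nat_lit 275)) (XT.lf (nat_lit 0) (nat_lit 30373932354) (nat_lit 152) (nat_lit 15315462025) (nat_lit 0) (nat_lit 21259836485) (nat_lit 9) (nat_lit 5) (nat_lit 11) (nat_lit 4) (nat_lit 9) (nat_lit 4) (nat_lit 428) (nat_lit 318) (nat_lit 274)))) (XT.nd (nat_lit 78) (nat_lit 0) (nat_lit 0) (XT.lf (nat_lit 0) (nat_lit 2205719291) (nat_lit 76) (nat_lit 38491268001) (nat_lit 76) (nat_lit 29319742473) (nat_lit 8) (nat_lit 4) (nat_lit 9) (nat_lit 5) (nat_lit 9) (nat_lit 4) (nat_lit 429) (nat_lit 318) (nat_lit 273)) (XT.nd (nat_lit 78) (nat_lit 0) (nat_lit 0) (XT.lf (nat_lit 0) (nat_lit 20758404559) (nat_lit 76) (nat_lit 30851604098) (nat_lit 76) (nat_lit 21625383656) (nat_lit 8) (nat_lit 4) (nat_lit 9) (nat_lit 5) (nat_lit 9) (nat_lit 4) (nat_lit 430) (nat_lit 318) (nat_lit 272)) (XT.lf (nat_lit 0) (nat_lit 40081959116) (nat_lit 76) (nat_lit 22906869128) (nat_lit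 76) (nat_lit 13628558292) (nat_lit 8) (nat_lit 4) (nat_lit 9) (nat_lit 5) (nat_lit 9) (nat_lit 4) (nat_lit 431) (nat_lit 318) (nat_lit 271)))))) (XT.nd (nat_lit 49218) (nat_lit 0) (nat_lit 3572) (XT.nd (nat_lit 234) (nat_lit 0) (nat_lit 0) (XT.nd (nat_lit 78) (nat_lit 152) (nat_lit 0) (XT.lf (nat_lit 0) (nat_lit 60222391423) (nat_lit 76) (nat_lit 14638147057) (nat_lit 76) (nat_lit 5310226322) (nat_lit 8) (nat_lit 4) (nat_lit 9) (nat_lit 5) (nat_lit 9) (nat_lit 4) (nat_lit 432) (nat_lit 318) (nat_lit 270)) (XT.nd (nat_lit 78) (nat_lit 76) (nat_lit 0) (XT.lf (nat_lit 0) (nat_lit 3284058600) (nat_lit 152) (nat_lit 2708529299) (nat_lit 76) (nat_lit 77910433739) (nat_lit 7) (nat_lit 5) (nat_lit 9) (nat_lit 5) (nat_lit 8) (nat_lit 4) (nat_lit 433) (nat_lit 318) (nat_lit 269)) (XT.lf (nat_lit 0) (nat_lit 12309655998) (nat_lit 152) (nat_lit 72343453986) (nat_lit 0) (nat_lit 3163863864) (nat_lit 6) (nat_lit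 5) (nat_lit 8) (nat_lit 4) (nat_lit 6) (nat_lit 4) (nat_lit 434) (nat_lit 318) (nat_lit 268)))) (XT.nd (nat_lit 78) (nat_lit 0) (nat_lit 0) (XT.lf (nat_lit 0) (nat_lit 21806923192) (nat_lit 152) (nat_lit 57499566784) (nat_lit 0) (nat_lit 12619524363) (nat_lit 6) (nat_lit 5) (nat_lit 8) (nat_lit 4) (nat_lit 6) (nat_lit 4) (nat_lit 435) (nat_lit 318) (nat_lit 267)) (XT.nd (nat_lit 78) (nat_lit 0) (nat_lit 0) (XT.lf (nat_lit 0) (nat_lit 31714051179) (nat_lit 152) (nat_lit 42041381080) (nat_lit 0) (nat_lit 22487026926) (nat_lit 6) (nat_lit 5) (nat_lit 8) (nat_lit 4) (nat_lit 6) (nat_lit 4) (nat_lit 436) (nat_lit 318) (nat_lit 266)) (XT.lf (nat_lit 0) (nat_lit 42054628359) (nat_lit 152) (nat_lit 25932091670) (nat_lit 0) (nat_lit 32789865607) (nat_lit 6) (nat_lit 5) (nat_lit 8) (nat_lit 4) (nat_lit 6) (nat_lit 4) (nat_lit 437) (nat_lit 318) (nat_lit 265))))) (XT.nd (nat_lit 234) (nat_lit 912) (nat_lit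 0) (XT.nd (nat_lit 78) (nat_lit 532) (nat_lit 0) (XT.lf (nat_lit 0) (nat_lit 2104346165) (nat_lit 228) (nat_lit 1923544794) (nat_lit 0) (nat_lit 2104346165) (nat_lit 72) (nat_lit 5) (nat_lit 75) (nat_lit 4) (nat_lit 72) (nat_lit 4) (nat_lit 382) (nat_lit 319) (nat_lit 319)) (XT.nd (nat_lit 78) (nat_lit 304) (nat_lit 0) (XT.lf (nat_lit 0) (nat_lit 299688850) (nat_lit 228) (nat_lit 244510822) (nat_lit 76) (nat_lit 12050633681) (nat_lit 69) (nat_lit 5) (nat_lit 72) (nat_lit 5) (nat_lit 70) (nat_lit 4) (nat_lit 383) (nat_lit 319) (nat_lit 318)) (XT.lf (nat_lit 0) (nat_lit 3257260586) (nat_lit 152) (nat_lit 5649369256) (nat_lit 152) (nat_lit 4032723544) (nat_lit 65) (nat_lit 4) (nat_lit 67) (nat_lit 5) (nat_lit 67) (nat_lit 4) (nat_lit 384) (nat_lit 319) (nat_lit 317)))) (XT.nd (nat_lit 156) (nat_lit 532) (nat_lit 0) (XT.nd (nat_lit 78) (nat_lit 152) (nat_lit 0) (XT.lf (nat_lit 0) (nat_lit 4479107540)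 (nat_lit 228) (nat_lit 6642518793) (nat_lit 0) (nat_lit 2180369064) (nat_lit 62) (nat_lit 5) (nat_lit 65) (nat_lit 4) (nat_lit 62) (nat_lit 4) (nat_lit 385) (nat_lit 319) (nat_lit 316)) (XT.lf (nat_lit 0) (nat_lit 9911408568) (nat_lit 152) (nat_lit 3382290316) (nat_lit 152) (nat_lit 389095143) (nat_lit 60) (nat_lit 4) (nat_lit 62) (nat_lit 5) (nat_lit 62) (nat_lit 4) (nat_lit 386) (nat_lit 319) (nat_lit 315))) (XT.nd (nat_lit 78) (nat_lit 304) (nat_lit 0) (XT.lf (nat_lit 0) (nat_lit 8254481987) (nat_lit 228) (nat_lit 1120802838) (nat_lit 0) (nat_lit 4706343633) (nat_lit 57) (nat_lit 5) (nat_lit 60) (nat_lit 4) (nat_lit 57) (nat_lit 4) (nat_lit 387) (nat_lit 319) (nat_lit 314)) (XT.lf (nat_lit 0) (nat_lit 1372600431) (nat_lit 76) (nat_lit 1352663160) (nat_lit 152) (nat_lit 11775492630) (nat_lit 53) (nat_lit 5) (nat_lit 54) (nat_lit 5) (nat_lit 55) (nat_lit 4) (nat_lit 388) (nat_lit 319) (nat_lit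 313))))))))
noncomputable def xc16 : XT := (XT.nd (nat_lit 1872) (nat_lit 912) (nat_lit 0) (XT.nd (nat_lit 936) (nat_lit 912) (nat_lit 0) (XT.nd (nat_lit 468) (nat_lit 836) (nat_lit 0) (XT.nd (nat_lit 234) (nat_lit 456) (nat_lit 0) (XT.nd (nat_lit 78) (nat_lit 304) (nat_lit 0) (XT.lf (nat_lit 0) (nat_lit 3611144408) (nat_lit 152) (nat_lit 7966106588) (nat_lit 152) (nat_lit 3362116573) (nat_lit 51) (nat_lit 4) (nat_lit 53) (nat_lit 5) (nat_lit 53) (nat_lit 4) (nat_lit 389) (nat_lit 319) (nat_lit 312)) (XT.nd (nat_lit 78) (nat_lit 152) (nat_lit 0) (XT.lf (nat_lit 0) (nat_lit 5296625066) (nat_lit 152) (nat_lit 9799909135) (nat_lit 0) (nat_lit 303882826) (nat_lit 49) (nat_lit 5) (nat_lit 51) (nat_lit 4) (nat_lit 49) (nat_lit 4) (nat_lit 390) (nat_lit 319) (nat_lit 311)) (XT.lf (nat_lit 0) (nat_lit 7262071421) (nat_lit 152) (nat_lit 7056094515) (nat_lit 152) (nat_lit 1565400824) (nat_lit 47) (nat_lit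 4) (nat_lit 49) (nat_lit 5) (nat_lit 49) (nat_lit 4) (nat_lit 391) (nat_lit 319) (nat_lit 310)))) (XT.nd (nat_lit 78) (nat_lit 304) (nat_lit 0) (XT.lf (nat_lit 0) (nat_lit 7190158483) (nat_lit 152) (nat_lit 7801607055) (nat_lit 0) (nat_lit 1398961233) (nat_lit 45) (nat_lit 5) (nat_lit 47) (nat_lit 4) (nat_lit 45) (nat_lit 4) (nat_lit 392) (nat_lit 319) (nat_lit 309)) (XT.nd (nat_lit 78) (nat_lit 152) (nat_lit 0) (XT.lf (nat_lit 0) (nat_lit 9539851312) (nat_lit 152) (nat_lit 6806399201) (nat_lit 152) (nat_lit 576700356) (nat_lit 43) (nat_lit 4) (nat_lit 45) (nat_lit 5) (nat_lit 45) (nat_lit 4) (nat_lit 393) (nat_lit 319) (nat_lit 308)) (XT.lf (nat_lit 0) (nat_lit 8256145417) (nat_lit 152) (nat_lit 7422484759) (nat_lit 0) (nat_lit 1802437249) (nat_lit 41) (nat_lit 5) (nat_lit 43) (nat_lit 4) (nat_lit 41) (nat_lit 4) (nat_lit 394) (nat_lit 319) (nat_lit 307))))) (XT.nd (nat_lit 234) (nat_lit 380)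 (nat_lit 0) (XT.nd (nat_lit 78) (nat_lit 304) (nat_lit 0) (XT.lf (nat_lit 0) (nat_lit 10122615601) (nat_lit 152) (nat_lit 7392150326) (nat_lit 152) (nat_lit 552292766) (nat_lit 39) (nat_lit 4) (nat_lit 41) (nat_lit 5) (nat_lit 41) (nat_lit 4) (nat_lit 395) (nat_lit 319) (nat_lit 306)) (XT.nd (nat_lit 78) (nat_lit 152) (nat_lit 0) (XT.lf (nat_lit 0) (nat_lit 8328484640) (nat_lit 152) (nat_lit 9022378953) (nat_lit 0) (nat_lit 1330796402) (nat_lit 37) (nat_lit 5) (nat_lit 39) (nat_lit 4) (nat_lit 37) (nat_lit 4) (nat_lit 396) (nat_lit 319) (nat_lit 305)) (XT.lf (nat_lit 0) (nat_lit 8626855650) (nat_lit 152) (nat_lit 9018806599) (nat_lit 152) (nat_lit 1681070902) (nat_lit 35) (nat_lit 4) (nat_lit 37) (nat_lit 5) (nat_lit 37) (nat_lit 4) (nat_lit 397) (nat_lit 319) (nat_lit 304)))) (XT.nd (nat_lit 78) (nat_lit 228) (nat_lit 0) (XT.lf (nat_lit 0) (nat_lit 6972562665) (nat_lit 76) (nat_lit 236379740)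 (nat_lit 152) (nat_lit 12795118788) (nat_lit 33) (nat_lit 5) (nat_lit 34) (nat_lit 5) (nat_lit 35) (nat_lit 4) (nat_lit 398) (nat_lit 319) (nat_lit 303)) (XT.nd (nat_lit 78) (nat_lit 152) (nat_lit 0) (XT.lf (nat_lit 0) (nat_lit 4596192323) (nat_lit 76) (nat_lit 11928001384) (nat_lit 76) (nat_lit 4190114503) (nat_lit 32) (nat_lit 4) (nat_lit 33) (nat_lit 5) (nat_lit 33) (nat_lit 4) (nat_lit 399) (nat_lit 319) (nat_lit 302)) (XT.lf (nat_lit 0) (nat_lit 1478645746) (nat_lit 76) (nat_lit 3202005832) (nat_lit 152) (nat_lit 16780132786) (nat_lit 30) (nat_lit 5) (nat_lit 31) (nat_lit 5) (nat_lit 32) (nat_lit 4) (nat_lit 400) (nat_lit 319) (nat_lit 301)))))) (XT.nd (nat_lit 468) (nat_lit 456) (nat_lit 0) (XT.nd (nat_lit 234) (nat_lit 228) (nat_lit 0) (XT.nd (nat_lit 78) (nat_lit 228) (nat_lit 0) (XT.lf (nat_lit 0) (nat_lit 13916716469) (nat_lit 152) (nat_lit 2462762986) (nat_lit 0) (nat_lit 5863622726)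 (nat_lit 30) (nat_lit 5) (nat_lit 32) (nat_lit 4) (nat_lit 30) (nat_lit 4) (nat_lit 401) (nat_lit 319) (nat_lit 300)) (XT.nd (nat_lit 78) (nat_lit 76) (nat_lit 0) (XT.lf (nat_lit 0) (nat_lit 516515389) (nat_lit 152) (nat_lit 7255709063) (nat_lit 76) (nat_lit 15292850685) (nat_lit 28) (nat_lit 5) (nat_lit 30) (nat_lit 5) (nat_lit 29) (nat_lit 4) (nat_lit 402) (nat_lit 319) (nat_lit 299)) (XT.lf (nat_lit 0) (nat_lit 9570734661) (nat_lit 152) (nat_lit 13080556509) (nat_lit 0) (nat_lit 1276154329) (nat_lit 27) (nat_lit 5) (nat_lit 29) (nat_lit 4) (nat_lit 27) (nat_lit 4) (nat_lit 403) (nat_lit 319) (nat_lit 298)))) (XT.nd (nat_lit 78) (nat_lit 152) (nat_lit 0) (XT.lf (nat_lit 0) (nat_lit 4810099553) (nat_lit 76) (nat_lit 14269267367) (nat_lit 76) (nat_lit 5753528978) (nat_lit 26) (nat_lit 4) (nat_lit 27) (nat_lit 5) (nat_lit 27) (nat_lit 4) (nat_lit 404) (nat_lit 319) (nat_lit 297)) (XT.nd (nat_lit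 78) (nat_lit 76) (nat_lit 0) (XT.lf (nat_lit 0) (nat_lit 3157365020) (nat_lit 152) (nat_lit 2316914117) (nat_lit 76) (nat_lit 20310158867) (nat_lit 25) (nat_lit 5) (nat_lit 27) (nat_lit 5) (nat_lit 26) (nat_lit 4) (nat_lit 405) (nat_lit 319) (nat_lit 296)) (XT.lf (nat_lit 0) (nat_lit 12402869876) (nat_lit 152) (nat_lit 10642831219) (nat_lit 0) (nat_lit 3735916491) (nat_lit 24) (nat_lit 5) (nat_lit 26) (nat_lit 4) (nat_lit 24) (nat_lit 4) (nat_lit 406) (nat_lit 319) (nat_lit 295))))) (XT.nd (nat_lit 234) (nat_lit 228) (nat_lit 0) (XT.nd (nat_lit 78) (nat_lit 152) (nat_lit 0) (XT.lf (nat_lit 0) (nat_lit 7479240542) (nat_lit 76) (nat_lit 14601380326) (nat_lit 76) (nat_lit 5748946704) (nat_lit 23) (nat_lit 4) (nat_lit 24) (nat_lit 5) (nat_lit 24) (nat_lit 4) (nat_lit 407) (nat_lit 319) (nat_lit 294)) (XT.nd (nat_lit 78) (nat_lit 76) (nat_lit 0) (XT.lf (nat_lit 0) (nat_lit 3180709749) (nat_lit 152)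 (nat_lit 2572240674) (nat_lit 76) (nat_lit 23178029146) (nat_lit 22) (nat_lit 5) (nat_lit 24) (nat_lit 5) (nat_lit 23) (nat_lit 4) (nat_lit 408) (nat_lit 319) (nat_lit 293)) (XT.lf (nat_lit 0) (nat_lit 12458497692) (nat_lit 152) (nat_lit 14097586571) (nat_lit 0) (nat_lit 3529063217) (nat_lit 21) (nat_lit 5) (nat_lit 23) (nat_lit 4) (nat_lit 21) (nat_lit 4) (nat_lit 409) (nat_lit 319) (nat_lit 292)))) (XT.nd (nat_lit 78) (nat_lit 152) (nat_lit 0) (XT.lf (nat_lit 0) (nat_lit 3930940847) (nat_lit 76) (nat_lit 18226187857) (nat_lit 76) (nat_lit 9141195320) (nat_lit 20) (nat_lit 4) (nat_lit 21) (nat_lit 5) (nat_lit 21) (nat_lit 4) (nat_lit 410) (nat_lit 319) (nat_lit 291)) (XT.nd (nat_lit 78) (nat_lit 152) (nat_lit 0) (XT.lf (nat_lit 0) (nat_lit 22844361153) (nat_lit 76) (nat_lit 9480709185) (nat_lit 76) (nat_lit 247566114) (nat_lit 20) (nat_lit 4) (nat_lit 21) (nat_lit 5) (nat_lit 21) (nat_lit 4)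 (nat_lit 411) (nat_lit 319) (nat_lit 290)) (XT.lf (nat_lit 0) (nat_lit 8573297416) (nat_lit 76) (nat_lit 267853438) (nat_lit 152) (nat_lit 25069065881) (nat_lit 18) (nat_lit 5) (nat_lit 19) (nat_lit 5) (nat_lit 20) (nat_lit 4) (nat_lit 412) (nat_lit 319) (nat_lit 289))))))) (XT.nd (nat_lit 936) (nat_lit 380) (nat_lit 0) (XT.nd (nat_lit 468) (nat_lit 228) (nat_lit 0) (XT.nd (nat_lit 234) (nat_lit 152) (nat_lit 0) (XT.nd (nat_lit 78) (nat_lit 152) (nat_lit 0) (XT.lf (nat_lit 0) (nat_lit 18419381030) (nat_lit 152) (nat_lit 7706307684) (nat_lit 0) (nat_lit 9187715283) (nat_lit 18) (nat_lit 5) (nat_lit 20) (nat_lit 4) (nat_lit 18) (nat_lit 4) (nat_lit 413) (nat_lit 319) (nat_lit 288)) (XT.nd (nat_lit 78) (nat_lit 76) (nat_lit 0) (XT.lf (nat_lit 0) (nat_lit 10732587223) (nat_lit 76) (nat_lit 17705618111) (nat_lit 76) (nat_lit 8349701877) (nat_lit 17) (nat_lit 4) (nat_lit 18) (nat_lit 5) (nat_lit 18)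 (nat_lit 4) (nat_lit 414) (nat_lit 319) (nat_lit 287)) (XT.lf (nat_lit 0) (nat_lit 548486900) (nat_lit 152) (nat_lit 8360821624) (nat_lit 76) (nat_lit 29428490698) (nat_lit 16) (nat_lit 5) (nat_lit 18) (nat_lit 5) (nat_lit 17) (nat_lit 4) (nat_lit 415) (nat_lit 319) (nat_lit 286)))) (XT.nd (nat_lit 78) (nat_lit 76) (nat_lit 0) (XT.lf (nat_lit 0) (nat_lit 9686407772) (nat_lit 152) (nat_lit 29898588550) (nat_lit 0) (nat_lit 378690407) (nat_lit 15) (nat_lit 5) (nat_lit 17) (nat_lit 4) (nat_lit 15) (nat_lit 4) (nat_lit 416) (nat_lit 319) (nat_lit 285)) (XT.nd (nat_lit 78) (nat_lit 76) (nat_lit 0) (XT.lf (nat_lit 0) (nat_lit 19326247167) (nat_lit 152) (nat_lit 12428952957) (nat_lit 0) (nat_lit 9914323741) (nat_lit 15) (nat_lit 5) (nat_lit 17) (nat_lit 4) (nat_lit 15) (nat_lit 4) (nat_lit 417) (nat_lit 319) (nat_lit 284)) (XT.lf (nat_lit 0) (nat_lit 5782311513) (nat_lit 76) (nat_lit 23595806549) (nat_lit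 76) (nat_lit 14084639255) (nat_lit 14) (nat_lit 4) (nat_lit 15) (nat_lit 5) (nat_lit 15) (nat_lit 4) (nat_lit 418) (nat_lit 319) (nat_lit 283))))) (XT.nd (nat_lit 234) (nat_lit 76) (nat_lit 0) (XT.nd (nat_lit 78) (nat_lit 152) (nat_lit 0) (XT.lf (nat_lit 0) (nat_lit 24926195035) (nat_lit 76) (nat_lit 15012482596) (nat_lit 76) (nat_lit 5406797334) (nat_lit 14) (nat_lit 4) (nat_lit 15) (nat_lit 5) (nat_lit 15) (nat_lit 4) (nat_lit 419) (nat_lit 319) (nat_lit 282)) (XT.nd (nat_lit 78) (nat_lit 76) (nat_lit 0) (XT.lf (nat_lit 0) (nat_lit 3515438422) (nat_lit 152) (nat_lit 2559362377) (nat_lit 76) (nat_lit 41249980292) (nat_lit 13) (nat_lit 5) (nat_lit 15) (nat_lit 5) (nat_lit 14) (nat_lit 4) (nat_lit 420) (nat_lit 319) (nat_lit 281)) (XT.lf (nat_lit 0) (nat_lit 12850354530) (nat_lit 152) (nat_lit 33194927390) (nat_lit 0) (nat_lit 3353817676) (nat_lit 12) (nat_lit 5) (nat_lit 14) (nat_lit 4) (nat_lit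 12) (nat_lit 4) (nat_lit 421) (nat_lit 319) (nat_lit 280)))) (XT.nd (nat_lit 78) (nat_lit 76) (nat_lit 0) (XT.lf (nat_lit 0) (nat_lit 22630606954) (nat_lit 152) (nat_lit 15892373840) (nat_lit 0) (nat_lit 13054800027) (nat_lit 12) (nat_lit 5) (nat_lit 14) (nat_lit 4) (nat_lit 12) (nat_lit 4) (nat_lit 422) (nat_lit 319) (nat_lit 279)) (XT.nd (nat_lit 78) (nat_lit 0) (nat_lit 0) (XT.lf (nat_lit 0) (nat_lit 2112898039) (nat_lit 76) (nat_lit 30703159515) (nat_lit 76) (nat_lit 21051857280) (nat_lit 11) (nat_lit 4) (nat_lit 12) (nat_lit 5) (nat_lit 12) (nat_lit 4) (nat_lit 423) (nat_lit 319) (nat_lit 278)) (XT.lf (nat_lit 0) (nat_lit 21152735073) (nat_lit 76) (nat_lit 22420575597) (nat_lit 76) (nat_lit 12697373069) (nat_lit 11) (nat_lit 4) (nat_lit 12) (nat_lit 5) (nat_lit 12) (nat_lit 4) (nat_lit 424) (nat_lit 319) (nat_lit 277)))))) (XT.nd (nat_lit 468) (nat_lit 152) (nat_lit 0) (XT.nd (nat_lit 234)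 (nat_lit 76) (nat_lit 0) (XT.nd (nat_lit 78) (nat_lit 152) (nat_lit 0) (XT.lf (nat_lit 0) (nat_lit 40956180805) (nat_lit 76) (nat_lit 13815990417) (nat_lit 76) (nat_lit 4024311420) (nat_lit 11) (nat_lit 4) (nat_lit 12) (nat_lit 5) (nat_lit 12) (nat_lit 4) (nat_lit 425) (nat_lit 319) (nat_lit 276)) (XT.nd (nat_lit 78) (nat_lit 0) (nat_lit 0) (XT.lf (nat_lit 0) (nat_lit 72528751) (nat_lit 76) (nat_lit 4818812841) (nat_lit 152) (nat_lit 56558524415) (nat_lit 9) (nat_lit 5) (nat_lit 10) (nat_lit 5) (nat_lit 11) (nat_lit 4) (nat_lit 426) (nat_lit 319) (nat_lit 275)) (XT.lf (nat_lit 0) (nat_lit 14309584604) (nat_lit 152) (nat_lit 45241458139) (nat_lit 0) (nat_lit 4679482799) (nat_lit 9) (nat_lit 5) (nat_lit 11) (nat_lit 4) (nat_lit 9) (nat_lit 4) (nat_lit 427) (nat_lit 319) (nat_lit 274)))) (XT.nd (nat_lit 78) (nat_lit 76) (nat_lit 0) (XT.lf (nat_lit 0) (nat_lit 24161000829) (nat_lit 152) (nat_lit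 28516883296) (nat_lit 0) (nat_lit 14473469365) (nat_lit 9) (nat_lit 5) (nat_lit 11) (nat_lit 4) (nat_lit 9) (nat_lit 4) (nat_lit 428) (nat_lit 319) (nat_lit 273)) (XT.nd (nat_lit 78) (nat_lit 76) (nat_lit 0) (XT.lf (nat_lit 0) (nat_lit 34422724644) (nat_lit 152) (nat_lit 11117470933) (nat_lit 0) (nat_lit 24680498266) (nat_lit 9) (nat_lit 5) (nat_lit 11) (nat_lit 4) (nat_lit 9) (nat_lit 4) (nat_lit 429) (nat_lit 319) (nat_lit 272)) (XT.lf (nat_lit 0) (nat_lit 7137484144) (nat_lit 76) (nat_lit 38050314443) (nat_lit 76) (nat_lit 28255997671) (nat_lit 8) (nat_lit 4) (nat_lit 9) (nat_lit 5) (nat_lit 9) (nat_lit 4) (nat_lit 430) (nat_lit 319) (nat_lit 271))))) (XT.nd (nat_lit 234) (nat_lit 152) (nat_lit 0) (XT.nd (nat_lit 78) (nat_lit 0) (nat_lit 0) (XT.lf (nat_lit 0) (nat_lit 26388209444) (nat_lit 76) (nat_lit 30141311009) (nat_lit 76) (nat_lit 20297384338) (nat_lit 8) (nat_lit 4) (nat_lit 9) (nat_lit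 5) (nat_lit 9) (nat_lit 4) (nat_lit 431) (nat_lit 319) (nat_lit 270)) (XT.nd (nat_lit 78) (nat_lit 0) (nat_lit 0) (XT.lf (nat_lit 0) (nat_lit 46459280554) (nat_lit 76) (nat_lit 21906618971) (nat_lit 76) (nat_lit 12015444778) (nat_lit 8) (nat_lit 4) (nat_lit 9) (nat_lit 5) (nat_lit 9) (nat_lit 4) (nat_lit 432) (nat_lit 319) (nat_lit 269)) (XT.lf (nat_lit 0) (nat_lit 67398485739) (nat_lit 76) (nat_lit 13326631921) (nat_lit 76) (nat_lit 3390460087) (nat_lit 8) (nat_lit 4) (nat_lit 9) (nat_lit 5) (nat_lit 9) (nat_lit 4) (nat_lit 433) (nat_lit 319) (nat_lit 268)))) (XT.nd (nat_lit 156) (nat_lit 0) (nat_lit 0) (XT.nd (nat_lit 78) (nat_lit 0) (nat_lit 0) (XT.lf (nat_lit 0) (nat_lit 1186525056) (nat_lit 76) (nat_lit 4313746759) (nat_lit 152) (nat_lit 82536267801) (nat_lit 6) (nat_lit 5) (nat_lit 7) (nat_lit 5) (nat_lit 8) (nat_lit 4) (nat_lit 434) (nat_lit 319) (nat_lit 267)) (XT.lf (nat_lit 0) (nat_lit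 14924364067) (nat_lit 152) (nat_lit 72027049209) (nat_lit 0) (nat_lit 5196363178) (nat_lit 6) (nat_lit 5) (nat_lit 8) (nat_lit 4) (nat_lit 6) (nat_lit 4) (nat_lit 435) (nat_lit 319) (nat_lit 266))) (XT.nd (nat_lit 78) (nat_lit 0) (nat_lit 0) (XT.lf (nat_lit 0) (nat_lit 24801293417) (nat_lit 152) (nat_lit 56628280861) (nat_lit 0) (nat_lit 15035554029) (nat_lit 6) (nat_lit 5) (nat_lit 8) (nat_lit 4) (nat_lit 6) (nat_lit 4) (nat_lit 436) (nat_lit 319) (nat_lit 265)) (XT.lf (nat_lit 0) (nat_lit 35113109991) (nat_lit 152) (nat_lit 40575579408) (nat_lit 0) (nat_lit 25311429175) (nat_lit 6) (nat_lit 5) (nat_lit 8) (nat_lit 4) (nat_lit 6) (nat_lit 4) (nat_lit 437) (nat_lit 319) (nat_lit 264))))))))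
noncomputable def xc17 : XT := (XT.nd (nat_lit 1872) (nat_lit 1368) (nat_lit 0) (XT.nd (nat_lit 936) (nat_lit 1520) (nat_lit 0) (XT.nd (nat_lit 468) (nat_lit 1140) (nat_lit 0) (XT.nd (nat_lit 234) (nat_lit 760) (nat_lit 0) (XT.nd (nat_lit 78) (nat_lit 456) (nat_lit 0) (XT.lf (nat_lit 0) (nat_lit 158829375) (nat_lit 228) (nat_lit 5506564848) (nat_lit 0) (nat_lit 158829375) (nat_lit 78) (nat_lit 5) (nat_lit 81) (nat_lit 4) (nat_lit 78) (nat_lit 4) (nat_lit 380) (nat_lit 320) (nat_lit 320)) (XT.nd (nat_lit 78) (nat_lit 228) (nat_lit 0) (XT.lf (nat_lit 0) (nat_lit 4425310858) (nat_lit 228) (nat_lit 4223917385) (nat_lit 228) (nat_lit 3301528542) (nat_lit 75) (nat_lit 4) (nat_lit 78) (nat_lit 5) (nat_lit 78) (nat_lit 4) (nat_lit 381) (nat_lit 320) (nat_lit 319)) (XT.lf (nat_lit 0) (nat_lit 4954889302) (nat_lit 228) (nat_lit 4107601435) (nat_lit 0) (nat_lit 3206486965) (nat_lit 72) (nat_lit 5) (nat_lit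 75) (nat_lit 4) (nat_lit 72) (nat_lit 4) (nat_lit 382) (nat_lit 320) (nat_lit 318)))) (XT.nd (nat_lit 78) (nat_lit 532) (nat_lit 0) (XT.lf (nat_lit 0) (nat_lit 878227851) (nat_lit 228) (nat_lit 777865692) (nat_lit 76) (nat_lit 10947511699) (nat_lit 69) (nat_lit 5) (nat_lit 72) (nat_lit 5) (nat_lit 70) (nat_lit 4) (nat_lit 383) (nat_lit 320) (nat_lit 317)) (XT.nd (nat_lit 78) (nat_lit 228) (nat_lit 0) (XT.lf (nat_lit 0) (nat_lit 2447425476) (nat_lit 152) (nat_lit 6871425380) (nat_lit 152) (nat_lit 3634284800) (nat_lit 65) (nat_lit 4) (nat_lit 67) (nat_lit 5) (nat_lit 67) (nat_lit 4) (nat_lit 384) (nat_lit 320) (nat_lit 316)) (XT.lf (nat_lit 0) (nat_lit 4706867540) (nat_lit 228) (nat_lit 7744145699) (nat_lit 0) (nat_lit 869555911) (nat_lit 62) (nat_lit 5) (nat_lit 65) (nat_lit 4) (nat_lit 62) (nat_lit 4) (nat_lit 385) (nat_lit 320) (nat_lit 315))))) (XT.nd (nat_lit 234) (nat_lit 532) (nat_lit 0)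 (XT.nd (nat_lit 78) (nat_lit 456) (nat_lit 0) (XT.lf (nat_lit 0) (nat_lit 8539593099) (nat_lit 152) (nat_lit 4832486683) (nat_lit 152) (nat_lit 333787723) (nat_lit 60) (nat_lit 4) (nat_lit 62) (nat_lit 5) (nat_lit 62) (nat_lit 4) (nat_lit 386) (nat_lit 320) (nat_lit 314)) (XT.nd (nat_lit 78) (nat_lit 228) (nat_lit 0) (XT.lf (nat_lit 0) (nat_lit 8144270951) (nat_lit 228) (nat_lit 2800309433) (nat_lit 0) (nat_lit 3165055750) (nat_lit 57) (nat_lit 5) (nat_lit 60) (nat_lit 4) (nat_lit 57) (nat_lit 4) (nat_lit 387) (nat_lit 320) (nat_lit 313)) (XT.lf (nat_lit 0) (nat_lit 2426106628) (nat_lit 228) (nat_lit 636643798) (nat_lit 76) (nat_lit 11470978083) (nat_lit 54) (nat_lit 5) (nat_lit 57) (nat_lit 5) (nat_lit 55) (nat_lit 4) (nat_lit 388) (nat_lit 320) (nat_lit 312)))) (XT.nd (nat_lit 78) (nat_lit 304) (nat_lit 0) (XT.lf (nat_lit 0) (nat_lit 1288798488) (nat_lit 152) (nat_lit 9813507589) (nat_lit 152)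 (nat_lit 3875322363) (nat_lit 51) (nat_lit 4) (nat_lit 53) (nat_lit 5) (nat_lit 53) (nat_lit 4) (nat_lit 389) (nat_lit 320) (nat_lit 311)) (XT.nd (nat_lit 78) (nat_lit 152) (nat_lit 0) (XT.lf (nat_lit 0) (nat_lit 2962179367) (nat_lit 76) (nat_lit 1674891857) (nat_lit 152) (nat_lit 10806459365) (nat_lit 49) (nat_lit 5) (nat_lit 50) (nat_lit 5) (nat_lit 51) (nat_lit 4) (nat_lit 390) (nat_lit 320) (nat_lit 310)) (XT.lf (nat_lit 0) (nat_lit 4308892664) (nat_lit 152) (nat_lit 9180153547) (nat_lit 152) (nat_lit 2442734246) (nat_lit 47) (nat_lit 4) (nat_lit 49) (nat_lit 5) (nat_lit 49) (nat_lit 4) (nat_lit 391) (nat_lit 320) (nat_lit 309)))))) (XT.nd (nat_lit 468) (nat_lit 608) (nat_lit 0) (XT.nd (nat_lit 234) (nat_lit 456) (nat_lit 0) (XT.nd (nat_lit 78) (nat_lit 304) (nat_lit 0) (XT.lf (nat_lit 0) (nat_lit 5320162157) (nat_lit 76) (nat_lit 842024099) (nat_lit 152) (nat_lit 10282052147) (nat_lit 45)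 (nat_lit 5) (nat_lit 46) (nat_lit 5) (nat_lit 47) (nat_lit 4) (nat_lit 392) (nat_lit 320) (nat_lit 308)) (XT.nd (nat_lit 78) (nat_lit 152) (nat_lit 0) (XT.lf (nat_lit 0) (nat_lit 5932905775) (nat_lit 152) (nat_lit 9222874601) (nat_lit 152) (nat_lit 1825568650) (nat_lit 43) (nat_lit 4) (nat_lit 45) (nat_lit 5) (nat_lit 45) (nat_lit 4) (nat_lit 393) (nat_lit 320) (nat_lit 307)) (XT.lf (nat_lit 0) (nat_lit 6128232988) (nat_lit 76) (nat_lit 730522092) (nat_lit 152) (nat_lit 10686268125) (nat_lit 41) (nat_lit 5) (nat_lit 42) (nat_lit 5) (nat_lit 43) (nat_lit 4) (nat_lit 394) (nat_lit 320) (nat_lit 306)))) (XT.nd (nat_lit 78) (nat_lit 304) (nat_lit 0) (XT.lf (nat_lit 0) (nat_lit 5837325082) (nat_lit 152) (nat_lit 10117173531) (nat_lit 152) (nat_lit 2181412375) (nat_lit 39) (nat_lit 4) (nat_lit 41) (nat_lit 5) (nat_lit 41) (nat_lit 4) (nat_lit 395) (nat_lit 320) (nat_lit 305)) (XT.nd (nat_lit 78) (nat_lit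 152) (nat_lit 0) (XT.lf (nat_lit 0) (nat_lit 5033218162) (nat_lit 76) (nat_lit 1527977995) (nat_lit 152) (nat_lit 12194894137) (nat_lit 37) (nat_lit 5) (nat_lit 38) (nat_lit 5) (nat_lit 39) (nat_lit 4) (nat_lit 396) (nat_lit 320) (nat_lit 304)) (XT.lf (nat_lit 0) (nat_lit 3636867267) (nat_lit 152) (nat_lit 12069002476) (nat_lit 152) (nat_lit 3700477814) (nat_lit 35) (nat_lit 4) (nat_lit 37) (nat_lit 5) (nat_lit 37) (nat_lit 4) (nat_lit 397) (nat_lit 320) (nat_lit 303))))) (XT.nd (nat_lit 234) (nat_lit 304) (nat_lit 0) (XT.nd (nat_lit 78) (nat_lit 152) (nat_lit 0) (XT.lf (nat_lit 0) (nat_lit 1614789955) (nat_lit 76) (nat_lit 3455036490) (nat_lit 152) (nat_lit 15019213265) (nat_lit 33) (nat_lit 5) (nat_lit 34) (nat_lit 5) (nat_lit 35) (nat_lit 4) (nat_lit 398) (nat_lit 320) (nat_lit 302)) (XT.nd (nat_lit 78) (nat_lit 152) (nat_lit 0) (XT.lf (nat_lit 0) (nat_lit 14204680245) (nat_lit 152) (nat_lit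 1104766959) (nat_lit 0) (nat_lit 5495259362) (nat_lit 33) (nat_lit 5) (nat_lit 35) (nat_lit 4) (nat_lit 33) (nat_lit 4) (nat_lit 399) (nat_lit 320) (nat_lit 301)) (XT.lf (nat_lit 0) (nat_lit 2189469753) (nat_lit 152) (nat_lit 4536406881) (nat_lit 76) (nat_lit 14829857252) (nat_lit 31) (nat_lit 5) (nat_lit 33) (nat_lit 5) (nat_lit 32) (nat_lit 4) (nat_lit 400) (nat_lit 320) (nat_lit 300)))) (XT.nd (nat_lit 78) (nat_lit 228) (nat_lit 0) (XT.lf (nat_lit 0) (nat_lit 11245819025) (nat_lit 152) (nat_lit 8822400719) (nat_lit 0) (nat_lit 2275230397) (nat_lit 30) (nat_lit 5) (nat_lit 32) (nat_lit 4) (nat_lit 30) (nat_lit 4) (nat_lit 401) (nat_lit 320) (nat_lit 299)) (XT.nd (nat_lit 78) (nat_lit 152) (nat_lit 0) (XT.lf (nat_lit 0) (nat_lit 9141556130) (nat_lit 76) (nat_lit 11619302287) (nat_lit 76) (nat_lit 2409531220) (nat_lit 29) (nat_lit 4) (nat_lit 30) (nat_lit 5) (nat_lit 30) (nat_lit 4) (nat_lit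 402) (nat_lit 320) (nat_lit 298)) (XT.lf (nat_lit 0) (nat_lit 3792093975) (nat_lit 76) (nat_lit 2724978852) (nat_lit 152) (nat_lit 17521627181) (nat_lit 27) (nat_lit 5) (nat_lit 28) (nat_lit 5) (nat_lit 29) (nat_lit 4) (nat_lit 403) (nat_lit 320) (nat_lit 297))))))) (XT.nd (nat_lit 936) (nat_lit 608) (nat_lit 0) (XT.nd (nat_lit 468) (nat_lit 304) (nat_lit 0) (XT.nd (nat_lit 234) (nat_lit 228) (nat_lit 0) (XT.nd (nat_lit 78) (nat_lit 228) (nat_lit 0) (XT.lf (nat_lit 0) (nat_lit 15861095288) (nat_lit 152) (nat_lit 2600214055) (nat_lit 0) (nat_lit 6487785203) (nat_lit 27) (nat_lit 5) (nat_lit 29) (nat_lit 4) (nat_lit 27) (nat_lit 4) (nat_lit 404) (nat_lit 320) (nat_lit 296)) (XT.nd (nat_lit 78) (nat_lit 152) (nat_lit 0) (XT.lf (nat_lit 0) (nat_lit 15865810320) (nat_lit 76) (nat_lit 9806557695) (nat_lit 76) (nat_lit 232650733) (nat_lit 26) (nat_lit 4) (nat_lit 27) (nat_lit 5) (nat_lit 27) (nat_lit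 4) (nat_lit 405) (nat_lit 320) (nat_lit 295)) (XT.lf (nat_lit 0) (nat_lit 8134441333) (nat_lit 76) (nat_lit 682993612) (nat_lit 152) (nat_lit 18090834395) (nat_lit 24) (nat_lit 5) (nat_lit 25) (nat_lit 5) (nat_lit 26) (nat_lit 4) (nat_lit 406) (nat_lit 320) (nat_lit 294)))) (XT.nd (nat_lit 78) (nat_lit 228) (nat_lit 0) (XT.lf (nat_lit 0) (nat_lit 18332514588) (nat_lit 152) (nat_lit 953258578) (nat_lit 0) (nat_lit 8675331202) (nat_lit 24) (nat_lit 5) (nat_lit 26) (nat_lit 4) (nat_lit 24) (nat_lit 4) (nat_lit 407) (nat_lit 320) (nat_lit 293)) (XT.nd (nat_lit 78) (nat_lit 152) (nat_lit 0) (XT.lf (nat_lit 0) (nat_lit 17781913386) (nat_lit 76) (nat_lit 10554847195) (nat_lit 76) (nat_lit 729427766) (nat_lit 23) (nat_lit 4) (nat_lit 24) (nat_lit 5) (nat_lit 24) (nat_lit 4) (nat_lit 408) (nat_lit 320) (nat_lit 292)) (XT.lf (nat_lit 0) (nat_lit 6990368477) (nat_lit 76) (nat_lit 1372199359) (nat_lit 152)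 (nat_lit 21864003872) (nat_lit 21) (nat_lit 5) (nat_lit 22) (nat_lit 5) (nat_lit 23) (nat_lit 4) (nat_lit 409) (nat_lit 320) (nat_lit 291))))) (XT.nd (nat_lit 234) (nat_lit 152) (nat_lit 0) (XT.nd (nat_lit 78) (nat_lit 152) (nat_lit 0) (XT.lf (nat_lit 0) (nat_lit 17933269451) (nat_lit 152) (nat_lit 5420002101) (nat_lit 0) (nat_lit 8090318692) (nat_lit 21) (nat_lit 5) (nat_lit 23) (nat_lit 4) (nat_lit 21) (nat_lit 4) (nat_lit 410) (nat_lit 320) (nat_lit 290)) (XT.nd (nat_lit 78) (nat_lit 76) (nat_lit 0) (XT.lf (nat_lit 0) (nat_lit 13241005246) (nat_lit 76) (nat_lit 14732391144) (nat_lit 76) (nat_lit 4748344638) (nat_lit 20) (nat_lit 4) (nat_lit 21) (nat_lit 5) (nat_lit 21) (nat_lit 4) (nat_lit 411) (nat_lit 320) (nat_lit 289)) (XT.lf (nat_lit 0) (nat_lit 4273957771) (nat_lit 152) (nat_lit 1442289131) (nat_lit 76) (nat_lit 28349003185) (nat_lit 19) (nat_lit 5) (nat_lit 21) (nat_lit 5) (nat_lit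 20) (nat_lit 4) (nat_lit 412) (nat_lit 320) (nat_lit 288)))) (XT.nd (nat_lit 78) (nat_lit 76) (nat_lit 0) (XT.lf (nat_lit 0) (nat_lit 13715198428) (nat_lit 152) (nat_lit 17990116162) (nat_lit 0) (nat_lit 3767235894) (nat_lit 18) (nat_lit 5) (nat_lit 20) (nat_lit 4) (nat_lit 18) (nat_lit 4) (nat_lit 413) (nat_lit 320) (nat_lit 287)) (XT.nd (nat_lit 78) (nat_lit 0) (nat_lit 0) (XT.lf (nat_lit 0) (nat_lit 111452353) (nat_lit 76) (nat_lit 23453486734) (nat_lit 76) (nat_lit 13387190403) (nat_lit 17) (nat_lit 4) (nat_lit 18) (nat_lit 5) (nat_lit 18) (nat_lit 4) (nat_lit 414) (nat_lit 320) (nat_lit 286)) (XT.lf (nat_lit 0) (nat_lit 19235040000) (nat_lit 76) (nat_lit 14724045738) (nat_lit 76) (nat_lit 4545050553) (nat_lit 17) (nat_lit 4) (nat_lit 18) (nat_lit 5) (nat_lit 18) (nat_lit 4) (nat_lit 415) (nat_lit 320) (nat_lit 285)))))) (XT.nd (nat_lit 468) (nat_lit 228) (nat_lit 0) (XT.nd (nat_lit 234)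 (nat_lit 228) (nat_lit 0) (XT.nd (nat_lit 78) (nat_lit 76) (nat_lit 0) (XT.lf (nat_lit 0) (nat_lit 4518527749) (nat_lit 152) (nat_lit 1113716097) (nat_lit 76) (nat_lit 34503984525) (nat_lit 16) (nat_lit 5) (nat_lit 18) (nat_lit 5) (nat_lit 17) (nat_lit 4) (nat_lit 416) (nat_lit 320) (nat_lit 284)) (XT.nd (nat_lit 78) (nat_lit 0) (nat_lit 0) (XT.lf (nat_lit 0) (nat_lit 14031958905) (nat_lit 152) (nat_lit 23867912223) (nat_lit 0) (nat_lit 3945989379) (nat_lit 15) (nat_lit 5) (nat_lit 17) (nat_lit 4) (nat_lit 15) (nat_lit 4) (nat_lit 417) (nat_lit 320) (nat_lit 283)) (XT.lf (nat_lit 0) (nat_lit 23969922139) (nat_lit 152) (nat_lit 5883157029) (nat_lit 0) (nat_lit 13789434644) (nat_lit 15) (nat_lit 5) (nat_lit 17) (nat_lit 4) (nat_lit 15) (nat_lit 4) (nat_lit 418) (nat_lit 320) (nat_lit 282)))) (XT.nd (nat_lit 78) (nat_lit 152) (nat_lit 0) (XT.lf (nat_lit 0) (nat_lit 13033223066) (nat_lit 76) (nat_lit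 21382972049) (nat_lit 76) (nat_lit 11112467441) (nat_lit 14) (nat_lit 4) (nat_lit 15) (nat_lit 5) (nat_lit 15) (nat_lit 4) (nat_lit 419) (nat_lit 320) (nat_lit 281)) (XT.nd (nat_lit 78) (nat_lit 152) (nat_lit 0) (XT.lf (nat_lit 0) (nat_lit 32802786670) (nat_lit 76) (nat_lit 12532035461) (nat_lit 76) (nat_lit 2175800270) (nat_lit 14) (nat_lit 4) (nat_lit 15) (nat_lit 5) (nat_lit 15) (nat_lit 4) (nat_lit 420) (nat_lit 320) (nat_lit 280)) (XT.lf (nat_lit 0) (nat_lit 3765919201) (nat_lit 76) (nat_lit 3231027876) (nat_lit 152) (nat_lit 42594762277) (nat_lit 12) (nat_lit 5) (nat_lit 13) (nat_lit 5) (nat_lit 14) (nat_lit 4) (nat_lit 421) (nat_lit 320) (nat_lit 279))))) (XT.nd (nat_lit 234) (nat_lit 152) (nat_lit 0) (XT.nd (nat_lit 78) (nat_lit 76) (nat_lit 0) (XT.lf (nat_lit 0) (nat_lit 16695348244) (nat_lit 152) (nat_lit 28591514377) (nat_lit 0) (nat_lit 6485985590) (nat_lit 12) (nat_lit 5) (nat_lit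 14) (nat_lit 4) (nat_lit 12) (nat_lit 4) (nat_lit 422) (nat_lit 320) (nat_lit 278)) (XT.nd (nat_lit 78) (nat_lit 76) (nat_lit 0) (XT.lf (nat_lit 0) (nat_lit 26812114433) (nat_lit 152) (nat_lit 10722078834) (nat_lit 0) (nat_lit 16530851486) (nat_lit 12) (nat_lit 5) (nat_lit 14) (nat_lit 4) (nat_lit 12) (nat_lit 4) (nat_lit 423) (nat_lit 320) (nat_lit 277)) (XT.lf (nat_lit 0) (nat_lit 8012473586) (nat_lit 76) (nat_lit 29404821777) (nat_lit 76) (nat_lit 19055082360) (nat_lit 11) (nat_lit 4) (nat_lit 12) (nat_lit 5) (nat_lit 12) (nat_lit 4) (nat_lit 424) (nat_lit 320) (nat_lit 276)))) (XT.nd (nat_lit 156) (nat_lit 152) (nat_lit 0) (XT.nd (nat_lit 78) (nat_lit 0) (nat_lit 0) (XT.lf (nat_lit 0) (nat_lit 27728401012) (nat_lit 76) (nat_lit 20843037030) (nat_lit 76) (nat_lit 10428081928) (nat_lit 11) (nat_lit 4) (nat_lit 12) (nat_lit 5) (nat_lit 12) (nat_lit 4) (nat_lit 425) (nat_lit 320) (nat_lit 275))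 (XT.lf (nat_lit 0) (nat_lit 48259255736) (nat_lit 76) (nat_lit 11936725798) (nat_lit 76) (nat_lit 1459660520) (nat_lit 11) (nat_lit 4) (nat_lit 12) (nat_lit 5) (nat_lit 12) (nat_lit 4) (nat_lit 426) (nat_lit 320) (nat_lit 274))) (XT.nd (nat_lit 78) (nat_lit 0) (nat_lit 0) (XT.lf (nat_lit 0) (nat_lit 5233307335) (nat_lit 76) (nat_lit 2534931660) (nat_lit 152) (nat_lit 56675049924) (nat_lit 9) (nat_lit 5) (nat_lit 10) (nat_lit 5) (nat_lit 11) (nat_lit 4) (nat_lit 427) (nat_lit 320) (nat_lit 273)) (XT.lf (nat_lit 0) (nat_lit 17555159506) (nat_lit 152) (nat_lit 42539766853) (nat_lit 0) (nat_lit 7271126896) (nat_lit 9) (nat_lit 5) (nat_lit 11) (nat_lit 4) (nat_lit 9) (nat_lit 4) (nat_lit 428) (nat_lit 320) (nat_lit 272))))))))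
noncomputable def xc18 : XT := (XT.nd (nat_lit 50310) (nat_lit 0) (nat_lit 684) (XT.nd (nat_lit 49374) (nat_lit 0) (nat_lit 2964) (XT.nd (nat_lit 468) (nat_lit 152) (nat_lit 0) (XT.nd (nat_lit 234) (nat_lit 0) (nat_lit 0) (XT.nd (nat_lit 78) (nat_lit 76) (nat_lit 0) (XT.lf (nat_lit 0) (nat_lit 27778665796) (nat_lit 152) (nat_lit 25215332991) (nat_lit 0) (nat_lit 17442542793) (nat_lit 9) (nat_lit 5) (nat_lit 11) (nat_lit 4) (nat_lit 9) (nat_lit 4) (nat_lit 429) (nat_lit 320) (nat_lit 271)) (XT.nd (nat_lit 78) (nat_lit 76) (nat_lit 0) (XT.lf (nat_lit 0) (nat_lit 38438732234) (nat_lit 152) (nat_lit 7171064032) (nat_lit 0) (nat_lit 28052999331) (nat_lit 9) (nat_lit 5) (nat_lit 11) (nat_lit 4) (nat_lit 9) (nat_lit 4) (nat_lit 430) (nat_lit 320) (nat_lit 270)) (XT.lf (nat_lit 0) (nat_lit 11867581834) (nat_lit 76) (nat_lit 37807236552) (nat_lit 76) (nat_lit 27374256126) (nat_lit 8) (nat_lit 4) (nat_lit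 9) (nat_lit 5) (nat_lit 9) (nat_lit 4) (nat_lit 431) (nat_lit 320) (nat_lit 269)))) (XT.nd (nat_lit 78) (nat_lit 0) (nat_lit 0) (XT.lf (nat_lit 0) (nat_lit 31872594661) (nat_lit 76) (nat_lit 29604954070) (nat_lit 76) (nat_lit 19126976004) (nat_lit 8) (nat_lit 4) (nat_lit 9) (nat_lit 5) (nat_lit 9) (nat_lit 4) (nat_lit 432) (nat_lit 320) (nat_lit 268)) (XT.nd (nat_lit 78) (nat_lit 0) (nat_lit 0) (XT.lf (nat_lit 0) (nat_lit 52748887196) (nat_lit 76) (nat_lit 21055833264) (nat_lit 76) (nat_lit 10535000302) (nat_lit 8) (nat_lit 4) (nat_lit 9) (nat_lit 5) (nat_lit 9) (nat_lit 4) (nat_lit 433) (nat_lit 320) (nat_lit 267)) (XT.lf (nat_lit 0) (nat_lit 74546164897) (nat_lit 76) (nat_lit 12139519083) (nat_lit 76) (nat_lit 1577871934) (nat_lit 8) (nat_lit 4) (nat_lit 9) (nat_lit 5) (nat_lit 9) (nat_lit 4) (nat_lit 434) (nat_lit 320) (nat_lit 266))))) (XT.nd (nat_lit 48672) (nat_lit 0) (nat_lit 5472) (XT.nd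 (nat_lit 78) (nat_lit 0) (nat_lit 0) (XT.lf (nat_lit 0) (nat_lit 4952954363) (nat_lit 76) (nat_lit 2708854585) (nat_lit 152) (nat_lit 84719895916) (nat_lit 6) (nat_lit 5) (nat_lit 7) (nat_lit 5) (nat_lit 8) (nat_lit 4) (nat_lit 435) (nat_lit 320) (nat_lit 265)) (XT.nd (nat_lit 78) (nat_lit 0) (nat_lit 0) (XT.lf (nat_lit 0) (nat_lit 17483938524) (nat_lit 152) (nat_lit 72060530943) (nat_lit 0) (nat_lit 7156232240) (nat_lit 6) (nat_lit 5) (nat_lit 8) (nat_lit 4) (nat_lit 6) (nat_lit 4) (nat_lit 436) (nat_lit 320) (nat_lit 264)) (XT.lf (nat_lit 0) (nat_lit 27768364044) (nat_lit 152) (nat_lit 56061722783) (nat_lit 0) (nat_lit 17406427828) (nat_lit 6) (nat_lit 5) (nat_lit 8) (nat_lit 4) (nat_lit 6) (nat_lit 4) (nat_lit 437) (nat_lit 320) (nat_lit 263)))) (XT.nd (nat_lit 78) (nat_lit 684) (nat_lit 0) (XT.lf (nat_lit 0) (nat_lit 2139349723) (nat_lit 228) (nat_lit 1700106992) (nat_lit 228) (nat_lit 1700106992)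 (nat_lit 87) (nat_lit 4) (nat_lit 90) (nat_lit 5) (nat_lit 90) (nat_lit 4) (nat_lit 378) (nat_lit 321) (nat_lit 321)) (XT.nd (nat_lit 78) (nat_lit 456) (nat_lit 0) (XT.lf (nat_lit 0) (nat_lit 4578646366) (nat_lit 228) (nat_lit 3198868558) (nat_lit 0) (nat_lit 3581082832) (nat_lit 84) (nat_lit 5) (nat_lit 87) (nat_lit 4) (nat_lit 84) (nat_lit 4) (nat_lit 379) (nat_lit 321) (nat_lit 320)) (XT.lf (nat_lit 0) (nat_lit 375707215) (nat_lit 152) (nat_lit 768790940) (nat_lit 228) (nat_lit 10508224704) (nat_lit 78) (nat_lit 5) (nat_lit 80) (nat_lit 5) (nat_lit 81) (nat_lit 4) (nat_lit 380) (nat_lit 321) (nat_lit 319)))))) (XT.nd (nat_lit 468) (nat_lit 1140) (nat_lit 0) (XT.nd (nat_lit 234) (nat_lit 684) (nat_lit 0) (XT.nd (nat_lit 78) (nat_lit 456) (nat_lit 0) (XT.lf (nat_lit 0) (nat_lit 3914566771) (nat_lit 228) (nat_lit 5407240282) (nat_lit 228) (nat_lit 2637877589) (nat_lit 75) (nat_lit 4) (nat_lit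 78) (nat_lit 5) (nat_lit 78) (nat_lit 4) (nat_lit 381) (nat_lit 321) (nat_lit 318)) (XT.nd (nat_lit 78) (nat_lit 228) (nat_lit 0) (XT.lf (nat_lit 0) (nat_lit 5446854537) (nat_lit 228) (nat_lit 4889757244) (nat_lit 0) (nat_lit 1945887000) (nat_lit 72) (nat_lit 5) (nat_lit 75) (nat_lit 4) (nat_lit 72) (nat_lit 4) (nat_lit 382) (nat_lit 321) (nat_lit 317)) (XT.lf (nat_lit 0) (nat_lit 1200446883) (nat_lit 228) (nat_lit 1837646928) (nat_lit 76) (nat_lit 9583322045) (nat_lit 69) (nat_lit 5) (nat_lit 72) (nat_lit 5) (nat_lit 70) (nat_lit 4) (nat_lit 383) (nat_lit 321) (nat_lit 316)))) (XT.nd (nat_lit 78) (nat_lit 380) (nat_lit 0) (XT.lf (nat_lit 0) (nat_lit 1095558044) (nat_lit 152) (nat_lit 8372963723) (nat_lit 152) (nat_lit 3507620797) (nat_lit 65) (nat_lit 4) (nat_lit 67) (nat_lit 5) (nat_lit 67) (nat_lit 4) (nat_lit 384) (nat_lit 321) (nat_lit 315)) (XT.nd (nat_lit 78) (nat_lit 152) (nat_lit 0)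 (XT.lf (nat_lit 0) (nat_lit 3941368703) (nat_lit 152) (nat_lit 732493651) (nat_lit 228) (nat_lit 8674411455) (nat_lit 62) (nat_lit 5) (nat_lit 64) (nat_lit 5) (nat_lit 65) (nat_lit 4) (nat_lit 385) (nat_lit 321) (nat_lit 314)) (XT.lf (nat_lit 0) (nat_lit 6614480898) (nat_lit 152) (nat_lit 6569340144) (nat_lit 152) (nat_lit 554426208) (nat_lit 60) (nat_lit 4) (nat_lit 62) (nat_lit 5) (nat_lit 62) (nat_lit 4) (nat_lit 386) (nat_lit 321) (nat_lit 313))))) (XT.nd (nat_lit 234) (nat_lit 608) (nat_lit 0) (XT.nd (nat_lit 78) (nat_lit 304) (nat_lit 0) (XT.lf (nat_lit 0) (nat_lit 7761681822) (nat_lit 228) (nat_lit 5045867028) (nat_lit 0) (nat_lit 1339534500) (nat_lit 57) (nat_lit 5) (nat_lit 60) (nat_lit 4) (nat_lit 57) (nat_lit 4) (nat_lit 387) (nat_lit 321) (nat_lit 312)) (XT.nd (nat_lit 78) (nat_lit 76) (nat_lit 0) (XT.lf (nat_lit 0) (nat_lit 1864593134) (nat_lit 228) (nat_lit 3191713787) (nat_lit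 76) (nat_lit 9519495086) (nat_lit 54) (nat_lit 5) (nat_lit 57) (nat_lit 5) (nat_lit 55) (nat_lit 4) (nat_lit 388) (nat_lit 321) (nat_lit 311)) (XT.lf (nat_lit 0) (nat_lit 10359445392) (nat_lit 152) (nat_lit 1592784774) (nat_lit 0) (nat_lit 3072926418) (nat_lit 53) (nat_lit 5) (nat_lit 55) (nat_lit 4) (nat_lit 53) (nat_lit 4) (nat_lit 389) (nat_lit 321) (nat_lit 310)))) (XT.nd (nat_lit 78) (nat_lit 380) (nat_lit 0) (XT.lf (nat_lit 0) (nat_lit 3695963608) (nat_lit 228) (nat_lit 272179509) (nat_lit 76) (nat_lit 11528140972) (nat_lit 50) (nat_lit 5) (nat_lit 53) (nat_lit 5) (nat_lit 51) (nat_lit 4) (nat_lit 390) (nat_lit 321) (nat_lit 309)) (XT.nd (nat_lit 78) (nat_lit 152) (nat_lit 0) (XT.lf (nat_lit 0) (nat_lit 749653061) (nat_lit 152) (nat_lit 11620211025) (nat_lit 152) (nat_lit 3620024639) (nat_lit 47) (nat_lit 4) (nat_lit 49) (nat_lit 5) (nat_lit 49) (nat_lit 4) (nat_lit 391) (nat_lit 321) (nat_lit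 308)) (XT.lf (nat_lit 0) (nat_lit 1422783477) (nat_lit 76) (nat_lit 3430969748) (nat_lit 152) (nat_lit 11653568015) (nat_lit 45) (nat_lit 5) (nat_lit 46) (nat_lit 5) (nat_lit 47) (nat_lit 4) (nat_lit 392) (nat_lit 321) (nat_lit 307))))))) (XT.nd (nat_lit 936) (nat_lit 912) (nat_lit 0) (XT.nd (nat_lit 468) (nat_lit 532) (nat_lit 0) (XT.nd (nat_lit 234) (nat_lit 380) (nat_lit 0) (XT.nd (nat_lit 78) (nat_lit 304) (nat_lit 0) (XT.lf (nat_lit 0) (nat_lit 1703188146) (nat_lit 152) (nat_lit 11964583853) (nat_lit 152) (nat_lit 3382058162) (nat_lit 43) (nat_lit 4) (nat_lit 45) (nat_lit 5) (nat_lit 45) (nat_lit 4) (nat_lit 393) (nat_lit 321) (nat_lit 306)) (XT.nd (nat_lit 78) (nat_lit 152) (nat_lit 0) (XT.lf (nat_lit 0) (nat_lit 1547843394) (nat_lit 76) (nat_lit 3629084315) (nat_lit 152) (nat_lit 12441707010) (nat_lit 41) (nat_lit 5) (nat_lit 42) (nat_lit 5) (nat_lit 43) (nat_lit 4) (nat_lit 394) (nat_lit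 321) (nat_lit 305)) (XT.lf (nat_lit 0) (nat_lit 910876996) (nat_lit 152) (nat_lit 13177373632) (nat_lit 152) (nat_lit 4126814211) (nat_lit 39) (nat_lit 4) (nat_lit 41) (nat_lit 5) (nat_lit 41) (nat_lit 4) (nat_lit 395) (nat_lit 321) (nat_lit 304)))) (XT.nd (nat_lit 78) (nat_lit 304) (nat_lit 0) (XT.lf (nat_lit 0) (nat_lit 4498407920) (nat_lit 228) (nat_lit 252361706) (nat_lit 76) (nat_lit 14089704964) (nat_lit 38) (nat_lit 5) (nat_lit 41) (nat_lit 5) (nat_lit 39) (nat_lit 4) (nat_lit 396) (nat_lit 321) (nat_lit 303)) (XT.nd (nat_lit 78) (nat_lit 228) (nat_lit 0) (XT.lf (nat_lit 0) (nat_lit 13470025215) (nat_lit 152) (nat_lit 1975120354) (nat_lit 0) (nat_lit 4050786530) (nat_lit 37) (nat_lit 5) (nat_lit 39) (nat_lit 4) (nat_lit 37) (nat_lit 4) (nat_lit 397) (nat_lit 321) (nat_lit 302)) (XT.lf (nat_lit 0) (nat_lit 2652208532) (nat_lit 228) (nat_lit 4329001144) (nat_lit 76) (nat_lit 13202220085)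 (nat_lit 34) (nat_lit 5) (nat_lit 37) (nat_lit 5) (nat_lit 35) (nat_lit 4) (nat_lit 398) (nat_lit 321) (nat_lit 301))))) (XT.nd (nat_lit 234) (nat_lit 228) (nat_lit 0) (XT.nd (nat_lit 78) (nat_lit 228) (nat_lit 0) (XT.lf (nat_lit 0) (nat_lit 11610041969) (nat_lit 152) (nat_lit 7386022429) (nat_lit 0) (nat_lit 1908350367) (nat_lit 33) (nat_lit 5) (nat_lit 35) (nat_lit 4) (nat_lit 33) (nat_lit 4) (nat_lit 399) (nat_lit 321) (nat_lit 300)) (XT.nd (nat_lit 78) (nat_lit 152) (nat_lit 0) (XT.lf (nat_lit 0) (nat_lit 10450655376) (nat_lit 76) (nat_lit 10585285280) (nat_lit 76) (nat_lit 624917871) (nat_lit 32) (nat_lit 4) (nat_lit 33) (nat_lit 5) (nat_lit 33) (nat_lit 4) (nat_lit 400) (nat_lit 321) (nat_lit 299)) (XT.lf (nat_lit 0) (nat_lit 6562400694) (nat_lit 76) (nat_lit 1698252514) (nat_lit 152) (nat_lit 14193597601) (nat_lit 30) (nat_lit 5) (nat_lit 31) (nat_lit 5) (nat_lit 32) (nat_lit 4) (nat_lit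 401) (nat_lit 321) (nat_lit 298)))) (XT.nd (nat_lit 78) (nat_lit 152) (nat_lit 0) (XT.lf (nat_lit 0) (nat_lit 1770137750) (nat_lit 76) (nat_lit 15826827773) (nat_lit 76) (nat_lit 5689592916) (nat_lit 29) (nat_lit 4) (nat_lit 30) (nat_lit 5) (nat_lit 30) (nat_lit 4) (nat_lit 402) (nat_lit 321) (nat_lit 297)) (XT.nd (nat_lit 78) (nat_lit 76) (nat_lit 0) (XT.lf (nat_lit 0) (nat_lit 3174866299) (nat_lit 152) (nat_lit 3909201791) (nat_lit 76) (nat_lit 17075536983) (nat_lit 28) (nat_lit 5) (nat_lit 30) (nat_lit 5) (nat_lit 29) (nat_lit 4) (nat_lit 403) (nat_lit 321) (nat_lit 296)) (XT.lf (nat_lit 0) (nat_lit 12350492972) (nat_lit 152) (nat_lit 10627270293) (nat_lit 0) (nat_lit 2097293786) (nat_lit 27) (nat_lit 5) (nat_lit 29) (nat_lit 4) (nat_lit 27) (nat_lit 4) (nat_lit 404) (nat_lit 321) (nat_lit 295)))))) (XT.nd (nat_lit 468) (nat_lit 456) (nat_lit 0) (XT.nd (nat_lit 234) (nat_lit 228) (nat_lit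 0) (XT.nd (nat_lit 78) (nat_lit 152) (nat_lit 0) (XT.lf (nat_lit 0) (nat_lit 7515634405) (nat_lit 76) (nat_lit 14482256118) (nat_lit 76) (nat_lit 4038012287) (nat_lit 26) (nat_lit 4) (nat_lit 27) (nat_lit 5) (nat_lit 27) (nat_lit 4) (nat_lit 405) (nat_lit 321) (nat_lit 294)) (XT.nd (nat_lit 78) (nat_lit 76) (nat_lit 0) (XT.lf (nat_lit 0) (nat_lit 4926205907) (nat_lit 152) (nat_lit 625993118) (nat_lit 76) (nat_lit 21492860375) (nat_lit 25) (nat_lit 5) (nat_lit 27) (nat_lit 5) (nat_lit 26) (nat_lit 4) (nat_lit 406) (nat_lit 321) (nat_lit 293)) (XT.lf (nat_lit 0) (nat_lit 14308080900) (nat_lit 152) (nat_lit 9970659881) (nat_lit 0) (nat_lit 3823154457) (nat_lit 24) (nat_lit 5) (nat_lit 26) (nat_lit 4) (nat_lit 24) (nat_lit 4) (nat_lit 407) (nat_lit 321) (nat_lit 292)))) (XT.nd (nat_lit 78) (nat_lit 152) (nat_lit 0) (XT.lf (nat_lit 0) (nat_lit 8435073254) (nat_lit 76) (nat_lit 15711024267) (nat_lit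 76) (nat_lit 5065873021) (nat_lit 23) (nat_lit 4) (nat_lit 24) (nat_lit 5) (nat_lit 24) (nat_lit 4) (nat_lit 408) (nat_lit 321) (nat_lit 291)) (XT.nd (nat_lit 78) (nat_lit 76) (nat_lit 0) (XT.lf (nat_lit 0) (nat_lit 3968690963) (nat_lit 152) (nat_lit 2741303639) (nat_lit 76) (nat_lit 23667875488) (nat_lit 22) (nat_lit 5) (nat_lit 24) (nat_lit 5) (nat_lit 23) (nat_lit 4) (nat_lit 409) (nat_lit 321) (nat_lit 290)) (XT.lf (nat_lit 0) (nat_lit 13387652835) (nat_lit 152) (nat_lit 15448483644) (nat_lit 0) (nat_lit 2763308256) (nat_lit 21) (nat_lit 5) (nat_lit 23) (nat_lit 4) (nat_lit 21) (nat_lit 4) (nat_lit 410) (nat_lit 321) (nat_lit 289))))) (XT.nd (nat_lit 234) (nat_lit 228) (nat_lit 0) (XT.nd (nat_lit 78) (nat_lit 152) (nat_lit 0) (XT.lf (nat_lit 0) (nat_lit 2875276030) (nat_lit 76) (nat_lit 20383063946) (nat_lit 76) (nat_lit 9624342466) (nat_lit 20) (nat_lit 4) (nat_lit 21) (nat_lit 5) (nat_lit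 21) (nat_lit 4) (nat_lit 411) (nat_lit 321) (nat_lit 288)) (XT.nd (nat_lit 78) (nat_lit 152) (nat_lit 0) (XT.lf (nat_lit 0) (nat_lit 22169284404) (nat_lit 76) (nat_lit 11473449608) (nat_lit 76) (nat_lit 586750126) (nat_lit 20) (nat_lit 4) (nat_lit 21) (nat_lit 5) (nat_lit 21) (nat_lit 4) (nat_lit 412) (nat_lit 321) (nat_lit 287)) (XT.lf (nat_lit 0) (nat_lit 6568327031) (nat_lit 76) (nat_lit 2090249483) (nat_lit 152) (nat_lit 26984601417) (nat_lit 18) (nat_lit 5) (nat_lit 19) (nat_lit 5) (nat_lit 20) (nat_lit 4) (nat_lit 413) (nat_lit 321) (nat_lit 286)))) (XT.nd (nat_lit 156) (nat_lit 152) (nat_lit 0) (XT.nd (nat_lit 78) (nat_lit 76) (nat_lit 0) (XT.lf (nat_lit 0) (nat_lit 18423356118) (nat_lit 152) (nat_lit 11079240460) (nat_lit 0) (nat_lit 7622712319) (nat_lit 18) (nat_lit 5) (nat_lit 20) (nat_lit 4) (nat_lit 18) (nat_lit 4) (nat_lit 414) (nat_lit 321) (nat_lit 285)) (XT.lf (nat_lit 0) (nat_lit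 7703523462) (nat_lit 76) (nat_lit 20943443663) (nat_lit 76) (nat_lit 10035467621) (nat_lit 17) (nat_lit 4) (nat_lit 18) (nat_lit 5) (nat_lit 18) (nat_lit 4) (nat_lit 415) (nat_lit 321) (nat_lit 284))) (XT.nd (nat_lit 78) (nat_lit 152) (nat_lit 0) (XT.lf (nat_lit 0) (nat_lit 27422028659) (nat_lit 76) (nat_lit 11952898112) (nat_lit 76) (nat_lit 942700887) (nat_lit 17) (nat_lit 4) (nat_lit 18) (nat_lit 5) (nat_lit 18) (nat_lit 4) (nat_lit 416) (nat_lit 321) (nat_lit 283)) (XT.lf (nat_lit 0) (nat_lit 5898207297) (nat_lit 76) (nat_lit 2479013407) (nat_lit 152) (nat_lit 33656670721) (nat_lit 15) (nat_lit 5) (nat_lit 16) (nat_lit 5) (nat_lit 17) (nat_lit 4) (nat_lit 417) (nat_lit 321) (nat_lit 282))))))))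
noncomputable def xc19 : XT := (XT.nd (nat_lit 50232) (nat_lit 0) (nat_lit 1596) (XT.nd (nat_lit 936) (nat_lit 228) (nat_lit 0) (XT.nd (nat_lit 468) (nat_lit 228) (nat_lit 0) (XT.nd (nat_lit 234) (nat_lit 152) (nat_lit 0) (XT.nd (nat_lit 78) (nat_lit 76) (nat_lit 0) (XT.lf (nat_lit 0) (nat_lit 18235806958) (nat_lit 152) (nat_lit 18235361572) (nat_lit 0) (nat_lit 7361760007) (nat_lit 15) (nat_lit 5) (nat_lit 17) (nat_lit 4) (nat_lit 15) (nat_lit 4) (nat_lit 418) (nat_lit 321) (nat_lit 281)) (XT.nd (nat_lit 78) (nat_lit 0) (nat_lit 0) (XT.lf (nat_lit 0) (nat_lit 330026323) (nat_lit 76) (nat_lit 28177040630) (nat_lit 76) (nat_lit 17217263095) (nat_lit 14) (nat_lit 4) (nat_lit 15) (nat_lit 5) (nat_lit 15) (nat_lit 4) (nat_lit 419) (nat_lit 321) (nat_lit 280)) (XT.lf (nat_lit 0) (nat_lit 19999438394) (nat_lit 76) (nat_lit 19374909923) (nat_lit 76) (nat_lit 8333484213) (nat_lit 14) (nat_lit 4) (nat_lit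 15) (nat_lit 5) (nat_lit 15) (nat_lit 4) (nat_lit 420) (nat_lit 321) (nat_lit 279)))) (XT.nd (nat_lit 78) (nat_lit 76) (nat_lit 0) (XT.lf (nat_lit 0) (nat_lit 873834506) (nat_lit 152) (nat_lit 9345301829) (nat_lit 76) (nat_lit 39574128601) (nat_lit 13) (nat_lit 5) (nat_lit 15) (nat_lit 5) (nat_lit 14) (nat_lit 4) (nat_lit 421) (nat_lit 321) (nat_lit 278)) (XT.nd (nat_lit 78) (nat_lit 0) (nat_lit 0) (XT.lf (nat_lit 0) (nat_lit 9856013659) (nat_lit 76) (nat_lit 513078379) (nat_lit 152) (nat_lit 41611408060) (nat_lit 12) (nat_lit 5) (nat_lit 13) (nat_lit 5) (nat_lit 14) (nat_lit 4) (nat_lit 422) (nat_lit 321) (nat_lit 277)) (XT.lf (nat_lit 0) (nat_lit 20434855781) (nat_lit 152) (nat_lit 24340219907) (nat_lit 0) (nat_lit 9499152924) (nat_lit 12) (nat_lit 5) (nat_lit 14) (nat_lit 4) (nat_lit 12) (nat_lit 4) (nat_lit 423) (nat_lit 321) (nat_lit 276))))) (XT.nd (nat_lit 234) (nat_lit 152) (nat_lit 0)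 (XT.nd (nat_lit 78) (nat_lit 76) (nat_lit 0) (XT.lf (nat_lit 0) (nat_lit 30919139321) (nat_lit 152) (nat_lit 5847830215) (nat_lit 0) (nat_lit 19918220779) (nat_lit 12) (nat_lit 5) (nat_lit 14) (nat_lit 4) (nat_lit 12) (nat_lit 4) (nat_lit 424) (nat_lit 321) (nat_lit 275)) (XT.nd (nat_lit 78) (nat_lit 0) (nat_lit 0) (XT.lf (nat_lit 0) (nat_lit 13668363155) (nat_lit 76) (nat_lit 28304998726) (nat_lit 76) (nat_lit 17241970007) (nat_lit 11) (nat_lit 4) (nat_lit 12) (nat_lit 5) (nat_lit 12) (nat_lit 4) (nat_lit 425) (nat_lit 321) (nat_lit 274)) (XT.lf (nat_lit 0) (nat_lit 34119836196) (nat_lit 76) (nat_lit 19437508749) (nat_lit 76) (nat_lit 8315327481) (nat_lit 11) (nat_lit 4) (nat_lit 12) (nat_lit 5) (nat_lit 12) (nat_lit 4) (nat_lit 426) (nat_lit 321) (nat_lit 273)))) (XT.nd (nat_lit 78) (nat_lit 76) (nat_lit 0) (XT.lf (nat_lit 0) (nat_lit 957032061) (nat_lit 152) (nat_lit 9235741943) (nat_lit 76)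 (nat_lit 54472203394) (nat_lit 10) (nat_lit 5) (nat_lit 12) (nat_lit 5) (nat_lit 11) (nat_lit 4) (nat_lit 427) (nat_lit 321) (nat_lit 272)) (XT.nd (nat_lit 78) (nat_lit 0) (nat_lit 0) (XT.lf (nat_lit 0) (nat_lit 10172661724) (nat_lit 76) (nat_lit 371590422) (nat_lit 152) (nat_lit 57049482046) (nat_lit 9) (nat_lit 5) (nat_lit 10) (nat_lit 5) (nat_lit 11) (nat_lit 4) (nat_lit 428) (nat_lit 321) (nat_lit 271)) (XT.lf (nat_lit 0) (nat_lit 20727788840) (nat_lit 152) (nat_lit 40164474749) (nat_lit 0) (nat_lit 9773159393) (nat_lit 9) (nat_lit 5) (nat_lit 11) (nat_lit 4) (nat_lit 9) (nat_lit 4) (nat_lit 429) (nat_lit 321) (nat_lit 270)))))) (XT.nd (nat_lit 468) (nat_lit 76) (nat_lit 0) (XT.nd (nat_lit 234) (nat_lit 76) (nat_lit 0) (XT.nd (nat_lit 78) (nat_lit 76) (nat_lit 0) (XT.lf (nat_lit 0) (nat_lit 31353190856) (nat_lit 152) (nat_lit 22188213500) (nat_lit 0) (nat_lit 20351313886) (nat_lit 9) (nat_lit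 5) (nat_lit 11) (nat_lit 4) (nat_lit 9) (nat_lit 4) (nat_lit 430) (nat_lit 321) (nat_lit 269)) (XT.nd (nat_lit 78) (nat_lit 76) (nat_lit 0) (XT.lf (nat_lit 0) (nat_lit 42442184817) (nat_lit 152) (nat_lit 3445916148) (nat_lit 0) (nat_lit 31395310206) (nat_lit 9) (nat_lit 5) (nat_lit 11) (nat_lit 4) (nat_lit 9) (nat_lit 4) (nat_lit 431) (nat_lit 321) (nat_lit 268)) (XT.lf (nat_lit 0) (nat_lit 16427603540) (nat_lit 76) (nat_lit 37751481723) (nat_lit 76) (nat_lit 26661752217) (nat_lit 8) (nat_lit 4) (nat_lit 9) (nat_lit 5) (nat_lit 9) (nat_lit 4) (nat_lit 432) (nat_lit 321) (nat_lit 267)))) (XT.nd (nat_lit 78) (nat_lit 76) (nat_lit 0) (XT.lf (nat_lit 0) (nat_lit 37243979265) (nat_lit 76) (nat_lit 29231757339) (nat_lit 76) (nat_lit 18101213647) (nat_lit 8) (nat_lit 4) (nat_lit 9) (nat_lit 5) (nat_lit 9) (nat_lit 4) (nat_lit 433) (nat_lit 321) (nat_lit 266)) (XT.nd (nat_lit 78) (nat_lit 76) (nat_lit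 0) (XT.lf (nat_lit 0) (nat_lit 58984193337) (nat_lit 76) (nat_lit 20343439751) (nat_lit 76) (nat_lit 9174025405) (nat_lit 8) (nat_lit 4) (nat_lit 9) (nat_lit 5) (nat_lit 9) (nat_lit 4) (nat_lit 434) (nat_lit 321) (nat_lit 265)) (XT.lf (nat_lit 0) (nat_lit 138314978) (nat_lit 152) (nat_lit 10925654610) (nat_lit 76) (nat_lit 81560296483) (nat_lit 7) (nat_lit 5) (nat_lit 9) (nat_lit 5) (nat_lit 8) (nat_lit 4) (nat_lit 435) (nat_lit 321) (nat_lit 264))))) (XT.nd (nat_lit 48516) (nat_lit 0) (nat_lit 5624) (XT.nd (nat_lit 78) (nat_lit 0) (nat_lit 0) (XT.lf (nat_lit 0) (nat_lit 8563053830) (nat_lit 76) (nat_lit 1192978029) (nat_lit 152) (nat_lit 87193364385) (nat_lit 6) (nat_lit 5) (nat_lit 7) (nat_lit 5) (nat_lit 8) (nat_lit 4) (nat_lit 436) (nat_lit 321) (nat_lit 263)) (XT.nd (nat_lit 48360) (nat_lit 0) (nat_lit 6916) (XT.lf (nat_lit 0) (nat_lit 20002903027) (nat_lit 152) (nat_lit 72427393566) (nat_lit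 0) (nat_lit 9056040135) (nat_lit 6) (nat_lit 5) (nat_lit 8) (nat_lit 4) (nat_lit 6) (nat_lit 4) (nat_lit 437) (nat_lit 321) (nat_lit 262)) (XT.lf (nat_lit 0) (nat_lit 1822358812) (nat_lit 304) (nat_lit 1632930306) (nat_lit 0) (nat_lit 1822358812) (nat_lit 97) (nat_lit 5) (nat_lit 101) (nat_lit 4) (nat_lit 97) (nat_lit 4) (nat_lit 376) (nat_lit 322) (nat_lit 322)))) (XT.nd (nat_lit 156) (nat_lit 532) (nat_lit 0) (XT.nd (nat_lit 78) (nat_lit 228) (nat_lit 0) (XT.lf (nat_lit 0) (nat_lit 383572317) (nat_lit 228) (nat_lit 352783952) (nat_lit 304) (nat_lit 10077430386) (nat_lit 90) (nat_lit 5) (nat_lit 93) (nat_lit 5) (nat_lit 94) (nat_lit 4) (nat_lit 377) (nat_lit 322) (nat_lit 321)) (XT.lf (nat_lit 0) (nat_lit 4037563556) (nat_lit 228) (nat_lit 4576135082) (nat_lit 228) (nat_lit 2469779681) (nat_lit 87) (nat_lit 4) (nat_lit 90) (nat_lit 5) (nat_lit 90) (nat_lit 4) (nat_lit 378) (nat_lit 322) (nat_lit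 320))) (XT.nd (nat_lit 78) (nat_lit 304) (nat_lit 0) (XT.lf (nat_lit 0) (nat_lit 5335382913) (nat_lit 228) (nat_lit 3691672882) (nat_lit 0) (nat_lit 2340317161) (nat_lit 84) (nat_lit 5) (nat_lit 87) (nat_lit 4) (nat_lit 84) (nat_lit 4) (nat_lit 379) (nat_lit 322) (nat_lit 319)) (XT.lf (nat_lit 0) (nat_lit 1730690065) (nat_lit 304) (nat_lit 386584450) (nat_lit 76) (nat_lit 9548447446) (nat_lit 80) (nat_lit 5) (nat_lit 84) (nat_lit 5) (nat_lit 81) (nat_lit 4) (nat_lit 380) (nat_lit 322) (nat_lit 318))))))) (XT.nd (nat_lit 936) (nat_lit 1444) (nat_lit 0) (XT.nd (nat_lit 468) (nat_lit 1064) (nat_lit 0) (XT.nd (nat_lit 234) (nat_lit 684) (nat_lit 0) (XT.nd (nat_lit 78) (nat_lit 456) (nat_lit 0) (XT.lf (nat_lit 0) (nat_lit 2891862539) (nat_lit 228) (nat_lit 6854314668) (nat_lit 228) (nat_lit 2231384405) (nat_lit 75) (nat_lit 4) (nat_lit 78) (nat_lit 5) (nat_lit 78) (nat_lit 4) (nat_lit 381) (nat_lit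 322) (nat_lit 317)) (XT.nd (nat_lit 78) (nat_lit 228) (nat_lit 0) (XT.lf (nat_lit 0) (nat_lit 5685759382) (nat_lit 228) (nat_lit 6195419289) (nat_lit 0) (nat_lit 423891008) (nat_lit 72) (nat_lit 5) (nat_lit 75) (nat_lit 4) (nat_lit 72) (nat_lit 4) (nat_lit 382) (nat_lit 322) (nat_lit 316)) (XT.lf (nat_lit 0) (nat_lit 1267113135) (nat_lit 228) (nat_lit 3426377820) (nat_lit 76) (nat_lit 7954816651) (nat_lit 69) (nat_lit 5) (nat_lit 72) (nat_lit 5) (nat_lit 70) (nat_lit 4) (nat_lit 383) (nat_lit 322) (nat_lit 315)))) (XT.nd (nat_lit 78) (nat_lit 532) (nat_lit 0) (XT.lf (nat_lit 0) (nat_lit 9363704023) (nat_lit 228) (nat_lit 785919112) (nat_lit 0) (nat_lit 2858574601) (nat_lit 67) (nat_lit 5) (nat_lit 70) (nat_lit 4) (nat_lit 67) (nat_lit 4) (nat_lit 384) (nat_lit 322) (nat_lit 314)) (XT.nd (nat_lit 78) (nat_lit 152) (nat_lit 0) (XT.lf (nat_lit 0) (nat_lit 1746073489) (nat_lit 152) (nat_lit 2638159214)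 (nat_lit 228) (nat_lit 9000816057) (nat_lit 62) (nat_lit 5) (nat_lit 64) (nat_lit 5) (nat_lit 65) (nat_lit 4) (nat_lit 385) (nat_lit 322) (nat_lit 313)) (XT.lf (nat_lit 0) (nat_lit 4131488364) (nat_lit 152) (nat_lit 8596986063) (nat_lit 152) (nat_lit 1051535929) (nat_lit 60) (nat_lit 4) (nat_lit 62) (nat_lit 5) (nat_lit 62) (nat_lit 4) (nat_lit 386) (nat_lit 322) (nat_lit 312))))) (XT.nd (nat_lit 234) (nat_lit 532) (nat_lit 0) (XT.nd (nat_lit 78) (nat_lit 304) (nat_lit 0) (XT.lf (nat_lit 0) (nat_lit 6323415477) (nat_lit 152) (nat_lit 789981988) (nat_lit 228) (nat_lit 7080433991) (nat_lit 57) (nat_lit 5) (nat_lit 59) (nat_lit 5) (nat_lit 60) (nat_lit 4) (nat_lit 387) (nat_lit 322) (nat_lit 311)) (XT.nd (nat_lit 78) (nat_lit 76) (nat_lit 0) (XT.lf (nat_lit 0) (nat_lit 1026191896) (nat_lit 228) (nat_lit 6325477413) (nat_lit 76) (nat_lit 7275803408) (nat_lit 54) (nat_lit 5) (nat_lit 57) (nat_lit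 5) (nat_lit 55) (nat_lit 4) (nat_lit 388) (nat_lit 322) (nat_lit 310)) (XT.lf (nat_lit 0) (nat_lit 9349383352) (nat_lit 152) (nat_lit 5035425547) (nat_lit 0) (nat_lit 697181775) (nat_lit 53) (nat_lit 5) (nat_lit 55) (nat_lit 4) (nat_lit 53) (nat_lit 4) (nat_lit 389) (nat_lit 322) (nat_lit 309)))) (XT.nd (nat_lit 78) (nat_lit 304) (nat_lit 0) (XT.lf (nat_lit 0) (nat_lit 2499707872) (nat_lit 228) (nat_lit 4043000939) (nat_lit 76) (nat_lit 9015234928) (nat_lit 50) (nat_lit 5) (nat_lit 53) (nat_lit 5) (nat_lit 51) (nat_lit 4) (nat_lit 390) (nat_lit 322) (nat_lit 308)) (XT.nd (nat_lit 78) (nat_lit 228) (nat_lit 0) (XT.lf (nat_lit 0) (nat_lit 10990869595) (nat_lit 152) (nat_lit 3357304819) (nat_lit 0) (nat_lit 1708868061) (nat_lit 49) (nat_lit 5) (nat_lit 51) (nat_lit 4) (nat_lit 49) (nat_lit 4) (nat_lit 391) (nat_lit 322) (nat_lit 307)) (XT.lf (nat_lit 0) (nat_lit 3277810261) (nat_lit 228) (nat_lit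 3037712593) (nat_lit 76) (nat_lit 10264120638) (nat_lit 46) (nat_lit 5) (nat_lit 49) (nat_lit 5) (nat_lit 47) (nat_lit 4) (nat_lit 392) (nat_lit 322) (nat_lit 306)))))) (XT.nd (nat_lit 468) (nat_lit 608) (nat_lit 0) (XT.nd (nat_lit 234) (nat_lit 456) (nat_lit 0) (XT.nd (nat_lit 78) (nat_lit 304) (nat_lit 0) (XT.lf (nat_lit 0) (nat_lit 11909052321) (nat_lit 152) (nat_lit 3097721598) (nat_lit 0) (nat_lit 2120872307) (nat_lit 45) (nat_lit 5) (nat_lit 47) (nat_lit 4) (nat_lit 45) (nat_lit 4) (nat_lit 393) (nat_lit 322) (nat_lit 305)) (XT.nd (nat_lit 78) (nat_lit 76) (nat_lit 0) (XT.lf (nat_lit 0) (nat_lit 3224317143) (nat_lit 228) (nat_lit 3603572561) (nat_lit 76) (nat_lit 10873657783) (nat_lit 42) (nat_lit 5) (nat_lit 45) (nat_lit 5) (nat_lit 43) (nat_lit 4) (nat_lit 394) (nat_lit 322) (nat_lit 304)) (XT.lf (nat_lit 0) (nat_lit 11956454605) (nat_lit 152) (nat_lit 4577359856) (nat_lit 0) (nat_lit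 1769547967) (nat_lit 41) (nat_lit 5) (nat_lit 43) (nat_lit 4) (nat_lit 41) (nat_lit 4) (nat_lit 395) (nat_lit 322) (nat_lit 303)))) (XT.nd (nat_lit 78) (nat_lit 228) (nat_lit 0) (XT.lf (nat_lit 0) (nat_lit 2174443720) (nat_lit 228) (nat_lit 6090471945) (nat_lit 76) (nat_lit 10668921077) (nat_lit 38) (nat_lit 5) (nat_lit 41) (nat_lit 5) (nat_lit 39) (nat_lit 4) (nat_lit 396) (nat_lit 322) (nat_lit 302)) (XT.nd (nat_lit 78) (nat_lit 152) (nat_lit 0) (XT.lf (nat_lit 0) (nat_lit 10954841230) (nat_lit 152) (nat_lit 8177736005) (nat_lit 0) (nat_lit 462461763) (nat_lit 37) (nat_lit 5) (nat_lit 39) (nat_lit 4) (nat_lit 37) (nat_lit 4) (nat_lit 397) (nat_lit 322) (nat_lit 301)) (XT.lf (nat_lit 0) (nat_lit 9372944747) (nat_lit 152) (nat_lit 10843620345) (nat_lit 152) (nat_lit 71482993) (nat_lit 35) (nat_lit 4) (nat_lit 37) (nat_lit 5) (nat_lit 37) (nat_lit 4) (nat_lit 398) (nat_lit 322) (nat_lit 300)))))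 (XT.nd (nat_lit 234) (nat_lit 304) (nat_lit 0) (XT.nd (nat_lit 78) (nat_lit 152) (nat_lit 0) (XT.lf (nat_lit 0) (nat_lit 6642307768) (nat_lit 76) (nat_lit 2067485927) (nat_lit 152) (nat_lit 12304605736) (nat_lit 33) (nat_lit 5) (nat_lit 34) (nat_lit 5) (nat_lit 35) (nat_lit 4) (nat_lit 399) (nat_lit 322) (nat_lit 299)) (XT.nd (nat_lit 78) (nat_lit 76) (nat_lit 0) (XT.lf (nat_lit 0) (nat_lit 3170089411) (nat_lit 76) (nat_lit 14784802071) (nat_lit 76) (nat_lit 3821382573) (nat_lit 32) (nat_lit 4) (nat_lit 33) (nat_lit 5) (nat_lit 33) (nat_lit 4) (nat_lit 400) (nat_lit 322) (nat_lit 298)) (XT.lf (nat_lit 0) (nat_lit 4974381456) (nat_lit 152) (nat_lit 1100051722) (nat_lit 76) (nat_lit 16500726720) (nat_lit 31) (nat_lit 5) (nat_lit 33) (nat_lit 5) (nat_lit 32) (nat_lit 4) (nat_lit 401) (nat_lit 322) (nat_lit 297)))) (XT.nd (nat_lit 156) (nat_lit 152) (nat_lit 0) (XT.nd (nat_lit 78) (nat_lit 76) (nat_lit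 0) (XT.lf (nat_lit 0) (nat_lit 14153535376) (nat_lit 152) (nat_lit 6193952469) (nat_lit 0) (nat_lit 3064700455) (nat_lit 30) (nat_lit 5) (nat_lit 32) (nat_lit 4) (nat_lit 30) (nat_lit 4) (nat_lit 402) (nat_lit 322) (nat_lit 296)) (XT.lf (nat_lit 0) (nat_lit 12033720133) (nat_lit 76) (nat_lit 11776131651) (nat_lit 76) (nat_lit 480681947) (nat_lit 29) (nat_lit 4) (nat_lit 30) (nat_lit 5) (nat_lit 30) (nat_lit 4) (nat_lit 403) (nat_lit 322) (nat_lit 295))) (XT.nd (nat_lit 78) (nat_lit 0) (nat_lit 0) (XT.lf (nat_lit 0) (nat_lit 5801520289) (nat_lit 76) (nat_lit 2717566398) (nat_lit 152) (nat_lit 16692600077) (nat_lit 27) (nat_lit 5) (nat_lit 28) (nat_lit 5) (nat_lit 29) (nat_lit 4) (nat_lit 404) (nat_lit 322) (nat_lit 294)) (XT.lf (nat_lit 0) (nat_lit 17988489617) (nat_lit 152) (nat_lit 1540346125) (nat_lit 0) (nat_lit 6649041669) (nat_lit 27) (nat_lit 5) (nat_lit 29) (nat_lit 4) (nat_lit 27) (nat_lit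 4) (nat_lit 405) (nat_lit 322) (nat_lit 293))))))))
noncomputable def xc20 : XT := (XT.nd (nat_lit 1872) (nat_lit 228) (nat_lit 0) (XT.nd (nat_lit 936) (nat_lit 532) (nat_lit 0) (XT.nd (nat_lit 468) (nat_lit 380) (nat_lit 0) (XT.nd (nat_lit 234) (nat_lit 228) (nat_lit 0) (XT.nd (nat_lit 78) (nat_lit 76) (nat_lit 0) (XT.lf (nat_lit 0) (nat_lit 762558624) (nat_lit 152) (nat_lit 9964737064) (nat_lit 76) (nat_lit 16463738551) (nat_lit 25) (nat_lit 5) (nat_lit 27) (nat_lit 5) (nat_lit 26) (nat_lit 4) (nat_lit 406) (nat_lit 322) (nat_lit 292)) (XT.nd (nat_lit 78) (nat_lit 0) (nat_lit 0) (XT.lf (nat_lit 0) (nat_lit 8499795638) (nat_lit 76) (nat_lit 1439888232) (nat_lit 152) (nat_lit 18314333143) (nat_lit 24) (nat_lit 5) (nat_lit 25) (nat_lit 5) (nat_lit 26) (nat_lit 4) (nat_lit 407) (nat_lit 322) (nat_lit 291)) (XT.lf (nat_lit 0) (nat_lit 19610031726) (nat_lit 152) (nat_lit 1639291826) (nat_lit 0) (nat_lit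 8119803065) (nat_lit 24) (nat_lit 5) (nat_lit 26) (nat_lit 4) (nat_lit 24) (nat_lit 4) (nat_lit 408) (nat_lit 322) (nat_lit 290)))) (XT.nd (nat_lit 78) (nat_lit 152) (nat_lit 0) (XT.lf (nat_lit 0) (nat_lit 17433620625) (nat_lit 76) (nat_lit 12370366953) (nat_lit 76) (nat_lit 734809672) (nat_lit 23) (nat_lit 4) (nat_lit 24) (nat_lit 5) (nat_lit 24) (nat_lit 4) (nat_lit 409) (nat_lit 322) (nat_lit 289)) (XT.nd (nat_lit 78) (nat_lit 0) (nat_lit 0) (XT.lf (nat_lit 0) (nat_lit 5482420457) (nat_lit 76) (nat_lit 3018262274) (nat_lit 152) (nat_lit 23265839042) (nat_lit 21) (nat_lit 5) (nat_lit 22) (nat_lit 5) (nat_lit 23) (nat_lit 4) (nat_lit 410) (nat_lit 322) (nat_lit 288)) (XT.lf (nat_lit 0) (nat_lit 18248243229) (nat_lit 152) (nat_lit 8115982831) (nat_lit 0) (nat_lit 6689230771) (nat_lit 21) (nat_lit 5) (nat_lit 23) (nat_lit 4) (nat_lit 21) (nat_lit 4) (nat_lit 411) (nat_lit 322) (nat_lit 287)))))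 (XT.nd (nat_lit 234) (nat_lit 152) (nat_lit 0) (XT.nd (nat_lit 78) (nat_lit 152) (nat_lit 0) (XT.lf (nat_lit 0) (nat_lit 10891638779) (nat_lit 76) (nat_lit 17596920863) (nat_lit 76) (nat_lit 5916024594) (nat_lit 20) (nat_lit 4) (nat_lit 21) (nat_lit 5) (nat_lit 21) (nat_lit 4) (nat_lit 412) (nat_lit 322) (nat_lit 286)) (XT.nd (nat_lit 78) (nat_lit 76) (nat_lit 0) (XT.lf (nat_lit 0) (nat_lit 3308107862) (nat_lit 152) (nat_lit 5081517127) (nat_lit 76) (nat_lit 27433948642) (nat_lit 19) (nat_lit 5) (nat_lit 21) (nat_lit 5) (nat_lit 20) (nat_lit 4) (nat_lit 413) (nat_lit 322) (nat_lit 285)) (XT.lf (nat_lit 0) (nat_lit 12901262964) (nat_lit 152) (nat_lit 23069037470) (nat_lit 0) (nat_lit 1340555877) (nat_lit 18) (nat_lit 5) (nat_lit 20) (nat_lit 4) (nat_lit 18) (nat_lit 4) (nat_lit 414) (nat_lit 322) (nat_lit 284)))) (XT.nd (nat_lit 78) (nat_lit 152) (nat_lit 0) (XT.lf (nat_lit 0) (nat_lit 22992957275)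 (nat_lit 152) (nat_lit 4548956216) (nat_lit 0) (nat_lit 11330029005) (nat_lit 18) (nat_lit 5) (nat_lit 20) (nat_lit 4) (nat_lit 18) (nat_lit 4) (nat_lit 415) (nat_lit 322) (nat_lit 283)) (XT.nd (nat_lit 78) (nat_lit 76) (nat_lit 0) (XT.lf (nat_lit 0) (nat_lit 14969877405) (nat_lit 76) (nat_lit 18650282596) (nat_lit 76) (nat_lit 6890000818) (nat_lit 17) (nat_lit 4) (nat_lit 18) (nat_lit 5) (nat_lit 18) (nat_lit 4) (nat_lit 416) (nat_lit 322) (nat_lit 282)) (XT.lf (nat_lit 0) (nat_lit 2435259704) (nat_lit 152) (nat_lit 6909422203) (nat_lit 76) (nat_lit 32886781677) (nat_lit 16) (nat_lit 5) (nat_lit 18) (nat_lit 5) (nat_lit 17) (nat_lit 4) (nat_lit 417) (nat_lit 322) (nat_lit 281)))))) (XT.nd (nat_lit 468) (nat_lit 228) (nat_lit 0) (XT.nd (nat_lit 234) (nat_lit 152) (nat_lit 0) (XT.nd (nat_lit 78) (nat_lit 76) (nat_lit 0) (XT.lf (nat_lit 0) (nat_lit 12106536749) (nat_lit 152) (nat_lit 31416545849)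 (nat_lit 0) (nat_lit 513039753) (nat_lit 15) (nat_lit 5) (nat_lit 17) (nat_lit 4) (nat_lit 15) (nat_lit 4) (nat_lit 418) (nat_lit 322) (nat_lit 280)) (XT.nd (nat_lit 78) (nat_lit 76) (nat_lit 0) (XT.lf (nat_lit 0) (nat_lit 22324241395) (nat_lit 152) (nat_lit 12955795172) (nat_lit 0) (nat_lit 10649096224) (nat_lit 15) (nat_lit 5) (nat_lit 17) (nat_lit 4) (nat_lit 15) (nat_lit 4) (nat_lit 419) (nat_lit 322) (nat_lit 279)) (XT.lf (nat_lit 0) (nat_lit 6360388758) (nat_lit 76) (nat_lit 26655215778) (nat_lit 76) (nat_lit 14902310440) (nat_lit 14) (nat_lit 4) (nat_lit 15) (nat_lit 5) (nat_lit 15) (nat_lit 4) (nat_lit 420) (nat_lit 322) (nat_lit 278)))) (XT.nd (nat_lit 78) (nat_lit 152) (nat_lit 0) (XT.lf (nat_lit 0) (nat_lit 26726897093) (nat_lit 76) (nat_lit 17552534577) (nat_lit 76) (nat_lit 5725571937) (nat_lit 14) (nat_lit 4) (nat_lit 15) (nat_lit 5) (nat_lit 15) (nat_lit 4) (nat_lit 421) (nat_lit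 322) (nat_lit 277)) (XT.nd (nat_lit 78) (nat_lit 76) (nat_lit 0) (XT.lf (nat_lit 0) (nat_lit 3741874716) (nat_lit 152) (nat_lit 4301487729) (nat_lit 76) (nat_lit 44154715478) (nat_lit 13) (nat_lit 5) (nat_lit 15) (nat_lit 5) (nat_lit 14) (nat_lit 4) (nat_lit 422) (nat_lit 322) (nat_lit 276)) (XT.lf (nat_lit 0) (nat_lit 13648787182) (nat_lit 152) (nat_lit 38815179576) (nat_lit 0) (nat_lit 2032607027) (nat_lit 12) (nat_lit 5) (nat_lit 14) (nat_lit 4) (nat_lit 12) (nat_lit 4) (nat_lit 423) (nat_lit 322) (nat_lit 275))))) (XT.nd (nat_lit 234) (nat_lit 152) (nat_lit 0) (XT.nd (nat_lit 78) (nat_lit 76) (nat_lit 0) (XT.lf (nat_lit 0) (nat_lit 24091283491) (nat_lit 152) (nat_lit 20404514178) (nat_lit 0) (nat_lit 12412993159) (nat_lit 12) (nat_lit 5) (nat_lit 14) (nat_lit 4) (nat_lit 12) (nat_lit 4) (nat_lit 424) (nat_lit 322) (nat_lit 274)) (XT.nd (nat_lit 78) (nat_lit 76) (nat_lit 0) (XT.lf (nat_lit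 0) (nat_lit 34974320021) (nat_lit 152) (nat_lit 1232872464) (nat_lit 0) (nat_lit 23236877140) (nat_lit 12) (nat_lit 5) (nat_lit 14) (nat_lit 4) (nat_lit 12) (nat_lit 4) (nat_lit 425) (nat_lit 322) (nat_lit 273)) (XT.lf (nat_lit 0) (nat_lit 19118462393) (nat_lit 76) (nat_lit 27389124726) (nat_lit 76) (nat_lit 15595346085) (nat_lit 11) (nat_lit 4) (nat_lit 12) (nat_lit 5) (nat_lit 12) (nat_lit 4) (nat_lit 426) (nat_lit 322) (nat_lit 272)))) (XT.nd (nat_lit 78) (nat_lit 152) (nat_lit 0) (XT.lf (nat_lit 0) (nat_lit 40365524273) (nat_lit 76) (nat_lit 18189266152) (nat_lit 76) (nat_lit 6341834405) (nat_lit 11) (nat_lit 4) (nat_lit 12) (nat_lit 5) (nat_lit 12) (nat_lit 4) (nat_lit 427) (nat_lit 322) (nat_lit 271)) (XT.nd (nat_lit 78) (nat_lit 76) (nat_lit 0) (XT.lf (nat_lit 0) (nat_lit 3235965943) (nat_lit 152) (nat_lit 5329519077) (nat_lit 76) (nat_lit 59265721982) (nat_lit 10) (nat_lit 5) (nat_lit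 12) (nat_lit 5) (nat_lit 11) (nat_lit 4) (nat_lit 428) (nat_lit 322) (nat_lit 270)) (XT.lf (nat_lit 0) (nat_lit 13253305971) (nat_lit 152) (nat_lit 56000489400) (nat_lit 0) (nat_lit 1654087631) (nat_lit 9) (nat_lit 5) (nat_lit 11) (nat_lit 4) (nat_lit 9) (nat_lit 4) (nat_lit 429) (nat_lit 322) (nat_lit 269))))))) (XT.nd (nat_lit 49062) (nat_lit 0) (nat_lit 3344) (XT.nd (nat_lit 468) (nat_lit 152) (nat_lit 0) (XT.nd (nat_lit 234) (nat_lit 0) (nat_lit 0) (XT.nd (nat_lit 78) (nat_lit 76) (nat_lit 0) (XT.lf (nat_lit 0) (nat_lit 23845694253) (nat_lit 152) (nat_lit 38088997400) (nat_lit 0) (nat_lit 12201478271) (nat_lit 9) (nat_lit 5) (nat_lit 11) (nat_lit 4) (nat_lit 9) (nat_lit 4) (nat_lit 430) (nat_lit 322) (nat_lit 268)) (XT.nd (nat_lit 78) (nat_lit 76) (nat_lit 0) (XT.lf (nat_lit 0) (nat_lit 34903246562) (nat_lit 152) (nat_lit 19408385046) (nat_lit 0) (nat_lit 23216175684) (nat_lit 9) (nat_lit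 5) (nat_lit 11) (nat_lit 4) (nat_lit 9) (nat_lit 4) (nat_lit 431) (nat_lit 322) (nat_lit 267)) (XT.lf (nat_lit 0) (nat_lit 87533402) (nat_lit 76) (nat_lit 46365598425) (nat_lit 76) (nat_lit 34637713361) (nat_lit 8) (nat_lit 4) (nat_lit 9) (nat_lit 5) (nat_lit 9) (nat_lit 4) (nat_lit 432) (nat_lit 322) (nat_lit 266)))) (XT.nd (nat_lit 78) (nat_lit 0) (nat_lit 0) (XT.lf (nat_lit 0) (nat_lit 20846845498) (nat_lit 76) (nat_lit 37873870634) (nat_lit 76) (nat_lit 26107114916) (nat_lit 8) (nat_lit 4) (nat_lit 9) (nat_lit 5) (nat_lit 9) (nat_lit 4) (nat_lit 433) (nat_lit 322) (nat_lit 265)) (XT.nd (nat_lit 78) (nat_lit 0) (nat_lit 0) (XT.lf (nat_lit 0) (nat_lit 42532713258) (nat_lit 76) (nat_lit 29012216468) (nat_lit 76) (nat_lit 17208441079) (nat_lit 8) (nat_lit 4) (nat_lit 9) (nat_lit 5) (nat_lit 9) (nat_lit 4) (nat_lit 434) (nat_lit 322) (nat_lit 264)) (XT.lf (nat_lit 0) (nat_lit 65196769699) (nat_lit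 76) (nat_lit 19759536750) (nat_lit 76) (nat_lit 7920504533) (nat_lit 8) (nat_lit 4) (nat_lit 9) (nat_lit 5) (nat_lit 9) (nat_lit 4) (nat_lit 435) (nat_lit 322) (nat_lit 263))))) (XT.nd (nat_lit 48360) (nat_lit 0) (nat_lit 6612) (XT.nd (nat_lit 78) (nat_lit 76) (nat_lit 0) (XT.lf (nat_lit 0) (nat_lit 1744097890) (nat_lit 152) (nat_lit 8332091431) (nat_lit 76) (nat_lit 87131267002) (nat_lit 7) (nat_lit 5) (nat_lit 9) (nat_lit 5) (nat_lit 8) (nat_lit 4) (nat_lit 436) (nat_lit 322) (nat_lit 262)) (XT.nd (nat_lit 48204) (nat_lit 0) (nat_lit 7752) (XT.lf (nat_lit 0) (nat_lit 11798237748) (nat_lit 152) (nat_lit 89711557639) (nat_lit 0) (nat_lit 240384221) (nat_lit 6) (nat_lit 5) (nat_lit 8) (nat_lit 4) (nat_lit 6) (nat_lit 4) (nat_lit 437) (nat_lit 322) (nat_lit 261)) (XT.lf (nat_lit 0) (nat_lit 4926161402) (nat_lit 304) (nat_lit 55284892) (nat_lit 304) (nat_lit 55284892) (nat_lit 108) (nat_lit 4) (nat_lit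 112) (nat_lit 5) (nat_lit 112) (nat_lit 4) (nat_lit 374) (nat_lit 323) (nat_lit 323)))) (XT.nd (nat_lit 78) (nat_lit 608) (nat_lit 0) (XT.lf (nat_lit 0) (nat_lit 3406510652) (nat_lit 228) (nat_lit 4052669966) (nat_lit 228) (nat_lit 2850873736) (nat_lit 101) (nat_lit 4) (nat_lit 104) (nat_lit 5) (nat_lit 104) (nat_lit 4) (nat_lit 375) (nat_lit 323) (nat_lit 322)) (XT.nd (nat_lit 78) (nat_lit 304) (nat_lit 0) (XT.lf (nat_lit 0) (nat_lit 4669678365) (nat_lit 304) (nat_lit 3498248283) (nat_lit 0) (nat_lit 2391654999) (nat_lit 97) (nat_lit 5) (nat_lit 101) (nat_lit 4) (nat_lit 97) (nat_lit 4) (nat_lit 376) (nat_lit 323) (nat_lit 321)) (XT.lf (nat_lit 0) (nat_lit 1592490854) (nat_lit 304) (nat_lit 103582084) (nat_lit 76) (nat_lit 9126072376) (nat_lit 93) (nat_lit 5) (nat_lit 97) (nat_lit 5) (nat_lit 94) (nat_lit 4) (nat_lit 377) (nat_lit 323) (nat_lit 320)))))) (XT.nd (nat_lit 468) (nat_lit 1444) (nat_lit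 0) (XT.nd (nat_lit 234) (nat_lit 836) (nat_lit 0) (XT.nd (nat_lit 78) (nat_lit 532) (nat_lit 0) (XT.lf (nat_lit 0) (nat_lit 3313581756) (nat_lit 228) (nat_lit 6000342786) (nat_lit 228) (nat_lit 1782616851) (nat_lit 87) (nat_lit 4) (nat_lit 90) (nat_lit 5) (nat_lit 90) (nat_lit 4) (nat_lit 378) (nat_lit 323) (nat_lit 319)) (XT.nd (nat_lit 78) (nat_lit 304) (nat_lit 0) (XT.lf (nat_lit 0) (nat_lit 5853094227) (nat_lit 228) (nat_lit 4678454874) (nat_lit 0) (nat_lit 853395148) (nat_lit 84) (nat_lit 5) (nat_lit 87) (nat_lit 4) (nat_lit 84) (nat_lit 4) (nat_lit 379) (nat_lit 323) (nat_lit 318)) (XT.lf (nat_lit 0) (nat_lit 2079221159) (nat_lit 304) (nat_lit 1640613013) (nat_lit 76) (nat_lit 7967593550) (nat_lit 80) (nat_lit 5) (nat_lit 84) (nat_lit 5) (nat_lit 81) (nat_lit 4) (nat_lit 380) (nat_lit 323) (nat_lit 317)))) (XT.nd (nat_lit 78) (nat_lit 456) (nat_lit 0) (XT.lf (nat_lit 0) (nat_lit 1354763153)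 (nat_lit 228) (nat_lit 8568585958) (nat_lit 228) (nat_lit 2081081148) (nat_lit 75) (nat_lit 4) (nat_lit 78) (nat_lit 5) (nat_lit 78) (nat_lit 4) (nat_lit 381) (nat_lit 323) (nat_lit 316)) (XT.nd (nat_lit 78) (nat_lit 228) (nat_lit 0) (XT.lf (nat_lit 0) (nat_lit 4295282959) (nat_lit 152) (nat_lit 1390253667) (nat_lit 228) (nat_lit 6650806592) (nat_lit 72) (nat_lit 5) (nat_lit 74) (nat_lit 5) (nat_lit 75) (nat_lit 4) (nat_lit 382) (nat_lit 323) (nat_lit 315)) (XT.lf (nat_lit 0) (nat_lit 1078385334) (nat_lit 228) (nat_lit 5547841059) (nat_lit 76) (nat_lit 6058118121) (nat_lit 69) (nat_lit 5) (nat_lit 72) (nat_lit 5) (nat_lit 70) (nat_lit 4) (nat_lit 383) (nat_lit 323) (nat_lit 314))))) (XT.nd (nat_lit 234) (nat_lit 760) (nat_lit 0) (XT.nd (nat_lit 78) (nat_lit 532) (nat_lit 0) (XT.lf (nat_lit 0) (nat_lit 9012240502) (nat_lit 228) (nat_lit 3185058037) (nat_lit 0) (nat_lit 851836181) (nat_lit 67)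 (nat_lit 5) (nat_lit 70) (nat_lit 4) (nat_lit 67) (nat_lit 4) (nat_lit 384) (nat_lit 323) (nat_lit 313)) (XT.nd (nat_lit 78) (nat_lit 304) (nat_lit 0) (XT.lf (nat_lit 0) (nat_lit 3838433339) (nat_lit 228) (nat_lit 986279381) (nat_lit 76) (nat_lit 8606234511) (nat_lit 64) (nat_lit 5) (nat_lit 67) (nat_lit 5) (nat_lit 65) (nat_lit 4) (nat_lit 385) (nat_lit 323) (nat_lit 312)) (XT.lf (nat_lit 0) (nat_lit 1084703611) (nat_lit 152) (nat_lit 10920252170) (nat_lit 152) (nat_lit 1826300479) (nat_lit 60) (nat_lit 4) (nat_lit 62) (nat_lit 5) (nat_lit 62) (nat_lit 4) (nat_lit 386) (nat_lit 323) (nat_lit 311)))) (XT.nd (nat_lit 156) (nat_lit 380) (nat_lit 0) (XT.nd (nat_lit 78) (nat_lit 152) (nat_lit 0) (XT.lf (nat_lit 0) (nat_lit 2960658985) (nat_lit 152) (nat_lit 3245614743) (nat_lit 228) (nat_lit 8043466044) (nat_lit 57) (nat_lit 5) (nat_lit 59) (nat_lit 5) (nat_lit 60) (nat_lit 4) (nat_lit 387) (nat_lit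 323) (nat_lit 310)) (XT.lf (nat_lit 0) (nat_lit 4642547787) (nat_lit 152) (nat_lit 9953382877) (nat_lit 152) (nat_lit 92906211) (nat_lit 55) (nat_lit 4) (nat_lit 57) (nat_lit 5) (nat_lit 57) (nat_lit 4) (nat_lit 388) (nat_lit 323) (nat_lit 309))) (XT.nd (nat_lit 78) (nat_lit 228) (nat_lit 0) (XT.lf (nat_lit 0) (nat_lit 6056162180) (nat_lit 76) (nat_lit 2020587267) (nat_lit 152) (nat_lit 7071305548) (nat_lit 53) (nat_lit 5) (nat_lit 54) (nat_lit 5) (nat_lit 55) (nat_lit 4) (nat_lit 389) (nat_lit 323) (nat_lit 308)) (XT.lf (nat_lit 0) (nat_lit 1016981507) (nat_lit 228) (nat_lit 8417065858) (nat_lit 76) (nat_lit 6195463211) (nat_lit 50) (nat_lit 5) (nat_lit 53) (nat_lit 5) (nat_lit 51) (nat_lit 4) (nat_lit 390) (nat_lit 323) (nat_lit 307))))))))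
noncomputable def xc21 : XT := (XT.nd (nat_lit 1872) (nat_lit 836) (nat_lit 0) (XT.nd (nat_lit 936) (nat_lit 912) (nat_lit 0) (XT.nd (nat_lit 468) (nat_lit 684) (nat_lit 0) (XT.nd (nat_lit 234) (nat_lit 456) (nat_lit 0) (XT.nd (nat_lit 78) (nat_lit 304) (nat_lit 0) (XT.lf (nat_lit 0) (nat_lit 8059381336) (nat_lit 76) (nat_lit 1281936654) (nat_lit 152) (nat_lit 6792307447) (nat_lit 49) (nat_lit 5) (nat_lit 50) (nat_lit 5) (nat_lit 51) (nat_lit 4) (nat_lit 391) (nat_lit 323) (nat_lit 306)) (XT.nd (nat_lit 78) (nat_lit 76) (nat_lit 0) (XT.lf (nat_lit 0) (nat_lit 1420527024) (nat_lit 228) (nat_lit 8092404816) (nat_lit 76) (nat_lit 7148747859) (nat_lit 46) (nat_lit 5) (nat_lit 49) (nat_lit 5) (nat_lit 47) (nat_lit 4) (nat_lit 392) (nat_lit 323) (nat_lit 305)) (XT.lf (nat_lit 0) (nat_lit 8706368830) (nat_lit 76) (nat_lit 1172460009) (nat_lit 152) (nat_lit 7336051811) (nat_lit 45) (nat_lit 5) (nat_lit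 46) (nat_lit 5) (nat_lit 47) (nat_lit 4) (nat_lit 393) (nat_lit 323) (nat_lit 304)))) (XT.nd (nat_lit 78) (nat_lit 228) (nat_lit 0) (XT.lf (nat_lit 0) (nat_lit 982037863) (nat_lit 228) (nat_lit 9367180141) (nat_lit 76) (nat_lit 7445168011) (nat_lit 42) (nat_lit 5) (nat_lit 45) (nat_lit 5) (nat_lit 43) (nat_lit 4) (nat_lit 394) (nat_lit 323) (nat_lit 303)) (XT.nd (nat_lit 78) (nat_lit 152) (nat_lit 0) (XT.lf (nat_lit 0) (nat_lit 7682502811) (nat_lit 76) (nat_lit 1859584113) (nat_lit 152) (nat_lit 8859285499) (nat_lit 41) (nat_lit 5) (nat_lit 42) (nat_lit 5) (nat_lit 43) (nat_lit 4) (nat_lit 395) (nat_lit 323) (nat_lit 302)) (XT.lf (nat_lit 0) (nat_lit 6439929811) (nat_lit 152) (nat_lit 12123925300) (nat_lit 152) (nat_lit 473858753) (nat_lit 39) (nat_lit 4) (nat_lit 41) (nat_lit 5) (nat_lit 41) (nat_lit 4) (nat_lit 396) (nat_lit 323) (nat_lit 301))))) (XT.nd (nat_lit 234) (nat_lit 304) (nat_lit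 0) (XT.nd (nat_lit 78) (nat_lit 228) (nat_lit 0) (XT.lf (nat_lit 0) (nat_lit 4613185182) (nat_lit 76) (nat_lit 3540214990) (nat_lit 152) (nat_lit 11550531919) (nat_lit 37) (nat_lit 5) (nat_lit 38) (nat_lit 5) (nat_lit 39) (nat_lit 4) (nat_lit 397) (nat_lit 323) (nat_lit 300)) (XT.nd (nat_lit 78) (nat_lit 76) (nat_lit 0) (XT.lf (nat_lit 0) (nat_lit 2183529731) (nat_lit 152) (nat_lit 15038081210) (nat_lit 152) (nat_lit 3181143023) (nat_lit 35) (nat_lit 4) (nat_lit 37) (nat_lit 5) (nat_lit 37) (nat_lit 4) (nat_lit 398) (nat_lit 323) (nat_lit 299)) (XT.lf (nat_lit 0) (nat_lit 5508431122) (nat_lit 228) (nat_lit 928571657) (nat_lit 76) (nat_lit 14697577622) (nat_lit 34) (nat_lit 5) (nat_lit 37) (nat_lit 5) (nat_lit 35) (nat_lit 4) (nat_lit 399) (nat_lit 323) (nat_lit 298)))) (XT.nd (nat_lit 78) (nat_lit 228) (nat_lit 0) (XT.lf (nat_lit 0) (nat_lit 14585248674) (nat_lit 152) (nat_lit 4723587562) (nat_lit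 0) (nat_lit 2592673707) (nat_lit 33) (nat_lit 5) (nat_lit 35) (nat_lit 4) (nat_lit 33) (nat_lit 4) (nat_lit 400) (nat_lit 323) (nat_lit 297)) (XT.nd (nat_lit 78) (nat_lit 76) (nat_lit 0) (XT.lf (nat_lit 0) (nat_lit 1416075304) (nat_lit 152) (nat_lit 9341395985) (nat_lit 76) (nat_lit 11947887119) (nat_lit 31) (nat_lit 5) (nat_lit 33) (nat_lit 5) (nat_lit 32) (nat_lit 4) (nat_lit 401) (nat_lit 323) (nat_lit 296)) (XT.lf (nat_lit 0) (nat_lit 8687350767) (nat_lit 76) (nat_lit 1714714675) (nat_lit 152) (nat_lit 13146122014) (nat_lit 30) (nat_lit 5) (nat_lit 31) (nat_lit 5) (nat_lit 32) (nat_lit 4) (nat_lit 402) (nat_lit 323) (nat_lit 295)))))) (XT.nd (nat_lit 468) (nat_lit 456) (nat_lit 0) (XT.nd (nat_lit 234) (nat_lit 228) (nat_lit 0) (XT.nd (nat_lit 78) (nat_lit 152) (nat_lit 0) (XT.lf (nat_lit 0) (nat_lit 3057462608) (nat_lit 76) (nat_lit 16819072055) (nat_lit 76) (nat_lit 4555459099) (nat_lit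 29) (nat_lit 4) (nat_lit 30) (nat_lit 5) (nat_lit 30) (nat_lit 4) (nat_lit 403) (nat_lit 323) (nat_lit 294)) (XT.nd (nat_lit 78) (nat_lit 76) (nat_lit 0) (XT.lf (nat_lit 0) (nat_lit 4390570222) (nat_lit 152) (nat_lit 3538161102) (nat_lit 76) (nat_lit 17429593185) (nat_lit 28) (nat_lit 5) (nat_lit 30) (nat_lit 5) (nat_lit 29) (nat_lit 4) (nat_lit 404) (nat_lit 323) (nat_lit 293)) (XT.lf (nat_lit 0) (nat_lit 13699013867) (nat_lit 152) (nat_lit 11192971760) (nat_lit 0) (nat_lit 1437363116) (nat_lit 27) (nat_lit 5) (nat_lit 29) (nat_lit 4) (nat_lit 27) (nat_lit 4) (nat_lit 405) (nat_lit 323) (nat_lit 292)))) (XT.nd (nat_lit 78) (nat_lit 152) (nat_lit 0) (XT.lf (nat_lit 0) (nat_lit 7248144433) (nat_lit 76) (nat_lit 16263159359) (nat_lit 76) (nat_lit 3836477061) (nat_lit 26) (nat_lit 4) (nat_lit 27) (nat_lit 5) (nat_lit 27) (nat_lit 4) (nat_lit 406) (nat_lit 323) (nat_lit 291)) (XT.nd (nat_lit 78)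 (nat_lit 76) (nat_lit 0) (XT.lf (nat_lit 0) (nat_lit 5263031729) (nat_lit 152) (nat_lit 1899900788) (nat_lit 76) (nat_lit 21253516100) (nat_lit 25) (nat_lit 5) (nat_lit 27) (nat_lit 5) (nat_lit 26) (nat_lit 4) (nat_lit 407) (nat_lit 323) (nat_lit 290)) (XT.lf (nat_lit 0) (nat_lit 14790274715) (nat_lit 152) (nat_lit 12317969733) (nat_lit 0) (nat_lit 2427610951) (nat_lit 24) (nat_lit 5) (nat_lit 26) (nat_lit 4) (nat_lit 24) (nat_lit 4) (nat_lit 408) (nat_lit 323) (nat_lit 289))))) (XT.nd (nat_lit 234) (nat_lit 228) (nat_lit 0) (XT.nd (nat_lit 78) (nat_lit 152) (nat_lit 0) (XT.lf (nat_lit 0) (nat_lit 6412862164) (nat_lit 76) (nat_lit 18399448637) (nat_lit 76) (nat_lit 5898376664) (nat_lit 23) (nat_lit 4) (nat_lit 24) (nat_lit 5) (nat_lit 24) (nat_lit 4) (nat_lit 409) (nat_lit 323) (nat_lit 288)) (XT.nd (nat_lit 78) (nat_lit 76) (nat_lit 0) (XT.lf (nat_lit 0) (nat_lit 3320512082) (nat_lit 152) (nat_lit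 5892249787) (nat_lit 76) (nat_lit 22730663637) (nat_lit 22) (nat_lit 5) (nat_lit 24) (nat_lit 5) (nat_lit 23) (nat_lit 4) (nat_lit 410) (nat_lit 323) (nat_lit 287)) (XT.lf (nat_lit 0) (nat_lit 12886879247) (nat_lit 152) (nat_lit 19848866144) (nat_lit 0) (nat_lit 500054354) (nat_lit 21) (nat_lit 5) (nat_lit 23) (nat_lit 4) (nat_lit 21) (nat_lit 4) (nat_lit 411) (nat_lit 323) (nat_lit 286)))) (XT.nd (nat_lit 78) (nat_lit 228) (nat_lit 0) (XT.lf (nat_lit 0) (nat_lit 22962204372) (nat_lit 152) (nat_lit 1170376081) (nat_lit 0) (nat_lit 10459299658) (nat_lit 21) (nat_lit 5) (nat_lit 23) (nat_lit 4) (nat_lit 21) (nat_lit 4) (nat_lit 412) (nat_lit 323) (nat_lit 285)) (XT.nd (nat_lit 78) (nat_lit 152) (nat_lit 0) (XT.lf (nat_lit 0) (nat_lit 18576900036) (nat_lit 76) (nat_lit 15025251007) (nat_lit 76) (nat_lit 2411794083) (nat_lit 20) (nat_lit 4) (nat_lit 21) (nat_lit 5) (nat_lit 21) (nat_lit 4) (nat_lit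 413) (nat_lit 323) (nat_lit 284)) (XT.lf (nat_lit 0) (nat_lit 1566420582) (nat_lit 76) (nat_lit 5470606671) (nat_lit 152) (nat_lit 30470640795) (nat_lit 18) (nat_lit 5) (nat_lit 19) (nat_lit 5) (nat_lit 20) (nat_lit 4) (nat_lit 414) (nat_lit 323) (nat_lit 283))))))) (XT.nd (nat_lit 936) (nat_lit 304) (nat_lit 0) (XT.nd (nat_lit 468) (nat_lit 304) (nat_lit 0) (XT.nd (nat_lit 234) (nat_lit 152) (nat_lit 0) (XT.nd (nat_lit 78) (nat_lit 76) (nat_lit 0) (XT.lf (nat_lit 0) (nat_lit 17021024542) (nat_lit 152) (nat_lit 17475588137) (nat_lit 0) (nat_lit 4575375167) (nat_lit 18) (nat_lit 5) (nat_lit 20) (nat_lit 4) (nat_lit 18) (nat_lit 4) (nat_lit 415) (nat_lit 323) (nat_lit 282)) (XT.nd (nat_lit 78) (nat_lit 0) (nat_lit 0) (XT.lf (nat_lit 0) (nat_lit 1682038804) (nat_lit 76) (nat_lit 25785971720) (nat_lit 76) (nat_lit 13247604719) (nat_lit 17) (nat_lit 4) (nat_lit 18) (nat_lit 5) (nat_lit 18) (nat_lit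 4) (nat_lit 416) (nat_lit 323) (nat_lit 281)) (XT.lf (nat_lit 0) (nat_lit 21959802359) (nat_lit 76) (nat_lit 16553016000) (nat_lit 76) (nat_lit 3926346497) (nat_lit 17) (nat_lit 4) (nat_lit 18) (nat_lit 5) (nat_lit 18) (nat_lit 4) (nat_lit 417) (nat_lit 323) (nat_lit 280)))) (XT.nd (nat_lit 78) (nat_lit 76) (nat_lit 0) (XT.lf (nat_lit 0) (nat_lit 5646165885) (nat_lit 152) (nat_lit 1249050376) (nat_lit 76) (nat_lit 37355003357) (nat_lit 16) (nat_lit 5) (nat_lit 18) (nat_lit 5) (nat_lit 17) (nat_lit 4) (nat_lit 418) (nat_lit 323) (nat_lit 279)) (XT.nd (nat_lit 78) (nat_lit 0) (nat_lit 0) (XT.lf (nat_lit 0) (nat_lit 15737238909) (nat_lit 152) (nat_lit 27090864115) (nat_lit 0) (nat_lit 3318928138) (nat_lit 15) (nat_lit 5) (nat_lit 17) (nat_lit 4) (nat_lit 15) (nat_lit 4) (nat_lit 419) (nat_lit 323) (nat_lit 278)) (XT.lf (nat_lit 0) (nat_lit 26321763296) (nat_lit 152) (nat_lit 7987862047) (nat_lit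 0) (nat_lit 13829395222) (nat_lit 15) (nat_lit 5) (nat_lit 17) (nat_lit 4) (nat_lit 15) (nat_lit 4) (nat_lit 420) (nat_lit 323) (nat_lit 277))))) (XT.nd (nat_lit 234) (nat_lit 76) (nat_lit 0) (XT.nd (nat_lit 78) (nat_lit 152) (nat_lit 0) (XT.lf (nat_lit 0) (nat_lit 12133157510) (nat_lit 76) (nat_lit 25329766241) (nat_lit 76) (nat_lit 12766867404) (nat_lit 14) (nat_lit 4) (nat_lit 15) (nat_lit 5) (nat_lit 15) (nat_lit 4) (nat_lit 421) (nat_lit 323) (nat_lit 276)) (XT.nd (nat_lit 78) (nat_lit 152) (nat_lit 0) (XT.lf (nat_lit 0) (nat_lit 33258241294) (nat_lit 76) (nat_lit 15898532425) (nat_lit 76) (nat_lit 3268461432) (nat_lit 14) (nat_lit 4) (nat_lit 15) (nat_lit 5) (nat_lit 15) (nat_lit 4) (nat_lit 422) (nat_lit 323) (nat_lit 275)) (XT.lf (nat_lit 0) (nat_lit 491744883) (nat_lit 76) (nat_lit 6003717854) (nat_lit 152) (nat_lit 48235415586) (nat_lit 12) (nat_lit 5) (nat_lit 13) (nat_lit 5) (nat_lit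 14) (nat_lit 4) (nat_lit 423) (nat_lit 323) (nat_lit 274)))) (XT.nd (nat_lit 78) (nat_lit 76) (nat_lit 0) (XT.lf (nat_lit 0) (nat_lit 16840450275) (nat_lit 152) (nat_lit 35848589294) (nat_lit 0) (nat_lit 4456982702) (nat_lit 12) (nat_lit 5) (nat_lit 14) (nat_lit 4) (nat_lit 12) (nat_lit 4) (nat_lit 424) (nat_lit 323) (nat_lit 273)) (XT.nd (nat_lit 78) (nat_lit 76) (nat_lit 0) (XT.lf (nat_lit 0) (nat_lit 27685584554) (nat_lit 152) (nat_lit 16751073924) (nat_lit 0) (nat_lit 15245781220) (nat_lit 12) (nat_lit 5) (nat_lit 14) (nat_lit 4) (nat_lit 12) (nat_lit 4) (nat_lit 425) (nat_lit 323) (nat_lit 272)) (XT.lf (nat_lit 0) (nat_lit 3219416770) (nat_lit 76) (nat_lit 35810506149) (nat_lit 76) (nat_lit 23317049710) (nat_lit 11) (nat_lit 4) (nat_lit 12) (nat_lit 5) (nat_lit 12) (nat_lit 4) (nat_lit 426) (nat_lit 323) (nat_lit 271)))))) (XT.nd (nat_lit 468) (nat_lit 152) (nat_lit 0) (XT.nd (nat_lit 234)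 (nat_lit 76) (nat_lit 0) (XT.nd (nat_lit 78) (nat_lit 76) (nat_lit 0) (XT.lf (nat_lit 0) (nat_lit 24397905767) (nat_lit 76) (nat_lit 26644182835) (nat_lit 76) (nat_lit 14099628199) (nat_lit 11) (nat_lit 4) (nat_lit 12) (nat_lit 5) (nat_lit 12) (nat_lit 4) (nat_lit 427) (nat_lit 323) (nat_lit 270)) (XT.nd (nat_lit 78) (nat_lit 76) (nat_lit 0) (XT.lf (nat_lit 0) (nat_lit 46501438823) (nat_lit 76) (nat_lit 17085016957) (nat_lit 76) (nat_lit 4491797373) (nat_lit 11) (nat_lit 4) (nat_lit 12) (nat_lit 5) (nat_lit 12) (nat_lit 4) (nat_lit 428) (nat_lit 323) (nat_lit 269)) (XT.lf (nat_lit 0) (nat_lit 5421421635) (nat_lit 152) (nat_lit 1634081233) (nat_lit 76) (nat_lit 64106476035) (nat_lit 10) (nat_lit 5) (nat_lit 12) (nat_lit 5) (nat_lit 11) (nat_lit 4) (nat_lit 429) (nat_lit 323) (nat_lit 268)))) (XT.nd (nat_lit 78) (nat_lit 0) (nat_lit 0) (XT.lf (nat_lit 0) (nat_lit 15898367433) (nat_lit 152) (nat_lit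 54911274741) (nat_lit 0) (nat_lit 3584088115) (nat_lit 9) (nat_lit 5) (nat_lit 11) (nat_lit 4) (nat_lit 9) (nat_lit 4) (nat_lit 430) (nat_lit 323) (nat_lit 267)) (XT.nd (nat_lit 78) (nat_lit 0) (nat_lit 0) (XT.lf (nat_lit 0) (nat_lit 26925975311) (nat_lit 152) (nat_lit 36289410004) (nat_lit 0) (nat_lit 14570881807) (nat_lit 9) (nat_lit 5) (nat_lit 11) (nat_lit 4) (nat_lit 9) (nat_lit 4) (nat_lit 431) (nat_lit 323) (nat_lit 266)) (XT.lf (nat_lit 0) (nat_lit 38446500647) (nat_lit 152) (nat_lit 16851149759) (nat_lit 0) (nat_lit 26052536489) (nat_lit 9) (nat_lit 5) (nat_lit 11) (nat_lit 4) (nat_lit 9) (nat_lit 4) (nat_lit 432) (nat_lit 323) (nat_lit 265))))) (XT.nd (nat_lit 234) (nat_lit 76) (nat_lit 0) (XT.nd (nat_lit 78) (nat_lit 0) (nat_lit 0) (XT.lf (nat_lit 0) (nat_lit 3518445102) (nat_lit 76) (nat_lit 47002749608) (nat_lit 76) (nat_lit 34571765780) (nat_lit 8) (nat_lit 4) (nat_lit 9) (nat_lit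 5) (nat_lit 9) (nat_lit 4) (nat_lit 433) (nat_lit 323) (nat_lit 264)) (XT.nd (nat_lit 78) (nat_lit 0) (nat_lit 0) (XT.lf (nat_lit 0) (nat_lit 25152554469) (nat_lit 76) (nat_lit 38166489177) (nat_lit 76) (nat_lit 25700248520) (nat_lit 8) (nat_lit 4) (nat_lit 9) (nat_lit 5) (nat_lit 9) (nat_lit 4) (nat_lit 434) (nat_lit 323) (nat_lit 263)) (XT.lf (nat_lit 0) (nat_lit 47767317202) (nat_lit 76) (nat_lit 28937993968) (nat_lit 76) (nat_lit 16438175379) (nat_lit 8) (nat_lit 4) (nat_lit 9) (nat_lit 5) (nat_lit 9) (nat_lit 4) (nat_lit 435) (nat_lit 323) (nat_lit 262)))) (XT.nd (nat_lit 48126) (nat_lit 0) (nat_lit 7980) (XT.nd (nat_lit 78) (nat_lit 76) (nat_lit 0) (XT.lf (nat_lit 0) (nat_lit 71416577976) (nat_lit 76) (nat_lit 19295291375) (nat_lit 76) (nat_lit 6763493802) (nat_lit 8) (nat_lit 4) (nat_lit 9) (nat_lit 5) (nat_lit 9) (nat_lit 4) (nat_lit 436) (nat_lit 323) (nat_lit 261)) (XT.lf (nat_lit 0)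 (nat_lit 3281522434) (nat_lit 152) (nat_lit 5900763205) (nat_lit 76) (nat_lit 92841985178) (nat_lit 7) (nat_lit 5) (nat_lit 9) (nat_lit 5) (nat_lit 8) (nat_lit 4) (nat_lit 437) (nat_lit 323) (nat_lit 260))) (XT.nd (nat_lit 78) (nat_lit 304) (nat_lit 0) (XT.lf (nat_lit 0) (nat_lit 1234964308) (nat_lit 304) (nat_lit 1789490021) (nat_lit 304) (nat_lit 1789490021) (nat_lit 116) (nat_lit 4) (nat_lit 120) (nat_lit 5) (nat_lit 120) (nat_lit 4) (nat_lit 372) (nat_lit 324) (nat_lit 324)) (XT.lf (nat_lit 0) (nat_lit 3665923825) (nat_lit 304) (nat_lit 3814568114) (nat_lit 0) (nat_lit 2366181203) (nat_lit 112) (nat_lit 5) (nat_lit 116) (nat_lit 4) (nat_lit 112) (nat_lit 4) (nat_lit 373) (nat_lit 324) (nat_lit 323))))))))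
noncomputable def xc22 : XT := (XT.nd (nat_lit 1872) (nat_lit 1824) (nat_lit 0) (XT.nd (nat_lit 936) (nat_lit 1976) (nat_lit 0) (XT.nd (nat_lit 468) (nat_lit 1520) (nat_lit 0) (XT.nd (nat_lit 234) (nat_lit 988) (nat_lit 0) (XT.nd (nat_lit 78) (nat_lit 760) (nat_lit 0) (XT.lf (nat_lit 0) (nat_lit 1026906577) (nat_lit 380) (nat_lit 452972385) (nat_lit 76) (nat_lit 8597445663) (nat_lit 107) (nat_lit 5) (nat_lit 112) (nat_lit 5) (nat_lit 108) (nat_lit 4) (nat_lit 374) (nat_lit 324) (nat_lit 322)) (XT.nd (nat_lit 78) (nat_lit 304) (nat_lit 0) (XT.lf (nat_lit 0) (nat_lit 2952000997) (nat_lit 228) (nat_lit 5487409136) (nat_lit 228) (nat_lit 1879159027) (nat_lit 101) (nat_lit 4) (nat_lit 104) (nat_lit 5) (nat_lit 104) (nat_lit 4) (nat_lit 375) (nat_lit 324) (nat_lit 321)) (XT.lf (nat_lit 0) (nat_lit 5468977605) (nat_lit 304) (nat_lit 4195964600) (nat_lit 0) (nat_lit 907507007) (nat_lit 97) (nat_lit 5)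 (nat_lit 101) (nat_lit 4) (nat_lit 97) (nat_lit 4) (nat_lit 376) (nat_lit 324) (nat_lit 320)))) (XT.nd (nat_lit 78) (nat_lit 684) (nat_lit 0) (XT.lf (nat_lit 0) (nat_lit 2224634689) (nat_lit 304) (nat_lit 1053381371) (nat_lit 76) (nat_lit 7560965436) (nat_lit 93) (nat_lit 5) (nat_lit 97) (nat_lit 5) (nat_lit 94) (nat_lit 4) (nat_lit 377) (nat_lit 324) (nat_lit 319)) (XT.nd (nat_lit 78) (nat_lit 228) (nat_lit 0) (XT.lf (nat_lit 0) (nat_lit 2105030277) (nat_lit 228) (nat_lit 7676228066) (nat_lit 228) (nat_lit 1337089394) (nat_lit 87) (nat_lit 4) (nat_lit 90) (nat_lit 5) (nat_lit 90) (nat_lit 4) (nat_lit 378) (nat_lit 324) (nat_lit 318)) (XT.lf (nat_lit 0) (nat_lit 5240870633) (nat_lit 152) (nat_lit 900801375) (nat_lit 228) (nat_lit 5269421692) (nat_lit 84) (nat_lit 5) (nat_lit 86) (nat_lit 5) (nat_lit 87) (nat_lit 4) (nat_lit 379) (nat_lit 324) (nat_lit 317))))) (XT.nd (nat_lit 234) (nat_lit 608)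 (nat_lit 0) (XT.nd (nat_lit 78) (nat_lit 608) (nat_lit 0) (XT.lf (nat_lit 0) (nat_lit 2187309745) (nat_lit 304) (nat_lit 3396695657) (nat_lit 76) (nat_lit 6133994768) (nat_lit 80) (nat_lit 5) (nat_lit 84) (nat_lit 5) (nat_lit 81) (nat_lit 4) (nat_lit 380) (nat_lit 324) (nat_lit 316)) (XT.nd (nat_lit 78) (nat_lit 456) (nat_lit 0) (XT.lf (nat_lit 0) (nat_lit 9860477192) (nat_lit 228) (nat_lit 686723993) (nat_lit 0) (nat_lit 1492951395) (nat_lit 78) (nat_lit 5) (nat_lit 81) (nat_lit 4) (nat_lit 78) (nat_lit 4) (nat_lit 381) (nat_lit 324) (nat_lit 315)) (XT.lf (nat_lit 0) (nat_lit 1952117370) (nat_lit 152) (nat_lit 3487468325) (nat_lit 228) (nat_lit 6937006166) (nat_lit 72) (nat_lit 5) (nat_lit 74) (nat_lit 5) (nat_lit 75) (nat_lit 4) (nat_lit 382) (nat_lit 324) (nat_lit 314)))) (XT.nd (nat_lit 78) (nat_lit 380) (nat_lit 0) (XT.lf (nat_lit 0) (nat_lit 633814130) (nat_lit 228) (nat_lit 8207087748)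 (nat_lit 76) (nat_lit 3888710508) (nat_lit 69) (nat_lit 5) (nat_lit 72) (nat_lit 5) (nat_lit 70) (nat_lit 4) (nat_lit 383) (nat_lit 324) (nat_lit 313)) (XT.nd (nat_lit 78) (nat_lit 228) (nat_lit 0) (XT.lf (nat_lit 0) (nat_lit 6955953793) (nat_lit 152) (nat_lit 1460852024) (nat_lit 228) (nat_lit 4682139826) (nat_lit 67) (nat_lit 5) (nat_lit 69) (nat_lit 5) (nat_lit 70) (nat_lit 4) (nat_lit 384) (nat_lit 324) (nat_lit 312)) (XT.lf (nat_lit 0) (nat_lit 3047670836) (nat_lit 228) (nat_lit 4236808136) (nat_lit 76) (nat_lit 6201224348) (nat_lit 64) (nat_lit 5) (nat_lit 67) (nat_lit 5) (nat_lit 65) (nat_lit 4) (nat_lit 385) (nat_lit 324) (nat_lit 311)))))) (XT.nd (nat_lit 468) (nat_lit 836) (nat_lit 0) (XT.nd (nat_lit 234) (nat_lit 456) (nat_lit 0) (XT.nd (nat_lit 78) (nat_lit 532) (nat_lit 0) (XT.lf (nat_lit 0) (nat_lit 11035892411) (nat_lit 228) (nat_lit 2483697166) (nat_lit 0) (nat_lit 371786898)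 (nat_lit 62) (nat_lit 5) (nat_lit 65) (nat_lit 4) (nat_lit 62) (nat_lit 4) (nat_lit 386) (nat_lit 324) (nat_lit 310)) (XT.nd (nat_lit 78) (nat_lit 304) (nat_lit 0) (XT.lf (nat_lit 0) (nat_lit 5034453200) (nat_lit 228) (nat_lit 962379797) (nat_lit 76) (nat_lit 8318219347) (nat_lit 59) (nat_lit 5) (nat_lit 62) (nat_lit 5) (nat_lit 60) (nat_lit 4) (nat_lit 387) (nat_lit 324) (nat_lit 309)) (XT.lf (nat_lit 0) (nat_lit 384749178) (nat_lit 152) (nat_lit 12855358663) (nat_lit 152) (nat_lit 1519574970) (nat_lit 55) (nat_lit 4) (nat_lit 57) (nat_lit 5) (nat_lit 57) (nat_lit 4) (nat_lit 388) (nat_lit 324) (nat_lit 308)))) (XT.nd (nat_lit 78) (nat_lit 304) (nat_lit 0) (XT.lf (nat_lit 0) (nat_lit 1461555271) (nat_lit 76) (nat_lit 5067353217) (nat_lit 152) (nat_lit 8694886507) (nat_lit 53) (nat_lit 5) (nat_lit 54) (nat_lit 5) (nat_lit 55) (nat_lit 4) (nat_lit 389) (nat_lit 324) (nat_lit 307)) (XT.nd (nat_lit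 78) (nat_lit 152) (nat_lit 0) (XT.lf (nat_lit 0) (nat_lit 2298734741) (nat_lit 152) (nat_lit 12641411370) (nat_lit 152) (nat_lit 770786608) (nat_lit 51) (nat_lit 4) (nat_lit 53) (nat_lit 5) (nat_lit 53) (nat_lit 4) (nat_lit 390) (nat_lit 324) (nat_lit 306)) (XT.lf (nat_lit 0) (nat_lit 2785254786) (nat_lit 76) (nat_lit 4632352247) (nat_lit 152) (nat_lit 8802203162) (nat_lit 49) (nat_lit 5) (nat_lit 50) (nat_lit 5) (nat_lit 51) (nat_lit 4) (nat_lit 391) (nat_lit 324) (nat_lit 305))))) (XT.nd (nat_lit 234) (nat_lit 380) (nat_lit 0) (XT.nd (nat_lit 78) (nat_lit 304) (nat_lit 0) (XT.lf (nat_lit 0) (nat_lit 2965509553) (nat_lit 152) (nat_lit 13037462421) (nat_lit 152) (nat_lit 750846982) (nat_lit 47) (nat_lit 4) (nat_lit 49) (nat_lit 5) (nat_lit 49) (nat_lit 4) (nat_lit 392) (nat_lit 324) (nat_lit 304)) (XT.nd (nat_lit 78) (nat_lit 152) (nat_lit 0) (XT.lf (nat_lit 0) (nat_lit 2723816352) (nat_lit 76)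 (nat_lit 4844812510) (nat_lit 152) (nat_lit 9743221439) (nat_lit 45) (nat_lit 5) (nat_lit 46) (nat_lit 5) (nat_lit 47) (nat_lit 4) (nat_lit 393) (nat_lit 324) (nat_lit 303)) (XT.lf (nat_lit 0) (nat_lit 2095056281) (nat_lit 152) (nat_lit 14200923299) (nat_lit 152) (nat_lit 1601376328) (nat_lit 43) (nat_lit 4) (nat_lit 45) (nat_lit 5) (nat_lit 45) (nat_lit 4) (nat_lit 394) (nat_lit 324) (nat_lit 302)))) (XT.nd (nat_lit 78) (nat_lit 228) (nat_lit 0) (XT.lf (nat_lit 0) (nat_lit 960674403) (nat_lit 76) (nat_lit 5872752331) (nat_lit 152) (nat_lit 11676080620) (nat_lit 41) (nat_lit 5) (nat_lit 42) (nat_lit 5) (nat_lit 43) (nat_lit 4) (nat_lit 395) (nat_lit 324) (nat_lit 301)) (XT.nd (nat_lit 78) (nat_lit 228) (nat_lit 0) (XT.lf (nat_lit 0) (nat_lit 15664872734) (nat_lit 152) (nat_lit 645099636) (nat_lit 0) (nat_lit 2841594085) (nat_lit 41) (nat_lit 5) (nat_lit 43) (nat_lit 4) (nat_lit 41) (nat_lit 4)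 (nat_lit 396) (nat_lit 324) (nat_lit 300)) (XT.lf (nat_lit 0) (nat_lit 5060623532) (nat_lit 228) (nat_lit 2824642041) (nat_lit 76) (nat_lit 11937557327) (nat_lit 38) (nat_lit 5) (nat_lit 41) (nat_lit 5) (nat_lit 39) (nat_lit 4) (nat_lit 397) (nat_lit 324) (nat_lit 299))))))) (XT.nd (nat_lit 936) (nat_lit 760) (nat_lit 0) (XT.nd (nat_lit 468) (nat_lit 456) (nat_lit 0) (XT.nd (nat_lit 234) (nat_lit 228) (nat_lit 0) (XT.nd (nat_lit 78) (nat_lit 304) (nat_lit 0) (XT.lf (nat_lit 0) (nat_lit 13952041006) (nat_lit 152) (nat_lit 5592843428) (nat_lit 0) (nat_lit 982071180) (nat_lit 37) (nat_lit 5) (nat_lit 39) (nat_lit 4) (nat_lit 37) (nat_lit 4) (nat_lit 398) (nat_lit 324) (nat_lit 298)) (XT.nd (nat_lit 78) (nat_lit 76) (nat_lit 0) (XT.lf (nat_lit 0) (nat_lit 2041192142) (nat_lit 228) (nat_lit 9068015157) (nat_lit 76) (nat_lit 10154750716) (nat_lit 34) (nat_lit 5) (nat_lit 37) (nat_lit 5) (nat_lit 35)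 (nat_lit 4) (nat_lit 399) (nat_lit 324) (nat_lit 297)) (XT.lf (nat_lit 0) (nat_lit 8748147863) (nat_lit 76) (nat_lit 2182857345) (nat_lit 152) (nat_lit 11105498685) (nat_lit 33) (nat_lit 5) (nat_lit 34) (nat_lit 5) (nat_lit 35) (nat_lit 4) (nat_lit 400) (nat_lit 324) (nat_lit 296)))) (XT.nd (nat_lit 78) (nat_lit 152) (nat_lit 0) (XT.lf (nat_lit 0) (nat_lit 4512636472) (nat_lit 76) (nat_lit 15798389302) (nat_lit 76) (nat_lit 2535291891) (nat_lit 32) (nat_lit 4) (nat_lit 33) (nat_lit 5) (nat_lit 33) (nat_lit 4) (nat_lit 401) (nat_lit 324) (nat_lit 295)) (XT.nd (nat_lit 78) (nat_lit 76) (nat_lit 0) (XT.lf (nat_lit 0) (nat_lit 6339695053) (nat_lit 152) (nat_lit 596195716) (nat_lit 76) (nat_lit 16758806803) (nat_lit 31) (nat_lit 5) (nat_lit 33) (nat_lit 5) (nat_lit 32) (nat_lit 4) (nat_lit 402) (nat_lit 324) (nat_lit 294)) (XT.lf (nat_lit 0) (nat_lit 15653368653) (nat_lit 152) (nat_lit 6537570928)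 (nat_lit 0) (nat_lit 2392393366) (nat_lit 30) (nat_lit 5) (nat_lit 32) (nat_lit 4) (nat_lit 30) (nat_lit 4) (nat_lit 403) (nat_lit 324) (nat_lit 293))))) (XT.nd (nat_lit 234) (nat_lit 228) (nat_lit 0) (XT.nd (nat_lit 78) (nat_lit 152) (nat_lit 0) (XT.lf (nat_lit 0) (nat_lit 11999948519) (nat_lit 76) (nat_lit 13477291602) (nat_lit 76) (nat_lit 37834698) (nat_lit 29) (nat_lit 4) (nat_lit 30) (nat_lit 5) (nat_lit 30) (nat_lit 4) (nat_lit 404) (nat_lit 324) (nat_lit 292)) (XT.nd (nat_lit 78) (nat_lit 0) (nat_lit 0) (XT.lf (nat_lit 0) (nat_lit 4838893900) (nat_lit 76) (nat_lit 4248955015) (nat_lit 152) (nat_lit 17403770578) (nat_lit 27) (nat_lit 5) (nat_lit 28) (nat_lit 5) (nat_lit 29) (nat_lit 4) (nat_lit 405) (nat_lit 324) (nat_lit 291)) (XT.lf (nat_lit 0) (nat_lit 18720837033) (nat_lit 152) (nat_lit 3443981814) (nat_lit 0) (nat_lit 5350616172) (nat_lit 27) (nat_lit 5) (nat_lit 29) (nat_lit 4) (nat_lit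 27) (nat_lit 4) (nat_lit 406) (nat_lit 324) (nat_lit 290)))) (XT.nd (nat_lit 78) (nat_lit 76) (nat_lit 0) (XT.lf (nat_lit 0) (nat_lit 300158291) (nat_lit 152) (nat_lit 12910588007) (nat_lit 76) (nat_lit 15377835431) (nat_lit 25) (nat_lit 5) (nat_lit 27) (nat_lit 5) (nat_lit 26) (nat_lit 4) (nat_lit 407) (nat_lit 324) (nat_lit 289)) (XT.nd (nat_lit 78) (nat_lit 0) (nat_lit 0) (XT.lf (nat_lit 0) (nat_lit 5886939316) (nat_lit 76) (nat_lit 3743311476) (nat_lit 152) (nat_lit 20083656074) (nat_lit 24) (nat_lit 5) (nat_lit 25) (nat_lit 5) (nat_lit 26) (nat_lit 4) (nat_lit 408) (nat_lit 324) (nat_lit 288)) (XT.lf (nat_lit 0) (nat_lit 19491820009) (nat_lit 152) (nat_lit 5306267702) (nat_lit 0) (nat_lit 6095468886) (nat_lit 24) (nat_lit 5) (nat_lit 26) (nat_lit 4) (nat_lit 24) (nat_lit 4) (nat_lit 409) (nat_lit 324) (nat_lit 287)))))) (XT.nd (nat_lit 468) (nat_lit 304) (nat_lit 0) (XT.nd (nat_lit 234)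 (nat_lit 228) (nat_lit 0) (XT.nd (nat_lit 78) (nat_lit 152) (nat_lit 0) (XT.lf (nat_lit 0) (nat_lit 14142462152) (nat_lit 76) (nat_lit 15755047003) (nat_lit 76) (nat_lit 2233155555) (nat_lit 23) (nat_lit 4) (nat_lit 24) (nat_lit 5) (nat_lit 24) (nat_lit 4) (nat_lit 410) (nat_lit 324) (nat_lit 286)) (XT.nd (nat_lit 78) (nat_lit 0) (nat_lit 0) (XT.lf (nat_lit 0) (nat_lit 961856260) (nat_lit 76) (nat_lit 6231892470) (nat_lit 152) (nat_lit 26235428628) (nat_lit 21) (nat_lit 5) (nat_lit 22) (nat_lit 5) (nat_lit 23) (nat_lit 4) (nat_lit 411) (nat_lit 324) (nat_lit 285)) (XT.lf (nat_lit 0) (nat_lit 17151746050) (nat_lit 152) (nat_lit 13839970506) (nat_lit 0) (nat_lit 3797064070) (nat_lit 21) (nat_lit 5) (nat_lit 23) (nat_lit 4) (nat_lit 21) (nat_lit 4) (nat_lit 412) (nat_lit 324) (nat_lit 284)))) (XT.nd (nat_lit 78) (nat_lit 152) (nat_lit 0) (XT.lf (nat_lit 0) (nat_lit 5547294666) (nat_lit 76) (nat_lit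 22064460905) (nat_lit 76) (nat_lit 8604491106) (nat_lit 20) (nat_lit 4) (nat_lit 21) (nat_lit 5) (nat_lit 21) (nat_lit 4) (nat_lit 413) (nat_lit 324) (nat_lit 283)) (XT.nd (nat_lit 78) (nat_lit 76) (nat_lit 0) (XT.lf (nat_lit 0) (nat_lit 896514622) (nat_lit 152) (nat_lit 11740319228) (nat_lit 76) (nat_lit 25076984013) (nat_lit 19) (nat_lit 5) (nat_lit 21) (nat_lit 5) (nat_lit 20) (nat_lit 4) (nat_lit 414) (nat_lit 324) (nat_lit 282)) (XT.lf (nat_lit 0) (nat_lit 8001387714) (nat_lit 76) (nat_lit 2667149616) (nat_lit 152) (nat_lit 28615962142) (nat_lit 18) (nat_lit 5) (nat_lit 19) (nat_lit 5) (nat_lit 20) (nat_lit 4) (nat_lit 415) (nat_lit 324) (nat_lit 281))))) (XT.nd (nat_lit 234) (nat_lit 228) (nat_lit 0) (XT.nd (nat_lit 78) (nat_lit 76) (nat_lit 0) (XT.lf (nat_lit 0) (nat_lit 21023729673) (nat_lit 152) (nat_lit 12229729261) (nat_lit 0) (nat_lit 7677424194) (nat_lit 18) (nat_lit 5) (nat_lit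 20) (nat_lit 4) (nat_lit 18) (nat_lit 4) (nat_lit 416) (nat_lit 324) (nat_lit 280)) (XT.nd (nat_lit 78) (nat_lit 0) (nat_lit 0) (XT.lf (nat_lit 0) (nat_lit 7710360825) (nat_lit 76) (nat_lit 24189764852) (nat_lit 76) (nat_lit 10759361753) (nat_lit 17) (nat_lit 4) (nat_lit 18) (nat_lit 5) (nat_lit 18) (nat_lit 4) (nat_lit 417) (nat_lit 324) (nat_lit 279)) (XT.lf (nat_lit 0) (nat_lit 28718954458) (nat_lit 76) (nat_lit 14632566368) (nat_lit 76) (nat_lit 1122070296) (nat_lit 17) (nat_lit 4) (nat_lit 18) (nat_lit 5) (nat_lit 18) (nat_lit 4) (nat_lit 418) (nat_lit 324) (nat_lit 278)))) (XT.nd (nat_lit 156) (nat_lit 76) (nat_lit 0) (XT.nd (nat_lit 78) (nat_lit 0) (nat_lit 0) (XT.lf (nat_lit 0) (nat_lit 4218287678) (nat_lit 76) (nat_lit 4552679203) (nat_lit 152) (nat_lit 37606359366) (nat_lit 15) (nat_lit 5) (nat_lit 16) (nat_lit 5) (nat_lit 17) (nat_lit 4) (nat_lit 419) (nat_lit 324) (nat_lit 277)) (XT.lf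 (nat_lit 0) (nat_lit 19268205456) (nat_lit 152) (nat_lit 23097099813) (nat_lit 0) (nat_lit 6006630913) (nat_lit 15) (nat_lit 5) (nat_lit 17) (nat_lit 4) (nat_lit 15) (nat_lit 4) (nat_lit 420) (nat_lit 324) (nat_lit 276))) (XT.nd (nat_lit 78) (nat_lit 76) (nat_lit 0) (XT.lf (nat_lit 0) (nat_lit 30251284414) (nat_lit 152) (nat_lit 3293628952) (nat_lit 0) (nat_lit 16922537715) (nat_lit 15) (nat_lit 5) (nat_lit 17) (nat_lit 4) (nat_lit 15) (nat_lit 4) (nat_lit 421) (nat_lit 324) (nat_lit 275)) (XT.lf (nat_lit 0) (nat_lit 17687433810) (nat_lit 76) (nat_lit 24185179428) (nat_lit 76) (nat_lit 10792459248) (nat_lit 14) (nat_lit 4) (nat_lit 15) (nat_lit 5) (nat_lit 15) (nat_lit 4) (nat_lit 422) (nat_lit 324) (nat_lit 274))))))))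
noncomputable def xc23 : XT := (XT.nd (nat_lit 49764) (nat_lit 0) (nat_lit 1596) (XT.nd (nat_lit 936) (nat_lit 0) (nat_lit 0) (XT.nd (nat_lit 468) (nat_lit 228) (nat_lit 0) (XT.nd (nat_lit 234) (nat_lit 76) (nat_lit 0) (XT.nd (nat_lit 78) (nat_lit 152) (nat_lit 0) (XT.lf (nat_lit 0) (nat_lit 39633170907) (nat_lit 76) (nat_lit 14397197022) (nat_lit 76) (nat_lit 943549716) (nat_lit 14) (nat_lit 4) (nat_lit 15) (nat_lit 5) (nat_lit 15) (nat_lit 4) (nat_lit 423) (nat_lit 324) (nat_lit 273)) (XT.nd (nat_lit 78) (nat_lit 0) (nat_lit 0) (XT.lf (nat_lit 0) (nat_lit 5140545680) (nat_lit 76) (nat_lit 4047739452) (nat_lit 152) (nat_lit 48207997065) (nat_lit 12) (nat_lit 5) (nat_lit 13) (nat_lit 5) (nat_lit 14) (nat_lit 4) (nat_lit 424) (nat_lit 324) (nat_lit 272)) (XT.lf (nat_lit 0) (nat_lit 19958412683) (nat_lit 152) (nat_lit 33189908317) (nat_lit 0) (nat_lit 6786630316) (nat_lit 12) (nat_lit 5) (nat_lit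 14) (nat_lit 4) (nat_lit 12) (nat_lit 4) (nat_lit 425) (nat_lit 324) (nat_lit 271)))) (XT.nd (nat_lit 78) (nat_lit 76) (nat_lit 0) (XT.lf (nat_lit 0) (nat_lit 31237425586) (nat_lit 152) (nat_lit 13349474819) (nat_lit 0) (nat_lit 18014545023) (nat_lit 12) (nat_lit 5) (nat_lit 14) (nat_lit 4) (nat_lit 12) (nat_lit 4) (nat_lit 426) (nat_lit 324) (nat_lit 270)) (XT.nd (nat_lit 78) (nat_lit 0) (nat_lit 0) (XT.lf (nat_lit 0) (nat_lit 7498025945) (nat_lit 76) (nat_lit 35587318954) (nat_lit 76) (nat_lit 22315773442) (nat_lit 11) (nat_lit 4) (nat_lit 12) (nat_lit 5) (nat_lit 12) (nat_lit 4) (nat_lit 427) (nat_lit 324) (nat_lit 269)) (XT.lf (nat_lit 0) (nat_lit 29539361376) (nat_lit 76) (nat_lit 26058570545) (nat_lit 76) (nat_lit 12740677464) (nat_lit 11) (nat_lit 4) (nat_lit 12) (nat_lit 5) (nat_lit 12) (nat_lit 4) (nat_lit 428) (nat_lit 324) (nat_lit 268))))) (XT.nd (nat_lit 234) (nat_lit 76) (nat_lit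 0) (XT.nd (nat_lit 78) (nat_lit 152) (nat_lit 0) (XT.lf (nat_lit 0) (nat_lit 52561330118) (nat_lit 76) (nat_lit 16112771204) (nat_lit 76) (nat_lit 2750737579) (nat_lit 11) (nat_lit 4) (nat_lit 12) (nat_lit 5) (nat_lit 12) (nat_lit 4) (nat_lit 429) (nat_lit 324) (nat_lit 267)) (XT.nd (nat_lit 78) (nat_lit 0) (nat_lit 0) (XT.lf (nat_lit 0) (nat_lit 1915158960) (nat_lit 76) (nat_lit 5631260348) (nat_lit 152) (nat_lit 67117969335) (nat_lit 9) (nat_lit 5) (nat_lit 10) (nat_lit 5) (nat_lit 11) (nat_lit 4) (nat_lit 430) (nat_lit 324) (nat_lit 266)) (XT.lf (nat_lit 0) (nat_lit 18491377562) (nat_lit 152) (nat_lit 54129183938) (nat_lit 0) (nat_lit 5438844543) (nat_lit 9) (nat_lit 5) (nat_lit 11) (nat_lit 4) (nat_lit 9) (nat_lit 4) (nat_lit 431) (nat_lit 324) (nat_lit 265)))) (XT.nd (nat_lit 78) (nat_lit 76) (nat_lit 0) (XT.lf (nat_lit 0) (nat_lit 29984742417) (nat_lit 152) (nat_lit 34744209514) (nat_lit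 0) (nat_lit 16895189727) (nat_lit 9) (nat_lit 5) (nat_lit 11) (nat_lit 4) (nat_lit 9) (nat_lit 4) (nat_lit 432) (nat_lit 324) (nat_lit 264)) (XT.nd (nat_lit 78) (nat_lit 76) (nat_lit 0) (XT.lf (nat_lit 0) (nat_lit 41999747909) (nat_lit 152) (nat_lit 14494020590) (nat_lit 0) (nat_lit 28874938390) (nat_lit 9) (nat_lit 5) (nat_lit 11) (nat_lit 4) (nat_lit 9) (nat_lit 4) (nat_lit 433) (nat_lit 324) (nat_lit 263)) (XT.lf (nat_lit 0) (nat_lit 6802335638) (nat_lit 76) (nat_lit 47828053766) (nat_lit 76) (nat_lit 34669666314) (nat_lit 8) (nat_lit 4) (nat_lit 9) (nat_lit 5) (nat_lit 9) (nat_lit 4) (nat_lit 434) (nat_lit 324) (nat_lit 262)))))) (XT.nd (nat_lit 48282) (nat_lit 0) (nat_lit 5776) (XT.nd (nat_lit 48048) (nat_lit 0) (nat_lit 8208) (XT.nd (nat_lit 78) (nat_lit 0) (nat_lit 0) (XT.lf (nat_lit 0) (nat_lit 29370151984) (nat_lit 76) (nat_lit 38622591423) (nat_lit 76) (nat_lit 25432224989) (nat_lit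 8) (nat_lit 4) (nat_lit 9) (nat_lit 5) (nat_lit 9) (nat_lit 4) (nat_lit 435) (nat_lit 324) (nat_lit 261)) (XT.nd (nat_lit 78) (nat_lit 0) (nat_lit 0) (XT.lf (nat_lit 0) (nat_lit 52974701911) (nat_lit 76) (nat_lit 29001824893) (nat_lit 76) (nat_lit 15781002284) (nat_lit 8) (nat_lit 4) (nat_lit 9) (nat_lit 5) (nat_lit 9) (nat_lit 4) (nat_lit 436) (nat_lit 324) (nat_lit 260)) (XT.lf (nat_lit 0) (nat_lit 77672186731) (nat_lit 76) (nat_lit 18942847588) (nat_lit 76) (nat_lit 5693019099) (nat_lit 8) (nat_lit 4) (nat_lit 9) (nat_lit 5) (nat_lit 9) (nat_lit 4) (nat_lit 437) (nat_lit 324) (nat_lit 259)))) (XT.nd (nat_lit 78) (nat_lit 988) (nat_lit 0) (XT.lf (nat_lit 0) (nat_lit 1239069239) (nat_lit 380) (nat_lit 2131234811) (nat_lit 0) (nat_lit 1239069239) (nat_lit 129) (nat_lit 5) (nat_lit 134) (nat_lit 4) (nat_lit 129) (nat_lit 4) (nat_lit 370) (nat_lit 325) (nat_lit 325)) (XT.nd (nat_lit 78) (nat_lit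 608) (nat_lit 0) (XT.lf (nat_lit 0) (nat_lit 207539243) (nat_lit 380) (nat_lit 1026537130) (nat_lit 76) (nat_lit 8186539499) (nat_lit 124) (nat_lit 5) (nat_lit 129) (nat_lit 5) (nat_lit 125) (nat_lit 4) (nat_lit 371) (nat_lit 325) (nat_lit 324)) (XT.lf (nat_lit 0) (nat_lit 2256546173) (nat_lit 304) (nat_lit 5059964162) (nat_lit 304) (nat_lit 2315557615) (nat_lit 116) (nat_lit 4) (nat_lit 120) (nat_lit 5) (nat_lit 120) (nat_lit 4) (nat_lit 372) (nat_lit 325) (nat_lit 323))))) (XT.nd (nat_lit 234) (nat_lit 1292) (nat_lit 0) (XT.nd (nat_lit 78) (nat_lit 836) (nat_lit 0) (XT.lf (nat_lit 0) (nat_lit 4752729321) (nat_lit 304) (nat_lit 4251945136) (nat_lit 0) (nat_lit 850406828) (nat_lit 112) (nat_lit 5) (nat_lit 116) (nat_lit 4) (nat_lit 112) (nat_lit 4) (nat_lit 373) (nat_lit 325) (nat_lit 322)) (XT.nd (nat_lit 78) (nat_lit 456) (nat_lit 0) (XT.lf (nat_lit 0) (nat_lit 1947490795) (nat_lit 380) (nat_lit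 1127821050) (nat_lit 76) (nat_lit 7014244790) (nat_lit 107) (nat_lit 5) (nat_lit 112) (nat_lit 5) (nat_lit 108) (nat_lit 4) (nat_lit 374) (nat_lit 325) (nat_lit 321)) (XT.lf (nat_lit 0) (nat_lit 2041899520) (nat_lit 228) (nat_lit 7158507291) (nat_lit 228) (nat_lit 1135212233) (nat_lit 101) (nat_lit 4) (nat_lit 104) (nat_lit 5) (nat_lit 104) (nat_lit 4) (nat_lit 375) (nat_lit 325) (nat_lit 320)))) (XT.nd (nat_lit 156) (nat_lit 684) (nat_lit 0) (XT.nd (nat_lit 78) (nat_lit 304) (nat_lit 0) (XT.lf (nat_lit 0) (nat_lit 5225066267) (nat_lit 228) (nat_lit 827405700) (nat_lit 304) (nat_lit 4541218621) (nat_lit 97) (nat_lit 5) (nat_lit 100) (nat_lit 5) (nat_lit 101) (nat_lit 4) (nat_lit 376) (nat_lit 325) (nat_lit 319)) (XT.lf (nat_lit 0) (nat_lit 2630605746) (nat_lit 304) (nat_lit 2475571848) (nat_lit 76) (nat_lit 5758268307) (nat_lit 93) (nat_lit 5) (nat_lit 97) (nat_lit 5) (nat_lit 94) (nat_lit 4)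 (nat_lit 377) (nat_lit 325) (nat_lit 318))) (XT.nd (nat_lit 78) (nat_lit 228) (nat_lit 0) (XT.lf (nat_lit 0) (nat_lit 409031617) (nat_lit 228) (nat_lit 9607781126) (nat_lit 228) (nat_lit 1132136529) (nat_lit 87) (nat_lit 4) (nat_lit 90) (nat_lit 5) (nat_lit 90) (nat_lit 4) (nat_lit 378) (nat_lit 325) (nat_lit 317)) (XT.lf (nat_lit 0) (nat_lit 3273113521) (nat_lit 152) (nat_lit 2930865318) (nat_lit 228) (nat_lit 5241839467) (nat_lit 84) (nat_lit 5) (nat_lit 86) (nat_lit 5) (nat_lit 87) (nat_lit 4) (nat_lit 379) (nat_lit 325) (nat_lit 316))))))) (XT.nd (nat_lit 936) (nat_lit 1596) (nat_lit 0) (XT.nd (nat_lit 468) (nat_lit 1064) (nat_lit 0) (XT.nd (nat_lit 234) (nat_lit 760) (nat_lit 0) (XT.nd (nat_lit 78) (nat_lit 456) (nat_lit 0) (XT.lf (nat_lit 0) (nat_lit 2055213177) (nat_lit 304) (nat_lit 5659013531) (nat_lit 76) (nat_lit 4043285388) (nat_lit 80) (nat_lit 5) (nat_lit 84) (nat_lit 5) (nat_lit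 81) (nat_lit 4) (nat_lit 380) (nat_lit 325) (nat_lit 315)) (XT.nd (nat_lit 78) (nat_lit 304) (nat_lit 0) (XT.lf (nat_lit 0) (nat_lit 8862900154) (nat_lit 152) (nat_lit 712663246) (nat_lit 228) (nat_lit 2508705678) (nat_lit 78) (nat_lit 5) (nat_lit 80) (nat_lit 5) (nat_lit 81) (nat_lit 4) (nat_lit 381) (nat_lit 325) (nat_lit 314)) (XT.lf (nat_lit 0) (nat_lit 4952019802) (nat_lit 304) (nat_lit 903170021) (nat_lit 76) (nat_lit 6570580648) (nat_lit 74) (nat_lit 5) (nat_lit 78) (nat_lit 5) (nat_lit 75) (nat_lit 4) (nat_lit 382) (nat_lit 325) (nat_lit 313)))) (XT.nd (nat_lit 78) (nat_lit 456) (nat_lit 0) (XT.lf (nat_lit 0) (nat_lit 1373086351) (nat_lit 152) (nat_lit 11342107225) (nat_lit 152) (nat_lit 69005526) (nat_lit 70) (nat_lit 4) (nat_lit 72) (nat_lit 5) (nat_lit 72) (nat_lit 4) (nat_lit 383) (nat_lit 325) (nat_lit 312)) (XT.nd (nat_lit 78) (nat_lit 228) (nat_lit 0) (XT.lf (nat_lit 0) (nat_lit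 3494025741) (nat_lit 152) (nat_lit 4079005173) (nat_lit 228) (nat_lit 5584806727) (nat_lit 67) (nat_lit 5) (nat_lit 69) (nat_lit 5) (nat_lit 70) (nat_lit 4) (nat_lit 384) (nat_lit 325) (nat_lit 311)) (XT.lf (nat_lit 0) (nat_lit 1993278099) (nat_lit 228) (nat_lit 8047324313) (nat_lit 76) (nat_lit 3509348519) (nat_lit 64) (nat_lit 5) (nat_lit 67) (nat_lit 5) (nat_lit 65) (nat_lit 4) (nat_lit 385) (nat_lit 325) (nat_lit 310))))) (XT.nd (nat_lit 234) (nat_lit 532) (nat_lit 0) (XT.nd (nat_lit 78) (nat_lit 380) (nat_lit 0) (XT.lf (nat_lit 0) (nat_lit 7336754929) (nat_lit 152) (nat_lit 2497823639) (nat_lit 228) (nat_lit 4125467531) (nat_lit 62) (nat_lit 5) (nat_lit 64) (nat_lit 5) (nat_lit 65) (nat_lit 4) (nat_lit 386) (nat_lit 325) (nat_lit 309)) (XT.nd (nat_lit 78) (nat_lit 152) (nat_lit 0) (XT.lf (nat_lit 0) (nat_lit 3619808048) (nat_lit 228) (nat_lit 5404977135) (nat_lit 76) (nat_lit 5364399627)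 (nat_lit 59) (nat_lit 5) (nat_lit 62) (nat_lit 5) (nat_lit 60) (nat_lit 4) (nat_lit 387) (nat_lit 325) (nat_lit 308)) (XT.lf (nat_lit 0) (nat_lit 10443233886) (nat_lit 152) (nat_lit 1215119309) (nat_lit 228) (nat_lit 3180488030) (nat_lit 57) (nat_lit 5) (nat_lit 59) (nat_lit 5) (nat_lit 60) (nat_lit 4) (nat_lit 388) (nat_lit 325) (nat_lit 307)))) (XT.nd (nat_lit 78) (nat_lit 304) (nat_lit 0) (XT.lf (nat_lit 0) (nat_lit 4731302296) (nat_lit 228) (nat_lit 3668151560) (nat_lit 76) (nat_lit 6909063338) (nat_lit 54) (nat_lit 5) (nat_lit 57) (nat_lit 5) (nat_lit 55) (nat_lit 4) (nat_lit 389) (nat_lit 325) (nat_lit 306)) (XT.nd (nat_lit 78) (nat_lit 228) (nat_lit 0) (XT.lf (nat_lit 0) (nat_lit 12617753508) (nat_lit 76) (nat_lit 340062917) (nat_lit 152) (nat_lit 2843391351) (nat_lit 53) (nat_lit 5) (nat_lit 54) (nat_lit 5) (nat_lit 55) (nat_lit 4) (nat_lit 390) (nat_lit 325) (nat_lit 305)) (XT.lf (nat_lit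 0) (nat_lit 5228374428) (nat_lit 228) (nat_lit 3057100917) (nat_lit 76) (nat_lit 8029930067) (nat_lit 50) (nat_lit 5) (nat_lit 53) (nat_lit 5) (nat_lit 51) (nat_lit 4) (nat_lit 391) (nat_lit 325) (nat_lit 304)))))) (XT.nd (nat_lit 468) (nat_lit 684) (nat_lit 0) (XT.nd (nat_lit 234) (nat_lit 532) (nat_lit 0) (XT.nd (nat_lit 78) (nat_lit 304) (nat_lit 0) (XT.lf (nat_lit 0) (nat_lit 13626513541) (nat_lit 152) (nat_lit 3228423735) (nat_lit 0) (nat_lit 103492) (nat_lit 49) (nat_lit 5) (nat_lit 51) (nat_lit 4) (nat_lit 49) (nat_lit 4) (nat_lit 392) (nat_lit 325) (nat_lit 303)) (XT.nd (nat_lit 78) (nat_lit 76) (nat_lit 0) (XT.lf (nat_lit 0) (nat_lit 4989749743) (nat_lit 228) (nat_lit 3834251210) (nat_lit 76) (nat_lit 8594281168) (nat_lit 46) (nat_lit 5) (nat_lit 49) (nat_lit 5) (nat_lit 47) (nat_lit 4) (nat_lit 393) (nat_lit 325) (nat_lit 302)) (XT.lf (nat_lit 0) (nat_lit 13191026552) (nat_lit 76) (nat_lit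 343679697) (nat_lit 152) (nat_lit 4474561955) (nat_lit 45) (nat_lit 5) (nat_lit 46) (nat_lit 5) (nat_lit 47) (nat_lit 4) (nat_lit 394) (nat_lit 325) (nat_lit 301)))) (XT.nd (nat_lit 78) (nat_lit 304) (nat_lit 0) (XT.lf (nat_lit 0) (nat_lit 3868558656) (nat_lit 228) (nat_lit 6311996926) (nat_lit 76) (nat_lit 8446133087) (nat_lit 42) (nat_lit 5) (nat_lit 45) (nat_lit 5) (nat_lit 43) (nat_lit 4) (nat_lit 395) (nat_lit 325) (nat_lit 300)) (XT.nd (nat_lit 78) (nat_lit 228) (nat_lit 0) (XT.lf (nat_lit 0) (nat_lit 10978739929) (nat_lit 76) (nat_lit 1546665473) (nat_lit 152) (nat_lit 6748587962) (nat_lit 41) (nat_lit 5) (nat_lit 42) (nat_lit 5) (nat_lit 43) (nat_lit 4) (nat_lit 396) (nat_lit 325) (nat_lit 299)) (XT.lf (nat_lit 0) (nat_lit 1687958482) (nat_lit 228) (nat_lit 10861827754) (nat_lit 76) (nat_lit 7401643936) (nat_lit 38) (nat_lit 5) (nat_lit 41) (nat_lit 5) (nat_lit 39) (nat_lit 4) (nat_lit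 397) (nat_lit 325) (nat_lit 298))))) (XT.nd (nat_lit 234) (nat_lit 380) (nat_lit 0) (XT.nd (nat_lit 78) (nat_lit 228) (nat_lit 0) (XT.lf (nat_lit 0) (nat_lit 6594322707) (nat_lit 76) (nat_lit 3815343067) (nat_lit 152) (nat_lit 10250995124) (nat_lit 37) (nat_lit 5) (nat_lit 38) (nat_lit 5) (nat_lit 39) (nat_lit 4) (nat_lit 398) (nat_lit 325) (nat_lit 297)) (XT.nd (nat_lit 78) (nat_lit 76) (nat_lit 0) (XT.lf (nat_lit 0) (nat_lit 3461924878) (nat_lit 152) (nat_lit 16143175977) (nat_lit 152) (nat_lit 1799136126) (nat_lit 35) (nat_lit 4) (nat_lit 37) (nat_lit 5) (nat_lit 37) (nat_lit 4) (nat_lit 399) (nat_lit 325) (nat_lit 296)) (XT.lf (nat_lit 0) (nat_lit 6965213636) (nat_lit 228) (nat_lit 423853791) (nat_lit 76) (nat_lit 14793057296) (nat_lit 34) (nat_lit 5) (nat_lit 37) (nat_lit 5) (nat_lit 35) (nat_lit 4) (nat_lit 400) (nat_lit 325) (nat_lit 295)))) (XT.nd (nat_lit 156) (nat_lit 152) (nat_lit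 0) (XT.nd (nat_lit 78) (nat_lit 152) (nat_lit 0) (XT.lf (nat_lit 0) (nat_lit 16172796165) (nat_lit 152) (nat_lit 4993269703) (nat_lit 0) (nat_lit 1831051393) (nat_lit 33) (nat_lit 5) (nat_lit 35) (nat_lit 4) (nat_lit 33) (nat_lit 4) (nat_lit 401) (nat_lit 325) (nat_lit 294)) (XT.lf (nat_lit 0) (nat_lit 2011619333) (nat_lit 152) (nat_lit 10451185396) (nat_lit 76) (nat_lit 11387616731) (nat_lit 31) (nat_lit 5) (nat_lit 33) (nat_lit 5) (nat_lit 32) (nat_lit 4) (nat_lit 402) (nat_lit 325) (nat_lit 293))) (XT.nd (nat_lit 78) (nat_lit 76) (nat_lit 0) (XT.lf (nat_lit 0) (nat_lit 7883633091) (nat_lit 76) (nat_lit 3250476169) (nat_lit 152) (nat_lit 13610688038) (nat_lit 30) (nat_lit 5) (nat_lit 31) (nat_lit 5) (nat_lit 32) (nat_lit 4) (nat_lit 403) (nat_lit 325) (nat_lit 292)) (XT.lf (nat_lit 0) (nat_lit 1369994311) (nat_lit 76) (nat_lit 19386247797) (nat_lit 76) (nat_lit 4926353936) (nat_lit 29) (nat_lit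 4) (nat_lit 30) (nat_lit 5) (nat_lit 30) (nat_lit 4) (nat_lit 404) (nat_lit 325) (nat_lit 291))))))))
noncomputable def xc24 : XT := (XT.nd (nat_lit 1872) (nat_lit 228) (nat_lit 0) (XT.nd (nat_lit 936) (nat_lit 532) (nat_lit 0) (XT.nd (nat_lit 468) (nat_lit 380) (nat_lit 0) (XT.nd (nat_lit 234) (nat_lit 228) (nat_lit 0) (XT.nd (nat_lit 78) (nat_lit 152) (nat_lit 0) (XT.lf (nat_lit 0) (nat_lit 4181273318) (nat_lit 152) (nat_lit 6133797114) (nat_lit 76) (nat_lit 16348887861) (nat_lit 28) (nat_lit 5) (nat_lit 30) (nat_lit 5) (nat_lit 29) (nat_lit 4) (nat_lit 405) (nat_lit 325) (nat_lit 290)) (XT.nd (nat_lit 78) (nat_lit 76) (nat_lit 0) (XT.lf (nat_lit 0) (nat_lit 12906598430) (nat_lit 76) (nat_lit 730130393) (nat_lit 152) (nat_lit 14056375127) (nat_lit 27) (nat_lit 5) (nat_lit 28) (nat_lit 5) (nat_lit 29) (nat_lit 4) (nat_lit 406) (nat_lit 325) (nat_lit 289)) (XT.lf (nat_lit 0) (nat_lit 3998014840)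 (nat_lit 76) (nat_lit 19630966585) (nat_lit 76) (nat_lit 5142812846) (nat_lit 26) (nat_lit 4) (nat_lit 27) (nat_lit 5) (nat_lit 27) (nat_lit 4) (nat_lit 407) (nat_lit 325) (nat_lit 288)))) (XT.nd (nat_lit 78) (nat_lit 152) (nat_lit 0) (XT.lf (nat_lit 0) (nat_lit 4169907744) (nat_lit 152) (nat_lit 6159012879) (nat_lit 76) (nat_lit 19573217320) (nat_lit 25) (nat_lit 5) (nat_lit 27) (nat_lit 5) (nat_lit 26) (nat_lit 4) (nat_lit 408) (nat_lit 325) (nat_lit 287)) (XT.nd (nat_lit 78) (nat_lit 76) (nat_lit 0) (XT.lf (nat_lit 0) (nat_lit 13366354294) (nat_lit 76) (nat_lit 485658725) (nat_lit 152) (nat_lit 17235162056) (nat_lit 24) (nat_lit 5) (nat_lit 25) (nat_lit 5) (nat_lit 26) (nat_lit 4) (nat_lit 409) (nat_lit 325) (nat_lit 286)) (XT.lf (nat_lit 0) (nat_lit 1373682933) (nat_lit 76) (nat_lit 22699612173) (nat_lit 76) (nat_lit 8256523612) (nat_lit 23) (nat_lit 4) (nat_lit 24) (nat_lit 5) (nat_lit 24)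 (nat_lit 4) (nat_lit 410) (nat_lit 325) (nat_lit 285))))) (XT.nd (nat_lit 234) (nat_lit 228) (nat_lit 0) (XT.nd (nat_lit 78) (nat_lit 76) (nat_lit 0) (XT.lf (nat_lit 0) (nat_lit 1222813938) (nat_lit 152) (nat_lit 12074645042) (nat_lit 76) (nat_lit 20334565593) (nat_lit 22) (nat_lit 5) (nat_lit 24) (nat_lit 5) (nat_lit 23) (nat_lit 4) (nat_lit 411) (nat_lit 325) (nat_lit 284)) (XT.nd (nat_lit 78) (nat_lit 0) (nat_lit 0) (XT.lf (nat_lit 0) (nat_lit 7605730686) (nat_lit 76) (nat_lit 3365271518) (nat_lit 152) (nat_lit 24026922830) (nat_lit 21) (nat_lit 5) (nat_lit 22) (nat_lit 5) (nat_lit 23) (nat_lit 4) (nat_lit 412) (nat_lit 325) (nat_lit 283)) (XT.lf (nat_lit 0) (nat_lit 21293254295) (nat_lit 152) (nat_lit 8181548220) (nat_lit 0) (nat_lit 6954724075) (nat_lit 21) (nat_lit 5) (nat_lit 23) (nat_lit 4) (nat_lit 21) (nat_lit 4) (nat_lit 413) (nat_lit 325) (nat_lit 282)))) (XT.nd (nat_lit 78) (nat_lit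 152) (nat_lit 0) (XT.lf (nat_lit 0) (nat_lit 11993046673) (nat_lit 76) (nat_lit 20186134744) (nat_lit 76) (nat_lit 5752105368) (nat_lit 20) (nat_lit 4) (nat_lit 21) (nat_lit 5) (nat_lit 21) (nat_lit 4) (nat_lit 414) (nat_lit 325) (nat_lit 281)) (XT.nd (nat_lit 78) (nat_lit 76) (nat_lit 0) (XT.lf (nat_lit 0) (nat_lit 4006630584) (nat_lit 152) (nat_lit 6391520864) (nat_lit 76) (nat_lit 29109244108) (nat_lit 19) (nat_lit 5) (nat_lit 21) (nat_lit 5) (nat_lit 20) (nat_lit 4) (nat_lit 415) (nat_lit 325) (nat_lit 280)) (XT.lf (nat_lit 0) (nat_lit 14167122499) (nat_lit 76) (nat_lit 9588831) (nat_lit 152) (nat_lit 26982623565) (nat_lit 18) (nat_lit 5) (nat_lit 19) (nat_lit 5) (nat_lit 20) (nat_lit 4) (nat_lit 416) (nat_lit 325) (nat_lit 279)))))) (XT.nd (nat_lit 468) (nat_lit 228) (nat_lit 0) (XT.nd (nat_lit 234) (nat_lit 152) (nat_lit 0) (XT.nd (nat_lit 78) (nat_lit 152) (nat_lit 0) (XT.lf (nat_lit 0)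 (nat_lit 24933559154) (nat_lit 152) (nat_lit 7290523404) (nat_lit 0) (nat_lit 10667445307) (nat_lit 18) (nat_lit 5) (nat_lit 20) (nat_lit 4) (nat_lit 18) (nat_lit 4) (nat_lit 417) (nat_lit 325) (nat_lit 278)) (XT.nd (nat_lit 78) (nat_lit 76) (nat_lit 0) (XT.lf (nat_lit 0) (nat_lit 13487461705) (nat_lit 76) (nat_lit 22782014589) (nat_lit 76) (nat_lit 8439621721) (nat_lit 17) (nat_lit 4) (nat_lit 18) (nat_lit 5) (nat_lit 18) (nat_lit 4) (nat_lit 418) (nat_lit 325) (nat_lit 277)) (XT.lf (nat_lit 0) (nat_lit 1513334642) (nat_lit 152) (nat_lit 11342970231) (nat_lit 76) (nat_lit 33761126626) (nat_lit 16) (nat_lit 5) (nat_lit 18) (nat_lit 5) (nat_lit 17) (nat_lit 4) (nat_lit 419) (nat_lit 325) (nat_lit 276)))) (XT.nd (nat_lit 78) (nat_lit 76) (nat_lit 0) (XT.lf (nat_lit 0) (nat_lit 9468559932) (nat_lit 76) (nat_lit 2330842435) (nat_lit 152) (nat_lit 36818976054) (nat_lit 15) (nat_lit 5) (nat_lit 16)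 (nat_lit 5) (nat_lit 17) (nat_lit 4) (nat_lit 420) (nat_lit 325) (nat_lit 275)) (XT.nd (nat_lit 78) (nat_lit 76) (nat_lit 0) (XT.lf (nat_lit 0) (nat_lit 22720599494) (nat_lit 152) (nat_lit 19400882234) (nat_lit 0) (nat_lit 8594269823) (nat_lit 15) (nat_lit 5) (nat_lit 17) (nat_lit 4) (nat_lit 15) (nat_lit 4) (nat_lit 421) (nat_lit 325) (nat_lit 274)) (XT.lf (nat_lit 0) (nat_lit 1184879989) (nat_lit 76) (nat_lit 32960819165) (nat_lit 76) (nat_lit 18773562368) (nat_lit 14) (nat_lit 4) (nat_lit 15) (nat_lit 5) (nat_lit 15) (nat_lit 4) (nat_lit 422) (nat_lit 325) (nat_lit 273))))) (XT.nd (nat_lit 234) (nat_lit 76) (nat_lit 0) (XT.nd (nat_lit 78) (nat_lit 152) (nat_lit 0) (XT.lf (nat_lit 0) (nat_lit 23059441261) (nat_lit 76) (nat_lit 23207522186) (nat_lit 76) (nat_lit 8962239556) (nat_lit 14) (nat_lit 4) (nat_lit 15) (nat_lit 5) (nat_lit 15) (nat_lit 4) (nat_lit 423) (nat_lit 325) (nat_lit 272)) (XT.nd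 (nat_lit 78) (nat_lit 76) (nat_lit 0) (XT.lf (nat_lit 0) (nat_lit 1241556394) (nat_lit 152) (nat_lit 11780185847) (nat_lit 76) (nat_lit 44634674591) (nat_lit 13) (nat_lit 5) (nat_lit 15) (nat_lit 5) (nat_lit 14) (nat_lit 4) (nat_lit 424) (nat_lit 325) (nat_lit 271)) (XT.lf (nat_lit 0) (nat_lit 9591870971) (nat_lit 76) (nat_lit 2203718901) (nat_lit 152) (nat_lit 48405980320) (nat_lit 12) (nat_lit 5) (nat_lit 13) (nat_lit 5) (nat_lit 14) (nat_lit 4) (nat_lit 425) (nat_lit 325) (nat_lit 270)))) (XT.nd (nat_lit 78) (nat_lit 76) (nat_lit 0) (XT.lf (nat_lit 0) (nat_lit 23020677893) (nat_lit 152) (nat_lit 30812115351) (nat_lit 0) (nat_lit 9036890157) (nat_lit 12) (nat_lit 5) (nat_lit 14) (nat_lit 4) (nat_lit 12) (nat_lit 4) (nat_lit 426) (nat_lit 325) (nat_lit 269)) (XT.nd (nat_lit 78) (nat_lit 76) (nat_lit 0) (XT.lf (nat_lit 0) (nat_lit 34765339319) (nat_lit 152) (nat_lit 10171912006) (nat_lit 0) (nat_lit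 20735204013) (nat_lit 12) (nat_lit 5) (nat_lit 14) (nat_lit 4) (nat_lit 12) (nat_lit 4) (nat_lit 427) (nat_lit 325) (nat_lit 268)) (XT.lf (nat_lit 0) (nat_lit 11607746596) (nat_lit 76) (nat_lit 35540188301) (nat_lit 76) (nat_lit 21465912452) (nat_lit 11) (nat_lit 4) (nat_lit 12) (nat_lit 5) (nat_lit 12) (nat_lit 4) (nat_lit 428) (nat_lit 325) (nat_lit 267))))))) (XT.nd (nat_lit 48594) (nat_lit 0) (nat_lit 4864) (XT.nd (nat_lit 468) (nat_lit 76) (nat_lit 0) (XT.nd (nat_lit 234) (nat_lit 0) (nat_lit 0) (XT.nd (nat_lit 78) (nat_lit 152) (nat_lit 0) (XT.lf (nat_lit 0) (nat_lit 34573300257) (nat_lit 76) (nat_lit 25621978500) (nat_lit 76) (nat_lit 11505664039) (nat_lit 11) (nat_lit 4) (nat_lit 12) (nat_lit 5) (nat_lit 12) (nat_lit 4) (nat_lit 429) (nat_lit 325) (nat_lit 266)) (XT.nd (nat_lit 78) (nat_lit 152) (nat_lit 0) (XT.lf (nat_lit 0) (nat_lit 58576987874) (nat_lit 76) (nat_lit 15261723504) (nat_lit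 76) (nat_lit 1105372270) (nat_lit 11) (nat_lit 4) (nat_lit 12) (nat_lit 5) (nat_lit 12) (nat_lit 4) (nat_lit 430) (nat_lit 325) (nat_lit 265)) (XT.lf (nat_lit 0) (nat_lit 5335263164) (nat_lit 76) (nat_lit 4285300706) (nat_lit 152) (nat_lit 68726074727) (nat_lit 9) (nat_lit 5) (nat_lit 10) (nat_lit 5) (nat_lit 11) (nat_lit 4) (nat_lit 431) (nat_lit 325) (nat_lit 264)))) (XT.nd (nat_lit 78) (nat_lit 0) (nat_lit 0) (XT.lf (nat_lit 0) (nat_lit 21046868669) (nat_lit 152) (nat_lit 53635956478) (nat_lit 0) (nat_lit 7230561846) (nat_lit 9) (nat_lit 5) (nat_lit 11) (nat_lit 4) (nat_lit 9) (nat_lit 4) (nat_lit 432) (nat_lit 325) (nat_lit 263)) (XT.nd (nat_lit 78) (nat_lit 0) (nat_lit 0) (XT.lf (nat_lit 0) (nat_lit 33037238804) (nat_lit 152) (nat_lit 33434099364) (nat_lit 0) (nat_lit 19187354048) (nat_lit 9) (nat_lit 5) (nat_lit 11) (nat_lit 4) (nat_lit 9) (nat_lit 4) (nat_lit 433) (nat_lit 325) (nat_lit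 262)) (XT.lf (nat_lit 0) (nat_lit 45579029843) (nat_lit 152) (nat_lit 12316511499) (nat_lit 0) (nat_lit 31697166104) (nat_lit 9) (nat_lit 5) (nat_lit 11) (nat_lit 4) (nat_lit 9) (nat_lit 4) (nat_lit 434) (nat_lit 325) (nat_lit 261))))) (XT.nd (nat_lit 47892) (nat_lit 0) (nat_lit 9196) (XT.nd (nat_lit 78) (nat_lit 0) (nat_lit 0) (XT.lf (nat_lit 0) (nat_lit 9961471270) (nat_lit 76) (nat_lit 48836387680) (nat_lit 76) (nat_lit 34924067766) (nat_lit 8) (nat_lit 4) (nat_lit 9) (nat_lit 5) (nat_lit 9) (nat_lit 4) (nat_lit 435) (nat_lit 325) (nat_lit 260)) (XT.nd (nat_lit 78) (nat_lit 0) (nat_lit 0) (XT.lf (nat_lit 0) (nat_lit 33523439439) (nat_lit 76) (nat_lit 39236512639) (nat_lit 76) (nat_lit 25295186844) (nat_lit 8) (nat_lit 4) (nat_lit 9) (nat_lit 5) (nat_lit 9) (nat_lit 4) (nat_lit 436) (nat_lit 325) (nat_lit 259)) (XT.lf (nat_lit 0) (nat_lit 58180370204) (nat_lit 76) (nat_lit 29197431989) (nat_lit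 76) (nat_lit 15228481547) (nat_lit 8) (nat_lit 4) (nat_lit 9) (nat_lit 5) (nat_lit 9) (nat_lit 4) (nat_lit 437) (nat_lit 325) (nat_lit 258)))) (XT.nd (nat_lit 78) (nat_lit 1140) (nat_lit 0) (XT.lf (nat_lit 0) (nat_lit 3662929708) (nat_lit 380) (nat_lit 379377985) (nat_lit 380) (nat_lit 379377985) (nat_lit 144) (nat_lit 4) (nat_lit 149) (nat_lit 5) (nat_lit 149) (nat_lit 4) (nat_lit 368) (nat_lit 326) (nat_lit 326)) (XT.nd (nat_lit 78) (nat_lit 380) (nat_lit 0) (XT.lf (nat_lit 0) (nat_lit 1571416432) (nat_lit 380) (nat_lit 4511132653) (nat_lit 380) (nat_lit 2945291752) (nat_lit 134) (nat_lit 4) (nat_lit 139) (nat_lit 5) (nat_lit 139) (nat_lit 4) (nat_lit 369) (nat_lit 326) (nat_lit 325)) (XT.lf (nat_lit 0) (nat_lit 3861762268) (nat_lit 380) (nat_lit 4467436203) (nat_lit 0) (nat_lit 893686588) (nat_lit 129) (nat_lit 5) (nat_lit 134) (nat_lit 4) (nat_lit 129) (nat_lit 4) (nat_lit 370) (nat_lit 326)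 (nat_lit 324)))))) (XT.nd (nat_lit 468) (nat_lit 1900) (nat_lit 0) (XT.nd (nat_lit 234) (nat_lit 1140) (nat_lit 0) (XT.nd (nat_lit 78) (nat_lit 912) (nat_lit 0) (XT.lf (nat_lit 0) (nat_lit 1424713183) (nat_lit 380) (nat_lit 1454804866) (nat_lit 76) (nat_lit 6548937418) (nat_lit 124) (nat_lit 5) (nat_lit 129) (nat_lit 5) (nat_lit 125) (nat_lit 4) (nat_lit 371) (nat_lit 326) (nat_lit 323)) (XT.nd (nat_lit 78) (nat_lit 304) (nat_lit 0) (XT.lf (nat_lit 0) (nat_lit 1615890790) (nat_lit 304) (nat_lit 6762036125) (nat_lit 304) (nat_lit 1266688730) (nat_lit 116) (nat_lit 4) (nat_lit 120) (nat_lit 5) (nat_lit 120) (nat_lit 4) (nat_lit 372) (nat_lit 326) (nat_lit 322)) (XT.lf (nat_lit 0) (nat_lit 4735240190) (nat_lit 228) (nat_lit 902621683) (nat_lit 304) (nat_lit 4233795423) (nat_lit 112) (nat_lit 5) (nat_lit 115) (nat_lit 5) (nat_lit 116) (nat_lit 4) (nat_lit 373) (nat_lit 326) (nat_lit 321)))) (XT.nd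 (nat_lit 78) (nat_lit 760) (nat_lit 0) (XT.lf (nat_lit 0) (nat_lit 2655532349) (nat_lit 380) (nat_lit 2246229482) (nat_lit 76) (nat_lit 5208457580) (nat_lit 107) (nat_lit 5) (nat_lit 112) (nat_lit 5) (nat_lit 108) (nat_lit 4) (nat_lit 374) (nat_lit 326) (nat_lit 320)) (XT.nd (nat_lit 78) (nat_lit 304) (nat_lit 0) (XT.lf (nat_lit 0) (nat_lit 674039314) (nat_lit 228) (nat_lit 9069943238) (nat_lit 228) (nat_lit 617262050) (nat_lit 101) (nat_lit 4) (nat_lit 104) (nat_lit 5) (nat_lit 104) (nat_lit 4) (nat_lit 375) (nat_lit 326) (nat_lit 319)) (XT.lf (nat_lit 0) (nat_lit 3600973937) (nat_lit 228) (nat_lit 2823841755) (nat_lit 304) (nat_lit 4198442707) (nat_lit 97) (nat_lit 5) (nat_lit 100) (nat_lit 5) (nat_lit 101) (nat_lit 4) (nat_lit 376) (nat_lit 326) (nat_lit 318))))) (XT.nd (nat_lit 234) (nat_lit 912) (nat_lit 0) (XT.nd (nat_lit 78) (nat_lit 684) (nat_lit 0) (XT.lf (nat_lit 0) (nat_lit 2811370624)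 (nat_lit 304) (nat_lit 4373539684) (nat_lit 76) (nat_lit 3713688854) (nat_lit 93) (nat_lit 5) (nat_lit 97) (nat_lit 5) (nat_lit 94) (nat_lit 4) (nat_lit 377) (nat_lit 326) (nat_lit 317)) (XT.nd (nat_lit 78) (nat_lit 456) (nat_lit 0) (XT.lf (nat_lit 0) (nat_lit 9438158581) (nat_lit 228) (nat_lit 605909954) (nat_lit 304) (nat_lit 1143662727) (nat_lit 90) (nat_lit 5) (nat_lit 93) (nat_lit 5) (nat_lit 94) (nat_lit 4) (nat_lit 378) (nat_lit 326) (nat_lit 316)) (XT.lf (nat_lit 0) (nat_lit 807150521) (nat_lit 152) (nat_lit 5224645929) (nat_lit 228) (nat_lit 5457655292) (nat_lit 84) (nat_lit 5) (nat_lit 86) (nat_lit 5) (nat_lit 87) (nat_lit 4) (nat_lit 379) (nat_lit 326) (nat_lit 315)))) (XT.nd (nat_lit 156) (nat_lit 456) (nat_lit 0) (XT.nd (nat_lit 78) (nat_lit 152) (nat_lit 0) (XT.lf (nat_lit 0) (nat_lit 1682616939) (nat_lit 304) (nat_lit 8432953106) (nat_lit 76) (nat_lit 1690487530) (nat_lit 80) (nat_lit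 5) (nat_lit 84) (nat_lit 5) (nat_lit 81) (nat_lit 4) (nat_lit 380) (nat_lit 326) (nat_lit 314)) (XT.lf (nat_lit 0) (nat_lit 5844932904) (nat_lit 152) (nat_lit 3220361764) (nat_lit 228) (nat_lit 3071669164) (nat_lit 78) (nat_lit 5) (nat_lit 80) (nat_lit 5) (nat_lit 81) (nat_lit 4) (nat_lit 381) (nat_lit 326) (nat_lit 313))) (XT.nd (nat_lit 78) (nat_lit 152) (nat_lit 0) (XT.lf (nat_lit 0) (nat_lit 4236728708) (nat_lit 304) (nat_lit 4246824739) (nat_lit 76) (nat_lit 3999991177) (nat_lit 74) (nat_lit 5) (nat_lit 78) (nat_lit 5) (nat_lit 75) (nat_lit 4) (nat_lit 382) (nat_lit 326) (nat_lit 312)) (XT.lf (nat_lit 0) (nat_lit 10552410586) (nat_lit 152) (nat_lit 1282123246) (nat_lit 228) (nat_lit 1012417302) (nat_lit 72) (nat_lit 5) (nat_lit 74) (nat_lit 5) (nat_lit 75) (nat_lit 4) (nat_lit 383) (nat_lit 326) (nat_lit 311))))))))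
noncomputable def xc25 : XT := (XT.nd (nat_lit 1872) (nat_lit 1368) (nat_lit 0) (XT.nd (nat_lit 936) (nat_lit 1140) (nat_lit 0) (XT.nd (nat_lit 468) (nat_lit 912) (nat_lit 0) (XT.nd (nat_lit 234) (nat_lit 608) (nat_lit 0) (XT.nd (nat_lit 78) (nat_lit 532) (nat_lit 0) (XT.lf (nat_lit 0) (nat_lit 6475566990) (nat_lit 228) (nat_lit 511174899) (nat_lit 76) (nat_lit 6239309241) (nat_lit 69) (nat_lit 5) (nat_lit 72) (nat_lit 5) (nat_lit 70) (nat_lit 4) (nat_lit 384) (nat_lit 326) (nat_lit 310)) (XT.nd (nat_lit 78) (nat_lit 152) (nat_lit 0) (XT.lf (nat_lit 0) (nat_lit 672744670) (nat_lit 228) (nat_lit 12426900570) (nat_lit 76) (nat_lit 524197794) (nat_lit 64) (nat_lit 5) (nat_lit 67) (nat_lit 5) (nat_lit 65) (nat_lit 4) (nat_lit 385) (nat_lit 326) (nat_lit 309)) (XT.lf (nat_lit 0) (nat_lit 2690658634) (nat_lit 152) (nat_lit 5679575069) (nat_lit 228) (nat_lit 5668032537) (nat_lit 62) (nat_lit 5) (nat_lit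 64) (nat_lit 5) (nat_lit 65) (nat_lit 4) (nat_lit 386) (nat_lit 326) (nat_lit 308)))) (XT.nd (nat_lit 78) (nat_lit 380) (nat_lit 0) (XT.lf (nat_lit 0) (nat_lit 1930510405) (nat_lit 228) (nat_lit 10435483761) (nat_lit 76) (nat_lit 2107173299) (nat_lit 59) (nat_lit 5) (nat_lit 62) (nat_lit 5) (nat_lit 60) (nat_lit 4) (nat_lit 387) (nat_lit 326) (nat_lit 307)) (XT.nd (nat_lit 78) (nat_lit 228) (nat_lit 0) (XT.lf (nat_lit 0) (nat_lit 5139295960) (nat_lit 152) (nat_lit 4684038435) (nat_lit 228) (nat_lit 5103873180) (nat_lit 57) (nat_lit 5) (nat_lit 59) (nat_lit 5) (nat_lit 60) (nat_lit 4) (nat_lit 388) (nat_lit 326) (nat_lit 306)) (XT.lf (nat_lit 0) (nat_lit 2663616860) (nat_lit 228) (nat_lit 9377720913) (nat_lit 76) (nat_lit 3361566560) (nat_lit 54) (nat_lit 5) (nat_lit 57) (nat_lit 5) (nat_lit 55) (nat_lit 4) (nat_lit 389) (nat_lit 326) (nat_lit 305))))) (XT.nd (nat_lit 234) (nat_lit 532) (nat_lit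 0) (XT.nd (nat_lit 78) (nat_lit 304) (nat_lit 0) (XT.lf (nat_lit 0) (nat_lit 6627140113) (nat_lit 76) (nat_lit 4114835972) (nat_lit 152) (nat_lit 5158074095) (nat_lit 53) (nat_lit 5) (nat_lit 54) (nat_lit 5) (nat_lit 55) (nat_lit 4) (nat_lit 390) (nat_lit 326) (nat_lit 304)) (XT.nd (nat_lit 78) (nat_lit 76) (nat_lit 0) (XT.lf (nat_lit 0) (nat_lit 2771320477) (nat_lit 228) (nat_lit 9475683241) (nat_lit 76) (nat_lit 4173547594) (nat_lit 50) (nat_lit 5) (nat_lit 53) (nat_lit 5) (nat_lit 51) (nat_lit 4) (nat_lit 391) (nat_lit 326) (nat_lit 303)) (XT.lf (nat_lit 0) (nat_lit 6918636335) (nat_lit 76) (nat_lit 4099710601) (nat_lit 152) (nat_lit 5946382464) (nat_lit 49) (nat_lit 5) (nat_lit 50) (nat_lit 5) (nat_lit 51) (nat_lit 4) (nat_lit 392) (nat_lit 326) (nat_lit 302)))) (XT.nd (nat_lit 78) (nat_lit 304) (nat_lit 0) (XT.lf (nat_lit 0) (nat_lit 2130971660) (nat_lit 228) (nat_lit 10993759965) (nat_lit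 76) (nat_lit 4409850286) (nat_lit 46) (nat_lit 5) (nat_lit 49) (nat_lit 5) (nat_lit 47) (nat_lit 4) (nat_lit 393) (nat_lit 326) (nat_lit 301)) (XT.nd (nat_lit 78) (nat_lit 228) (nat_lit 0) (XT.lf (nat_lit 0) (nat_lit 5732977734) (nat_lit 76) (nat_lit 4788356829) (nat_lit 152) (nat_lit 7608879474) (nat_lit 45) (nat_lit 5) (nat_lit 46) (nat_lit 5) (nat_lit 47) (nat_lit 4) (nat_lit 394) (nat_lit 326) (nat_lit 300)) (XT.lf (nat_lit 0) (nat_lit 594300321) (nat_lit 228) (nat_lit 14246457076) (nat_lit 76) (nat_lit 3913821670) (nat_lit 42) (nat_lit 5) (nat_lit 45) (nat_lit 5) (nat_lit 43) (nat_lit 4) (nat_lit 395) (nat_lit 326) (nat_lit 299)))))) (XT.nd (nat_lit 468) (nat_lit 456) (nat_lit 0) (XT.nd (nat_lit 234) (nat_lit 380) (nat_lit 0) (XT.nd (nat_lit 78) (nat_lit 228) (nat_lit 0) (XT.lf (nat_lit 0) (nat_lit 2735769442) (nat_lit 76) (nat_lit 6356771499) (nat_lit 152) (nat_lit 10314108256) (nat_lit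 41) (nat_lit 5) (nat_lit 42) (nat_lit 5) (nat_lit 43) (nat_lit 4) (nat_lit 396) (nat_lit 326) (nat_lit 298)) (XT.nd (nat_lit 78) (nat_lit 76) (nat_lit 0) (XT.lf (nat_lit 0) (nat_lit 463495044) (nat_lit 152) (nat_lit 17570190643) (nat_lit 152) (nat_lit 2057111545) (nat_lit 39) (nat_lit 4) (nat_lit 41) (nat_lit 5) (nat_lit 41) (nat_lit 4) (nat_lit 397) (nat_lit 326) (nat_lit 297)) (XT.lf (nat_lit 0) (nat_lit 6565330123) (nat_lit 228) (nat_lit 2422521177) (nat_lit 76) (nat_lit 11816958489) (nat_lit 38) (nat_lit 5) (nat_lit 41) (nat_lit 5) (nat_lit 39) (nat_lit 4) (nat_lit 398) (nat_lit 326) (nat_lit 296)))) (XT.nd (nat_lit 78) (nat_lit 304) (nat_lit 0) (XT.lf (nat_lit 0) (nat_lit 15579430032) (nat_lit 152) (nat_lit 5905568916) (nat_lit 0) (nat_lit 68833061) (nat_lit 37) (nat_lit 5) (nat_lit 39) (nat_lit 4) (nat_lit 37) (nat_lit 4) (nat_lit 399) (nat_lit 326) (nat_lit 295)) (XT.nd (nat_lit 78) (nat_lit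 76) (nat_lit 0) (XT.lf (nat_lit 0) (nat_lit 2740114728) (nat_lit 228) (nat_lit 10156923712) (nat_lit 76) (nat_lit 9439830217) (nat_lit 34) (nat_lit 5) (nat_lit 37) (nat_lit 5) (nat_lit 35) (nat_lit 4) (nat_lit 400) (nat_lit 326) (nat_lit 294)) (XT.lf (nat_lit 0) (nat_lit 7962079393) (nat_lit 76) (nat_lit 3801592878) (nat_lit 152) (nat_lit 11393715030) (nat_lit 33) (nat_lit 5) (nat_lit 34) (nat_lit 5) (nat_lit 35) (nat_lit 4) (nat_lit 401) (nat_lit 326) (nat_lit 293))))) (XT.nd (nat_lit 234) (nat_lit 228) (nat_lit 0) (XT.nd (nat_lit 78) (nat_lit 152) (nat_lit 0) (XT.lf (nat_lit 0) (nat_lit 2920608998) (nat_lit 76) (nat_lit 18367607147) (nat_lit 76) (nat_lit 2729231936) (nat_lit 32) (nat_lit 4) (nat_lit 33) (nat_lit 5) (nat_lit 33) (nat_lit 4) (nat_lit 402) (nat_lit 326) (nat_lit 292)) (XT.nd (nat_lit 78) (nat_lit 76) (nat_lit 0) (XT.lf (nat_lit 0) (nat_lit 6304245205) (nat_lit 152) (nat_lit 3015839412)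 (nat_lit 76) (nat_lit 15596799169) (nat_lit 31) (nat_lit 5) (nat_lit 33) (nat_lit 5) (nat_lit 32) (nat_lit 4) (nat_lit 403) (nat_lit 326) (nat_lit 291)) (XT.lf (nat_lit 0) (nat_lit 15759945737) (nat_lit 152) (nat_lit 9854547657) (nat_lit 0) (nat_lit 245186600) (nat_lit 30) (nat_lit 5) (nat_lit 32) (nat_lit 4) (nat_lit 30) (nat_lit 4) (nat_lit 404) (nat_lit 326) (nat_lit 290)))) (XT.nd (nat_lit 78) (nat_lit 152) (nat_lit 0) (XT.lf (nat_lit 0) (nat_lit 9031292023) (nat_lit 76) (nat_lit 16742357246) (nat_lit 76) (nat_lit 1073418977) (nat_lit 29) (nat_lit 4) (nat_lit 30) (nat_lit 5) (nat_lit 30) (nat_lit 4) (nat_lit 405) (nat_lit 326) (nat_lit 289)) (XT.nd (nat_lit 78) (nat_lit 0) (nat_lit 0) (XT.lf (nat_lit 0) (nat_lit 884439316) (nat_lit 76) (nat_lit 7342267508) (nat_lit 152) (nat_lit 19655108866) (nat_lit 27) (nat_lit 5) (nat_lit 28) (nat_lit 5) (nat_lit 29) (nat_lit 4) (nat_lit 406) (nat_lit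 326) (nat_lit 288)) (XT.lf (nat_lit 0) (nat_lit 18057549384) (nat_lit 152) (nat_lit 8341147055) (nat_lit 0) (nat_lit 2566655640) (nat_lit 27) (nat_lit 5) (nat_lit 29) (nat_lit 4) (nat_lit 27) (nat_lit 4) (nat_lit 407) (nat_lit 326) (nat_lit 287))))))) (XT.nd (nat_lit 936) (nat_lit 608) (nat_lit 0) (XT.nd (nat_lit 468) (nat_lit 304) (nat_lit 0) (XT.nd (nat_lit 234) (nat_lit 228) (nat_lit 0) (XT.nd (nat_lit 78) (nat_lit 152) (nat_lit 0) (XT.lf (nat_lit 0) (nat_lit 11169493665) (nat_lit 76) (nat_lit 17275907621) (nat_lit 76) (nat_lit 1655707342) (nat_lit 26) (nat_lit 4) (nat_lit 27) (nat_lit 5) (nat_lit 27) (nat_lit 4) (nat_lit 408) (nat_lit 326) (nat_lit 286)) (XT.nd (nat_lit 78) (nat_lit 0) (nat_lit 0) (XT.lf (nat_lit 0) (nat_lit 247253138) (nat_lit 76) (nat_lit 7629890949) (nat_lit 152) (nat_lit 23414929340) (nat_lit 24) (nat_lit 5) (nat_lit 25) (nat_lit 5) (nat_lit 26) (nat_lit 4) (nat_lit 409)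 (nat_lit 326) (nat_lit 285)) (XT.lf (nat_lit 0) (nat_lit 17962263626) (nat_lit 152) (nat_lit 12012951836) (nat_lit 0) (nat_lit 2563589645) (nat_lit 24) (nat_lit 5) (nat_lit 26) (nat_lit 4) (nat_lit 24) (nat_lit 4) (nat_lit 410) (nat_lit 326) (nat_lit 284)))) (XT.nd (nat_lit 78) (nat_lit 152) (nat_lit 0) (XT.lf (nat_lit 0) (nat_lit 7842502598) (nat_lit 76) (nat_lit 20755552449) (nat_lit 76) (nat_lit 5248432015) (nat_lit 23) (nat_lit 4) (nat_lit 24) (nat_lit 5) (nat_lit 24) (nat_lit 4) (nat_lit 411) (nat_lit 326) (nat_lit 283)) (XT.nd (nat_lit 78) (nat_lit 76) (nat_lit 0) (XT.lf (nat_lit 0) (nat_lit 4478395921) (nat_lit 152) (nat_lit 6519259050) (nat_lit 76) (nat_lit 24219962154) (nat_lit 22) (nat_lit 5) (nat_lit 24) (nat_lit 5) (nat_lit 23) (nat_lit 4) (nat_lit 412) (nat_lit 326) (nat_lit 282)) (XT.lf (nat_lit 0) (nat_lit 13968585577) (nat_lit 76) (nat_lit 650799879) (nat_lit 152) (nat_lit 22035273752)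 (nat_lit 21) (nat_lit 5) (nat_lit 22) (nat_lit 5) (nat_lit 23) (nat_lit 4) (nat_lit 413) (nat_lit 326) (nat_lit 281))))) (XT.nd (nat_lit 234) (nat_lit 152) (nat_lit 0) (XT.nd (nat_lit 78) (nat_lit 152) (nat_lit 0) (XT.lf (nat_lit 0) (nat_lit 25336530111) (nat_lit 152) (nat_lit 2830606755) (nat_lit 0) (nat_lit 9994348534) (nat_lit 21) (nat_lit 5) (nat_lit 23) (nat_lit 4) (nat_lit 21) (nat_lit 4) (nat_lit 414) (nat_lit 326) (nat_lit 280)) (XT.nd (nat_lit 78) (nat_lit 76) (nat_lit 0) (XT.lf (nat_lit 0) (nat_lit 18187608098) (nat_lit 76) (nat_lit 18491088459) (nat_lit 76) (nat_lit 3062286334) (nat_lit 20) (nat_lit 4) (nat_lit 21) (nat_lit 5) (nat_lit 21) (nat_lit 4) (nat_lit 415) (nat_lit 326) (nat_lit 279)) (XT.lf (nat_lit 0) (nat_lit 6987270714) (nat_lit 152) (nat_lit 1327138336) (nat_lit 76) (nat_lit 33084806897) (nat_lit 19) (nat_lit 5) (nat_lit 21) (nat_lit 5) (nat_lit 20) (nat_lit 4) (nat_lit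 416) (nat_lit 326) (nat_lit 278)))) (XT.nd (nat_lit 78) (nat_lit 76) (nat_lit 0) (XT.lf (nat_lit 0) (nat_lit 17607967254) (nat_lit 152) (nat_lit 23055352596) (nat_lit 0) (nat_lit 2472175722) (nat_lit 18) (nat_lit 5) (nat_lit 20) (nat_lit 4) (nat_lit 18) (nat_lit 4) (nat_lit 417) (nat_lit 326) (nat_lit 277)) (XT.nd (nat_lit 78) (nat_lit 76) (nat_lit 0) (XT.lf (nat_lit 0) (nat_lit 28773110578) (nat_lit 152) (nat_lit 2620408014) (nat_lit 0) (nat_lit 13564672359) (nat_lit 18) (nat_lit 5) (nat_lit 20) (nat_lit 4) (nat_lit 18) (nat_lit 4) (nat_lit 418) (nat_lit 326) (nat_lit 276)) (XT.lf (nat_lit 0) (nat_lit 19052159360) (nat_lit 76) (nat_lit 21547202841) (nat_lit 76) (nat_lit 6269577302) (nat_lit 17) (nat_lit 4) (nat_lit 18) (nat_lit 5) (nat_lit 18) (nat_lit 4) (nat_lit 419) (nat_lit 326) (nat_lit 275)))))) (XT.nd (nat_lit 468) (nat_lit 304) (nat_lit 0) (XT.nd (nat_lit 234) (nat_lit 152) (nat_lit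 0) (XT.nd (nat_lit 78) (nat_lit 76) (nat_lit 0) (XT.lf (nat_lit 0) (nat_lit 4009425899) (nat_lit 152) (nat_lit 7204383649) (nat_lit 76) (nat_lit 37661768862) (nat_lit 16) (nat_lit 5) (nat_lit 18) (nat_lit 5) (nat_lit 17) (nat_lit 4) (nat_lit 420) (nat_lit 326) (nat_lit 274)) (XT.nd (nat_lit 78) (nat_lit 0) (nat_lit 0) (XT.lf (nat_lit 0) (nat_lit 14512834070) (nat_lit 76) (nat_lit 225642399) (nat_lit 152) (nat_lit 36240241156) (nat_lit 15) (nat_lit 5) (nat_lit 16) (nat_lit 5) (nat_lit 17) (nat_lit 4) (nat_lit 421) (nat_lit 326) (nat_lit 273)) (XT.lf (nat_lit 0) (nat_lit 26114211115) (nat_lit 152) (nat_lit 15970860524) (nat_lit 0) (nat_lit 11098638519) (nat_lit 15) (nat_lit 5) (nat_lit 17) (nat_lit 4) (nat_lit 15) (nat_lit 4) (nat_lit 422) (nat_lit 326) (nat_lit 272)))) (XT.nd (nat_lit 78) (nat_lit 76) (nat_lit 0) (XT.lf (nat_lit 0) (nat_lit 5518062807) (nat_lit 76) (nat_lit 32526082777) (nat_lit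 76) (nat_lit 17455247483) (nat_lit 14) (nat_lit 4) (nat_lit 15) (nat_lit 5) (nat_lit 15) (nat_lit 4) (nat_lit 423) (nat_lit 326) (nat_lit 271)) (XT.nd (nat_lit 78) (nat_lit 76) (nat_lit 0) (XT.lf (nat_lit 0) (nat_lit 28282831247) (nat_lit 76) (nat_lit 22384300823) (nat_lit 76) (nat_lit 7260834387) (nat_lit 14) (nat_lit 4) (nat_lit 15) (nat_lit 5) (nat_lit 15) (nat_lit 4) (nat_lit 424) (nat_lit 326) (nat_lit 270)) (XT.lf (nat_lit 0) (nat_lit 3310845952) (nat_lit 152) (nat_lit 8452574049) (nat_lit 76) (nat_lit 48715516178) (nat_lit 13) (nat_lit 5) (nat_lit 15) (nat_lit 5) (nat_lit 14) (nat_lit 4) (nat_lit 425) (nat_lit 326) (nat_lit 269))))) (XT.nd (nat_lit 234) (nat_lit 228) (nat_lit 0) (XT.nd (nat_lit 78) (nat_lit 0) (nat_lit 0) (XT.lf (nat_lit 0) (nat_lit 13875816453) (nat_lit 76) (nat_lit 457752898) (nat_lit 152) (nat_lit 48819552262) (nat_lit 12) (nat_lit 5) (nat_lit 13) (nat_lit 5) (nat_lit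 14) (nat_lit 4) (nat_lit 426) (nat_lit 326) (nat_lit 268)) (XT.nd (nat_lit 78) (nat_lit 0) (nat_lit 0) (XT.lf (nat_lit 0) (nat_lit 26044133171) (nat_lit 152) (nat_lit 28690781544) (nat_lit 0) (nat_lit 11222002987) (nat_lit 12) (nat_lit 5) (nat_lit 14) (nat_lit 4) (nat_lit 12) (nat_lit 4) (nat_lit 427) (nat_lit 326) (nat_lit 267)) (XT.lf (nat_lit 0) (nat_lit 38286864745) (nat_lit 152) (nat_lit 7192946105) (nat_lit 0) (nat_lit 23422695949) (nat_lit 12) (nat_lit 5) (nat_lit 14) (nat_lit 4) (nat_lit 12) (nat_lit 4) (nat_lit 428) (nat_lit 326) (nat_lit 266)))) (XT.nd (nat_lit 156) (nat_lit 152) (nat_lit 0) (XT.nd (nat_lit 78) (nat_lit 0) (nat_lit 0) (XT.lf (nat_lit 0) (nat_lit 15575725176) (nat_lit 76) (nat_lit 35660511456) (nat_lit 76) (nat_lit 20756305887) (nat_lit 11) (nat_lit 4) (nat_lit 12) (nat_lit 5) (nat_lit 12) (nat_lit 4) (nat_lit 429) (nat_lit 326) (nat_lit 265)) (XT.lf (nat_lit 0) (nat_lit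 39528242651) (nat_lit 76) (nat_lit 25325280987) (nat_lit 76) (nat_lit 10382945157) (nat_lit 11) (nat_lit 4) (nat_lit 12) (nat_lit 5) (nat_lit 12) (nat_lit 4) (nat_lit 430) (nat_lit 326) (nat_lit 264))) (XT.nd (nat_lit 78) (nat_lit 76) (nat_lit 0) (XT.lf (nat_lit 0) (nat_lit 447595921) (nat_lit 152) (nat_lit 14070030643) (nat_lit 76) (nat_lit 64126366630) (nat_lit 10) (nat_lit 5) (nat_lit 12) (nat_lit 5) (nat_lit 11) (nat_lit 4) (nat_lit 431) (nat_lit 326) (nat_lit 263)) (XT.lf (nat_lit 0) (nat_lit 8617306374) (nat_lit 76) (nat_lit 3023354713) (nat_lit 152) (nat_lit 70577078623) (nat_lit 9) (nat_lit 5) (nat_lit 10) (nat_lit 5) (nat_lit 11) (nat_lit 4) (nat_lit 432) (nat_lit 326) (nat_lit 262))))))))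
noncomputable def xc26 : XT := (XT.nd (nat_lit 49374) (nat_lit 0) (nat_lit 1292) (XT.nd (nat_lit 48438) (nat_lit 0) (nat_lit 4636) (XT.nd (nat_lit 47970) (nat_lit 0) (nat_lit 8208) (XT.nd (nat_lit 234) (nat_lit 76) (nat_lit 0) (XT.nd (nat_lit 78) (nat_lit 0) (nat_lit 0) (XT.lf (nat_lit 0) (nat_lit 23578506642) (nat_lit 152) (nat_lit 53415544183) (nat_lit 0) (nat_lit 8970570732) (nat_lit 9) (nat_lit 5) (nat_lit 11) (nat_lit 4) (nat_lit 9) (nat_lit 4) (nat_lit 433) (nat_lit 326) (nat_lit 261)) (XT.nd (nat_lit 78) (nat_lit 0) (nat_lit 0) (XT.lf (nat_lit 0) (nat_lit 36097952686) (nat_lit 152) (nat_lit 32341794694) (nat_lit 0) (nat_lit 21459560602) (nat_lit 9) (nat_lit 5) (nat_lit 11) (nat_lit 4) (nat_lit 9) (nat_lit 4) (nat_lit 434) (nat_lit 326) (nat_lit 260)) (XT.lf (nat_lit 0) (nat_lit 49199745090) (nat_lit 152) (nat_lit 10299946943) (nat_lit 0) (nat_lit 34532347125) (nat_lit 9) (nat_lit 5) (nat_lit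 11) (nat_lit 4) (nat_lit 9) (nat_lit 4) (nat_lit 435) (nat_lit 326) (nat_lit 259)))) (XT.nd (nat_lit 78) (nat_lit 0) (nat_lit 0) (XT.lf (nat_lit 0) (nat_lit 13016478030) (nat_lit 76) (nat_lit 50023722916) (nat_lit 76) (nat_lit 35328700303) (nat_lit 8) (nat_lit 4) (nat_lit 9) (nat_lit 5) (nat_lit 9) (nat_lit 4) (nat_lit 436) (nat_lit 326) (nat_lit 258)) (XT.nd (nat_lit 47580) (nat_lit 0) (nat_lit 11172) (XT.lf (nat_lit 0) (nat_lit 37634785884) (nat_lit 76) (nat_lit 40003591462) (nat_lit 76) (nat_lit 25282259662) (nat_lit 8) (nat_lit 4) (nat_lit 9) (nat_lit 5) (nat_lit 9) (nat_lit 4) (nat_lit 437) (nat_lit 326) (nat_lit 257)) (XT.lf (nat_lit 0) (nat_lit 581942670) (nat_lit 380) (nat_lit 1833690771) (nat_lit 380) (nat_lit 1833690771) (nat_lit 155) (nat_lit 4) (nat_lit 160) (nat_lit 5) (nat_lit 160) (nat_lit 4) (nat_lit 366) (nat_lit 327) (nat_lit 327))))) (XT.nd (nat_lit 234) (nat_lit 1368) (nat_lit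 0) (XT.nd (nat_lit 78) (nat_lit 1140) (nat_lit 0) (XT.lf (nat_lit 0) (nat_lit 2905876647) (nat_lit 456) (nat_lit 4549692999) (nat_lit 0) (nat_lit 1212419712) (nat_lit 149) (nat_lit 5) (nat_lit 155) (nat_lit 4) (nat_lit 149) (nat_lit 4) (nat_lit 367) (nat_lit 327) (nat_lit 326)) (XT.nd (nat_lit 78) (nat_lit 684) (nat_lit 0) (XT.lf (nat_lit 0) (nat_lit 781577128) (nat_lit 456) (nat_lit 1719671493) (nat_lit 76) (nat_lit 6345943174) (nat_lit 143) (nat_lit 5) (nat_lit 149) (nat_lit 5) (nat_lit 144) (nat_lit 4) (nat_lit 368) (nat_lit 327) (nat_lit 325)) (XT.lf (nat_lit 0) (nat_lit 1172000310) (nat_lit 380) (nat_lit 6282668329) (nat_lit 380) (nat_lit 1581417432) (nat_lit 134) (nat_lit 4) (nat_lit 139) (nat_lit 5) (nat_lit 139) (nat_lit 4) (nat_lit 369) (nat_lit 327) (nat_lit 324)))) (XT.nd (nat_lit 78) (nat_lit 988) (nat_lit 0) (XT.lf (nat_lit 0) (nat_lit 4143444952) (nat_lit 304) (nat_lit 913185445)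 (nat_lit 380) (nat_lit 4178416612) (nat_lit 129) (nat_lit 5) (nat_lit 133) (nat_lit 5) (nat_lit 134) (nat_lit 4) (nat_lit 370) (nat_lit 327) (nat_lit 323)) (XT.nd (nat_lit 78) (nat_lit 608) (nat_lit 0) (XT.lf (nat_lit 0) (nat_lit 2442369908) (nat_lit 380) (nat_lit 2298442481) (nat_lit 76) (nat_lit 4703758457) (nat_lit 124) (nat_lit 5) (nat_lit 129) (nat_lit 5) (nat_lit 125) (nat_lit 4) (nat_lit 371) (nat_lit 327) (nat_lit 322)) (XT.lf (nat_lit 0) (nat_lit 546437099) (nat_lit 304) (nat_lit 8689248483) (nat_lit 304) (nat_lit 429876079) (nat_lit 116) (nat_lit 4) (nat_lit 120) (nat_lit 5) (nat_lit 120) (nat_lit 4) (nat_lit 372) (nat_lit 327) (nat_lit 321)))))) (XT.nd (nat_lit 468) (nat_lit 1596) (nat_lit 0) (XT.nd (nat_lit 234) (nat_lit 1064) (nat_lit 0) (XT.nd (nat_lit 78) (nat_lit 608) (nat_lit 0) (XT.lf (nat_lit 0) (nat_lit 3424461749) (nat_lit 228) (nat_lit 2900801154) (nat_lit 304) (nat_lit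 3571122718) (nat_lit 112) (nat_lit 5) (nat_lit 115) (nat_lit 5) (nat_lit 116) (nat_lit 4) (nat_lit 373) (nat_lit 327) (nat_lit 320)) (XT.nd (nat_lit 78) (nat_lit 228) (nat_lit 0) (XT.lf (nat_lit 0) (nat_lit 3152717054) (nat_lit 380) (nat_lit 3810860557) (nat_lit 76) (nat_lit 3175784540) (nat_lit 107) (nat_lit 5) (nat_lit 112) (nat_lit 5) (nat_lit 108) (nat_lit 4) (nat_lit 374) (nat_lit 327) (nat_lit 319)) (XT.lf (nat_lit 0) (nat_lit 9254595446) (nat_lit 228) (nat_lit 835973015) (nat_lit 304) (nat_lit 304364281) (nat_lit 104) (nat_lit 5) (nat_lit 107) (nat_lit 5) (nat_lit 108) (nat_lit 4) (nat_lit 375) (nat_lit 327) (nat_lit 318)))) (XT.nd (nat_lit 78) (nat_lit 532) (nat_lit 0) (XT.lf (nat_lit 0) (nat_lit 1509504777) (nat_lit 228) (nat_lit 5068493408) (nat_lit 304) (nat_lit 4083491774) (nat_lit 97) (nat_lit 5) (nat_lit 100) (nat_lit 5) (nat_lit 101) (nat_lit 4) (nat_lit 376) (nat_lit 327) (nat_lit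 317)) (XT.nd (nat_lit 78) (nat_lit 228) (nat_lit 0) (XT.lf (nat_lit 0) (nat_lit 2767359714) (nat_lit 304) (nat_lit 6751803848) (nat_lit 76) (nat_lit 1422359029) (nat_lit 93) (nat_lit 5) (nat_lit 97) (nat_lit 5) (nat_lit 94) (nat_lit 4) (nat_lit 377) (nat_lit 327) (nat_lit 316)) (XT.lf (nat_lit 0) (nat_lit 6829952256) (nat_lit 228) (nat_lit 3036409290) (nat_lit 304) (nat_lit 1368326368) (nat_lit 90) (nat_lit 5) (nat_lit 93) (nat_lit 5) (nat_lit 94) (nat_lit 4) (nat_lit 378) (nat_lit 327) (nat_lit 315))))) (XT.nd (nat_lit 234) (nat_lit 684) (nat_lit 0) (XT.nd (nat_lit 78) (nat_lit 608) (nat_lit 0) (XT.lf (nat_lit 0) (nat_lit 5645505900) (nat_lit 304) (nat_lit 2120683938) (nat_lit 76) (nat_lit 3775284327) (nat_lit 86) (nat_lit 5) (nat_lit 90) (nat_lit 5) (nat_lit 87) (nat_lit 4) (nat_lit 379) (nat_lit 327) (nat_lit 314)) (XT.nd (nat_lit 78) (nat_lit 152) (nat_lit 0) (XT.lf (nat_lit 0) (nat_lit 129242010)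 (nat_lit 228) (nat_lit 948509542) (nat_lit 304) (nat_lit 10785727111) (nat_lit 80) (nat_lit 5) (nat_lit 83) (nat_lit 5) (nat_lit 84) (nat_lit 5) (nat_lit 380) (nat_lit 327) (nat_lit 313)) (XT.lf (nat_lit 0) (nat_lit 2307417084) (nat_lit 152) (nat_lit 6006402208) (nat_lit 228) (nat_lit 3884982118) (nat_lit 78) (nat_lit 5) (nat_lit 80) (nat_lit 5) (nat_lit 81) (nat_lit 4) (nat_lit 381) (nat_lit 327) (nat_lit 312)))) (XT.nd (nat_lit 78) (nat_lit 380) (nat_lit 0) (XT.lf (nat_lit 0) (nat_lit 3273244392) (nat_lit 304) (nat_lit 8124900707) (nat_lit 76) (nat_lit 1152469725) (nat_lit 74) (nat_lit 5) (nat_lit 78) (nat_lit 5) (nat_lit 75) (nat_lit 4) (nat_lit 382) (nat_lit 327) (nat_lit 311)) (XT.nd (nat_lit 78) (nat_lit 228) (nat_lit 0) (XT.lf (nat_lit 0) (nat_lit 6423147597) (nat_lit 152) (nat_lit 4309519641) (nat_lit 228) (nat_lit 2185521584) (nat_lit 72) (nat_lit 5) (nat_lit 74) (nat_lit 5) (nat_lit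 75) (nat_lit 4) (nat_lit 383) (nat_lit 327) (nat_lit 310)) (XT.lf (nat_lit 0) (nat_lit 5155776257) (nat_lit 228) (nat_lit 5000214616) (nat_lit 76) (nat_lit 3146738391) (nat_lit 69) (nat_lit 5) (nat_lit 72) (nat_lit 5) (nat_lit 70) (nat_lit 4) (nat_lit 384) (nat_lit 327) (nat_lit 309))))))) (XT.nd (nat_lit 936) (nat_lit 1292) (nat_lit 0) (XT.nd (nat_lit 468) (nat_lit 836) (nat_lit 0) (XT.nd (nat_lit 234) (nat_lit 684) (nat_lit 0) (XT.nd (nat_lit 78) (nat_lit 380) (nat_lit 0) (XT.lf (nat_lit 0) (nat_lit 10063077228) (nat_lit 152) (nat_lit 2770967838) (nat_lit 228) (nat_lit 871378236) (nat_lit 67) (nat_lit 5) (nat_lit 69) (nat_lit 5) (nat_lit 70) (nat_lit 4) (nat_lit 385) (nat_lit 327) (nat_lit 308)) (XT.nd (nat_lit 78) (nat_lit 152) (nat_lit 0) (XT.lf (nat_lit 0) (nat_lit 6660122324) (nat_lit 228) (nat_lit 2488393482) (nat_lit 76) (nat_lit 4977084798) (nat_lit 64) (nat_lit 5) (nat_lit 67) (nat_lit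 5) (nat_lit 65) (nat_lit 4) (nat_lit 386) (nat_lit 327) (nat_lit 307)) (XT.lf (nat_lit 0) (nat_lit 13082347641) (nat_lit 152) (nat_lit 1475224778) (nat_lit 228) (nat_lit 8759114) (nat_lit 62) (nat_lit 5) (nat_lit 64) (nat_lit 5) (nat_lit 65) (nat_lit 4) (nat_lit 387) (nat_lit 327) (nat_lit 306)))) (XT.nd (nat_lit 78) (nat_lit 456) (nat_lit 0) (XT.lf (nat_lit 0) (nat_lit 7715734867) (nat_lit 228) (nat_lit 753223875) (nat_lit 76) (nat_lit 6556481940) (nat_lit 59) (nat_lit 5) (nat_lit 62) (nat_lit 5) (nat_lit 60) (nat_lit 4) (nat_lit 388) (nat_lit 327) (nat_lit 305)) (XT.nd (nat_lit 78) (nat_lit 228) (nat_lit 0) (XT.lf (nat_lit 0) (nat_lit 313853371) (nat_lit 228) (nat_lit 202764475) (nat_lit 76) (nat_lit 14990775568) (nat_lit 56) (nat_lit 5) (nat_lit 59) (nat_lit 5) (nat_lit 57) (nat_lit 5) (nat_lit 389) (nat_lit 327) (nat_lit 304)) (XT.lf (nat_lit 0) (nat_lit 10143237) (nat_lit 76) (nat_lit 8225232492)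 (nat_lit 152) (nat_lit 7773878753) (nat_lit 53) (nat_lit 5) (nat_lit 54) (nat_lit 5) (nat_lit 55) (nat_lit 4) (nat_lit 390) (nat_lit 327) (nat_lit 303))))) (XT.nd (nat_lit 234) (nat_lit 532) (nat_lit 0) (XT.nd (nat_lit 78) (nat_lit 228) (nat_lit 0) (XT.lf (nat_lit 0) (nat_lit 14032934) (nat_lit 152) (nat_lit 3923519) (nat_lit 76) (nat_lit 16518338653) (nat_lit 52) (nat_lit 5) (nat_lit 54) (nat_lit 5) (nat_lit 53) (nat_lit 5) (nat_lit 391) (nat_lit 327) (nat_lit 302)) (XT.nd (nat_lit 78) (nat_lit 76) (nat_lit 0) (XT.lf (nat_lit 0) (nat_lit 8111836616) (nat_lit 228) (nat_lit 431767609) (nat_lit 76) (nat_lit 8541354558) (nat_lit 50) (nat_lit 5) (nat_lit 53) (nat_lit 5) (nat_lit 51) (nat_lit 4) (nat_lit 392) (nat_lit 327) (nat_lit 301)) (XT.lf (nat_lit 0) (nat_lit 16509444991) (nat_lit 76) (nat_lit 102924908) (nat_lit 152) (nat_lit 1048767954) (nat_lit 49) (nat_lit 5) (nat_lit 50) (nat_lit 5) (nat_lit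 51) (nat_lit 4) (nat_lit 393) (nat_lit 327) (nat_lit 300)))) (XT.nd (nat_lit 78) (nat_lit 304) (nat_lit 0) (XT.lf (nat_lit 0) (nat_lit 7215604476) (nat_lit 228) (nat_lit 2355761810) (nat_lit 76) (nat_lit 8690107652) (nat_lit 46) (nat_lit 5) (nat_lit 49) (nat_lit 5) (nat_lit 47) (nat_lit 4) (nat_lit 394) (nat_lit 327) (nat_lit 299)) (XT.nd (nat_lit 78) (nat_lit 228) (nat_lit 0) (XT.lf (nat_lit 0) (nat_lit 14943949595) (nat_lit 76) (nat_lit 930270351) (nat_lit 152) (nat_lit 3017229242) (nat_lit 45) (nat_lit 5) (nat_lit 46) (nat_lit 5) (nat_lit 47) (nat_lit 4) (nat_lit 395) (nat_lit 327) (nat_lit 298)) (XT.lf (nat_lit 0) (nat_lit 5389973873) (nat_lit 228) (nat_lit 6092130882) (nat_lit 76) (nat_lit 8066789009) (nat_lit 42) (nat_lit 5) (nat_lit 45) (nat_lit 5) (nat_lit 43) (nat_lit 4) (nat_lit 396) (nat_lit 327) (nat_lit 297)))))) (XT.nd (nat_lit 468) (nat_lit 608) (nat_lit 0) (XT.nd (nat_lit 234)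 (nat_lit 304) (nat_lit 0) (XT.nd (nat_lit 78) (nat_lit 304) (nat_lit 0) (XT.lf (nat_lit 0) (nat_lit 11485046247) (nat_lit 76) (nat_lit 2683918378) (nat_lit 152) (nat_lit 6068948372) (nat_lit 41) (nat_lit 5) (nat_lit 42) (nat_lit 5) (nat_lit 43) (nat_lit 4) (nat_lit 397) (nat_lit 327) (nat_lit 296)) (XT.nd (nat_lit 78) (nat_lit 76) (nat_lit 0) (XT.lf (nat_lit 0) (nat_lit 2446918488) (nat_lit 228) (nat_lit 12033239644) (nat_lit 76) (nat_lit 6478476237) (nat_lit 38) (nat_lit 5) (nat_lit 41) (nat_lit 5) (nat_lit 39) (nat_lit 4) (nat_lit 398) (nat_lit 327) (nat_lit 295)) (XT.lf (nat_lit 0) (nat_lit 5715176176) (nat_lit 76) (nat_lit 5580726672) (nat_lit 152) (nat_lit 10416713000) (nat_lit 37) (nat_lit 5) (nat_lit 38) (nat_lit 5) (nat_lit 39) (nat_lit 4) (nat_lit 399) (nat_lit 327) (nat_lit 294)))) (XT.nd (nat_lit 78) (nat_lit 152) (nat_lit 0) (XT.lf (nat_lit 0) (nat_lit 1840118484) (nat_lit 152) (nat_lit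 18787935249) (nat_lit 152) (nat_lit 1875032459) (nat_lit 35) (nat_lit 4) (nat_lit 37) (nat_lit 5) (nat_lit 37) (nat_lit 4) (nat_lit 400) (nat_lit 327) (nat_lit 293)) (XT.nd (nat_lit 78) (nat_lit 76) (nat_lit 0) (XT.lf (nat_lit 0) (nat_lit 7042512442) (nat_lit 228) (nat_lit 2805953681) (nat_lit 76) (nat_lit 13479962572) (nat_lit 34) (nat_lit 5) (nat_lit 37) (nat_lit 5) (nat_lit 35) (nat_lit 4) (nat_lit 401) (nat_lit 327) (nat_lit 292)) (XT.lf (nat_lit 0) (nat_lit 15993728191) (nat_lit 76) (nat_lit 398545975) (nat_lit 152) (nat_lit 7801463631) (nat_lit 33) (nat_lit 5) (nat_lit 34) (nat_lit 5) (nat_lit 35) (nat_lit 4) (nat_lit 402) (nat_lit 327) (nat_lit 291))))) (XT.nd (nat_lit 234) (nat_lit 380) (nat_lit 0) (XT.nd (nat_lit 78) (nat_lit 76) (nat_lit 0) (XT.lf (nat_lit 0) (nat_lit 1182650188) (nat_lit 152) (nat_lit 14545176855) (nat_lit 76) (nat_lit 9371263897) (nat_lit 31) (nat_lit 5) (nat_lit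 33) (nat_lit 5) (nat_lit 32) (nat_lit 4) (nat_lit 403) (nat_lit 327) (nat_lit 290)) (XT.nd (nat_lit 78) (nat_lit 0) (nat_lit 0) (XT.lf (nat_lit 0) (nat_lit 4132054535) (nat_lit 76) (nat_lit 6329431070) (nat_lit 152) (nat_lit 15585711776) (nat_lit 30) (nat_lit 5) (nat_lit 31) (nat_lit 5) (nat_lit 32) (nat_lit 4) (nat_lit 404) (nat_lit 327) (nat_lit 289)) (XT.lf (nat_lit 0) (nat_lit 20268522486) (nat_lit 152) (nat_lit 3257146317) (nat_lit 0) (nat_lit 3515120903) (nat_lit 30) (nat_lit 5) (nat_lit 32) (nat_lit 4) (nat_lit 30) (nat_lit 4) (nat_lit 405) (nat_lit 327) (nat_lit 288)))) (XT.nd (nat_lit 156) (nat_lit 152) (nat_lit 0) (XT.nd (nat_lit 78) (nat_lit 76) (nat_lit 0) (XT.lf (nat_lit 0) (nat_lit 2540492294) (nat_lit 152) (nat_lit 11736047243) (nat_lit 76) (nat_lit 13803601945) (nat_lit 28) (nat_lit 5) (nat_lit 30) (nat_lit 5) (nat_lit 29) (nat_lit 4) (nat_lit 406) (nat_lit 327) (nat_lit 287))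 (XT.lf (nat_lit 0) (nat_lit 7688846864) (nat_lit 76) (nat_lit 4486167518) (nat_lit 152) (nat_lit 16994556692) (nat_lit 27) (nat_lit 5) (nat_lit 28) (nat_lit 5) (nat_lit 29) (nat_lit 4) (nat_lit 407) (nat_lit 327) (nat_lit 286))) (XT.nd (nat_lit 78) (nat_lit 152) (nat_lit 0) (XT.lf (nat_lit 0) (nat_lit 22358479916) (nat_lit 152) (nat_lit 2248168709) (nat_lit 0) (nat_lit 5704814006) (nat_lit 27) (nat_lit 5) (nat_lit 29) (nat_lit 4) (nat_lit 27) (nat_lit 4) (nat_lit 408) (nat_lit 327) (nat_lit 285)) (XT.lf (nat_lit 0) (nat_lit 1625302218) (nat_lit 152) (nat_lit 13471587244) (nat_lit 76) (nat_lit 16409680596) (nat_lit 25) (nat_lit 5) (nat_lit 27) (nat_lit 5) (nat_lit 26) (nat_lit 4) (nat_lit 409) (nat_lit 327) (nat_lit 284))))))))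
noncomputable def xc27 : XT := (XT.nd (nat_lit 1950) (nat_lit 76) (nat_lit 0) (XT.nd (nat_lit 936) (nat_lit 532) (nat_lit 0) (XT.nd (nat_lit 468) (nat_lit 304) (nat_lit 0) (XT.nd (nat_lit 234) (nat_lit 228) (nat_lit 0) (XT.nd (nat_lit 78) (nat_lit 76) (nat_lit 0) (XT.lf (nat_lit 0) (nat_lit 6466347691) (nat_lit 76) (nat_lit 5035621908) (nat_lit 152) (nat_lit 21257588714) (nat_lit 24) (nat_lit 5) (nat_lit 25) (nat_lit 5) (nat_lit 26) (nat_lit 4) (nat_lit 410) (nat_lit 327) (nat_lit 283)) (XT.nd (nat_lit 78) (nat_lit 76) (nat_lit 0) (XT.lf (nat_lit 0) (nat_lit 21964732204) (nat_lit 152) (nat_lit 6637174835) (nat_lit 0) (nat_lit 5470526959) (nat_lit 24) (nat_lit 5) (nat_lit 26) (nat_lit 4) (nat_lit 24) (nat_lit 4) (nat_lit 411) (nat_lit 327) (nat_lit 282)) (XT.lf (nat_lit 0) (nat_lit 14039739310) (nat_lit 76) (nat_lit 19000549723) (nat_lit 76) (nat_lit 2407980348) (nat_lit 23) (nat_lit 4) (nat_lit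 24) (nat_lit 5) (nat_lit 24) (nat_lit 4) (nat_lit 412) (nat_lit 327) (nat_lit 281)))) (XT.nd (nat_lit 78) (nat_lit 152) (nat_lit 0) (XT.lf (nat_lit 0) (nat_lit 7599768130) (nat_lit 152) (nat_lit 1258720193) (nat_lit 76) (nat_lit 28032926957) (nat_lit 22) (nat_lit 5) (nat_lit 24) (nat_lit 5) (nat_lit 23) (nat_lit 4) (nat_lit 413) (nat_lit 327) (nat_lit 280)) (XT.nd (nat_lit 78) (nat_lit 76) (nat_lit 0) (XT.lf (nat_lit 0) (nat_lit 18180560430) (nat_lit 152) (nat_lit 18328076369) (nat_lit 0) (nat_lit 1893697648) (nat_lit 21) (nat_lit 5) (nat_lit 23) (nat_lit 4) (nat_lit 21) (nat_lit 4) (nat_lit 414) (nat_lit 327) (nat_lit 279)) (XT.lf (nat_lit 0) (nat_lit 2297196400) (nat_lit 76) (nat_lit 27029932160) (nat_lit 76) (nat_lit 10660573617) (nat_lit 20) (nat_lit 4) (nat_lit 21) (nat_lit 5) (nat_lit 21) (nat_lit 4) (nat_lit 415) (nat_lit 327) (nat_lit 278))))) (XT.nd (nat_lit 234) (nat_lit 152) (nat_lit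 0) (XT.nd (nat_lit 78) (nat_lit 152) (nat_lit 0) (XT.lf (nat_lit 0) (nat_lit 24171735979) (nat_lit 76) (nat_lit 16962714971) (nat_lit 76) (nat_lit 514789038) (nat_lit 20) (nat_lit 4) (nat_lit 21) (nat_lit 5) (nat_lit 21) (nat_lit 4) (nat_lit 416) (nat_lit 327) (nat_lit 277)) (XT.nd (nat_lit 78) (nat_lit 0) (nat_lit 0) (XT.lf (nat_lit 0) (nat_lit 3559370011) (nat_lit 76) (nat_lit 6333300940) (nat_lit 152) (nat_lit 33499697590) (nat_lit 18) (nat_lit 5) (nat_lit 19) (nat_lit 5) (nat_lit 20) (nat_lit 4) (nat_lit 417) (nat_lit 327) (nat_lit 276)) (XT.lf (nat_lit 0) (nat_lit 20957768919) (nat_lit 152) (nat_lit 19413223502) (nat_lit 0) (nat_lit 4847074782) (nat_lit 18) (nat_lit 5) (nat_lit 20) (nat_lit 4) (nat_lit 18) (nat_lit 4) (nat_lit 418) (nat_lit 327) (nat_lit 275)))) (XT.nd (nat_lit 78) (nat_lit 76) (nat_lit 0) (XT.lf (nat_lit 0) (nat_lit 1851264735) (nat_lit 76) (nat_lit 30730109529) (nat_lit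 76) (nat_lit 14553522706) (nat_lit 17) (nat_lit 4) (nat_lit 18) (nat_lit 5) (nat_lit 18) (nat_lit 4) (nat_lit 419) (nat_lit 327) (nat_lit 274)) (XT.nd (nat_lit 78) (nat_lit 76) (nat_lit 0) (XT.lf (nat_lit 0) (nat_lit 24440435873) (nat_lit 76) (nat_lit 20471354387) (nat_lit 76) (nat_lit 4232012625) (nat_lit 17) (nat_lit 4) (nat_lit 18) (nat_lit 5) (nat_lit 18) (nat_lit 4) (nat_lit 420) (nat_lit 327) (nat_lit 273)) (XT.lf (nat_lit 0) (nat_lit 6405293589) (nat_lit 152) (nat_lit 3296362384) (nat_lit 76) (nat_lit 41551737944) (nat_lit 16) (nat_lit 5) (nat_lit 18) (nat_lit 5) (nat_lit 17) (nat_lit 4) (nat_lit 421) (nat_lit 327) (nat_lit 272)))))) (XT.nd (nat_lit 468) (nat_lit 228) (nat_lit 0) (XT.nd (nat_lit 234) (nat_lit 152) (nat_lit 0) (XT.nd (nat_lit 78) (nat_lit 76) (nat_lit 0) (XT.lf (nat_lit 0) (nat_lit 17623200589) (nat_lit 152) (nat_lit 34096361392) (nat_lit 0) (nat_lit 1743560831) (nat_lit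 15) (nat_lit 5) (nat_lit 17) (nat_lit 4) (nat_lit 15) (nat_lit 4) (nat_lit 422) (nat_lit 327) (nat_lit 271)) (XT.nd (nat_lit 78) (nat_lit 76) (nat_lit 0) (XT.lf (nat_lit 0) (nat_lit 29467614774) (nat_lit 152) (nat_lit 12778414142) (nat_lit 0) (nat_lit 13535343874) (nat_lit 15) (nat_lit 5) (nat_lit 17) (nat_lit 4) (nat_lit 15) (nat_lit 4) (nat_lit 423) (nat_lit 327) (nat_lit 270)) (XT.lf (nat_lit 0) (nat_lit 9670554446) (nat_lit 76) (nat_lit 32263246466) (nat_lit 76) (nat_lit 16280850669) (nat_lit 14) (nat_lit 4) (nat_lit 15) (nat_lit 5) (nat_lit 15) (nat_lit 4) (nat_lit 424) (nat_lit 327) (nat_lit 269)))) (XT.nd (nat_lit 78) (nat_lit 152) (nat_lit 0) (XT.lf (nat_lit 0) (nat_lit 33388961855) (nat_lit 76) (nat_lit 21704334484) (nat_lit 76) (nat_lit 5674200690) (nat_lit 14) (nat_lit 4) (nat_lit 15) (nat_lit 5) (nat_lit 15) (nat_lit 4) (nat_lit 425) (nat_lit 327) (nat_lit 268)) (XT.nd (nat_lit 78)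 (nat_lit 76) (nat_lit 0) (XT.lf (nat_lit 0) (nat_lit 5296988466) (nat_lit 152) (nat_lit 5322711966) (nat_lit 76) (nat_lit 52828487322) (nat_lit 13) (nat_lit 5) (nat_lit 15) (nat_lit 5) (nat_lit 14) (nat_lit 4) (nat_lit 426) (nat_lit 327) (nat_lit 267)) (XT.lf (nat_lit 0) (nat_lit 16828886068) (nat_lit 152) (nat_lit 48248988707) (nat_lit 0) (nat_lit 1179470220) (nat_lit 12) (nat_lit 5) (nat_lit 14) (nat_lit 4) (nat_lit 12) (nat_lit 4) (nat_lit 427) (nat_lit 327) (nat_lit 266))))) (XT.nd (nat_lit 234) (nat_lit 152) (nat_lit 0) (XT.nd (nat_lit 78) (nat_lit 76) (nat_lit 0) (XT.lf (nat_lit 0) (nat_lit 29044681221) (nat_lit 152) (nat_lit 26803833478) (nat_lit 0) (nat_lit 13355228599) (nat_lit 12) (nat_lit 5) (nat_lit 14) (nat_lit 4) (nat_lit 12) (nat_lit 4) (nat_lit 428) (nat_lit 327) (nat_lit 265)) (XT.nd (nat_lit 78) (nat_lit 76) (nat_lit 0) (XT.lf (nat_lit 0) (nat_lit 41818675974) (nat_lit 152)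 (nat_lit 4389272322) (nat_lit 0) (nat_lit 26091093092) (nat_lit 12) (nat_lit 5) (nat_lit 14) (nat_lit 4) (nat_lit 12) (nat_lit 4) (nat_lit 429) (nat_lit 327) (nat_lit 264)) (XT.lf (nat_lit 0) (nat_lit 19427156559) (nat_lit 76) (nat_lit 35940873755) (nat_lit 76) (nat_lit 20176976339) (nat_lit 11) (nat_lit 4) (nat_lit 12) (nat_lit 5) (nat_lit 12) (nat_lit 4) (nat_lit 430) (nat_lit 327) (nat_lit 263)))) (XT.nd (nat_lit 156) (nat_lit 76) (nat_lit 0) (XT.nd (nat_lit 78) (nat_lit 76) (nat_lit 0) (XT.lf (nat_lit 0) (nat_lit 44430983474) (nat_lit 76) (nat_lit 25160437157) (nat_lit 76) (nat_lit 9361954471) (nat_lit 11) (nat_lit 4) (nat_lit 12) (nat_lit 5) (nat_lit 12) (nat_lit 4) (nat_lit 431) (nat_lit 327) (nat_lit 262)) (XT.lf (nat_lit 0) (nat_lit 1908151246) (nat_lit 152) (nat_lit 11957874007) (nat_lit 76) (nat_lit 68666966384) (nat_lit 10) (nat_lit 5) (nat_lit 12) (nat_lit 5) (nat_lit 11) (nat_lit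 4) (nat_lit 432) (nat_lit 327) (nat_lit 261))) (XT.nd (nat_lit 78) (nat_lit 0) (nat_lit 0) (XT.lf (nat_lit 0) (nat_lit 11783119584) (nat_lit 76) (nat_lit 1835555530) (nat_lit 152) (nat_lit 72668018866) (nat_lit 9) (nat_lit 5) (nat_lit 10) (nat_lit 5) (nat_lit 11) (nat_lit 4) (nat_lit 433) (nat_lit 327) (nat_lit 260)) (XT.lf (nat_lit 0) (nat_lit 26099195728) (nat_lit 152) (nat_lit 53453931260) (nat_lit 0) (nat_lit 10669421985) (nat_lit 9) (nat_lit 5) (nat_lit 11) (nat_lit 4) (nat_lit 9) (nat_lit 4) (nat_lit 434) (nat_lit 327) (nat_lit 259))))))) (XT.nd (nat_lit 48282) (nat_lit 0) (nat_lit 4484) (XT.nd (nat_lit 47814) (nat_lit 0) (nat_lit 8436) (XT.nd (nat_lit 47580) (nat_lit 0) (nat_lit 11172) (XT.nd (nat_lit 78) (nat_lit 76) (nat_lit 0) (XT.lf (nat_lit 0) (nat_lit 39180720562) (nat_lit 152) (nat_lit 31451846209) (nat_lit 0) (nat_lit 23723322171) (nat_lit 9) (nat_lit 5) (nat_lit 11) (nat_lit 4)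 (nat_lit 9) (nat_lit 4) (nat_lit 435) (nat_lit 327) (nat_lit 258)) (XT.nd (nat_lit 78) (nat_lit 76) (nat_lit 0) (XT.lf (nat_lit 0) (nat_lit 52876751622) (nat_lit 152) (nat_lit 8427288843) (nat_lit 0) (nat_lit 37393044043) (nat_lit 9) (nat_lit 5) (nat_lit 11) (nat_lit 4) (nat_lit 9) (nat_lit 4) (nat_lit 436) (nat_lit 327) (nat_lit 257)) (XT.lf (nat_lit 0) (nat_lit 15986515715) (nat_lit 76) (nat_lit 51387054959) (nat_lit 76) (nat_lit 35878291009) (nat_lit 8) (nat_lit 4) (nat_lit 9) (nat_lit 5) (nat_lit 9) (nat_lit 4) (nat_lit 437) (nat_lit 327) (nat_lit 256)))) (XT.nd (nat_lit 78) (nat_lit 1292) (nat_lit 0) (XT.lf (nat_lit 0) (nat_lit 978987356) (nat_lit 456) (nat_lit 2134153584) (nat_lit 0) (nat_lit 978987356) (nat_lit 172) (nat_lit 5) (nat_lit 178) (nat_lit 4) (nat_lit 172) (nat_lit 4) (nat_lit 364) (nat_lit 328) (nat_lit 328)) (XT.nd (nat_lit 78) (nat_lit 760) (nat_lit 0) (XT.lf (nat_lit 0)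 (nat_lit 103411225) (nat_lit 532) (nat_lit 1676493097) (nat_lit 76) (nat_lit 6559204964) (nat_lit 165) (nat_lit 5) (nat_lit 172) (nat_lit 5) (nat_lit 166) (nat_lit 4) (nat_lit 365) (nat_lit 328) (nat_lit 327)) (XT.lf (nat_lit 0) (nat_lit 977978600) (nat_lit 380) (nat_lit 5550244042) (nat_lit 380) (nat_lit 1974509723) (nat_lit 155) (nat_lit 4) (nat_lit 160) (nat_lit 5) (nat_lit 160) (nat_lit 4) (nat_lit 366) (nat_lit 328) (nat_lit 326))))) (XT.nd (nat_lit 234) (nat_lit 1140) (nat_lit 0) (XT.nd (nat_lit 78) (nat_lit 1140) (nat_lit 0) (XT.lf (nat_lit 0) (nat_lit 3736920272) (nat_lit 380) (nat_lit 683698054) (nat_lit 456) (nat_lit 4255364422) (nat_lit 149) (nat_lit 5) (nat_lit 154) (nat_lit 5) (nat_lit 155) (nat_lit 4) (nat_lit 367) (nat_lit 328) (nat_lit 325)) (XT.nd (nat_lit 78) (nat_lit 684) (nat_lit 0) (XT.lf (nat_lit 0) (nat_lit 2120034680) (nat_lit 456) (nat_lit 2316747805) (nat_lit 76) (nat_lit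 4422176227) (nat_lit 143) (nat_lit 5) (nat_lit 149) (nat_lit 5) (nat_lit 144) (nat_lit 4) (nat_lit 368) (nat_lit 328) (nat_lit 324)) (XT.lf (nat_lit 0) (nat_lit 372217077) (nat_lit 380) (nat_lit 8264116722) (nat_lit 380) (nat_lit 416262374) (nat_lit 134) (nat_lit 4) (nat_lit 139) (nat_lit 5) (nat_lit 139) (nat_lit 4) (nat_lit 369) (nat_lit 328) (nat_lit 323)))) (XT.nd (nat_lit 78) (nat_lit 760) (nat_lit 0) (XT.lf (nat_lit 0) (nat_lit 3116737496) (nat_lit 304) (nat_lit 2950860576) (nat_lit 380) (nat_lit 3187603002) (nat_lit 129) (nat_lit 5) (nat_lit 133) (nat_lit 5) (nat_lit 134) (nat_lit 4) (nat_lit 370) (nat_lit 328) (nat_lit 322)) (XT.nd (nat_lit 78) (nat_lit 380) (nat_lit 0) (XT.lf (nat_lit 0) (nat_lit 3262932412) (nat_lit 380) (nat_lit 3559458637) (nat_lit 76) (nat_lit 2646609333) (nat_lit 124) (nat_lit 5) (nat_lit 129) (nat_lit 5) (nat_lit 125) (nat_lit 4) (nat_lit 371) (nat_lit 328) (nat_lit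 321)) (XT.lf (nat_lit 0) (nat_lit 213603309) (nat_lit 380) (nat_lit 949029012) (nat_lit 76) (nat_lit 8531649608) (nat_lit 119) (nat_lit 5) (nat_lit 124) (nat_lit 5) (nat_lit 120) (nat_lit 5) (nat_lit 372) (nat_lit 328) (nat_lit 320)))))) (XT.nd (nat_lit 468) (nat_lit 1748) (nat_lit 0) (XT.nd (nat_lit 234) (nat_lit 1064) (nat_lit 0) (XT.nd (nat_lit 78) (nat_lit 608) (nat_lit 0) (XT.lf (nat_lit 0) (nat_lit 1676267369) (nat_lit 228) (nat_lit 5131964389) (nat_lit 304) (nat_lit 3121343500) (nat_lit 112) (nat_lit 5) (nat_lit 115) (nat_lit 5) (nat_lit 116) (nat_lit 4) (nat_lit 373) (nat_lit 328) (nat_lit 319)) (XT.nd (nat_lit 78) (nat_lit 228) (nat_lit 0) (XT.lf (nat_lit 0) (nat_lit 3440228682) (nat_lit 380) (nat_lit 5825439586) (nat_lit 76) (nat_lit 911385972) (nat_lit 107) (nat_lit 5) (nat_lit 112) (nat_lit 5) (nat_lit 108) (nat_lit 4) (nat_lit 374) (nat_lit 328) (nat_lit 318)) (XT.lf (nat_lit 0)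 (nat_lit 7023794916) (nat_lit 228) (nat_lit 3223883253) (nat_lit 304) (nat_lit 188884850) (nat_lit 104) (nat_lit 5) (nat_lit 107) (nat_lit 5) (nat_lit 108) (nat_lit 4) (nat_lit 375) (nat_lit 328) (nat_lit 317)))) (XT.nd (nat_lit 78) (nat_lit 760) (nat_lit 0) (XT.lf (nat_lit 0) (nat_lit 6522518945) (nat_lit 304) (nat_lit 1033747302) (nat_lit 76) (nat_lit 3151906007) (nat_lit 100) (nat_lit 5) (nat_lit 104) (nat_lit 5) (nat_lit 101) (nat_lit 4) (nat_lit 376) (nat_lit 328) (nat_lit 316)) (XT.nd (nat_lit 78) (nat_lit 228) (nat_lit 0) (XT.lf (nat_lit 0) (nat_lit 1365969830) (nat_lit 228) (nat_lit 1143490327) (nat_lit 304) (nat_lit 8483528475) (nat_lit 93) (nat_lit 5) (nat_lit 96) (nat_lit 5) (nat_lit 97) (nat_lit 5) (nat_lit 377) (nat_lit 328) (nat_lit 315)) (XT.lf (nat_lit 0) (nat_lit 3734811251) (nat_lit 228) (nat_lit 5729454608) (nat_lit 304) (nat_lit 1826235257) (nat_lit 90) (nat_lit 5) (nat_lit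 93) (nat_lit 5) (nat_lit 94) (nat_lit 4) (nat_lit 378) (nat_lit 328) (nat_lit 314))))) (XT.nd (nat_lit 234) (nat_lit 988) (nat_lit 0) (XT.nd (nat_lit 78) (nat_lit 456) (nat_lit 0) (XT.lf (nat_lit 0) (nat_lit 5036019230) (nat_lit 304) (nat_lit 5533942383) (nat_lit 76) (nat_lit 1032292874) (nat_lit 86) (nat_lit 5) (nat_lit 90) (nat_lit 5) (nat_lit 87) (nat_lit 4) (nat_lit 379) (nat_lit 328) (nat_lit 313)) (XT.nd (nat_lit 78) (nat_lit 228) (nat_lit 0) (XT.lf (nat_lit 0) (nat_lit 284394399) (nat_lit 228) (nat_lit 3579986758) (nat_lit 76) (nat_lit 8064174394) (nat_lit 83) (nat_lit 5) (nat_lit 86) (nat_lit 5) (nat_lit 84) (nat_lit 5) (nat_lit 380) (nat_lit 328) (nat_lit 312)) (XT.lf (nat_lit 0) (nat_lit 7336247691) (nat_lit 304) (nat_lit 1723763686) (nat_lit 76) (nat_lit 3209410679) (nat_lit 80) (nat_lit 5) (nat_lit 84) (nat_lit 5) (nat_lit 81) (nat_lit 4) (nat_lit 381) (nat_lit 328) (nat_lit 311))))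 (XT.nd (nat_lit 156) (nat_lit 380) (nat_lit 0) (XT.nd (nat_lit 78) (nat_lit 152) (nat_lit 0) (XT.lf (nat_lit 0) (nat_lit 60527693) (nat_lit 228) (nat_lit 2018144793) (nat_lit 304) (nat_lit 10547886289) (nat_lit 74) (nat_lit 5) (nat_lit 77) (nat_lit 5) (nat_lit 78) (nat_lit 5) (nat_lit 382) (nat_lit 328) (nat_lit 310)) (XT.lf (nat_lit 0) (nat_lit 1747696033) (nat_lit 152) (nat_lit 7632066568) (nat_lit 228) (nat_lit 3619135407) (nat_lit 72) (nat_lit 5) (nat_lit 74) (nat_lit 5) (nat_lit 75) (nat_lit 4) (nat_lit 383) (nat_lit 328) (nat_lit 309))) (XT.nd (nat_lit 78) (nat_lit 152) (nat_lit 0) (XT.lf (nat_lit 0) (nat_lit 3334677774) (nat_lit 152) (nat_lit 244603146) (nat_lit 228) (nat_lit 9809710756) (nat_lit 69) (nat_lit 5) (nat_lit 71) (nat_lit 5) (nat_lit 72) (nat_lit 5) (nat_lit 384) (nat_lit 328) (nat_lit 308)) (XT.lf (nat_lit 0) (nat_lit 4750516230) (nat_lit 152) (nat_lit 6363920634) (nat_lit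 228) (nat_lit 2681555669) (nat_lit 67) (nat_lit 5) (nat_lit 69) (nat_lit 5) (nat_lit 70) (nat_lit 4) (nat_lit 385) (nat_lit 328) (nat_lit 307))))))))
noncomputable def xc28 : XT := (XT.nd (nat_lit 1872) (nat_lit 1292) (nat_lit 0) (XT.nd (nat_lit 936) (nat_lit 1140) (nat_lit 0) (XT.nd (nat_lit 468) (nat_lit 912) (nat_lit 0) (XT.nd (nat_lit 234) (nat_lit 456) (nat_lit 0) (XT.nd (nat_lit 78) (nat_lit 380) (nat_lit 0) (XT.lf (nat_lit 0) (nat_lit 4707301714) (nat_lit 228) (nat_lit 8198260677) (nat_lit 76) (nat_lit 1316480871) (nat_lit 64) (nat_lit 5) (nat_lit 67) (nat_lit 5) (nat_lit 65) (nat_lit 4) (nat_lit 386) (nat_lit 328) (nat_lit 306)) (XT.nd (nat_lit 78) (nat_lit 228) (nat_lit 0) (XT.lf (nat_lit 0) (nat_lit 7103906810) (nat_lit 152) (nat_lit 5357726797) (nat_lit 228) (nat_lit 2205445960) (nat_lit 62) (nat_lit 5) (nat_lit 64) (nat_lit 5) (nat_lit 65) (nat_lit 4) (nat_lit 387) (nat_lit 328) (nat_lit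 305)) (XT.lf (nat_lit 0) (nat_lit 5378473557) (nat_lit 228) (nat_lit 7151043236) (nat_lit 76) (nat_lit 2602819531) (nat_lit 59) (nat_lit 5) (nat_lit 62) (nat_lit 5) (nat_lit 60) (nat_lit 4) (nat_lit 388) (nat_lit 328) (nat_lit 304)))) (XT.nd (nat_lit 78) (nat_lit 304) (nat_lit 0) (XT.lf (nat_lit 0) (nat_lit 8632934276) (nat_lit 152) (nat_lit 4711390013) (nat_lit 228) (nat_lit 2274447488) (nat_lit 57) (nat_lit 5) (nat_lit 59) (nat_lit 5) (nat_lit 60) (nat_lit 4) (nat_lit 389) (nat_lit 328) (nat_lit 303)) (XT.nd (nat_lit 78) (nat_lit 76) (nat_lit 0) (XT.lf (nat_lit 0) (nat_lit 5501729003) (nat_lit 228) (nat_lit 7107537934) (nat_lit 76) (nat_lit 3517723298) (nat_lit 54) (nat_lit 5) (nat_lit 57) (nat_lit 5) (nat_lit 55) (nat_lit 4) (nat_lit 390) (nat_lit 328) (nat_lit 302)) (XT.lf (nat_lit 0) (nat_lit 9128761040) (nat_lit 76) (nat_lit 4538894485) (nat_lit 152) (nat_lit 2990867912) (nat_lit 53) (nat_lit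 5) (nat_lit 54) (nat_lit 5) (nat_lit 55) (nat_lit 4) (nat_lit 391) (nat_lit 328) (nat_lit 301))))) (XT.nd (nat_lit 234) (nat_lit 380) (nat_lit 0) (XT.nd (nat_lit 78) (nat_lit 304) (nat_lit 0) (XT.lf (nat_lit 0) (nat_lit 4968750758) (nat_lit 228) (nat_lit 8302655126) (nat_lit 76) (nat_lit 3942548644) (nat_lit 50) (nat_lit 5) (nat_lit 53) (nat_lit 5) (nat_lit 51) (nat_lit 4) (nat_lit 392) (nat_lit 328) (nat_lit 300)) (XT.nd (nat_lit 78) (nat_lit 228) (nat_lit 0) (XT.lf (nat_lit 0) (nat_lit 8342265946) (nat_lit 76) (nat_lit 4973675566) (nat_lit 152) (nat_lit 4478800442) (nat_lit 49) (nat_lit 5) (nat_lit 50) (nat_lit 5) (nat_lit 51) (nat_lit 4) (nat_lit 393) (nat_lit 328) (nat_lit 299)) (XT.lf (nat_lit 0) (nat_lit 3648302862) (nat_lit 228) (nat_lit 11015975930) (nat_lit 76) (nat_lit 3737921904) (nat_lit 46) (nat_lit 5) (nat_lit 49) (nat_lit 5) (nat_lit 47) (nat_lit 4) (nat_lit 394) (nat_lit 328)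 (nat_lit 298)))) (XT.nd (nat_lit 78) (nat_lit 304) (nat_lit 0) (XT.lf (nat_lit 0) (nat_lit 5976576819) (nat_lit 76) (nat_lit 6172527538) (nat_lit 152) (nat_lit 6887813123) (nat_lit 45) (nat_lit 5) (nat_lit 46) (nat_lit 5) (nat_lit 47) (nat_lit 4) (nat_lit 395) (nat_lit 328) (nat_lit 297)) (XT.nd (nat_lit 78) (nat_lit 76) (nat_lit 0) (XT.lf (nat_lit 0) (nat_lit 1382310480) (nat_lit 228) (nat_lit 15579933362) (nat_lit 76) (nat_lit 2739619243) (nat_lit 42) (nat_lit 5) (nat_lit 45) (nat_lit 5) (nat_lit 43) (nat_lit 4) (nat_lit 396) (nat_lit 328) (nat_lit 296)) (XT.lf (nat_lit 0) (nat_lit 1678324796) (nat_lit 76) (nat_lit 8320145741) (nat_lit 152) (nat_lit 10397302966) (nat_lit 41) (nat_lit 5) (nat_lit 42) (nat_lit 5) (nat_lit 43) (nat_lit 4) (nat_lit 397) (nat_lit 328) (nat_lit 295)))))) (XT.nd (nat_lit 468) (nat_lit 532) (nat_lit 0) (XT.nd (nat_lit 234) (nat_lit 304) (nat_lit 0) (XT.nd (nat_lit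 78) (nat_lit 304) (nat_lit 0) (XT.lf (nat_lit 0) (nat_lit 19077223741) (nat_lit 152) (nat_lit 1260295005) (nat_lit 0) (nat_lit 785919373) (nat_lit 41) (nat_lit 5) (nat_lit 43) (nat_lit 4) (nat_lit 41) (nat_lit 4) (nat_lit 398) (nat_lit 328) (nat_lit 294)) (XT.nd (nat_lit 78) (nat_lit 76) (nat_lit 0) (XT.lf (nat_lit 0) (nat_lit 6709615317) (nat_lit 228) (nat_lit 4875568540) (nat_lit 76) (nat_lit 10296823853) (nat_lit 38) (nat_lit 5) (nat_lit 41) (nat_lit 5) (nat_lit 39) (nat_lit 4) (nat_lit 399) (nat_lit 328) (nat_lit 293)) (XT.lf (nat_lit 0) (nat_lit 13537848347) (nat_lit 76) (nat_lit 2338490404) (nat_lit 152) (nat_lit 6801107381) (nat_lit 37) (nat_lit 5) (nat_lit 38) (nat_lit 5) (nat_lit 39) (nat_lit 4) (nat_lit 400) (nat_lit 328) (nat_lit 292)))) (XT.nd (nat_lit 78) (nat_lit 76) (nat_lit 0) (XT.lf (nat_lit 0) (nat_lit 2036673964) (nat_lit 228) (nat_lit 14192604063) (nat_lit 76) (nat_lit 7280212708)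 (nat_lit 34) (nat_lit 5) (nat_lit 37) (nat_lit 5) (nat_lit 35) (nat_lit 4) (nat_lit 401) (nat_lit 328) (nat_lit 291)) (XT.nd (nat_lit 78) (nat_lit 0) (nat_lit 0) (XT.lf (nat_lit 0) (nat_lit 4265155148) (nat_lit 76) (nat_lit 6948615508) (nat_lit 152) (nat_lit 13166213760) (nat_lit 33) (nat_lit 5) (nat_lit 34) (nat_lit 5) (nat_lit 35) (nat_lit 4) (nat_lit 402) (nat_lit 328) (nat_lit 290)) (XT.lf (nat_lit 0) (nat_lit 20903971930) (nat_lit 152) (nat_lit 1603244275) (nat_lit 0) (nat_lit 2785168117) (nat_lit 33) (nat_lit 5) (nat_lit 35) (nat_lit 4) (nat_lit 33) (nat_lit 4) (nat_lit 403) (nat_lit 328) (nat_lit 289))))) (XT.nd (nat_lit 234) (nat_lit 228) (nat_lit 0) (XT.nd (nat_lit 78) (nat_lit 152) (nat_lit 0) (XT.lf (nat_lit 0) (nat_lit 4863028701) (nat_lit 152) (nat_lit 8398097934) (nat_lit 76) (nat_lit 12984024567) (nat_lit 31) (nat_lit 5) (nat_lit 33) (nat_lit 5) (nat_lit 32) (nat_lit 4) (nat_lit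 404) (nat_lit 328) (nat_lit 288)) (XT.nd (nat_lit 78) (nat_lit 76) (nat_lit 0) (XT.lf (nat_lit 0) (nat_lit 11015943513) (nat_lit 76) (nat_lit 3481608250) (nat_lit 152) (nat_lit 12746371059) (nat_lit 30) (nat_lit 5) (nat_lit 31) (nat_lit 5) (nat_lit 32) (nat_lit 4) (nat_lit 405) (nat_lit 328) (nat_lit 287)) (XT.lf (nat_lit 0) (nat_lit 3070875975) (nat_lit 76) (nat_lit 21615267022) (nat_lit 76) (nat_lit 3604327341) (nat_lit 29) (nat_lit 4) (nat_lit 30) (nat_lit 5) (nat_lit 30) (nat_lit 4) (nat_lit 406) (nat_lit 328) (nat_lit 286)))) (XT.nd (nat_lit 78) (nat_lit 152) (nat_lit 0) (XT.lf (nat_lit 0) (nat_lit 5974173269) (nat_lit 152) (nat_lit 6010211497) (nat_lit 76) (nat_lit 17400348639) (nat_lit 28) (nat_lit 5) (nat_lit 30) (nat_lit 5) (nat_lit 29) (nat_lit 4) (nat_lit 407) (nat_lit 328) (nat_lit 285)) (XT.nd (nat_lit 78) (nat_lit 76) (nat_lit 0) (XT.lf (nat_lit 0) (nat_lit 14204976811) (nat_lit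 76) (nat_lit 1786926356) (nat_lit 152) (nat_lit 14539697119) (nat_lit 27) (nat_lit 5) (nat_lit 28) (nat_lit 5) (nat_lit 29) (nat_lit 4) (nat_lit 408) (nat_lit 328) (nat_lit 284)) (XT.lf (nat_lit 0) (nat_lit 3614754010) (nat_lit 76) (nat_lit 22978531425) (nat_lit 76) (nat_lit 5140048453) (nat_lit 26) (nat_lit 4) (nat_lit 27) (nat_lit 5) (nat_lit 27) (nat_lit 4) (nat_lit 409) (nat_lit 328) (nat_lit 283))))))) (XT.nd (nat_lit 936) (nat_lit 608) (nat_lit 0) (XT.nd (nat_lit 468) (nat_lit 304) (nat_lit 0) (XT.nd (nat_lit 234) (nat_lit 228) (nat_lit 0) (XT.nd (nat_lit 78) (nat_lit 76) (nat_lit 0) (XT.lf (nat_lit 0) (nat_lit 4726858190) (nat_lit 152) (nat_lit 8349341652) (nat_lit 76) (nat_lit 19914909292) (nat_lit 25) (nat_lit 5) (nat_lit 27) (nat_lit 5) (nat_lit 26) (nat_lit 4) (nat_lit 410) (nat_lit 328) (nat_lit 282)) (XT.nd (nat_lit 78) (nat_lit 0) (nat_lit 0) (XT.lf (nat_lit 0) (nat_lit 12419353871)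 (nat_lit 76) (nat_lit 2588297707) (nat_lit 152) (nat_lit 19301795049) (nat_lit 24) (nat_lit 5) (nat_lit 25) (nat_lit 5) (nat_lit 26) (nat_lit 4) (nat_lit 411) (nat_lit 328) (nat_lit 281)) (XT.lf (nat_lit 0) (nat_lit 25878710672) (nat_lit 152) (nat_lit 1548240295) (nat_lit 0) (nat_lit 8264468574) (nat_lit 24) (nat_lit 5) (nat_lit 26) (nat_lit 4) (nat_lit 24) (nat_lit 4) (nat_lit 412) (nat_lit 328) (nat_lit 280)))) (XT.nd (nat_lit 78) (nat_lit 76) (nat_lit 0) (XT.lf (nat_lit 0) (nat_lit 280436911) (nat_lit 152) (nat_lit 17134174333) (nat_lit 76) (nat_lit 19723864832) (nat_lit 22) (nat_lit 5) (nat_lit 24) (nat_lit 5) (nat_lit 23) (nat_lit 4) (nat_lit 413) (nat_lit 328) (nat_lit 279)) (XT.nd (nat_lit 78) (nat_lit 0) (nat_lit 0) (XT.lf (nat_lit 0) (nat_lit 3820007728) (nat_lit 76) (nat_lit 6824543811) (nat_lit 152) (nat_lit 28011346322) (nat_lit 21) (nat_lit 5) (nat_lit 22) (nat_lit 5) (nat_lit 23)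 (nat_lit 4) (nat_lit 414) (nat_lit 328) (nat_lit 278)) (XT.lf (nat_lit 0) (nat_lit 21662626439) (nat_lit 152) (nat_lit 14268759313) (nat_lit 0) (nat_lit 4313736817) (nat_lit 21) (nat_lit 5) (nat_lit 23) (nat_lit 4) (nat_lit 21) (nat_lit 4) (nat_lit 415) (nat_lit 328) (nat_lit 277))))) (XT.nd (nat_lit 234) (nat_lit 76) (nat_lit 0) (XT.nd (nat_lit 78) (nat_lit 152) (nat_lit 0) (XT.lf (nat_lit 0) (nat_lit 7245149054) (nat_lit 76) (nat_lit 26045306948) (nat_lit 76) (nat_lit 8621591239) (nat_lit 20) (nat_lit 4) (nat_lit 21) (nat_lit 5) (nat_lit 21) (nat_lit 4) (nat_lit 416) (nat_lit 328) (nat_lit 276)) (XT.nd (nat_lit 78) (nat_lit 76) (nat_lit 0) (XT.lf (nat_lit 0) (nat_lit 1871754271) (nat_lit 152) (nat_lit 13695317476) (nat_lit 76) (nat_lit 28092613014) (nat_lit 19) (nat_lit 5) (nat_lit 21) (nat_lit 5) (nat_lit 20) (nat_lit 4) (nat_lit 417) (nat_lit 328) (nat_lit 275)) (XT.lf (nat_lit 0) (nat_lit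 8254888219) (nat_lit 76) (nat_lit 4463208497) (nat_lit 152) (nat_lit 32773851201) (nat_lit 18) (nat_lit 5) (nat_lit 19) (nat_lit 5) (nat_lit 20) (nat_lit 4) (nat_lit 418) (nat_lit 328) (nat_lit 274)))) (XT.nd (nat_lit 78) (nat_lit 76) (nat_lit 0) (XT.lf (nat_lit 0) (nat_lit 24245478953) (nat_lit 152) (nat_lit 16034772002) (nat_lit 0) (nat_lit 7131415164) (nat_lit 18) (nat_lit 5) (nat_lit 20) (nat_lit 4) (nat_lit 18) (nat_lit 4) (nat_lit 419) (nat_lit 328) (nat_lit 273)) (XT.nd (nat_lit 78) (nat_lit 0) (nat_lit 0) (XT.lf (nat_lit 0) (nat_lit 6168274205) (nat_lit 76) (nat_lit 30215940152) (nat_lit 76) (nat_lit 13042109753) (nat_lit 17) (nat_lit 4) (nat_lit 18) (nat_lit 5) (nat_lit 18) (nat_lit 4) (nat_lit 420) (nat_lit 328) (nat_lit 272)) (XT.lf (nat_lit 0) (nat_lit 29685739793) (nat_lit 76) (nat_lit 19541898436) (nat_lit 76) (nat_lit 2311147458) (nat_lit 17) (nat_lit 4) (nat_lit 18) (nat_lit 5)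 (nat_lit 18) (nat_lit 4) (nat_lit 421) (nat_lit 328) (nat_lit 271)))))) (XT.nd (nat_lit 468) (nat_lit 304) (nat_lit 0) (XT.nd (nat_lit 234) (nat_lit 152) (nat_lit 0) (XT.nd (nat_lit 78) (nat_lit 0) (nat_lit 0) (XT.lf (nat_lit 0) (nat_lit 418403971) (nat_lit 76) (nat_lit 8302465499) (nat_lit 152) (nat_lit 45035242724) (nat_lit 15) (nat_lit 5) (nat_lit 16) (nat_lit 5) (nat_lit 17) (nat_lit 4) (nat_lit 422) (nat_lit 328) (nat_lit 270)) (XT.nd (nat_lit 78) (nat_lit 0) (nat_lit 0) (XT.lf (nat_lit 0) (nat_lit 20454544526) (nat_lit 152) (nat_lit 32000237168) (nat_lit 0) (nat_lit 3622904043) (nat_lit 15) (nat_lit 5) (nat_lit 17) (nat_lit 4) (nat_lit 15) (nat_lit 4) (nat_lit 423) (nat_lit 328) (nat_lit 269)) (XT.lf (nat_lit 0) (nat_lit 32798313520) (nat_lit 152) (nat_lit 9797389807) (nat_lit 0) (nat_lit 15918935040) (nat_lit 15) (nat_lit 5) (nat_lit 17) (nat_lit 4) (nat_lit 15) (nat_lit 4) (nat_lit 424)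 (nat_lit 328) (nat_lit 268)))) (XT.nd (nat_lit 78) (nat_lit 76) (nat_lit 0) (XT.lf (nat_lit 0) (nat_lit 13670262211) (nat_lit 76) (nat_lit 32162902712) (nat_lit 76) (nat_lit 15238059473) (nat_lit 14) (nat_lit 4) (nat_lit 15) (nat_lit 5) (nat_lit 15) (nat_lit 4) (nat_lit 425) (nat_lit 328) (nat_lit 267)) (XT.nd (nat_lit 78) (nat_lit 76) (nat_lit 0) (XT.lf (nat_lit 0) (nat_lit 38407152846) (nat_lit 76) (nat_lit 21157640658) (nat_lit 76) (nat_lit 4189497648) (nat_lit 14) (nat_lit 4) (nat_lit 15) (nat_lit 5) (nat_lit 15) (nat_lit 4) (nat_lit 426) (nat_lit 328) (nat_lit 266)) (XT.lf (nat_lit 0) (nat_lit 7213175953) (nat_lit 152) (nat_lit 2366633700) (nat_lit 76) (nat_lit 56991177298) (nat_lit 13) (nat_lit 5) (nat_lit 15) (nat_lit 5) (nat_lit 14) (nat_lit 4) (nat_lit 427) (nat_lit 328) (nat_lit 265))))) (XT.nd (nat_lit 234) (nat_lit 228) (nat_lit 0) (XT.nd (nat_lit 78) (nat_lit 0) (nat_lit 0) (XT.lf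 (nat_lit 0) (nat_lit 19287798363) (nat_lit 152) (nat_lit 47498117054) (nat_lit 0) (nat_lit 2735706077) (nat_lit 12) (nat_lit 5) (nat_lit 14) (nat_lit 4) (nat_lit 12) (nat_lit 4) (nat_lit 428) (nat_lit 328) (nat_lit 264)) (XT.nd (nat_lit 78) (nat_lit 0) (nat_lit 0) (XT.lf (nat_lit 0) (nat_lit 32037360988) (nat_lit 152) (nat_lit 25131338400) (nat_lit 0) (nat_lit 15448954168) (nat_lit 12) (nat_lit 5) (nat_lit 14) (nat_lit 4) (nat_lit 12) (nat_lit 4) (nat_lit 429) (nat_lit 328) (nat_lit 263)) (XT.lf (nat_lit 0) (nat_lit 45376700921) (nat_lit 152) (nat_lit 1739510461) (nat_lit 0) (nat_lit 28753708831) (nat_lit 12) (nat_lit 5) (nat_lit 14) (nat_lit 4) (nat_lit 12) (nat_lit 4) (nat_lit 430) (nat_lit 328) (nat_lit 262)))) (XT.nd (nat_lit 156) (nat_lit 152) (nat_lit 0) (XT.nd (nat_lit 78) (nat_lit 0) (nat_lit 0) (XT.lf (nat_lit 0) (nat_lit 23185494093) (nat_lit 76) (nat_lit 36374957557) (nat_lit 76) (nat_lit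 19719027113) (nat_lit 11) (nat_lit 4) (nat_lit 12) (nat_lit 5) (nat_lit 12) (nat_lit 4) (nat_lit 431) (nat_lit 328) (nat_lit 261)) (XT.lf (nat_lit 0) (nat_lit 49306799034) (nat_lit 76) (nat_lit 25120401980) (nat_lit 76) (nat_lit 8433101678) (nat_lit 11) (nat_lit 4) (nat_lit 12) (nat_lit 5) (nat_lit 12) (nat_lit 4) (nat_lit 432) (nat_lit 328) (nat_lit 260))) (XT.nd (nat_lit 78) (nat_lit 76) (nat_lit 0) (XT.lf (nat_lit 0) (nat_lit 3308026409) (nat_lit 152) (nat_lit 10001882747) (nat_lit 76) (nat_lit 73310547286) (nat_lit 10) (nat_lit 5) (nat_lit 12) (nat_lit 5) (nat_lit 11) (nat_lit 4) (nat_lit 433) (nat_lit 328) (nat_lit 259)) (XT.lf (nat_lit 0) (nat_lit 14852953924) (nat_lit 76) (nat_lit 712850840) (nat_lit 152) (nat_lit 74997189707) (nat_lit 9) (nat_lit 5) (nat_lit 10) (nat_lit 5) (nat_lit 11) (nat_lit 4) (nat_lit 434) (nat_lit 328) (nat_lit 258))))))))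
noncomputable def xc29 : XT := (XT.nd (nat_lit 49062) (nat_lit 0) (nat_lit 1520) (XT.nd (nat_lit 48126) (nat_lit 0) (nat_lit 5168) (XT.nd (nat_lit 47658) (nat_lit 0) (nat_lit 9120) (XT.nd (nat_lit 47424) (nat_lit 0) (nat_lit 12388) (XT.nd (nat_lit 78) (nat_lit 0) (nat_lit 0) (XT.lf (nat_lit 0) (nat_lit 28621174793) (nat_lit 152) (nat_lit 53738972376) (nat_lit 0) (nat_lit 12336972646) (nat_lit 9) (nat_lit 5) (nat_lit 11) (nat_lit 4) (nat_lit 9) (nat_lit 4) (nat_lit 435) (nat_lit 328) (nat_lit 257)) (XT.nd (nat_lit 78) (nat_lit 0) (nat_lit 0) (XT.lf (nat_lit 0) (nat_lit 42298822570) (nat_lit 152) (nat_lit 30750480950) (nat_lit 0) (nat_lit 25989564053) (nat_lit 9) (nat_lit 5) (nat_lit 11) (nat_lit 4) (nat_lit 9) (nat_lit 4) (nat_lit 436) (nat_lit 328) (nat_lit 256)) (XT.lf (nat_lit 0) (nat_lit 56624461564) (nat_lit 152) (nat_lit 6682979409) (nat_lit 0) (nat_lit 40291339838) (nat_lit 9) (nat_lit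 5) (nat_lit 11) (nat_lit 4) (nat_lit 9) (nat_lit 4) (nat_lit 437) (nat_lit 328) (nat_lit 255)))) (XT.nd (nat_lit 78) (nat_lit 1444) (nat_lit 0) (XT.lf (nat_lit 0) (nat_lit 3382710817) (nat_lit 532) (nat_lit 283377530) (nat_lit 532) (nat_lit 283377530) (nat_lit 191) (nat_lit 4) (nat_lit 198) (nat_lit 5) (nat_lit 198) (nat_lit 4) (nat_lit 362) (nat_lit 329) (nat_lit 329)) (XT.nd (nat_lit 78) (nat_lit 456) (nat_lit 0) (XT.lf (nat_lit 0) (nat_lit 1246272858) (nat_lit 456) (nat_lit 4416389345) (nat_lit 456) (nat_lit 2376228402) (nat_lit 178) (nat_lit 4) (nat_lit 184) (nat_lit 5) (nat_lit 184) (nat_lit 4) (nat_lit 363) (nat_lit 329) (nat_lit 328)) (XT.lf (nat_lit 0) (nat_lit 3741723439) (nat_lit 380) (nat_lit 63643459) (nat_lit 456) (nat_lit 4382942441) (nat_lit 172) (nat_lit 5) (nat_lit 177) (nat_lit 5) (nat_lit 178) (nat_lit 4) (nat_lit 364) (nat_lit 329) (nat_lit 327))))) (XT.nd (nat_lit 234) (nat_lit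 1520) (nat_lit 0) (XT.nd (nat_lit 78) (nat_lit 1216) (nat_lit 0) (XT.lf (nat_lit 0) (nat_lit 1777836799) (nat_lit 532) (nat_lit 2054736424) (nat_lit 76) (nat_lit 4514093941) (nat_lit 165) (nat_lit 5) (nat_lit 172) (nat_lit 5) (nat_lit 166) (nat_lit 4) (nat_lit 365) (nat_lit 329) (nat_lit 326)) (XT.nd (nat_lit 78) (nat_lit 456) (nat_lit 0) (XT.lf (nat_lit 0) (nat_lit 419815744) (nat_lit 380) (nat_lit 7627580227) (nat_lit 380) (nat_lit 467597936) (nat_lit 155) (nat_lit 4) (nat_lit 160) (nat_lit 5) (nat_lit 160) (nat_lit 4) (nat_lit 366) (nat_lit 329) (nat_lit 325)) (XT.lf (nat_lit 0) (nat_lit 2965845379) (nat_lit 380) (nat_lit 2801604616) (nat_lit 456) (nat_lit 2924322602) (nat_lit 149) (nat_lit 5) (nat_lit 154) (nat_lit 5) (nat_lit 155) (nat_lit 4) (nat_lit 367) (nat_lit 329) (nat_lit 324)))) (XT.nd (nat_lit 78) (nat_lit 1064) (nat_lit 0) (XT.lf (nat_lit 0) (nat_lit 3274609550) (nat_lit 456) (nat_lit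 3302868861) (nat_lit 76) (nat_lit 2301440523) (nat_lit 143) (nat_lit 5) (nat_lit 149) (nat_lit 5) (nat_lit 144) (nat_lit 4) (nat_lit 368) (nat_lit 329) (nat_lit 323)) (XT.nd (nat_lit 78) (nat_lit 684) (nat_lit 0) (XT.lf (nat_lit 0) (nat_lit 563825449) (nat_lit 380) (nat_lit 832650608) (nat_lit 76) (nat_lit 7680124898) (nat_lit 138) (nat_lit 5) (nat_lit 143) (nat_lit 5) (nat_lit 139) (nat_lit 5) (nat_lit 369) (nat_lit 329) (nat_lit 322)) (XT.lf (nat_lit 0) (nat_lit 1681906431) (nat_lit 304) (nat_lit 5206404298) (nat_lit 380) (nat_lit 2395347364) (nat_lit 129) (nat_lit 5) (nat_lit 133) (nat_lit 5) (nat_lit 134) (nat_lit 4) (nat_lit 370) (nat_lit 329) (nat_lit 321)))))) (XT.nd (nat_lit 468) (nat_lit 1748) (nat_lit 0) (XT.nd (nat_lit 234) (nat_lit 1140) (nat_lit 0) (XT.nd (nat_lit 78) (nat_lit 684) (nat_lit 0) (XT.lf (nat_lit 0) (nat_lit 3888354413) (nat_lit 380) (nat_lit 5240855754) (nat_lit 76)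 (nat_lit 372592071) (nat_lit 124) (nat_lit 5) (nat_lit 129) (nat_lit 5) (nat_lit 125) (nat_lit 4) (nat_lit 371) (nat_lit 329) (nat_lit 320)) (XT.nd (nat_lit 78) (nat_lit 304) (nat_lit 0) (XT.lf (nat_lit 0) (nat_lit 665533591) (nat_lit 380) (nat_lit 2874298143) (nat_lit 76) (nat_lit 6190984596) (nat_lit 119) (nat_lit 5) (nat_lit 124) (nat_lit 5) (nat_lit 120) (nat_lit 5) (nat_lit 372) (nat_lit 329) (nat_lit 319)) (XT.lf (nat_lit 0) (nat_lit 7092854490) (nat_lit 380) (nat_lit 503484980) (nat_lit 76) (nat_lit 2374817674) (nat_lit 115) (nat_lit 5) (nat_lit 120) (nat_lit 5) (nat_lit 116) (nat_lit 4) (nat_lit 373) (nat_lit 329) (nat_lit 318)))) (XT.nd (nat_lit 78) (nat_lit 532) (nat_lit 0) (XT.lf (nat_lit 0) (nat_lit 1912565045) (nat_lit 304) (nat_lit 1621776245) (nat_lit 380) (nat_lit 6688576448) (nat_lit 107) (nat_lit 5) (nat_lit 111) (nat_lit 5) (nat_lit 112) (nat_lit 5) (nat_lit 374) (nat_lit 329)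 (nat_lit 317)) (XT.nd (nat_lit 78) (nat_lit 304) (nat_lit 0) (XT.lf (nat_lit 0) (nat_lit 4337586526) (nat_lit 228) (nat_lit 5859023648) (nat_lit 304) (nat_lit 290196647) (nat_lit 104) (nat_lit 5) (nat_lit 107) (nat_lit 5) (nat_lit 108) (nat_lit 4) (nat_lit 375) (nat_lit 329) (nat_lit 316)) (XT.lf (nat_lit 0) (nat_lit 6267196509) (nat_lit 304) (nat_lit 4016667876) (nat_lit 76) (nat_lit 479283523) (nat_lit 100) (nat_lit 5) (nat_lit 104) (nat_lit 5) (nat_lit 101) (nat_lit 4) (nat_lit 376) (nat_lit 329) (nat_lit 315))))) (XT.nd (nat_lit 234) (nat_lit 684) (nat_lit 0) (XT.nd (nat_lit 78) (nat_lit 760) (nat_lit 0) (XT.lf (nat_lit 0) (nat_lit 2061343102) (nat_lit 304) (nat_lit 1920314778) (nat_lit 76) (nat_lit 7070733388) (nat_lit 96) (nat_lit 5) (nat_lit 100) (nat_lit 5) (nat_lit 97) (nat_lit 5) (nat_lit 377) (nat_lit 329) (nat_lit 314)) (XT.nd (nat_lit 78) (nat_lit 304) (nat_lit 0) (XT.lf (nat_lit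 0) (nat_lit 145366182) (nat_lit 228) (nat_lit 8691457921) (nat_lit 304) (nat_lit 2518479652) (nat_lit 90) (nat_lit 5) (nat_lit 93) (nat_lit 5) (nat_lit 94) (nat_lit 4) (nat_lit 378) (nat_lit 329) (nat_lit 313)) (XT.lf (nat_lit 0) (nat_lit 2195689605) (nat_lit 228) (nat_lit 2017833499) (nat_lit 304) (nat_lit 7458065184) (nat_lit 86) (nat_lit 5) (nat_lit 89) (nat_lit 5) (nat_lit 90) (nat_lit 5) (nat_lit 379) (nat_lit 329) (nat_lit 312)))) (XT.nd (nat_lit 78) (nat_lit 532) (nat_lit 0) (XT.lf (nat_lit 0) (nat_lit 4190360055) (nat_lit 152) (nat_lit 7052629251) (nat_lit 228) (nat_lit 759597780) (nat_lit 84) (nat_lit 5) (nat_lit 86) (nat_lit 5) (nat_lit 87) (nat_lit 4) (nat_lit 380) (nat_lit 329) (nat_lit 311)) (XT.nd (nat_lit 78) (nat_lit 228) (nat_lit 0) (XT.lf (nat_lit 0) (nat_lit 6111310343) (nat_lit 228) (nat_lit 29635495) (nat_lit 304) (nat_lit 6207727268) (nat_lit 80) (nat_lit 5) (nat_lit 83)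 (nat_lit 5) (nat_lit 84) (nat_lit 5) (nat_lit 381) (nat_lit 329) (nat_lit 310)) (XT.lf (nat_lit 0) (nat_lit 691629884) (nat_lit 228) (nat_lit 4768871491) (nat_lit 76) (nat_lit 7249812084) (nat_lit 77) (nat_lit 5) (nat_lit 80) (nat_lit 5) (nat_lit 78) (nat_lit 5) (nat_lit 382) (nat_lit 329) (nat_lit 309))))))) (XT.nd (nat_lit 936) (nat_lit 1520) (nat_lit 0) (XT.nd (nat_lit 468) (nat_lit 760) (nat_lit 0) (XT.nd (nat_lit 234) (nat_lit 760) (nat_lit 0) (XT.nd (nat_lit 78) (nat_lit 380) (nat_lit 0) (XT.lf (nat_lit 0) (nat_lit 7806099407) (nat_lit 304) (nat_lit 3417069743) (nat_lit 76) (nat_lit 1865096690) (nat_lit 74) (nat_lit 5) (nat_lit 78) (nat_lit 5) (nat_lit 75) (nat_lit 4) (nat_lit 383) (nat_lit 329) (nat_lit 308)) (XT.nd (nat_lit 78) (nat_lit 152) (nat_lit 0) (XT.lf (nat_lit 0) (nat_lit 1795245930) (nat_lit 228) (nat_lit 2189289942) (nat_lit 76) (nat_lit 9498920323) (nat_lit 71) (nat_lit 5)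 (nat_lit 74) (nat_lit 5) (nat_lit 72) (nat_lit 5) (nat_lit 384) (nat_lit 329) (nat_lit 307)) (XT.lf (nat_lit 0) (nat_lit 9141687486) (nat_lit 228) (nat_lit 1118330381) (nat_lit 76) (nat_lit 3636113412) (nat_lit 69) (nat_lit 5) (nat_lit 72) (nat_lit 5) (nat_lit 70) (nat_lit 4) (nat_lit 385) (nat_lit 329) (nat_lit 306)))) (XT.nd (nat_lit 78) (nat_lit 532) (nat_lit 0) (XT.lf (nat_lit 0) (nat_lit 2509267983) (nat_lit 228) (nat_lit 199313384) (nat_lit 76) (nat_lit 11619178100) (nat_lit 66) (nat_lit 5) (nat_lit 69) (nat_lit 5) (nat_lit 67) (nat_lit 5) (nat_lit 386) (nat_lit 329) (nat_lit 305)) (XT.nd (nat_lit 78) (nat_lit 228) (nat_lit 0) (XT.lf (nat_lit 0) (nat_lit 524049678) (nat_lit 152) (nat_lit 9566719434) (nat_lit 228) (nat_lit 4687222849) (nat_lit 62) (nat_lit 5) (nat_lit 64) (nat_lit 5) (nat_lit 65) (nat_lit 4) (nat_lit 387) (nat_lit 329) (nat_lit 304)) (XT.lf (nat_lit 0) (nat_lit 1063019164)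 (nat_lit 152) (nat_lit 1710001921) (nat_lit 228) (nat_lit 12476116863) (nat_lit 59) (nat_lit 5) (nat_lit 61) (nat_lit 5) (nat_lit 62) (nat_lit 5) (nat_lit 388) (nat_lit 329) (nat_lit 303))))) (XT.nd (nat_lit 234) (nat_lit 304) (nat_lit 0) (XT.nd (nat_lit 78) (nat_lit 304) (nat_lit 0) (XT.lf (nat_lit 0) (nat_lit 1332025506) (nat_lit 152) (nat_lit 9242288005) (nat_lit 228) (nat_lit 5166206561) (nat_lit 57) (nat_lit 5) (nat_lit 59) (nat_lit 5) (nat_lit 60) (nat_lit 4) (nat_lit 389) (nat_lit 329) (nat_lit 302)) (XT.nd (nat_lit 78) (nat_lit 76) (nat_lit 0) (XT.lf (nat_lit 0) (nat_lit 1372885634) (nat_lit 152) (nat_lit 1108889532) (nat_lit 228) (nat_lit 13773345162) (nat_lit 54) (nat_lit 5) (nat_lit 56) (nat_lit 5) (nat_lit 57) (nat_lit 5) (nat_lit 390) (nat_lit 329) (nat_lit 301)) (XT.lf (nat_lit 0) (nat_lit 1072473427) (nat_lit 76) (nat_lit 9412615252) (nat_lit 152) (nat_lit 6306451978) (nat_lit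 53) (nat_lit 5) (nat_lit 54) (nat_lit 5) (nat_lit 55) (nat_lit 4) (nat_lit 391) (nat_lit 329) (nat_lit 300)))) (XT.nd (nat_lit 78) (nat_lit 76) (nat_lit 0) (XT.lf (nat_lit 0) (nat_lit 496057558) (nat_lit 152) (nat_lit 1028932831) (nat_lit 228) (nat_lit 15828731839) (nat_lit 50) (nat_lit 5) (nat_lit 52) (nat_lit 5) (nat_lit 53) (nat_lit 5) (nat_lit 392) (nat_lit 329) (nat_lit 299)) (XT.nd (nat_lit 78) (nat_lit 76) (nat_lit 0) (XT.lf (nat_lit 0) (nat_lit 9710828392) (nat_lit 228) (nat_lit 496040949) (nat_lit 76) (nat_lit 7732488589) (nat_lit 50) (nat_lit 5) (nat_lit 53) (nat_lit 5) (nat_lit 51) (nat_lit 4) (nat_lit 393) (nat_lit 329) (nat_lit 298)) (XT.lf (nat_lit 0) (nat_lit 16745451451) (nat_lit 76) (nat_lit 1592711381) (nat_lit 152) (nat_lit 215161469) (nat_lit 49) (nat_lit 5) (nat_lit 50) (nat_lit 5) (nat_lit 51) (nat_lit 4) (nat_lit 394) (nat_lit 329) (nat_lit 297)))))) (XT.nd (nat_lit 468)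 (nat_lit 608) (nat_lit 0) (XT.nd (nat_lit 234) (nat_lit 380) (nat_lit 0) (XT.nd (nat_lit 78) (nat_lit 304) (nat_lit 0) (XT.lf (nat_lit 0) (nat_lit 8130974334) (nat_lit 228) (nat_lit 3630105984) (nat_lit 76) (nat_lit 7431795519) (nat_lit 46) (nat_lit 5) (nat_lit 49) (nat_lit 5) (nat_lit 47) (nat_lit 4) (nat_lit 395) (nat_lit 329) (nat_lit 296)) (XT.nd (nat_lit 78) (nat_lit 228) (nat_lit 0) (XT.lf (nat_lit 0) (nat_lit 13984571386) (nat_lit 76) (nat_lit 2941575623) (nat_lit 152) (nat_lit 2937121860) (nat_lit 45) (nat_lit 5) (nat_lit 46) (nat_lit 5) (nat_lit 47) (nat_lit 4) (nat_lit 396) (nat_lit 329) (nat_lit 295)) (XT.lf (nat_lit 0) (nat_lit 5568440181) (nat_lit 228) (nat_lit 8699585209) (nat_lit 76) (nat_lit 6295044222) (nat_lit 42) (nat_lit 5) (nat_lit 45) (nat_lit 5) (nat_lit 43) (nat_lit 4) (nat_lit 397) (nat_lit 329) (nat_lit 294)))) (XT.nd (nat_lit 78) (nat_lit 304) (nat_lit 0) (XT.lf (nat_lit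 0) (nat_lit 9202032274) (nat_lit 76) (nat_lit 5288843497) (nat_lit 152) (nat_lit 6804553669) (nat_lit 41) (nat_lit 5) (nat_lit 42) (nat_lit 5) (nat_lit 43) (nat_lit 4) (nat_lit 398) (nat_lit 329) (nat_lit 293)) (XT.nd (nat_lit 78) (nat_lit 76) (nat_lit 0) (XT.lf (nat_lit 0) (nat_lit 1823489626) (nat_lit 228) (nat_lit 16119023025) (nat_lit 76) (nat_lit 4119482998) (nat_lit 38) (nat_lit 5) (nat_lit 41) (nat_lit 5) (nat_lit 39) (nat_lit 4) (nat_lit 399) (nat_lit 329) (nat_lit 292)) (XT.lf (nat_lit 0) (nat_lit 1956780715) (nat_lit 76) (nat_lit 8862545463) (nat_lit 152) (nat_lit 12043239503) (nat_lit 37) (nat_lit 5) (nat_lit 38) (nat_lit 5) (nat_lit 39) (nat_lit 4) (nat_lit 400) (nat_lit 329) (nat_lit 291))))) (XT.nd (nat_lit 234) (nat_lit 304) (nat_lit 0) (XT.nd (nat_lit 78) (nat_lit 304) (nat_lit 0) (XT.lf (nat_lit 0) (nat_lit 20319558984) (nat_lit 152) (nat_lit 2657904207) (nat_lit 0) (nat_lit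 724072661) (nat_lit 37) (nat_lit 5) (nat_lit 39) (nat_lit 4) (nat_lit 37) (nat_lit 4) (nat_lit 401) (nat_lit 329) (nat_lit 290)) (XT.nd (nat_lit 78) (nat_lit 76) (nat_lit 0) (XT.lf (nat_lit 0) (nat_lit 5736729865) (nat_lit 228) (nat_lit 8113493338) (nat_lit 76) (nat_lit 10726517561) (nat_lit 34) (nat_lit 5) (nat_lit 37) (nat_lit 5) (nat_lit 35) (nat_lit 4) (nat_lit 402) (nat_lit 329) (nat_lit 289)) (XT.lf (nat_lit 0) (nat_lit 11072555938) (nat_lit 76) (nat_lit 4192168476) (nat_lit 152) (nat_lit 10229286655) (nat_lit 33) (nat_lit 5) (nat_lit 34) (nat_lit 5) (nat_lit 35) (nat_lit 4) (nat_lit 403) (nat_lit 329) (nat_lit 288)))) (XT.nd (nat_lit 156) (nat_lit 152) (nat_lit 0) (XT.nd (nat_lit 78) (nat_lit 76) (nat_lit 0) (XT.lf (nat_lit 0) (nat_lit 4761196099) (nat_lit 76) (nat_lit 20586219668) (nat_lit 76) (nat_lit 1107388403) (nat_lit 32) (nat_lit 4) (nat_lit 33) (nat_lit 5) (nat_lit 33) (nat_lit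 4) (nat_lit 404) (nat_lit 329) (nat_lit 287)) (XT.lf (nat_lit 0) (nat_lit 8390757011) (nat_lit 152) (nat_lit 2582775835) (nat_lit 76) (nat_lit 16485105590) (nat_lit 31) (nat_lit 5) (nat_lit 33) (nat_lit 5) (nat_lit 32) (nat_lit 4) (nat_lit 405) (nat_lit 329) (nat_lit 286))) (XT.nd (nat_lit 78) (nat_lit 76) (nat_lit 0) (XT.lf (nat_lit 0) (nat_lit 17623236155) (nat_lit 76) (nat_lit 785580388) (nat_lit 152) (nat_lit 10101488881) (nat_lit 30) (nat_lit 5) (nat_lit 31) (nat_lit 5) (nat_lit 32) (nat_lit 4) (nat_lit 406) (nat_lit 329) (nat_lit 285)) (XT.lf (nat_lit 0) (nat_lit 9173575681) (nat_lit 76) (nat_lit 19864991324) (nat_lit 76) (nat_lit 572671989) (nat_lit 29) (nat_lit 4) (nat_lit 30) (nat_lit 5) (nat_lit 30) (nat_lit 4) (nat_lit 407) (nat_lit 329) (nat_lit 284))))))))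
noncomputable def xc30 : XT := (XT.nd (nat_lit 1872) (nat_lit 152) (nat_lit 0) (XT.nd (nat_lit 936) (nat_lit 532) (nat_lit 0) (XT.nd (nat_lit 468) (nat_lit 380) (nat_lit 0) (XT.nd (nat_lit 234) (nat_lit 228) (nat_lit 0) (XT.nd (nat_lit 78) (nat_lit 152) (nat_lit 0) (XT.lf (nat_lit 0) (nat_lit 9272116726) (nat_lit 152) (nat_lit 584973222) (nat_lit 76) (nat_lit 20906707655) (nat_lit 28) (nat_lit 5) (nat_lit 30) (nat_lit 5) (nat_lit 29) (nat_lit 4) (nat_lit 408) (nat_lit 329) (nat_lit 283)) (XT.nd (nat_lit 78) (nat_lit 76) (nat_lit 0) (XT.lf (nat_lit 0) (nat_lit 19708828442) (nat_lit 152) (nat_lit 11501305163) (nat_lit 0) (nat_lit 760340668) (nat_lit 27) (nat_lit 5) (nat_lit 29) (nat_lit 4) (nat_lit 27) (nat_lit 4) (nat_lit 409) (nat_lit 329) (nat_lit 282)) (XT.lf (nat_lit 0) (nat_lit 9257905560) (nat_lit 76) (nat_lit 21513138875) (nat_lit 76) (nat_lit 2463336046) (nat_lit 26) (nat_lit 4) (nat_lit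 27) (nat_lit 5) (nat_lit 27) (nat_lit 4) (nat_lit 410) (nat_lit 329) (nat_lit 281)))) (XT.nd (nat_lit 78) (nat_lit 152) (nat_lit 0) (XT.lf (nat_lit 0) (nat_lit 7702693943) (nat_lit 152) (nat_lit 3509824650) (nat_lit 76) (nat_lit 23345797311) (nat_lit 25) (nat_lit 5) (nat_lit 27) (nat_lit 5) (nat_lit 26) (nat_lit 4) (nat_lit 411) (nat_lit 329) (nat_lit 280)) (XT.nd (nat_lit 78) (nat_lit 76) (nat_lit 0) (XT.lf (nat_lit 0) (nat_lit 18146615256) (nat_lit 76) (nat_lit 269544523) (nat_lit 152) (nat_lit 17528859313) (nat_lit 24) (nat_lit 5) (nat_lit 25) (nat_lit 5) (nat_lit 26) (nat_lit 4) (nat_lit 412) (nat_lit 329) (nat_lit 279)) (XT.lf (nat_lit 0) (nat_lit 3356667668) (nat_lit 76) (nat_lit 26402205748) (nat_lit 76) (nat_lit 7639381622) (nat_lit 23) (nat_lit 4) (nat_lit 24) (nat_lit 5) (nat_lit 24) (nat_lit 4) (nat_lit 413) (nat_lit 329) (nat_lit 278))))) (XT.nd (nat_lit 234) (nat_lit 228) (nat_lit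 0) (XT.nd (nat_lit 78) (nat_lit 76) (nat_lit 0) (XT.lf (nat_lit 0) (nat_lit 2797387091) (nat_lit 152) (nat_lit 13165052743) (nat_lit 76) (nat_lit 22957734735) (nat_lit 22) (nat_lit 5) (nat_lit 24) (nat_lit 5) (nat_lit 23) (nat_lit 4) (nat_lit 414) (nat_lit 329) (nat_lit 277)) (XT.nd (nat_lit 78) (nat_lit 0) (nat_lit 0) (XT.lf (nat_lit 0) (nat_lit 8698506965) (nat_lit 76) (nat_lit 4907072529) (nat_lit 152) (nat_lit 26910118334) (nat_lit 21) (nat_lit 5) (nat_lit 22) (nat_lit 5) (nat_lit 23) (nat_lit 4) (nat_lit 415) (nat_lit 329) (nat_lit 276)) (XT.lf (nat_lit 0) (nat_lit 25079579065) (nat_lit 152) (nat_lit 10469071770) (nat_lit 0) (nat_lit 6638588543) (nat_lit 21) (nat_lit 5) (nat_lit 23) (nat_lit 4) (nat_lit 21) (nat_lit 4) (nat_lit 416) (nat_lit 329) (nat_lit 275)))) (XT.nd (nat_lit 78) (nat_lit 152) (nat_lit 0) (XT.lf (nat_lit 0) (nat_lit 11991164179) (nat_lit 76) (nat_lit 25228640939) (nat_lit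 76) (nat_lit 6719780951) (nat_lit 20) (nat_lit 4) (nat_lit 21) (nat_lit 5) (nat_lit 21) (nat_lit 4) (nat_lit 417) (nat_lit 329) (nat_lit 274)) (XT.nd (nat_lit 78) (nat_lit 76) (nat_lit 0) (XT.lf (nat_lit 0) (nat_lit 4143786524) (nat_lit 152) (nat_lit 10161610930) (nat_lit 76) (nat_lit 31471808414) (nat_lit 19) (nat_lit 5) (nat_lit 21) (nat_lit 5) (nat_lit 20) (nat_lit 4) (nat_lit 418) (nat_lit 329) (nat_lit 273)) (XT.lf (nat_lit 0) (nat_lit 12765183385) (nat_lit 76) (nat_lit 2702915416) (nat_lit 152) (nat_lit 32234919027) (nat_lit 18) (nat_lit 5) (nat_lit 19) (nat_lit 5) (nat_lit 20) (nat_lit 4) (nat_lit 419) (nat_lit 329) (nat_lit 272)))))) (XT.nd (nat_lit 468) (nat_lit 304) (nat_lit 0) (XT.nd (nat_lit 234) (nat_lit 152) (nat_lit 0) (XT.nd (nat_lit 78) (nat_lit 76) (nat_lit 0) (XT.lf (nat_lit 0) (nat_lit 27489337109) (nat_lit 152) (nat_lit 12891737201) (nat_lit 0) (nat_lit 9340128002) (nat_lit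 18) (nat_lit 5) (nat_lit 20) (nat_lit 4) (nat_lit 18) (nat_lit 4) (nat_lit 420) (nat_lit 329) (nat_lit 271)) (XT.nd (nat_lit 78) (nat_lit 0) (nat_lit 0) (XT.lf (nat_lit 0) (nat_lit 10308385179) (nat_lit 76) (nat_lit 29866714616) (nat_lit 76) (nat_lit 11663295434) (nat_lit 17) (nat_lit 4) (nat_lit 18) (nat_lit 5) (nat_lit 18) (nat_lit 4) (nat_lit 421) (nat_lit 329) (nat_lit 270)) (XT.lf (nat_lit 0) (nat_lit 34819262272) (nat_lit 76) (nat_lit 18747543317) (nat_lit 76) (nat_lit 492495490) (nat_lit 17) (nat_lit 4) (nat_lit 18) (nat_lit 5) (nat_lit 18) (nat_lit 4) (nat_lit 422) (nat_lit 329) (nat_lit 269)))) (XT.nd (nat_lit 78) (nat_lit 0) (nat_lit 0) (XT.lf (nat_lit 0) (nat_lit 4020701724) (nat_lit 76) (nat_lit 6976795658) (nat_lit 152) (nat_lit 45391119366) (nat_lit 15) (nat_lit 5) (nat_lit 16) (nat_lit 5) (nat_lit 17) (nat_lit 4) (nat_lit 423) (nat_lit 329) (nat_lit 268)) (XT.nd (nat_lit 78) (nat_lit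 0) (nat_lit 0) (XT.lf (nat_lit 0) (nat_lit 23246146045) (nat_lit 152) (nat_lit 30152682321) (nat_lit 0) (nat_lit 5429595885) (nat_lit 15) (nat_lit 5) (nat_lit 17) (nat_lit 4) (nat_lit 15) (nat_lit 4) (nat_lit 424) (nat_lit 329) (nat_lit 267)) (XT.lf (nat_lit 0) (nat_lit 36122871380) (nat_lit 152) (nat_lit 7003862435) (nat_lit 0) (nat_lit 18263021449) (nat_lit 15) (nat_lit 5) (nat_lit 17) (nat_lit 4) (nat_lit 15) (nat_lit 4) (nat_lit 425) (nat_lit 329) (nat_lit 266))))) (XT.nd (nat_lit 234) (nat_lit 76) (nat_lit 0) (XT.nd (nat_lit 78) (nat_lit 152) (nat_lit 0) (XT.lf (nat_lit 0) (nat_lit 17543054273) (nat_lit 76) (nat_lit 32216847325) (nat_lit 76) (nat_lit 14315759517) (nat_lit 14) (nat_lit 4) (nat_lit 15) (nat_lit 5) (nat_lit 15) (nat_lit 4) (nat_lit 426) (nat_lit 329) (nat_lit 265)) (XT.nd (nat_lit 78) (nat_lit 152) (nat_lit 0) (XT.lf (nat_lit 0) (nat_lit 43364919013) (nat_lit 76) (nat_lit 20735331717)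 (nat_lit 76) (nat_lit 2794969740) (nat_lit 14) (nat_lit 4) (nat_lit 15) (nat_lit 5) (nat_lit 15) (nat_lit 4) (nat_lit 427) (nat_lit 329) (nat_lit 264)) (XT.lf (nat_lit 0) (nat_lit 446388217) (nat_lit 76) (nat_lit 8629549794) (nat_lit 152) (nat_lit 60778471655) (nat_lit 12) (nat_lit 5) (nat_lit 13) (nat_lit 5) (nat_lit 14) (nat_lit 4) (nat_lit 428) (nat_lit 329) (nat_lit 263)))) (XT.nd (nat_lit 78) (nat_lit 76) (nat_lit 0) (XT.lf (nat_lit 0) (nat_lit 21719279430) (nat_lit 152) (nat_lit 47003797429) (nat_lit 0) (nat_lit 4230552465) (nat_lit 12) (nat_lit 5) (nat_lit 14) (nat_lit 4) (nat_lit 12) (nat_lit 4) (nat_lit 429) (nat_lit 329) (nat_lit 262)) (XT.nd (nat_lit 78) (nat_lit 76) (nat_lit 0) (XT.lf (nat_lit 0) (nat_lit 35036458703) (nat_lit 152) (nat_lit 23655309627) (nat_lit 0) (nat_lit 17514793385) (nat_lit 12) (nat_lit 5) (nat_lit 14) (nat_lit 4) (nat_lit 12) (nat_lit 4) (nat_lit 430) (nat_lit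 329) (nat_lit 261)) (XT.lf (nat_lit 0) (nat_lit 791429749) (nat_lit 76) (nat_lit 48192408845) (nat_lit 76) (nat_lit 30639373667) (nat_lit 11) (nat_lit 4) (nat_lit 12) (nat_lit 5) (nat_lit 12) (nat_lit 4) (nat_lit 431) (nat_lit 329) (nat_lit 260))))))) (XT.nd (nat_lit 47970) (nat_lit 0) (nat_lit 6384) (XT.nd (nat_lit 47502) (nat_lit 0) (nat_lit 11856) (XT.nd (nat_lit 234) (nat_lit 76) (nat_lit 0) (XT.nd (nat_lit 78) (nat_lit 76) (nat_lit 0) (XT.lf (nat_lit 0) (nat_lit 26872641546) (nat_lit 76) (nat_lit 36957460640) (nat_lit 76) (nat_lit 19374549406) (nat_lit 11) (nat_lit 4) (nat_lit 12) (nat_lit 5) (nat_lit 12) (nat_lit 4) (nat_lit 432) (nat_lit 329) (nat_lit 259)) (XT.nd (nat_lit 78) (nat_lit 76) (nat_lit 0) (XT.lf (nat_lit 0) (nat_lit 54179636841) (nat_lit 76) (nat_lit 25199046085) (nat_lit 76) (nat_lit 7587681463) (nat_lit 11) (nat_lit 4) (nat_lit 12) (nat_lit 5) (nat_lit 12) (nat_lit 4) (nat_lit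 433) (nat_lit 329) (nat_lit 258)) (XT.lf (nat_lit 0) (nat_lit 4656618297) (nat_lit 152) (nat_lit 8185527942) (nat_lit 76) (nat_lit 78073791279) (nat_lit 10) (nat_lit 5) (nat_lit 12) (nat_lit 5) (nat_lit 11) (nat_lit 4) (nat_lit 434) (nat_lit 329) (nat_lit 257)))) (XT.nd (nat_lit 78) (nat_lit 0) (nat_lit 0) (XT.lf (nat_lit 0) (nat_lit 17495966005) (nat_lit 152) (nat_lit 77214390029) (nat_lit 0) (nat_lit 346188192) (nat_lit 9) (nat_lit 5) (nat_lit 11) (nat_lit 4) (nat_lit 9) (nat_lit 4) (nat_lit 435) (nat_lit 329) (nat_lit 256)) (XT.nd (nat_lit 78) (nat_lit 0) (nat_lit 0) (XT.lf (nat_lit 0) (nat_lit 31156105893) (nat_lit 152) (nat_lit 54260247119) (nat_lit 0) (nat_lit 13982464871) (nat_lit 9) (nat_lit 5) (nat_lit 11) (nat_lit 4) (nat_lit 9) (nat_lit 4) (nat_lit 436) (nat_lit 329) (nat_lit 255)) (XT.lf (nat_lit 0) (nat_lit 45465070709) (nat_lit 152) (nat_lit 30225458449) (nat_lit 0) (nat_lit 28268702820)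 (nat_lit 9) (nat_lit 5) (nat_lit 11) (nat_lit 4) (nat_lit 9) (nat_lit 4) (nat_lit 437) (nat_lit 329) (nat_lit 254))))) (XT.nd (nat_lit 234) (nat_lit 1900) (nat_lit 0) (XT.nd (nat_lit 78) (nat_lit 1140) (nat_lit 0) (XT.lf (nat_lit 0) (nat_lit 1075588561) (nat_lit 532) (nat_lit 1372279087) (nat_lit 532) (nat_lit 1372279087) (nat_lit 205) (nat_lit 4) (nat_lit 212) (nat_lit 5) (nat_lit 212) (nat_lit 4) (nat_lit 360) (nat_lit 330) (nat_lit 330)) (XT.nd (nat_lit 78) (nat_lit 608) (nat_lit 0) (XT.lf (nat_lit 0) (nat_lit 3268430750) (nat_lit 532) (nat_lit 3436593528) (nat_lit 0) (nat_lit 1061996690) (nat_lit 198) (nat_lit 5) (nat_lit 205) (nat_lit 4) (nat_lit 198) (nat_lit 4) (nat_lit 361) (nat_lit 330) (nat_lit 329)) (XT.lf (nat_lit 0) (nat_lit 1474251195) (nat_lit 608) (nat_lit 1315069904) (nat_lit 76) (nat_lit 5113197372) (nat_lit 190) (nat_lit 5) (nat_lit 198) (nat_lit 5) (nat_lit 191) (nat_lit 4)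 (nat_lit 362) (nat_lit 330) (nat_lit 328)))) (XT.nd (nat_lit 78) (nat_lit 988) (nat_lit 0) (XT.lf (nat_lit 0) (nat_lit 902029759) (nat_lit 456) (nat_lit 6635170333) (nat_lit 456) (nat_lit 509829977) (nat_lit 178) (nat_lit 4) (nat_lit 184) (nat_lit 5) (nat_lit 184) (nat_lit 4) (nat_lit 363) (nat_lit 330) (nat_lit 327)) (XT.nd (nat_lit 78) (nat_lit 532) (nat_lit 0) (XT.lf (nat_lit 0) (nat_lit 3198319164) (nat_lit 380) (nat_lit 2306186075) (nat_lit 456) (nat_lit 2695380385) (nat_lit 172) (nat_lit 5) (nat_lit 177) (nat_lit 5) (nat_lit 178) (nat_lit 4) (nat_lit 364) (nat_lit 330) (nat_lit 326)) (XT.lf (nat_lit 0) (nat_lit 3281067596) (nat_lit 532) (nat_lit 2793990256) (nat_lit 76) (nat_lit 2287287064) (nat_lit 165) (nat_lit 5) (nat_lit 172) (nat_lit 5) (nat_lit 166) (nat_lit 4) (nat_lit 365) (nat_lit 330) (nat_lit 325)))))) (XT.nd (nat_lit 468) (nat_lit 2356) (nat_lit 0) (XT.nd (nat_lit 234) (nat_lit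 1444) (nat_lit 0) (XT.nd (nat_lit 78) (nat_lit 1216) (nat_lit 0) (XT.lf (nat_lit 0) (nat_lit 858693895) (nat_lit 456) (nat_lit 523733200) (nat_lit 76) (nat_lit 7152233801) (nat_lit 159) (nat_lit 5) (nat_lit 165) (nat_lit 5) (nat_lit 160) (nat_lit 5) (nat_lit 366) (nat_lit 330) (nat_lit 324)) (XT.nd (nat_lit 78) (nat_lit 456) (nat_lit 0) (XT.lf (nat_lit 0) (nat_lit 1815478850) (nat_lit 380) (nat_lit 5122213077) (nat_lit 456) (nat_lit 1778061168) (nat_lit 149) (nat_lit 5) (nat_lit 154) (nat_lit 5) (nat_lit 155) (nat_lit 4) (nat_lit 367) (nat_lit 330) (nat_lit 323)) (XT.lf (nat_lit 0) (nat_lit 4226522197) (nat_lit 380) (nat_lit 21737484) (nat_lit 456) (nat_lit 4658854039) (nat_lit 143) (nat_lit 5) (nat_lit 148) (nat_lit 5) (nat_lit 149) (nat_lit 5) (nat_lit 368) (nat_lit 330) (nat_lit 322)))) (XT.nd (nat_lit 78) (nat_lit 1064) (nat_lit 0) (XT.lf (nat_lit 0) (nat_lit 1363304732) (nat_lit 380) (nat_lit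 2439523532) (nat_lit 76) (nat_lit 5305555336) (nat_lit 138) (nat_lit 5) (nat_lit 143) (nat_lit 5) (nat_lit 139) (nat_lit 5) (nat_lit 369) (nat_lit 330) (nat_lit 321)) (XT.nd (nat_lit 78) (nat_lit 684) (nat_lit 0) (XT.lf (nat_lit 0) (nat_lit 7522303379) (nat_lit 456) (nat_lit 161255212) (nat_lit 76) (nat_lit 1636879801) (nat_lit 133) (nat_lit 5) (nat_lit 139) (nat_lit 5) (nat_lit 134) (nat_lit 4) (nat_lit 370) (nat_lit 330) (nat_lit 320)) (XT.lf (nat_lit 0) (nat_lit 2174972077) (nat_lit 304) (nat_lit 2165973599) (nat_lit 380) (nat_lit 5201484220) (nat_lit 124) (nat_lit 5) (nat_lit 128) (nat_lit 5) (nat_lit 129) (nat_lit 5) (nat_lit 371) (nat_lit 330) (nat_lit 319))))) (XT.nd (nat_lit 234) (nat_lit 1368) (nat_lit 0) (XT.nd (nat_lit 78) (nat_lit 608) (nat_lit 0) (XT.lf (nat_lit 0) (nat_lit 920460066) (nat_lit 380) (nat_lit 5230818526) (nat_lit 76) (nat_lit 3624544801) (nat_lit 119) (nat_lit 5) (nat_lit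 124) (nat_lit 5) (nat_lit 120) (nat_lit 5) (nat_lit 372) (nat_lit 330) (nat_lit 318)) (XT.nd (nat_lit 78) (nat_lit 304) (nat_lit 0) (XT.lf (nat_lit 0) (nat_lit 6929508805) (nat_lit 304) (nat_lit 268339679) (nat_lit 380) (nat_lit 2822840612) (nat_lit 115) (nat_lit 5) (nat_lit 119) (nat_lit 5) (nat_lit 120) (nat_lit 5) (nat_lit 373) (nat_lit 330) (nat_lit 317)) (XT.lf (nat_lit 0) (nat_lit 3440487205) (nat_lit 304) (nat_lit 970698049) (nat_lit 76) (nat_lit 5865720342) (nat_lit 111) (nat_lit 5) (nat_lit 115) (nat_lit 5) (nat_lit 112) (nat_lit 5) (nat_lit 374) (nat_lit 330) (nat_lit 316)))) (XT.nd (nat_lit 156) (nat_lit 532) (nat_lit 0) (XT.nd (nat_lit 78) (nat_lit 304) (nat_lit 0) (XT.lf (nat_lit 0) (nat_lit 1189574541) (nat_lit 228) (nat_lit 8747668344) (nat_lit 304) (nat_lit 608540890) (nat_lit 104) (nat_lit 5) (nat_lit 107) (nat_lit 5) (nat_lit 108) (nat_lit 4) (nat_lit 375) (nat_lit 330) (nat_lit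 315)) (XT.lf (nat_lit 0) (nat_lit 3326470893) (nat_lit 228) (nat_lit 2494419680) (nat_lit 304) (nat_lit 5005373220) (nat_lit 100) (nat_lit 5) (nat_lit 103) (nat_lit 5) (nat_lit 104) (nat_lit 5) (nat_lit 376) (nat_lit 330) (nat_lit 314))) (XT.nd (nat_lit 78) (nat_lit 228) (nat_lit 0) (XT.lf (nat_lit 0) (nat_lit 1407007572) (nat_lit 304) (nat_lit 5664604873) (nat_lit 76) (nat_lit 4048707508) (nat_lit 96) (nat_lit 5) (nat_lit 100) (nat_lit 5) (nat_lit 97) (nat_lit 5) (nat_lit 377) (nat_lit 330) (nat_lit 313)) (XT.lf (nat_lit 0) (nat_lit 7553533339) (nat_lit 228) (nat_lit 471481496) (nat_lit 304) (nat_lit 3402961114) (nat_lit 93) (nat_lit 5) (nat_lit 96) (nat_lit 5) (nat_lit 97) (nat_lit 5) (nat_lit 378) (nat_lit 330) (nat_lit 312))))))))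
noncomputable def xc31 : XT := (XT.nd (nat_lit 1950) (nat_lit 1520) (nat_lit 0) (XT.nd (nat_lit 936) (nat_lit 1748) (nat_lit 0) (XT.nd (nat_lit 468) (nat_lit 1140) (nat_lit 0) (XT.nd (nat_lit 234) (nat_lit 608) (nat_lit 0) (XT.nd (nat_lit 78) (nat_lit 684) (nat_lit 0) (XT.lf (nat_lit 0) (nat_lit 3190574932) (nat_lit 304) (nat_lit 2156552430) (nat_lit 76) (nat_lit 6402077815) (nat_lit 89) (nat_lit 5) (nat_lit 93) (nat_lit 5) (nat_lit 90) (nat_lit 5) (nat_lit 379) (nat_lit 330) (nat_lit 311)) (XT.nd (nat_lit 78) (nat_lit 456) (nat_lit 0) (XT.lf (nat_lit 0) (nat_lit 10037060216) (nat_lit 304) (nat_lit 482440906) (nat_lit 76) (nat_lit 1566209273) (nat_lit 86) (nat_lit 5) (nat_lit 90) (nat_lit 5) (nat_lit 87) (nat_lit 4) (nat_lit 380) (nat_lit 330) (nat_lit 310)) (XT.lf (nat_lit 0) (nat_lit 1113259517) (nat_lit 228) (nat_lit 3623604962) (nat_lit 304) (nat_lit 7699524875) (nat_lit 80) (nat_lit 5) (nat_lit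 83) (nat_lit 5) (nat_lit 84) (nat_lit 5) (nat_lit 381) (nat_lit 330) (nat_lit 309)))) (XT.nd (nat_lit 78) (nat_lit 456) (nat_lit 0) (XT.lf (nat_lit 0) (nat_lit 2648731190) (nat_lit 152) (nat_lit 9192468185) (nat_lit 228) (nat_lit 962167642) (nat_lit 78) (nat_lit 5) (nat_lit 80) (nat_lit 5) (nat_lit 81) (nat_lit 4) (nat_lit 382) (nat_lit 330) (nat_lit 308)) (XT.nd (nat_lit 78) (nat_lit 152) (nat_lit 0) (XT.lf (nat_lit 0) (nat_lit 4061101774) (nat_lit 228) (nat_lit 1954311646) (nat_lit 304) (nat_lit 7170867199) (nat_lit 74) (nat_lit 5) (nat_lit 77) (nat_lit 5) (nat_lit 78) (nat_lit 5) (nat_lit 383) (nat_lit 330) (nat_lit 307)) (XT.lf (nat_lit 0) (nat_lit 5366588044) (nat_lit 152) (nat_lit 8000553302) (nat_lit 228) (nat_lit 219584771) (nat_lit 72) (nat_lit 5) (nat_lit 74) (nat_lit 5) (nat_lit 75) (nat_lit 4) (nat_lit 384) (nat_lit 330) (nat_lit 306))))) (XT.nd (nat_lit 234) (nat_lit 532) (nat_lit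 0) (XT.nd (nat_lit 78) (nat_lit 380) (nat_lit 0) (XT.lf (nat_lit 0) (nat_lit 6525121412) (nat_lit 152) (nat_lit 430487481) (nat_lit 228) (nat_lit 7049133801) (nat_lit 69) (nat_lit 5) (nat_lit 71) (nat_lit 5) (nat_lit 72) (nat_lit 5) (nat_lit 385) (nat_lit 330) (nat_lit 305)) (XT.nd (nat_lit 78) (nat_lit 152) (nat_lit 0) (XT.lf (nat_lit 0) (nat_lit 112630841) (nat_lit 228) (nat_lit 6910920911) (nat_lit 76) (nat_lit 7417893880) (nat_lit 66) (nat_lit 5) (nat_lit 69) (nat_lit 5) (nat_lit 67) (nat_lit 5) (nat_lit 386) (nat_lit 330) (nat_lit 304)) (XT.lf (nat_lit 0) (nat_lit 7503477922) (nat_lit 228) (nat_lit 6542677958) (nat_lit 76) (nat_lit 851252598) (nat_lit 64) (nat_lit 5) (nat_lit 67) (nat_lit 5) (nat_lit 65) (nat_lit 4) (nat_lit 387) (nat_lit 330) (nat_lit 303)))) (XT.nd (nat_lit 78) (nat_lit 380) (nat_lit 0) (XT.lf (nat_lit 0) (nat_lit 8988839850) (nat_lit 152) (nat_lit 6352495993) (nat_lit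 228) (nat_lit 32530521) (nat_lit 62) (nat_lit 5) (nat_lit 64) (nat_lit 5) (nat_lit 65) (nat_lit 4) (nat_lit 388) (nat_lit 330) (nat_lit 302)) (XT.nd (nat_lit 78) (nat_lit 152) (nat_lit 0) (XT.lf (nat_lit 0) (nat_lit 7574519373) (nat_lit 228) (nat_lit 6483281175) (nat_lit 76) (nat_lit 1813313089) (nat_lit 59) (nat_lit 5) (nat_lit 62) (nat_lit 5) (nat_lit 60) (nat_lit 4) (nat_lit 389) (nat_lit 330) (nat_lit 301)) (XT.lf (nat_lit 0) (nat_lit 9552873199) (nat_lit 152) (nat_lit 6085784066) (nat_lit 228) (nat_lit 752252548) (nat_lit 57) (nat_lit 5) (nat_lit 59) (nat_lit 5) (nat_lit 60) (nat_lit 4) (nat_lit 390) (nat_lit 330) (nat_lit 300)))))) (XT.nd (nat_lit 468) (nat_lit 836) (nat_lit 0) (XT.nd (nat_lit 234) (nat_lit 380) (nat_lit 0) (XT.nd (nat_lit 78) (nat_lit 304) (nat_lit 0) (XT.lf (nat_lit 0) (nat_lit 7068923019) (nat_lit 228) (nat_lit 7506144196) (nat_lit 76) (nat_lit 2358392695) (nat_lit 54)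 (nat_lit 5) (nat_lit 57) (nat_lit 5) (nat_lit 55) (nat_lit 4) (nat_lit 391) (nat_lit 330) (nat_lit 299)) (XT.nd (nat_lit 78) (nat_lit 228) (nat_lit 0) (XT.lf (nat_lit 0) (nat_lit 9002663898) (nat_lit 76) (nat_lit 6343585389) (nat_lit 152) (nat_lit 2154261541) (nat_lit 53) (nat_lit 5) (nat_lit 54) (nat_lit 5) (nat_lit 55) (nat_lit 4) (nat_lit 392) (nat_lit 330) (nat_lit 298)) (XT.lf (nat_lit 0) (nat_lit 5870511875) (nat_lit 228) (nat_lit 9859927461) (nat_lit 76) (nat_lit 2362428823) (nat_lit 50) (nat_lit 5) (nat_lit 53) (nat_lit 5) (nat_lit 51) (nat_lit 4) (nat_lit 393) (nat_lit 330) (nat_lit 297)))) (XT.nd (nat_lit 78) (nat_lit 304) (nat_lit 0) (XT.lf (nat_lit 0) (nat_lit 7074574261) (nat_lit 76) (nat_lit 7265664718) (nat_lit 152) (nat_lit 4371330751) (nat_lit 49) (nat_lit 5) (nat_lit 50) (nat_lit 5) (nat_lit 51) (nat_lit 4) (nat_lit 394) (nat_lit 330) (nat_lit 296)) (XT.nd (nat_lit 78) (nat_lit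 76) (nat_lit 0) (XT.lf (nat_lit 0) (nat_lit 3839100839) (nat_lit 228) (nat_lit 13840430854) (nat_lit 76) (nat_lit 1679298757) (nat_lit 46) (nat_lit 5) (nat_lit 49) (nat_lit 5) (nat_lit 47) (nat_lit 4) (nat_lit 395) (nat_lit 330) (nat_lit 295)) (XT.lf (nat_lit 0) (nat_lit 3454592774) (nat_lit 76) (nat_lit 9016597190) (nat_lit 152) (nat_lit 7562932170) (nat_lit 45) (nat_lit 5) (nat_lit 46) (nat_lit 5) (nat_lit 47) (nat_lit 4) (nat_lit 396) (nat_lit 330) (nat_lit 294))))) (XT.nd (nat_lit 234) (nat_lit 532) (nat_lit 0) (XT.nd (nat_lit 78) (nat_lit 76) (nat_lit 0) (XT.lf (nat_lit 0) (nat_lit 806362239) (nat_lit 228) (nat_lit 19799179239) (nat_lit 76) (nat_lit 136517081) (nat_lit 42) (nat_lit 5) (nat_lit 45) (nat_lit 5) (nat_lit 43) (nat_lit 4) (nat_lit 397) (nat_lit 330) (nat_lit 293)) (XT.nd (nat_lit 78) (nat_lit 76) (nat_lit 0) (XT.lf (nat_lit 0) (nat_lit 9581115411) (nat_lit 228) (nat_lit 2187312932)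 (nat_lit 76) (nat_lit 9710425928) (nat_lit 42) (nat_lit 5) (nat_lit 45) (nat_lit 5) (nat_lit 43) (nat_lit 4) (nat_lit 398) (nat_lit 330) (nat_lit 292)) (XT.lf (nat_lit 0) (nat_lit 16410243855) (nat_lit 76) (nat_lit 2426474306) (nat_lit 152) (nat_lit 3414518817) (nat_lit 41) (nat_lit 5) (nat_lit 42) (nat_lit 5) (nat_lit 43) (nat_lit 4) (nat_lit 399) (nat_lit 330) (nat_lit 291)))) (XT.nd (nat_lit 156) (nat_lit 228) (nat_lit 0) (XT.nd (nat_lit 78) (nat_lit 76) (nat_lit 0) (XT.lf (nat_lit 0) (nat_lit 5491254890) (nat_lit 228) (nat_lit 10222170516) (nat_lit 76) (nat_lit 7344071815) (nat_lit 38) (nat_lit 5) (nat_lit 41) (nat_lit 5) (nat_lit 39) (nat_lit 4) (nat_lit 400) (nat_lit 330) (nat_lit 290)) (XT.lf (nat_lit 0) (nat_lit 8565288890) (nat_lit 76) (nat_lit 6263865068) (nat_lit 152) (nat_lit 9072187986) (nat_lit 37) (nat_lit 5) (nat_lit 38) (nat_lit 5) (nat_lit 39) (nat_lit 4) (nat_lit 401) (nat_lit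 330) (nat_lit 289))) (XT.nd (nat_lit 78) (nat_lit 76) (nat_lit 0) (XT.lf (nat_lit 0) (nat_lit 3550659542) (nat_lit 152) (nat_lit 21150533442) (nat_lit 152) (nat_lit 84177429) (nat_lit 35) (nat_lit 4) (nat_lit 37) (nat_lit 5) (nat_lit 37) (nat_lit 4) (nat_lit 402) (nat_lit 330) (nat_lit 288)) (XT.lf (nat_lit 0) (nat_lit 9287259965) (nat_lit 228) (nat_lit 2361579862) (nat_lit 76) (nat_lit 14058575156) (nat_lit 34) (nat_lit 5) (nat_lit 37) (nat_lit 5) (nat_lit 35) (nat_lit 4) (nat_lit 403) (nat_lit 330) (nat_lit 287))))))) (XT.nd (nat_lit 936) (nat_lit 608) (nat_lit 0) (XT.nd (nat_lit 468) (nat_lit 380) (nat_lit 0) (XT.nd (nat_lit 234) (nat_lit 228) (nat_lit 0) (XT.nd (nat_lit 78) (nat_lit 228) (nat_lit 0) (XT.lf (nat_lit 0) (nat_lit 17607265851) (nat_lit 76) (nat_lit 1586468230) (nat_lit 152) (nat_lit 7479764327) (nat_lit 33) (nat_lit 5) (nat_lit 34) (nat_lit 5) (nat_lit 35) (nat_lit 4) (nat_lit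 404) (nat_lit 330) (nat_lit 286)) (XT.nd (nat_lit 78) (nat_lit 76) (nat_lit 0) (XT.lf (nat_lit 0) (nat_lit 1988100221) (nat_lit 152) (nat_lit 16828799911) (nat_lit 76) (nat_lit 8866912583) (nat_lit 31) (nat_lit 5) (nat_lit 33) (nat_lit 5) (nat_lit 32) (nat_lit 4) (nat_lit 405) (nat_lit 330) (nat_lit 285)) (XT.lf (nat_lit 0) (nat_lit 3002203874) (nat_lit 76) (nat_lit 8816158057) (nat_lit 152) (nat_lit 16922755059) (nat_lit 30) (nat_lit 5) (nat_lit 31) (nat_lit 5) (nat_lit 32) (nat_lit 4) (nat_lit 406) (nat_lit 330) (nat_lit 284)))) (XT.nd (nat_lit 78) (nat_lit 228) (nat_lit 0) (XT.lf (nat_lit 0) (nat_lit 22236499680) (nat_lit 152) (nat_lit 5868192302) (nat_lit 0) (nat_lit 1743710152) (nat_lit 30) (nat_lit 5) (nat_lit 32) (nat_lit 4) (nat_lit 30) (nat_lit 4) (nat_lit 407) (nat_lit 330) (nat_lit 283)) (XT.nd (nat_lit 78) (nat_lit 76) (nat_lit 0) (XT.lf (nat_lit 0) (nat_lit 2266842137) (nat_lit 152)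 (nat_lit 16000672219) (nat_lit 76) (nat_lit 12738581446) (nat_lit 28) (nat_lit 5) (nat_lit 30) (nat_lit 5) (nat_lit 29) (nat_lit 4) (nat_lit 408) (nat_lit 330) (nat_lit 282)) (XT.lf (nat_lit 0) (nat_lit 4670336191) (nat_lit 76) (nat_lit 7830674870) (nat_lit 152) (nat_lit 19717840507) (nat_lit 27) (nat_lit 5) (nat_lit 28) (nat_lit 5) (nat_lit 29) (nat_lit 4) (nat_lit 409) (nat_lit 330) (nat_lit 281))))) (XT.nd (nat_lit 234) (nat_lit 152) (nat_lit 0) (XT.nd (nat_lit 78) (nat_lit 228) (nat_lit 0) (XT.lf (nat_lit 0) (nat_lit 23356733354) (nat_lit 152) (nat_lit 6975587107) (nat_lit 0) (nat_lit 3156634803) (nat_lit 27) (nat_lit 5) (nat_lit 29) (nat_lit 4) (nat_lit 27) (nat_lit 4) (nat_lit 410) (nat_lit 330) (nat_lit 280)) (XT.nd (nat_lit 78) (nat_lit 76) (nat_lit 0) (XT.lf (nat_lit 0) (nat_lit 73009941) (nat_lit 152) (nat_lit 20143784110) (nat_lit 76) (nat_lit 14601624024) (nat_lit 25) (nat_lit 5)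 (nat_lit 27) (nat_lit 5) (nat_lit 26) (nat_lit 4) (nat_lit 411) (nat_lit 330) (nat_lit 279)) (XT.lf (nat_lit 0) (nat_lit 1104475954) (nat_lit 76) (nat_lit 9478770350) (nat_lit 152) (nat_lit 25627974201) (nat_lit 24) (nat_lit 5) (nat_lit 25) (nat_lit 5) (nat_lit 26) (nat_lit 4) (nat_lit 412) (nat_lit 330) (nat_lit 278)))) (XT.nd (nat_lit 78) (nat_lit 152) (nat_lit 0) (XT.lf (nat_lit 0) (nat_lit 21766590874) (nat_lit 152) (nat_lit 14002918400) (nat_lit 0) (nat_lit 1899730495) (nat_lit 24) (nat_lit 5) (nat_lit 26) (nat_lit 4) (nat_lit 24) (nat_lit 4) (nat_lit 413) (nat_lit 330) (nat_lit 277)) (XT.nd (nat_lit 78) (nat_lit 76) (nat_lit 0) (XT.lf (nat_lit 0) (nat_lit 8072957875) (nat_lit 76) (nat_lit 25534099556) (nat_lit 76) (nat_lit 5590168307) (nat_lit 23) (nat_lit 4) (nat_lit 24) (nat_lit 5) (nat_lit 24) (nat_lit 4) (nat_lit 414) (nat_lit 330) (nat_lit 276)) (XT.lf (nat_lit 0) (nat_lit 5207486227)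 (nat_lit 152) (nat_lit 9446135034) (nat_lit 76) (nat_lit 26144330462) (nat_lit 22) (nat_lit 5) (nat_lit 24) (nat_lit 5) (nat_lit 23) (nat_lit 4) (nat_lit 415) (nat_lit 330) (nat_lit 275)))))) (XT.nd (nat_lit 468) (nat_lit 304) (nat_lit 0) (XT.nd (nat_lit 234) (nat_lit 152) (nat_lit 0) (XT.nd (nat_lit 78) (nat_lit 76) (nat_lit 0) (XT.lf (nat_lit 0) (nat_lit 13385131950) (nat_lit 76) (nat_lit 3103720058) (nat_lit 152) (nat_lit 25986422162) (nat_lit 21) (nat_lit 5) (nat_lit 22) (nat_lit 5) (nat_lit 23) (nat_lit 4) (nat_lit 416) (nat_lit 330) (nat_lit 274)) (XT.nd (nat_lit 78) (nat_lit 76) (nat_lit 0) (XT.lf (nat_lit 0) (nat_lit 28450402738) (nat_lit 152) (nat_lit 6898987481) (nat_lit 0) (nat_lit 8883592696) (nat_lit 21) (nat_lit 5) (nat_lit 23) (nat_lit 4) (nat_lit 21) (nat_lit 4) (nat_lit 417) (nat_lit 330) (nat_lit 273)) (XT.lf (nat_lit 0) (nat_lit 16566919824) (nat_lit 76) (nat_lit 24568139784)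 (nat_lit 76) (nat_lit 4939770135) (nat_lit 20) (nat_lit 4) (nat_lit 21) (nat_lit 5) (nat_lit 21) (nat_lit 4) (nat_lit 418) (nat_lit 330) (nat_lit 272)))) (XT.nd (nat_lit 78) (nat_lit 76) (nat_lit 0) (XT.lf (nat_lit 0) (nat_lit 6326889265) (nat_lit 152) (nat_lit 6843412637) (nat_lit 76) (nat_lit 34836387270) (nat_lit 19) (nat_lit 5) (nat_lit 21) (nat_lit 5) (nat_lit 20) (nat_lit 4) (nat_lit 419) (nat_lit 330) (nat_lit 271)) (XT.nd (nat_lit 78) (nat_lit 0) (nat_lit 0) (XT.lf (nat_lit 0) (nat_lit 17120041879) (nat_lit 76) (nat_lit 1039010388) (nat_lit 152) (nat_lit 31871495152) (nat_lit 18) (nat_lit 5) (nat_lit 19) (nat_lit 5) (nat_lit 20) (nat_lit 4) (nat_lit 420) (nat_lit 330) (nat_lit 270)) (XT.lf (nat_lit 0) (nat_lit 30706510728) (nat_lit 152) (nat_lit 9958298301) (nat_lit 0) (nat_lit 11487081867) (nat_lit 18) (nat_lit 5) (nat_lit 20) (nat_lit 4) (nat_lit 18) (nat_lit 4) (nat_lit 421) (nat_lit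 330) (nat_lit 269))))) (XT.nd (nat_lit 234) (nat_lit 76) (nat_lit 0) (XT.nd (nat_lit 78) (nat_lit 152) (nat_lit 0) (XT.lf (nat_lit 0) (nat_lit 14299266808) (nat_lit 76) (nat_lit 29672955070) (nat_lit 76) (nat_lit 10404356072) (nat_lit 17) (nat_lit 4) (nat_lit 18) (nat_lit 5) (nat_lit 18) (nat_lit 4) (nat_lit 422) (nat_lit 330) (nat_lit 268)) (XT.nd (nat_lit 78) (nat_lit 76) (nat_lit 0) (XT.lf (nat_lit 0) (nat_lit 1213121134) (nat_lit 152) (nat_lit 16852791797) (nat_lit 76) (nat_lit 38644818269) (nat_lit 16) (nat_lit 5) (nat_lit 18) (nat_lit 5) (nat_lit 17) (nat_lit 4) (nat_lit 423) (nat_lit 330) (nat_lit 267)) (XT.lf (nat_lit 0) (nat_lit 7470151826) (nat_lit 76) (nat_lit 5746684769) (nat_lit 152) (nat_lit 45941051304) (nat_lit 15) (nat_lit 5) (nat_lit 16) (nat_lit 5) (nat_lit 17) (nat_lit 4) (nat_lit 424) (nat_lit 330) (nat_lit 266)))) (XT.nd (nat_lit 156) (nat_lit 76) (nat_lit 0) (XT.nd (nat_lit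 78) (nat_lit 0) (nat_lit 0) (XT.lf (nat_lit 0) (nat_lit 26012874475) (nat_lit 152) (nat_lit 28533271805) (nat_lit 0) (nat_lit 7175494400) (nat_lit 15) (nat_lit 5) (nat_lit 17) (nat_lit 4) (nat_lit 15) (nat_lit 4) (nat_lit 425) (nat_lit 330) (nat_lit 265)) (XT.lf (nat_lit 0) (nat_lit 39457035070) (nat_lit 152) (nat_lit 4375917813) (nat_lit 0) (nat_lit 20580380827) (nat_lit 15) (nat_lit 5) (nat_lit 17) (nat_lit 4) (nat_lit 15) (nat_lit 4) (nat_lit 426) (nat_lit 330) (nat_lit 264))) (XT.nd (nat_lit 78) (nat_lit 0) (nat_lit 0) (XT.lf (nat_lit 0) (nat_lit 21312977010) (nat_lit 76) (nat_lit 32417984001) (nat_lit 76) (nat_lit 13503925788) (nat_lit 14) (nat_lit 4) (nat_lit 15) (nat_lit 5) (nat_lit 15) (nat_lit 4) (nat_lit 427) (nat_lit 330) (nat_lit 263)) (XT.lf (nat_lit 0) (nat_lit 48288184034) (nat_lit 76) (nat_lit 20429521455) (nat_lit 76) (nat_lit 1479840413) (nat_lit 14) (nat_lit 4) (nat_lit 15)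 (nat_lit 5) (nat_lit 15) (nat_lit 4) (nat_lit 428) (nat_lit 330) (nat_lit 262))))))))
noncomputable def xc32 : XT := (XT.nd (nat_lit 48750) (nat_lit 0) (nat_lit 2736) (XT.nd (nat_lit 47814) (nat_lit 0) (nat_lit 8360) (XT.nd (nat_lit 468) (nat_lit 152) (nat_lit 0) (XT.nd (nat_lit 234) (nat_lit 76) (nat_lit 0) (XT.nd (nat_lit 78) (nat_lit 0) (nat_lit 0) (XT.lf (nat_lit 0) (nat_lit 3172389520) (nat_lit 76) (nat_lit 7741894748) (nat_lit 152) (nat_lit 62391251772) (nat_lit 12) (nat_lit 5) (nat_lit 13) (nat_lit 5) (nat_lit 14) (nat_lit 4) (nat_lit 429) (nat_lit 330) (nat_lit 261)) (XT.nd (nat_lit 78) (nat_lit 0) (nat_lit 0) (XT.lf (nat_lit 0) (nat_lit 24135938321) (nat_lit 152) (nat_lit 46751515212) (nat_lit 0) (nat_lit 5673881525) (nat_lit 12) (nat_lit 5) (nat_lit 14) (nat_lit 4) (nat_lit 12) (nat_lit 4) (nat_lit 430) (nat_lit 330) (nat_lit 260)) (XT.lf (nat_lit 0) (nat_lit 38055610133) (nat_lit 152)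 (nat_lit 22359530263) (nat_lit 0) (nat_lit 19563677280) (nat_lit 12) (nat_lit 5) (nat_lit 14) (nat_lit 4) (nat_lit 12) (nat_lit 4) (nat_lit 431) (nat_lit 330) (nat_lit 259)))) (XT.nd (nat_lit 78) (nat_lit 0) (nat_lit 0) (XT.lf (nat_lit 0) (nat_lit 3238499092) (nat_lit 76) (nat_lit 49424653292) (nat_lit 76) (nat_lit 30904267052) (nat_lit 11) (nat_lit 4) (nat_lit 12) (nat_lit 5) (nat_lit 12) (nat_lit 4) (nat_lit 432) (nat_lit 330) (nat_lit 258)) (XT.nd (nat_lit 78) (nat_lit 0) (nat_lit 0) (XT.lf (nat_lit 0) (nat_lit 30509128723) (nat_lit 76) (nat_lit 37684023201) (nat_lit 76) (nat_lit 19136538496) (nat_lit 11) (nat_lit 4) (nat_lit 12) (nat_lit 5) (nat_lit 12) (nat_lit 4) (nat_lit 433) (nat_lit 330) (nat_lit 257)) (XT.lf (nat_lit 0) (nat_lit 59072290207) (nat_lit 76) (nat_lit 25391083655) (nat_lit 76) (nat_lit 6817790889) (nat_lit 11) (nat_lit 4) (nat_lit 12) (nat_lit 5) (nat_lit 12) (nat_lit 4)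 (nat_lit 434) (nat_lit 330) (nat_lit 256))))) (XT.nd (nat_lit 47112) (nat_lit 0) (nat_lit 14896) (XT.nd (nat_lit 78) (nat_lit 76) (nat_lit 0) (XT.lf (nat_lit 0) (nat_lit 5962637935) (nat_lit 152) (nat_lit 6493716862) (nat_lit 76) (nat_lit 82973142184) (nat_lit 10) (nat_lit 5) (nat_lit 12) (nat_lit 5) (nat_lit 11) (nat_lit 4) (nat_lit 435) (nat_lit 330) (nat_lit 255)) (XT.nd (nat_lit 78) (nat_lit 0) (nat_lit 0) (XT.lf (nat_lit 0) (nat_lit 19422071316) (nat_lit 152) (nat_lit 79012562983) (nat_lit 0) (nat_lit 1343158166) (nat_lit 9) (nat_lit 5) (nat_lit 11) (nat_lit 4) (nat_lit 9) (nat_lit 4) (nat_lit 436) (nat_lit 330) (nat_lit 254)) (XT.lf (nat_lit 0) (nat_lit 33715155960) (nat_lit 152) (nat_lit 55008929429) (nat_lit 0) (nat_lit 15614598176) (nat_lit 9) (nat_lit 5) (nat_lit 11) (nat_lit 4) (nat_lit 9) (nat_lit 4) (nat_lit 437) (nat_lit 330) (nat_lit 253)))) (XT.nd (nat_lit 78) (nat_lit 1748) (nat_lit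 0) (XT.lf (nat_lit 0) (nat_lit 1415414198) (nat_lit 684) (nat_lit 873571645) (nat_lit 0) (nat_lit 1415414198) (nat_lit 228) (nat_lit 5) (nat_lit 237) (nat_lit 4) (nat_lit 228) (nat_lit 4) (nat_lit 358) (nat_lit 331) (nat_lit 331)) (XT.nd (nat_lit 78) (nat_lit 532) (nat_lit 0) (XT.lf (nat_lit 0) (nat_lit 67496069) (nat_lit 532) (nat_lit 1176514895) (nat_lit 608) (nat_lit 6278630280) (nat_lit 212) (nat_lit 5) (nat_lit 219) (nat_lit 5) (nat_lit 220) (nat_lit 4) (nat_lit 359) (nat_lit 331) (nat_lit 330)) (XT.lf (nat_lit 0) (nat_lit 1993132485) (nat_lit 532) (nat_lit 5155061777) (nat_lit 532) (nat_lit 496176258) (nat_lit 205) (nat_lit 4) (nat_lit 212) (nat_lit 5) (nat_lit 212) (nat_lit 4) (nat_lit 360) (nat_lit 331) (nat_lit 329)))))) (XT.nd (nat_lit 468) (nat_lit 3040) (nat_lit 0) (XT.nd (nat_lit 234) (nat_lit 1368) (nat_lit 0) (XT.nd (nat_lit 78) (nat_lit 1596) (nat_lit 0) (XT.lf (nat_lit 0) (nat_lit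 3997573205) (nat_lit 456) (nat_lit 1332902394) (nat_lit 532) (nat_lit 2444306235) (nat_lit 198) (nat_lit 5) (nat_lit 204) (nat_lit 5) (nat_lit 205) (nat_lit 4) (nat_lit 361) (nat_lit 331) (nat_lit 328)) (XT.nd (nat_lit 78) (nat_lit 988) (nat_lit 0) (XT.lf (nat_lit 0) (nat_lit 3345185732) (nat_lit 608) (nat_lit 1835129293) (nat_lit 76) (nat_lit 2733723707) (nat_lit 190) (nat_lit 5) (nat_lit 198) (nat_lit 5) (nat_lit 191) (nat_lit 4) (nat_lit 362) (nat_lit 331) (nat_lit 327)) (XT.lf (nat_lit 0) (nat_lit 191243430) (nat_lit 456) (nat_lit 982281072) (nat_lit 532) (nat_lit 6889178226) (nat_lit 177) (nat_lit 5) (nat_lit 183) (nat_lit 5) (nat_lit 184) (nat_lit 5) (nat_lit 363) (nat_lit 331) (nat_lit 326)))) (XT.nd (nat_lit 78) (nat_lit 988) (nat_lit 0) (XT.lf (nat_lit 0) (nat_lit 2304214487) (nat_lit 380) (nat_lit 4736024985) (nat_lit 456) (nat_lit 1179349417) (nat_lit 172) (nat_lit 5) (nat_lit 177)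 (nat_lit 5) (nat_lit 178) (nat_lit 4) (nat_lit 364) (nat_lit 331) (nat_lit 325)) (XT.nd (nat_lit 78) (nat_lit 456) (nat_lit 0) (XT.lf (nat_lit 0) (nat_lit 4488887571) (nat_lit 456) (nat_lit 129035534) (nat_lit 532) (nat_lit 3768219553) (nat_lit 165) (nat_lit 5) (nat_lit 171) (nat_lit 5) (nat_lit 172) (nat_lit 5) (nat_lit 365) (nat_lit 331) (nat_lit 324)) (XT.lf (nat_lit 0) (nat_lit 2018520564) (nat_lit 456) (nat_lit 1841065010) (nat_lit 76) (nat_lit 4702363259) (nat_lit 159) (nat_lit 5) (nat_lit 165) (nat_lit 5) (nat_lit 160) (nat_lit 5) (nat_lit 366) (nat_lit 331) (nat_lit 323))))) (XT.nd (nat_lit 234) (nat_lit 1444) (nat_lit 0) (XT.nd (nat_lit 78) (nat_lit 836) (nat_lit 0) (XT.lf (nat_lit 0) (nat_lit 283081717) (nat_lit 380) (nat_lit 7651048697) (nat_lit 456) (nat_lit 813850925) (nat_lit 149) (nat_lit 5) (nat_lit 154) (nat_lit 5) (nat_lit 155) (nat_lit 4) (nat_lit 367) (nat_lit 331) (nat_lit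 322)) (XT.nd (nat_lit 78) (nat_lit 380) (nat_lit 0) (XT.lf (nat_lit 0) (nat_lit 2465293979) (nat_lit 380) (nat_lit 2602397787) (nat_lit 456) (nat_lit 3875186776) (nat_lit 143) (nat_lit 5) (nat_lit 148) (nat_lit 5) (nat_lit 149) (nat_lit 5) (nat_lit 368) (nat_lit 331) (nat_lit 321)) (XT.lf (nat_lit 0) (nat_lit 1980817071) (nat_lit 380) (nat_lit 4447682783) (nat_lit 76) (nat_lit 2719981512) (nat_lit 138) (nat_lit 5) (nat_lit 143) (nat_lit 5) (nat_lit 139) (nat_lit 5) (nat_lit 369) (nat_lit 331) (nat_lit 320)))) (XT.nd (nat_lit 78) (nat_lit 1064) (nat_lit 0) (XT.lf (nat_lit 0) (nat_lit 6975517180) (nat_lit 380) (nat_lit 1023992636) (nat_lit 456) (nat_lit 1365266997) (nat_lit 133) (nat_lit 5) (nat_lit 138) (nat_lit 5) (nat_lit 139) (nat_lit 5) (nat_lit 370) (nat_lit 331) (nat_lit 319)) (XT.nd (nat_lit 78) (nat_lit 684) (nat_lit 0) (XT.lf (nat_lit 0) (nat_lit 4610052219) (nat_lit 380) (nat_lit 331324813)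 (nat_lit 76) (nat_lit 4649955002) (nat_lit 128) (nat_lit 5) (nat_lit 133) (nat_lit 5) (nat_lit 129) (nat_lit 5) (nat_lit 371) (nat_lit 331) (nat_lit 318)) (XT.lf (nat_lit 0) (nat_lit 978989701) (nat_lit 380) (nat_lit 8024200923) (nat_lit 76) (nat_lit 826219654) (nat_lit 119) (nat_lit 5) (nat_lit 124) (nat_lit 5) (nat_lit 120) (nat_lit 5) (nat_lit 372) (nat_lit 331) (nat_lit 317))))))) (XT.nd (nat_lit 936) (nat_lit 2204) (nat_lit 0) (XT.nd (nat_lit 468) (nat_lit 1444) (nat_lit 0) (XT.nd (nat_lit 234) (nat_lit 1064) (nat_lit 0) (XT.nd (nat_lit 78) (nat_lit 608) (nat_lit 0) (XT.lf (nat_lit 0) (nat_lit 3929366333) (nat_lit 304) (nat_lit 3201009671) (nat_lit 380) (nat_lit 2947705671) (nat_lit 115) (nat_lit 5) (nat_lit 119) (nat_lit 5) (nat_lit 120) (nat_lit 5) (nat_lit 373) (nat_lit 331) (nat_lit 316)) (XT.nd (nat_lit 78) (nat_lit 304) (nat_lit 0) (XT.lf (nat_lit 0) (nat_lit 3162786969) (nat_lit 304)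 (nat_lit 4268879634) (nat_lit 76) (nat_lit 2907349434) (nat_lit 111) (nat_lit 5) (nat_lit 115) (nat_lit 5) (nat_lit 112) (nat_lit 5) (nat_lit 374) (nat_lit 331) (nat_lit 315)) (XT.lf (nat_lit 0) (nat_lit 8219851033) (nat_lit 304) (nat_lit 1284794850) (nat_lit 380) (nat_lit 1107917808) (nat_lit 107) (nat_lit 5) (nat_lit 111) (nat_lit 5) (nat_lit 112) (nat_lit 5) (nat_lit 375) (nat_lit 331) (nat_lit 314)))) (XT.nd (nat_lit 78) (nat_lit 760) (nat_lit 0) (XT.lf (nat_lit 0) (nat_lit 5171286402) (nat_lit 304) (nat_lit 565199688) (nat_lit 76) (nat_lit 5161521656) (nat_lit 103) (nat_lit 5) (nat_lit 107) (nat_lit 5) (nat_lit 104) (nat_lit 5) (nat_lit 376) (nat_lit 331) (nat_lit 313)) (XT.nd (nat_lit 78) (nat_lit 228) (nat_lit 0) (XT.lf (nat_lit 0) (nat_lit 531765091) (nat_lit 304) (nat_lit 9902470421) (nat_lit 76) (nat_lit 763094827) (nat_lit 96) (nat_lit 5) (nat_lit 100) (nat_lit 5) (nat_lit 97) (nat_lit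 5) (nat_lit 377) (nat_lit 331) (nat_lit 312)) (XT.lf (nat_lit 0) (nat_lit 3086165385) (nat_lit 228) (nat_lit 3933235242) (nat_lit 304) (nat_lit 4489515238) (nat_lit 93) (nat_lit 5) (nat_lit 96) (nat_lit 5) (nat_lit 97) (nat_lit 5) (nat_lit 378) (nat_lit 331) (nat_lit 311))))) (XT.nd (nat_lit 234) (nat_lit 684) (nat_lit 0) (XT.nd (nat_lit 78) (nat_lit 456) (nat_lit 0) (XT.lf (nat_lit 0) (nat_lit 1959555259) (nat_lit 304) (nat_lit 6978330936) (nat_lit 76) (nat_lit 2897559275) (nat_lit 89) (nat_lit 5) (nat_lit 93) (nat_lit 5) (nat_lit 90) (nat_lit 5) (nat_lit 379) (nat_lit 331) (nat_lit 310)) (XT.nd (nat_lit 78) (nat_lit 228) (nat_lit 0) (XT.lf (nat_lit 0) (nat_lit 6560660104) (nat_lit 228) (nat_lit 2098201830) (nat_lit 304) (nat_lit 3517520298) (nat_lit 86) (nat_lit 5) (nat_lit 89) (nat_lit 5) (nat_lit 90) (nat_lit 5) (nat_lit 380) (nat_lit 331) (nat_lit 309)) (XT.lf (nat_lit 0) (nat_lit 3131760259)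 (nat_lit 228) (nat_lit 4341579528) (nat_lit 76) (nat_lit 5059106871) (nat_lit 83) (nat_lit 5) (nat_lit 86) (nat_lit 5) (nat_lit 84) (nat_lit 5) (nat_lit 381) (nat_lit 331) (nat_lit 308)))) (XT.nd (nat_lit 78) (nat_lit 456) (nat_lit 0) (XT.lf (nat_lit 0) (nat_lit 9759880388) (nat_lit 228) (nat_lit 292487956) (nat_lit 304) (nat_lit 2852582035) (nat_lit 80) (nat_lit 5) (nat_lit 83) (nat_lit 5) (nat_lit 84) (nat_lit 5) (nat_lit 382) (nat_lit 331) (nat_lit 307)) (XT.nd (nat_lit 78) (nat_lit 228) (nat_lit 0) (XT.lf (nat_lit 0) (nat_lit 4009594525) (nat_lit 228) (nat_lit 2091541831) (nat_lit 76) (nat_lit 7191854756) (nat_lit 77) (nat_lit 5) (nat_lit 80) (nat_lit 5) (nat_lit 78) (nat_lit 5) (nat_lit 383) (nat_lit 331) (nat_lit 306)) (XT.lf (nat_lit 0) (nat_lit 11171839743) (nat_lit 304) (nat_lit 1133341197) (nat_lit 76) (nat_lit 1393952703) (nat_lit 74) (nat_lit 5) (nat_lit 78) (nat_lit 5) (nat_lit 75)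 (nat_lit 4) (nat_lit 384) (nat_lit 331) (nat_lit 305)))))) (XT.nd (nat_lit 468) (nat_lit 912) (nat_lit 0) (XT.nd (nat_lit 234) (nat_lit 532) (nat_lit 0) (XT.nd (nat_lit 78) (nat_lit 532) (nat_lit 0) (XT.lf (nat_lit 0) (nat_lit 4543341989) (nat_lit 228) (nat_lit 346502721) (nat_lit 76) (nat_lit 9232470292) (nat_lit 71) (nat_lit 5) (nat_lit 74) (nat_lit 5) (nat_lit 72) (nat_lit 5) (nat_lit 385) (nat_lit 331) (nat_lit 304)) (XT.nd (nat_lit 78) (nat_lit 228) (nat_lit 0) (XT.lf (nat_lit 0) (nat_lit 308125901) (nat_lit 152) (nat_lit 11646433051) (nat_lit 228) (nat_lit 2610188926) (nat_lit 67) (nat_lit 5) (nat_lit 69) (nat_lit 5) (nat_lit 70) (nat_lit 4) (nat_lit 386) (nat_lit 331) (nat_lit 303)) (XT.lf (nat_lit 0) (nat_lit 767468093) (nat_lit 152) (nat_lit 3910559772) (nat_lit 228) (nat_lit 10348052736) (nat_lit 64) (nat_lit 5) (nat_lit 66) (nat_lit 5) (nat_lit 67) (nat_lit 5) (nat_lit 387) (nat_lit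 331) (nat_lit 302)))) (XT.nd (nat_lit 78) (nat_lit 380) (nat_lit 0) (XT.lf (nat_lit 0) (nat_lit 1030215595) (nat_lit 152) (nat_lit 11301112055) (nat_lit 228) (nat_lit 3176757313) (nat_lit 62) (nat_lit 5) (nat_lit 64) (nat_lit 5) (nat_lit 65) (nat_lit 4) (nat_lit 388) (nat_lit 331) (nat_lit 301)) (XT.nd (nat_lit 78) (nat_lit 152) (nat_lit 0) (XT.lf (nat_lit 0) (nat_lit 1057841374) (nat_lit 152) (nat_lit 3266818971) (nat_lit 228) (nat_lit 11686597241) (nat_lit 59) (nat_lit 5) (nat_lit 61) (nat_lit 5) (nat_lit 62) (nat_lit 5) (nat_lit 389) (nat_lit 331) (nat_lit 300)) (XT.lf (nat_lit 0) (nat_lit 823022226) (nat_lit 152) (nat_lit 11383129245) (nat_lit 228) (nat_lit 4330390264) (nat_lit 57) (nat_lit 5) (nat_lit 59) (nat_lit 5) (nat_lit 60) (nat_lit 4) (nat_lit 390) (nat_lit 331) (nat_lit 299))))) (XT.nd (nat_lit 234) (nat_lit 532) (nat_lit 0) (XT.nd (nat_lit 78) (nat_lit 152) (nat_lit 0) (XT.lf (nat_lit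 0) (nat_lit 313101849) (nat_lit 152) (nat_lit 3070640971) (nat_lit 228) (nat_lit 13701694741) (nat_lit 54) (nat_lit 5) (nat_lit 56) (nat_lit 5) (nat_lit 57) (nat_lit 5) (nat_lit 391) (nat_lit 331) (nat_lit 298)) (XT.nd (nat_lit 78) (nat_lit 152) (nat_lit 0) (XT.lf (nat_lit 0) (nat_lit 11480647071) (nat_lit 228) (nat_lit 526340348) (nat_lit 76) (nat_lit 5650921268) (nat_lit 54) (nat_lit 5) (nat_lit 57) (nat_lit 5) (nat_lit 55) (nat_lit 4) (nat_lit 392) (nat_lit 331) (nat_lit 297)) (XT.lf (nat_lit 0) (nat_lit 1755258318) (nat_lit 152) (nat_lit 1677205143) (nat_lit 76) (nat_lit 14824092384) (nat_lit 52) (nat_lit 5) (nat_lit 54) (nat_lit 5) (nat_lit 53) (nat_lit 5) (nat_lit 393) (nat_lit 331) (nat_lit 296)))) (XT.nd (nat_lit 156) (nat_lit 304) (nat_lit 0) (XT.nd (nat_lit 78) (nat_lit 76) (nat_lit 0) (XT.lf (nat_lit 0) (nat_lit 10045812738) (nat_lit 228) (nat_lit 3250669707) (nat_lit 76) (nat_lit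 5584156797) (nat_lit 50) (nat_lit 5) (nat_lit 53) (nat_lit 5) (nat_lit 51) (nat_lit 4) (nat_lit 394) (nat_lit 331) (nat_lit 295)) (XT.lf (nat_lit 0) (nat_lit 14326972412) (nat_lit 76) (nat_lit 4493521575) (nat_lit 152) (nat_lit 713357827) (nat_lit 49) (nat_lit 5) (nat_lit 50) (nat_lit 5) (nat_lit 51) (nat_lit 4) (nat_lit 395) (nat_lit 331) (nat_lit 294))) (XT.nd (nat_lit 78) (nat_lit 76) (nat_lit 0) (XT.lf (nat_lit 0) (nat_lit 7745778981) (nat_lit 228) (nat_lit 7676459530) (nat_lit 76) (nat_lit 4792722733) (nat_lit 46) (nat_lit 5) (nat_lit 49) (nat_lit 5) (nat_lit 47) (nat_lit 4) (nat_lit 396) (nat_lit 331) (nat_lit 293)) (XT.lf (nat_lit 0) (nat_lit 10286789621) (nat_lit 76) (nat_lit 6409806238) (nat_lit 152) (nat_lit 4230825528) (nat_lit 45) (nat_lit 5) (nat_lit 46) (nat_lit 5) (nat_lit 47) (nat_lit 4) (nat_lit 397) (nat_lit 331) (nat_lit 292))))))))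
noncomputable def xc33 : XT := (XT.nd (nat_lit 1872) (nat_lit 684) (nat_lit 0) (XT.nd (nat_lit 936) (nat_lit 760) (nat_lit 0) (XT.nd (nat_lit 468) (nat_lit 456) (nat_lit 0) (XT.nd (nat_lit 234) (nat_lit 380) (nat_lit 0) (XT.nd (nat_lit 78) (nat_lit 228) (nat_lit 0) (XT.lf (nat_lit 0) (nat_lit 4403111990) (nat_lit 228) (nat_lit 14172708165) (nat_lit 76) (nat_lit 3096323406) (nat_lit 42) (nat_lit 5) (nat_lit 45) (nat_lit 5) (nat_lit 43) (nat_lit 4) (nat_lit 398) (nat_lit 331) (nat_lit 291)) (XT.nd (nat_lit 78) (nat_lit 152) (nat_lit 0) (XT.lf (nat_lit 0) (nat_lit 4084384410) (nat_lit 76) (nat_lit 9402126125) (nat_lit 152) (nat_lit 8963186768) (nat_lit 41) (nat_lit 5) (nat_lit 42) (nat_lit 5) (nat_lit 43) (nat_lit 4) (nat_lit 399) (nat_lit 331) (nat_lit 290)) (XT.lf (nat_lit 0) (nat_lit 85420820) (nat_lit 152) (nat_lit 22981350379) (nat_lit 152) (nat_lit 198086350) (nat_lit 39) (nat_lit 4) (nat_lit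 41) (nat_lit 5) (nat_lit 41) (nat_lit 4) (nat_lit 400) (nat_lit 331) (nat_lit 289)))) (XT.nd (nat_lit 78) (nat_lit 304) (nat_lit 0) (XT.lf (nat_lit 0) (nat_lit 9009890907) (nat_lit 228) (nat_lit 4653638534) (nat_lit 76) (nat_lit 10449247893) (nat_lit 38) (nat_lit 5) (nat_lit 41) (nat_lit 5) (nat_lit 39) (nat_lit 4) (nat_lit 401) (nat_lit 331) (nat_lit 288)) (XT.nd (nat_lit 78) (nat_lit 228) (nat_lit 0) (XT.lf (nat_lit 0) (nat_lit 14898922167) (nat_lit 76) (nat_lit 3818049098) (nat_lit 152) (nat_lit 6284787415) (nat_lit 37) (nat_lit 5) (nat_lit 38) (nat_lit 5) (nat_lit 39) (nat_lit 4) (nat_lit 402) (nat_lit 331) (nat_lit 287)) (XT.lf (nat_lit 0) (nat_lit 3021618060) (nat_lit 228) (nat_lit 16431227131) (nat_lit 76) (nat_lit 6478330832) (nat_lit 34) (nat_lit 5) (nat_lit 37) (nat_lit 5) (nat_lit 35) (nat_lit 4) (nat_lit 403) (nat_lit 331) (nat_lit 286))))) (XT.nd (nat_lit 234) (nat_lit 228) (nat_lit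 0) (XT.nd (nat_lit 78) (nat_lit 152) (nat_lit 0) (XT.lf (nat_lit 0) (nat_lit 3167259752) (nat_lit 76) (nat_lit 9575075160) (nat_lit 152) (nat_lit 14160500879) (nat_lit 33) (nat_lit 5) (nat_lit 34) (nat_lit 5) (nat_lit 35) (nat_lit 4) (nat_lit 404) (nat_lit 331) (nat_lit 285)) (XT.nd (nat_lit 78) (nat_lit 152) (nat_lit 0) (XT.lf (nat_lit 0) (nat_lit 23033404473) (nat_lit 152) (nat_lit 4016699050) (nat_lit 0) (nat_lit 870452598) (nat_lit 33) (nat_lit 5) (nat_lit 35) (nat_lit 4) (nat_lit 33) (nat_lit 4) (nat_lit 405) (nat_lit 331) (nat_lit 284)) (XT.lf (nat_lit 0) (nat_lit 4924846231) (nat_lit 152) (nat_lit 12284016392) (nat_lit 76) (nat_lit 11773819206) (nat_lit 31) (nat_lit 5) (nat_lit 33) (nat_lit 5) (nat_lit 32) (nat_lit 4) (nat_lit 406) (nat_lit 331) (nat_lit 283)))) (XT.nd (nat_lit 78) (nat_lit 152) (nat_lit 0) (XT.lf (nat_lit 0) (nat_lit 8384142567) (nat_lit 76) (nat_lit 6777658520) (nat_lit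 152) (nat_lit 14933604415) (nat_lit 30) (nat_lit 5) (nat_lit 31) (nat_lit 5) (nat_lit 32) (nat_lit 4) (nat_lit 407) (nat_lit 331) (nat_lit 282)) (XT.nd (nat_lit 78) (nat_lit 152) (nat_lit 0) (XT.lf (nat_lit 0) (nat_lit 25992471026) (nat_lit 152) (nat_lit 1122779805) (nat_lit 0) (nat_lit 4146064442) (nat_lit 30) (nat_lit 5) (nat_lit 32) (nat_lit 4) (nat_lit 30) (nat_lit 4) (nat_lit 408) (nat_lit 331) (nat_lit 281)) (XT.lf (nat_lit 0) (nat_lit 4971036026) (nat_lit 152) (nat_lit 11854588693) (nat_lit 76) (nat_lit 15652881501) (nat_lit 28) (nat_lit 5) (nat_lit 30) (nat_lit 5) (nat_lit 29) (nat_lit 4) (nat_lit 409) (nat_lit 331) (nat_lit 280)))))) (XT.nd (nat_lit 468) (nat_lit 380) (nat_lit 0) (XT.nd (nat_lit 234) (nat_lit 152) (nat_lit 0) (XT.nd (nat_lit 78) (nat_lit 152) (nat_lit 0) (XT.lf (nat_lit 0) (nat_lit 9708190682) (nat_lit 76) (nat_lit 5931531052) (nat_lit 152) (nat_lit 18114501829) (nat_lit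 27) (nat_lit 5) (nat_lit 28) (nat_lit 5) (nat_lit 29) (nat_lit 4) (nat_lit 410) (nat_lit 331) (nat_lit 279)) (XT.nd (nat_lit 78) (nat_lit 152) (nat_lit 0) (XT.lf (nat_lit 0) (nat_lit 26939502893) (nat_lit 152) (nat_lit 2697805632) (nat_lit 0) (nat_lit 5453493392) (nat_lit 27) (nat_lit 5) (nat_lit 29) (nat_lit 4) (nat_lit 27) (nat_lit 4) (nat_lit 411) (nat_lit 331) (nat_lit 278)) (XT.lf (nat_lit 0) (nat_lit 2443137358) (nat_lit 152) (nat_lit 16609792808) (nat_lit 76) (nat_lit 17435272922) (nat_lit 25) (nat_lit 5) (nat_lit 27) (nat_lit 5) (nat_lit 26) (nat_lit 4) (nat_lit 412) (nat_lit 331) (nat_lit 277)))) (XT.nd (nat_lit 78) (nat_lit 76) (nat_lit 0) (XT.lf (nat_lit 0) (nat_lit 5570708232) (nat_lit 76) (nat_lit 7837889242) (nat_lit 152) (nat_lit 24544163549) (nat_lit 24) (nat_lit 5) (nat_lit 25) (nat_lit 5) (nat_lit 26) (nat_lit 4) (nat_lit 413) (nat_lit 331) (nat_lit 276)) (XT.nd (nat_lit 78)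 (nat_lit 76) (nat_lit 0) (XT.lf (nat_lit 0) (nat_lit 25061127841) (nat_lit 152) (nat_lit 10455730941) (nat_lit 0) (nat_lit 3969528332) (nat_lit 24) (nat_lit 5) (nat_lit 26) (nat_lit 4) (nat_lit 24) (nat_lit 4) (nat_lit 414) (nat_lit 331) (nat_lit 275)) (XT.lf (nat_lit 0) (nat_lit 12602190190) (nat_lit 76) (nat_lit 24826027681) (nat_lit 76) (nat_lit 3664522621) (nat_lit 23) (nat_lit 4) (nat_lit 24) (nat_lit 5) (nat_lit 24) (nat_lit 4) (nat_lit 415) (nat_lit 331) (nat_lit 274))))) (XT.nd (nat_lit 234) (nat_lit 228) (nat_lit 0) (XT.nd (nat_lit 78) (nat_lit 76) (nat_lit 0) (XT.lf (nat_lit 0) (nat_lit 7527025874) (nat_lit 152) (nat_lit 5948219249) (nat_lit 76) (nat_lit 29300716137) (nat_lit 22) (nat_lit 5) (nat_lit 24) (nat_lit 5) (nat_lit 23) (nat_lit 4) (nat_lit 416) (nat_lit 331) (nat_lit 273)) (XT.nd (nat_lit 78) (nat_lit 0) (nat_lit 0) (XT.lf (nat_lit 0) (nat_lit 17910805452) (nat_lit 76) (nat_lit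 1400669238) (nat_lit 152) (nat_lit 25227510082) (nat_lit 21) (nat_lit 5) (nat_lit 22) (nat_lit 5) (nat_lit 23) (nat_lit 4) (nat_lit 417) (nat_lit 331) (nat_lit 272)) (XT.lf (nat_lit 0) (nat_lit 31792963437) (nat_lit 152) (nat_lit 3530977330) (nat_lit 0) (nat_lit 11062987502) (nat_lit 21) (nat_lit 5) (nat_lit 23) (nat_lit 4) (nat_lit 21) (nat_lit 4) (nat_lit 418) (nat_lit 331) (nat_lit 271)))) (XT.nd (nat_lit 78) (nat_lit 152) (nat_lit 0) (XT.lf (nat_lit 0) (nat_lit 21001794101) (nat_lit 76) (nat_lit 24053296703) (nat_lit 76) (nat_lit 3267484389) (nat_lit 20) (nat_lit 4) (nat_lit 21) (nat_lit 5) (nat_lit 21) (nat_lit 4) (nat_lit 419) (nat_lit 331) (nat_lit 270)) (XT.nd (nat_lit 78) (nat_lit 76) (nat_lit 0) (XT.lf (nat_lit 0) (nat_lit 8435445441) (nat_lit 152) (nat_lit 3715035569) (nat_lit 76) (nat_lit 38202685940) (nat_lit 19) (nat_lit 5) (nat_lit 21) (nat_lit 5) (nat_lit 20) (nat_lit 4) (nat_lit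 420) (nat_lit 331) (nat_lit 269)) (XT.lf (nat_lit 0) (nat_lit 20811476720) (nat_lit 152) (nat_lit 31137900252) (nat_lit 0) (nat_lit 530277635) (nat_lit 18) (nat_lit 5) (nat_lit 20) (nat_lit 4) (nat_lit 18) (nat_lit 4) (nat_lit 421) (nat_lit 331) (nat_lit 268))))))) (XT.nd (nat_lit 936) (nat_lit 152) (nat_lit 0) (XT.nd (nat_lit 468) (nat_lit 304) (nat_lit 0) (XT.nd (nat_lit 234) (nat_lit 76) (nat_lit 0) (XT.nd (nat_lit 78) (nat_lit 152) (nat_lit 0) (XT.lf (nat_lit 0) (nat_lit 33913225620) (nat_lit 152) (nat_lit 7210838376) (nat_lit 0) (nat_lit 13585197833) (nat_lit 18) (nat_lit 5) (nat_lit 20) (nat_lit 4) (nat_lit 18) (nat_lit 4) (nat_lit 422) (nat_lit 331) (nat_lit 267)) (XT.nd (nat_lit 78) (nat_lit 76) (nat_lit 0) (XT.lf (nat_lit 0) (nat_lit 18166576970) (nat_lit 76) (nat_lit 29626357675) (nat_lit 76) (nat_lit 9253731123) (nat_lit 17) (nat_lit 4) (nat_lit 18) (nat_lit 5) (nat_lit 18) (nat_lit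 4) (nat_lit 423) (nat_lit 331) (nat_lit 266)) (XT.lf (nat_lit 0) (nat_lit 2834004421) (nat_lit 152) (nat_lit 14662072588) (nat_lit 76) (nat_lit 42003311784) (nat_lit 16) (nat_lit 5) (nat_lit 18) (nat_lit 5) (nat_lit 17) (nat_lit 4) (nat_lit 424) (nat_lit 331) (nat_lit 265)))) (XT.nd (nat_lit 78) (nat_lit 0) (nat_lit 0) (XT.lf (nat_lit 0) (nat_lit 10790067595) (nat_lit 76) (nat_lit 4601864204) (nat_lit 152) (nat_lit 46678354181) (nat_lit 15) (nat_lit 5) (nat_lit 16) (nat_lit 5) (nat_lit 17) (nat_lit 4) (nat_lit 425) (nat_lit 331) (nat_lit 264)) (XT.nd (nat_lit 78) (nat_lit 0) (nat_lit 0) (XT.lf (nat_lit 0) (nat_lit 28768775457) (nat_lit 152) (nat_lit 27123613735) (nat_lit 0) (nat_lit 8871610363) (nat_lit 15) (nat_lit 5) (nat_lit 17) (nat_lit 4) (nat_lit 15) (nat_lit 4) (nat_lit 426) (nat_lit 331) (nat_lit 263)) (XT.lf (nat_lit 0) (nat_lit 42815846117) (nat_lit 152) (nat_lit 1893454978) (nat_lit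 0) (nat_lit 22883058195) (nat_lit 15) (nat_lit 5) (nat_lit 17) (nat_lit 4) (nat_lit 15) (nat_lit 4) (nat_lit 427) (nat_lit 331) (nat_lit 262))))) (XT.nd (nat_lit 234) (nat_lit 76) (nat_lit 0) (XT.nd (nat_lit 78) (nat_lit 152) (nat_lit 0) (XT.lf (nat_lit 0) (nat_lit 25002453546) (nat_lit 76) (nat_lit 32760238584) (nat_lit 76) (nat_lit 12793524159) (nat_lit 14) (nat_lit 4) (nat_lit 15) (nat_lit 5) (nat_lit 15) (nat_lit 4) (nat_lit 428) (nat_lit 331) (nat_lit 261)) (XT.nd (nat_lit 78) (nat_lit 152) (nat_lit 0) (XT.lf (nat_lit 0) (nat_lit 53201476745) (nat_lit 76) (nat_lit 20233240749) (nat_lit 76) (nat_lit 234215369) (nat_lit 14) (nat_lit 4) (nat_lit 15) (nat_lit 5) (nat_lit 15) (nat_lit 4) (nat_lit 429) (nat_lit 331) (nat_lit 260)) (XT.lf (nat_lit 0) (nat_lit 5783328173) (nat_lit 76) (nat_lit 6932497389) (nat_lit 152) (nat_lit 64217260197) (nat_lit 12) (nat_lit 5) (nat_lit 13) (nat_lit 5) (nat_lit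 14) (nat_lit 4) (nat_lit 430) (nat_lit 331) (nat_lit 259)))) (XT.nd (nat_lit 78) (nat_lit 76) (nat_lit 0) (XT.lf (nat_lit 0) (nat_lit 26549714756) (nat_lit 152) (nat_lit 46728572072) (nat_lit 0) (nat_lit 7074855816) (nat_lit 12) (nat_lit 5) (nat_lit 14) (nat_lit 4) (nat_lit 12) (nat_lit 4) (nat_lit 431) (nat_lit 331) (nat_lit 258)) (XT.nd (nat_lit 78) (nat_lit 76) (nat_lit 0) (XT.lf (nat_lit 0) (nat_lit 41107894943) (nat_lit 152) (nat_lit 21229393537) (nat_lit 0) (nat_lit 21605937539) (nat_lit 12) (nat_lit 5) (nat_lit 14) (nat_lit 4) (nat_lit 12) (nat_lit 4) (nat_lit 432) (nat_lit 331) (nat_lit 257)) (XT.lf (nat_lit 0) (nat_lit 5584095571) (nat_lit 76) (nat_lit 50827971223) (nat_lit 76) (nat_lit 31300205757) (nat_lit 11) (nat_lit 4) (nat_lit 12) (nat_lit 5) (nat_lit 12) (nat_lit 4) (nat_lit 433) (nat_lit 331) (nat_lit 256)))))) (XT.nd (nat_lit 47190) (nat_lit 0) (nat_lit 12312) (XT.nd (nat_lit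 234) (nat_lit 76) (nat_lit 0) (XT.nd (nat_lit 78) (nat_lit 76) (nat_lit 0) (XT.lf (nat_lit 0) (nat_lit 34114272326) (nat_lit 76) (nat_lit 38551162710) (nat_lit 76) (nat_lit 18998818138) (nat_lit 11) (nat_lit 4) (nat_lit 12) (nat_lit 5) (nat_lit 12) (nat_lit 4) (nat_lit 434) (nat_lit 331) (nat_lit 255)) (XT.nd (nat_lit 78) (nat_lit 76) (nat_lit 0) (XT.lf (nat_lit 0) (nat_lit 64006559162) (nat_lit 76) (nat_lit 25692007693) (nat_lit 76) (nat_lit 6116254449) (nat_lit 11) (nat_lit 4) (nat_lit 12) (nat_lit 5) (nat_lit 12) (nat_lit 4) (nat_lit 435) (nat_lit 331) (nat_lit 254)) (XT.lf (nat_lit 0) (nat_lit 7234183640) (nat_lit 152) (nat_lit 4912654427) (nat_lit 76) (nat_lit 88024893480) (nat_lit 10) (nat_lit 5) (nat_lit 12) (nat_lit 5) (nat_lit 11) (nat_lit 4) (nat_lit 436) (nat_lit 331) (nat_lit 253)))) (XT.nd (nat_lit 46800) (nat_lit 0) (nat_lit 17328) (XT.lf (nat_lit 0) (nat_lit 21346741331) (nat_lit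 152) (nat_lit 81092400612) (nat_lit 0) (nat_lit 2298897085) (nat_lit 9) (nat_lit 5) (nat_lit 11) (nat_lit 4) (nat_lit 9) (nat_lit 4) (nat_lit 437) (nat_lit 331) (nat_lit 252)) (XT.nd (nat_lit 78) (nat_lit 608) (nat_lit 0) (XT.lf (nat_lit 0) (nat_lit 566232652) (nat_lit 1292) (nat_lit 2469247762) (nat_lit 0) (nat_lit 566232652) (nat_lit 245) (nat_lit 5) (nat_lit 262) (nat_lit 4) (nat_lit 245) (nat_lit 4) (nat_lit 356) (nat_lit 332) (nat_lit 332)) (XT.lf (nat_lit 0) (nat_lit 3842383535) (nat_lit 608) (nat_lit 3059837642) (nat_lit 608) (nat_lit 401676988) (nat_lit 237) (nat_lit 4) (nat_lit 245) (nat_lit 5) (nat_lit 245) (nat_lit 4) (nat_lit 357) (nat_lit 332) (nat_lit 331))))) (XT.nd (nat_lit 234) (nat_lit 2508) (nat_lit 0) (XT.nd (nat_lit 78) (nat_lit 1824) (nat_lit 0) (XT.lf (nat_lit 0) (nat_lit 5277269584) (nat_lit 684) (nat_lit 1896942726) (nat_lit 0) (nat_lit 238684896) (nat_lit 228) (nat_lit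 5) (nat_lit 237) (nat_lit 4) (nat_lit 228) (nat_lit 4) (nat_lit 358) (nat_lit 332) (nat_lit 330)) (XT.nd (nat_lit 78) (nat_lit 1140) (nat_lit 0) (XT.lf (nat_lit 0) (nat_lit 3505919339) (nat_lit 684) (nat_lit 262374323) (nat_lit 76) (nat_lit 3761786752) (nat_lit 219) (nat_lit 5) (nat_lit 228) (nat_lit 5) (nat_lit 220) (nat_lit 4) (nat_lit 359) (nat_lit 332) (nat_lit 329)) (XT.lf (nat_lit 0) (nat_lit 1502205055) (nat_lit 532) (nat_lit 62702212) (nat_lit 608) (nat_lit 6091225932) (nat_lit 204) (nat_lit 5) (nat_lit 211) (nat_lit 5) (nat_lit 212) (nat_lit 5) (nat_lit 360) (nat_lit 332) (nat_lit 328)))) (XT.nd (nat_lit 156) (nat_lit 1444) (nat_lit 0) (XT.nd (nat_lit 78) (nat_lit 608) (nat_lit 0) (XT.lf (nat_lit 0) (nat_lit 3331879178) (nat_lit 456) (nat_lit 3920378238) (nat_lit 532) (nat_lit 538088132) (nat_lit 198) (nat_lit 5) (nat_lit 204) (nat_lit 5) (nat_lit 205) (nat_lit 4) (nat_lit 361) (nat_lit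 332) (nat_lit 327)) (XT.lf (nat_lit 0) (nat_lit 5061562588) (nat_lit 608) (nat_lit 2689478527) (nat_lit 76) (nat_lit 182642289) (nat_lit 190) (nat_lit 5) (nat_lit 198) (nat_lit 5) (nat_lit 191) (nat_lit 4) (nat_lit 362) (nat_lit 332) (nat_lit 326))) (XT.nd (nat_lit 78) (nat_lit 912) (nat_lit 0) (XT.lf (nat_lit 0) (nat_lit 2708979488) (nat_lit 532) (nat_lit 868430381) (nat_lit 76) (nat_lit 4508340747) (nat_lit 183) (nat_lit 5) (nat_lit 190) (nat_lit 5) (nat_lit 184) (nat_lit 5) (nat_lit 363) (nat_lit 332) (nat_lit 325)) (XT.lf (nat_lit 0) (nat_lit 165466943) (nat_lit 456) (nat_lit 7191807685) (nat_lit 76) (nat_lit 890142751) (nat_lit 171) (nat_lit 5) (nat_lit 177) (nat_lit 5) (nat_lit 172) (nat_lit 5) (nat_lit 364) (nat_lit 332) (nat_lit 324))))))))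
noncomputable def xc34 : XT := (XT.nd (nat_lit 1872) (nat_lit 2964) (nat_lit 0) (XT.nd (nat_lit 936) (nat_lit 2964) (nat_lit 0) (XT.nd (nat_lit 468) (nat_lit 2280) (nat_lit 0) (XT.nd (nat_lit 234) (nat_lit 1520) (nat_lit 0) (XT.nd (nat_lit 78) (nat_lit 912) (nat_lit 0) (XT.lf (nat_lit 0) (nat_lit 3027196474) (nat_lit 456) (nat_lit 2787460561) (nat_lit 532) (nat_lit 2602767898) (nat_lit 165) (nat_lit 5) (nat_lit 171) (nat_lit 5) (nat_lit 172) (nat_lit 5) (nat_lit 365) (nat_lit 332) (nat_lit 323)) (XT.nd (nat_lit 78) (nat_lit 456) (nat_lit 0) (XT.lf (nat_lit 0) (nat_lit 3010946281) (nat_lit 456) (nat_lit 3530227196) (nat_lit 76) (nat_lit 2056268714) (nat_lit 159) (nat_lit 5) (nat_lit 165) (nat_lit 5) (nat_lit 160) (nat_lit 5) (nat_lit 366) (nat_lit 332) (nat_lit 322)) (XT.lf (nat_lit 0) (nat_lit 2791072) (nat_lit 456) (nat_lit 1618704390) (nat_lit 76) (nat_lit 7166098669) (nat_lit 153) (nat_lit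 5) (nat_lit 159) (nat_lit 5) (nat_lit 154) (nat_lit 5) (nat_lit 367) (nat_lit 332) (nat_lit 321)))) (XT.nd (nat_lit 78) (nat_lit 760) (nat_lit 0) (XT.lf (nat_lit 0) (nat_lit 311412057) (nat_lit 380) (nat_lit 5400881635) (nat_lit 456) (nat_lit 3274681757) (nat_lit 143) (nat_lit 5) (nat_lit 148) (nat_lit 5) (nat_lit 149) (nat_lit 5) (nat_lit 368) (nat_lit 332) (nat_lit 320)) (XT.nd (nat_lit 78) (nat_lit 380) (nat_lit 0) (XT.lf (nat_lit 0) (nat_lit 2334244388) (nat_lit 304) (nat_lit 84399644) (nat_lit 380) (nat_lit 6778321350) (nat_lit 138) (nat_lit 5) (nat_lit 142) (nat_lit 5) (nat_lit 143) (nat_lit 5) (nat_lit 369) (nat_lit 332) (nat_lit 319)) (XT.lf (nat_lit 0) (nat_lit 4368414118) (nat_lit 380) (nat_lit 3944851779) (nat_lit 456) (nat_lit 1103747039) (nat_lit 133) (nat_lit 5) (nat_lit 138) (nat_lit 5) (nat_lit 139) (nat_lit 5) (nat_lit 370) (nat_lit 332) (nat_lit 318))))) (XT.nd (nat_lit 234)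 (nat_lit 912) (nat_lit 0) (XT.nd (nat_lit 78) (nat_lit 988) (nat_lit 0) (XT.lf (nat_lit 0) (nat_lit 4714438182) (nat_lit 380) (nat_lit 3215943274) (nat_lit 76) (nat_lit 1717699929) (nat_lit 128) (nat_lit 5) (nat_lit 133) (nat_lit 5) (nat_lit 129) (nat_lit 5) (nat_lit 371) (nat_lit 332) (nat_lit 317)) (XT.nd (nat_lit 78) (nat_lit 608) (nat_lit 0) (XT.lf (nat_lit 0) (nat_lit 876312941) (nat_lit 380) (nat_lit 1364557567) (nat_lit 76) (nat_lit 7649782528) (nat_lit 123) (nat_lit 5) (nat_lit 128) (nat_lit 5) (nat_lit 124) (nat_lit 5) (nat_lit 372) (nat_lit 332) (nat_lit 316)) (XT.lf (nat_lit 0) (nat_lit 484082554) (nat_lit 304) (nat_lit 6382911322) (nat_lit 380) (nat_lit 3277176131) (nat_lit 115) (nat_lit 5) (nat_lit 119) (nat_lit 5) (nat_lit 120) (nat_lit 5) (nat_lit 373) (nat_lit 332) (nat_lit 315)))) (XT.nd (nat_lit 78) (nat_lit 608) (nat_lit 0) (XT.lf (nat_lit 0) (nat_lit 2379771577) (nat_lit 228)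 (nat_lit 305358358) (nat_lit 304) (nat_lit 7724730490) (nat_lit 111) (nat_lit 5) (nat_lit 114) (nat_lit 5) (nat_lit 115) (nat_lit 5) (nat_lit 374) (nat_lit 332) (nat_lit 314)) (XT.nd (nat_lit 78) (nat_lit 304) (nat_lit 0) (XT.lf (nat_lit 0) (nat_lit 4246915753) (nat_lit 304) (nat_lit 4651139355) (nat_lit 380) (nat_lit 1789242480) (nat_lit 107) (nat_lit 5) (nat_lit 111) (nat_lit 5) (nat_lit 112) (nat_lit 5) (nat_lit 375) (nat_lit 332) (nat_lit 313)) (XT.lf (nat_lit 0) (nat_lit 4343244995) (nat_lit 304) (nat_lit 4869811502) (nat_lit 76) (nat_lit 1764701858) (nat_lit 103) (nat_lit 5) (nat_lit 107) (nat_lit 5) (nat_lit 104) (nat_lit 5) (nat_lit 376) (nat_lit 332) (nat_lit 312)))))) (XT.nd (nat_lit 468) (nat_lit 1216) (nat_lit 0) (XT.nd (nat_lit 234) (nat_lit 912) (nat_lit 0) (XT.nd (nat_lit 78) (nat_lit 608) (nat_lit 0) (XT.lf (nat_lit 0) (nat_lit 7954207129) (nat_lit 228) (nat_lit 2810866902) (nat_lit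 304) (nat_lit 516583834) (nat_lit 100) (nat_lit 5) (nat_lit 103) (nat_lit 5) (nat_lit 104) (nat_lit 5) (nat_lit 377) (nat_lit 332) (nat_lit 311)) (XT.nd (nat_lit 78) (nat_lit 304) (nat_lit 0) (XT.lf (nat_lit 0) (nat_lit 5808235791) (nat_lit 304) (nat_lit 1851138418) (nat_lit 76) (nat_lit 3939222550) (nat_lit 96) (nat_lit 5) (nat_lit 100) (nat_lit 5) (nat_lit 97) (nat_lit 5) (nat_lit 378) (nat_lit 332) (nat_lit 310)) (XT.lf (nat_lit 0) (nat_lit 509007312) (nat_lit 304) (nat_lit 393963505) (nat_lit 76) (nat_lit 11027799458) (nat_lit 92) (nat_lit 5) (nat_lit 96) (nat_lit 5) (nat_lit 93) (nat_lit 5) (nat_lit 379) (nat_lit 332) (nat_lit 309)))) (XT.nd (nat_lit 78) (nat_lit 456) (nat_lit 0) (XT.lf (nat_lit 0) (nat_lit 974645695) (nat_lit 228) (nat_lit 6088154482) (nat_lit 304) (nat_lit 5213287689) (nat_lit 86) (nat_lit 5) (nat_lit 89) (nat_lit 5) (nat_lit 90) (nat_lit 5) (nat_lit 380) (nat_lit 332)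 (nat_lit 308)) (XT.nd (nat_lit 78) (nat_lit 228) (nat_lit 0) (XT.lf (nat_lit 0) (nat_lit 1295195320) (nat_lit 228) (nat_lit 10320225349) (nat_lit 76) (nat_lit 1022451540) (nat_lit 83) (nat_lit 5) (nat_lit 86) (nat_lit 5) (nat_lit 84) (nat_lit 5) (nat_lit 381) (nat_lit 332) (nat_lit 307)) (XT.lf (nat_lit 0) (nat_lit 3532479914) (nat_lit 228) (nat_lit 4547995284) (nat_lit 304) (nat_lit 4933974151) (nat_lit 80) (nat_lit 5) (nat_lit 83) (nat_lit 5) (nat_lit 84) (nat_lit 5) (nat_lit 382) (nat_lit 332) (nat_lit 306))))) (XT.nd (nat_lit 234) (nat_lit 532) (nat_lit 0) (XT.nd (nat_lit 78) (nat_lit 456) (nat_lit 0) (XT.lf (nat_lit 0) (nat_lit 1789641536) (nat_lit 228) (nat_lit 8733708584) (nat_lit 76) (nat_lit 2885128032) (nat_lit 77) (nat_lit 5) (nat_lit 80) (nat_lit 5) (nat_lit 78) (nat_lit 5) (nat_lit 383) (nat_lit 332) (nat_lit 305)) (XT.nd (nat_lit 78) (nat_lit 228) (nat_lit 0) (XT.lf (nat_lit 0)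 (nat_lit 5679899501) (nat_lit 228) (nat_lit 3120062694) (nat_lit 304) (nat_lit 5019228177) (nat_lit 74) (nat_lit 5) (nat_lit 77) (nat_lit 5) (nat_lit 78) (nat_lit 5) (nat_lit 384) (nat_lit 332) (nat_lit 304)) (XT.lf (nat_lit 0) (nat_lit 1928633834) (nat_lit 228) (nat_lit 7684483281) (nat_lit 76) (nat_lit 4635126305) (nat_lit 71) (nat_lit 5) (nat_lit 74) (nat_lit 5) (nat_lit 72) (nat_lit 5) (nat_lit 385) (nat_lit 332) (nat_lit 303)))) (XT.nd (nat_lit 78) (nat_lit 380) (nat_lit 0) (XT.lf (nat_lit 0) (nat_lit 7290847309) (nat_lit 152) (nat_lit 1875738485) (nat_lit 228) (nat_lit 5529298979) (nat_lit 69) (nat_lit 5) (nat_lit 71) (nat_lit 5) (nat_lit 72) (nat_lit 5) (nat_lit 386) (nat_lit 332) (nat_lit 302)) (XT.nd (nat_lit 78) (nat_lit 152) (nat_lit 0) (XT.lf (nat_lit 0) (nat_lit 1648390248) (nat_lit 228) (nat_lit 7315527822) (nat_lit 76) (nat_lit 6199175664) (nat_lit 66) (nat_lit 5) (nat_lit 69)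 (nat_lit 5) (nat_lit 67) (nat_lit 5) (nat_lit 387) (nat_lit 332) (nat_lit 301)) (XT.lf (nat_lit 0) (nat_lit 8214778434) (nat_lit 152) (nat_lit 897520273) (nat_lit 228) (nat_lit 6538490399) (nat_lit 64) (nat_lit 5) (nat_lit 66) (nat_lit 5) (nat_lit 67) (nat_lit 5) (nat_lit 388) (nat_lit 332) (nat_lit 300))))))) (XT.nd (nat_lit 936) (nat_lit 1216) (nat_lit 0) (XT.nd (nat_lit 468) (nat_lit 684) (nat_lit 0) (XT.nd (nat_lit 234) (nat_lit 532) (nat_lit 0) (XT.nd (nat_lit 78) (nat_lit 304) (nat_lit 0) (XT.lf (nat_lit 0) (nat_lit 870429770) (nat_lit 228) (nat_lit 7797176597) (nat_lit 76) (nat_lit 7492076293) (nat_lit 61) (nat_lit 5) (nat_lit 64) (nat_lit 5) (nat_lit 62) (nat_lit 5) (nat_lit 389) (nat_lit 332) (nat_lit 299)) (XT.nd (nat_lit 78) (nat_lit 152) (nat_lit 0) (XT.lf (nat_lit 0) (nat_lit 8271924025) (nat_lit 152) (nat_lit 281555152) (nat_lit 228) (nat_lit 8137449047) (nat_lit 59) (nat_lit 5)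 (nat_lit 61) (nat_lit 5) (nat_lit 62) (nat_lit 5) (nat_lit 390) (nat_lit 332) (nat_lit 298)) (XT.lf (nat_lit 0) (nat_lit 7908117981) (nat_lit 152) (nat_lit 8826387131) (nat_lit 228) (nat_lit 510832169) (nat_lit 57) (nat_lit 5) (nat_lit 59) (nat_lit 5) (nat_lit 60) (nat_lit 4) (nat_lit 391) (nat_lit 332) (nat_lit 297)))) (XT.nd (nat_lit 78) (nat_lit 304) (nat_lit 0) (XT.lf (nat_lit 0) (nat_lit 7247751384) (nat_lit 152) (nat_lit 140563609) (nat_lit 228) (nat_lit 10435879674) (nat_lit 54) (nat_lit 5) (nat_lit 56) (nat_lit 5) (nat_lit 57) (nat_lit 5) (nat_lit 392) (nat_lit 332) (nat_lit 296)) (XT.nd (nat_lit 78) (nat_lit 228) (nat_lit 0) (XT.lf (nat_lit 0) (nat_lit 6240418218) (nat_lit 76) (nat_lit 9555225612) (nat_lit 152) (nat_lit 2632499720) (nat_lit 53) (nat_lit 5) (nat_lit 54) (nat_lit 5) (nat_lit 55) (nat_lit 4) (nat_lit 393) (nat_lit 332) (nat_lit 295)) (XT.lf (nat_lit 0) (nat_lit 4886478461)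 (nat_lit 152) (nat_lit 607227667) (nat_lit 228) (nat_lit 13565757850) (nat_lit 50) (nat_lit 5) (nat_lit 52) (nat_lit 5) (nat_lit 53) (nat_lit 5) (nat_lit 394) (nat_lit 332) (nat_lit 294))))) (XT.nd (nat_lit 234) (nat_lit 380) (nat_lit 0) (XT.nd (nat_lit 78) (nat_lit 228) (nat_lit 0) (XT.lf (nat_lit 0) (nat_lit 3089028740) (nat_lit 76) (nat_lit 11009652866) (nat_lit 152) (nat_lit 5619092145) (nat_lit 49) (nat_lit 5) (nat_lit 50) (nat_lit 5) (nat_lit 51) (nat_lit 4) (nat_lit 395) (nat_lit 332) (nat_lit 293)) (XT.nd (nat_lit 78) (nat_lit 0) (nat_lit 0) (XT.lf (nat_lit 0) (nat_lit 883477013) (nat_lit 152) (nat_lit 1838129075) (nat_lit 228) (nat_lit 17685122389) (nat_lit 46) (nat_lit 5) (nat_lit 48) (nat_lit 5) (nat_lit 49) (nat_lit 5) (nat_lit 396) (nat_lit 332) (nat_lit 292)) (XT.lf (nat_lit 0) (nat_lit 11502431286) (nat_lit 228) (nat_lit 1841694872) (nat_lit 76) (nat_lit 7780167522) (nat_lit 46)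 (nat_lit 5) (nat_lit 49) (nat_lit 5) (nat_lit 47) (nat_lit 4) (nat_lit 397) (nat_lit 332) (nat_lit 291)))) (XT.nd (nat_lit 78) (nat_lit 304) (nat_lit 0) (XT.lf (nat_lit 0) (nat_lit 16841462170) (nat_lit 76) (nat_lit 3956944341) (nat_lit 152) (nat_lit 1077057734) (nat_lit 45) (nat_lit 5) (nat_lit 46) (nat_lit 5) (nat_lit 47) (nat_lit 4) (nat_lit 398) (nat_lit 332) (nat_lit 290)) (XT.nd (nat_lit 78) (nat_lit 76) (nat_lit 0) (XT.lf (nat_lit 0) (nat_lit 7849055925) (nat_lit 228) (nat_lit 8880046488) (nat_lit 76) (nat_lit 5929579912) (nat_lit 42) (nat_lit 5) (nat_lit 45) (nat_lit 5) (nat_lit 43) (nat_lit 4) (nat_lit 399) (nat_lit 332) (nat_lit 289)) (XT.lf (nat_lit 0) (nat_lit 10117874739) (nat_lit 76) (nat_lit 7171175209) (nat_lit 152) (nat_lit 6189005076) (nat_lit 41) (nat_lit 5) (nat_lit 42) (nat_lit 5) (nat_lit 43) (nat_lit 4) (nat_lit 400) (nat_lit 332) (nat_lit 288)))))) (XT.nd (nat_lit 468)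 (nat_lit 532) (nat_lit 0) (XT.nd (nat_lit 234) (nat_lit 380) (nat_lit 0) (XT.nd (nat_lit 78) (nat_lit 76) (nat_lit 0) (XT.lf (nat_lit 0) (nat_lit 2885661571) (nat_lit 228) (nat_lit 18546275416) (nat_lit 76) (nat_lit 2903276041) (nat_lit 38) (nat_lit 5) (nat_lit 41) (nat_lit 5) (nat_lit 39) (nat_lit 4) (nat_lit 401) (nat_lit 332) (nat_lit 287)) (XT.nd (nat_lit 78) (nat_lit 0) (nat_lit 0) (XT.lf (nat_lit 0) (nat_lit 640592973) (nat_lit 76) (nat_lit 11768420338) (nat_lit 152) (nat_lit 12820696842) (nat_lit 37) (nat_lit 5) (nat_lit 38) (nat_lit 5) (nat_lit 39) (nat_lit 4) (nat_lit 402) (nat_lit 332) (nat_lit 286)) (XT.lf (nat_lit 0) (nat_lit 21000211889) (nat_lit 76) (nat_lit 1506448857) (nat_lit 152) (nat_lit 3659335202) (nat_lit 37) (nat_lit 5) (nat_lit 38) (nat_lit 5) (nat_lit 39) (nat_lit 4) (nat_lit 403) (nat_lit 332) (nat_lit 285)))) (XT.nd (nat_lit 78) (nat_lit 152) (nat_lit 0) (XT.lf (nat_lit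 0) (nat_lit 5992000211) (nat_lit 228) (nat_lit 11933632333) (nat_lit 76) (nat_lit 9217305545) (nat_lit 34) (nat_lit 5) (nat_lit 37) (nat_lit 5) (nat_lit 35) (nat_lit 4) (nat_lit 404) (nat_lit 332) (nat_lit 284)) (XT.nd (nat_lit 78) (nat_lit 76) (nat_lit 0) (XT.lf (nat_lit 0) (nat_lit 8492306351) (nat_lit 76) (nat_lit 7621859438) (nat_lit 152) (nat_lit 12051563038) (nat_lit 33) (nat_lit 5) (nat_lit 34) (nat_lit 5) (nat_lit 35) (nat_lit 4) (nat_lit 405) (nat_lit 332) (nat_lit 283)) (XT.lf (nat_lit 0) (nat_lit 774294108) (nat_lit 76) (nat_lit 26044977586) (nat_lit 76) (nat_lit 2418088865) (nat_lit 32) (nat_lit 4) (nat_lit 33) (nat_lit 5) (nat_lit 33) (nat_lit 4) (nat_lit 406) (nat_lit 332) (nat_lit 282))))) (XT.nd (nat_lit 234) (nat_lit 304) (nat_lit 0) (XT.nd (nat_lit 78) (nat_lit 152) (nat_lit 0) (XT.lf (nat_lit 0) (nat_lit 7744640470) (nat_lit 152) (nat_lit 8012753706) (nat_lit 76) (nat_lit 14597032610)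 (nat_lit 31) (nat_lit 5) (nat_lit 33) (nat_lit 5) (nat_lit 32) (nat_lit 4) (nat_lit 407) (nat_lit 332) (nat_lit 281)) (XT.nd (nat_lit 78) (nat_lit 76) (nat_lit 0) (XT.lf (nat_lit 0) (nat_lit 13548772370) (nat_lit 76) (nat_lit 4867736512) (nat_lit 152) (nat_lit 13108594479) (nat_lit 30) (nat_lit 5) (nat_lit 31) (nat_lit 5) (nat_lit 32) (nat_lit 4) (nat_lit 408) (nat_lit 332) (nat_lit 280)) (XT.lf (nat_lit 0) (nat_lit 3458937729) (nat_lit 76) (nat_lit 26264724967) (nat_lit 76) (nat_lit 3027605693) (nat_lit 29) (nat_lit 4) (nat_lit 30) (nat_lit 5) (nat_lit 30) (nat_lit 4) (nat_lit 409) (nat_lit 332) (nat_lit 279)))) (XT.nd (nat_lit 156) (nat_lit 152) (nat_lit 0) (XT.nd (nat_lit 78) (nat_lit 76) (nat_lit 0) (XT.lf (nat_lit 0) (nat_lit 7569566767) (nat_lit 152) (nat_lit 7961044081) (nat_lit 76) (nat_lit 18501168191) (nat_lit 28) (nat_lit 5) (nat_lit 30) (nat_lit 5) (nat_lit 29) (nat_lit 4) (nat_lit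 410) (nat_lit 332) (nat_lit 278)) (XT.lf (nat_lit 0) (nat_lit 14551276118) (nat_lit 76) (nat_lit 4150395530) (nat_lit 152) (nat_lit 16671718346) (nat_lit 27) (nat_lit 5) (nat_lit 28) (nat_lit 5) (nat_lit 29) (nat_lit 4) (nat_lit 411) (nat_lit 332) (nat_lit 277))) (XT.nd (nat_lit 78) (nat_lit 76) (nat_lit 0) (XT.lf (nat_lit 0) (nat_lit 1390872065) (nat_lit 76) (nat_lit 29099391187) (nat_lit 76) (nat_lit 6288826317) (nat_lit 26) (nat_lit 4) (nat_lit 27) (nat_lit 5) (nat_lit 27) (nat_lit 4) (nat_lit 412) (nat_lit 332) (nat_lit 276)) (XT.lf (nat_lit 0) (nat_lit 4711758552) (nat_lit 152) (nat_lit 13321297860) (nat_lit 76) (nat_lit 20215034478) (nat_lit 25) (nat_lit 5) (nat_lit 27) (nat_lit 5) (nat_lit 26) (nat_lit 4) (nat_lit 413) (nat_lit 332) (nat_lit 275))))))))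
noncomputable def xc35 : XT := (XT.nd (nat_lit 48516) (nat_lit 0) (nat_lit 6308) (XT.nd (nat_lit 936) (nat_lit 456) (nat_lit 0) (XT.nd (nat_lit 468) (nat_lit 380) (nat_lit 0) (XT.nd (nat_lit 234) (nat_lit 152) (nat_lit 0) (XT.nd (nat_lit 78) (nat_lit 76) (nat_lit 0) (XT.lf (nat_lit 0) (nat_lit 9850158364) (nat_lit 76) (nat_lit 6311579962) (nat_lit 152) (nat_lit 23626057112) (nat_lit 24) (nat_lit 5) (nat_lit 25) (nat_lit 5) (nat_lit 26) (nat_lit 4) (nat_lit 414) (nat_lit 332) (nat_lit 274)) (XT.nd (nat_lit 78) (nat_lit 76) (nat_lit 0) (XT.lf (nat_lit 0) (nat_lit 28315279402) (nat_lit 152) (nat_lit 7126060908) (nat_lit 0) (nat_lit 5959216823) (nat_lit 24) (nat_lit 5) (nat_lit 26) (nat_lit 4) (nat_lit 24) (nat_lit 4) (nat_lit 415) (nat_lit 332) (nat_lit 273)) (XT.lf (nat_lit 0) (nat_lit 16974326384) (nat_lit 76) (nat_lit 24267077952) (nat_lit 76) (nat_lit 1847608978) (nat_lit 23) (nat_lit 4) (nat_lit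 24) (nat_lit 5) (nat_lit 24) (nat_lit 4) (nat_lit 416) (nat_lit 332) (nat_lit 272)))) (XT.nd (nat_lit 78) (nat_lit 76) (nat_lit 0) (XT.lf (nat_lit 0) (nat_lit 9771100828) (nat_lit 152) (nat_lit 2644521335) (nat_lit 76) (nat_lit 32443002875) (nat_lit 22) (nat_lit 5) (nat_lit 24) (nat_lit 5) (nat_lit 23) (nat_lit 4) (nat_lit 417) (nat_lit 332) (nat_lit 271)) (XT.nd (nat_lit 78) (nat_lit 0) (nat_lit 0) (XT.lf (nat_lit 0) (nat_lit 22091521191) (nat_lit 152) (nat_lit 24409299063) (nat_lit 0) (nat_lit 210581883) (nat_lit 21) (nat_lit 5) (nat_lit 23) (nat_lit 4) (nat_lit 21) (nat_lit 4) (nat_lit 418) (nat_lit 332) (nat_lit 270)) (XT.lf (nat_lit 0) (nat_lit 35124144999) (nat_lit 152) (nat_lit 339762455) (nat_lit 0) (nat_lit 13190028188) (nat_lit 21) (nat_lit 5) (nat_lit 23) (nat_lit 4) (nat_lit 21) (nat_lit 4) (nat_lit 419) (nat_lit 332) (nat_lit 269))))) (XT.nd (nat_lit 234) (nat_lit 152) (nat_lit 0)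 (XT.nd (nat_lit 78) (nat_lit 152) (nat_lit 0) (XT.lf (nat_lit 0) (nat_lit 25323111276) (nat_lit 76) (nat_lit 23674782336) (nat_lit 76) (nat_lit 1690020284) (nat_lit 20) (nat_lit 4) (nat_lit 21) (nat_lit 5) (nat_lit 21) (nat_lit 4) (nat_lit 420) (nat_lit 332) (nat_lit 268)) (XT.nd (nat_lit 78) (nat_lit 76) (nat_lit 0) (XT.lf (nat_lit 0) (nat_lit 10482806569) (nat_lit 152) (nat_lit 752898278) (nat_lit 76) (nat_lit 41586270854) (nat_lit 19) (nat_lit 5) (nat_lit 21) (nat_lit 5) (nat_lit 20) (nat_lit 4) (nat_lit 421) (nat_lit 332) (nat_lit 267)) (XT.lf (nat_lit 0) (nat_lit 23443849942) (nat_lit 152) (nat_lit 29603962084) (nat_lit 0) (nat_lit 2007993300) (nat_lit 18) (nat_lit 5) (nat_lit 20) (nat_lit 4) (nat_lit 18) (nat_lit 4) (nat_lit 422) (nat_lit 332) (nat_lit 266)))) (XT.nd (nat_lit 78) (nat_lit 152) (nat_lit 0) (XT.lf (nat_lit 0) (nat_lit 37124886316) (nat_lit 152) (nat_lit 4627729647) (nat_lit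 0) (nat_lit 15646554661) (nat_lit 18) (nat_lit 5) (nat_lit 20) (nat_lit 4) (nat_lit 18) (nat_lit 4) (nat_lit 423) (nat_lit 332) (nat_lit 265)) (XT.nd (nat_lit 78) (nat_lit 76) (nat_lit 0) (XT.lf (nat_lit 0) (nat_lit 21934177312) (nat_lit 76) (nat_lit 29719698099) (nat_lit 76) (nat_lit 8200914050) (nat_lit 17) (nat_lit 4) (nat_lit 18) (nat_lit 5) (nat_lit 18) (nat_lit 4) (nat_lit 424) (nat_lit 332) (nat_lit 264)) (XT.lf (nat_lit 0) (nat_lit 4390876733) (nat_lit 152) (nat_lit 12643830369) (nat_lit 76) (nat_lit 45397130527) (nat_lit 16) (nat_lit 5) (nat_lit 18) (nat_lit 5) (nat_lit 17) (nat_lit 4) (nat_lit 425) (nat_lit 332) (nat_lit 263)))))) (XT.nd (nat_lit 468) (nat_lit 152) (nat_lit 0) (XT.nd (nat_lit 234) (nat_lit 152) (nat_lit 0) (XT.nd (nat_lit 78) (nat_lit 76) (nat_lit 0) (XT.lf (nat_lit 0) (nat_lit 14002050047) (nat_lit 76) (nat_lit 3532950789) (nat_lit 152) (nat_lit 47597532944) (nat_lit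 15) (nat_lit 5) (nat_lit 16) (nat_lit 5) (nat_lit 17) (nat_lit 4) (nat_lit 426) (nat_lit 332) (nat_lit 262)) (XT.nd (nat_lit 78) (nat_lit 76) (nat_lit 0) (XT.lf (nat_lit 0) (nat_lit 31527175462) (nat_lit 152) (nat_lit 25907167064) (nat_lit 0) (nat_lit 10528198812) (nat_lit 15) (nat_lit 5) (nat_lit 17) (nat_lit 4) (nat_lit 15) (nat_lit 4) (nat_lit 427) (nat_lit 332) (nat_lit 261)) (XT.lf (nat_lit 0) (nat_lit 471188142) (nat_lit 76) (nat_lit 45747085565) (nat_lit 76) (nat_lit 24715797959) (nat_lit 14) (nat_lit 4) (nat_lit 15) (nat_lit 5) (nat_lit 15) (nat_lit 4) (nat_lit 428) (nat_lit 332) (nat_lit 260)))) (XT.nd (nat_lit 78) (nat_lit 152) (nat_lit 0) (XT.lf (nat_lit 0) (nat_lit 28632465281) (nat_lit 76) (nat_lit 33238482153) (nat_lit 76) (nat_lit 12176422209) (nat_lit 14) (nat_lit 4) (nat_lit 15) (nat_lit 5) (nat_lit 15) (nat_lit 4) (nat_lit 429) (nat_lit 332) (nat_lit 259)) (XT.nd (nat_lit 78)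 (nat_lit 76) (nat_lit 0) (XT.lf (nat_lit 0) (nat_lit 932447899) (nat_lit 152) (nat_lit 19198497697) (nat_lit 76) (nat_lit 57186247795) (nat_lit 13) (nat_lit 5) (nat_lit 15) (nat_lit 5) (nat_lit 14) (nat_lit 4) (nat_lit 430) (nat_lit 332) (nat_lit 258)) (XT.lf (nat_lit 0) (nat_lit 8296820365) (nat_lit 76) (nat_lit 6193868657) (nat_lit 152) (nat_lit 66254831448) (nat_lit 12) (nat_lit 5) (nat_lit 13) (nat_lit 5) (nat_lit 14) (nat_lit 4) (nat_lit 431) (nat_lit 332) (nat_lit 257))))) (XT.nd (nat_lit 234) (nat_lit 76) (nat_lit 0) (XT.nd (nat_lit 78) (nat_lit 76) (nat_lit 0) (XT.lf (nat_lit 0) (nat_lit 28971966497) (nat_lit 152) (nat_lit 46923940448) (nat_lit 0) (nat_lit 8442004697) (nat_lit 12) (nat_lit 5) (nat_lit 14) (nat_lit 4) (nat_lit 12) (nat_lit 4) (nat_lit 432) (nat_lit 332) (nat_lit 256)) (XT.nd (nat_lit 78) (nat_lit 76) (nat_lit 0) (XT.lf (nat_lit 0) (nat_lit 44205923979) (nat_lit 152) (nat_lit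 20251758235) (nat_lit 0) (nat_lit 23651383073) (nat_lit 12) (nat_lit 5) (nat_lit 14) (nat_lit 4) (nat_lit 12) (nat_lit 4) (nat_lit 433) (nat_lit 332) (nat_lit 255)) (XT.lf (nat_lit 0) (nat_lit 7843954793) (nat_lit 76) (nat_lit 52400739639) (nat_lit 76) (nat_lit 31822790061) (nat_lit 11) (nat_lit 4) (nat_lit 12) (nat_lit 5) (nat_lit 12) (nat_lit 4) (nat_lit 434) (nat_lit 332) (nat_lit 254)))) (XT.nd (nat_lit 156) (nat_lit 76) (nat_lit 0) (XT.nd (nat_lit 78) (nat_lit 0) (nat_lit 0) (XT.lf (nat_lit 0) (nat_lit 37706323508) (nat_lit 76) (nat_lit 39556215946) (nat_lit 76) (nat_lit 18955972394) (nat_lit 11) (nat_lit 4) (nat_lit 12) (nat_lit 5) (nat_lit 12) (nat_lit 4) (nat_lit 435) (nat_lit 332) (nat_lit 253)) (XT.lf (nat_lit 0) (nat_lit 69003399087) (nat_lit 76) (nat_lit 26098031983) (nat_lit 76) (nat_lit 5476556075) (nat_lit 11) (nat_lit 4) (nat_lit 12) (nat_lit 5) (nat_lit 12) (nat_lit 4) (nat_lit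 436) (nat_lit 332) (nat_lit 252))) (XT.nd (nat_lit 46644) (nat_lit 0) (nat_lit 21432) (XT.lf (nat_lit 0) (nat_lit 8478807840) (nat_lit 152) (nat_lit 3429717282) (nat_lit 76) (nat_lit 93245271203) (nat_lit 10) (nat_lit 5) (nat_lit 12) (nat_lit 5) (nat_lit 11) (nat_lit 4) (nat_lit 437) (nat_lit 332) (nat_lit 251)) (XT.lf (nat_lit 0) (nat_lit 3292428159) (nat_lit 988) (nat_lit 109683897) (nat_lit 988) (nat_lit 109683897) (nat_lit 292) (nat_lit 4) (nat_lit 305) (nat_lit 5) (nat_lit 305) (nat_lit 4) (nat_lit 354) (nat_lit 333) (nat_lit 333))))))) (XT.nd (nat_lit 936) (nat_lit 5016) (nat_lit 0) (XT.nd (nat_lit 468) (nat_lit 3420) (nat_lit 0) (XT.nd (nat_lit 234) (nat_lit 2432) (nat_lit 0) (XT.nd (nat_lit 78) (nat_lit 1976) (nat_lit 0) (XT.lf (nat_lit 0) (nat_lit 776905584) (nat_lit 1140) (nat_lit 4604506649) (nat_lit 1140) (nat_lit 1729705902) (nat_lit 262) (nat_lit 4) (nat_lit 277) (nat_lit 5) (nat_lit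 277) (nat_lit 4) (nat_lit 355) (nat_lit 333) (nat_lit 332)) (XT.nd (nat_lit 78) (nat_lit 684) (nat_lit 0) (XT.lf (nat_lit 0) (nat_lit 2107915423) (nat_lit 1216) (nat_lit 1695346470) (nat_lit 1292) (nat_lit 3403846168) (nat_lit 245) (nat_lit 5) (nat_lit 261) (nat_lit 5) (nat_lit 262) (nat_lit 4) (nat_lit 356) (nat_lit 333) (nat_lit 331)) (XT.lf (nat_lit 0) (nat_lit 2070559246) (nat_lit 684) (nat_lit 3777575643) (nat_lit 76) (nat_lit 1463380248) (nat_lit 236) (nat_lit 5) (nat_lit 245) (nat_lit 5) (nat_lit 237) (nat_lit 4) (nat_lit 357) (nat_lit 333) (nat_lit 330)))) (XT.nd (nat_lit 78) (nat_lit 1748) (nat_lit 0) (XT.lf (nat_lit 0) (nat_lit 180344720) (nat_lit 684) (nat_lit 2373027872) (nat_lit 76) (nat_lit 4871035832) (nat_lit 227) (nat_lit 5) (nat_lit 236) (nat_lit 5) (nat_lit 228) (nat_lit 5) (nat_lit 358) (nat_lit 333) (nat_lit 329)) (XT.nd (nat_lit 78) (nat_lit 1140) (nat_lit 0) (XT.lf (nat_lit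 0) (nat_lit 5626535998) (nat_lit 684) (nat_lit 896636875) (nat_lit 76) (nat_lit 1022473408) (nat_lit 219) (nat_lit 5) (nat_lit 228) (nat_lit 5) (nat_lit 220) (nat_lit 4) (nat_lit 359) (nat_lit 333) (nat_lit 328)) (XT.lf (nat_lit 0) (nat_lit 663494455) (nat_lit 532) (nat_lit 2829985820) (nat_lit 608) (nat_lit 4181729295) (nat_lit 204) (nat_lit 5) (nat_lit 211) (nat_lit 5) (nat_lit 212) (nat_lit 5) (nat_lit 360) (nat_lit 333) (nat_lit 327))))) (XT.nd (nat_lit 234) (nat_lit 1824) (nat_lit 0) (XT.nd (nat_lit 78) (nat_lit 1064) (nat_lit 0) (XT.lf (nat_lit 0) (nat_lit 1190191478) (nat_lit 532) (nat_lit 5483245601) (nat_lit 76) (nat_lit 1140274381) (nat_lit 197) (nat_lit 5) (nat_lit 204) (nat_lit 5) (nat_lit 198) (nat_lit 5) (nat_lit 361) (nat_lit 333) (nat_lit 326)) (XT.nd (nat_lit 78) (nat_lit 532) (nat_lit 0) (XT.lf (nat_lit 0) (nat_lit 4055636661) (nat_lit 532) (nat_lit 2596793681) (nat_lit 608)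 (nat_lit 1308320060) (nat_lit 190) (nat_lit 5) (nat_lit 197) (nat_lit 5) (nat_lit 198) (nat_lit 5) (nat_lit 362) (nat_lit 333) (nat_lit 325)) (XT.lf (nat_lit 0) (nat_lit 4093009193) (nat_lit 532) (nat_lit 2267032522) (nat_lit 76) (nat_lit 1756847822) (nat_lit 183) (nat_lit 5) (nat_lit 190) (nat_lit 5) (nat_lit 184) (nat_lit 5) (nat_lit 363) (nat_lit 333) (nat_lit 324)))) (XT.nd (nat_lit 78) (nat_lit 1292) (nat_lit 0) (XT.lf (nat_lit 0) (nat_lit 1349803787) (nat_lit 532) (nat_lit 566593684) (nat_lit 76) (nat_lit 6366075121) (nat_lit 176) (nat_lit 5) (nat_lit 183) (nat_lit 5) (nat_lit 177) (nat_lit 5) (nat_lit 364) (nat_lit 333) (nat_lit 323)) (XT.nd (nat_lit 78) (nat_lit 456) (nat_lit 0) (XT.lf (nat_lit 0) (nat_lit 1202898267) (nat_lit 456) (nat_lit 5648796101) (nat_lit 532) (nat_lit 1605244584) (nat_lit 165) (nat_lit 5) (nat_lit 171) (nat_lit 5) (nat_lit 172) (nat_lit 5) (nat_lit 365) (nat_lit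 333) (nat_lit 322)) (XT.lf (nat_lit 0) (nat_lit 3037982722) (nat_lit 380) (nat_lit 808119380) (nat_lit 456) (nat_lit 4794890329) (nat_lit 159) (nat_lit 5) (nat_lit 164) (nat_lit 5) (nat_lit 165) (nat_lit 5) (nat_lit 366) (nat_lit 333) (nat_lit 321)))))) (XT.nd (nat_lit 468) (nat_lit 2280) (nat_lit 0) (XT.nd (nat_lit 234) (nat_lit 1444) (nat_lit 0) (XT.nd (nat_lit 78) (nat_lit 836) (nat_lit 0) (XT.lf (nat_lit 0) (nat_lit 648571149) (nat_lit 456) (nat_lit 3916674011) (nat_lit 76) (nat_lit 4269616329) (nat_lit 153) (nat_lit 5) (nat_lit 159) (nat_lit 5) (nat_lit 154) (nat_lit 5) (nat_lit 367) (nat_lit 333) (nat_lit 320)) (XT.nd (nat_lit 78) (nat_lit 456) (nat_lit 0) (XT.lf (nat_lit 0) (nat_lit 6205134897) (nat_lit 456) (nat_lit 2196536476) (nat_lit 76) (nat_lit 637192022) (nat_lit 148) (nat_lit 5) (nat_lit 154) (nat_lit 5) (nat_lit 149) (nat_lit 5) (nat_lit 368) (nat_lit 333) (nat_lit 319)) (XT.lf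 (nat_lit 0) (nat_lit 2710348764) (nat_lit 456) (nat_lit 456246106) (nat_lit 76) (nat_lit 6086380596) (nat_lit 142) (nat_lit 5) (nat_lit 148) (nat_lit 5) (nat_lit 143) (nat_lit 5) (nat_lit 369) (nat_lit 333) (nat_lit 318)))) (XT.nd (nat_lit 78) (nat_lit 760) (nat_lit 0) (XT.lf (nat_lit 0) (nat_lit 1348195882) (nat_lit 380) (nat_lit 7100074935) (nat_lit 456) (nat_lit 1029481749) (nat_lit 133) (nat_lit 5) (nat_lit 138) (nat_lit 5) (nat_lit 139) (nat_lit 5) (nat_lit 370) (nat_lit 333) (nat_lit 317)) (XT.nd (nat_lit 78) (nat_lit 380) (nat_lit 0) (XT.lf (nat_lit 0) (nat_lit 3170623341) (nat_lit 304) (nat_lit 1477019615) (nat_lit 380) (nat_lit 5065371384) (nat_lit 128) (nat_lit 5) (nat_lit 132) (nat_lit 5) (nat_lit 133) (nat_lit 5) (nat_lit 371) (nat_lit 333) (nat_lit 316)) (XT.lf (nat_lit 0) (nat_lit 609269671) (nat_lit 380) (nat_lit 4943444172) (nat_lit 76) (nat_lit 4407071115) (nat_lit 123) (nat_lit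 5) (nat_lit 128) (nat_lit 5) (nat_lit 124) (nat_lit 5) (nat_lit 372) (nat_lit 333) (nat_lit 315))))) (XT.nd (nat_lit 234) (nat_lit 1368) (nat_lit 0) (XT.nd (nat_lit 78) (nat_lit 608) (nat_lit 0) (XT.lf (nat_lit 0) (nat_lit 6439897700) (nat_lit 380) (nat_lit 3347915504) (nat_lit 76) (nat_lit 430313561) (nat_lit 119) (nat_lit 5) (nat_lit 124) (nat_lit 5) (nat_lit 120) (nat_lit 5) (nat_lit 373) (nat_lit 333) (nat_lit 314)) (XT.nd (nat_lit 78) (nat_lit 228) (nat_lit 0) (XT.lf (nat_lit 0) (nat_lit 2051777473) (nat_lit 380) (nat_lit 1767411765) (nat_lit 76) (nat_lit 6669056240) (nat_lit 114) (nat_lit 5) (nat_lit 119) (nat_lit 5) (nat_lit 115) (nat_lit 5) (nat_lit 374) (nat_lit 333) (nat_lit 313)) (XT.lf (nat_lit 0) (nat_lit 8088975652) (nat_lit 304) (nat_lit 193876237) (nat_lit 76) (nat_lit 2488123036) (nat_lit 111) (nat_lit 5) (nat_lit 115) (nat_lit 5) (nat_lit 112) (nat_lit 5) (nat_lit 375) (nat_lit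 333) (nat_lit 312)))) (XT.nd (nat_lit 156) (nat_lit 532) (nat_lit 0) (XT.nd (nat_lit 78) (nat_lit 228) (nat_lit 0) (XT.lf (nat_lit 0) (nat_lit 1384966797) (nat_lit 228) (nat_lit 1936466455) (nat_lit 304) (nat_lit 7744673098) (nat_lit 103) (nat_lit 5) (nat_lit 106) (nat_lit 5) (nat_lit 107) (nat_lit 5) (nat_lit 376) (nat_lit 333) (nat_lit 311)) (XT.lf (nat_lit 0) (nat_lit 2936816816) (nat_lit 228) (nat_lit 6660166246) (nat_lit 304) (nat_lit 1777429204) (nat_lit 100) (nat_lit 5) (nat_lit 103) (nat_lit 5) (nat_lit 104) (nat_lit 5) (nat_lit 377) (nat_lit 333) (nat_lit 310))) (XT.nd (nat_lit 78) (nat_lit 228) (nat_lit 0) (XT.lf (nat_lit 0) (nat_lit 4405096378) (nat_lit 304) (nat_lit 7236720205) (nat_lit 76) (nat_lit 54921778) (nat_lit 96) (nat_lit 5) (nat_lit 100) (nat_lit 5) (nat_lit 97) (nat_lit 5) (nat_lit 378) (nat_lit 333) (nat_lit 309)) (XT.lf (nat_lit 0) (nat_lit 5923786162) (nat_lit 228) (nat_lit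 4993602611) (nat_lit 304) (nat_lit 1115574570) (nat_lit 93) (nat_lit 5) (nat_lit 96) (nat_lit 5) (nat_lit 97) (nat_lit 5) (nat_lit 379) (nat_lit 333) (nat_lit 308))))))))
noncomputable def xc36 : XT := (XT.nd (nat_lit 1872) (nat_lit 1672) (nat_lit 0) (XT.nd (nat_lit 936) (nat_lit 1672) (nat_lit 0) (XT.nd (nat_lit 468) (nat_lit 1140) (nat_lit 0) (XT.nd (nat_lit 234) (nat_lit 684) (nat_lit 0) (XT.nd (nat_lit 78) (nat_lit 456) (nat_lit 0) (XT.lf (nat_lit 0) (nat_lit 5279246461) (nat_lit 304) (nat_lit 5051719014) (nat_lit 76) (nat_lit 2053074067) (nat_lit 89) (nat_lit 5) (nat_lit 93) (nat_lit 5) (nat_lit 90) (nat_lit 5) (nat_lit 380) (nat_lit 333) (nat_lit 307)) (XT.nd (nat_lit 78) (nat_lit 228) (nat_lit 0) (XT.lf (nat_lit 0) (nat_lit 8685708838) (nat_lit 228) (nat_lit 3335313357) (nat_lit 304) (nat_lit 729836096) (nat_lit 86) (nat_lit 5) (nat_lit 89) (nat_lit 5) (nat_lit 90) (nat_lit 5) (nat_lit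 381) (nat_lit 333) (nat_lit 306)) (XT.lf (nat_lit 0) (nat_lit 5891546104) (nat_lit 228) (nat_lit 3196039462) (nat_lit 76) (nat_lit 4045417444) (nat_lit 83) (nat_lit 5) (nat_lit 86) (nat_lit 5) (nat_lit 84) (nat_lit 5) (nat_lit 382) (nat_lit 333) (nat_lit 305)))) (XT.nd (nat_lit 78) (nat_lit 456) (nat_lit 0) (XT.lf (nat_lit 0) (nat_lit 11130296347) (nat_lit 228) (nat_lit 1741340623) (nat_lit 304) (nat_lit 661144441) (nat_lit 80) (nat_lit 5) (nat_lit 83) (nat_lit 5) (nat_lit 84) (nat_lit 5) (nat_lit 383) (nat_lit 333) (nat_lit 304)) (XT.nd (nat_lit 78) (nat_lit 228) (nat_lit 0) (XT.lf (nat_lit 0) (nat_lit 6198446732) (nat_lit 228) (nat_lit 1774981512) (nat_lit 76) (nat_lit 5975176355) (nat_lit 77) (nat_lit 5) (nat_lit 80) (nat_lit 5) (nat_lit 78) (nat_lit 5) (nat_lit 384) (nat_lit 333) (nat_lit 303)) (XT.lf (nat_lit 0) (nat_lit 13147318963) (nat_lit 228) (nat_lit 275333879) (nat_lit 304) (nat_lit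 961332685) (nat_lit 74) (nat_lit 5) (nat_lit 77) (nat_lit 5) (nat_lit 78) (nat_lit 5) (nat_lit 385) (nat_lit 333) (nat_lit 302))))) (XT.nd (nat_lit 234) (nat_lit 532) (nat_lit 0) (XT.nd (nat_lit 78) (nat_lit 380) (nat_lit 0) (XT.lf (nat_lit 0) (nat_lit 6145058499) (nat_lit 228) (nat_lit 914036516) (nat_lit 76) (nat_lit 7777328713) (nat_lit 71) (nat_lit 5) (nat_lit 74) (nat_lit 5) (nat_lit 72) (nat_lit 5) (nat_lit 386) (nat_lit 333) (nat_lit 301)) (XT.nd (nat_lit 78) (nat_lit 228) (nat_lit 0) (XT.lf (nat_lit 0) (nat_lit 13625032782) (nat_lit 228) (nat_lit 714896660) (nat_lit 76) (nat_lit 970144063) (nat_lit 69) (nat_lit 5) (nat_lit 72) (nat_lit 5) (nat_lit 70) (nat_lit 4) (nat_lit 387) (nat_lit 333) (nat_lit 300)) (XT.lf (nat_lit 0) (nat_lit 5663333773) (nat_lit 228) (nat_lit 762864317) (nat_lit 76) (nat_lit 9376517998) (nat_lit 66) (nat_lit 5) (nat_lit 69) (nat_lit 5) (nat_lit 67) (nat_lit 5)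 (nat_lit 388) (nat_lit 333) (nat_lit 299)))) (XT.nd (nat_lit 78) (nat_lit 380) (nat_lit 0) (XT.lf (nat_lit 0) (nat_lit 13396688913) (nat_lit 228) (nat_lit 991777488) (nat_lit 76) (nat_lit 1929468796) (nat_lit 64) (nat_lit 5) (nat_lit 67) (nat_lit 5) (nat_lit 65) (nat_lit 4) (nat_lit 389) (nat_lit 333) (nat_lit 298)) (XT.nd (nat_lit 78) (nat_lit 152) (nat_lit 0) (XT.lf (nat_lit 0) (nat_lit 4669901802) (nat_lit 228) (nat_lit 1499940227) (nat_lit 76) (nat_lit 10684656090) (nat_lit 61) (nat_lit 5) (nat_lit 64) (nat_lit 5) (nat_lit 62) (nat_lit 5) (nat_lit 390) (nat_lit 333) (nat_lit 297)) (XT.lf (nat_lit 0) (nat_lit 12645297392) (nat_lit 228) (nat_lit 2259501261) (nat_lit 76) (nat_lit 2510284838) (nat_lit 59) (nat_lit 5) (nat_lit 62) (nat_lit 5) (nat_lit 60) (nat_lit 4) (nat_lit 391) (nat_lit 333) (nat_lit 296)))))) (XT.nd (nat_lit 468) (nat_lit 684) (nat_lit 0) (XT.nd (nat_lit 234) (nat_lit 456)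 (nat_lit 0) (XT.nd (nat_lit 78) (nat_lit 304) (nat_lit 0) (XT.lf (nat_lit 0) (nat_lit 3063497972) (nat_lit 228) (nat_lit 3337991037) (nat_lit 76) (nat_lit 11598156021) (nat_lit 56) (nat_lit 5) (nat_lit 59) (nat_lit 5) (nat_lit 57) (nat_lit 5) (nat_lit 392) (nat_lit 333) (nat_lit 295)) (XT.nd (nat_lit 78) (nat_lit 152) (nat_lit 0) (XT.lf (nat_lit 0) (nat_lit 11262005037) (nat_lit 228) (nat_lit 4750225231) (nat_lit 76) (nat_lit 2597634818) (nat_lit 54) (nat_lit 5) (nat_lit 57) (nat_lit 5) (nat_lit 55) (nat_lit 4) (nat_lit 393) (nat_lit 333) (nat_lit 294)) (XT.lf (nat_lit 0) (nat_lit 721921012) (nat_lit 152) (nat_lit 6530359174) (nat_lit 76) (nat_lit 11994724319) (nat_lit 52) (nat_lit 5) (nat_lit 54) (nat_lit 5) (nat_lit 53) (nat_lit 5) (nat_lit 394) (nat_lit 333) (nat_lit 293)))) (XT.nd (nat_lit 78) (nat_lit 304) (nat_lit 0) (XT.lf (nat_lit 0) (nat_lit 9115485965) (nat_lit 228) (nat_lit 8740311749)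 (nat_lit 76) (nat_lit 2055864622) (nat_lit 50) (nat_lit 5) (nat_lit 53) (nat_lit 5) (nat_lit 51) (nat_lit 4) (nat_lit 395) (nat_lit 333) (nat_lit 292)) (XT.nd (nat_lit 78) (nat_lit 228) (nat_lit 0) (XT.lf (nat_lit 0) (nat_lit 9202810218) (nat_lit 76) (nat_lit 8851636316) (nat_lit 152) (nat_lit 2551346213) (nat_lit 49) (nat_lit 5) (nat_lit 50) (nat_lit 5) (nat_lit 51) (nat_lit 4) (nat_lit 396) (nat_lit 333) (nat_lit 291)) (XT.lf (nat_lit 0) (nat_lit 6048051193) (nat_lit 228) (nat_lit 14558396942) (nat_lit 76) (nat_lit 724587036) (nat_lit 46) (nat_lit 5) (nat_lit 49) (nat_lit 5) (nat_lit 47) (nat_lit 4) (nat_lit 397) (nat_lit 333) (nat_lit 290))))) (XT.nd (nat_lit 234) (nat_lit 380) (nat_lit 0) (XT.nd (nat_lit 78) (nat_lit 228) (nat_lit 0) (XT.lf (nat_lit 0) (nat_lit 3780432537) (nat_lit 76) (nat_lit 11389572030) (nat_lit 152) (nat_lit 6917426639) (nat_lit 45) (nat_lit 5) (nat_lit 46) (nat_lit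 5) (nat_lit 47) (nat_lit 4) (nat_lit 398) (nat_lit 333) (nat_lit 289)) (XT.nd (nat_lit 78) (nat_lit 0) (nat_lit 0) (XT.lf (nat_lit 0) (nat_lit 269023310) (nat_lit 152) (nat_lit 1617590763) (nat_lit 228) (nat_lit 20992805091) (nat_lit 42) (nat_lit 5) (nat_lit 44) (nat_lit 5) (nat_lit 45) (nat_lit 5) (nat_lit 399) (nat_lit 333) (nat_lit 288)) (XT.lf (nat_lit 0) (nat_lit 11167393833) (nat_lit 228) (nat_lit 3880695448) (nat_lit 76) (nat_lit 8655483249) (nat_lit 42) (nat_lit 5) (nat_lit 45) (nat_lit 5) (nat_lit 43) (nat_lit 4) (nat_lit 400) (nat_lit 333) (nat_lit 287)))) (XT.nd (nat_lit 78) (nat_lit 304) (nat_lit 0) (XT.lf (nat_lit 0) (nat_lit 15911089209) (nat_lit 76) (nat_lit 5079795447) (nat_lit 152) (nat_lit 3575697026) (nat_lit 41) (nat_lit 5) (nat_lit 42) (nat_lit 5) (nat_lit 43) (nat_lit 4) (nat_lit 401) (nat_lit 333) (nat_lit 286)) (XT.nd (nat_lit 78) (nat_lit 76) (nat_lit 0) (XT.lf (nat_lit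 0) (nat_lit 5832297114) (nat_lit 228) (nat_lit 14221767130) (nat_lit 76) (nat_lit 5413603421) (nat_lit 38) (nat_lit 5) (nat_lit 41) (nat_lit 5) (nat_lit 39) (nat_lit 4) (nat_lit 402) (nat_lit 333) (nat_lit 285)) (XT.lf (nat_lit 0) (nat_lit 5773902253) (nat_lit 76) (nat_lit 9973505454) (nat_lit 152) (nat_lit 10662025415) (nat_lit 37) (nat_lit 5) (nat_lit 38) (nat_lit 5) (nat_lit 39) (nat_lit 4) (nat_lit 403) (nat_lit 333) (nat_lit 284))))))) (XT.nd (nat_lit 936) (nat_lit 684) (nat_lit 0) (XT.nd (nat_lit 468) (nat_lit 456) (nat_lit 0) (XT.nd (nat_lit 234) (nat_lit 228) (nat_lit 0) (XT.nd (nat_lit 78) (nat_lit 304) (nat_lit 0) (XT.lf (nat_lit 0) (nat_lit 26227125795) (nat_lit 152) (nat_lit 494456796) (nat_lit 0) (nat_lit 674645644) (nat_lit 37) (nat_lit 5) (nat_lit 39) (nat_lit 4) (nat_lit 37) (nat_lit 4) (nat_lit 404) (nat_lit 333) (nat_lit 283)) (XT.nd (nat_lit 78) (nat_lit 76) (nat_lit 0) (XT.lf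 (nat_lit 0) (nat_lit 8848789563) (nat_lit 228) (nat_lit 7705682517) (nat_lit 76) (nat_lit 11868699777) (nat_lit 34) (nat_lit 5) (nat_lit 37) (nat_lit 5) (nat_lit 35) (nat_lit 4) (nat_lit 405) (nat_lit 333) (nat_lit 282)) (XT.lf (nat_lit 0) (nat_lit 13603256010) (nat_lit 76) (nat_lit 5797084401) (nat_lit 152) (nat_lit 10099072812) (nat_lit 33) (nat_lit 5) (nat_lit 34) (nat_lit 5) (nat_lit 35) (nat_lit 4) (nat_lit 406) (nat_lit 333) (nat_lit 281)))) (XT.nd (nat_lit 78) (nat_lit 152) (nat_lit 0) (XT.lf (nat_lit 0) (nat_lit 5416877574) (nat_lit 76) (nat_lit 25170156227) (nat_lit 76) (nat_lit 39211731) (nat_lit 32) (nat_lit 4) (nat_lit 33) (nat_lit 5) (nat_lit 33) (nat_lit 4) (nat_lit 407) (nat_lit 333) (nat_lit 280)) (XT.nd (nat_lit 78) (nat_lit 76) (nat_lit 0) (XT.lf (nat_lit 0) (nat_lit 10466159955) (nat_lit 152) (nat_lit 3982131976) (nat_lit 76) (nat_lit 17353661967) (nat_lit 31) (nat_lit 5) (nat_lit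 33) (nat_lit 5) (nat_lit 32) (nat_lit 4) (nat_lit 408) (nat_lit 333) (nat_lit 279)) (XT.lf (nat_lit 0) (nat_lit 18530449242) (nat_lit 76) (nat_lit 3071390971) (nat_lit 152) (nat_lit 11431425421) (nat_lit 30) (nat_lit 5) (nat_lit 31) (nat_lit 5) (nat_lit 32) (nat_lit 4) (nat_lit 409) (nat_lit 333) (nat_lit 278))))) (XT.nd (nat_lit 234) (nat_lit 228) (nat_lit 0) (XT.nd (nat_lit 78) (nat_lit 152) (nat_lit 0) (XT.lf (nat_lit 0) (nat_lit 7859838649) (nat_lit 76) (nat_lit 25565994618) (nat_lit 76) (nat_lit 896368712) (nat_lit 29) (nat_lit 4) (nat_lit 30) (nat_lit 5) (nat_lit 30) (nat_lit 4) (nat_lit 410) (nat_lit 333) (nat_lit 277)) (XT.nd (nat_lit 78) (nat_lit 76) (nat_lit 0) (XT.lf (nat_lit 0) (nat_lit 10079545278) (nat_lit 152) (nat_lit 4289913476) (nat_lit 76) (nat_lit 21299825344) (nat_lit 28) (nat_lit 5) (nat_lit 30) (nat_lit 5) (nat_lit 29) (nat_lit 4) (nat_lit 411) (nat_lit 333) (nat_lit 276))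 (XT.lf (nat_lit 0) (nat_lit 19231380425) (nat_lit 76) (nat_lit 2473369208) (nat_lit 152) (nat_lit 15375137756) (nat_lit 27) (nat_lit 5) (nat_lit 28) (nat_lit 5) (nat_lit 29) (nat_lit 4) (nat_lit 412) (nat_lit 333) (nat_lit 275)))) (XT.nd (nat_lit 78) (nat_lit 152) (nat_lit 0) (XT.lf (nat_lit 0) (nat_lit 5342451209) (nat_lit 76) (nat_lit 28696412955) (nat_lit 76) (nat_lit 4518331276) (nat_lit 26) (nat_lit 4) (nat_lit 27) (nat_lit 5) (nat_lit 27) (nat_lit 4) (nat_lit 413) (nat_lit 333) (nat_lit 274)) (XT.nd (nat_lit 78) (nat_lit 76) (nat_lit 0) (XT.lf (nat_lit 0) (nat_lit 6894252898) (nat_lit 152) (nat_lit 10251322311) (nat_lit 76) (nat_lit 22956396551) (nat_lit 25) (nat_lit 5) (nat_lit 27) (nat_lit 5) (nat_lit 26) (nat_lit 4) (nat_lit 414) (nat_lit 333) (nat_lit 273)) (XT.lf (nat_lit 0) (nat_lit 13971613876) (nat_lit 76) (nat_lit 4887291620) (nat_lit 152) (nat_lit 22861496372) (nat_lit 24) (nat_lit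 5) (nat_lit 25) (nat_lit 5) (nat_lit 26) (nat_lit 4) (nat_lit 415) (nat_lit 333) (nat_lit 272)))))) (XT.nd (nat_lit 468) (nat_lit 380) (nat_lit 0) (XT.nd (nat_lit 234) (nat_lit 76) (nat_lit 0) (XT.nd (nat_lit 78) (nat_lit 228) (nat_lit 0) (XT.lf (nat_lit 0) (nat_lit 31546095679) (nat_lit 152) (nat_lit 3988072272) (nat_lit 0) (nat_lit 7881859817) (nat_lit 24) (nat_lit 5) (nat_lit 26) (nat_lit 4) (nat_lit 24) (nat_lit 4) (nat_lit 416) (nat_lit 333) (nat_lit 271)) (XT.nd (nat_lit 78) (nat_lit 152) (nat_lit 0) (XT.lf (nat_lit 0) (nat_lit 21217171216) (nat_lit 76) (nat_lit 23847551021) (nat_lit 76) (nat_lit 125803690) (nat_lit 23) (nat_lit 4) (nat_lit 24) (nat_lit 5) (nat_lit 24) (nat_lit 4) (nat_lit 417) (nat_lit 333) (nat_lit 270)) (XT.lf (nat_lit 0) (nat_lit 499307796) (nat_lit 76) (nat_lit 11459228142) (nat_lit 152) (nat_lit 35091960911) (nat_lit 21) (nat_lit 5) (nat_lit 22) (nat_lit 5) (nat_lit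 23) (nat_lit 4) (nat_lit 418) (nat_lit 333) (nat_lit 269)))) (XT.nd (nat_lit 78) (nat_lit 76) (nat_lit 0) (XT.lf (nat_lit 0) (nat_lit 24854700479) (nat_lit 152) (nat_lit 22422369977) (nat_lit 0) (nat_lit 1720055083) (nat_lit 21) (nat_lit 5) (nat_lit 23) (nat_lit 4) (nat_lit 21) (nat_lit 4) (nat_lit 419) (nat_lit 333) (nat_lit 268)) (XT.nd (nat_lit 78) (nat_lit 0) (nat_lit 0) (XT.lf (nat_lit 0) (nat_lit 2751604119) (nat_lit 76) (nat_lit 35734820354) (nat_lit 76) (nat_lit 12551941396) (nat_lit 20) (nat_lit 4) (nat_lit 21) (nat_lit 5) (nat_lit 21) (nat_lit 4) (nat_lit 420) (nat_lit 333) (nat_lit 267)) (XT.lf (nat_lit 0) (nat_lit 29556366586) (nat_lit 76) (nat_lit 23424345306) (nat_lit 76) (nat_lit 195529620) (nat_lit 20) (nat_lit 4) (nat_lit 21) (nat_lit 5) (nat_lit 21) (nat_lit 4) (nat_lit 421) (nat_lit 333) (nat_lit 266))))) (XT.nd (nat_lit 234) (nat_lit 228) (nat_lit 0) (XT.nd (nat_lit 78) (nat_lit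 0) (nat_lit 0) (XT.lf (nat_lit 0) (nat_lit 2105776269) (nat_lit 76) (nat_lit 10395869650) (nat_lit 152) (nat_lit 42916513283) (nat_lit 18) (nat_lit 5) (nat_lit 19) (nat_lit 5) (nat_lit 20) (nat_lit 4) (nat_lit 422) (nat_lit 333) (nat_lit 265)) (XT.nd (nat_lit 78) (nat_lit 0) (nat_lit 0) (XT.lf (nat_lit 0) (nat_lit 26059851406) (nat_lit 152) (nat_lit 28280683380) (nat_lit 0) (nat_lit 3424675762) (nat_lit 18) (nat_lit 5) (nat_lit 20) (nat_lit 4) (nat_lit 18) (nat_lit 4) (nat_lit 423) (nat_lit 333) (nat_lit 264)) (XT.lf (nat_lit 0) (nat_lit 40356186791) (nat_lit 152) (nat_lit 2189138217) (nat_lit 0) (nat_lit 17682485058) (nat_lit 18) (nat_lit 5) (nat_lit 20) (nat_lit 4) (nat_lit 18) (nat_lit 4) (nat_lit 424) (nat_lit 333) (nat_lit 263)))) (XT.nd (nat_lit 156) (nat_lit 76) (nat_lit 0) (XT.nd (nat_lit 78) (nat_lit 76) (nat_lit 0) (XT.lf (nat_lit 0) (nat_lit 25624329709) (nat_lit 76) (nat_lit 29946746532)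 (nat_lit 76) (nat_lit 7236353286) (nat_lit 17) (nat_lit 4) (nat_lit 18) (nat_lit 5) (nat_lit 18) (nat_lit 4) (nat_lit 425) (nat_lit 333) (nat_lit 262)) (XT.lf (nat_lit 0) (nat_lit 5894023373) (nat_lit 152) (nat_lit 10780470097) (nat_lit 76) (nat_lit 48840368599) (nat_lit 16) (nat_lit 5) (nat_lit 18) (nat_lit 5) (nat_lit 17) (nat_lit 4) (nat_lit 426) (nat_lit 333) (nat_lit 261))) (XT.nd (nat_lit 78) (nat_lit 0) (nat_lit 0) (XT.lf (nat_lit 0) (nat_lit 17126169849) (nat_lit 76) (nat_lit 2531361026) (nat_lit 152) (nat_lit 48694199663) (nat_lit 15) (nat_lit 5) (nat_lit 16) (nat_lit 5) (nat_lit 17) (nat_lit 4) (nat_lit 427) (nat_lit 333) (nat_lit 260)) (XT.lf (nat_lit 0) (nat_lit 34300777983) (nat_lit 152) (nat_lit 24869076568) (nat_lit 0) (nat_lit 12154842703) (nat_lit 15) (nat_lit 5) (nat_lit 17) (nat_lit 4) (nat_lit 15) (nat_lit 4) (nat_lit 428) (nat_lit 333) (nat_lit 259))))))))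
noncomputable def xc37 : XT := (XT.nd (nat_lit 48282) (nat_lit 0) (nat_lit 3648) (XT.nd (nat_lit 47346) (nat_lit 0) (nat_lit 11248) (XT.nd (nat_lit 468) (nat_lit 76) (nat_lit 0) (XT.nd (nat_lit 234) (nat_lit 76) (nat_lit 0) (XT.nd (nat_lit 78) (nat_lit 76) (nat_lit 0) (XT.lf (nat_lit 0) (nat_lit 2761308556) (nat_lit 76) (nat_lit 46929898548) (nat_lit 76) (nat_lit 24754656279) (nat_lit 14) (nat_lit 4) (nat_lit 15) (nat_lit 5) (nat_lit 15) (nat_lit 4) (nat_lit 429) (nat_lit 333) (nat_lit 258)) (XT.nd (nat_lit 78) (nat_lit 76) (nat_lit 0) (XT.lf (nat_lit 0) (nat_lit 32222718076) (nat_lit 76) (nat_lit 33848462170) (nat_lit 76) (nat_lit 11645308483) (nat_lit 14) (nat_lit 4) (nat_lit 15) (nat_lit 5) (nat_lit 15) (nat_lit 4) (nat_lit 430) (nat_lit 333) (nat_lit 257)) (XT.lf (nat_lit 0) (nat_lit 2043537534) (nat_lit 152) (nat_lit 18081354795) (nat_lit 76) (nat_lit 61026181561) (nat_lit 13) (nat_lit 5)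 (nat_lit 15) (nat_lit 5) (nat_lit 14) (nat_lit 4) (nat_lit 431) (nat_lit 333) (nat_lit 256)))) (XT.nd (nat_lit 78) (nat_lit 0) (nat_lit 0) (XT.lf (nat_lit 0) (nat_lit 10729190439) (nat_lit 76) (nat_lit 5519205081) (nat_lit 152) (nat_lit 68503362808) (nat_lit 12) (nat_lit 5) (nat_lit 13) (nat_lit 5) (nat_lit 14) (nat_lit 4) (nat_lit 432) (nat_lit 333) (nat_lit 255)) (XT.nd (nat_lit 78) (nat_lit 0) (nat_lit 0) (XT.lf (nat_lit 0) (nat_lit 31413549859) (nat_lit 152) (nat_lit 47328132729) (nat_lit 0) (nat_lit 9783294130) (nat_lit 12) (nat_lit 5) (nat_lit 14) (nat_lit 4) (nat_lit 12) (nat_lit 4) (nat_lit 433) (nat_lit 333) (nat_lit 254)) (XT.lf (nat_lit 0) (nat_lit 47361920214) (nat_lit 152) (nat_lit 19414817821) (nat_lit 0) (nat_lit 25709370511) (nat_lit 12) (nat_lit 5) (nat_lit 14) (nat_lit 4) (nat_lit 12) (nat_lit 4) (nat_lit 434) (nat_lit 333) (nat_lit 253))))) (XT.nd (nat_lit 46644) (nat_lit 0)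 (nat_lit 21280) (XT.nd (nat_lit 78) (nat_lit 0) (nat_lit 0) (XT.lf (nat_lit 0) (nat_lit 10032664500) (nat_lit 76) (nat_lit 54142200527) (nat_lit 76) (nat_lit 32468418468) (nat_lit 11) (nat_lit 4) (nat_lit 12) (nat_lit 5) (nat_lit 12) (nat_lit 4) (nat_lit 435) (nat_lit 333) (nat_lit 252)) (XT.nd (nat_lit 78) (nat_lit 0) (nat_lit 0) (XT.lf (nat_lit 0) (nat_lit 41302603461) (nat_lit 76) (nat_lit 40697287605) (nat_lit 76) (nat_lit 19003284255) (nat_lit 11) (nat_lit 4) (nat_lit 12) (nat_lit 5) (nat_lit 12) (nat_lit 4) (nat_lit 436) (nat_lit 333) (nat_lit 251)) (XT.lf (nat_lit 0) (nat_lit 74083058354) (nat_lit 76) (nat_lit 26606039165) (nat_lit 76) (nat_lit 4892777442) (nat_lit 11) (nat_lit 4) (nat_lit 12) (nat_lit 5) (nat_lit 12) (nat_lit 4) (nat_lit 437) (nat_lit 333) (nat_lit 250)))) (XT.nd (nat_lit 78) (nat_lit 2052) (nat_lit 0) (XT.lf (nat_lit 0) (nat_lit 2213997578) (nat_lit 836) (nat_lit 609966017)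 (nat_lit 836) (nat_lit 609966017) (nat_lit 318) (nat_lit 4) (nat_lit 329) (nat_lit 5) (nat_lit 329) (nat_lit 4) (nat_lit 352) (nat_lit 334) (nat_lit 334)) (XT.nd (nat_lit 78) (nat_lit 1064) (nat_lit 0) (XT.lf (nat_lit 0) (nat_lit 4243106495) (nat_lit 988) (nat_lit 1566248800) (nat_lit 0) (nat_lit 1134009487) (nat_lit 305) (nat_lit 5) (nat_lit 318) (nat_lit 4) (nat_lit 305) (nat_lit 4) (nat_lit 353) (nat_lit 334) (nat_lit 333)) (XT.lf (nat_lit 0) (nat_lit 2695472637) (nat_lit 1064) (nat_lit 598332322) (nat_lit 76) (nat_lit 3733169413) (nat_lit 291) (nat_lit 5) (nat_lit 305) (nat_lit 5) (nat_lit 292) (nat_lit 4) (nat_lit 354) (nat_lit 334) (nat_lit 332)))))) (XT.nd (nat_lit 468) (nat_lit 3952) (nat_lit 0) (XT.nd (nat_lit 234) (nat_lit 1900) (nat_lit 0) (XT.nd (nat_lit 78) (nat_lit 1900) (nat_lit 0) (XT.lf (nat_lit 0) (nat_lit 485667118) (nat_lit 1140) (nat_lit 505751136) (nat_lit 1216) (nat_lit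 6127647425) (nat_lit 261) (nat_lit 5) (nat_lit 276) (nat_lit 5) (nat_lit 277) (nat_lit 5) (nat_lit 355) (nat_lit 334) (nat_lit 331)) (XT.nd (nat_lit 78) (nat_lit 684) (nat_lit 0) (XT.lf (nat_lit 0) (nat_lit 1657188282) (nat_lit 1216) (nat_lit 4695503495) (nat_lit 1292) (nat_lit 866073512) (nat_lit 245) (nat_lit 5) (nat_lit 261) (nat_lit 5) (nat_lit 262) (nat_lit 4) (nat_lit 356) (nat_lit 334) (nat_lit 330)) (XT.lf (nat_lit 0) (nat_lit 2919885815) (nat_lit 608) (nat_lit 1493402319) (nat_lit 684) (nat_lit 2913583030) (nat_lit 236) (nat_lit 5) (nat_lit 244) (nat_lit 5) (nat_lit 245) (nat_lit 5) (nat_lit 357) (nat_lit 334) (nat_lit 329)))) (XT.nd (nat_lit 78) (nat_lit 1216) (nat_lit 0) (XT.lf (nat_lit 0) (nat_lit 2318738970) (nat_lit 684) (nat_lit 3173229027) (nat_lit 76) (nat_lit 1951492245) (nat_lit 227) (nat_lit 5) (nat_lit 236) (nat_lit 5) (nat_lit 228) (nat_lit 5) (nat_lit 358) (nat_lit 334)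 (nat_lit 328)) (XT.nd (nat_lit 78) (nat_lit 532) (nat_lit 0) (XT.lf (nat_lit 0) (nat_lit 58672214) (nat_lit 684) (nat_lit 1857115462) (nat_lit 76) (nat_lit 5653037796) (nat_lit 218) (nat_lit 5) (nat_lit 227) (nat_lit 5) (nat_lit 219) (nat_lit 5) (nat_lit 359) (nat_lit 334) (nat_lit 327)) (XT.lf (nat_lit 0) (nat_lit 5284216754) (nat_lit 608) (nat_lit 485335507) (nat_lit 76) (nat_lit 1932823877) (nat_lit 211) (nat_lit 5) (nat_lit 219) (nat_lit 5) (nat_lit 212) (nat_lit 5) (nat_lit 360) (nat_lit 334) (nat_lit 326))))) (XT.nd (nat_lit 234) (nat_lit 1824) (nat_lit 0) (XT.nd (nat_lit 78) (nat_lit 1064) (nat_lit 0) (XT.lf (nat_lit 0) (nat_lit 981365118) (nat_lit 456) (nat_lit 1796725761) (nat_lit 532) (nat_lit 5066565186) (nat_lit 197) (nat_lit 5) (nat_lit 203) (nat_lit 5) (nat_lit 204) (nat_lit 5) (nat_lit 361) (nat_lit 334) (nat_lit 325)) (XT.nd (nat_lit 78) (nat_lit 456) (nat_lit 0) (XT.lf (nat_lit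 0) (nat_lit 102171325) (nat_lit 608) (nat_lit 5464505868) (nat_lit 76) (nat_lit 2429239682) (nat_lit 189) (nat_lit 5) (nat_lit 197) (nat_lit 5) (nat_lit 190) (nat_lit 5) (nat_lit 362) (nat_lit 334) (nat_lit 324)) (XT.lf (nat_lit 0) (nat_lit 4132683545) (nat_lit 456) (nat_lit 1205979648) (nat_lit 532) (nat_lit 2817237811) (nat_lit 183) (nat_lit 5) (nat_lit 189) (nat_lit 5) (nat_lit 190) (nat_lit 5) (nat_lit 363) (nat_lit 334) (nat_lit 323)))) (XT.nd (nat_lit 78) (nat_lit 1292) (nat_lit 0) (XT.lf (nat_lit 0) (nat_lit 2399780592) (nat_lit 532) (nat_lit 2530009785) (nat_lit 76) (nat_lit 3395379127) (nat_lit 176) (nat_lit 5) (nat_lit 183) (nat_lit 5) (nat_lit 177) (nat_lit 5) (nat_lit 364) (nat_lit 334) (nat_lit 322)) (XT.nd (nat_lit 78) (nat_lit 912) (nat_lit 0) (XT.lf (nat_lit 0) (nat_lit 7533353533) (nat_lit 380) (nat_lit 209666783) (nat_lit 456) (nat_lit 761412998) (nat_lit 171) (nat_lit 5) (nat_lit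 176) (nat_lit 5) (nat_lit 177) (nat_lit 5) (nat_lit 365) (nat_lit 334) (nat_lit 321)) (XT.lf (nat_lit 0) (nat_lit 613497863) (nat_lit 380) (nat_lit 3926903523) (nat_lit 456) (nat_lit 4151869115) (nat_lit 159) (nat_lit 5) (nat_lit 164) (nat_lit 5) (nat_lit 165) (nat_lit 5) (nat_lit 366) (nat_lit 334) (nat_lit 320))))))) (XT.nd (nat_lit 936) (nat_lit 3040) (nat_lit 0) (XT.nd (nat_lit 468) (nat_lit 1824) (nat_lit 0) (XT.nd (nat_lit 234) (nat_lit 1444) (nat_lit 0) (XT.nd (nat_lit 78) (nat_lit 836) (nat_lit 0) (XT.lf (nat_lit 0) (nat_lit 1127326165) (nat_lit 456) (nat_lit 6603138491) (nat_lit 76) (nat_lit 1160073447) (nat_lit 153) (nat_lit 5) (nat_lit 159) (nat_lit 5) (nat_lit 154) (nat_lit 5) (nat_lit 367) (nat_lit 334) (nat_lit 319)) (XT.nd (nat_lit 78) (nat_lit 456) (nat_lit 0) (XT.lf (nat_lit 0) (nat_lit 3979194922) (nat_lit 380) (nat_lit 2578267438) (nat_lit 456) (nat_lit 2540901357) (nat_lit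 148) (nat_lit 5) (nat_lit 153) (nat_lit 5) (nat_lit 154) (nat_lit 5) (nat_lit 368) (nat_lit 334) (nat_lit 318)) (XT.lf (nat_lit 0) (nat_lit 2851876316) (nat_lit 456) (nat_lit 3605358929) (nat_lit 76) (nat_lit 2859552213) (nat_lit 142) (nat_lit 5) (nat_lit 148) (nat_lit 5) (nat_lit 143) (nat_lit 5) (nat_lit 369) (nat_lit 334) (nat_lit 317)))) (XT.nd (nat_lit 78) (nat_lit 1140) (nat_lit 0) (XT.lf (nat_lit 0) (nat_lit 7485646900) (nat_lit 304) (nat_lit 948428736) (nat_lit 380) (nat_lit 1112187798) (nat_lit 138) (nat_lit 5) (nat_lit 142) (nat_lit 5) (nat_lit 143) (nat_lit 5) (nat_lit 370) (nat_lit 334) (nat_lit 316)) (XT.nd (nat_lit 78) (nat_lit 684) (nat_lit 0) (XT.lf (nat_lit 0) (nat_lit 4419646450) (nat_lit 456) (nat_lit 526937584) (nat_lit 76) (nat_lit 4839397300) (nat_lit 132) (nat_lit 5) (nat_lit 138) (nat_lit 5) (nat_lit 133) (nat_lit 5) (nat_lit 371) (nat_lit 334) (nat_lit 315)) (XT.lf (nat_lit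 0) (nat_lit 151690903) (nat_lit 380) (nat_lit 8967017360) (nat_lit 76) (nat_lit 919028373) (nat_lit 123) (nat_lit 5) (nat_lit 128) (nat_lit 5) (nat_lit 124) (nat_lit 5) (nat_lit 372) (nat_lit 334) (nat_lit 314))))) (XT.nd (nat_lit 234) (nat_lit 912) (nat_lit 0) (XT.nd (nat_lit 78) (nat_lit 608) (nat_lit 0) (XT.lf (nat_lit 0) (nat_lit 2644991862) (nat_lit 304) (nat_lit 3210136008) (nat_lit 380) (nat_lit 4444788447) (nat_lit 119) (nat_lit 5) (nat_lit 123) (nat_lit 5) (nat_lit 124) (nat_lit 5) (nat_lit 373) (nat_lit 334) (nat_lit 313)) (XT.nd (nat_lit 78) (nat_lit 228) (nat_lit 0) (XT.lf (nat_lit 0) (nat_lit 1242768025) (nat_lit 380) (nat_lit 6331528146) (nat_lit 76) (nat_lit 3000615265) (nat_lit 114) (nat_lit 5) (nat_lit 119) (nat_lit 5) (nat_lit 115) (nat_lit 5) (nat_lit 374) (nat_lit 334) (nat_lit 312)) (XT.lf (nat_lit 0) (nat_lit 5824868411) (nat_lit 228) (nat_lit 1306728616) (nat_lit 304) (nat_lit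 3730514429) (nat_lit 111) (nat_lit 5) (nat_lit 114) (nat_lit 5) (nat_lit 115) (nat_lit 5) (nat_lit 375) (nat_lit 334) (nat_lit 311)))) (XT.nd (nat_lit 78) (nat_lit 532) (nat_lit 0) (XT.lf (nat_lit 0) (nat_lit 2141755947) (nat_lit 380) (nat_lit 3773655423) (nat_lit 76) (nat_lit 5246700584) (nat_lit 106) (nat_lit 5) (nat_lit 111) (nat_lit 5) (nat_lit 107) (nat_lit 5) (nat_lit 376) (nat_lit 334) (nat_lit 310)) (XT.nd (nat_lit 78) (nat_lit 304) (nat_lit 0) (XT.lf (nat_lit 0) (nat_lit 8237812393) (nat_lit 304) (nat_lit 2533450333) (nat_lit 76) (nat_lit 704557115) (nat_lit 103) (nat_lit 5) (nat_lit 107) (nat_lit 5) (nat_lit 104) (nat_lit 5) (nat_lit 377) (nat_lit 334) (nat_lit 309)) (XT.lf (nat_lit 0) (nat_lit 2830602125) (nat_lit 304) (nat_lit 1353782641) (nat_lit 76) (nat_lit 7618470760) (nat_lit 99) (nat_lit 5) (nat_lit 103) (nat_lit 5) (nat_lit 100) (nat_lit 5) (nat_lit 378) (nat_lit 334) (nat_lit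 308)))))) (XT.nd (nat_lit 468) (nat_lit 1368) (nat_lit 0) (XT.nd (nat_lit 234) (nat_lit 684) (nat_lit 0) (XT.nd (nat_lit 78) (nat_lit 760) (nat_lit 0) (XT.lf (nat_lit 0) (nat_lit 9160397041) (nat_lit 304) (nat_lit 215806599) (nat_lit 76) (nat_lit 2768366912) (nat_lit 96) (nat_lit 5) (nat_lit 100) (nat_lit 5) (nat_lit 97) (nat_lit 5) (nat_lit 379) (nat_lit 334) (nat_lit 307)) (XT.nd (nat_lit 78) (nat_lit 228) (nat_lit 0) (XT.lf (nat_lit 0) (nat_lit 873895323) (nat_lit 228) (nat_lit 2418369656) (nat_lit 304) (nat_lit 9208579987) (nat_lit 89) (nat_lit 5) (nat_lit 92) (nat_lit 5) (nat_lit 93) (nat_lit 5) (nat_lit 380) (nat_lit 334) (nat_lit 306)) (XT.lf (nat_lit 0) (nat_lit 1887586925) (nat_lit 228) (nat_lit 7989411259) (nat_lit 304) (nat_lit 2995390122) (nat_lit 86) (nat_lit 5) (nat_lit 89) (nat_lit 5) (nat_lit 90) (nat_lit 5) (nat_lit 381) (nat_lit 334) (nat_lit 305)))) (XT.nd (nat_lit 78) (nat_lit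 456) (nat_lit 0) (XT.lf (nat_lit 0) (nat_lit 2828865125) (nat_lit 152) (nat_lit 666038549) (nat_lit 228) (nat_lit 9765553925) (nat_lit 83) (nat_lit 5) (nat_lit 85) (nat_lit 5) (nat_lit 86) (nat_lit 5) (nat_lit 382) (nat_lit 334) (nat_lit 304)) (XT.nd (nat_lit 78) (nat_lit 228) (nat_lit 0) (XT.lf (nat_lit 0) (nat_lit 3645173060) (nat_lit 228) (nat_lit 6686276620) (nat_lit 304) (nat_lit 3333104391) (nat_lit 80) (nat_lit 5) (nat_lit 83) (nat_lit 5) (nat_lit 84) (nat_lit 5) (nat_lit 383) (nat_lit 334) (nat_lit 303)) (XT.lf (nat_lit 0) (nat_lit 3390433674) (nat_lit 228) (nat_lit 9715232884) (nat_lit 76) (nat_lit 981137858) (nat_lit 77) (nat_lit 5) (nat_lit 80) (nat_lit 5) (nat_lit 78) (nat_lit 5) (nat_lit 384) (nat_lit 334) (nat_lit 302))))) (XT.nd (nat_lit 234) (nat_lit 760) (nat_lit 0) (XT.nd (nat_lit 78) (nat_lit 380) (nat_lit 0) (XT.lf (nat_lit 0) (nat_lit 4940534173) (nat_lit 228) (nat_lit 5533079729)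 (nat_lit 304) (nat_lit 4052812545) (nat_lit 74) (nat_lit 5) (nat_lit 77) (nat_lit 5) (nat_lit 78) (nat_lit 5) (nat_lit 385) (nat_lit 334) (nat_lit 301)) (XT.nd (nat_lit 78) (nat_lit 152) (nat_lit 0) (XT.lf (nat_lit 0) (nat_lit 2918465082) (nat_lit 228) (nat_lit 9601328970) (nat_lit 76) (nat_lit 2465834843) (nat_lit 71) (nat_lit 5) (nat_lit 74) (nat_lit 5) (nat_lit 72) (nat_lit 5) (nat_lit 386) (nat_lit 334) (nat_lit 300)) (XT.lf (nat_lit 0) (nat_lit 5639812148) (nat_lit 152) (nat_lit 4603667678) (nat_lit 228) (nat_lit 5220456726) (nat_lit 69) (nat_lit 5) (nat_lit 71) (nat_lit 5) (nat_lit 72) (nat_lit 5) (nat_lit 387) (nat_lit 334) (nat_lit 299)))) (XT.nd (nat_lit 156) (nat_lit 380) (nat_lit 0) (XT.nd (nat_lit 78) (nat_lit 152) (nat_lit 0) (XT.lf (nat_lit 0) (nat_lit 2003061385) (nat_lit 228) (nat_lit 10235307924) (nat_lit 76) (nat_lit 3725053124) (nat_lit 66) (nat_lit 5) (nat_lit 69) (nat_lit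 5) (nat_lit 67) (nat_lit 5) (nat_lit 388) (nat_lit 334) (nat_lit 298)) (XT.lf (nat_lit 0) (nat_lit 5583169136) (nat_lit 152) (nat_lit 3983915368) (nat_lit 228) (nat_lit 6916645005) (nat_lit 64) (nat_lit 5) (nat_lit 66) (nat_lit 5) (nat_lit 67) (nat_lit 5) (nat_lit 389) (nat_lit 334) (nat_lit 297))) (XT.nd (nat_lit 78) (nat_lit 152) (nat_lit 0) (XT.lf (nat_lit 0) (nat_lit 559330837) (nat_lit 228) (nat_lit 11797981810) (nat_lit 76) (nat_lit 4669933481) (nat_lit 61) (nat_lit 5) (nat_lit 64) (nat_lit 5) (nat_lit 62) (nat_lit 5) (nat_lit 390) (nat_lit 334) (nat_lit 296)) (XT.lf (nat_lit 0) (nat_lit 4579824097) (nat_lit 152) (nat_lit 3774354729) (nat_lit 228) (nat_lit 9239076154) (nat_lit 59) (nat_lit 5) (nat_lit 61) (nat_lit 5) (nat_lit 62) (nat_lit 5) (nat_lit 391) (nat_lit 334) (nat_lit 295))))))))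
noncomputable def xc38 : XT := (XT.nd (nat_lit 1872) (nat_lit 1064) (nat_lit 0) (XT.nd (nat_lit 936) (nat_lit 988) (nat_lit 0) (XT.nd (nat_lit 468) (nat_lit 760) (nat_lit 0) (XT.nd (nat_lit 234) (nat_lit 380) (nat_lit 0) (XT.nd (nat_lit 78) (nat_lit 304) (nat_lit 0) (XT.lf (nat_lit 0) (nat_lit 3665130969) (nat_lit 152) (nat_lit 12973727226) (nat_lit 228) (nat_lit 1545717175) (nat_lit 57) (nat_lit 5) (nat_lit 59) (nat_lit 5) (nat_lit 60) (nat_lit 4) (nat_lit 392) (nat_lit 334) (nat_lit 294)) (XT.nd (nat_lit 78) (nat_lit 76) (nat_lit 0) (XT.lf (nat_lit 0) (nat_lit 2402242758) (nat_lit 152) (nat_lit 4093218236) (nat_lit 228) (nat_lit 12305411135) (nat_lit 54) (nat_lit 5) (nat_lit 56) (nat_lit 5) (nat_lit 57) (nat_lit 5) (nat_lit 393) (nat_lit 334) (nat_lit 293)) (XT.lf (nat_lit 0) (nat_lit 790613189) (nat_lit 76) (nat_lit 14221858884) (nat_lit 152) (nat_lit 4431892399) (nat_lit 53) (nat_lit 5) (nat_lit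 54) (nat_lit 5) (nat_lit 55) (nat_lit 4) (nat_lit 394) (nat_lit 334) (nat_lit 292)))) (XT.nd (nat_lit 78) (nat_lit 304) (nat_lit 0) (XT.lf (nat_lit 0) (nat_lit 3871039910) (nat_lit 152) (nat_lit 1196848136) (nat_lit 76) (nat_lit 15047731230) (nat_lit 52) (nat_lit 5) (nat_lit 54) (nat_lit 5) (nat_lit 53) (nat_lit 5) (nat_lit 395) (nat_lit 334) (nat_lit 291)) (XT.nd (nat_lit 78) (nat_lit 152) (nat_lit 0) (XT.lf (nat_lit 0) (nat_lit 12612732759) (nat_lit 228) (nat_lit 3612525387) (nat_lit 76) (nat_lit 4590414781) (nat_lit 50) (nat_lit 5) (nat_lit 53) (nat_lit 5) (nat_lit 51) (nat_lit 4) (nat_lit 396) (nat_lit 334) (nat_lit 290)) (XT.lf (nat_lit 0) (nat_lit 351461800) (nat_lit 152) (nat_lit 6482518645) (nat_lit 76) (nat_lit 14713227872) (nat_lit 48) (nat_lit 5) (nat_lit 50) (nat_lit 5) (nat_lit 49) (nat_lit 5) (nat_lit 397) (nat_lit 334) (nat_lit 289))))) (XT.nd (nat_lit 234) (nat_lit 304) (nat_lit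 0) (XT.nd (nat_lit 78) (nat_lit 304) (nat_lit 0) (XT.lf (nat_lit 0) (nat_lit 9261036502) (nat_lit 228) (nat_lit 9914466981) (nat_lit 76) (nat_lit 3134476815) (nat_lit 46) (nat_lit 5) (nat_lit 49) (nat_lit 5) (nat_lit 47) (nat_lit 4) (nat_lit 398) (nat_lit 334) (nat_lit 288)) (XT.nd (nat_lit 78) (nat_lit 228) (nat_lit 0) (XT.lf (nat_lit 0) (nat_lit 9187320976) (nat_lit 76) (nat_lit 9563324719) (nat_lit 152) (nat_lit 4356217465) (nat_lit 45) (nat_lit 5) (nat_lit 46) (nat_lit 5) (nat_lit 47) (nat_lit 4) (nat_lit 399) (nat_lit 334) (nat_lit 287)) (XT.lf (nat_lit 0) (nat_lit 4751175291) (nat_lit 228) (nat_lit 18540442850) (nat_lit 76) (nat_lit 648410439) (nat_lit 42) (nat_lit 5) (nat_lit 45) (nat_lit 5) (nat_lit 43) (nat_lit 4) (nat_lit 400) (nat_lit 334) (nat_lit 286)))) (XT.nd (nat_lit 78) (nat_lit 228) (nat_lit 0) (XT.lf (nat_lit 0) (nat_lit 879718213) (nat_lit 76) (nat_lit 13508365747) (nat_lit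 152) (nat_lit 10420555081) (nat_lit 41) (nat_lit 5) (nat_lit 42) (nat_lit 5) (nat_lit 43) (nat_lit 4) (nat_lit 401) (nat_lit 334) (nat_lit 285)) (XT.nd (nat_lit 78) (nat_lit 228) (nat_lit 0) (XT.lf (nat_lit 0) (nat_lit 21502399437) (nat_lit 76) (nat_lit 3111618759) (nat_lit 152) (nat_lit 1103453937) (nat_lit 41) (nat_lit 5) (nat_lit 42) (nat_lit 5) (nat_lit 43) (nat_lit 4) (nat_lit 402) (nat_lit 334) (nat_lit 284)) (XT.lf (nat_lit 0) (nat_lit 8665728265) (nat_lit 228) (nat_lit 10169298066) (nat_lit 76) (nat_lit 7829556679) (nat_lit 38) (nat_lit 5) (nat_lit 41) (nat_lit 5) (nat_lit 39) (nat_lit 4) (nat_lit 403) (nat_lit 334) (nat_lit 283)))))) (XT.nd (nat_lit 468) (nat_lit 456) (nat_lit 0) (XT.nd (nat_lit 234) (nat_lit 228) (nat_lit 0) (XT.nd (nat_lit 78) (nat_lit 228) (nat_lit 0) (XT.lf (nat_lit 0) (nat_lit 10689608369) (nat_lit 76) (nat_lit 8310424807) (nat_lit 152) (nat_lit 8655710568) (nat_lit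 37) (nat_lit 5) (nat_lit 38) (nat_lit 5) (nat_lit 39) (nat_lit 4) (nat_lit 404) (nat_lit 334) (nat_lit 282)) (XT.nd (nat_lit 78) (nat_lit 0) (nat_lit 0) (XT.lf (nat_lit 0) (nat_lit 1226674533) (nat_lit 228) (nat_lit 24688967168) (nat_lit 76) (nat_lit 2777655551) (nat_lit 34) (nat_lit 5) (nat_lit 37) (nat_lit 5) (nat_lit 35) (nat_lit 4) (nat_lit 405) (nat_lit 334) (nat_lit 281)) (XT.lf (nat_lit 0) (nat_lit 11610675155) (nat_lit 228) (nat_lit 3714883710) (nat_lit 76) (nat_lit 14449009101) (nat_lit 34) (nat_lit 5) (nat_lit 37) (nat_lit 5) (nat_lit 35) (nat_lit 4) (nat_lit 406) (nat_lit 334) (nat_lit 280)))) (XT.nd (nat_lit 78) (nat_lit 152) (nat_lit 0) (XT.lf (nat_lit 0) (nat_lit 18534062205) (nat_lit 76) (nat_lit 4086151311) (nat_lit 152) (nat_lit 8286504115) (nat_lit 33) (nat_lit 5) (nat_lit 34) (nat_lit 5) (nat_lit 35) (nat_lit 4) (nat_lit 407) (nat_lit 334) (nat_lit 279)) (XT.nd (nat_lit 78)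 (nat_lit 0) (nat_lit 0) (XT.lf (nat_lit 0) (nat_lit 2182762018) (nat_lit 152) (nat_lit 22249193520) (nat_lit 76) (nat_lit 7658762499) (nat_lit 31) (nat_lit 5) (nat_lit 33) (nat_lit 5) (nat_lit 32) (nat_lit 4) (nat_lit 408) (nat_lit 334) (nat_lit 278)) (XT.lf (nat_lit 0) (nat_lit 13106735492) (nat_lit 152) (nat_lit 161955658) (nat_lit 76) (nat_lit 20059692209) (nat_lit 31) (nat_lit 5) (nat_lit 33) (nat_lit 5) (nat_lit 32) (nat_lit 4) (nat_lit 409) (nat_lit 334) (nat_lit 277))))) (XT.nd (nat_lit 234) (nat_lit 228) (nat_lit 0) (XT.nd (nat_lit 78) (nat_lit 152) (nat_lit 0) (XT.lf (nat_lit 0) (nat_lit 23361042683) (nat_lit 76) (nat_lit 1374863135) (nat_lit 152) (nat_lit 9887260836) (nat_lit 30) (nat_lit 5) (nat_lit 31) (nat_lit 5) (nat_lit 32) (nat_lit 4) (nat_lit 410) (nat_lit 334) (nat_lit 276)) (XT.nd (nat_lit 78) (nat_lit 0) (nat_lit 0) (XT.lf (nat_lit 0) (nat_lit 1107178967) (nat_lit 152) (nat_lit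 23901022031) (nat_lit 76) (nat_lit 10969350219) (nat_lit 28) (nat_lit 5) (nat_lit 30) (nat_lit 5) (nat_lit 29) (nat_lit 4) (nat_lit 411) (nat_lit 334) (nat_lit 275)) (XT.lf (nat_lit 0) (nat_lit 12516856032) (nat_lit 152) (nat_lit 813540389) (nat_lit 76) (nat_lit 24064225903) (nat_lit 28) (nat_lit 5) (nat_lit 30) (nat_lit 5) (nat_lit 29) (nat_lit 4) (nat_lit 412) (nat_lit 334) (nat_lit 274)))) (XT.nd (nat_lit 78) (nat_lit 152) (nat_lit 0) (XT.lf (nat_lit 0) (nat_lit 23778020195) (nat_lit 76) (nat_lit 887698803) (nat_lit 152) (nat_lit 14211770827) (nat_lit 27) (nat_lit 5) (nat_lit 28) (nat_lit 5) (nat_lit 29) (nat_lit 4) (nat_lit 413) (nat_lit 334) (nat_lit 273)) (XT.nd (nat_lit 78) (nat_lit 76) (nat_lit 0) (XT.lf (nat_lit 0) (nat_lit 9130694441) (nat_lit 76) (nat_lit 28446020187) (nat_lit 76) (nat_lit 2853149103) (nat_lit 26) (nat_lit 4) (nat_lit 27) (nat_lit 5) (nat_lit 27) (nat_lit 4) (nat_lit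 414) (nat_lit 334) (nat_lit 272)) (XT.lf (nat_lit 0) (nat_lit 9004867056) (nat_lit 152) (nat_lit 7375189613) (nat_lit 76) (nat_lit 25673930981) (nat_lit 25) (nat_lit 5) (nat_lit 27) (nat_lit 5) (nat_lit 26) (nat_lit 4) (nat_lit 415) (nat_lit 334) (nat_lit 271))))))) (XT.nd (nat_lit 936) (nat_lit 380) (nat_lit 0) (XT.nd (nat_lit 468) (nat_lit 304) (nat_lit 0) (XT.nd (nat_lit 234) (nat_lit 152) (nat_lit 0) (XT.nd (nat_lit 78) (nat_lit 152) (nat_lit 0) (XT.lf (nat_lit 0) (nat_lit 17961757012) (nat_lit 76) (nat_lit 3553545236) (nat_lit 152) (nat_lit 22239615548) (nat_lit 24) (nat_lit 5) (nat_lit 25) (nat_lit 5) (nat_lit 26) (nat_lit 4) (nat_lit 416) (nat_lit 334) (nat_lit 270)) (XT.nd (nat_lit 78) (nat_lit 152) (nat_lit 0) (XT.lf (nat_lit 0) (nat_lit 34769706410) (nat_lit 152) (nat_lit 1018050323) (nat_lit 0) (nat_lit 9749587415) (nat_lit 24) (nat_lit 5) (nat_lit 26) (nat_lit 4) (nat_lit 24) (nat_lit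 4) (nat_lit 417) (nat_lit 334) (nat_lit 269)) (XT.lf (nat_lit 0) (nat_lit 1483893673) (nat_lit 152) (nat_lit 22059979437) (nat_lit 76) (nat_lit 23857726302) (nat_lit 22) (nat_lit 5) (nat_lit 24) (nat_lit 5) (nat_lit 23) (nat_lit 4) (nat_lit 418) (nat_lit 334) (nat_lit 268)))) (XT.nd (nat_lit 78) (nat_lit 76) (nat_lit 0) (XT.lf (nat_lit 0) (nat_lit 3545876740) (nat_lit 76) (nat_lit 10576212374) (nat_lit 152) (nat_lit 35233879398) (nat_lit 21) (nat_lit 5) (nat_lit 22) (nat_lit 5) (nat_lit 23) (nat_lit 4) (nat_lit 419) (nat_lit 334) (nat_lit 267)) (XT.nd (nat_lit 78) (nat_lit 76) (nat_lit 0) (XT.lf (nat_lit 0) (nat_lit 27601837524) (nat_lit 152) (nat_lit 20634287532) (nat_lit 0) (nat_lit 3165644328) (nat_lit 21) (nat_lit 5) (nat_lit 23) (nat_lit 4) (nat_lit 21) (nat_lit 4) (nat_lit 420) (nat_lit 334) (nat_lit 266)) (XT.lf (nat_lit 0) (nat_lit 5714993607) (nat_lit 76) (nat_lit 36155679327) (nat_lit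 76) (nat_lit 11675736868) (nat_lit 20) (nat_lit 4) (nat_lit 21) (nat_lit 5) (nat_lit 21) (nat_lit 4) (nat_lit 421) (nat_lit 334) (nat_lit 265))))) (XT.nd (nat_lit 234) (nat_lit 152) (nat_lit 0) (XT.nd (nat_lit 78) (nat_lit 76) (nat_lit 0) (XT.lf (nat_lit 0) (nat_lit 1202944933) (nat_lit 152) (nat_lit 22079630210) (nat_lit 76) (nat_lit 32510339533) (nat_lit 19) (nat_lit 5) (nat_lit 21) (nat_lit 5) (nat_lit 20) (nat_lit 4) (nat_lit 422) (nat_lit 334) (nat_lit 264)) (XT.nd (nat_lit 78) (nat_lit 0) (nat_lit 0) (XT.lf (nat_lit 0) (nat_lit 4852382834) (nat_lit 76) (nat_lit 9637111318) (nat_lit 152) (nat_lit 43658622627) (nat_lit 18) (nat_lit 5) (nat_lit 19) (nat_lit 5) (nat_lit 20) (nat_lit 4) (nat_lit 423) (nat_lit 334) (nat_lit 263)) (XT.lf (nat_lit 0) (nat_lit 28672421271) (nat_lit 152) (nat_lit 27151881443) (nat_lit 0) (nat_lit 4789816849) (nat_lit 18) (nat_lit 5) (nat_lit 20) (nat_lit 4) (nat_lit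 18) (nat_lit 4) (nat_lit 424) (nat_lit 334) (nat_lit 262)))) (XT.nd (nat_lit 78) (nat_lit 76) (nat_lit 0) (XT.lf (nat_lit 0) (nat_lit 125604541) (nat_lit 76) (nat_lit 43496815447) (nat_lit 76) (nat_lit 19579266726) (nat_lit 17) (nat_lit 4) (nat_lit 18) (nat_lit 5) (nat_lit 18) (nat_lit 4) (nat_lit 425) (nat_lit 334) (nat_lit 261)) (XT.nd (nat_lit 78) (nat_lit 76) (nat_lit 0) (XT.lf (nat_lit 0) (nat_lit 29257875928) (nat_lit 76) (nat_lit 30302191368) (nat_lit 76) (nat_lit 6351362363) (nat_lit 17) (nat_lit 4) (nat_lit 18) (nat_lit 5) (nat_lit 18) (nat_lit 4) (nat_lit 426) (nat_lit 334) (nat_lit 260)) (XT.lf (nat_lit 0) (nat_lit 7352990123) (nat_lit 152) (nat_lit 9055954563) (nat_lit 76) (nat_lit 52346678681) (nat_lit 16) (nat_lit 5) (nat_lit 18) (nat_lit 5) (nat_lit 17) (nat_lit 4) (nat_lit 427) (nat_lit 334) (nat_lit 259)))))) (XT.nd (nat_lit 468) (nat_lit 76) (nat_lit 0) (XT.nd (nat_lit 234)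 (nat_lit 152) (nat_lit 0) (XT.nd (nat_lit 78) (nat_lit 76) (nat_lit 0) (XT.lf (nat_lit 0) (nat_lit 20181133488) (nat_lit 76) (nat_lit 1589233112) (nat_lit 152) (nat_lit 49965000414) (nat_lit 15) (nat_lit 5) (nat_lit 16) (nat_lit 5) (nat_lit 17) (nat_lit 4) (nat_lit 428) (nat_lit 334) (nat_lit 258)) (XT.nd (nat_lit 78) (nat_lit 76) (nat_lit 0) (XT.lf (nat_lit 0) (nat_lit 37101752254) (nat_lit 152) (nat_lit 23996023503) (nat_lit 0) (nat_lit 13760529465) (nat_lit 15) (nat_lit 5) (nat_lit 17) (nat_lit 4) (nat_lit 15) (nat_lit 4) (nat_lit 429) (nat_lit 334) (nat_lit 257)) (XT.lf (nat_lit 0) (nat_lit 4955211632) (nat_lit 76) (nat_lit 48274541960) (nat_lit 76) (nat_lit 24906736868) (nat_lit 14) (nat_lit 4) (nat_lit 15) (nat_lit 5) (nat_lit 15) (nat_lit 4) (nat_lit 430) (nat_lit 334) (nat_lit 256)))) (XT.nd (nat_lit 78) (nat_lit 152) (nat_lit 0) (XT.lf (nat_lit 0) (nat_lit 35791794597) (nat_lit 76) (nat_lit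 34586740979) (nat_lit 76) (nat_lit 11193619407) (nat_lit 14) (nat_lit 4) (nat_lit 15) (nat_lit 5) (nat_lit 15) (nat_lit 4) (nat_lit 431) (nat_lit 334) (nat_lit 255)) (XT.nd (nat_lit 78) (nat_lit 76) (nat_lit 0) (XT.lf (nat_lit 0) (nat_lit 3111217576) (nat_lit 152) (nat_lit 17101460824) (nat_lit 76) (nat_lit 64966943135) (nat_lit 13) (nat_lit 5) (nat_lit 15) (nat_lit 5) (nat_lit 14) (nat_lit 4) (nat_lit 432) (nat_lit 334) (nat_lit 254)) (XT.lf (nat_lit 0) (nat_lit 13095608288) (nat_lit 76) (nat_lit 4902324511) (nat_lit 152) (nat_lit 70963260915) (nat_lit 12) (nat_lit 5) (nat_lit 13) (nat_lit 5) (nat_lit 14) (nat_lit 4) (nat_lit 433) (nat_lit 334) (nat_lit 253))))) (XT.nd (nat_lit 234) (nat_lit 0) (nat_lit 0) (XT.nd (nat_lit 78) (nat_lit 76) (nat_lit 0) (XT.lf (nat_lit 0) (nat_lit 33884894053) (nat_lit 152) (nat_lit 47933083817) (nat_lit 0) (nat_lit 11106190535) (nat_lit 12) (nat_lit 5) (nat_lit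 14) (nat_lit 4) (nat_lit 12) (nat_lit 4) (nat_lit 434) (nat_lit 334) (nat_lit 252)) (XT.nd (nat_lit 78) (nat_lit 76) (nat_lit 0) (XT.lf (nat_lit 0) (nat_lit 50587794034) (nat_lit 152) (nat_lit 18707982000) (nat_lit 0) (nat_lit 27788869225) (nat_lit 12) (nat_lit 5) (nat_lit 14) (nat_lit 4) (nat_lit 12) (nat_lit 4) (nat_lit 435) (nat_lit 334) (nat_lit 251)) (XT.lf (nat_lit 0) (nat_lit 12163787038) (nat_lit 76) (nat_lit 56052416136) (nat_lit 76) (nat_lit 33234232955) (nat_lit 11) (nat_lit 4) (nat_lit 12) (nat_lit 5) (nat_lit 12) (nat_lit 4) (nat_lit 436) (nat_lit 334) (nat_lit 250)))) (XT.nd (nat_lit 46410) (nat_lit 0) (nat_lit 23256) (XT.nd (nat_lit 46332) (nat_lit 0) (nat_lit 25004) (XT.lf (nat_lit 0) (nat_lit 44919628218) (nat_lit 76) (nat_lit 41973204921) (nat_lit 76) (nat_lit 19136680433) (nat_lit 11) (nat_lit 4) (nat_lit 12) (nat_lit 5) (nat_lit 12) (nat_lit 4) (nat_lit 437) (nat_lit 334)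 (nat_lit 249)) (XT.lf (nat_lit 0) (nat_lit 1488162100) (nat_lit 684) (nat_lit 940147913) (nat_lit 684) (nat_lit 940147913) (nat_lit 340) (nat_lit 4) (nat_lit 349) (nat_lit 5) (nat_lit 349) (nat_lit 4) (nat_lit 350) (nat_lit 335) (nat_lit 335))) (XT.nd (nat_lit 78) (nat_lit 912) (nat_lit 0) (XT.lf (nat_lit 0) (nat_lit 3472736099) (nat_lit 836) (nat_lit 3217388201) (nat_lit 0) (nat_lit 110247685) (nat_lit 329) (nat_lit 5) (nat_lit 340) (nat_lit 4) (nat_lit 329) (nat_lit 4) (nat_lit 351) (nat_lit 335) (nat_lit 334)) (XT.lf (nat_lit 0) (nat_lit 1959892583) (nat_lit 912) (nat_lit 2586276386) (nat_lit 76) (nat_lit 2325384307) (nat_lit 317) (nat_lit 5) (nat_lit 329) (nat_lit 5) (nat_lit 318) (nat_lit 4) (nat_lit 352) (nat_lit 335) (nat_lit 333))))))))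
noncomputable def xc39 : XT := (XT.nd (nat_lit 1950) (nat_lit 4712) (nat_lit 0) (XT.nd (nat_lit 936) (nat_lit 5548) (nat_lit 0) (XT.nd (nat_lit 468) (nat_lit 3876) (nat_lit 0) (XT.nd (nat_lit 234) (nat_lit 3724) (nat_lit 0) (XT.nd (nat_lit 78) (nat_lit 2128) (nat_lit 0) (XT.lf (nat_lit 0) (nat_lit 294054363) (nat_lit 988) (nat_lit 1849041110) (nat_lit 76) (nat_lit 4808046948) (nat_lit 304) (nat_lit 5) (nat_lit 317) (nat_lit 5) (nat_lit 305) (nat_lit 5) (nat_lit 353) (nat_lit 335) (nat_lit 332)) (XT.nd (nat_lit 78) (nat_lit 1140) (nat_lit 0) (XT.lf (nat_lit 0) (nat_lit 5482390427) (nat_lit 1064) (nat_lit 1025483704) (nat_lit 76) (nat_lit 530816253) (nat_lit 291) (nat_lit 5) (nat_lit 305) (nat_lit 5) (nat_lit 292) (nat_lit 4) (nat_lit 354) (nat_lit 335) (nat_lit 331)) (XT.lf (nat_lit 0) (nat_lit 3576025307) (nat_lit 1140) (nat_lit 122491414) (nat_lit 76) (nat_lit 3435628127) (nat_lit 276) (nat_lit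 5) (nat_lit 291) (nat_lit 5) (nat_lit 277) (nat_lit 5) (nat_lit 355) (nat_lit 335) (nat_lit 330)))) (XT.nd (nat_lit 78) (nat_lit 1292) (nat_lit 0) (XT.lf (nat_lit 0) (nat_lit 901844732) (nat_lit 1216) (nat_lit 611000654) (nat_lit 1292) (nat_lit 5725293842) (nat_lit 244) (nat_lit 5) (nat_lit 260) (nat_lit 5) (nat_lit 261) (nat_lit 5) (nat_lit 356) (nat_lit 335) (nat_lit 329)) (XT.nd (nat_lit 78) (nat_lit 684) (nat_lit 0) (XT.lf (nat_lit 0) (nat_lit 2001188165) (nat_lit 608) (nat_lit 4640241771) (nat_lit 684) (nat_lit 708643578) (nat_lit 236) (nat_lit 5) (nat_lit 244) (nat_lit 5) (nat_lit 245) (nat_lit 5) (nat_lit 357) (nat_lit 335) (nat_lit 328)) (XT.lf (nat_lit 0) (nat_lit 3182817456) (nat_lit 608) (nat_lit 1152215452) (nat_lit 684) (nat_lit 3135419604) (nat_lit 227) (nat_lit 5) (nat_lit 235) (nat_lit 5) (nat_lit 236) (nat_lit 5) (nat_lit 358) (nat_lit 335) (nat_lit 327))))) (XT.nd (nat_lit 234)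 (nat_lit 2052) (nat_lit 0) (XT.nd (nat_lit 78) (nat_lit 1140) (nat_lit 0) (XT.lf (nat_lit 0) (nat_lit 1873135061) (nat_lit 684) (nat_lit 3155950336) (nat_lit 76) (nat_lit 2570292174) (nat_lit 218) (nat_lit 5) (nat_lit 227) (nat_lit 5) (nat_lit 219) (nat_lit 5) (nat_lit 359) (nat_lit 335) (nat_lit 326)) (XT.nd (nat_lit 78) (nat_lit 608) (nat_lit 0) (XT.lf (nat_lit 0) (nat_lit 5788522783) (nat_lit 532) (nat_lit 1168801630) (nat_lit 608) (nat_lit 779894853) (nat_lit 211) (nat_lit 5) (nat_lit 218) (nat_lit 5) (nat_lit 219) (nat_lit 5) (nat_lit 360) (nat_lit 335) (nat_lit 325)) (XT.lf (nat_lit 0) (nat_lit 4242378691) (nat_lit 608) (nat_lit 695019506) (nat_lit 76) (nat_lit 2945935380) (nat_lit 203) (nat_lit 5) (nat_lit 211) (nat_lit 5) (nat_lit 204) (nat_lit 5) (nat_lit 361) (nat_lit 335) (nat_lit 324)))) (XT.nd (nat_lit 78) (nat_lit 988) (nat_lit 0) (XT.lf (nat_lit 0) (nat_lit 652429725) (nat_lit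 532) (nat_lit 694544501) (nat_lit 608) (nat_lit 6691841770) (nat_lit 189) (nat_lit 5) (nat_lit 196) (nat_lit 5) (nat_lit 197) (nat_lit 5) (nat_lit 362) (nat_lit 335) (nat_lit 323)) (XT.nd (nat_lit 78) (nat_lit 532) (nat_lit 0) (XT.lf (nat_lit 0) (nat_lit 2053972323) (nat_lit 456) (nat_lit 4402448593) (nat_lit 532) (nat_lit 1746231578) (nat_lit 183) (nat_lit 5) (nat_lit 189) (nat_lit 5) (nat_lit 190) (nat_lit 5) (nat_lit 363) (nat_lit 335) (nat_lit 322)) (XT.lf (nat_lit 0) (nat_lit 3298936843) (nat_lit 532) (nat_lit 4851098861) (nat_lit 76) (nat_lit 226142884) (nat_lit 176) (nat_lit 5) (nat_lit 183) (nat_lit 5) (nat_lit 177) (nat_lit 5) (nat_lit 364) (nat_lit 335) (nat_lit 321)))))) (XT.nd (nat_lit 468) (nat_lit 2660) (nat_lit 0) (XT.nd (nat_lit 234) (nat_lit 1520) (nat_lit 0) (XT.nd (nat_lit 78) (nat_lit 988) (nat_lit 0) (XT.lf (nat_lit 0) (nat_lit 5043112384) (nat_lit 380) (nat_lit 3480669136)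 (nat_lit 456) (nat_lit 35248848) (nat_lit 171) (nat_lit 5) (nat_lit 176) (nat_lit 5) (nat_lit 177) (nat_lit 5) (nat_lit 365) (nat_lit 335) (nat_lit 320)) (XT.nd (nat_lit 78) (nat_lit 456) (nat_lit 0) (XT.lf (nat_lit 0) (nat_lit 5096401341) (nat_lit 532) (nat_lit 2148488745) (nat_lit 76) (nat_lit 1506481278) (nat_lit 164) (nat_lit 5) (nat_lit 171) (nat_lit 5) (nat_lit 165) (nat_lit 5) (nat_lit 366) (nat_lit 335) (nat_lit 319)) (XT.lf (nat_lit 0) (nat_lit 1468695190) (nat_lit 456) (nat_lit 736982316) (nat_lit 76) (nat_lit 6748224059) (nat_lit 158) (nat_lit 5) (nat_lit 164) (nat_lit 5) (nat_lit 159) (nat_lit 5) (nat_lit 367) (nat_lit 335) (nat_lit 318)))) (XT.nd (nat_lit 78) (nat_lit 760) (nat_lit 0) (XT.lf (nat_lit 0) (nat_lit 713051363) (nat_lit 380) (nat_lit 6037697488) (nat_lit 456) (nat_lit 2415450211) (nat_lit 148) (nat_lit 5) (nat_lit 153) (nat_lit 5) (nat_lit 154) (nat_lit 5) (nat_lit 368)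 (nat_lit 335) (nat_lit 317)) (XT.nd (nat_lit 78) (nat_lit 304) (nat_lit 0) (XT.lf (nat_lit 0) (nat_lit 2217045919) (nat_lit 380) (nat_lit 609942699) (nat_lit 456) (nat_lit 6562061927) (nat_lit 142) (nat_lit 5) (nat_lit 147) (nat_lit 5) (nat_lit 148) (nat_lit 5) (nat_lit 369) (nat_lit 335) (nat_lit 316)) (XT.lf (nat_lit 0) (nat_lit 3733545549) (nat_lit 304) (nat_lit 4550387819) (nat_lit 380) (nat_lit 1338376689) (nat_lit 138) (nat_lit 5) (nat_lit 142) (nat_lit 5) (nat_lit 143) (nat_lit 5) (nat_lit 370) (nat_lit 335) (nat_lit 315))))) (XT.nd (nat_lit 234) (nat_lit 1520) (nat_lit 0) (XT.nd (nat_lit 78) (nat_lit 684) (nat_lit 0) (XT.lf (nat_lit 0) (nat_lit 4042575717) (nat_lit 456) (nat_lit 4592097478) (nat_lit 76) (nat_lit 1232102804) (nat_lit 132) (nat_lit 5) (nat_lit 138) (nat_lit 5) (nat_lit 133) (nat_lit 5) (nat_lit 371) (nat_lit 335) (nat_lit 314)) (XT.nd (nat_lit 78) (nat_lit 380) (nat_lit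 0) (XT.lf (nat_lit 0) (nat_lit 6835156302) (nat_lit 304) (nat_lit 2841252316) (nat_lit 380) (nat_lit 446360458) (nat_lit 128) (nat_lit 5) (nat_lit 132) (nat_lit 5) (nat_lit 133) (nat_lit 5) (nat_lit 372) (nat_lit 335) (nat_lit 313)) (XT.lf (nat_lit 0) (nat_lit 5102103483) (nat_lit 380) (nat_lit 2002039727) (nat_lit 76) (nat_lit 3285865847) (nat_lit 123) (nat_lit 5) (nat_lit 128) (nat_lit 5) (nat_lit 124) (nat_lit 5) (nat_lit 373) (nat_lit 335) (nat_lit 312)))) (XT.nd (nat_lit 156) (nat_lit 608) (nat_lit 0) (XT.nd (nat_lit 78) (nat_lit 532) (nat_lit 0) (XT.lf (nat_lit 0) (nat_lit 249252028) (nat_lit 380) (nat_lit 694720921) (nat_lit 76) (nat_lit 9726299397) (nat_lit 118) (nat_lit 5) (nat_lit 123) (nat_lit 5) (nat_lit 119) (nat_lit 5) (nat_lit 374) (nat_lit 335) (nat_lit 311)) (XT.lf (nat_lit 0) (nat_lit 569665579) (nat_lit 228) (nat_lit 5427610613) (nat_lit 304) (nat_lit 4964438889) (nat_lit 111)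 (nat_lit 5) (nat_lit 114) (nat_lit 5) (nat_lit 115) (nat_lit 5) (nat_lit 375) (nat_lit 335) (nat_lit 310))) (XT.nd (nat_lit 78) (nat_lit 228) (nat_lit 0) (XT.lf (nat_lit 0) (nat_lit 765189847) (nat_lit 380) (nat_lit 9400776571) (nat_lit 76) (nat_lit 1101123766) (nat_lit 106) (nat_lit 5) (nat_lit 111) (nat_lit 5) (nat_lit 107) (nat_lit 5) (nat_lit 376) (nat_lit 335) (nat_lit 309)) (XT.lf (nat_lit 0) (nat_lit 3097154950) (nat_lit 228) (nat_lit 3630366202) (nat_lit 304) (nat_lit 4857305027) (nat_lit 103) (nat_lit 5) (nat_lit 106) (nat_lit 5) (nat_lit 107) (nat_lit 5) (nat_lit 377) (nat_lit 335) (nat_lit 308))))))) (XT.nd (nat_lit 936) (nat_lit 1900) (nat_lit 0) (XT.nd (nat_lit 468) (nat_lit 1292) (nat_lit 0) (XT.nd (nat_lit 234) (nat_lit 684) (nat_lit 0) (XT.nd (nat_lit 78) (nat_lit 532) (nat_lit 0) (XT.lf (nat_lit 0) (nat_lit 1078655483) (nat_lit 304) (nat_lit 7599324613) (nat_lit 76) (nat_lit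 3239291280) (nat_lit 99) (nat_lit 5) (nat_lit 103) (nat_lit 5) (nat_lit 100) (nat_lit 5) (nat_lit 378) (nat_lit 335) (nat_lit 307)) (XT.nd (nat_lit 78) (nat_lit 304) (nat_lit 0) (XT.lf (nat_lit 0) (nat_lit 5477016850) (nat_lit 228) (nat_lit 1774960681) (nat_lit 304) (nat_lit 5011717458) (nat_lit 96) (nat_lit 5) (nat_lit 99) (nat_lit 5) (nat_lit 100) (nat_lit 5) (nat_lit 379) (nat_lit 335) (nat_lit 306)) (XT.lf (nat_lit 0) (nat_lit 1146813602) (nat_lit 304) (nat_lit 6038336347) (nat_lit 76) (nat_lit 5440141632) (nat_lit 92) (nat_lit 5) (nat_lit 96) (nat_lit 5) (nat_lit 93) (nat_lit 5) (nat_lit 380) (nat_lit 335) (nat_lit 305)))) (XT.nd (nat_lit 78) (nat_lit 456) (nat_lit 0) (XT.lf (nat_lit 0) (nat_lit 7542606903) (nat_lit 304) (nat_lit 5369546724) (nat_lit 76) (nat_lit 90362172) (nat_lit 89) (nat_lit 5) (nat_lit 93) (nat_lit 5) (nat_lit 90) (nat_lit 5) (nat_lit 381) (nat_lit 335) (nat_lit 304))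 (XT.nd (nat_lit 78) (nat_lit 152) (nat_lit 0) (XT.lf (nat_lit 0) (nat_lit 934389932) (nat_lit 304) (nat_lit 4804089879) (nat_lit 76) (nat_lit 7657150320) (nat_lit 85) (nat_lit 5) (nat_lit 89) (nat_lit 5) (nat_lit 86) (nat_lit 5) (nat_lit 382) (nat_lit 335) (nat_lit 303)) (XT.lf (nat_lit 0) (nat_lit 7577485072) (nat_lit 228) (nat_lit 4346560047) (nat_lit 76) (nat_lit 1881496177) (nat_lit 83) (nat_lit 5) (nat_lit 86) (nat_lit 5) (nat_lit 84) (nat_lit 5) (nat_lit 383) (nat_lit 335) (nat_lit 302))))) (XT.nd (nat_lit 234) (nat_lit 608) (nat_lit 0) (XT.nd (nat_lit 78) (nat_lit 380) (nat_lit 0) (XT.lf (nat_lit 0) (nat_lit 396488073) (nat_lit 304) (nat_lit 3999168336) (nat_lit 76) (nat_lit 9837644941) (nat_lit 79) (nat_lit 5) (nat_lit 83) (nat_lit 5) (nat_lit 80) (nat_lit 5) (nat_lit 384) (nat_lit 335) (nat_lit 301)) (XT.nd (nat_lit 78) (nat_lit 228) (nat_lit 0) (XT.lf (nat_lit 0) (nat_lit 7291149069)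 (nat_lit 228) (nat_lit 3812559152) (nat_lit 76) (nat_lit 3574880570) (nat_lit 77) (nat_lit 5) (nat_lit 80) (nat_lit 5) (nat_lit 78) (nat_lit 5) (nat_lit 385) (nat_lit 335) (nat_lit 300)) (XT.lf (nat_lit 0) (nat_lit 11392873040) (nat_lit 228) (nat_lit 3217588633) (nat_lit 304) (nat_lit 533300574) (nat_lit 74) (nat_lit 5) (nat_lit 77) (nat_lit 5) (nat_lit 78) (nat_lit 5) (nat_lit 386) (nat_lit 335) (nat_lit 299)))) (XT.nd (nat_lit 78) (nat_lit 380) (nat_lit 0) (XT.lf (nat_lit 0) (nat_lit 6623393172) (nat_lit 228) (nat_lit 3900921665) (nat_lit 76) (nat_lit 5103279348) (nat_lit 71) (nat_lit 5) (nat_lit 74) (nat_lit 5) (nat_lit 72) (nat_lit 5) (nat_lit 387) (nat_lit 335) (nat_lit 298)) (XT.nd (nat_lit 78) (nat_lit 228) (nat_lit 0) (XT.lf (nat_lit 0) (nat_lit 11925114469) (nat_lit 152) (nat_lit 2277775267) (nat_lit 228) (nat_lit 1930306556) (nat_lit 69) (nat_lit 5) (nat_lit 71) (nat_lit 5) (nat_lit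 72) (nat_lit 5) (nat_lit 388) (nat_lit 335) (nat_lit 297)) (XT.lf (nat_lit 0) (nat_lit 5500276553) (nat_lit 228) (nat_lit 4770664815) (nat_lit 76) (nat_lit 6388259501) (nat_lit 66) (nat_lit 5) (nat_lit 69) (nat_lit 5) (nat_lit 67) (nat_lit 5) (nat_lit 389) (nat_lit 335) (nat_lit 296)))))) (XT.nd (nat_lit 468) (nat_lit 912) (nat_lit 0) (XT.nd (nat_lit 234) (nat_lit 456) (nat_lit 0) (XT.nd (nat_lit 78) (nat_lit 380) (nat_lit 0) (XT.lf (nat_lit 0) (nat_lit 11667423547) (nat_lit 152) (nat_lit 1669114552) (nat_lit 228) (nat_lit 3872186977) (nat_lit 64) (nat_lit 5) (nat_lit 66) (nat_lit 5) (nat_lit 67) (nat_lit 5) (nat_lit 390) (nat_lit 335) (nat_lit 295)) (XT.nd (nat_lit 78) (nat_lit 152) (nat_lit 0) (XT.lf (nat_lit 0) (nat_lit 3831828677) (nat_lit 228) (nat_lit 6611316642) (nat_lit 76) (nat_lit 7337703760) (nat_lit 61) (nat_lit 5) (nat_lit 64) (nat_lit 5) (nat_lit 62) (nat_lit 5) (nat_lit 391) (nat_lit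 335) (nat_lit 294)) (XT.lf (nat_lit 0) (nat_lit 10419795506) (nat_lit 152) (nat_lit 1496058242) (nat_lit 228) (nat_lit 6462341746) (nat_lit 59) (nat_lit 5) (nat_lit 61) (nat_lit 5) (nat_lit 62) (nat_lit 5) (nat_lit 392) (nat_lit 335) (nat_lit 293)))) (XT.nd (nat_lit 78) (nat_lit 228) (nat_lit 0) (XT.lf (nat_lit 0) (nat_lit 1509330739) (nat_lit 228) (nat_lit 9648618238) (nat_lit 76) (nat_lit 7842930440) (nat_lit 56) (nat_lit 5) (nat_lit 59) (nat_lit 5) (nat_lit 57) (nat_lit 5) (nat_lit 393) (nat_lit 335) (nat_lit 292)) (XT.nd (nat_lit 78) (nat_lit 76) (nat_lit 0) (XT.lf (nat_lit 0) (nat_lit 7943568088) (nat_lit 152) (nat_lit 1881790487) (nat_lit 228) (nat_lit 9825048314) (nat_lit 54) (nat_lit 5) (nat_lit 56) (nat_lit 5) (nat_lit 57) (nat_lit 5) (nat_lit 394) (nat_lit 335) (nat_lit 291)) (XT.lf (nat_lit 0) (nat_lit 6161314296) (nat_lit 76) (nat_lit 12537170189) (nat_lit 152) (nat_lit 1629698346)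 (nat_lit 53) (nat_lit 5) (nat_lit 54) (nat_lit 5) (nat_lit 55) (nat_lit 4) (nat_lit 395) (nat_lit 335) (nat_lit 290))))) (XT.nd (nat_lit 234) (nat_lit 532) (nat_lit 0) (XT.nd (nat_lit 78) (nat_lit 152) (nat_lit 0) (XT.lf (nat_lit 0) (nat_lit 3954284946) (nat_lit 152) (nat_lit 2971921456) (nat_lit 228) (nat_lit 14109032690) (nat_lit 50) (nat_lit 5) (nat_lit 52) (nat_lit 5) (nat_lit 53) (nat_lit 5) (nat_lit 396) (nat_lit 335) (nat_lit 289)) (XT.nd (nat_lit 78) (nat_lit 76) (nat_lit 0) (XT.lf (nat_lit 0) (nat_lit 1279250538) (nat_lit 76) (nat_lit 14735121009) (nat_lit 152) (nat_lit 5758657139) (nat_lit 49) (nat_lit 5) (nat_lit 50) (nat_lit 5) (nat_lit 51) (nat_lit 4) (nat_lit 397) (nat_lit 335) (nat_lit 288)) (XT.lf (nat_lit 0) (nat_lit 3070259446) (nat_lit 152) (nat_lit 1849853960) (nat_lit 76) (nat_lit 17623143210) (nat_lit 48) (nat_lit 5) (nat_lit 50) (nat_lit 5) (nat_lit 49) (nat_lit 5) (nat_lit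 398) (nat_lit 335) (nat_lit 287)))) (XT.nd (nat_lit 156) (nat_lit 304) (nat_lit 0) (XT.nd (nat_lit 78) (nat_lit 76) (nat_lit 0) (XT.lf (nat_lit 0) (nat_lit 12364072681) (nat_lit 228) (nat_lit 5537764200) (nat_lit 76) (nat_lit 5444180635) (nat_lit 46) (nat_lit 5) (nat_lit 49) (nat_lit 5) (nat_lit 47) (nat_lit 4) (nat_lit 399) (nat_lit 335) (nat_lit 286)) (XT.lf (nat_lit 0) (nat_lit 14379446038) (nat_lit 76) (nat_lit 7868496930) (nat_lit 152) (nat_lit 1937220623) (nat_lit 45) (nat_lit 5) (nat_lit 46) (nat_lit 5) (nat_lit 47) (nat_lit 4) (nat_lit 400) (nat_lit 335) (nat_lit 285))) (XT.nd (nat_lit 78) (nat_lit 76) (nat_lit 0) (XT.lf (nat_lit 0) (nat_lit 7516223623) (nat_lit 228) (nat_lit 14765291693) (nat_lit 76) (nat_lit 2779459049) (nat_lit 42) (nat_lit 5) (nat_lit 45) (nat_lit 5) (nat_lit 43) (nat_lit 4) (nat_lit 401) (nat_lit 335) (nat_lit 284)) (XT.lf (nat_lit 0) (nat_lit 5491090569) (nat_lit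 76) (nat_lit 12067435025) (nat_lit 152) (nat_lit 8416794320) (nat_lit 41) (nat_lit 5) (nat_lit 42) (nat_lit 5) (nat_lit 43) (nat_lit 4) (nat_lit 402) (nat_lit 335) (nat_lit 283))))))))
noncomputable def xc40 : XT := (XT.nd (nat_lit 1872) (nat_lit 456) (nat_lit 0) (XT.nd (nat_lit 936) (nat_lit 760) (nat_lit 0) (XT.nd (nat_lit 468) (nat_lit 456) (nat_lit 0) (XT.nd (nat_lit 234) (nat_lit 304) (nat_lit 0) (XT.nd (nat_lit 78) (nat_lit 228) (nat_lit 0) (XT.lf (nat_lit 0) (nat_lit 1221621199) (nat_lit 152) (nat_lit 17672033) (nat_lit 76) (nat_lit 25693454084) (nat_lit 40) (nat_lit 5) (nat_lit 42) (nat_lit 5) (nat_lit 41) (nat_lit 5) (nat_lit 403) (nat_lit 335) (nat_lit 282)) (XT.nd (nat_lit 78) (nat_lit 76) (nat_lit 0) (XT.lf (nat_lit 0) (nat_lit 11404516986) (nat_lit 228) (nat_lit 6357075966) (nat_lit 76) (nat_lit 10166860442) (nat_lit 38) (nat_lit 5) (nat_lit 41) (nat_lit 5) (nat_lit 39) (nat_lit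 4) (nat_lit 404) (nat_lit 335) (nat_lit 281)) (XT.lf (nat_lit 0) (nat_lit 15420924165) (nat_lit 76) (nat_lit 6765169703) (nat_lit 152) (nat_lit 6785170819) (nat_lit 37) (nat_lit 5) (nat_lit 38) (nat_lit 5) (nat_lit 39) (nat_lit 4) (nat_lit 405) (nat_lit 335) (nat_lit 280)))) (XT.nd (nat_lit 78) (nat_lit 76) (nat_lit 0) (XT.lf (nat_lit 0) (nat_lit 3497004559) (nat_lit 228) (nat_lit 21755717495) (nat_lit 76) (nat_lit 4808799600) (nat_lit 34) (nat_lit 5) (nat_lit 37) (nat_lit 5) (nat_lit 35) (nat_lit 4) (nat_lit 406) (nat_lit 335) (nat_lit 279)) (XT.nd (nat_lit 78) (nat_lit 0) (nat_lit 0) (XT.lf (nat_lit 0) (nat_lit 69973763) (nat_lit 76) (nat_lit 14225713779) (nat_lit 152) (nat_lit 16904312015) (nat_lit 33) (nat_lit 5) (nat_lit 34) (nat_lit 5) (nat_lit 35) (nat_lit 4) (nat_lit 407) (nat_lit 335) (nat_lit 278)) (XT.lf (nat_lit 0) (nat_lit 23316224175) (nat_lit 76) (nat_lit 2475685806) (nat_lit 152)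 (nat_lit 6598768244) (nat_lit 33) (nat_lit 5) (nat_lit 34) (nat_lit 5) (nat_lit 35) (nat_lit 4) (nat_lit 408) (nat_lit 335) (nat_lit 277))))) (XT.nd (nat_lit 234) (nat_lit 228) (nat_lit 0) (XT.nd (nat_lit 78) (nat_lit 76) (nat_lit 0) (XT.lf (nat_lit 0) (nat_lit 4308345394) (nat_lit 152) (nat_lit 19533764705) (nat_lit 76) (nat_lit 9792507428) (nat_lit 31) (nat_lit 5) (nat_lit 33) (nat_lit 5) (nat_lit 32) (nat_lit 4) (nat_lit 409) (nat_lit 335) (nat_lit 276)) (XT.nd (nat_lit 78) (nat_lit 0) (nat_lit 0) (XT.lf (nat_lit 0) (nat_lit 3544724998) (nat_lit 76) (nat_lit 12171845406) (nat_lit 152) (nat_lit 19219460938) (nat_lit 30) (nat_lit 5) (nat_lit 31) (nat_lit 5) (nat_lit 32) (nat_lit 4) (nat_lit 410) (nat_lit 335) (nat_lit 275)) (XT.lf (nat_lit 0) (nat_lit 27837969736) (nat_lit 152) (nat_lit 8230356543) (nat_lit 0) (nat_lit 229910895) (nat_lit 30) (nat_lit 5) (nat_lit 32) (nat_lit 4) (nat_lit 30)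 (nat_lit 4) (nat_lit 411) (nat_lit 335) (nat_lit 274)))) (XT.nd (nat_lit 78) (nat_lit 76) (nat_lit 0) (XT.lf (nat_lit 0) (nat_lit 3003807906) (nat_lit 152) (nat_lit 21580960027) (nat_lit 76) (nat_lit 13136302769) (nat_lit 28) (nat_lit 5) (nat_lit 30) (nat_lit 5) (nat_lit 29) (nat_lit 4) (nat_lit 412) (nat_lit 335) (nat_lit 273)) (XT.nd (nat_lit 78) (nat_lit 0) (nat_lit 0) (XT.lf (nat_lit 0) (nat_lit 2543135083) (nat_lit 76) (nat_lit 12377600387) (nat_lit 152) (nat_lit 24290162608) (nat_lit 27) (nat_lit 5) (nat_lit 28) (nat_lit 5) (nat_lit 29) (nat_lit 4) (nat_lit 413) (nat_lit 335) (nat_lit 272)) (XT.lf (nat_lit 0) (nat_lit 27606292894) (nat_lit 152) (nat_lit 12557472949) (nat_lit 0) (nat_lit 606271014) (nat_lit 27) (nat_lit 5) (nat_lit 29) (nat_lit 4) (nat_lit 27) (nat_lit 4) (nat_lit 414) (nat_lit 335) (nat_lit 271)))))) (XT.nd (nat_lit 468) (nat_lit 304) (nat_lit 0) (XT.nd (nat_lit 234) (nat_lit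 228) (nat_lit 0) (XT.nd (nat_lit 78) (nat_lit 152) (nat_lit 0) (XT.lf (nat_lit 0) (nat_lit 12780989409) (nat_lit 76) (nat_lit 28339782951) (nat_lit 76) (nat_lit 1280524258) (nat_lit 26) (nat_lit 4) (nat_lit 27) (nat_lit 5) (nat_lit 27) (nat_lit 4) (nat_lit 415) (nat_lit 335) (nat_lit 270)) (XT.nd (nat_lit 78) (nat_lit 76) (nat_lit 0) (XT.lf (nat_lit 0) (nat_lit 11056835137) (nat_lit 152) (nat_lit 4670299376) (nat_lit 76) (nat_lit 28381404948) (nat_lit 25) (nat_lit 5) (nat_lit 27) (nat_lit 5) (nat_lit 26) (nat_lit 4) (nat_lit 416) (nat_lit 335) (nat_lit 269)) (XT.lf (nat_lit 0) (nat_lit 21845389028) (nat_lit 76) (nat_lit 2299829331) (nat_lit 152) (nat_lit 21750729530) (nat_lit 24) (nat_lit 5) (nat_lit 25) (nat_lit 5) (nat_lit 26) (nat_lit 4) (nat_lit 417) (nat_lit 335) (nat_lit 268)))) (XT.nd (nat_lit 78) (nat_lit 152) (nat_lit 0) (XT.lf (nat_lit 0) (nat_lit 1841748726) (nat_lit 76) (nat_lit 36177395045)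 (nat_lit 76) (nat_lit 9749652103) (nat_lit 23) (nat_lit 4) (nat_lit 24) (nat_lit 5) (nat_lit 24) (nat_lit 4) (nat_lit 418) (nat_lit 335) (nat_lit 267)) (XT.nd (nat_lit 78) (nat_lit 76) (nat_lit 0) (XT.lf (nat_lit 0) (nat_lit 3021498716) (nat_lit 152) (nat_lit 20341415376) (nat_lit 76) (nat_lit 26364782610) (nat_lit 22) (nat_lit 5) (nat_lit 24) (nat_lit 5) (nat_lit 23) (nat_lit 4) (nat_lit 419) (nat_lit 335) (nat_lit 266)) (XT.lf (nat_lit 0) (nat_lit 6463854072) (nat_lit 76) (nat_lit 9784408776) (nat_lit 152) (nat_lit 35532825468) (nat_lit 21) (nat_lit 5) (nat_lit 22) (nat_lit 5) (nat_lit 23) (nat_lit 4) (nat_lit 420) (nat_lit 335) (nat_lit 265))))) (XT.nd (nat_lit 234) (nat_lit 152) (nat_lit 0) (XT.nd (nat_lit 78) (nat_lit 152) (nat_lit 0) (XT.lf (nat_lit 0) (nat_lit 30346466381) (nat_lit 152) (nat_lit 19027270895) (nat_lit 0) (nat_lit 4557111570) (nat_lit 21) (nat_lit 5) (nat_lit 23) (nat_lit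 4) (nat_lit 21) (nat_lit 4) (nat_lit 421) (nat_lit 335) (nat_lit 264)) (XT.nd (nat_lit 78) (nat_lit 76) (nat_lit 0) (XT.lf (nat_lit 0) (nat_lit 8563835607) (nat_lit 76) (nat_lit 36724568015) (nat_lit 76) (nat_lit 10895531332) (nat_lit 20) (nat_lit 4) (nat_lit 21) (nat_lit 5) (nat_lit 21) (nat_lit 4) (nat_lit 422) (nat_lit 335) (nat_lit 263)) (XT.lf (nat_lit 0) (nat_lit 2536783584) (nat_lit 152) (nat_lit 20717158265) (nat_lit 76) (nat_lit 35290343624) (nat_lit 19) (nat_lit 5) (nat_lit 21) (nat_lit 5) (nat_lit 20) (nat_lit 4) (nat_lit 423) (nat_lit 335) (nat_lit 262)))) (XT.nd (nat_lit 78) (nat_lit 76) (nat_lit 0) (XT.lf (nat_lit 0) (nat_lit 7490755038) (nat_lit 76) (nat_lit 8959282698) (nat_lit 152) (nat_lit 44568341677) (nat_lit 18) (nat_lit 5) (nat_lit 19) (nat_lit 5) (nat_lit 20) (nat_lit 4) (nat_lit 424) (nat_lit 335) (nat_lit 261)) (XT.nd (nat_lit 78) (nat_lit 76) (nat_lit 0) (XT.lf (nat_lit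 0) (nat_lit 31293867545) (nat_lit 152) (nat_lit 26203048207) (nat_lit 0) (nat_lit 6112216806) (nat_lit 18) (nat_lit 5) (nat_lit 20) (nat_lit 4) (nat_lit 18) (nat_lit 4) (nat_lit 425) (nat_lit 335) (nat_lit 260)) (XT.lf (nat_lit 0) (nat_lit 2372198801) (nat_lit 76) (nat_lit 44584139561) (nat_lit 76) (nat_lit 19370793313) (nat_lit 17) (nat_lit 4) (nat_lit 18) (nat_lit 5) (nat_lit 18) (nat_lit 4) (nat_lit 426) (nat_lit 335) (nat_lit 259))))))) (XT.nd (nat_lit 47034) (nat_lit 0) (nat_lit 14592) (XT.nd (nat_lit 468) (nat_lit 228) (nat_lit 0) (XT.nd (nat_lit 234) (nat_lit 76) (nat_lit 0) (XT.nd (nat_lit 78) (nat_lit 152) (nat_lit 0) (XT.lf (nat_lit 0) (nat_lit 32854402136) (nat_lit 76) (nat_lit 30781570786) (nat_lit 76) (nat_lit 5538038339) (nat_lit 17) (nat_lit 4) (nat_lit 18) (nat_lit 5) (nat_lit 18) (nat_lit 4) (nat_lit 427) (nat_lit 335) (nat_lit 258)) (XT.nd (nat_lit 78) (nat_lit 76) (nat_lit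 0) (XT.lf (nat_lit 0) (nat_lit 8776662832) (nat_lit 152) (nat_lit 7455655657) (nat_lit 76) (nat_lit 55929356516) (nat_lit 16) (nat_lit 5) (nat_lit 18) (nat_lit 5) (nat_lit 17) (nat_lit 4) (nat_lit 428) (nat_lit 335) (nat_lit 257)) (XT.lf (nat_lit 0) (nat_lit 23184435193) (nat_lit 76) (nat_lit 699356024) (nat_lit 152) (nat_lit 51407550451) (nat_lit 15) (nat_lit 5) (nat_lit 16) (nat_lit 5) (nat_lit 17) (nat_lit 4) (nat_lit 429) (nat_lit 335) (nat_lit 256)))) (XT.nd (nat_lit 78) (nat_lit 76) (nat_lit 0) (XT.lf (nat_lit 0) (nat_lit 39941815261) (nat_lit 152) (nat_lit 23276090534) (nat_lit 0) (nat_lit 15353721132) (nat_lit 15) (nat_lit 5) (nat_lit 17) (nat_lit 4) (nat_lit 15) (nat_lit 4) (nat_lit 430) (nat_lit 335) (nat_lit 255)) (XT.nd (nat_lit 78) (nat_lit 0) (nat_lit 0) (XT.lf (nat_lit 0) (nat_lit 7067677563) (nat_lit 76) (nat_lit 49779560201) (nat_lit 76) (nat_lit 25167355140) (nat_lit 14) (nat_lit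 4) (nat_lit 15) (nat_lit 5) (nat_lit 15) (nat_lit 4) (nat_lit 431) (nat_lit 335) (nat_lit 254)) (XT.lf (nat_lit 0) (nat_lit 39357294184) (nat_lit 76) (nat_lit 35450641021) (nat_lit 76) (nat_lit 10815473167) (nat_lit 14) (nat_lit 4) (nat_lit 15) (nat_lit 5) (nat_lit 15) (nat_lit 4) (nat_lit 432) (nat_lit 335) (nat_lit 253))))) (XT.nd (nat_lit 234) (nat_lit 76) (nat_lit 0) (XT.nd (nat_lit 78) (nat_lit 76) (nat_lit 0) (XT.lf (nat_lit 0) (nat_lit 4142518287) (nat_lit 152) (nat_lit 16247725056) (nat_lit 76) (nat_lit 69022049924) (nat_lit 13) (nat_lit 5) (nat_lit 15) (nat_lit 5) (nat_lit 14) (nat_lit 4) (nat_lit 433) (nat_lit 335) (nat_lit 252)) (XT.nd (nat_lit 78) (nat_lit 0) (nat_lit 0) (XT.lf (nat_lit 0) (nat_lit 15410214850) (nat_lit 76) (nat_lit 4337607790) (nat_lit 152) (nat_lit 73635895586) (nat_lit 12) (nat_lit 5) (nat_lit 13) (nat_lit 5) (nat_lit 14) (nat_lit 4) (nat_lit 434) (nat_lit 335)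 (nat_lit 251)) (XT.lf (nat_lit 0) (nat_lit 36396070003) (nat_lit 152) (nat_lit 48732045901) (nat_lit 0) (nat_lit 12417719290) (nat_lit 12) (nat_lit 5) (nat_lit 14) (nat_lit 4) (nat_lit 12) (nat_lit 4) (nat_lit 435) (nat_lit 335) (nat_lit 250)))) (XT.nd (nat_lit 78) (nat_lit 76) (nat_lit 0) (XT.lf (nat_lit 0) (nat_lit 53895213495) (nat_lit 152) (nat_lit 18121769570) (nat_lit 0) (nat_lit 29898521475) (nat_lit 12) (nat_lit 5) (nat_lit 14) (nat_lit 4) (nat_lit 12) (nat_lit 4) (nat_lit 436) (nat_lit 335) (nat_lit 249)) (XT.nd (nat_lit 46176) (nat_lit 0) (nat_lit 26372) (XT.lf (nat_lit 0) (nat_lit 14249971231) (nat_lit 76) (nat_lit 58132230215) (nat_lit 76) (nat_lit 34118070283) (nat_lit 11) (nat_lit 4) (nat_lit 12) (nat_lit 5) (nat_lit 12) (nat_lit 4) (nat_lit 437) (nat_lit 335) (nat_lit 248)) (XT.lf (nat_lit 0) (nat_lit 1115722973) (nat_lit 532) (nat_lit 1099710233) (nat_lit 532) (nat_lit 1099710233)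 (nat_lit 358) (nat_lit 4) (nat_lit 365) (nat_lit 5) (nat_lit 365) (nat_lit 4) (nat_lit 348) (nat_lit 336) (nat_lit 336)))))) (XT.nd (nat_lit 468) (nat_lit 6612) (nat_lit 0) (XT.nd (nat_lit 234) (nat_lit 2964) (nat_lit 0) (XT.nd (nat_lit 78) (nat_lit 1520) (nat_lit 0) (XT.lf (nat_lit 0) (nat_lit 2485397823) (nat_lit 608) (nat_lit 584072610) (nat_lit 684) (nat_lit 3612175638) (nat_lit 349) (nat_lit 5) (nat_lit 357) (nat_lit 5) (nat_lit 358) (nat_lit 4) (nat_lit 349) (nat_lit 336) (nat_lit 335)) (XT.nd (nat_lit 78) (nat_lit 760) (nat_lit 0) (XT.lf (nat_lit 0) (nat_lit 1577794643) (nat_lit 760) (nat_lit 3896971159) (nat_lit 76) (nat_lit 1266062006) (nat_lit 339) (nat_lit 5) (nat_lit 349) (nat_lit 5) (nat_lit 340) (nat_lit 4) (nat_lit 350) (nat_lit 336) (nat_lit 334)) (XT.lf (nat_lit 0) (nat_lit 3310496946) (nat_lit 760) (nat_lit 3442622387) (nat_lit 836) (nat_lit 54941710) (nat_lit 329) (nat_lit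 5) (nat_lit 339) (nat_lit 5) (nat_lit 340) (nat_lit 4) (nat_lit 351) (nat_lit 336) (nat_lit 333)))) (XT.nd (nat_lit 78) (nat_lit 2052) (nat_lit 0) (XT.lf (nat_lit 0) (nat_lit 3874275446) (nat_lit 836) (nat_lit 1135348888) (nat_lit 912) (nat_lit 1873529405) (nat_lit 317) (nat_lit 5) (nat_lit 328) (nat_lit 5) (nat_lit 329) (nat_lit 5) (nat_lit 352) (nat_lit 336) (nat_lit 332)) (XT.nd (nat_lit 78) (nat_lit 1064) (nat_lit 0) (XT.lf (nat_lit 0) (nat_lit 3127571896) (nat_lit 988) (nat_lit 2429086602) (nat_lit 76) (nat_lit 1409644094) (nat_lit 304) (nat_lit 5) (nat_lit 317) (nat_lit 5) (nat_lit 305) (nat_lit 5) (nat_lit 353) (nat_lit 336) (nat_lit 331)) (XT.lf (nat_lit 0) (nat_lit 1099980312) (nat_lit 1064) (nat_lit 1757456390) (nat_lit 76) (nat_lit 4200243646) (nat_lit 290) (nat_lit 5) (nat_lit 304) (nat_lit 5) (nat_lit 291) (nat_lit 5) (nat_lit 354) (nat_lit 336) (nat_lit 330))))) (XT.nd (nat_lit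 234) (nat_lit 2432) (nat_lit 0) (XT.nd (nat_lit 78) (nat_lit 3116) (nat_lit 0) (XT.lf (nat_lit 0) (nat_lit 6045752550) (nat_lit 1140) (nat_lit 994279399) (nat_lit 76) (nat_lit 117406485) (nat_lit 276) (nat_lit 5) (nat_lit 291) (nat_lit 5) (nat_lit 277) (nat_lit 5) (nat_lit 355) (nat_lit 336) (nat_lit 329)) (XT.nd (nat_lit 78) (nat_lit 1900) (nat_lit 0) (XT.lf (nat_lit 0) (nat_lit 3776228183) (nat_lit 1216) (nat_lit 169504783) (nat_lit 76) (nat_lit 3319115575) (nat_lit 260) (nat_lit 5) (nat_lit 276) (nat_lit 5) (nat_lit 261) (nat_lit 5) (nat_lit 356) (nat_lit 336) (nat_lit 328)) (XT.lf (nat_lit 0) (nat_lit 771265357) (nat_lit 608) (nat_lit 571944480) (nat_lit 684) (nat_lit 6037839622) (nat_lit 235) (nat_lit 5) (nat_lit 243) (nat_lit 5) (nat_lit 244) (nat_lit 5) (nat_lit 357) (nat_lit 336) (nat_lit 327)))) (XT.nd (nat_lit 156) (nat_lit 1140) (nat_lit 0) (XT.nd (nat_lit 78) (nat_lit 684) (nat_lit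 0) (XT.lf (nat_lit 0) (nat_lit 1776572451) (nat_lit 608) (nat_lit 4467141917) (nat_lit 684) (nat_lit 1261444522) (nat_lit 227) (nat_lit 5) (nat_lit 235) (nat_lit 5) (nat_lit 236) (nat_lit 5) (nat_lit 358) (nat_lit 336) (nat_lit 326)) (XT.lf (nat_lit 0) (nat_lit 2863648929) (nat_lit 608) (nat_lit 698993891) (nat_lit 684) (nat_lit 4075388067) (nat_lit 218) (nat_lit 5) (nat_lit 226) (nat_lit 5) (nat_lit 227) (nat_lit 5) (nat_lit 359) (nat_lit 336) (nat_lit 325))) (XT.nd (nat_lit 78) (nat_lit 532) (nat_lit 0) (XT.lf (nat_lit 0) (nat_lit 725689836) (nat_lit 608) (nat_lit 3759587652) (nat_lit 76) (nat_lit 3294238728) (nat_lit 210) (nat_lit 5) (nat_lit 218) (nat_lit 5) (nat_lit 211) (nat_lit 5) (nat_lit 360) (nat_lit 336) (nat_lit 324)) (XT.lf (nat_lit 0) (nat_lit 5247289449) (nat_lit 532) (nat_lit 337123701) (nat_lit 608) (nat_lit 2345486780) (nat_lit 203) (nat_lit 5) (nat_lit 210) (nat_lit 5) (nat_lit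 211) (nat_lit 5) (nat_lit 361) (nat_lit 336) (nat_lit 323))))))))
noncomputable def xc41 : XT := (XT.nd (nat_lit 1872) (nat_lit 3496) (nat_lit 0) (XT.nd (nat_lit 936) (nat_lit 3496) (nat_lit 0) (XT.nd (nat_lit 468) (nat_lit 2660) (nat_lit 0) (XT.nd (nat_lit 234) (nat_lit 1368) (nat_lit 0) (XT.nd (nat_lit 78) (nat_lit 1520) (nat_lit 0) (XT.lf (nat_lit 0) (nat_lit 2488930409) (nat_lit 532) (nat_lit 1561364698) (nat_lit 76) (nat_lit 4038601651) (nat_lit 196) (nat_lit 5) (nat_lit 203) (nat_lit 5) (nat_lit 197) (nat_lit 5) (nat_lit 362) (nat_lit 336) (nat_lit 322)) (XT.nd (nat_lit 78) (nat_lit 988) (nat_lit 0) (XT.lf (nat_lit 0) (nat_lit 7435309862) (nat_lit 608) (nat_lit 366197200) (nat_lit 76) (nat_lit 456157275) (nat_lit 189) (nat_lit 5) (nat_lit 197) (nat_lit 5) (nat_lit 190) (nat_lit 5) (nat_lit 363) (nat_lit 336) (nat_lit 321)) (XT.lf (nat_lit 0) (nat_lit 868433444) (nat_lit 456) (nat_lit 3211854251)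 (nat_lit 532) (nat_lit 4354407370) (nat_lit 176) (nat_lit 5) (nat_lit 182) (nat_lit 5) (nat_lit 183) (nat_lit 5) (nat_lit 364) (nat_lit 336) (nat_lit 320)))) (XT.nd (nat_lit 78) (nat_lit 912) (nat_lit 0) (XT.lf (nat_lit 0) (nat_lit 524390569) (nat_lit 456) (nat_lit 6438871990) (nat_lit 76) (nat_lit 1658612728) (nat_lit 170) (nat_lit 5) (nat_lit 176) (nat_lit 5) (nat_lit 171) (nat_lit 5) (nat_lit 365) (nat_lit 336) (nat_lit 319)) (XT.nd (nat_lit 78) (nat_lit 456) (nat_lit 0) (XT.lf (nat_lit 0) (nat_lit 3521065707) (nat_lit 456) (nat_lit 2002108606) (nat_lit 532) (nat_lit 3295028969) (nat_lit 164) (nat_lit 5) (nat_lit 170) (nat_lit 5) (nat_lit 171) (nat_lit 5) (nat_lit 366) (nat_lit 336) (nat_lit 318)) (XT.lf (nat_lit 0) (nat_lit 1684441930) (nat_lit 456) (nat_lit 4116329826) (nat_lit 76) (nat_lit 3224002454) (nat_lit 158) (nat_lit 5) (nat_lit 164) (nat_lit 5) (nat_lit 159) (nat_lit 5) (nat_lit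 367) (nat_lit 336) (nat_lit 317))))) (XT.nd (nat_lit 234) (nat_lit 1444) (nat_lit 0) (XT.nd (nat_lit 78) (nat_lit 836) (nat_lit 0) (XT.lf (nat_lit 0) (nat_lit 6337429318) (nat_lit 380) (nat_lit 474770849) (nat_lit 456) (nat_lit 2429528414) (nat_lit 153) (nat_lit 5) (nat_lit 158) (nat_lit 5) (nat_lit 159) (nat_lit 5) (nat_lit 368) (nat_lit 336) (nat_lit 316)) (XT.nd (nat_lit 78) (nat_lit 380) (nat_lit 0) (XT.lf (nat_lit 0) (nat_lit 2676660688) (nat_lit 456) (nat_lit 1686411389) (nat_lit 76) (nat_lit 5105633678) (nat_lit 147) (nat_lit 5) (nat_lit 153) (nat_lit 5) (nat_lit 148) (nat_lit 5) (nat_lit 369) (nat_lit 336) (nat_lit 315)) (XT.lf (nat_lit 0) (nat_lit 7965585667) (nat_lit 456) (nat_lit 432717603) (nat_lit 76) (nat_lit 1308727254) (nat_lit 142) (nat_lit 5) (nat_lit 148) (nat_lit 5) (nat_lit 143) (nat_lit 5) (nat_lit 370) (nat_lit 336) (nat_lit 314)))) (XT.nd (nat_lit 78) (nat_lit 684) (nat_lit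 0) (XT.lf (nat_lit 0) (nat_lit 833592564) (nat_lit 380) (nat_lit 2677197291) (nat_lit 456) (nat_lit 6444943142) (nat_lit 132) (nat_lit 5) (nat_lit 137) (nat_lit 5) (nat_lit 138) (nat_lit 5) (nat_lit 371) (nat_lit 336) (nat_lit 313)) (XT.nd (nat_lit 78) (nat_lit 380) (nat_lit 0) (XT.lf (nat_lit 0) (nat_lit 2129433660) (nat_lit 304) (nat_lit 6869146111) (nat_lit 380) (nat_lit 1217549313) (nat_lit 128) (nat_lit 5) (nat_lit 132) (nat_lit 5) (nat_lit 133) (nat_lit 5) (nat_lit 372) (nat_lit 336) (nat_lit 312)) (XT.lf (nat_lit 0) (nat_lit 3424043358) (nat_lit 304) (nat_lit 768409861) (nat_lit 380) (nat_lit 6295763627) (nat_lit 123) (nat_lit 5) (nat_lit 127) (nat_lit 5) (nat_lit 128) (nat_lit 5) (nat_lit 373) (nat_lit 336) (nat_lit 311)))))) (XT.nd (nat_lit 468) (nat_lit 1672) (nat_lit 0) (XT.nd (nat_lit 234) (nat_lit 912) (nat_lit 0) (XT.nd (nat_lit 78) (nat_lit 608) (nat_lit 0) (XT.lf (nat_lit 0) (nat_lit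 4713951950) (nat_lit 304) (nat_lit 5171860830) (nat_lit 380) (nat_lit 886632648) (nat_lit 119) (nat_lit 5) (nat_lit 123) (nat_lit 5) (nat_lit 124) (nat_lit 5) (nat_lit 374) (nat_lit 336) (nat_lit 310)) (XT.nd (nat_lit 78) (nat_lit 228) (nat_lit 0) (XT.lf (nat_lit 0) (nat_lit 4708672909) (nat_lit 380) (nat_lit 5074896635) (nat_lit 76) (nat_lit 1285692591) (nat_lit 114) (nat_lit 5) (nat_lit 119) (nat_lit 5) (nat_lit 115) (nat_lit 5) (nat_lit 375) (nat_lit 336) (nat_lit 309)) (XT.lf (nat_lit 0) (nat_lit 7264888495) (nat_lit 228) (nat_lit 3347487118) (nat_lit 304) (nat_lit 766906172) (nat_lit 111) (nat_lit 5) (nat_lit 114) (nat_lit 5) (nat_lit 115) (nat_lit 5) (nat_lit 376) (nat_lit 336) (nat_lit 308)))) (XT.nd (nat_lit 78) (nat_lit 532) (nat_lit 0) (XT.lf (nat_lit 0) (nat_lit 5040502350) (nat_lit 380) (nat_lit 3205047308) (nat_lit 76) (nat_lit 3456801494) (nat_lit 106) (nat_lit 5) (nat_lit 111)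 (nat_lit 5) (nat_lit 107) (nat_lit 5) (nat_lit 377) (nat_lit 336) (nat_lit 307)) (XT.nd (nat_lit 78) (nat_lit 304) (nat_lit 0) (XT.lf (nat_lit 0) (nat_lit 9726707885) (nat_lit 228) (nat_lit 1434716637) (nat_lit 304) (nat_lit 878781954) (nat_lit 103) (nat_lit 5) (nat_lit 106) (nat_lit 5) (nat_lit 107) (nat_lit 5) (nat_lit 378) (nat_lit 336) (nat_lit 306)) (XT.lf (nat_lit 0) (nat_lit 5158490032) (nat_lit 304) (nat_lit 1511088655) (nat_lit 76) (nat_lit 5721914487) (nat_lit 99) (nat_lit 5) (nat_lit 103) (nat_lit 5) (nat_lit 100) (nat_lit 5) (nat_lit 379) (nat_lit 336) (nat_lit 305))))) (XT.nd (nat_lit 234) (nat_lit 684) (nat_lit 0) (XT.nd (nat_lit 78) (nat_lit 760) (nat_lit 0) (XT.lf (nat_lit 0) (nat_lit 11514204412) (nat_lit 304) (nat_lit 730600239) (nat_lit 76) (nat_lit 514262707) (nat_lit 96) (nat_lit 5) (nat_lit 100) (nat_lit 5) (nat_lit 97) (nat_lit 5) (nat_lit 380) (nat_lit 336) (nat_lit 304))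 (XT.nd (nat_lit 78) (nat_lit 456) (nat_lit 0) (XT.lf (nat_lit 0) (nat_lit 5032993967) (nat_lit 304) (nat_lit 68603231) (nat_lit 76) (nat_lit 8039332292) (nat_lit 92) (nat_lit 5) (nat_lit 96) (nat_lit 5) (nat_lit 93) (nat_lit 5) (nat_lit 381) (nat_lit 336) (nat_lit 303)) (XT.lf (nat_lit 0) (nat_lit 553586765) (nat_lit 228) (nat_lit 11099488103) (nat_lit 304) (nat_lit 1886841375) (nat_lit 86) (nat_lit 5) (nat_lit 89) (nat_lit 5) (nat_lit 90) (nat_lit 5) (nat_lit 382) (nat_lit 336) (nat_lit 302)))) (XT.nd (nat_lit 78) (nat_lit 456) (nat_lit 0) (XT.lf (nat_lit 0) (nat_lit 1053097411) (nat_lit 152) (nat_lit 3582739268) (nat_lit 228) (nat_lit 9319262573) (nat_lit 83) (nat_lit 5) (nat_lit 85) (nat_lit 5) (nat_lit 86) (nat_lit 5) (nat_lit 383) (nat_lit 336) (nat_lit 301)) (XT.nd (nat_lit 78) (nat_lit 228) (nat_lit 0) (XT.lf (nat_lit 0) (nat_lit 1450715012) (nat_lit 228) (nat_lit 10070209612) (nat_lit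 304) (nat_lit 2867318142) (nat_lit 80) (nat_lit 5) (nat_lit 83) (nat_lit 5) (nat_lit 84) (nat_lit 5) (nat_lit 384) (nat_lit 336) (nat_lit 300)) (XT.lf (nat_lit 0) (nat_lit 1718803216) (nat_lit 152) (nat_lit 2186099266) (nat_lit 228) (nat_lit 10934815726) (nat_lit 77) (nat_lit 5) (nat_lit 79) (nat_lit 5) (nat_lit 80) (nat_lit 5) (nat_lit 385) (nat_lit 336) (nat_lit 299))))))) (XT.nd (nat_lit 936) (nat_lit 1444) (nat_lit 0) (XT.nd (nat_lit 468) (nat_lit 1064) (nat_lit 0) (XT.nd (nat_lit 234) (nat_lit 380) (nat_lit 0) (XT.nd (nat_lit 78) (nat_lit 380) (nat_lit 0) (XT.lf (nat_lit 0) (nat_lit 1826962719) (nat_lit 228) (nat_lit 9230608372) (nat_lit 304) (nat_lit 4252328813) (nat_lit 74) (nat_lit 5) (nat_lit 77) (nat_lit 5) (nat_lit 78) (nat_lit 5) (nat_lit 386) (nat_lit 336) (nat_lit 298)) (XT.nd (nat_lit 78) (nat_lit 152) (nat_lit 0) (XT.lf (nat_lit 0) (nat_lit 1796812315) (nat_lit 152) (nat_lit 981643303)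 (nat_lit 228) (nat_lit 13022311387) (nat_lit 71) (nat_lit 5) (nat_lit 73) (nat_lit 5) (nat_lit 74) (nat_lit 5) (nat_lit 387) (nat_lit 336) (nat_lit 297)) (XT.lf (nat_lit 0) (nat_lit 1539954189) (nat_lit 152) (nat_lit 8657533923) (nat_lit 228) (nat_lit 6113702777) (nat_lit 69) (nat_lit 5) (nat_lit 71) (nat_lit 5) (nat_lit 72) (nat_lit 5) (nat_lit 388) (nat_lit 336) (nat_lit 296)))) (XT.nd (nat_lit 78) (nat_lit 152) (nat_lit 0) (XT.lf (nat_lit 0) (nat_lit 1131570445) (nat_lit 152) (nat_lit 50200538) (nat_lit 228) (nat_lit 15663140421) (nat_lit 66) (nat_lit 5) (nat_lit 68) (nat_lit 5) (nat_lit 69) (nat_lit 5) (nat_lit 389) (nat_lit 336) (nat_lit 295)) (XT.nd (nat_lit 78) (nat_lit 0) (nat_lit 0) (XT.lf (nat_lit 0) (nat_lit 419771894) (nat_lit 152) (nat_lit 8440789056) (nat_lit 228) (nat_lit 8538605727) (nat_lit 64) (nat_lit 5) (nat_lit 66) (nat_lit 5) (nat_lit 67) (nat_lit 5) (nat_lit 390) (nat_lit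 336) (nat_lit 294)) (XT.lf (nat_lit 0) (nat_lit 16993561714) (nat_lit 228) (nat_lit 468076936) (nat_lit 76) (nat_lit 517401427) (nat_lit 64) (nat_lit 5) (nat_lit 67) (nat_lit 5) (nat_lit 65) (nat_lit 4) (nat_lit 391) (nat_lit 336) (nat_lit 293))))) (XT.nd (nat_lit 234) (nat_lit 456) (nat_lit 0) (XT.nd (nat_lit 78) (nat_lit 380) (nat_lit 0) (XT.lf (nat_lit 0) (nat_lit 6966305641) (nat_lit 228) (nat_lit 1702368407) (nat_lit 76) (nat_lit 9912546866) (nat_lit 61) (nat_lit 5) (nat_lit 64) (nat_lit 5) (nat_lit 62) (nat_lit 5) (nat_lit 392) (nat_lit 336) (nat_lit 292)) (XT.nd (nat_lit 78) (nat_lit 228) (nat_lit 0) (XT.lf (nat_lit 0) (nat_lit 15369725887) (nat_lit 228) (nat_lit 3187489308) (nat_lit 76) (nat_lit 653781926) (nat_lit 59) (nat_lit 5) (nat_lit 62) (nat_lit 5) (nat_lit 60) (nat_lit 4) (nat_lit 393) (nat_lit 336) (nat_lit 291)) (XT.lf (nat_lit 0) (nat_lit 4397190147) (nat_lit 228) (nat_lit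 5068738868) (nat_lit 76) (nat_lit 10400284387) (nat_lit 56) (nat_lit 5) (nat_lit 59) (nat_lit 5) (nat_lit 57) (nat_lit 5) (nat_lit 394) (nat_lit 336) (nat_lit 290)))) (XT.nd (nat_lit 78) (nat_lit 304) (nat_lit 0) (XT.lf (nat_lit 0) (nat_lit 13044435362) (nat_lit 228) (nat_lit 7294958699) (nat_lit 76) (nat_lit 211376812) (nat_lit 54) (nat_lit 5) (nat_lit 57) (nat_lit 5) (nat_lit 55) (nat_lit 4) (nat_lit 395) (nat_lit 336) (nat_lit 289)) (XT.nd (nat_lit 78) (nat_lit 152) (nat_lit 0) (XT.lf (nat_lit 0) (nat_lit 1011354266) (nat_lit 152) (nat_lit 9969417166) (nat_lit 76) (nat_lit 10283341800) (nat_lit 52) (nat_lit 5) (nat_lit 54) (nat_lit 5) (nat_lit 53) (nat_lit 5) (nat_lit 396) (nat_lit 336) (nat_lit 288)) (XT.lf (nat_lit 0) (nat_lit 8901192932) (nat_lit 152) (nat_lit 978067547) (nat_lit 228) (nat_lit 12129254614) (nat_lit 50) (nat_lit 5) (nat_lit 52) (nat_lit 5) (nat_lit 53) (nat_lit 5) (nat_lit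 397) (nat_lit 336) (nat_lit 287)))))) (XT.nd (nat_lit 468) (nat_lit 760) (nat_lit 0) (XT.nd (nat_lit 234) (nat_lit 380) (nat_lit 0) (XT.nd (nat_lit 78) (nat_lit 228) (nat_lit 0) (XT.lf (nat_lit 0) (nat_lit 6012504087) (nat_lit 76) (nat_lit 13349697069) (nat_lit 152) (nat_lit 3422795500) (nat_lit 49) (nat_lit 5) (nat_lit 50) (nat_lit 5) (nat_lit 51) (nat_lit 4) (nat_lit 398) (nat_lit 336) (nat_lit 286)) (XT.nd (nat_lit 78) (nat_lit 0) (nat_lit 0) (XT.lf (nat_lit 0) (nat_lit 2604430367) (nat_lit 152) (nat_lit 3094467729) (nat_lit 228) (nat_lit 17897017803) (nat_lit 46) (nat_lit 5) (nat_lit 48) (nat_lit 5) (nat_lit 49) (nat_lit 5) (nat_lit 399) (nat_lit 336) (nat_lit 285)) (XT.lf (nat_lit 0) (nat_lit 15376819947) (nat_lit 228) (nat_lit 1395218278) (nat_lit 76) (nat_lit 7669205974) (nat_lit 46) (nat_lit 5) (nat_lit 49) (nat_lit 5) (nat_lit 47) (nat_lit 4) (nat_lit 400) (nat_lit 336) (nat_lit 284))))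 (XT.nd (nat_lit 78) (nat_lit 228) (nat_lit 0) (XT.lf (nat_lit 0) (nat_lit 350602985) (nat_lit 152) (nat_lit 5936808751) (nat_lit 76) (nat_lit 19037026892) (nat_lit 44) (nat_lit 5) (nat_lit 46) (nat_lit 5) (nat_lit 45) (nat_lit 5) (nat_lit 401) (nat_lit 336) (nat_lit 283)) (XT.nd (nat_lit 78) (nat_lit 76) (nat_lit 0) (XT.lf (nat_lit 0) (nat_lit 10184542349) (nat_lit 228) (nat_lit 11238546483) (nat_lit 76) (nat_lit 4821949543) (nat_lit 42) (nat_lit 5) (nat_lit 45) (nat_lit 5) (nat_lit 43) (nat_lit 4) (nat_lit 402) (nat_lit 336) (nat_lit 282)) (XT.lf (nat_lit 0) (nat_lit 9908399242) (nat_lit 76) (nat_lit 10751215837) (nat_lit 152) (nat_lit 6547576427) (nat_lit 41) (nat_lit 5) (nat_lit 42) (nat_lit 5) (nat_lit 43) (nat_lit 4) (nat_lit 403) (nat_lit 336) (nat_lit 281))))) (XT.nd (nat_lit 234) (nat_lit 456) (nat_lit 0) (XT.nd (nat_lit 78) (nat_lit 76) (nat_lit 0) (XT.lf (nat_lit 0) (nat_lit 3465726536)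 (nat_lit 228) (nat_lit 24170864777) (nat_lit 76) (nat_lit 577118166) (nat_lit 38) (nat_lit 5) (nat_lit 41) (nat_lit 5) (nat_lit 39) (nat_lit 4) (nat_lit 404) (nat_lit 336) (nat_lit 280)) (XT.nd (nat_lit 78) (nat_lit 76) (nat_lit 0) (XT.lf (nat_lit 0) (nat_lit 14065901392) (nat_lit 228) (nat_lit 2755939286) (nat_lit 76) (nat_lit 12440124942) (nat_lit 38) (nat_lit 5) (nat_lit 41) (nat_lit 5) (nat_lit 39) (nat_lit 4) (nat_lit 405) (nat_lit 336) (nat_lit 279)) (XT.lf (nat_lit 0) (nat_lit 19998623777) (nat_lit 76) (nat_lit 5324946243) (nat_lit 152) (nat_lit 5035245436) (nat_lit 37) (nat_lit 5) (nat_lit 38) (nat_lit 5) (nat_lit 39) (nat_lit 4) (nat_lit 406) (nat_lit 336) (nat_lit 278)))) (XT.nd (nat_lit 156) (nat_lit 152) (nat_lit 0) (XT.nd (nat_lit 78) (nat_lit 76) (nat_lit 0) (XT.lf (nat_lit 0) (nat_lit 5675479548) (nat_lit 228) (nat_lit 19063278399) (nat_lit 76) (nat_lit 6765576334) (nat_lit 34)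 (nat_lit 5) (nat_lit 37) (nat_lit 5) (nat_lit 35) (nat_lit 4) (nat_lit 407) (nat_lit 336) (nat_lit 277)) (XT.lf (nat_lit 0) (nat_lit 3745338032) (nat_lit 76) (nat_lit 13208644163) (nat_lit 152) (nat_lit 15747564685) (nat_lit 33) (nat_lit 5) (nat_lit 34) (nat_lit 5) (nat_lit 35) (nat_lit 4) (nat_lit 408) (nat_lit 336) (nat_lit 276))) (XT.nd (nat_lit 78) (nat_lit 152) (nat_lit 0) (XT.lf (nat_lit 0) (nat_lit 27979050223) (nat_lit 76) (nat_lit 953417426) (nat_lit 152) (nat_lit 5022075294) (nat_lit 33) (nat_lit 5) (nat_lit 34) (nat_lit 5) (nat_lit 35) (nat_lit 4) (nat_lit 409) (nat_lit 336) (nat_lit 275)) (XT.lf (nat_lit 0) (nat_lit 6352737970) (nat_lit 152) (nat_lit 17038445238) (nat_lit 76) (nat_lit 11870166181) (nat_lit 31) (nat_lit 5) (nat_lit 33) (nat_lit 5) (nat_lit 32) (nat_lit 4) (nat_lit 410) (nat_lit 336) (nat_lit 274))))))))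
noncomputable def xc42 : XT := (XT.nd (nat_lit 1950) (nat_lit 76) (nat_lit 0) (XT.nd (nat_lit 936) (nat_lit 608) (nat_lit 0) (XT.nd (nat_lit 468) (nat_lit 304) (nat_lit 0) (XT.nd (nat_lit 234) (nat_lit 228) (nat_lit 0) (XT.nd (nat_lit 78) (nat_lit 152) (nat_lit 0) (XT.lf (nat_lit 0) (nat_lit 7094444546) (nat_lit 76) (nat_lit 11182253995) (nat_lit 152) (nat_lit 18352781804) (nat_lit 30) (nat_lit 5) (nat_lit 31) (nat_lit 5) (nat_lit 32) (nat_lit 4) (nat_lit 411) (nat_lit 336) (nat_lit 273)) (XT.nd (nat_lit 78) (nat_lit 152) (nat_lit 0) (XT.lf (nat_lit 0) (nat_lit 30934308543) (nat_lit 152) (nat_lit 5393804710) (nat_lit 0) (nat_lit 1733784880) (nat_lit 30) (nat_lit 5) (nat_lit 32) (nat_lit 4) (nat_lit 30) (nat_lit 4) (nat_lit 412) (nat_lit 336) (nat_lit 272)) (XT.lf (nat_lit 0) (nat_lit 4824084460) (nat_lit 152) (nat_lit 19471696822) (nat_lit 76) (nat_lit 15261131549) (nat_lit 28) (nat_lit 5) (nat_lit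 30) (nat_lit 5) (nat_lit 29) (nat_lit 4) (nat_lit 413) (nat_lit 336) (nat_lit 271)))) (XT.nd (nat_lit 78) (nat_lit 152) (nat_lit 0) (XT.lf (nat_lit 0) (nat_lit 5767210744) (nat_lit 76) (nat_lit 11519889225) (nat_lit 152) (nat_lit 23835629541) (nat_lit 27) (nat_lit 5) (nat_lit 28) (nat_lit 5) (nat_lit 29) (nat_lit 4) (nat_lit 414) (nat_lit 336) (nat_lit 270)) (XT.nd (nat_lit 78) (nat_lit 152) (nat_lit 0) (XT.lf (nat_lit 0) (nat_lit 30543294799) (nat_lit 152) (nat_lit 10203024234) (nat_lit 0) (nat_lit 2015420344) (nat_lit 27) (nat_lit 5) (nat_lit 29) (nat_lit 4) (nat_lit 27) (nat_lit 4) (nat_lit 415) (nat_lit 336) (nat_lit 269)) (XT.lf (nat_lit 0) (nat_lit 207138673) (nat_lit 152) (nat_lit 28161112483) (nat_lit 76) (nat_lit 16107643202) (nat_lit 25) (nat_lit 5) (nat_lit 27) (nat_lit 5) (nat_lit 26) (nat_lit 4) (nat_lit 416) (nat_lit 336) (nat_lit 268))))) (XT.nd (nat_lit 234) (nat_lit 152) (nat_lit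 0) (XT.nd (nat_lit 78) (nat_lit 152) (nat_lit 0) (XT.lf (nat_lit 0) (nat_lit 13062488439) (nat_lit 152) (nat_lit 2115923445) (nat_lit 76) (nat_lit 31091883284) (nat_lit 25) (nat_lit 5) (nat_lit 27) (nat_lit 5) (nat_lit 26) (nat_lit 4) (nat_lit 417) (nat_lit 336) (nat_lit 267)) (XT.nd (nat_lit 78) (nat_lit 76) (nat_lit 0) (XT.lf (nat_lit 0) (nat_lit 25645635047) (nat_lit 76) (nat_lit 1116505001) (nat_lit 152) (nat_lit 21386232632) (nat_lit 24) (nat_lit 5) (nat_lit 25) (nat_lit 5) (nat_lit 26) (nat_lit 4) (nat_lit 418) (nat_lit 336) (nat_lit 266)) (XT.lf (nat_lit 0) (nat_lit 4593224664) (nat_lit 76) (nat_lit 36706859941) (nat_lit 76) (nat_lit 8815672713) (nat_lit 23) (nat_lit 4) (nat_lit 24) (nat_lit 5) (nat_lit 24) (nat_lit 4) (nat_lit 419) (nat_lit 336) (nat_lit 265)))) (XT.nd (nat_lit 78) (nat_lit 76) (nat_lit 0) (XT.lf (nat_lit 0) (nat_lit 4499929987) (nat_lit 152) (nat_lit 18799245298) (nat_lit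 76) (nat_lit 28875012663) (nat_lit 22) (nat_lit 5) (nat_lit 24) (nat_lit 5) (nat_lit 23) (nat_lit 4) (nat_lit 420) (nat_lit 336) (nat_lit 264)) (XT.nd (nat_lit 78) (nat_lit 0) (nat_lit 0) (XT.lf (nat_lit 0) (nat_lit 9272927497) (nat_lit 76) (nat_lit 9075793191) (nat_lit 152) (nat_lit 35982711276) (nat_lit 21) (nat_lit 5) (nat_lit 22) (nat_lit 5) (nat_lit 23) (nat_lit 4) (nat_lit 421) (nat_lit 336) (nat_lit 263)) (XT.lf (nat_lit 0) (nat_lit 33101464966) (nat_lit 152) (nat_lit 17585227624) (nat_lit 0) (nat_lit 5903502319) (nat_lit 21) (nat_lit 5) (nat_lit 23) (nat_lit 4) (nat_lit 21) (nat_lit 4) (nat_lit 422) (nat_lit 336) (nat_lit 262)))))) (XT.nd (nat_lit 468) (nat_lit 304) (nat_lit 0) (XT.nd (nat_lit 234) (nat_lit 76) (nat_lit 0) (XT.nd (nat_lit 78) (nat_lit 152) (nat_lit 0) (XT.lf (nat_lit 0) (nat_lit 11316827677) (nat_lit 76) (nat_lit 37437081877) (nat_lit 76) (nat_lit 10203126603) (nat_lit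 20) (nat_lit 4) (nat_lit 21) (nat_lit 5) (nat_lit 21) (nat_lit 4) (nat_lit 423) (nat_lit 336) (nat_lit 261)) (XT.nd (nat_lit 78) (nat_lit 76) (nat_lit 0) (XT.lf (nat_lit 0) (nat_lit 3818898413) (nat_lit 152) (nat_lit 19515870186) (nat_lit 76) (nat_lit 38102014650) (nat_lit 19) (nat_lit 5) (nat_lit 21) (nat_lit 5) (nat_lit 20) (nat_lit 4) (nat_lit 424) (nat_lit 336) (nat_lit 260)) (XT.lf (nat_lit 0) (nat_lit 10038311441) (nat_lit 76) (nat_lit 8355379091) (nat_lit 152) (nat_lit 45641917871) (nat_lit 18) (nat_lit 5) (nat_lit 19) (nat_lit 5) (nat_lit 20) (nat_lit 4) (nat_lit 425) (nat_lit 336) (nat_lit 259)))) (XT.nd (nat_lit 78) (nat_lit 76) (nat_lit 0) (XT.lf (nat_lit 0) (nat_lit 33935953403) (nat_lit 152) (nat_lit 25421203059) (nat_lit 0) (nat_lit 7400058135) (nat_lit 18) (nat_lit 5) (nat_lit 20) (nat_lit 4) (nat_lit 18) (nat_lit 4) (nat_lit 426) (nat_lit 336) (nat_lit 258)) (XT.nd (nat_lit 78)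 (nat_lit 0) (nat_lit 0) (XT.lf (nat_lit 0) (nat_lit 4522839609) (nat_lit 76) (nat_lit 45826936872) (nat_lit 76) (nat_lit 19262292844) (nat_lit 17) (nat_lit 4) (nat_lit 18) (nat_lit 5) (nat_lit 18) (nat_lit 4) (nat_lit 427) (nat_lit 336) (nat_lit 257)) (XT.lf (nat_lit 0) (nat_lit 36432389736) (nat_lit 76) (nat_lit 31381211547) (nat_lit 76) (nat_lit 4789187746) (nat_lit 17) (nat_lit 4) (nat_lit 18) (nat_lit 5) (nat_lit 18) (nat_lit 4) (nat_lit 428) (nat_lit 336) (nat_lit 256))))) (XT.nd (nat_lit 234) (nat_lit 152) (nat_lit 0) (XT.nd (nat_lit 78) (nat_lit 76) (nat_lit 0) (XT.lf (nat_lit 0) (nat_lit 10173340149) (nat_lit 152) (nat_lit 5966219271) (nat_lit 76) (nat_lit 59601419717) (nat_lit 16) (nat_lit 5) (nat_lit 18) (nat_lit 5) (nat_lit 17) (nat_lit 4) (nat_lit 429) (nat_lit 336) (nat_lit 255)) (XT.nd (nat_lit 78) (nat_lit 0) (nat_lit 0) (XT.lf (nat_lit 0) (nat_lit 26008993813) (nat_lit 152) (nat_lit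 52876874798) (nat_lit 0) (nat_lit 142067566) (nat_lit 15) (nat_lit 5) (nat_lit 17) (nat_lit 4) (nat_lit 15) (nat_lit 4) (nat_lit 430) (nat_lit 336) (nat_lit 254)) (XT.lf (nat_lit 0) (nat_lit 42832307742) (nat_lit 152) (nat_lit 22698639602) (nat_lit 0) (nat_lit 16942418703) (nat_lit 15) (nat_lit 5) (nat_lit 17) (nat_lit 4) (nat_lit 15) (nat_lit 4) (nat_lit 431) (nat_lit 336) (nat_lit 253)))) (XT.nd (nat_lit 78) (nat_lit 76) (nat_lit 0) (XT.lf (nat_lit 0) (nat_lit 9112404162) (nat_lit 76) (nat_lit 51444312491) (nat_lit 76) (nat_lit 25532554124) (nat_lit 14) (nat_lit 4) (nat_lit 15) (nat_lit 5) (nat_lit 15) (nat_lit 4) (nat_lit 432) (nat_lit 336) (nat_lit 252)) (XT.nd (nat_lit 78) (nat_lit 76) (nat_lit 0) (XT.lf (nat_lit 0) (nat_lit 42935961484) (nat_lit 76) (nat_lit 36438196195) (nat_lit 76) (nat_lit 10505609899) (nat_lit 14) (nat_lit 4) (nat_lit 15) (nat_lit 5) (nat_lit 15) (nat_lit 4) (nat_lit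 433) (nat_lit 336) (nat_lit 251)) (XT.lf (nat_lit 0) (nat_lit 5143966045) (nat_lit 152) (nat_lit 15510171347) (nat_lit 76) (nat_lit 73204907190) (nat_lit 13) (nat_lit 5) (nat_lit 15) (nat_lit 5) (nat_lit 14) (nat_lit 4) (nat_lit 434) (nat_lit 336) (nat_lit 250))))))) (XT.nd (nat_lit 46956) (nat_lit 0) (nat_lit 10260) (XT.nd (nat_lit 46488) (nat_lit 0) (nat_lit 18848) (XT.nd (nat_lit 46254) (nat_lit 0) (nat_lit 24852) (XT.nd (nat_lit 46098) (nat_lit 0) (nat_lit 26828) (XT.lf (nat_lit 0) (nat_lit 38956854226) (nat_lit 152) (nat_lit 49719494358) (nat_lit 0) (nat_lit 13724518386) (nat_lit 12) (nat_lit 5) (nat_lit 14) (nat_lit 4) (nat_lit 12) (nat_lit 4) (nat_lit 436) (nat_lit 336) (nat_lit 248)) (XT.nd (nat_lit 78) (nat_lit 532) (nat_lit 0) (XT.lf (nat_lit 0) (nat_lit 1098699203) (nat_lit 380) (nat_lit 1087561149) (nat_lit 380) (nat_lit 1087561149) (nat_lit 372) (nat_lit 4) (nat_lit 377) (nat_lit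 5) (nat_lit 377) (nat_lit 4) (nat_lit 346) (nat_lit 337) (nat_lit 337)) (XT.lf (nat_lit 0) (nat_lit 2095254556) (nat_lit 456) (nat_lit 932405702) (nat_lit 532) (nat_lit 3559361356) (nat_lit 365) (nat_lit 5) (nat_lit 371) (nat_lit 5) (nat_lit 372) (nat_lit 4) (nat_lit 347) (nat_lit 337) (nat_lit 336)))) (XT.nd (nat_lit 78) (nat_lit 1368) (nat_lit 0) (XT.lf (nat_lit 0) (nat_lit 1551821620) (nat_lit 608) (nat_lit 4528337781) (nat_lit 76) (nat_lit 554163685) (nat_lit 357) (nat_lit 5) (nat_lit 365) (nat_lit 5) (nat_lit 358) (nat_lit 4) (nat_lit 348) (nat_lit 337) (nat_lit 335)) (XT.nd (nat_lit 78) (nat_lit 760) (nat_lit 0) (XT.lf (nat_lit 0) (nat_lit 2222161640) (nat_lit 608) (nat_lit 4412302038) (nat_lit 684) (nat_lit 54980344) (nat_lit 349) (nat_lit 5) (nat_lit 357) (nat_lit 5) (nat_lit 358) (nat_lit 4) (nat_lit 349) (nat_lit 337) (nat_lit 334)) (XT.lf (nat_lit 0) (nat_lit 2436019333) (nat_lit 684)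 (nat_lit 2476575459) (nat_lit 760) (nat_lit 1839683458) (nat_lit 339) (nat_lit 5) (nat_lit 348) (nat_lit 5) (nat_lit 349) (nat_lit 5) (nat_lit 350) (nat_lit 337) (nat_lit 333))))) (XT.nd (nat_lit 234) (nat_lit 3344) (nat_lit 0) (XT.nd (nat_lit 78) (nat_lit 1824) (nat_lit 0) (XT.lf (nat_lit 0) (nat_lit 2763063800) (nat_lit 760) (nat_lit 283111976) (nat_lit 836) (nat_lit 3777228952) (nat_lit 328) (nat_lit 5) (nat_lit 338) (nat_lit 5) (nat_lit 339) (nat_lit 5) (nat_lit 351) (nat_lit 337) (nat_lit 332)) (XT.nd (nat_lit 78) (nat_lit 912) (nat_lit 0) (XT.lf (nat_lit 0) (nat_lit 1049979862) (nat_lit 912) (nat_lit 3720434241) (nat_lit 76) (nat_lit 2131921378) (nat_lit 316) (nat_lit 5) (nat_lit 328) (nat_lit 5) (nat_lit 317) (nat_lit 5) (nat_lit 352) (nat_lit 337) (nat_lit 331)) (XT.lf (nat_lit 0) (nat_lit 3697915304) (nat_lit 912) (nat_lit 2171462853) (nat_lit 988) (nat_lit 1119992561) (nat_lit 304)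 (nat_lit 5) (nat_lit 316) (nat_lit 5) (nat_lit 317) (nat_lit 5) (nat_lit 353) (nat_lit 337) (nat_lit 330)))) (XT.nd (nat_lit 78) (nat_lit 2280) (nat_lit 0) (XT.lf (nat_lit 0) (nat_lit 3615824651) (nat_lit 1064) (nat_lit 2778089329) (nat_lit 76) (nat_lit 690612616) (nat_lit 290) (nat_lit 5) (nat_lit 304) (nat_lit 5) (nat_lit 291) (nat_lit 5) (nat_lit 354) (nat_lit 337) (nat_lit 329)) (XT.nd (nat_lit 78) (nat_lit 1140) (nat_lit 0) (XT.lf (nat_lit 0) (nat_lit 1222213368) (nat_lit 1140) (nat_lit 2186113686) (nat_lit 76) (nat_lit 3779468979) (nat_lit 275) (nat_lit 5) (nat_lit 290) (nat_lit 5) (nat_lit 276) (nat_lit 5) (nat_lit 355) (nat_lit 337) (nat_lit 328)) (XT.lf (nat_lit 0) (nat_lit 5792661174) (nat_lit 1140) (nat_lit 140165473) (nat_lit 1216) (nat_lit 1366786057) (nat_lit 260) (nat_lit 5) (nat_lit 275) (nat_lit 5) (nat_lit 276) (nat_lit 5) (nat_lit 356) (nat_lit 337) (nat_lit 327)))))) (XT.nd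 (nat_lit 468) (nat_lit 3724) (nat_lit 0) (XT.nd (nat_lit 234) (nat_lit 1672) (nat_lit 0) (XT.nd (nat_lit 78) (nat_lit 1900) (nat_lit 0) (XT.lf (nat_lit 0) (nat_lit 3292425140) (nat_lit 1292) (nat_lit 772972309) (nat_lit 76) (nat_lit 3353795189) (nat_lit 243) (nat_lit 5) (nat_lit 260) (nat_lit 5) (nat_lit 244) (nat_lit 5) (nat_lit 357) (nat_lit 337) (nat_lit 326)) (XT.nd (nat_lit 78) (nat_lit 608) (nat_lit 0) (XT.lf (nat_lit 0) (nat_lit 58947496) (nat_lit 608) (nat_lit 417621747) (nat_lit 684) (nat_lit 7071407313) (nat_lit 226) (nat_lit 5) (nat_lit 234) (nat_lit 5) (nat_lit 235) (nat_lit 5) (nat_lit 358) (nat_lit 337) (nat_lit 325)) (XT.lf (nat_lit 0) (nat_lit 947771777) (nat_lit 608) (nat_lit 4203681237) (nat_lit 684) (nat_lit 2532817385) (nat_lit 218) (nat_lit 5) (nat_lit 226) (nat_lit 5) (nat_lit 227) (nat_lit 5) (nat_lit 359) (nat_lit 337) (nat_lit 324)))) (XT.nd (nat_lit 78) (nat_lit 1064)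 (nat_lit 0) (XT.lf (nat_lit 0) (nat_lit 1925931002) (nat_lit 532) (nat_lit 160146050) (nat_lit 608) (nat_lit 5743840660) (nat_lit 210) (nat_lit 5) (nat_lit 217) (nat_lit 5) (nat_lit 218) (nat_lit 5) (nat_lit 360) (nat_lit 337) (nat_lit 323)) (XT.nd (nat_lit 78) (nat_lit 532) (nat_lit 0) (XT.lf (nat_lit 0) (nat_lit 2951120500) (nat_lit 532) (nat_lit 3874348569) (nat_lit 608) (nat_lit 1158454541) (nat_lit 203) (nat_lit 5) (nat_lit 210) (nat_lit 5) (nat_lit 211) (nat_lit 5) (nat_lit 361) (nat_lit 337) (nat_lit 322)) (XT.lf (nat_lit 0) (nat_lit 3501203062) (nat_lit 532) (nat_lit 4102364197) (nat_lit 76) (nat_lit 543597818) (nat_lit 196) (nat_lit 5) (nat_lit 203) (nat_lit 5) (nat_lit 197) (nat_lit 5) (nat_lit 362) (nat_lit 337) (nat_lit 321))))) (XT.nd (nat_lit 234) (nat_lit 2128) (nat_lit 0) (XT.nd (nat_lit 78) (nat_lit 988) (nat_lit 0) (XT.lf (nat_lit 0) (nat_lit 7589316) (nat_lit 608) (nat_lit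 3124072848) (nat_lit 76) (nat_lit 5187913391) (nat_lit 188) (nat_lit 5) (nat_lit 196) (nat_lit 5) (nat_lit 189) (nat_lit 5) (nat_lit 363) (nat_lit 337) (nat_lit 320)) (XT.nd (nat_lit 78) (nat_lit 532) (nat_lit 0) (XT.lf (nat_lit 0) (nat_lit 4739764450) (nat_lit 532) (nat_lit 2111648106) (nat_lit 76) (nat_lit 1649623574) (nat_lit 182) (nat_lit 5) (nat_lit 189) (nat_lit 5) (nat_lit 183) (nat_lit 5) (nat_lit 364) (nat_lit 337) (nat_lit 319)) (XT.lf (nat_lit 0) (nat_lit 961291021) (nat_lit 532) (nat_lit 1046449441) (nat_lit 76) (nat_lit 6684676480) (nat_lit 175) (nat_lit 5) (nat_lit 182) (nat_lit 5) (nat_lit 176) (nat_lit 5) (nat_lit 365) (nat_lit 337) (nat_lit 318)))) (XT.nd (nat_lit 156) (nat_lit 836) (nat_lit 0) (XT.nd (nat_lit 78) (nat_lit 456) (nat_lit 0) (XT.lf (nat_lit 0) (nat_lit 43572905) (nat_lit 456) (nat_lit 5769948178) (nat_lit 532) (nat_lit 3079650756) (nat_lit 164) (nat_lit 5) (nat_lit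 170) (nat_lit 5) (nat_lit 171) (nat_lit 5) (nat_lit 366) (nat_lit 337) (nat_lit 317)) (XT.lf (nat_lit 0) (nat_lit 1207147453) (nat_lit 380) (nat_lit 539646266) (nat_lit 456) (nat_lit 7357379655) (nat_lit 158) (nat_lit 5) (nat_lit 163) (nat_lit 5) (nat_lit 164) (nat_lit 5) (nat_lit 367) (nat_lit 337) (nat_lit 316))) (XT.nd (nat_lit 78) (nat_lit 456) (nat_lit 0) (XT.lf (nat_lit 0) (nat_lit 2379131174) (nat_lit 380) (nat_lit 4373498678) (nat_lit 456) (nat_lit 2572182230) (nat_lit 153) (nat_lit 5) (nat_lit 158) (nat_lit 5) (nat_lit 159) (nat_lit 5) (nat_lit 368) (nat_lit 337) (nat_lit 315)) (XT.lf (nat_lit 0) (nat_lit 2381306004) (nat_lit 456) (nat_lit 5961484826) (nat_lit 76) (nat_lit 1213728767) (nat_lit 147) (nat_lit 5) (nat_lit 153) (nat_lit 5) (nat_lit 148) (nat_lit 5) (nat_lit 369) (nat_lit 337) (nat_lit 314))))))))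
noncomputable def xc43 : XT := (XT.nd (nat_lit 1950) (nat_lit 2508) (nat_lit 0) (XT.nd (nat_lit 936) (nat_lit 2660) (nat_lit 0) (XT.nd (nat_lit 468) (nat_lit 1976) (nat_lit 0) (XT.nd (nat_lit 234) (nat_lit 1064) (nat_lit 0) (XT.nd (nat_lit 78) (nat_lit 760) (nat_lit 0) (XT.lf (nat_lit 0) (nat_lit 4822246322) (nat_lit 380) (nat_lit 2717951052) (nat_lit 456) (nat_lit 2258571491) (nat_lit 142) (nat_lit 5) (nat_lit 147) (nat_lit 5) (nat_lit 148) (nat_lit 5) (nat_lit 370) (nat_lit 337) (nat_lit 313)) (XT.nd (nat_lit 78) (nat_lit 380) (nat_lit 0) (XT.lf (nat_lit 0) (nat_lit 2850903401) (nat_lit 380) (nat_lit 3983985673) (nat_lit 76) (nat_lit 3217338638) (nat_lit 137) (nat_lit 5) (nat_lit 142) (nat_lit 5) (nat_lit 138) (nat_lit 5) (nat_lit 371) (nat_lit 337) (nat_lit 312)) (XT.lf (nat_lit 0) (nat_lit 7338832965) (nat_lit 380) (nat_lit 836521510) (nat_lit 456) (nat_lit 2142190175) (nat_lit 132) (nat_lit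 5) (nat_lit 137) (nat_lit 5) (nat_lit 138) (nat_lit 5) (nat_lit 372) (nat_lit 337) (nat_lit 311)))) (XT.nd (nat_lit 78) (nat_lit 684) (nat_lit 0) (XT.lf (nat_lit 0) (nat_lit 3145636213) (nat_lit 380) (nat_lit 1998059149) (nat_lit 76) (nat_lit 5450429400) (nat_lit 127) (nat_lit 5) (nat_lit 132) (nat_lit 5) (nat_lit 128) (nat_lit 5) (nat_lit 373) (nat_lit 337) (nat_lit 310)) (XT.nd (nat_lit 78) (nat_lit 380) (nat_lit 0) (XT.lf (nat_lit 0) (nat_lit 8664120832) (nat_lit 380) (nat_lit 1005714528) (nat_lit 76) (nat_lit 1213782447) (nat_lit 123) (nat_lit 5) (nat_lit 128) (nat_lit 5) (nat_lit 124) (nat_lit 5) (nat_lit 374) (nat_lit 337) (nat_lit 309)) (XT.lf (nat_lit 0) (nat_lit 3255399463) (nat_lit 380) (nat_lit 48106835) (nat_lit 76) (nat_lit 7881721972) (nat_lit 118) (nat_lit 5) (nat_lit 123) (nat_lit 5) (nat_lit 119) (nat_lit 5) (nat_lit 375) (nat_lit 337) (nat_lit 308))))) (XT.nd (nat_lit 234) (nat_lit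 836) (nat_lit 0) (XT.nd (nat_lit 78) (nat_lit 608) (nat_lit 0) (XT.lf (nat_lit 0) (nat_lit 914583963) (nat_lit 228) (nat_lit 8087029209) (nat_lit 304) (nat_lit 2498375460) (nat_lit 111) (nat_lit 5) (nat_lit 114) (nat_lit 5) (nat_lit 115) (nat_lit 5) (nat_lit 376) (nat_lit 337) (nat_lit 307)) (XT.nd (nat_lit 78) (nat_lit 228) (nat_lit 0) (XT.lf (nat_lit 0) (nat_lit 1850285153) (nat_lit 304) (nat_lit 1331706082) (nat_lit 380) (nat_lit 8646405785) (nat_lit 106) (nat_lit 5) (nat_lit 110) (nat_lit 5) (nat_lit 111) (nat_lit 5) (nat_lit 377) (nat_lit 337) (nat_lit 306)) (XT.lf (nat_lit 0) (nat_lit 2734100633) (nat_lit 228) (nat_lit 6427840664) (nat_lit 304) (nat_lit 3008554338) (nat_lit 103) (nat_lit 5) (nat_lit 106) (nat_lit 5) (nat_lit 107) (nat_lit 5) (nat_lit 378) (nat_lit 337) (nat_lit 305)))) (XT.nd (nat_lit 78) (nat_lit 532) (nat_lit 0) (XT.lf (nat_lit 0) (nat_lit 2890944560) (nat_lit 304) (nat_lit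 8936671044) (nat_lit 76) (nat_lit 700173950) (nat_lit 99) (nat_lit 5) (nat_lit 103) (nat_lit 5) (nat_lit 100) (nat_lit 5) (nat_lit 379) (nat_lit 337) (nat_lit 304)) (XT.nd (nat_lit 78) (nat_lit 304) (nat_lit 0) (XT.lf (nat_lit 0) (nat_lit 4365391480) (nat_lit 228) (nat_lit 4744597455) (nat_lit 304) (nat_lit 3789487342) (nat_lit 96) (nat_lit 5) (nat_lit 99) (nat_lit 5) (nat_lit 100) (nat_lit 5) (nat_lit 380) (nat_lit 337) (nat_lit 303)) (XT.lf (nat_lit 0) (nat_lit 2357318889) (nat_lit 304) (nat_lit 8194004897) (nat_lit 76) (nat_lit 2736181103) (nat_lit 92) (nat_lit 5) (nat_lit 96) (nat_lit 5) (nat_lit 93) (nat_lit 5) (nat_lit 381) (nat_lit 337) (nat_lit 302)))))) (XT.nd (nat_lit 468) (nat_lit 1292) (nat_lit 0) (XT.nd (nat_lit 234) (nat_lit 684) (nat_lit 0) (XT.nd (nat_lit 78) (nat_lit 456) (nat_lit 0) (XT.lf (nat_lit 0) (nat_lit 5728318094) (nat_lit 228) (nat_lit 3084260131) (nat_lit 304) (nat_lit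 4878869018) (nat_lit 89) (nat_lit 5) (nat_lit 92) (nat_lit 5) (nat_lit 93) (nat_lit 5) (nat_lit 382) (nat_lit 337) (nat_lit 301)) (XT.nd (nat_lit 78) (nat_lit 152) (nat_lit 0) (XT.lf (nat_lit 0) (nat_lit 1528528232) (nat_lit 304) (nat_lit 7829132975) (nat_lit 76) (nat_lit 4755051992) (nat_lit 85) (nat_lit 5) (nat_lit 89) (nat_lit 5) (nat_lit 86) (nat_lit 5) (nat_lit 383) (nat_lit 337) (nat_lit 300)) (XT.lf (nat_lit 0) (nat_lit 6727324285) (nat_lit 152) (nat_lit 1500105694) (nat_lit 228) (nat_lit 6324021966) (nat_lit 83) (nat_lit 5) (nat_lit 85) (nat_lit 5) (nat_lit 86) (nat_lit 5) (nat_lit 384) (nat_lit 337) (nat_lit 299)))) (XT.nd (nat_lit 78) (nat_lit 380) (nat_lit 0) (XT.lf (nat_lit 0) (nat_lit 354796494) (nat_lit 304) (nat_lit 7951282722) (nat_lit 76) (nat_lit 6702679577) (nat_lit 79) (nat_lit 5) (nat_lit 83) (nat_lit 5) (nat_lit 80) (nat_lit 5) (nat_lit 385) (nat_lit 337) (nat_lit 298))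 (XT.nd (nat_lit 78) (nat_lit 228) (nat_lit 0) (XT.lf (nat_lit 0) (nat_lit 7248281540) (nat_lit 152) (nat_lit 53460546) (nat_lit 228) (nat_lit 8183378588) (nat_lit 77) (nat_lit 5) (nat_lit 79) (nat_lit 5) (nat_lit 80) (nat_lit 5) (nat_lit 386) (nat_lit 337) (nat_lit 297)) (XT.lf (nat_lit 0) (nat_lit 7278692808) (nat_lit 228) (nat_lit 7452946408) (nat_lit 304) (nat_lit 1249609892) (nat_lit 74) (nat_lit 5) (nat_lit 77) (nat_lit 5) (nat_lit 78) (nat_lit 5) (nat_lit 387) (nat_lit 337) (nat_lit 296))))) (XT.nd (nat_lit 234) (nat_lit 684) (nat_lit 0) (XT.nd (nat_lit 78) (nat_lit 380) (nat_lit 0) (XT.lf (nat_lit 0) (nat_lit 5981872626) (nat_lit 228) (nat_lit 9355318855) (nat_lit 76) (nat_lit 1161207383) (nat_lit 71) (nat_lit 5) (nat_lit 74) (nat_lit 5) (nat_lit 72) (nat_lit 5) (nat_lit 388) (nat_lit 337) (nat_lit 295)) (XT.nd (nat_lit 78) (nat_lit 228) (nat_lit 0) (XT.lf (nat_lit 0) (nat_lit 6802838273)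 (nat_lit 152) (nat_lit 6882376243) (nat_lit 228) (nat_lit 3351751154) (nat_lit 69) (nat_lit 5) (nat_lit 71) (nat_lit 5) (nat_lit 72) (nat_lit 5) (nat_lit 389) (nat_lit 337) (nat_lit 294)) (XT.lf (nat_lit 0) (nat_lit 4174862813) (nat_lit 228) (nat_lit 11335854951) (nat_lit 76) (nat_lit 2088003760) (nat_lit 66) (nat_lit 5) (nat_lit 69) (nat_lit 5) (nat_lit 67) (nat_lit 5) (nat_lit 390) (nat_lit 337) (nat_lit 293)))) (XT.nd (nat_lit 156) (nat_lit 304) (nat_lit 0) (XT.nd (nat_lit 78) (nat_lit 228) (nat_lit 0) (XT.lf (nat_lit 0) (nat_lit 5455420637) (nat_lit 152) (nat_lit 6691143737) (nat_lit 228) (nat_lit 6036875801) (nat_lit 64) (nat_lit 5) (nat_lit 66) (nat_lit 5) (nat_lit 67) (nat_lit 5) (nat_lit 391) (nat_lit 337) (nat_lit 292)) (XT.lf (nat_lit 0) (nat_lit 1783321439) (nat_lit 228) (nat_lit 14379391074) (nat_lit 76) (nat_lit 2631275745) (nat_lit 61) (nat_lit 5) (nat_lit 64) (nat_lit 5) (nat_lit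 62) (nat_lit 5) (nat_lit 392) (nat_lit 337) (nat_lit 291))) (XT.nd (nat_lit 78) (nat_lit 152) (nat_lit 0) (XT.lf (nat_lit 0) (nat_lit 3023914344) (nat_lit 152) (nat_lit 6989058221) (nat_lit 228) (nat_lit 9416010499) (nat_lit 59) (nat_lit 5) (nat_lit 61) (nat_lit 5) (nat_lit 62) (nat_lit 5) (nat_lit 393) (nat_lit 337) (nat_lit 290)) (XT.lf (nat_lit 0) (nat_lit 1354146073) (nat_lit 152) (nat_lit 17403141519) (nat_lit 228) (nat_lit 1335355365) (nat_lit 57) (nat_lit 5) (nat_lit 59) (nat_lit 5) (nat_lit 60) (nat_lit 4) (nat_lit 394) (nat_lit 337) (nat_lit 289))))))) (XT.nd (nat_lit 936) (nat_lit 988) (nat_lit 0) (XT.nd (nat_lit 468) (nat_lit 684) (nat_lit 0) (XT.nd (nat_lit 234) (nat_lit 456) (nat_lit 0) (XT.nd (nat_lit 78) (nat_lit 304) (nat_lit 0) (XT.lf (nat_lit 0) (nat_lit 7167972892) (nat_lit 228) (nat_lit 730511157) (nat_lit 76) (nat_lit 12884205567) (nat_lit 56) (nat_lit 5) (nat_lit 59) (nat_lit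 5) (nat_lit 57) (nat_lit 5) (nat_lit 395) (nat_lit 337) (nat_lit 288)) (XT.nd (nat_lit 78) (nat_lit 152) (nat_lit 0) (XT.lf (nat_lit 0) (nat_lit 16188087720) (nat_lit 228) (nat_lit 3144306474) (nat_lit 76) (nat_lit 2170880154) (nat_lit 54) (nat_lit 5) (nat_lit 57) (nat_lit 5) (nat_lit 55) (nat_lit 4) (nat_lit 396) (nat_lit 337) (nat_lit 287)) (XT.lf (nat_lit 0) (nat_lit 3501056838) (nat_lit 152) (nat_lit 6033107203) (nat_lit 76) (nat_lit 12719710673) (nat_lit 52) (nat_lit 5) (nat_lit 54) (nat_lit 5) (nat_lit 53) (nat_lit 5) (nat_lit 397) (nat_lit 337) (nat_lit 286)))) (XT.nd (nat_lit 78) (nat_lit 304) (nat_lit 0) (XT.lf (nat_lit 0) (nat_lit 12746424916) (nat_lit 228) (nat_lit 9392648458) (nat_lit 76) (nat_lit 898414161) (nat_lit 50) (nat_lit 5) (nat_lit 53) (nat_lit 5) (nat_lit 51) (nat_lit 4) (nat_lit 398) (nat_lit 337) (nat_lit 285)) (XT.nd (nat_lit 78) (nat_lit 228) (nat_lit 0) (XT.lf (nat_lit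 0) (nat_lit 10548313891) (nat_lit 76) (nat_lit 12092302112) (nat_lit 152) (nat_lit 1214076321) (nat_lit 49) (nat_lit 5) (nat_lit 50) (nat_lit 5) (nat_lit 51) (nat_lit 4) (nat_lit 399) (nat_lit 337) (nat_lit 284)) (XT.lf (nat_lit 0) (nat_lit 6893775271) (nat_lit 152) (nat_lit 1352351895) (nat_lit 228) (nat_lit 16461489447) (nat_lit 46) (nat_lit 5) (nat_lit 48) (nat_lit 5) (nat_lit 49) (nat_lit 5) (nat_lit 400) (nat_lit 337) (nat_lit 283))))) (XT.nd (nat_lit 234) (nat_lit 380) (nat_lit 0) (XT.nd (nat_lit 78) (nat_lit 228) (nat_lit 0) (XT.lf (nat_lit 0) (nat_lit 2594200028) (nat_lit 76) (nat_lit 15748319614) (nat_lit 152) (nat_lit 7254665239) (nat_lit 45) (nat_lit 5) (nat_lit 46) (nat_lit 5) (nat_lit 47) (nat_lit 4) (nat_lit 401) (nat_lit 337) (nat_lit 282)) (XT.nd (nat_lit 78) (nat_lit 152) (nat_lit 0) (XT.lf (nat_lit 0) (nat_lit 2495110350) (nat_lit 152) (nat_lit 2297466111) (nat_lit 76) (nat_lit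 21734075274) (nat_lit 44) (nat_lit 5) (nat_lit 46) (nat_lit 5) (nat_lit 45) (nat_lit 5) (nat_lit 402) (nat_lit 337) (nat_lit 281)) (XT.lf (nat_lit 0) (nat_lit 12773141390) (nat_lit 228) (nat_lit 7931984198) (nat_lit 76) (nat_lit 6789593542) (nat_lit 42) (nat_lit 5) (nat_lit 45) (nat_lit 5) (nat_lit 43) (nat_lit 4) (nat_lit 403) (nat_lit 337) (nat_lit 280)))) (XT.nd (nat_lit 78) (nat_lit 304) (nat_lit 0) (XT.lf (nat_lit 0) (nat_lit 14161419336) (nat_lit 76) (nat_lit 9547651060) (nat_lit 152) (nat_lit 4797805489) (nat_lit 41) (nat_lit 5) (nat_lit 42) (nat_lit 5) (nat_lit 43) (nat_lit 4) (nat_lit 404) (nat_lit 337) (nat_lit 279)) (XT.nd (nat_lit 78) (nat_lit 76) (nat_lit 0) (XT.lf (nat_lit 0) (nat_lit 5630592441) (nat_lit 228) (nat_lit 21647036131) (nat_lit 76) (nat_lit 2286851672) (nat_lit 38) (nat_lit 5) (nat_lit 41) (nat_lit 5) (nat_lit 39) (nat_lit 4) (nat_lit 405) (nat_lit 337) (nat_lit 278))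 (XT.lf (nat_lit 0) (nat_lit 674056917) (nat_lit 76) (nat_lit 15998361446) (nat_lit 152) (nat_lit 13995389526) (nat_lit 37) (nat_lit 5) (nat_lit 38) (nat_lit 5) (nat_lit 39) (nat_lit 4) (nat_lit 406) (nat_lit 337) (nat_lit 277)))))) (XT.nd (nat_lit 468) (nat_lit 456) (nat_lit 0) (XT.nd (nat_lit 234) (nat_lit 228) (nat_lit 0) (XT.nd (nat_lit 78) (nat_lit 304) (nat_lit 0) (XT.lf (nat_lit 0) (nat_lit 24451301817) (nat_lit 76) (nat_lit 3978058004) (nat_lit 152) (nat_lit 3392056302) (nat_lit 37) (nat_lit 5) (nat_lit 38) (nat_lit 5) (nat_lit 39) (nat_lit 4) (nat_lit 407) (nat_lit 337) (nat_lit 276)) (XT.nd (nat_lit 78) (nat_lit 76) (nat_lit 0) (XT.lf (nat_lit 0) (nat_lit 7776600248) (nat_lit 228) (nat_lit 16587666835) (nat_lit 76) (nat_lit 8660623182) (nat_lit 34) (nat_lit 5) (nat_lit 37) (nat_lit 5) (nat_lit 35) (nat_lit 4) (nat_lit 408) (nat_lit 337) (nat_lit 275)) (XT.lf (nat_lit 0) (nat_lit 7263095257)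 (nat_lit 76) (nat_lit 12301407161) (nat_lit 152) (nat_lit 14719103526) (nat_lit 33) (nat_lit 5) (nat_lit 34) (nat_lit 5) (nat_lit 35) (nat_lit 4) (nat_lit 409) (nat_lit 337) (nat_lit 274)))) (XT.nd (nat_lit 78) (nat_lit 228) (nat_lit 0) (XT.lf (nat_lit 0) (nat_lit 32062697014) (nat_lit 152) (nat_lit 3056606942) (nat_lit 0) (nat_lit 482330672) (nat_lit 33) (nat_lit 5) (nat_lit 35) (nat_lit 4) (nat_lit 33) (nat_lit 4) (nat_lit 410) (nat_lit 337) (nat_lit 273)) (XT.nd (nat_lit 78) (nat_lit 76) (nat_lit 0) (XT.lf (nat_lit 0) (nat_lit 8329309387) (nat_lit 152) (nat_lit 14741154164) (nat_lit 76) (nat_lit 13904067581) (nat_lit 31) (nat_lit 5) (nat_lit 33) (nat_lit 5) (nat_lit 32) (nat_lit 4) (nat_lit 411) (nat_lit 337) (nat_lit 272)) (XT.lf (nat_lit 0) (nat_lit 10508108541) (nat_lit 76) (nat_lit 10291766983) (nat_lit 152) (nat_lit 17612686490) (nat_lit 30) (nat_lit 5) (nat_lit 31) (nat_lit 5) (nat_lit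 32) (nat_lit 4) (nat_lit 412) (nat_lit 337) (nat_lit 271))))) (XT.nd (nat_lit 234) (nat_lit 228) (nat_lit 0) (XT.nd (nat_lit 78) (nat_lit 228) (nat_lit 0) (XT.lf (nat_lit 0) (nat_lit 34027001584) (nat_lit 152) (nat_lit 2717400016) (nat_lit 0) (nat_lit 3174105361) (nat_lit 30) (nat_lit 5) (nat_lit 32) (nat_lit 4) (nat_lit 30) (nat_lit 4) (nat_lit 413) (nat_lit 337) (nat_lit 270)) (XT.nd (nat_lit 78) (nat_lit 76) (nat_lit 0) (XT.lf (nat_lit 0) (nat_lit 6580106061) (nat_lit 152) (nat_lit 17553389412) (nat_lit 76) (nat_lit 17355719773) (nat_lit 28) (nat_lit 5) (nat_lit 30) (nat_lit 5) (nat_lit 29) (nat_lit 4) (nat_lit 414) (nat_lit 337) (nat_lit 269)) (XT.lf (nat_lit 0) (nat_lit 8864568022) (nat_lit 76) (nat_lit 10756571958) (nat_lit 152) (nat_lit 23513541451) (nat_lit 27) (nat_lit 5) (nat_lit 28) (nat_lit 5) (nat_lit 29) (nat_lit 4) (nat_lit 415) (nat_lit 337) (nat_lit 268)))) (XT.nd (nat_lit 156)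 (nat_lit 76) (nat_lit 0) (XT.nd (nat_lit 78) (nat_lit 152) (nat_lit 0) (XT.lf (nat_lit 0) (nat_lit 33482420773) (nat_lit 152) (nat_lit 8008121149) (nat_lit 0) (nat_lit 3366836059) (nat_lit 27) (nat_lit 5) (nat_lit 29) (nat_lit 4) (nat_lit 27) (nat_lit 4) (nat_lit 416) (nat_lit 337) (nat_lit 267)) (XT.lf (nat_lit 0) (nat_lit 1601125650) (nat_lit 152) (nat_lit 26914033916) (nat_lit 76) (nat_lit 18142937827) (nat_lit 25) (nat_lit 5) (nat_lit 27) (nat_lit 5) (nat_lit 26) (nat_lit 4) (nat_lit 417) (nat_lit 337) (nat_lit 266))) (XT.nd (nat_lit 78) (nat_lit 0) (nat_lit 0) (XT.lf (nat_lit 0) (nat_lit 313089107) (nat_lit 76) (nat_lit 14723276255) (nat_lit 152) (nat_lit 33507743149) (nat_lit 24) (nat_lit 5) (nat_lit 25) (nat_lit 5) (nat_lit 26) (nat_lit 4) (nat_lit 418) (nat_lit 337) (nat_lit 265)) (XT.lf (nat_lit 0) (nat_lit 29378901683) (nat_lit 152) (nat_lit 21133277498) (nat_lit 0) (nat_lit 5177408)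 (nat_lit 24) (nat_lit 5) (nat_lit 26) (nat_lit 4) (nat_lit 24) (nat_lit 4) (nat_lit 419) (nat_lit 337) (nat_lit 264))))))))
noncomputable def xc44 : XT := (XT.nd (nat_lit 47814) (nat_lit 0) (nat_lit 7752) (XT.nd (nat_lit 936) (nat_lit 228) (nat_lit 0) (XT.nd (nat_lit 468) (nat_lit 304) (nat_lit 0) (XT.nd (nat_lit 234) (nat_lit 152) (nat_lit 0) (XT.nd (nat_lit 78) (nat_lit 152) (nat_lit 0) (XT.lf (nat_lit 0) (nat_lit 7235029663) (nat_lit 76) (nat_lit 37381745019) (nat_lit 76) (nat_lit 7967148417) (nat_lit 23) (nat_lit 4) (nat_lit 24) (nat_lit 5) (nat_lit 24) (nat_lit 4) (nat_lit 420) (nat_lit 337) (nat_lit 263)) (XT.nd (nat_lit 78) (nat_lit 76) (nat_lit 0) (XT.lf (nat_lit 0) (nat_lit 5928877810) (nat_lit 152) (nat_lit 17417900673) (nat_lit 76) (nat_lit 31399934201) (nat_lit 22) (nat_lit 5) (nat_lit 24) (nat_lit 5) (nat_lit 23) (nat_lit 4) (nat_lit 421) (nat_lit 337) (nat_lit 262)) (XT.lf (nat_lit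 0) (nat_lit 11991340966) (nat_lit 76) (nat_lit 8443110266) (nat_lit 152) (nat_lit 36578440523) (nat_lit 21) (nat_lit 5) (nat_lit 22) (nat_lit 5) (nat_lit 23) (nat_lit 4) (nat_lit 422) (nat_lit 337) (nat_lit 261)))) (XT.nd (nat_lit 78) (nat_lit 152) (nat_lit 0) (XT.lf (nat_lit 0) (nat_lit 35879146166) (nat_lit 152) (nat_lit 16293598469) (nat_lit 0) (nat_lit 7213221808) (nat_lit 21) (nat_lit 5) (nat_lit 23) (nat_lit 4) (nat_lit 21) (nat_lit 4) (nat_lit 423) (nat_lit 337) (nat_lit 260)) (XT.nd (nat_lit 78) (nat_lit 76) (nat_lit 0) (XT.lf (nat_lit 0) (nat_lit 13991331456) (nat_lit 76) (nat_lit 38289693759) (nat_lit 76) (nat_lit 9591123027) (nat_lit 20) (nat_lit 4) (nat_lit 21) (nat_lit 5) (nat_lit 21) (nat_lit 4) (nat_lit 424) (nat_lit 337) (nat_lit 259)) (XT.lf (nat_lit 0) (nat_lit 5057712405) (nat_lit 152) (nat_lit 18462506334) (nat_lit 76) (nat_lit 40956914788) (nat_lit 19) (nat_lit 5) (nat_lit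 21) (nat_lit 5) (nat_lit 20) (nat_lit 4) (nat_lit 425) (nat_lit 337) (nat_lit 258))))) (XT.nd (nat_lit 234) (nat_lit 152) (nat_lit 0) (XT.nd (nat_lit 78) (nat_lit 76) (nat_lit 0) (XT.lf (nat_lit 0) (nat_lit 12511218986) (nat_lit 76) (nat_lit 7819072996) (nat_lit 152) (nat_lit 46876539034) (nat_lit 18) (nat_lit 5) (nat_lit 19) (nat_lit 5) (nat_lit 20) (nat_lit 4) (nat_lit 426) (nat_lit 337) (nat_lit 257)) (XT.nd (nat_lit 78) (nat_lit 76) (nat_lit 0) (XT.lf (nat_lit 0) (nat_lit 36609977813) (nat_lit 152) (nat_lit 24794759758) (nat_lit 0) (nat_lit 8660973050) (nat_lit 18) (nat_lit 5) (nat_lit 20) (nat_lit 4) (nat_lit 18) (nat_lit 4) (nat_lit 427) (nat_lit 337) (nat_lit 256)) (XT.lf (nat_lit 0) (nat_lit 6592093487) (nat_lit 76) (nat_lit 47223581070) (nat_lit 76) (nat_lit 19248500334) (nat_lit 17) (nat_lit 4) (nat_lit 18) (nat_lit 5) (nat_lit 18) (nat_lit 4) (nat_lit 428) (nat_lit 337) (nat_lit 255))))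 (XT.nd (nat_lit 78) (nat_lit 152) (nat_lit 0) (XT.lf (nat_lit 0) (nat_lit 40009353888) (nat_lit 76) (nat_lit 32098174366) (nat_lit 76) (nat_lit 4098259370) (nat_lit 17) (nat_lit 4) (nat_lit 18) (nat_lit 5) (nat_lit 18) (nat_lit 4) (nat_lit 429) (nat_lit 337) (nat_lit 254)) (XT.nd (nat_lit 78) (nat_lit 76) (nat_lit 0) (XT.lf (nat_lit 0) (nat_lit 11550800059) (nat_lit 152) (nat_lit 4575442553) (nat_lit 76) (nat_lit 63375681520) (nat_lit 16) (nat_lit 5) (nat_lit 18) (nat_lit 5) (nat_lit 17) (nat_lit 4) (nat_lit 430) (nat_lit 337) (nat_lit 253)) (XT.lf (nat_lit 0) (nat_lit 28160302283) (nat_lit 152) (nat_lit 53862380005) (nat_lit 0) (nat_lit 931086672) (nat_lit 15) (nat_lit 5) (nat_lit 17) (nat_lit 4) (nat_lit 15) (nat_lit 4) (nat_lit 431) (nat_lit 337) (nat_lit 252)))))) (XT.nd (nat_lit 46410) (nat_lit 0) (nat_lit 24016) (XT.nd (nat_lit 312) (nat_lit 152) (nat_lit 0) (XT.nd (nat_lit 78) (nat_lit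 76) (nat_lit 0) (XT.lf (nat_lit 0) (nat_lit 45784264824) (nat_lit 152) (nat_lit 22254201551) (nat_lit 0) (nat_lit 18534221283) (nat_lit 15) (nat_lit 5) (nat_lit 17) (nat_lit 4) (nat_lit 15) (nat_lit 4) (nat_lit 432) (nat_lit 337) (nat_lit 251)) (XT.nd (nat_lit 78) (nat_lit 0) (nat_lit 0) (XT.lf (nat_lit 0) (nat_lit 11102122076) (nat_lit 76) (nat_lit 53268931089) (nat_lit 76) (nat_lit 25999051425) (nat_lit 14) (nat_lit 4) (nat_lit 15) (nat_lit 5) (nat_lit 15) (nat_lit 4) (nat_lit 433) (nat_lit 337) (nat_lit 250)) (XT.lf (nat_lit 0) (nat_lit 46543804993) (nat_lit 76) (nat_lit 37548108838) (nat_lit 76) (nat_lit 10259337626) (nat_lit 14) (nat_lit 4) (nat_lit 15) (nat_lit 5) (nat_lit 15) (nat_lit 4) (nat_lit 434) (nat_lit 337) (nat_lit 249)))) (XT.nd (nat_lit 45942) (nat_lit 0) (nat_lit 27740) (XT.lf (nat_lit 0) (nat_lit 19936091758) (nat_lit 76) (nat_lit 3344691546) (nat_lit 152) (nat_lit 79629438975)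 (nat_lit 12) (nat_lit 5) (nat_lit 13) (nat_lit 5) (nat_lit 14) (nat_lit 4) (nat_lit 436) (nat_lit 337) (nat_lit 247)) (XT.nd (nat_lit 78) (nat_lit 380) (nat_lit 0) (XT.lf (nat_lit 0) (nat_lit 1440455800) (nat_lit 228) (nat_lit 901971394) (nat_lit 228) (nat_lit 901971394) (nat_lit 382) (nat_lit 4) (nat_lit 385) (nat_lit 5) (nat_lit 385) (nat_lit 4) (nat_lit 344) (nat_lit 338) (nat_lit 338)) (XT.lf (nat_lit 0) (nat_lit 2419018482) (nat_lit 304) (nat_lit 930765880) (nat_lit 380) (nat_lit 3166488800) (nat_lit 377) (nat_lit 5) (nat_lit 381) (nat_lit 5) (nat_lit 382) (nat_lit 4) (nat_lit 345) (nat_lit 338) (nat_lit 337))))) (XT.nd (nat_lit 234) (nat_lit 2204) (nat_lit 0) (XT.nd (nat_lit 78) (nat_lit 1064) (nat_lit 0) (XT.lf (nat_lit 0) (nat_lit 1885871305) (nat_lit 456) (nat_lit 4476017577) (nat_lit 76) (nat_lit 189820657) (nat_lit 371) (nat_lit 5) (nat_lit 377) (nat_lit 5) (nat_lit 372) (nat_lit 4)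 (nat_lit 346) (nat_lit 338) (nat_lit 336)) (XT.nd (nat_lit 78) (nat_lit 532) (nat_lit 0) (XT.lf (nat_lit 0) (nat_lit 298212590) (nat_lit 532) (nat_lit 4755009625) (nat_lit 76) (nat_lit 1541667439) (nat_lit 364) (nat_lit 5) (nat_lit 371) (nat_lit 5) (nat_lit 365) (nat_lit 5) (nat_lit 347) (nat_lit 338) (nat_lit 335)) (XT.lf (nat_lit 0) (nat_lit 1705443876) (nat_lit 532) (nat_lit 3484977455) (nat_lit 608) (nat_lit 1455325007) (nat_lit 357) (nat_lit 5) (nat_lit 364) (nat_lit 5) (nat_lit 365) (nat_lit 5) (nat_lit 348) (nat_lit 338) (nat_lit 334)))) (XT.nd (nat_lit 78) (nat_lit 1520) (nat_lit 0) (XT.lf (nat_lit 0) (nat_lit 1681712255) (nat_lit 608) (nat_lit 1662655512) (nat_lit 684) (nat_lit 3360301884) (nat_lit 348) (nat_lit 5) (nat_lit 356) (nat_lit 5) (nat_lit 357) (nat_lit 5) (nat_lit 349) (nat_lit 338) (nat_lit 333)) (XT.nd (nat_lit 78) (nat_lit 760) (nat_lit 0) (XT.lf (nat_lit 0) (nat_lit 1359370008)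 (nat_lit 760) (nat_lit 5004535786) (nat_lit 76) (nat_lit 407836171) (nat_lit 338) (nat_lit 5) (nat_lit 348) (nat_lit 5) (nat_lit 339) (nat_lit 5) (nat_lit 350) (nat_lit 338) (nat_lit 332)) (XT.lf (nat_lit 0) (nat_lit 1939284081) (nat_lit 760) (nat_lit 4136027027) (nat_lit 836) (nat_lit 771125641) (nat_lit 328) (nat_lit 5) (nat_lit 338) (nat_lit 5) (nat_lit 339) (nat_lit 5) (nat_lit 351) (nat_lit 338) (nat_lit 331))))))) (XT.nd (nat_lit 936) (nat_lit 5624) (nat_lit 0) (XT.nd (nat_lit 468) (nat_lit 4180) (nat_lit 0) (XT.nd (nat_lit 234) (nat_lit 3572) (nat_lit 0) (XT.nd (nat_lit 78) (nat_lit 1976) (nat_lit 0) (XT.lf (nat_lit 0) (nat_lit 2206942141) (nat_lit 836) (nat_lit 1637683740) (nat_lit 912) (nat_lit 3084531007) (nat_lit 316) (nat_lit 5) (nat_lit 327) (nat_lit 5) (nat_lit 328) (nat_lit 5) (nat_lit 352) (nat_lit 338) (nat_lit 330)) (XT.nd (nat_lit 78) (nat_lit 988) (nat_lit 0) (XT.lf (nat_lit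 0) (nat_lit 1470519287) (nat_lit 988) (nat_lit 4446972972) (nat_lit 76) (nat_lit 1102646300) (nat_lit 303) (nat_lit 5) (nat_lit 316) (nat_lit 5) (nat_lit 304) (nat_lit 5) (nat_lit 353) (nat_lit 338) (nat_lit 329)) (XT.lf (nat_lit 0) (nat_lit 3020290917) (nat_lit 988) (nat_lit 3031183244) (nat_lit 1064) (nat_lit 1067551229) (nat_lit 290) (nat_lit 5) (nat_lit 303) (nat_lit 5) (nat_lit 304) (nat_lit 5) (nat_lit 354) (nat_lit 338) (nat_lit 328)))) (XT.nd (nat_lit 78) (nat_lit 2432) (nat_lit 0) (XT.lf (nat_lit 0) (nat_lit 3422910183) (nat_lit 1140) (nat_lit 3668187179) (nat_lit 76) (nat_lit 135171906) (nat_lit 275) (nat_lit 5) (nat_lit 290) (nat_lit 5) (nat_lit 276) (nat_lit 5) (nat_lit 355) (nat_lit 338) (nat_lit 327)) (XT.nd (nat_lit 78) (nat_lit 1216) (nat_lit 0) (XT.lf (nat_lit 0) (nat_lit 657051201) (nat_lit 1216) (nat_lit 3170531390) (nat_lit 76) (nat_lit 3514014371) (nat_lit 259) (nat_lit 5)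 (nat_lit 275) (nat_lit 5) (nat_lit 260) (nat_lit 5) (nat_lit 356) (nat_lit 338) (nat_lit 326)) (XT.lf (nat_lit 0) (nat_lit 4867427136) (nat_lit 1216) (nat_lit 268821055) (nat_lit 1292) (nat_lit 2329186736) (nat_lit 243) (nat_lit 5) (nat_lit 259) (nat_lit 5) (nat_lit 260) (nat_lit 5) (nat_lit 357) (nat_lit 338) (nat_lit 325))))) (XT.nd (nat_lit 234) (nat_lit 2204) (nat_lit 0) (XT.nd (nat_lit 78) (nat_lit 1292) (nat_lit 0) (XT.lf (nat_lit 0) (nat_lit 2116768214) (nat_lit 684) (nat_lit 1969643844) (nat_lit 76) (nat_lit 3511005510) (nat_lit 234) (nat_lit 5) (nat_lit 243) (nat_lit 5) (nat_lit 235) (nat_lit 5) (nat_lit 358) (nat_lit 338) (nat_lit 324)) (XT.nd (nat_lit 78) (nat_lit 684) (nat_lit 0) (XT.lf (nat_lit 0) (nat_lit 6479302236) (nat_lit 608) (nat_lit 152645835) (nat_lit 684) (nat_lit 1106600147) (nat_lit 226) (nat_lit 5) (nat_lit 234) (nat_lit 5) (nat_lit 235) (nat_lit 5) (nat_lit 359) (nat_lit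 338) (nat_lit 323)) (XT.lf (nat_lit 0) (nat_lit 3357408327) (nat_lit 684) (nat_lit 514124615) (nat_lit 76) (nat_lit 4016105204) (nat_lit 217) (nat_lit 5) (nat_lit 226) (nat_lit 5) (nat_lit 218) (nat_lit 5) (nat_lit 360) (nat_lit 338) (nat_lit 322)))) (XT.nd (nat_lit 78) (nat_lit 1140) (nat_lit 0) (XT.lf (nat_lit 0) (nat_lit 324088328) (nat_lit 532) (nat_lit 7615531297) (nat_lit 608) (nat_lit 106780075) (nat_lit 203) (nat_lit 5) (nat_lit 210) (nat_lit 5) (nat_lit 211) (nat_lit 5) (nat_lit 361) (nat_lit 338) (nat_lit 321)) (XT.nd (nat_lit 78) (nat_lit 608) (nat_lit 0) (XT.lf (nat_lit 0) (nat_lit 1192735132) (nat_lit 456) (nat_lit 3218130308) (nat_lit 532) (nat_lit 3802154351) (nat_lit 196) (nat_lit 5) (nat_lit 202) (nat_lit 5) (nat_lit 203) (nat_lit 5) (nat_lit 362) (nat_lit 338) (nat_lit 320)) (XT.lf (nat_lit 0) (nat_lit 687661781) (nat_lit 608) (nat_lit 6249183484) (nat_lit 76) (nat_lit 1452794152)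 (nat_lit 188) (nat_lit 5) (nat_lit 196) (nat_lit 5) (nat_lit 189) (nat_lit 5) (nat_lit 363) (nat_lit 338) (nat_lit 319)))))) (XT.nd (nat_lit 468) (nat_lit 2888) (nat_lit 0) (XT.nd (nat_lit 234) (nat_lit 1368) (nat_lit 0) (XT.nd (nat_lit 78) (nat_lit 912) (nat_lit 0) (XT.lf (nat_lit 0) (nat_lit 3116252404) (nat_lit 456) (nat_lit 2172507715) (nat_lit 532) (nat_lit 3286304937) (nat_lit 182) (nat_lit 5) (nat_lit 188) (nat_lit 5) (nat_lit 189) (nat_lit 5) (nat_lit 364) (nat_lit 338) (nat_lit 318)) (XT.nd (nat_lit 78) (nat_lit 380) (nat_lit 0) (XT.lf (nat_lit 0) (nat_lit 1290730170) (nat_lit 532) (nat_lit 4622133283) (nat_lit 76) (nat_lit 2857563514) (nat_lit 175) (nat_lit 5) (nat_lit 182) (nat_lit 5) (nat_lit 176) (nat_lit 5) (nat_lit 365) (nat_lit 338) (nat_lit 317)) (XT.lf (nat_lit 0) (nat_lit 5220028577) (nat_lit 380) (nat_lit 777555062) (nat_lit 456) (nat_lit 2977988373) (nat_lit 170) (nat_lit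 5) (nat_lit 175) (nat_lit 5) (nat_lit 176) (nat_lit 5) (nat_lit 366) (nat_lit 338) (nat_lit 316)))) (XT.nd (nat_lit 78) (nat_lit 836) (nat_lit 0) (XT.lf (nat_lit 0) (nat_lit 1712759414) (nat_lit 532) (nat_lit 2868301327) (nat_lit 76) (nat_lit 4609521550) (nat_lit 163) (nat_lit 5) (nat_lit 170) (nat_lit 5) (nat_lit 164) (nat_lit 5) (nat_lit 367) (nat_lit 338) (nat_lit 315)) (XT.nd (nat_lit 78) (nat_lit 456) (nat_lit 0) (XT.lf (nat_lit 0) (nat_lit 6553540113) (nat_lit 456) (nat_lit 1948476081) (nat_lit 76) (nat_lit 914181874) (nat_lit 158) (nat_lit 5) (nat_lit 164) (nat_lit 5) (nat_lit 159) (nat_lit 5) (nat_lit 368) (nat_lit 338) (nat_lit 314)) (XT.lf (nat_lit 0) (nat_lit 1957583926) (nat_lit 456) (nat_lit 1017582136) (nat_lit 76) (nat_lit 6677014215) (nat_lit 152) (nat_lit 5) (nat_lit 158) (nat_lit 5) (nat_lit 153) (nat_lit 5) (nat_lit 369) (nat_lit 338) (nat_lit 313))))) (XT.nd (nat_lit 234)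 (nat_lit 1368) (nat_lit 0) (XT.nd (nat_lit 78) (nat_lit 1140) (nat_lit 0) (XT.lf (nat_lit 0) (nat_lit 6960703942) (nat_lit 456) (nat_lit 70150604) (nat_lit 76) (nat_lit 2868270510) (nat_lit 147) (nat_lit 5) (nat_lit 153) (nat_lit 5) (nat_lit 148) (nat_lit 5) (nat_lit 370) (nat_lit 338) (nat_lit 312)) (XT.nd (nat_lit 78) (nat_lit 380) (nat_lit 0) (XT.lf (nat_lit 0) (nat_lit 915167468) (nat_lit 304) (nat_lit 1118081014) (nat_lit 380) (nat_lit 8124084310) (nat_lit 137) (nat_lit 5) (nat_lit 141) (nat_lit 5) (nat_lit 142) (nat_lit 5) (nat_lit 371) (nat_lit 338) (nat_lit 311)) (XT.lf (nat_lit 0) (nat_lit 1889333624) (nat_lit 380) (nat_lit 5338365355) (nat_lit 456) (nat_lit 3198870469) (nat_lit 132) (nat_lit 5) (nat_lit 137) (nat_lit 5) (nat_lit 138) (nat_lit 5) (nat_lit 372) (nat_lit 338) (nat_lit 310)))) (XT.nd (nat_lit 156) (nat_lit 684) (nat_lit 0) (XT.nd (nat_lit 78) (nat_lit 304) (nat_lit 0) (XT.lf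 (nat_lit 0) (nat_lit 1944816790) (nat_lit 380) (nat_lit 7821788786) (nat_lit 76) (nat_lit 941809687) (nat_lit 127) (nat_lit 5) (nat_lit 132) (nat_lit 5) (nat_lit 128) (nat_lit 5) (nat_lit 373) (nat_lit 338) (nat_lit 309)) (XT.lf (nat_lit 0) (nat_lit 3855441074) (nat_lit 304) (nat_lit 3474665954) (nat_lit 380) (nat_lit 3671814461) (nat_lit 123) (nat_lit 5) (nat_lit 127) (nat_lit 5) (nat_lit 128) (nat_lit 5) (nat_lit 374) (nat_lit 338) (nat_lit 308))) (XT.nd (nat_lit 78) (nat_lit 304) (nat_lit 0) (XT.lf (nat_lit 0) (nat_lit 1674260319) (nat_lit 380) (nat_lit 6478467003) (nat_lit 76) (nat_lit 3155954337) (nat_lit 118) (nat_lit 5) (nat_lit 123) (nat_lit 5) (nat_lit 119) (nat_lit 5) (nat_lit 375) (nat_lit 338) (nat_lit 307)) (XT.lf (nat_lit 0) (nat_lit 5780529235) (nat_lit 304) (nat_lit 1473883987) (nat_lit 380) (nat_lit 4374025900) (nat_lit 114) (nat_lit 5) (nat_lit 118) (nat_lit 5) (nat_lit 119)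 (nat_lit 5) (nat_lit 376) (nat_lit 338) (nat_lit 306))))))))
noncomputable def xc45 : XT := (XT.nd (nat_lit 1872) (nat_lit 2128) (nat_lit 0) (XT.nd (nat_lit 936) (nat_lit 1900) (nat_lit 0) (XT.nd (nat_lit 468) (nat_lit 1444) (nat_lit 0) (XT.nd (nat_lit 234) (nat_lit 760) (nat_lit 0) (XT.nd (nat_lit 78) (nat_lit 608) (nat_lit 0) (XT.lf (nat_lit 0) (nat_lit 1193365483) (nat_lit 304) (nat_lit 5254646945) (nat_lit 76) (nat_lit 5513877385) (nat_lit 110) (nat_lit 5) (nat_lit 114) (nat_lit 5) (nat_lit 111) (nat_lit 5) (nat_lit 377) (nat_lit 338) (nat_lit 305)) (XT.nd (nat_lit 78) (nat_lit 304) (nat_lit 0) (XT.lf (nat_lit 0) (nat_lit 6987775262) (nat_lit 380) (nat_lit 4705435128) (nat_lit 76) (nat_lit 616357700) (nat_lit 106) (nat_lit 5) (nat_lit 111) (nat_lit 5) (nat_lit 107) (nat_lit 5) (nat_lit 378) (nat_lit 338) (nat_lit 304)) (XT.lf (nat_lit 0) (nat_lit 478096832) (nat_lit 304) (nat_lit 4212821035)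 (nat_lit 76) (nat_lit 7980966134) (nat_lit 102) (nat_lit 5) (nat_lit 106) (nat_lit 5) (nat_lit 103) (nat_lit 5) (nat_lit 379) (nat_lit 338) (nat_lit 303)))) (XT.nd (nat_lit 78) (nat_lit 532) (nat_lit 0) (XT.lf (nat_lit 0) (nat_lit 6513217109) (nat_lit 304) (nat_lit 3796028350) (nat_lit 76) (nat_lit 2739854836) (nat_lit 99) (nat_lit 5) (nat_lit 103) (nat_lit 5) (nat_lit 100) (nat_lit 5) (nat_lit 380) (nat_lit 338) (nat_lit 302)) (XT.nd (nat_lit 78) (nat_lit 304) (nat_lit 0) (XT.lf (nat_lit 0) (nat_lit 10010973415) (nat_lit 228) (nat_lit 2918804967) (nat_lit 304) (nat_lit 513031603) (nat_lit 96) (nat_lit 5) (nat_lit 99) (nat_lit 5) (nat_lit 100) (nat_lit 5) (nat_lit 381) (nat_lit 338) (nat_lit 301)) (XT.lf (nat_lit 0) (nat_lit 5782680512) (nat_lit 304) (nat_lit 3186018125) (nat_lit 76) (nat_lit 4883298831) (nat_lit 92) (nat_lit 5) (nat_lit 96) (nat_lit 5) (nat_lit 93) (nat_lit 5) (nat_lit 382)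 (nat_lit 338) (nat_lit 300))))) (XT.nd (nat_lit 234) (nat_lit 760) (nat_lit 0) (XT.nd (nat_lit 78) (nat_lit 456) (nat_lit 0) (XT.lf (nat_lit 0) (nat_lit 11277124105) (nat_lit 228) (nat_lit 1176664229) (nat_lit 304) (nat_lit 1825587364) (nat_lit 89) (nat_lit 5) (nat_lit 92) (nat_lit 5) (nat_lit 93) (nat_lit 5) (nat_lit 383) (nat_lit 338) (nat_lit 299)) (XT.nd (nat_lit 78) (nat_lit 152) (nat_lit 0) (XT.lf (nat_lit 0) (nat_lit 4753300813) (nat_lit 304) (nat_lit 2971184970) (nat_lit 76) (nat_lit 6998833429) (nat_lit 85) (nat_lit 5) (nat_lit 89) (nat_lit 5) (nat_lit 86) (nat_lit 5) (nat_lit 384) (nat_lit 338) (nat_lit 298)) (XT.lf (nat_lit 0) (nat_lit 11690819723) (nat_lit 228) (nat_lit 3029006946) (nat_lit 76) (nat_lit 467085650) (nat_lit 83) (nat_lit 5) (nat_lit 86) (nat_lit 5) (nat_lit 84) (nat_lit 5) (nat_lit 385) (nat_lit 338) (nat_lit 297)))) (XT.nd (nat_lit 78) (nat_lit 456) (nat_lit 0) (XT.lf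 (nat_lit 0) (nat_lit 3371839045) (nat_lit 304) (nat_lit 3265689594) (nat_lit 76) (nat_lit 9031178908) (nat_lit 79) (nat_lit 5) (nat_lit 83) (nat_lit 5) (nat_lit 80) (nat_lit 5) (nat_lit 386) (nat_lit 338) (nat_lit 296)) (XT.nd (nat_lit 78) (nat_lit 304) (nat_lit 0) (XT.lf (nat_lit 0) (nat_lit 10589777506) (nat_lit 228) (nat_lit 3642635222) (nat_lit 76) (nat_lit 1938789718) (nat_lit 77) (nat_lit 5) (nat_lit 80) (nat_lit 5) (nat_lit 78) (nat_lit 5) (nat_lit 387) (nat_lit 338) (nat_lit 295)) (XT.lf (nat_lit 0) (nat_lit 1573007633) (nat_lit 304) (nat_lit 4205688304) (nat_lit 76) (nat_lit 10915759969) (nat_lit 73) (nat_lit 5) (nat_lit 77) (nat_lit 5) (nat_lit 74) (nat_lit 5) (nat_lit 388) (nat_lit 338) (nat_lit 294)))))) (XT.nd (nat_lit 468) (nat_lit 836) (nat_lit 0) (XT.nd (nat_lit 234) (nat_lit 532) (nat_lit 0) (XT.nd (nat_lit 78) (nat_lit 380) (nat_lit 0) (XT.lf (nat_lit 0) (nat_lit 9069539673)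 (nat_lit 228) (nat_lit 4980521891) (nat_lit 76) (nat_lit 3189172228) (nat_lit 71) (nat_lit 5) (nat_lit 74) (nat_lit 5) (nat_lit 72) (nat_lit 5) (nat_lit 389) (nat_lit 338) (nat_lit 293)) (XT.nd (nat_lit 78) (nat_lit 228) (nat_lit 0) (XT.lf (nat_lit 0) (nat_lit 11846732000) (nat_lit 152) (nat_lit 5223742787) (nat_lit 228) (nat_lit 736901740) (nat_lit 69) (nat_lit 5) (nat_lit 71) (nat_lit 5) (nat_lit 72) (nat_lit 5) (nat_lit 390) (nat_lit 338) (nat_lit 292)) (XT.lf (nat_lit 0) (nat_lit 7045292998) (nat_lit 228) (nat_lit 7219975253) (nat_lit 76) (nat_lit 4133162001) (nat_lit 66) (nat_lit 5) (nat_lit 69) (nat_lit 5) (nat_lit 67) (nat_lit 5) (nat_lit 391) (nat_lit 338) (nat_lit 291)))) (XT.nd (nat_lit 78) (nat_lit 380) (nat_lit 0) (XT.lf (nat_lit 0) (nat_lit 10276636249) (nat_lit 152) (nat_lit 5055918818) (nat_lit 228) (nat_lit 3682338446) (nat_lit 64) (nat_lit 5) (nat_lit 66) (nat_lit 5) (nat_lit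 67) (nat_lit 5) (nat_lit 392) (nat_lit 338) (nat_lit 290)) (XT.nd (nat_lit 78) (nat_lit 152) (nat_lit 0) (XT.lf (nat_lit 0) (nat_lit 4414662681) (nat_lit 228) (nat_lit 10572271379) (nat_lit 76) (nat_lit 4670156598) (nat_lit 61) (nat_lit 5) (nat_lit 64) (nat_lit 5) (nat_lit 62) (nat_lit 5) (nat_lit 393) (nat_lit 338) (nat_lit 289)) (XT.lf (nat_lit 0) (nat_lit 7571459871) (nat_lit 152) (nat_lit 5405540936) (nat_lit 228) (nat_lit 7349214062) (nat_lit 59) (nat_lit 5) (nat_lit 61) (nat_lit 5) (nat_lit 62) (nat_lit 5) (nat_lit 394) (nat_lit 338) (nat_lit 288))))) (XT.nd (nat_lit 234) (nat_lit 380) (nat_lit 0) (XT.nd (nat_lit 78) (nat_lit 228) (nat_lit 0) (XT.lf (nat_lit 0) (nat_lit 1054688042) (nat_lit 228) (nat_lit 15288929707) (nat_lit 76) (nat_lit 4680886027) (nat_lit 56) (nat_lit 5) (nat_lit 59) (nat_lit 5) (nat_lit 57) (nat_lit 5) (nat_lit 395) (nat_lit 338) (nat_lit 287)) (XT.nd (nat_lit 78)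 (nat_lit 76) (nat_lit 0) (XT.lf (nat_lit 0) (nat_lit 3465360139) (nat_lit 152) (nat_lit 6408085134) (nat_lit 228) (nat_lit 11877688375) (nat_lit 54) (nat_lit 5) (nat_lit 56) (nat_lit 5) (nat_lit 57) (nat_lit 5) (nat_lit 396) (nat_lit 338) (nat_lit 286)) (XT.lf (nat_lit 0) (nat_lit 809882988) (nat_lit 76) (nat_lit 18455195197) (nat_lit 152) (nat_lit 3245067309) (nat_lit 53) (nat_lit 5) (nat_lit 54) (nat_lit 5) (nat_lit 55) (nat_lit 4) (nat_lit 397) (nat_lit 338) (nat_lit 285)))) (XT.nd (nat_lit 78) (nat_lit 304) (nat_lit 0) (XT.lf (nat_lit 0) (nat_lit 5888476898) (nat_lit 152) (nat_lit 2312285628) (nat_lit 76) (nat_lit 15099189887) (nat_lit 52) (nat_lit 5) (nat_lit 54) (nat_lit 5) (nat_lit 53) (nat_lit 5) (nat_lit 398) (nat_lit 338) (nat_lit 284)) (XT.nd (nat_lit 78) (nat_lit 152) (nat_lit 0) (XT.lf (nat_lit 0) (nat_lit 15545263880) (nat_lit 228) (nat_lit 5907480030) (nat_lit 76) (nat_lit 2671539117)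 (nat_lit 50) (nat_lit 5) (nat_lit 53) (nat_lit 5) (nat_lit 51) (nat_lit 4) (nat_lit 399) (nat_lit 338) (nat_lit 283)) (XT.lf (nat_lit 0) (nat_lit 866575535) (nat_lit 152) (nat_lit 10075668239) (nat_lit 76) (nat_lit 14041840616) (nat_lit 48) (nat_lit 5) (nat_lit 50) (nat_lit 5) (nat_lit 49) (nat_lit 5) (nat_lit 400) (nat_lit 338) (nat_lit 282))))))) (XT.nd (nat_lit 936) (nat_lit 836) (nat_lit 0) (XT.nd (nat_lit 468) (nat_lit 532) (nat_lit 0) (XT.nd (nat_lit 234) (nat_lit 304) (nat_lit 0) (XT.nd (nat_lit 78) (nat_lit 304) (nat_lit 0) (XT.lf (nat_lit 0) (nat_lit 10713280730) (nat_lit 228) (nat_lit 14873210427) (nat_lit 76) (nat_lit 294655378) (nat_lit 46) (nat_lit 5) (nat_lit 49) (nat_lit 5) (nat_lit 47) (nat_lit 4) (nat_lit 401) (nat_lit 338) (nat_lit 281)) (XT.nd (nat_lit 78) (nat_lit 228) (nat_lit 0) (XT.lf (nat_lit 0) (nat_lit 6432150556) (nat_lit 76) (nat_lit 14833137917) (nat_lit 152) (nat_lit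 5551390660) (nat_lit 45) (nat_lit 5) (nat_lit 46) (nat_lit 5) (nat_lit 47) (nat_lit 4) (nat_lit 402) (nat_lit 338) (nat_lit 280)) (XT.lf (nat_lit 0) (nat_lit 1180939040) (nat_lit 152) (nat_lit 3379509770) (nat_lit 228) (nat_lit 23234137065) (nat_lit 42) (nat_lit 5) (nat_lit 44) (nat_lit 5) (nat_lit 45) (nat_lit 5) (nat_lit 403) (nat_lit 338) (nat_lit 279)))) (XT.nd (nat_lit 78) (nat_lit 304) (nat_lit 0) (XT.lf (nat_lit 0) (nat_lit 15297850090) (nat_lit 228) (nat_lit 4819749295) (nat_lit 76) (nat_lit 8695101811) (nat_lit 42) (nat_lit 5) (nat_lit 45) (nat_lit 5) (nat_lit 43) (nat_lit 4) (nat_lit 404) (nat_lit 338) (nat_lit 278)) (XT.nd (nat_lit 78) (nat_lit 228) (nat_lit 0) (XT.lf (nat_lit 0) (nat_lit 18277744390) (nat_lit 76) (nat_lit 8445781397) (nat_lit 152) (nat_lit 3153659701) (nat_lit 41) (nat_lit 5) (nat_lit 42) (nat_lit 5) (nat_lit 43) (nat_lit 4) (nat_lit 405) (nat_lit 338) (nat_lit 277))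 (XT.lf (nat_lit 0) (nat_lit 7718543448) (nat_lit 228) (nat_lit 19344016614) (nat_lit 76) (nat_lit 3925799787) (nat_lit 38) (nat_lit 5) (nat_lit 41) (nat_lit 5) (nat_lit 39) (nat_lit 4) (nat_lit 406) (nat_lit 338) (nat_lit 276))))) (XT.nd (nat_lit 234) (nat_lit 228) (nat_lit 0) (XT.nd (nat_lit 78) (nat_lit 228) (nat_lit 0) (XT.lf (nat_lit 0) (nat_lit 3996090098) (nat_lit 76) (nat_lit 15261959946) (nat_lit 152) (nat_lit 12890443378) (nat_lit 37) (nat_lit 5) (nat_lit 38) (nat_lit 5) (nat_lit 39) (nat_lit 4) (nat_lit 407) (nat_lit 338) (nat_lit 275)) (XT.nd (nat_lit 78) (nat_lit 228) (nat_lit 0) (XT.lf (nat_lit 0) (nat_lit 28805610084) (nat_lit 76) (nat_lit 2713799407) (nat_lit 152) (nat_lit 1842882332) (nat_lit 37) (nat_lit 5) (nat_lit 38) (nat_lit 5) (nat_lit 39) (nat_lit 4) (nat_lit 408) (nat_lit 338) (nat_lit 274)) (XT.lf (nat_lit 0) (nat_lit 9813817310) (nat_lit 228) (nat_lit 14307049738) (nat_lit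 76) (nat_lit 10505688836) (nat_lit 34) (nat_lit 5) (nat_lit 37) (nat_lit 5) (nat_lit 35) (nat_lit 4) (nat_lit 409) (nat_lit 338) (nat_lit 273)))) (XT.nd (nat_lit 78) (nat_lit 152) (nat_lit 0) (XT.lf (nat_lit 0) (nat_lit 10647102921) (nat_lit 76) (nat_lit 11494555332) (nat_lit 152) (nat_lit 13808038845) (nat_lit 33) (nat_lit 5) (nat_lit 34) (nat_lit 5) (nat_lit 35) (nat_lit 4) (nat_lit 410) (nat_lit 338) (nat_lit 272)) (XT.nd (nat_lit 78) (nat_lit 152) (nat_lit 0) (XT.lf (nat_lit 0) (nat_lit 35201640531) (nat_lit 152) (nat_lit 299652852) (nat_lit 0) (nat_lit 1834233266) (nat_lit 33) (nat_lit 5) (nat_lit 35) (nat_lit 4) (nat_lit 33) (nat_lit 4) (nat_lit 411) (nat_lit 338) (nat_lit 271)) (XT.lf (nat_lit 0) (nat_lit 10250477368) (nat_lit 152) (nat_lit 12621782543) (nat_lit 76) (nat_lit 15905749953) (nat_lit 31) (nat_lit 5) (nat_lit 33) (nat_lit 5) (nat_lit 32) (nat_lit 4) (nat_lit 412) (nat_lit 338)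 (nat_lit 270)))))) (XT.nd (nat_lit 468) (nat_lit 380) (nat_lit 0) (XT.nd (nat_lit 234) (nat_lit 228) (nat_lit 0) (XT.nd (nat_lit 78) (nat_lit 152) (nat_lit 0) (XT.lf (nat_lit 0) (nat_lit 13808064324) (nat_lit 76) (nat_lit 9491525662) (nat_lit 152) (nat_lit 16989706842) (nat_lit 30) (nat_lit 5) (nat_lit 31) (nat_lit 5) (nat_lit 32) (nat_lit 4) (nat_lit 413) (nat_lit 338) (nat_lit 269)) (XT.nd (nat_lit 78) (nat_lit 152) (nat_lit 0) (XT.lf (nat_lit 0) (nat_lit 37130598933) (nat_lit 152) (nat_lit 181075068) (nat_lit 0) (nat_lit 4560594065) (nat_lit 30) (nat_lit 5) (nat_lit 32) (nat_lit 4) (nat_lit 30) (nat_lit 4) (nat_lit 414) (nat_lit 338) (nat_lit 268)) (XT.lf (nat_lit 0) (nat_lit 8283095380) (nat_lit 152) (nat_lit 15808027362) (nat_lit 76) (nat_lit 19431244218) (nat_lit 28) (nat_lit 5) (nat_lit 30) (nat_lit 5) (nat_lit 29) (nat_lit 4) (nat_lit 415) (nat_lit 338) (nat_lit 267)))) (XT.nd (nat_lit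 78) (nat_lit 152) (nat_lit 0) (XT.lf (nat_lit 0) (nat_lit 11855639271) (nat_lit 76) (nat_lit 10079605338) (nat_lit 152) (nat_lit 23316094200) (nat_lit 27) (nat_lit 5) (nat_lit 28) (nat_lit 5) (nat_lit 29) (nat_lit 4) (nat_lit 416) (nat_lit 338) (nat_lit 266)) (XT.nd (nat_lit 78) (nat_lit 152) (nat_lit 0) (XT.lf (nat_lit 0) (nat_lit 36437232273) (nat_lit 152) (nat_lit 5954963218) (nat_lit 0) (nat_lit 4669549470) (nat_lit 27) (nat_lit 5) (nat_lit 29) (nat_lit 4) (nat_lit 27) (nat_lit 4) (nat_lit 417) (nat_lit 338) (nat_lit 265)) (XT.lf (nat_lit 0) (nat_lit 2936175169) (nat_lit 152) (nat_lit 25851450632) (nat_lit 76) (nat_lit 20165651580) (nat_lit 25) (nat_lit 5) (nat_lit 27) (nat_lit 5) (nat_lit 26) (nat_lit 4) (nat_lit 418) (nat_lit 338) (nat_lit 264))))) (XT.nd (nat_lit 234) (nat_lit 228) (nat_lit 0) (XT.nd (nat_lit 78) (nat_lit 76) (nat_lit 0) (XT.lf (nat_lit 0) (nat_lit 2667995538) (nat_lit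 76) (nat_lit 14337906068) (nat_lit 152) (nat_lit 33928809283) (nat_lit 24) (nat_lit 5) (nat_lit 25) (nat_lit 5) (nat_lit 26) (nat_lit 4) (nat_lit 419) (nat_lit 338) (nat_lit 263)) (XT.nd (nat_lit 78) (nat_lit 76) (nat_lit 0) (XT.lf (nat_lit 0) (nat_lit 32017845667) (nat_lit 152) (nat_lit 19937489799) (nat_lit 0) (nat_lit 1052720880) (nat_lit 24) (nat_lit 5) (nat_lit 26) (nat_lit 4) (nat_lit 24) (nat_lit 4) (nat_lit 420) (nat_lit 338) (nat_lit 262)) (XT.lf (nat_lit 0) (nat_lit 9784666648) (nat_lit 76) (nat_lit 38198262729) (nat_lit 76) (nat_lit 7196065536) (nat_lit 23) (nat_lit 4) (nat_lit 24) (nat_lit 5) (nat_lit 24) (nat_lit 4) (nat_lit 421) (nat_lit 338) (nat_lit 261)))) (XT.nd (nat_lit 156) (nat_lit 76) (nat_lit 0) (XT.nd (nat_lit 78) (nat_lit 76) (nat_lit 0) (XT.lf (nat_lit 0) (nat_lit 7317341043) (nat_lit 152) (nat_lit 16183301929) (nat_lit 76) (nat_lit 33950584794) (nat_lit 22) (nat_lit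 5) (nat_lit 24) (nat_lit 5) (nat_lit 23) (nat_lit 4) (nat_lit 422) (nat_lit 338) (nat_lit 260)) (XT.lf (nat_lit 0) (nat_lit 14636048235) (nat_lit 76) (nat_lit 7879803117) (nat_lit 152) (nat_lit 37315837545) (nat_lit 21) (nat_lit 5) (nat_lit 22) (nat_lit 5) (nat_lit 23) (nat_lit 4) (nat_lit 423) (nat_lit 338) (nat_lit 259))) (XT.nd (nat_lit 78) (nat_lit 76) (nat_lit 0) (XT.lf (nat_lit 0) (nat_lit 38691341979) (nat_lit 152) (nat_lit 15139216682) (nat_lit 0) (nat_lit 8494104551) (nat_lit 21) (nat_lit 5) (nat_lit 23) (nat_lit 4) (nat_lit 21) (nat_lit 4) (nat_lit 424) (nat_lit 338) (nat_lit 258)) (XT.lf (nat_lit 0) (nat_lit 16603516980) (nat_lit 76) (nat_lit 39279695715) (nat_lit 76) (nat_lit 9052847064) (nat_lit 20) (nat_lit 4) (nat_lit 21) (nat_lit 5) (nat_lit 21) (nat_lit 4) (nat_lit 425) (nat_lit 338) (nat_lit 257))))))))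
noncomputable def xc46 : XT := (XT.nd (nat_lit 47658) (nat_lit 0) (nat_lit 6536) (XT.nd (nat_lit 46722) (nat_lit 0) (nat_lit 19912) (XT.nd (nat_lit 468) (nat_lit 228) (nat_lit 0) (XT.nd (nat_lit 234) (nat_lit 152) (nat_lit 0) (XT.nd (nat_lit 78) (nat_lit 76) (nat_lit 0) (XT.lf (nat_lit 0) (nat_lit 6261046161) (nat_lit 152) (nat_lit 17545126107) (nat_lit 76) (nat_lit 43866256587) (nat_lit 19) (nat_lit 5) (nat_lit 21) (nat_lit 5) (nat_lit 20) (nat_lit 4) (nat_lit 426) (nat_lit 338) (nat_lit 256)) (XT.nd (nat_lit 78) (nat_lit 0) (nat_lit 0) (XT.lf (nat_lit 0) (nat_lit 14924527758) (nat_lit 76) (nat_lit 7344652452) (nat_lit 152) (nat_lit 48270275528) (nat_lit 18) (nat_lit 5) (nat_lit 19) (nat_lit 5) (nat_lit 20) (nat_lit 4) (nat_lit 427) (nat_lit 338) (nat_lit 255)) (XT.lf (nat_lit 0) (nat_lit 39326850164) (nat_lit 152) (nat_lit 24313406178) (nat_lit 0) (nat_lit 9902105157) (nat_lit 18) (nat_lit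 5) (nat_lit 20) (nat_lit 4) (nat_lit 18) (nat_lit 4) (nat_lit 428) (nat_lit 338) (nat_lit 254)))) (XT.nd (nat_lit 78) (nat_lit 76) (nat_lit 0) (XT.lf (nat_lit 0) (nat_lit 8593454986) (nat_lit 76) (nat_lit 48773238449) (nat_lit 76) (nat_lit 19324841766) (nat_lit 17) (nat_lit 4) (nat_lit 18) (nat_lit 5) (nat_lit 18) (nat_lit 4) (nat_lit 429) (nat_lit 338) (nat_lit 253)) (XT.nd (nat_lit 78) (nat_lit 76) (nat_lit 0) (XT.lf (nat_lit 0) (nat_lit 43601970938) (nat_lit 76) (nat_lit 32930205299) (nat_lit 76) (nat_lit 3459283210) (nat_lit 17) (nat_lit 4) (nat_lit 18) (nat_lit 5) (nat_lit 18) (nat_lit 4) (nat_lit 430) (nat_lit 338) (nat_lit 252)) (XT.lf (nat_lit 0) (nat_lit 12916360835) (nat_lit 152) (nat_lit 3272162361) (nat_lit 76) (nat_lit 67264820078) (nat_lit 16) (nat_lit 5) (nat_lit 18) (nat_lit 5) (nat_lit 17) (nat_lit 4) (nat_lit 431) (nat_lit 338) (nat_lit 251))))) (XT.nd (nat_lit 312) (nat_lit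 76) (nat_lit 0) (XT.nd (nat_lit 78) (nat_lit 76) (nat_lit 0) (XT.lf (nat_lit 0) (nat_lit 30340071392) (nat_lit 152) (nat_lit 55051337071) (nat_lit 0) (nat_lit 1686861620) (nat_lit 15) (nat_lit 5) (nat_lit 17) (nat_lit 4) (nat_lit 15) (nat_lit 4) (nat_lit 432) (nat_lit 338) (nat_lit 250)) (XT.nd (nat_lit 78) (nat_lit 76) (nat_lit 0) (XT.lf (nat_lit 0) (nat_lit 48808481870) (nat_lit 152) (nat_lit 21934376454) (nat_lit 0) (nat_lit 20136380551) (nat_lit 15) (nat_lit 5) (nat_lit 17) (nat_lit 4) (nat_lit 15) (nat_lit 4) (nat_lit 433) (nat_lit 338) (nat_lit 249)) (XT.lf (nat_lit 0) (nat_lit 13048700022) (nat_lit 76) (nat_lit 55254285104) (nat_lit 76) (nat_lit 26564191836) (nat_lit 14) (nat_lit 4) (nat_lit 15) (nat_lit 5) (nat_lit 15) (nat_lit 4) (nat_lit 434) (nat_lit 338) (nat_lit 248)))) (XT.nd (nat_lit 45786) (nat_lit 0) (nat_lit 28272) (XT.lf (nat_lit 0) (nat_lit 7081210106) (nat_lit 152) (nat_lit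 14348691169) (nat_lit 76) (nat_lit 82007335940) (nat_lit 13) (nat_lit 5) (nat_lit 15) (nat_lit 5) (nat_lit 14) (nat_lit 4) (nat_lit 436) (nat_lit 338) (nat_lit 246)) (XT.nd (nat_lit 78) (nat_lit 228) (nat_lit 0) (XT.lf (nat_lit 0) (nat_lit 2145825318) (nat_lit 76) (nat_lit 540512956) (nat_lit 76) (nat_lit 540512956) (nat_lit 388) (nat_lit 4) (nat_lit 389) (nat_lit 5) (nat_lit 389) (nat_lit 4) (nat_lit 342) (nat_lit 339) (nat_lit 339)) (XT.lf (nat_lit 0) (nat_lit 3464856017) (nat_lit 152) (nat_lit 576008445) (nat_lit 228) (nat_lit 2428419420) (nat_lit 385) (nat_lit 5) (nat_lit 387) (nat_lit 5) (nat_lit 388) (nat_lit 4) (nat_lit 343) (nat_lit 339) (nat_lit 338)))))) (XT.nd (nat_lit 468) (nat_lit 5548) (nat_lit 0) (XT.nd (nat_lit 234) (nat_lit 1748) (nat_lit 0) (XT.nd (nat_lit 78) (nat_lit 760) (nat_lit 0) (XT.lf (nat_lit 0) (nat_lit 2585234651) (nat_lit 304) (nat_lit 3733113396) (nat_lit 76) (nat_lit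 174451475) (nat_lit 381) (nat_lit 5) (nat_lit 385) (nat_lit 5) (nat_lit 382) (nat_lit 4) (nat_lit 344) (nat_lit 339) (nat_lit 337)) (XT.nd (nat_lit 78) (nat_lit 380) (nat_lit 0) (XT.lf (nat_lit 0) (nat_lit 1008067354) (nat_lit 380) (nat_lit 4356205139) (nat_lit 76) (nat_lit 1159835496) (nat_lit 376) (nat_lit 5) (nat_lit 381) (nat_lit 5) (nat_lit 377) (nat_lit 5) (nat_lit 345) (nat_lit 339) (nat_lit 336)) (XT.lf (nat_lit 0) (nat_lit 1686635516) (nat_lit 380) (nat_lit 4162171687) (nat_lit 456) (nat_lit 714422872) (nat_lit 371) (nat_lit 5) (nat_lit 376) (nat_lit 5) (nat_lit 377) (nat_lit 5) (nat_lit 346) (nat_lit 339) (nat_lit 335)))) (XT.nd (nat_lit 78) (nat_lit 1216) (nat_lit 0) (XT.lf (nat_lit 0) (nat_lit 1310230656) (nat_lit 456) (nat_lit 2704127975) (nat_lit 532) (nat_lit 2595753052) (nat_lit 364) (nat_lit 5) (nat_lit 370) (nat_lit 5) (nat_lit 371) (nat_lit 5) (nat_lit 347) (nat_lit 339) (nat_lit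 334)) (XT.nd (nat_lit 78) (nat_lit 608) (nat_lit 0) (XT.lf (nat_lit 0) (nat_lit 1047965371) (nat_lit 532) (nat_lit 996133239) (nat_lit 608) (nat_lit 4621041459) (nat_lit 356) (nat_lit 5) (nat_lit 363) (nat_lit 5) (nat_lit 364) (nat_lit 5) (nat_lit 348) (nat_lit 339) (nat_lit 333)) (XT.lf (nat_lit 0) (nat_lit 889092798) (nat_lit 608) (nat_lit 5779707643) (nat_lit 684) (nat_lit 59325658) (nat_lit 348) (nat_lit 5) (nat_lit 356) (nat_lit 5) (nat_lit 357) (nat_lit 5) (nat_lit 349) (nat_lit 339) (nat_lit 332))))) (XT.nd (nat_lit 234) (nat_lit 3116) (nat_lit 0) (XT.nd (nat_lit 78) (nat_lit 1672) (nat_lit 0) (XT.lf (nat_lit 0) (nat_lit 809047039) (nat_lit 684) (nat_lit 3648197775) (nat_lit 760) (nat_lit 2341240546) (nat_lit 338) (nat_lit 5) (nat_lit 347) (nat_lit 5) (nat_lit 348) (nat_lit 5) (nat_lit 350) (nat_lit 339) (nat_lit 331)) (XT.nd (nat_lit 78) (nat_lit 836) (nat_lit 0) (XT.lf (nat_lit 0) (nat_lit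 838139985) (nat_lit 760) (nat_lit 1261977717) (nat_lit 836) (nat_lit 4777121729) (nat_lit 327) (nat_lit 5) (nat_lit 337) (nat_lit 5) (nat_lit 338) (nat_lit 5) (nat_lit 351) (nat_lit 339) (nat_lit 330)) (XT.lf (nat_lit 0) (nat_lit 958850373) (nat_lit 836) (nat_lit 5601350373) (nat_lit 912) (nat_lit 403823989) (nat_lit 316) (nat_lit 5) (nat_lit 327) (nat_lit 5) (nat_lit 328) (nat_lit 5) (nat_lit 352) (nat_lit 339) (nat_lit 329)))) (XT.nd (nat_lit 78) (nat_lit 2128) (nat_lit 0) (XT.lf (nat_lit 0) (nat_lit 1151558798) (nat_lit 912) (nat_lit 2809756320) (nat_lit 988) (nat_lit 3097109977) (nat_lit 303) (nat_lit 5) (nat_lit 315) (nat_lit 5) (nat_lit 316) (nat_lit 5) (nat_lit 353) (nat_lit 339) (nat_lit 328)) (XT.nd (nat_lit 78) (nat_lit 1064) (nat_lit 0) (XT.lf (nat_lit 0) (nat_lit 1205991424) (nat_lit 1064) (nat_lit 5713509058) (nat_lit 76) (nat_lit 242029203) (nat_lit 289) (nat_lit 5) (nat_lit 303)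 (nat_lit 5) (nat_lit 290) (nat_lit 5) (nat_lit 354) (nat_lit 339) (nat_lit 327)) (XT.lf (nat_lit 0) (nat_lit 1804014426) (nat_lit 1064) (nat_lit 3748190339) (nat_lit 1140) (nat_lit 1720019539) (nat_lit 275) (nat_lit 5) (nat_lit 289) (nat_lit 5) (nat_lit 290) (nat_lit 5) (nat_lit 355) (nat_lit 339) (nat_lit 326))))))) (XT.nd (nat_lit 936) (nat_lit 4864) (nat_lit 0) (XT.nd (nat_lit 468) (nat_lit 3496) (nat_lit 0) (XT.nd (nat_lit 234) (nat_lit 1900) (nat_lit 0) (XT.nd (nat_lit 78) (nat_lit 1900) (nat_lit 0) (XT.lf (nat_lit 0) (nat_lit 2251543201) (nat_lit 1140) (nat_lit 294131002) (nat_lit 1216) (nat_lit 4845950780) (nat_lit 259) (nat_lit 5) (nat_lit 274) (nat_lit 5) (nat_lit 275) (nat_lit 5) (nat_lit 356) (nat_lit 339) (nat_lit 325)) (XT.nd (nat_lit 78) (nat_lit 684) (nat_lit 0) (XT.lf (nat_lit 0) (nat_lit 2763875108) (nat_lit 1216) (nat_lit 4139816139) (nat_lit 1292) (nat_lit 615456511) (nat_lit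 243) (nat_lit 5) (nat_lit 259) (nat_lit 5) (nat_lit 260) (nat_lit 5) (nat_lit 357) (nat_lit 339) (nat_lit 324)) (XT.lf (nat_lit 0) (nat_lit 3349359207) (nat_lit 608) (nat_lit 295700591) (nat_lit 684) (nat_lit 4010182016) (nat_lit 234) (nat_lit 5) (nat_lit 242) (nat_lit 5) (nat_lit 243) (nat_lit 5) (nat_lit 358) (nat_lit 339) (nat_lit 323)))) (XT.nd (nat_lit 78) (nat_lit 1216) (nat_lit 0) (XT.lf (nat_lit 0) (nat_lit 237215516) (nat_lit 684) (nat_lit 3799760992) (nat_lit 76) (nat_lit 3762919810) (nat_lit 225) (nat_lit 5) (nat_lit 234) (nat_lit 5) (nat_lit 226) (nat_lit 5) (nat_lit 359) (nat_lit 339) (nat_lit 322)) (XT.nd (nat_lit 78) (nat_lit 608) (nat_lit 0) (XT.lf (nat_lit 0) (nat_lit 4527036161) (nat_lit 684) (nat_lit 3239039974) (nat_lit 76) (nat_lit 187209048) (nat_lit 217) (nat_lit 5) (nat_lit 226) (nat_lit 5) (nat_lit 218) (nat_lit 5) (nat_lit 360) (nat_lit 339) (nat_lit 321)) (XT.lf (nat_lit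 0) (nat_lit 855751891) (nat_lit 608) (nat_lit 2630529851) (nat_lit 76) (nat_lit 4629174319) (nat_lit 209) (nat_lit 5) (nat_lit 217) (nat_lit 5) (nat_lit 210) (nat_lit 5) (nat_lit 361) (nat_lit 339) (nat_lit 320))))) (XT.nd (nat_lit 234) (nat_lit 1900) (nat_lit 0) (XT.nd (nat_lit 78) (nat_lit 1064) (nat_lit 0) (XT.lf (nat_lit 0) (nat_lit 5215822586) (nat_lit 608) (nat_lit 1971909871) (nat_lit 76) (nat_lit 1099013069) (nat_lit 202) (nat_lit 5) (nat_lit 210) (nat_lit 5) (nat_lit 203) (nat_lit 5) (nat_lit 362) (nat_lit 339) (nat_lit 319)) (XT.nd (nat_lit 78) (nat_lit 532) (nat_lit 0) (XT.lf (nat_lit 0) (nat_lit 1267947310) (nat_lit 532) (nat_lit 1268151064) (nat_lit 76) (nat_lit 5931188974) (nat_lit 195) (nat_lit 5) (nat_lit 202) (nat_lit 5) (nat_lit 196) (nat_lit 5) (nat_lit 363) (nat_lit 339) (nat_lit 318)) (XT.lf (nat_lit 0) (nat_lit 5722841073) (nat_lit 608) (nat_lit 527624004) (nat_lit 76) (nat_lit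 2406665246) (nat_lit 188) (nat_lit 5) (nat_lit 196) (nat_lit 5) (nat_lit 189) (nat_lit 5) (nat_lit 364) (nat_lit 339) (nat_lit 317)))) (XT.nd (nat_lit 78) (nat_lit 912) (nat_lit 0) (XT.lf (nat_lit 0) (nat_lit 266381657) (nat_lit 456) (nat_lit 1221445749) (nat_lit 532) (nat_lit 7369033645) (nat_lit 175) (nat_lit 5) (nat_lit 181) (nat_lit 5) (nat_lit 182) (nat_lit 5) (nat_lit 365) (nat_lit 339) (nat_lit 316)) (XT.nd (nat_lit 78) (nat_lit 532) (nat_lit 0) (XT.lf (nat_lit 0) (nat_lit 1088902686) (nat_lit 380) (nat_lit 4979735914) (nat_lit 456) (nat_lit 2997176240) (nat_lit 170) (nat_lit 5) (nat_lit 175) (nat_lit 5) (nat_lit 176) (nat_lit 5) (nat_lit 366) (nat_lit 339) (nat_lit 315)) (XT.lf (nat_lit 0) (nat_lit 1537993342) (nat_lit 532) (nat_lit 7320742553) (nat_lit 76) (nat_lit 426798742) (nat_lit 163) (nat_lit 5) (nat_lit 170) (nat_lit 5) (nat_lit 164) (nat_lit 5) (nat_lit 367) (nat_lit 339) (nat_lit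 314)))))) (XT.nd (nat_lit 468) (nat_lit 2432) (nat_lit 0) (XT.nd (nat_lit 234) (nat_lit 1216) (nat_lit 0) (XT.nd (nat_lit 78) (nat_lit 836) (nat_lit 0) (XT.lf (nat_lit 0) (nat_lit 2842105121) (nat_lit 380) (nat_lit 3412902909) (nat_lit 456) (nat_lit 3259879558) (nat_lit 158) (nat_lit 5) (nat_lit 163) (nat_lit 5) (nat_lit 164) (nat_lit 5) (nat_lit 368) (nat_lit 339) (nat_lit 313)) (XT.nd (nat_lit 78) (nat_lit 380) (nat_lit 0) (XT.lf (nat_lit 0) (nat_lit 1418961852) (nat_lit 456) (nat_lit 5993305243) (nat_lit 76) (nat_lit 2343214174) (nat_lit 152) (nat_lit 5) (nat_lit 158) (nat_lit 5) (nat_lit 153) (nat_lit 5) (nat_lit 369) (nat_lit 339) (nat_lit 312)) (XT.lf (nat_lit 0) (nat_lit 4691495956) (nat_lit 380) (nat_lit 1586545965) (nat_lit 456) (nat_lit 3728726632) (nat_lit 147) (nat_lit 5) (nat_lit 152) (nat_lit 5) (nat_lit 153) (nat_lit 5) (nat_lit 370) (nat_lit 339) (nat_lit 311)))) (XT.nd (nat_lit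 78) (nat_lit 760) (nat_lit 0) (XT.lf (nat_lit 0) (nat_lit 1116682193) (nat_lit 456) (nat_lit 4630169690) (nat_lit 76) (nat_lit 4522622488) (nat_lit 141) (nat_lit 5) (nat_lit 147) (nat_lit 5) (nat_lit 142) (nat_lit 5) (nat_lit 371) (nat_lit 339) (nat_lit 310)) (XT.nd (nat_lit 78) (nat_lit 456) (nat_lit 0) (XT.lf (nat_lit 0) (nat_lit 6138948679) (nat_lit 380) (nat_lit 3944749598) (nat_lit 76) (nat_lit 460197033) (nat_lit 137) (nat_lit 5) (nat_lit 142) (nat_lit 5) (nat_lit 138) (nat_lit 5) (nat_lit 372) (nat_lit 339) (nat_lit 309)) (XT.lf (nat_lit 0) (nat_lit 624015868) (nat_lit 456) (nat_lit 3269288287) (nat_lit 76) (nat_lit 6936949915) (nat_lit 131) (nat_lit 5) (nat_lit 137) (nat_lit 5) (nat_lit 132) (nat_lit 5) (nat_lit 373) (nat_lit 339) (nat_lit 308))))) (XT.nd (nat_lit 234) (nat_lit 1444) (nat_lit 0) (XT.nd (nat_lit 78) (nat_lit 684) (nat_lit 0) (XT.lf (nat_lit 0) (nat_lit 5842179674) (nat_lit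 380) (nat_lit 2614621426) (nat_lit 76) (nat_lit 2671989512) (nat_lit 127) (nat_lit 5) (nat_lit 132) (nat_lit 5) (nat_lit 128) (nat_lit 5) (nat_lit 374) (nat_lit 339) (nat_lit 307)) (XT.nd (nat_lit 78) (nat_lit 380) (nat_lit 0) (XT.lf (nat_lit 0) (nat_lit 9485997019) (nat_lit 304) (nat_lit 1882050518) (nat_lit 380) (nat_lit 72834826) (nat_lit 123) (nat_lit 5) (nat_lit 127) (nat_lit 5) (nat_lit 128) (nat_lit 5) (nat_lit 375) (nat_lit 339) (nat_lit 306)) (XT.lf (nat_lit 0) (nat_lit 5358618862) (nat_lit 380) (nat_lit 1356445146) (nat_lit 76) (nat_lit 5050114988) (nat_lit 118) (nat_lit 5) (nat_lit 123) (nat_lit 5) (nat_lit 119) (nat_lit 5) (nat_lit 376) (nat_lit 339) (nat_lit 305)))) (XT.nd (nat_lit 156) (nat_lit 836) (nat_lit 0) (XT.nd (nat_lit 78) (nat_lit 304) (nat_lit 0) (XT.lf (nat_lit 0) (nat_lit 11099689926) (nat_lit 380) (nat_lit 747713011) (nat_lit 76) (nat_lit 257107766) (nat_lit 114) (nat_lit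 5) (nat_lit 119) (nat_lit 5) (nat_lit 115) (nat_lit 5) (nat_lit 377) (nat_lit 339) (nat_lit 304)) (XT.lf (nat_lit 0) (nat_lit 4668425864) (nat_lit 304) (nat_lit 225033488) (nat_lit 76) (nat_lit 7563255335) (nat_lit 110) (nat_lit 5) (nat_lit 114) (nat_lit 5) (nat_lit 111) (nat_lit 5) (nat_lit 378) (nat_lit 339) (nat_lit 303))) (XT.nd (nat_lit 78) (nat_lit 304) (nat_lit 0) (XT.lf (nat_lit 0) (nat_lit 287711115) (nat_lit 228) (nat_lit 10372060467) (nat_lit 304) (nat_lit 2164827301) (nat_lit 103) (nat_lit 5) (nat_lit 106) (nat_lit 5) (nat_lit 107) (nat_lit 5) (nat_lit 379) (nat_lit 339) (nat_lit 302)) (XT.lf (nat_lit 0) (nat_lit 729112599) (nat_lit 228) (nat_lit 3022923392) (nat_lit 304) (nat_lit 9455229776) (nat_lit 99) (nat_lit 5) (nat_lit 102) (nat_lit 5) (nat_lit 103) (nat_lit 5) (nat_lit 380) (nat_lit 339) (nat_lit 301))))))))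
noncomputable def xc47 : XT := (XT.nd (nat_lit 1950) (nat_lit 1900) (nat_lit 0) (XT.nd (nat_lit 936) (nat_lit 1824) (nat_lit 0) (XT.nd (nat_lit 468) (nat_lit 1064) (nat_lit 0) (XT.nd (nat_lit 234) (nat_lit 684) (nat_lit 0) (XT.nd (nat_lit 78) (nat_lit 532) (nat_lit 0) (XT.lf (nat_lit 0) (nat_lit 1103713318) (nat_lit 228) (nat_lit 8900173598) (nat_lit 304) (nat_lit 3602040596) (nat_lit 96) (nat_lit 5) (nat_lit 99) (nat_lit 5) (nat_lit 100) (nat_lit 5) (nat_lit 381) (nat_lit 339) (nat_lit 300)) (XT.nd (nat_lit 78) (nat_lit 228) (nat_lit 0) (XT.lf (nat_lit 0) (nat_lit 1414046590) (nat_lit 228) (nat_lit 1153730406) (nat_lit 304) (nat_lit 11453823906) (nat_lit 92) (nat_lit 5) (nat_lit 95) (nat_lit 5) (nat_lit 96) (nat_lit 5) (nat_lit 382) (nat_lit 339) (nat_lit 299)) (XT.lf (nat_lit 0) (nat_lit 1599902661) (nat_lit 228) (nat_lit 7487287199) (nat_lit 304) (nat_lit 5366349582) (nat_lit 89) (nat_lit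 5) (nat_lit 92) (nat_lit 5) (nat_lit 93) (nat_lit 5) (nat_lit 383) (nat_lit 339) (nat_lit 298)))) (XT.nd (nat_lit 78) (nat_lit 380) (nat_lit 0) (XT.lf (nat_lit 0) (nat_lit 1075875280) (nat_lit 304) (nat_lit 13179332600) (nat_lit 76) (nat_lit 649477596) (nat_lit 85) (nat_lit 5) (nat_lit 89) (nat_lit 5) (nat_lit 86) (nat_lit 5) (nat_lit 384) (nat_lit 339) (nat_lit 297)) (XT.nd (nat_lit 78) (nat_lit 228) (nat_lit 0) (XT.lf (nat_lit 0) (nat_lit 1674292013) (nat_lit 152) (nat_lit 6188410944) (nat_lit 228) (nat_lit 7510104696) (nat_lit 83) (nat_lit 5) (nat_lit 85) (nat_lit 5) (nat_lit 86) (nat_lit 5) (nat_lit 385) (nat_lit 339) (nat_lit 296)) (XT.lf (nat_lit 0) (nat_lit 1540012184) (nat_lit 228) (nat_lit 13532155850) (nat_lit 304) (nat_lit 789685293) (nat_lit 80) (nat_lit 5) (nat_lit 83) (nat_lit 5) (nat_lit 84) (nat_lit 5) (nat_lit 386) (nat_lit 339) (nat_lit 295))))) (XT.nd (nat_lit 234) (nat_lit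 380) (nat_lit 0) (XT.nd (nat_lit 78) (nat_lit 456) (nat_lit 0) (XT.lf (nat_lit 0) (nat_lit 1205115553) (nat_lit 152) (nat_lit 5067355738) (nat_lit 228) (nat_lit 10097247744) (nat_lit 77) (nat_lit 5) (nat_lit 79) (nat_lit 5) (nat_lit 80) (nat_lit 5) (nat_lit 387) (nat_lit 339) (nat_lit 294)) (XT.nd (nat_lit 78) (nat_lit 228) (nat_lit 0) (XT.lf (nat_lit 0) (nat_lit 729612127) (nat_lit 228) (nat_lit 13048357441) (nat_lit 304) (nat_lit 3121591257) (nat_lit 74) (nat_lit 5) (nat_lit 77) (nat_lit 5) (nat_lit 78) (nat_lit 5) (nat_lit 388) (nat_lit 339) (nat_lit 293)) (XT.lf (nat_lit 0) (nat_lit 46969397) (nat_lit 152) (nat_lit 4198785840) (nat_lit 228) (nat_lit 13205193107) (nat_lit 71) (nat_lit 5) (nat_lit 73) (nat_lit 5) (nat_lit 74) (nat_lit 5) (nat_lit 389) (nat_lit 339) (nat_lit 292)))) (XT.nd (nat_lit 78) (nat_lit 380) (nat_lit 0) (XT.lf (nat_lit 0) (nat_lit 12052334947) (nat_lit 228) (nat_lit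 837200678) (nat_lit 76) (nat_lit 5135392270) (nat_lit 71) (nat_lit 5) (nat_lit 74) (nat_lit 5) (nat_lit 72) (nat_lit 5) (nat_lit 390) (nat_lit 339) (nat_lit 291)) (XT.nd (nat_lit 78) (nat_lit 152) (nat_lit 0) (XT.lf (nat_lit 0) (nat_lit 1715856617) (nat_lit 228) (nat_lit 1935191176) (nat_lit 76) (nat_lit 14972326749) (nat_lit 68) (nat_lit 5) (nat_lit 71) (nat_lit 5) (nat_lit 69) (nat_lit 5) (nat_lit 391) (nat_lit 339) (nat_lit 290)) (XT.lf (nat_lit 0) (nat_lit 9811786259) (nat_lit 228) (nat_lit 3333652070) (nat_lit 76) (nat_lit 6100144866) (nat_lit 66) (nat_lit 5) (nat_lit 69) (nat_lit 5) (nat_lit 67) (nat_lit 5) (nat_lit 392) (nat_lit 339) (nat_lit 289)))))) (XT.nd (nat_lit 468) (nat_lit 836) (nat_lit 0) (XT.nd (nat_lit 234) (nat_lit 456) (nat_lit 0) (XT.nd (nat_lit 78) (nat_lit 380) (nat_lit 0) (XT.lf (nat_lit 0) (nat_lit 14916041376) (nat_lit 152) (nat_lit 3522064323) (nat_lit 228) (nat_lit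 1457039364) (nat_lit 64) (nat_lit 5) (nat_lit 66) (nat_lit 5) (nat_lit 67) (nat_lit 5) (nat_lit 393) (nat_lit 339) (nat_lit 288)) (XT.nd (nat_lit 78) (nat_lit 152) (nat_lit 0) (XT.lf (nat_lit 0) (nat_lit 6941223633) (nat_lit 228) (nat_lit 6995588577) (nat_lit 76) (nat_lit 6633657231) (nat_lit 61) (nat_lit 5) (nat_lit 64) (nat_lit 5) (nat_lit 62) (nat_lit 5) (nat_lit 394) (nat_lit 339) (nat_lit 287)) (XT.lf (nat_lit 0) (nat_lit 11937651739) (nat_lit 152) (nat_lit 3922557034) (nat_lit 228) (nat_lit 5414999516) (nat_lit 59) (nat_lit 5) (nat_lit 61) (nat_lit 5) (nat_lit 62) (nat_lit 5) (nat_lit 395) (nat_lit 339) (nat_lit 286)))) (XT.nd (nat_lit 78) (nat_lit 228) (nat_lit 0) (XT.lf (nat_lit 0) (nat_lit 3311005848) (nat_lit 228) (nat_lit 12086923623) (nat_lit 76) (nat_lit 6611427001) (nat_lit 56) (nat_lit 5) (nat_lit 59) (nat_lit 5) (nat_lit 57) (nat_lit 5) (nat_lit 396) (nat_lit 339) (nat_lit 285))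 (XT.nd (nat_lit 78) (nat_lit 76) (nat_lit 0) (XT.lf (nat_lit 0) (nat_lit 7491383148) (nat_lit 152) (nat_lit 5011420288) (nat_lit 228) (nat_lit 10271563947) (nat_lit 54) (nat_lit 5) (nat_lit 56) (nat_lit 5) (nat_lit 57) (nat_lit 5) (nat_lit 397) (nat_lit 339) (nat_lit 284)) (XT.lf (nat_lit 0) (nat_lit 4639140442) (nat_lit 76) (nat_lit 17675317675) (nat_lit 152) (nat_lit 1258370518) (nat_lit 53) (nat_lit 5) (nat_lit 54) (nat_lit 5) (nat_lit 55) (nat_lit 4) (nat_lit 398) (nat_lit 339) (nat_lit 283))))) (XT.nd (nat_lit 234) (nat_lit 456) (nat_lit 0) (XT.nd (nat_lit 78) (nat_lit 152) (nat_lit 0) (XT.lf (nat_lit 0) (nat_lit 1244897685) (nat_lit 152) (nat_lit 6956652060) (nat_lit 228) (nat_lit 16202618579) (nat_lit 50) (nat_lit 5) (nat_lit 52) (nat_lit 5) (nat_lit 53) (nat_lit 5) (nat_lit 399) (nat_lit 339) (nat_lit 282)) (XT.nd (nat_lit 78) (nat_lit 152) (nat_lit 0) (XT.lf (nat_lit 0) (nat_lit 18283087363)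 (nat_lit 228) (nat_lit 2615733078) (nat_lit 76) (nat_lit 4372648272) (nat_lit 50) (nat_lit 5) (nat_lit 53) (nat_lit 5) (nat_lit 51) (nat_lit 4) (nat_lit 400) (nat_lit 339) (nat_lit 281)) (XT.lf (nat_lit 0) (nat_lit 2829614172) (nat_lit 152) (nat_lit 7056753102) (nat_lit 76) (nat_lit 16289134332) (nat_lit 48) (nat_lit 5) (nat_lit 50) (nat_lit 5) (nat_lit 49) (nat_lit 5) (nat_lit 401) (nat_lit 339) (nat_lit 280)))) (XT.nd (nat_lit 156) (nat_lit 228) (nat_lit 0) (XT.nd (nat_lit 78) (nat_lit 76) (nat_lit 0) (XT.lf (nat_lit 0) (nat_lit 13125132358) (nat_lit 228) (nat_lit 12154128665) (nat_lit 76) (nat_lit 1839470823) (nat_lit 46) (nat_lit 5) (nat_lit 49) (nat_lit 5) (nat_lit 47) (nat_lit 4) (nat_lit 402) (nat_lit 339) (nat_lit 279)) (XT.lf (nat_lit 0) (nat_lit 10117241555) (nat_lit 76) (nat_lit 14030488529) (nat_lit 152) (nat_lit 3955030178) (nat_lit 45) (nat_lit 5) (nat_lit 46) (nat_lit 5) (nat_lit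 47) (nat_lit 4) (nat_lit 403) (nat_lit 339) (nat_lit 278))) (XT.nd (nat_lit 78) (nat_lit 0) (nat_lit 0) (XT.lf (nat_lit 0) (nat_lit 4542742221) (nat_lit 152) (nat_lit 2027346562) (nat_lit 228) (nat_lit 22560613724) (nat_lit 42) (nat_lit 5) (nat_lit 44) (nat_lit 5) (nat_lit 45) (nat_lit 5) (nat_lit 404) (nat_lit 339) (nat_lit 277)) (XT.lf (nat_lit 0) (nat_lit 17773447021) (nat_lit 228) (nat_lit 1878120784) (nat_lit 76) (nat_lit 10550290998) (nat_lit 42) (nat_lit 5) (nat_lit 45) (nat_lit 5) (nat_lit 43) (nat_lit 4) (nat_lit 405) (nat_lit 339) (nat_lit 276))))))) (XT.nd (nat_lit 936) (nat_lit 760) (nat_lit 0) (XT.nd (nat_lit 468) (nat_lit 456) (nat_lit 0) (XT.nd (nat_lit 234) (nat_lit 304) (nat_lit 0) (XT.nd (nat_lit 78) (nat_lit 304) (nat_lit 0) (XT.lf (nat_lit 0) (nat_lit 22283018537) (nat_lit 76) (nat_lit 7435642153) (nat_lit 152) (nat_lit 1602466438) (nat_lit 41) (nat_lit 5) (nat_lit 42) (nat_lit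 5) (nat_lit 43) (nat_lit 4) (nat_lit 406) (nat_lit 339) (nat_lit 275)) (XT.nd (nat_lit 78) (nat_lit 76) (nat_lit 0) (XT.lf (nat_lit 0) (nat_lit 9742948067) (nat_lit 228) (nat_lit 17240585858) (nat_lit 76) (nat_lit 5504951936) (nat_lit 38) (nat_lit 5) (nat_lit 41) (nat_lit 5) (nat_lit 39) (nat_lit 4) (nat_lit 407) (nat_lit 339) (nat_lit 274)) (XT.lf (nat_lit 0) (nat_lit 7178507151) (nat_lit 76) (nat_lit 14631570803) (nat_lit 152) (nat_lit 11898035275) (nat_lit 37) (nat_lit 5) (nat_lit 38) (nat_lit 5) (nat_lit 39) (nat_lit 4) (nat_lit 408) (nat_lit 339) (nat_lit 273)))) (XT.nd (nat_lit 78) (nat_lit 304) (nat_lit 0) (XT.lf (nat_lit 0) (nat_lit 33086473967) (nat_lit 76) (nat_lit 1522358768) (nat_lit 152) (nat_lit 376045238) (nat_lit 37) (nat_lit 5) (nat_lit 38) (nat_lit 5) (nat_lit 39) (nat_lit 4) (nat_lit 409) (nat_lit 339) (nat_lit 272)) (XT.nd (nat_lit 78) (nat_lit 76) (nat_lit 0) (XT.lf (nat_lit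 0) (nat_lit 11799643821) (nat_lit 228) (nat_lit 12201540148) (nat_lit 76) (nat_lit 12311730189) (nat_lit 34) (nat_lit 5) (nat_lit 37) (nat_lit 5) (nat_lit 35) (nat_lit 4) (nat_lit 410) (nat_lit 339) (nat_lit 271)) (XT.lf (nat_lit 0) (nat_lit 13919460698) (nat_lit 76) (nat_lit 10779557759) (nat_lit 152) (nat_lit 13004545225) (nat_lit 33) (nat_lit 5) (nat_lit 34) (nat_lit 5) (nat_lit 35) (nat_lit 4) (nat_lit 411) (nat_lit 339) (nat_lit 270))))) (XT.nd (nat_lit 234) (nat_lit 228) (nat_lit 0) (XT.nd (nat_lit 78) (nat_lit 152) (nat_lit 0) (XT.lf (nat_lit 0) (nat_lit 2370889355) (nat_lit 76) (nat_lit 36006647376) (nat_lit 76) (nat_lit 782187111) (nat_lit 32) (nat_lit 4) (nat_lit 33) (nat_lit 5) (nat_lit 33) (nat_lit 4) (nat_lit 412) (nat_lit 339) (nat_lit 269)) (XT.nd (nat_lit 78) (nat_lit 76) (nat_lit 0) (XT.lf (nat_lit 0) (nat_lit 12127810770) (nat_lit 152) (nat_lit 10662006065) (nat_lit 76) (nat_lit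 17886052411) (nat_lit 31) (nat_lit 5) (nat_lit 33) (nat_lit 5) (nat_lit 32) (nat_lit 4) (nat_lit 413) (nat_lit 339) (nat_lit 268)) (XT.lf (nat_lit 0) (nat_lit 17015066502) (nat_lit 76) (nat_lit 8773512675) (nat_lit 152) (nat_lit 16475369987) (nat_lit 30) (nat_lit 5) (nat_lit 31) (nat_lit 5) (nat_lit 32) (nat_lit 4) (nat_lit 414) (nat_lit 339) (nat_lit 267)))) (XT.nd (nat_lit 78) (nat_lit 152) (nat_lit 0) (XT.lf (nat_lit 0) (nat_lit 2278084399) (nat_lit 76) (nat_lit 38002822431) (nat_lit 76) (nat_lit 3646073479) (nat_lit 29) (nat_lit 4) (nat_lit 30) (nat_lit 5) (nat_lit 30) (nat_lit 4) (nat_lit 415) (nat_lit 339) (nat_lit 266)) (XT.nd (nat_lit 78) (nat_lit 76) (nat_lit 0) (XT.lf (nat_lit 0) (nat_lit 9943494155) (nat_lit 152) (nat_lit 14219261818) (nat_lit 76) (nat_lit 21498260810) (nat_lit 28) (nat_lit 5) (nat_lit 30) (nat_lit 5) (nat_lit 29) (nat_lit 4) (nat_lit 416) (nat_lit 339) (nat_lit 265))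 (XT.lf (nat_lit 0) (nat_lit 14759389805) (nat_lit 76) (nat_lit 9481730531) (nat_lit 152) (nat_lit 23236434670) (nat_lit 27) (nat_lit 5) (nat_lit 28) (nat_lit 5) (nat_lit 29) (nat_lit 4) (nat_lit 417) (nat_lit 339) (nat_lit 264)))))) (XT.nd (nat_lit 468) (nat_lit 380) (nat_lit 0) (XT.nd (nat_lit 234) (nat_lit 152) (nat_lit 0) (XT.nd (nat_lit 78) (nat_lit 228) (nat_lit 0) (XT.lf (nat_lit 0) (nat_lit 39420717888) (nat_lit 152) (nat_lit 4027256514) (nat_lit 0) (nat_lit 5931935431) (nat_lit 27) (nat_lit 5) (nat_lit 29) (nat_lit 4) (nat_lit 27) (nat_lit 4) (nat_lit 418) (nat_lit 339) (nat_lit 263)) (XT.nd (nat_lit 78) (nat_lit 76) (nat_lit 0) (XT.lf (nat_lit 0) (nat_lit 4221299788) (nat_lit 152) (nat_lit 24959637694) (nat_lit 76) (nat_lit 22185786188) (nat_lit 25) (nat_lit 5) (nat_lit 27) (nat_lit 5) (nat_lit 26) (nat_lit 4) (nat_lit 419) (nat_lit 339) (nat_lit 262)) (XT.lf (nat_lit 0) (nat_lit 4923165813)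 (nat_lit 76) (nat_lit 14037536972) (nat_lit 152) (nat_lit 34487543603) (nat_lit 24) (nat_lit 5) (nat_lit 25) (nat_lit 5) (nat_lit 26) (nat_lit 4) (nat_lit 420) (nat_lit 339) (nat_lit 261)))) (XT.nd (nat_lit 78) (nat_lit 152) (nat_lit 0) (XT.lf (nat_lit 0) (nat_lit 34679961443) (nat_lit 152) (nat_lit 18891324312) (nat_lit 0) (nat_lit 2055274931) (nat_lit 24) (nat_lit 5) (nat_lit 26) (nat_lit 4) (nat_lit 24) (nat_lit 4) (nat_lit 421) (nat_lit 339) (nat_lit 260)) (XT.nd (nat_lit 78) (nat_lit 76) (nat_lit 0) (XT.lf (nat_lit 0) (nat_lit 12258376627) (nat_lit 76) (nat_lit 39153464264) (nat_lit 76) (nat_lit 6495151986) (nat_lit 23) (nat_lit 4) (nat_lit 24) (nat_lit 5) (nat_lit 24) (nat_lit 4) (nat_lit 422) (nat_lit 339) (nat_lit 259)) (XT.lf (nat_lit 0) (nat_lit 8673701829) (nat_lit 152) (nat_lit 15082722102) (nat_lit 76) (nat_lit 36537596013) (nat_lit 22) (nat_lit 5) (nat_lit 24) (nat_lit 5) (nat_lit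 23) (nat_lit 4) (nat_lit 423) (nat_lit 339) (nat_lit 258))))) (XT.nd (nat_lit 234) (nat_lit 228) (nat_lit 0) (XT.nd (nat_lit 78) (nat_lit 76) (nat_lit 0) (XT.lf (nat_lit 0) (nat_lit 17222853116) (nat_lit 76) (nat_lit 7379949589) (nat_lit 152) (nat_lit 38191584067) (nat_lit 21) (nat_lit 5) (nat_lit 22) (nat_lit 5) (nat_lit 23) (nat_lit 4) (nat_lit 424) (nat_lit 339) (nat_lit 257)) (XT.nd (nat_lit 78) (nat_lit 76) (nat_lit 0) (XT.lf (nat_lit 0) (nat_lit 41549481417) (nat_lit 152) (nat_lit 14110180500) (nat_lit 0) (nat_lit 9753477945) (nat_lit 21) (nat_lit 5) (nat_lit 23) (nat_lit 4) (nat_lit 21) (nat_lit 4) (nat_lit 425) (nat_lit 339) (nat_lit 256)) (XT.lf (nat_lit 0) (nat_lit 19168494599) (nat_lit 76) (nat_lit 40405147411) (nat_lit 76) (nat_lit 8582285686) (nat_lit 20) (nat_lit 4) (nat_lit 21) (nat_lit 5) (nat_lit 21) (nat_lit 4) (nat_lit 426) (nat_lit 339) (nat_lit 255)))) (XT.nd (nat_lit 156)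 (nat_lit 76) (nat_lit 0) (XT.nd (nat_lit 78) (nat_lit 76) (nat_lit 0) (XT.lf (nat_lit 0) (nat_lit 7436182947) (nat_lit 152) (nat_lit 16752989629) (nat_lit 76) (nat_lit 46840971738) (nat_lit 19) (nat_lit 5) (nat_lit 21) (nat_lit 5) (nat_lit 20) (nat_lit 4) (nat_lit 427) (nat_lit 339) (nat_lit 254)) (XT.lf (nat_lit 0) (nat_lit 17292294120) (nat_lit 76) (nat_lit 6926965170) (nat_lit 152) (nat_lit 49822029251) (nat_lit 18) (nat_lit 5) (nat_lit 19) (nat_lit 5) (nat_lit 20) (nat_lit 4) (nat_lit 428) (nat_lit 339) (nat_lit 253))) (XT.nd (nat_lit 78) (nat_lit 76) (nat_lit 0) (XT.lf (nat_lit 0) (nat_lit 42097159530) (nat_lit 152) (nat_lit 23967995699) (nat_lit 0) (nat_lit 11130165929) (nat_lit 18) (nat_lit 5) (nat_lit 20) (nat_lit 4) (nat_lit 18) (nat_lit 4) (nat_lit 429) (nat_lit 339) (nat_lit 252)) (XT.lf (nat_lit 0) (nat_lit 10539460455) (nat_lit 76) (nat_lit 50475826290) (nat_lit 76) (nat_lit 19487379922)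 (nat_lit 17) (nat_lit 4) (nat_lit 18) (nat_lit 5) (nat_lit 18) (nat_lit 4) (nat_lit 430) (nat_lit 339) (nat_lit 251))))))))
noncomputable def xc48 : XT := (XT.nd (nat_lit 47502) (nat_lit 0) (nat_lit 5928) (XT.nd (nat_lit 46566) (nat_lit 0) (nat_lit 16720) (XT.nd (nat_lit 46098) (nat_lit 0) (nat_lit 27056) (XT.nd (nat_lit 234) (nat_lit 76) (nat_lit 0) (XT.nd (nat_lit 78) (nat_lit 152) (nat_lit 0) (XT.lf (nat_lit 0) (nat_lit 47226195885) (nat_lit 76) (nat_lit 33875692630) (nat_lit 76) (nat_lit 2866815054) (nat_lit 17) (nat_lit 4) (nat_lit 18) (nat_lit 5) (nat_lit 18) (nat_lit 4) (nat_lit 431) (nat_lit 339) (nat_lit 250)) (XT.nd (nat_lit 78) (nat_lit 76) (nat_lit 0) (XT.lf (nat_lit 0) (nat_lit 14276936948) (nat_lit 152) (nat_lit 2046153864) (nat_lit 76) (nat_lit 71281443832) (nat_lit 16) (nat_lit 5) (nat_lit 18) (nat_lit 5) (nat_lit 17) (nat_lit 4) (nat_lit 432) (nat_lit 339) (nat_lit 249)) (XT.lf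 (nat_lit 0) (nat_lit 32557078585) (nat_lit 152) (nat_lit 56439584710) (nat_lit 0) (nat_lit 2414488705) (nat_lit 15) (nat_lit 5) (nat_lit 17) (nat_lit 4) (nat_lit 15) (nat_lit 4) (nat_lit 433) (nat_lit 339) (nat_lit 248)))) (XT.nd (nat_lit 156) (nat_lit 76) (nat_lit 0) (XT.lf (nat_lit 0) (nat_lit 51915576081) (nat_lit 152) (nat_lit 21731743643) (nat_lit 0) (nat_lit 21755851012) (nat_lit 15) (nat_lit 5) (nat_lit 17) (nat_lit 4) (nat_lit 15) (nat_lit 4) (nat_lit 434) (nat_lit 339) (nat_lit 247)) (XT.nd (nat_lit 45630) (nat_lit 0) (nat_lit 28576) (XT.lf (nat_lit 0) (nat_lit 53908022541) (nat_lit 76) (nat_lit 40132935622) (nat_lit 76) (nat_lit 9941349202) (nat_lit 14) (nat_lit 4) (nat_lit 15) (nat_lit 5) (nat_lit 15) (nat_lit 4) (nat_lit 436) (nat_lit 339) (nat_lit 245)) (XT.lf (nat_lit 0) (nat_lit 1073741823) (nat_lit 0) (nat_lit 0) (nat_lit 0) (nat_lit 0) (nat_lit 390) (nat_lit 0) (nat_lit 1) (nat_lit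 0) (nat_lit 1) (nat_lit 0) (nat_lit 340) (nat_lit 340) (nat_lit 340))))) (XT.nd (nat_lit 234) (nat_lit 1064) (nat_lit 0) (XT.nd (nat_lit 78) (nat_lit 380) (nat_lit 0) (XT.lf (nat_lit 0) (nat_lit 5108819892) (nat_lit 76) (nat_lit 1203401017) (nat_lit 0) (nat_lit 133816108) (nat_lit 389) (nat_lit 5) (nat_lit 390) (nat_lit 0) (nat_lit 389) (nat_lit 4) (nat_lit 341) (nat_lit 340) (nat_lit 339)) (XT.nd (nat_lit 78) (nat_lit 228) (nat_lit 0) (XT.lf (nat_lit 0) (nat_lit 3656727668) (nat_lit 152) (nat_lit 2289945459) (nat_lit 76) (nat_lit 510871985) (nat_lit 387) (nat_lit 5) (nat_lit 389) (nat_lit 5) (nat_lit 388) (nat_lit 4) (nat_lit 342) (nat_lit 340) (nat_lit 338)) (XT.lf (nat_lit 0) (nat_lit 2082678234) (nat_lit 228) (nat_lit 3262078839) (nat_lit 76) (nat_lit 1132240307) (nat_lit 384) (nat_lit 5) (nat_lit 387) (nat_lit 5) (nat_lit 385) (nat_lit 5) (nat_lit 343) (nat_lit 340) (nat_lit 337)))) (XT.nd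 (nat_lit 78) (nat_lit 760) (nat_lit 0) (XT.lf (nat_lit 0) (nat_lit 382820574) (nat_lit 304) (nat_lit 4121918507) (nat_lit 76) (nat_lit 1999692300) (nat_lit 380) (nat_lit 5) (nat_lit 384) (nat_lit 5) (nat_lit 381) (nat_lit 5) (nat_lit 344) (nat_lit 340) (nat_lit 336)) (XT.nd (nat_lit 78) (nat_lit 456) (nat_lit 0) (XT.lf (nat_lit 0) (nat_lit 1654027967) (nat_lit 304) (nat_lit 3409585937) (nat_lit 380) (nat_lit 1475860672) (nat_lit 376) (nat_lit 5) (nat_lit 380) (nat_lit 5) (nat_lit 381) (nat_lit 5) (nat_lit 345) (nat_lit 340) (nat_lit 335)) (XT.lf (nat_lit 0) (nat_lit 1037441293) (nat_lit 380) (nat_lit 2065571757) (nat_lit 456) (nat_lit 3479456038) (nat_lit 370) (nat_lit 5) (nat_lit 375) (nat_lit 5) (nat_lit 376) (nat_lit 5) (nat_lit 346) (nat_lit 340) (nat_lit 334)))))) (XT.nd (nat_lit 468) (nat_lit 6992) (nat_lit 0) (XT.nd (nat_lit 234) (nat_lit 2204) (nat_lit 0) (XT.nd (nat_lit 78) (nat_lit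 608) (nat_lit 0) (XT.lf (nat_lit 0) (nat_lit 535486076) (nat_lit 456) (nat_lit 472699162) (nat_lit 532) (nat_lit 5625425330) (nat_lit 363) (nat_lit 5) (nat_lit 369) (nat_lit 5) (nat_lit 370) (nat_lit 5) (nat_lit 347) (nat_lit 340) (nat_lit 333)) (XT.nd (nat_lit 78) (nat_lit 76) (nat_lit 0) (XT.lf (nat_lit 0) (nat_lit 121499934) (nat_lit 532) (nat_lit 5333549254) (nat_lit 608) (nat_lit 1237195894) (nat_lit 356) (nat_lit 5) (nat_lit 363) (nat_lit 5) (nat_lit 364) (nat_lit 5) (nat_lit 348) (nat_lit 340) (nat_lit 332)) (XT.lf (nat_lit 0) (nat_lit 3116821059) (nat_lit 608) (nat_lit 194120837) (nat_lit 76) (nat_lit 3447693516) (nat_lit 355) (nat_lit 5) (nat_lit 363) (nat_lit 5) (nat_lit 356) (nat_lit 5) (nat_lit 349) (nat_lit 340) (nat_lit 331)))) (XT.nd (nat_lit 78) (nat_lit 1520) (nat_lit 0) (XT.lf (nat_lit 0) (nat_lit 635038095) (nat_lit 684) (nat_lit 400486308) (nat_lit 76) (nat_lit 5797870191)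 (nat_lit 346) (nat_lit 5) (nat_lit 355) (nat_lit 5) (nat_lit 347) (nat_lit 5) (nat_lit 350) (nat_lit 340) (nat_lit 330)) (XT.nd (nat_lit 78) (nat_lit 836) (nat_lit 0) (XT.lf (nat_lit 0) (nat_lit 4892901869) (nat_lit 760) (nat_lit 534156511) (nat_lit 76) (nat_lit 1488618286) (nat_lit 337) (nat_lit 5) (nat_lit 347) (nat_lit 5) (nat_lit 338) (nat_lit 5) (nat_lit 351) (nat_lit 340) (nat_lit 329)) (XT.lf (nat_lit 0) (nat_lit 2164327904) (nat_lit 836) (nat_lit 581024641) (nat_lit 76) (nat_lit 4260705140) (nat_lit 326) (nat_lit 5) (nat_lit 337) (nat_lit 5) (nat_lit 327) (nat_lit 5) (nat_lit 352) (nat_lit 340) (nat_lit 328))))) (XT.nd (nat_lit 234) (nat_lit 4104) (nat_lit 0) (XT.nd (nat_lit 78) (nat_lit 2052) (nat_lit 0) (XT.lf (nat_lit 0) (nat_lit 6370738268) (nat_lit 912) (nat_lit 533471183) (nat_lit 76) (nat_lit 200718284) (nat_lit 315) (nat_lit 5) (nat_lit 327) (nat_lit 5) (nat_lit 316) (nat_lit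 5) (nat_lit 353) (nat_lit 340) (nat_lit 327)) (XT.nd (nat_lit 78) (nat_lit 1064) (nat_lit 0) (XT.lf (nat_lit 0) (nat_lit 3396760190) (nat_lit 988) (nat_lit 433801471) (nat_lit 76) (nat_lit 3380626640) (nat_lit 302) (nat_lit 5) (nat_lit 315) (nat_lit 5) (nat_lit 303) (nat_lit 5) (nat_lit 354) (nat_lit 340) (nat_lit 326)) (XT.lf (nat_lit 0) (nat_lit 257375283) (nat_lit 1064) (nat_lit 233395368) (nat_lit 76) (nat_lit 6835707668) (nat_lit 288) (nat_lit 5) (nat_lit 302) (nat_lit 5) (nat_lit 289) (nat_lit 5) (nat_lit 355) (nat_lit 340) (nat_lit 325)))) (XT.nd (nat_lit 78) (nat_lit 1900) (nat_lit 0) (XT.lf (nat_lit 0) (nat_lit 8681557) (nat_lit 1140) (nat_lit 4354942572) (nat_lit 1216) (nat_lit 3085584699) (nat_lit 259) (nat_lit 5) (nat_lit 274) (nat_lit 5) (nat_lit 275) (nat_lit 5) (nat_lit 356) (nat_lit 340) (nat_lit 324)) (XT.nd (nat_lit 78) (nat_lit 608) (nat_lit 0) (XT.lf (nat_lit 0) (nat_lit 348506296)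 (nat_lit 1216) (nat_lit 622904362) (nat_lit 1292) (nat_lit 6609571194) (nat_lit 242) (nat_lit 5) (nat_lit 258) (nat_lit 5) (nat_lit 259) (nat_lit 5) (nat_lit 357) (nat_lit 340) (nat_lit 323)) (XT.lf (nat_lit 0) (nat_lit 730672073) (nat_lit 608) (nat_lit 4367291011) (nat_lit 684) (nat_lit 2622637474) (nat_lit 234) (nat_lit 5) (nat_lit 242) (nat_lit 5) (nat_lit 243) (nat_lit 5) (nat_lit 358) (nat_lit 340) (nat_lit 322))))))) (XT.nd (nat_lit 936) (nat_lit 4560) (nat_lit 0) (XT.nd (nat_lit 468) (nat_lit 2736) (nat_lit 0) (XT.nd (nat_lit 234) (nat_lit 1596) (nat_lit 0) (XT.nd (nat_lit 78) (nat_lit 1216) (nat_lit 0) (XT.lf (nat_lit 0) (nat_lit 1195623125) (nat_lit 608) (nat_lit 249625465) (nat_lit 684) (nat_lit 6424219632) (nat_lit 225) (nat_lit 5) (nat_lit 233) (nat_lit 5) (nat_lit 234) (nat_lit 5) (nat_lit 359) (nat_lit 340) (nat_lit 321)) (XT.nd (nat_lit 78) (nat_lit 608) (nat_lit 0) (XT.lf (nat_lit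 0) (nat_lit 1695863321) (nat_lit 608) (nat_lit 3921060465) (nat_lit 684) (nat_lit 2409515983) (nat_lit 217) (nat_lit 5) (nat_lit 225) (nat_lit 5) (nat_lit 226) (nat_lit 5) (nat_lit 360) (nat_lit 340) (nat_lit 320)) (XT.lf (nat_lit 0) (nat_lit 1700887584) (nat_lit 608) (nat_lit 5922433731) (nat_lit 76) (nat_lit 569584276) (nat_lit 209) (nat_lit 5) (nat_lit 217) (nat_lit 5) (nat_lit 210) (nat_lit 5) (nat_lit 361) (nat_lit 340) (nat_lit 319)))) (XT.nd (nat_lit 78) (nat_lit 1064) (nat_lit 0) (XT.lf (nat_lit 0) (nat_lit 2878185802) (nat_lit 532) (nat_lit 3059373770) (nat_lit 608) (nat_lit 2430371187) (nat_lit 202) (nat_lit 5) (nat_lit 209) (nat_lit 5) (nat_lit 210) (nat_lit 5) (nat_lit 362) (nat_lit 340) (nat_lit 318)) (XT.nd (nat_lit 78) (nat_lit 532) (nat_lit 0) (XT.lf (nat_lit 0) (nat_lit 1753481357) (nat_lit 532) (nat_lit 5006234597) (nat_lit 76) (nat_lit 1792878653) (nat_lit 195) (nat_lit 5)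 (nat_lit 202) (nat_lit 5) (nat_lit 196) (nat_lit 5) (nat_lit 363) (nat_lit 340) (nat_lit 317)) (XT.lf (nat_lit 0) (nat_lit 4252346754) (nat_lit 532) (nat_lit 1820378357) (nat_lit 608) (nat_lit 2673811687) (nat_lit 188) (nat_lit 5) (nat_lit 195) (nat_lit 5) (nat_lit 196) (nat_lit 5) (nat_lit 364) (nat_lit 340) (nat_lit 316))))) (XT.nd (nat_lit 234) (nat_lit 1292) (nat_lit 0) (XT.nd (nat_lit 78) (nat_lit 912) (nat_lit 0) (XT.lf (nat_lit 0) (nat_lit 1610349651) (nat_lit 532) (nat_lit 3949541552) (nat_lit 76) (nat_lit 3390314856) (nat_lit 181) (nat_lit 5) (nat_lit 188) (nat_lit 5) (nat_lit 182) (nat_lit 5) (nat_lit 365) (nat_lit 340) (nat_lit 315)) (XT.nd (nat_lit 78) (nat_lit 456) (nat_lit 0) (XT.lf (nat_lit 0) (nat_lit 5792969187) (nat_lit 456) (nat_lit 238167533) (nat_lit 532) (nat_lit 3132850018) (nat_lit 175) (nat_lit 5) (nat_lit 181) (nat_lit 5) (nat_lit 182) (nat_lit 5) (nat_lit 366) (nat_lit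 340) (nat_lit 314)) (XT.lf (nat_lit 0) (nat_lit 1276995677) (nat_lit 456) (nat_lit 2779848732) (nat_lit 76) (nat_lit 5330764587) (nat_lit 169) (nat_lit 5) (nat_lit 175) (nat_lit 5) (nat_lit 170) (nat_lit 5) (nat_lit 367) (nat_lit 340) (nat_lit 313)))) (XT.nd (nat_lit 78) (nat_lit 836) (nat_lit 0) (XT.lf (nat_lit 0) (nat_lit 5833265001) (nat_lit 532) (nat_lit 2164530340) (nat_lit 76) (nat_lit 1624012011) (nat_lit 163) (nat_lit 5) (nat_lit 170) (nat_lit 5) (nat_lit 164) (nat_lit 5) (nat_lit 368) (nat_lit 340) (nat_lit 312)) (XT.nd (nat_lit 78) (nat_lit 380) (nat_lit 0) (XT.lf (nat_lit 0) (nat_lit 754622191) (nat_lit 456) (nat_lit 1526409240) (nat_lit 76) (nat_lit 7585923153) (nat_lit 157) (nat_lit 5) (nat_lit 163) (nat_lit 5) (nat_lit 158) (nat_lit 5) (nat_lit 369) (nat_lit 340) (nat_lit 311)) (XT.lf (nat_lit 0) (nat_lit 5468463536) (nat_lit 456) (nat_lit 894485538) (nat_lit 76) (nat_lit 3759670249)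 (nat_lit 152) (nat_lit 5) (nat_lit 158) (nat_lit 5) (nat_lit 153) (nat_lit 5) (nat_lit 370) (nat_lit 340) (nat_lit 310)))))) (XT.nd (nat_lit 468) (nat_lit 1976) (nat_lit 0) (XT.nd (nat_lit 234) (nat_lit 1064) (nat_lit 0) (XT.nd (nat_lit 78) (nat_lit 1064) (nat_lit 0) (XT.lf (nat_lit 0) (nat_lit 39950246) (nat_lit 456) (nat_lit 221285800) (nat_lit 76) (nat_lit 10129455568) (nat_lit 146) (nat_lit 5) (nat_lit 152) (nat_lit 5) (nat_lit 147) (nat_lit 5) (nat_lit 371) (nat_lit 340) (nat_lit 309)) (XT.nd (nat_lit 78) (nat_lit 380) (nat_lit 0) (XT.lf (nat_lit 0) (nat_lit 415723905) (nat_lit 304) (nat_lit 4518201302) (nat_lit 380) (nat_lit 5735053960) (nat_lit 137) (nat_lit 5) (nat_lit 141) (nat_lit 5) (nat_lit 142) (nat_lit 5) (nat_lit 372) (nat_lit 340) (nat_lit 308)) (XT.lf (nat_lit 0) (nat_lit 1093166700) (nat_lit 380) (nat_lit 9005253776) (nat_lit 456) (nat_lit 862020863) (nat_lit 132) (nat_lit 5)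 (nat_lit 137) (nat_lit 5) (nat_lit 138) (nat_lit 5) (nat_lit 373) (nat_lit 340) (nat_lit 307)))) (XT.nd (nat_lit 78) (nat_lit 684) (nat_lit 0) (XT.lf (nat_lit 0) (nat_lit 1737221443) (nat_lit 304) (nat_lit 2487789512) (nat_lit 380) (nat_lit 7038669844) (nat_lit 127) (nat_lit 5) (nat_lit 131) (nat_lit 5) (nat_lit 132) (nat_lit 5) (nat_lit 374) (nat_lit 340) (nat_lit 306)) (XT.nd (nat_lit 78) (nat_lit 380) (nat_lit 0) (XT.lf (nat_lit 0) (nat_lit 2378851406) (nat_lit 304) (nat_lit 7225126943) (nat_lit 380) (nat_lit 1976216203) (nat_lit 123) (nat_lit 5) (nat_lit 127) (nat_lit 5) (nat_lit 128) (nat_lit 5) (nat_lit 375) (nat_lit 340) (nat_lit 305)) (XT.lf (nat_lit 0) (nat_lit 3006832920) (nat_lit 304) (nat_lit 311039909) (nat_lit 380) (nat_lit 8592416301) (nat_lit 118) (nat_lit 5) (nat_lit 122) (nat_lit 5) (nat_lit 123) (nat_lit 5) (nat_lit 376) (nat_lit 340) (nat_lit 304))))) (XT.nd (nat_lit 234)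 (nat_lit 1064) (nat_lit 0) (XT.nd (nat_lit 78) (nat_lit 608) (nat_lit 0) (XT.lf (nat_lit 0) (nat_lit 3585328101) (nat_lit 304) (nat_lit 5341577705) (nat_lit 380) (nat_lit 3326689371) (nat_lit 114) (nat_lit 5) (nat_lit 118) (nat_lit 5) (nat_lit 119) (nat_lit 5) (nat_lit 377) (nat_lit 340) (nat_lit 303)) (XT.nd (nat_lit 78) (nat_lit 304) (nat_lit 0) (XT.lf (nat_lit 0) (nat_lit 2210507372) (nat_lit 304) (nat_lit 8460143369) (nat_lit 76) (nat_lit 1941270935) (nat_lit 110) (nat_lit 5) (nat_lit 114) (nat_lit 5) (nat_lit 111) (nat_lit 5) (nat_lit 378) (nat_lit 340) (nat_lit 302)) (XT.lf (nat_lit 0) (nat_lit 4654861608) (nat_lit 304) (nat_lit 3389592247) (nat_lit 380) (nat_lit 4940085617) (nat_lit 106) (nat_lit 5) (nat_lit 110) (nat_lit 5) (nat_lit 111) (nat_lit 5) (nat_lit 379) (nat_lit 340) (nat_lit 301)))) (XT.nd (nat_lit 156) (nat_lit 532) (nat_lit 0) (XT.nd (nat_lit 78) (nat_lit 228) (nat_lit 0)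 (XT.lf (nat_lit 0) (nat_lit 859882939) (nat_lit 304) (nat_lit 8248218151) (nat_lit 76) (nat_lit 4265047837) (nat_lit 102) (nat_lit 5) (nat_lit 106) (nat_lit 5) (nat_lit 103) (nat_lit 5) (nat_lit 380) (nat_lit 340) (nat_lit 300)) (XT.lf (nat_lit 0) (nat_lit 5518956216) (nat_lit 228) (nat_lit 1407893904) (nat_lit 304) (nat_lit 6850517300) (nat_lit 99) (nat_lit 5) (nat_lit 102) (nat_lit 5) (nat_lit 103) (nat_lit 5) (nat_lit 381) (nat_lit 340) (nat_lit 299))) (XT.nd (nat_lit 78) (nat_lit 304) (nat_lit 0) (XT.lf (nat_lit 0) (nat_lit 5847215460) (nat_lit 228) (nat_lit 7563065997) (nat_lit 304) (nat_lit 788141887) (nat_lit 96) (nat_lit 5) (nat_lit 99) (nat_lit 5) (nat_lit 100) (nat_lit 5) (nat_lit 382) (nat_lit 340) (nat_lit 298)) (XT.lf (nat_lit 0) (nat_lit 5541660090) (nat_lit 304) (nat_lit 8546285404) (nat_lit 76) (nat_lit 548802398) (nat_lit 92) (nat_lit 5) (nat_lit 96) (nat_lit 5) (nat_lit 93)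 (nat_lit 5) (nat_lit 383) (nat_lit 340) (nat_lit 297))))))))
noncomputable def xc49 : XT := (XT.nd (nat_lit 1872) (nat_lit 1824) (nat_lit 0) (XT.nd (nat_lit 936) (nat_lit 1520) (nat_lit 0) (XT.nd (nat_lit 468) (nat_lit 988) (nat_lit 0) (XT.nd (nat_lit 234) (nat_lit 684) (nat_lit 0) (XT.nd (nat_lit 78) (nat_lit 456) (nat_lit 0) (XT.lf (nat_lit 0) (nat_lit 6225748226) (nat_lit 228) (nat_lit 6080583502) (nat_lit 304) (nat_lit 2786400045) (nat_lit 89) (nat_lit 5) (nat_lit 92) (nat_lit 5) (nat_lit 93) (nat_lit 5) (nat_lit 384) (nat_lit 340) (nat_lit 296)) (XT.nd (nat_lit 78) (nat_lit 152) (nat_lit 0) (XT.lf (nat_lit 0) (nat_lit 3849328839) (nat_lit 304) (nat_lit 9303666121) (nat_lit 76) (nat_lit 2414834609) (nat_lit 85) (nat_lit 5) (nat_lit 89) (nat_lit 5) (nat_lit 86) (nat_lit 5) (nat_lit 385) (nat_lit 340) (nat_lit 295)) (XT.lf (nat_lit 0) (nat_lit 6162655375) (nat_lit 152) (nat_lit 4725675093)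 (nat_lit 228) (nat_lit 5173666236) (nat_lit 83) (nat_lit 5) (nat_lit 85) (nat_lit 5) (nat_lit 86) (nat_lit 5) (nat_lit 386) (nat_lit 340) (nat_lit 294)))) (XT.nd (nat_lit 78) (nat_lit 380) (nat_lit 0) (XT.lf (nat_lit 0) (nat_lit 1777920990) (nat_lit 304) (nat_lit 10638940352) (nat_lit 76) (nat_lit 4160155805) (nat_lit 79) (nat_lit 5) (nat_lit 83) (nat_lit 5) (nat_lit 80) (nat_lit 5) (nat_lit 387) (nat_lit 340) (nat_lit 293)) (XT.nd (nat_lit 78) (nat_lit 228) (nat_lit 0) (XT.lf (nat_lit 0) (nat_lit 5530525920) (nat_lit 152) (nat_lit 3564101986) (nat_lit 228) (nat_lit 8017901426) (nat_lit 77) (nat_lit 5) (nat_lit 79) (nat_lit 5) (nat_lit 80) (nat_lit 5) (nat_lit 388) (nat_lit 340) (nat_lit 292)) (XT.lf (nat_lit 0) (nat_lit 4966092256) (nat_lit 228) (nat_lit 11946309490) (nat_lit 304) (nat_lit 758371429) (nat_lit 74) (nat_lit 5) (nat_lit 77) (nat_lit 5) (nat_lit 78) (nat_lit 5) (nat_lit 389) (nat_lit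 340) (nat_lit 291))))) (XT.nd (nat_lit 234) (nat_lit 380) (nat_lit 0) (XT.nd (nat_lit 78) (nat_lit 380) (nat_lit 0) (XT.lf (nat_lit 0) (nat_lit 4177053588) (nat_lit 152) (nat_lit 2673180860) (nat_lit 228) (nat_lit 11401126009) (nat_lit 71) (nat_lit 5) (nat_lit 73) (nat_lit 5) (nat_lit 74) (nat_lit 5) (nat_lit 390) (nat_lit 340) (nat_lit 290)) (XT.nd (nat_lit 78) (nat_lit 228) (nat_lit 0) (XT.lf (nat_lit 0) (nat_lit 3166721926) (nat_lit 152) (nat_lit 11812836486) (nat_lit 228) (nat_lit 3876525713) (nat_lit 69) (nat_lit 5) (nat_lit 71) (nat_lit 5) (nat_lit 72) (nat_lit 5) (nat_lit 391) (nat_lit 340) (nat_lit 289)) (XT.lf (nat_lit 0) (nat_lit 1920303941) (nat_lit 152) (nat_lit 2144253492) (nat_lit 228) (nat_lit 15421773157) (nat_lit 66) (nat_lit 5) (nat_lit 68) (nat_lit 5) (nat_lit 69) (nat_lit 5) (nat_lit 392) (nat_lit 340) (nat_lit 288)))) (XT.nd (nat_lit 78) (nat_lit 228) (nat_lit 0) (XT.lf (nat_lit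 0) (nat_lit 359119244) (nat_lit 152) (nat_lit 12136484919) (nat_lit 228) (nat_lit 7646151391) (nat_lit 64) (nat_lit 5) (nat_lit 66) (nat_lit 5) (nat_lit 67) (nat_lit 5) (nat_lit 393) (nat_lit 340) (nat_lit 287)) (XT.nd (nat_lit 78) (nat_lit 152) (nat_lit 0) (XT.lf (nat_lit 0) (nat_lit 642728452) (nat_lit 228) (nat_lit 1428404176) (nat_lit 76) (nat_lit 18754641307) (nat_lit 63) (nat_lit 5) (nat_lit 66) (nat_lit 5) (nat_lit 64) (nat_lit 5) (nat_lit 394) (nat_lit 340) (nat_lit 286)) (XT.lf (nat_lit 0) (nat_lit 9379738618) (nat_lit 228) (nat_lit 3621743179) (nat_lit 76) (nat_lit 8534494563) (nat_lit 61) (nat_lit 5) (nat_lit 64) (nat_lit 5) (nat_lit 62) (nat_lit 5) (nat_lit 395) (nat_lit 340) (nat_lit 285)))))) (XT.nd (nat_lit 468) (nat_lit 608) (nat_lit 0) (XT.nd (nat_lit 234) (nat_lit 380) (nat_lit 0) (XT.nd (nat_lit 78) (nat_lit 380) (nat_lit 0) (XT.lf (nat_lit 0) (nat_lit 16151422194) (nat_lit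 152) (nat_lit 2528425521) (nat_lit 228) (nat_lit 3598062191) (nat_lit 59) (nat_lit 5) (nat_lit 61) (nat_lit 5) (nat_lit 62) (nat_lit 5) (nat_lit 396) (nat_lit 340) (nat_lit 284)) (XT.nd (nat_lit 78) (nat_lit 152) (nat_lit 0) (XT.lf (nat_lit 0) (nat_lit 5475271246) (nat_lit 228) (nat_lit 9093580400) (nat_lit 76) (nat_lit 8480770844) (nat_lit 56) (nat_lit 5) (nat_lit 59) (nat_lit 5) (nat_lit 57) (nat_lit 5) (nat_lit 397) (nat_lit 340) (nat_lit 283)) (XT.lf (nat_lit 0) (nat_lit 11360514665) (nat_lit 152) (nat_lit 3704559009) (nat_lit 228) (nat_lit 8789669267) (nat_lit 54) (nat_lit 5) (nat_lit 56) (nat_lit 5) (nat_lit 57) (nat_lit 5) (nat_lit 398) (nat_lit 340) (nat_lit 282)))) (XT.nd (nat_lit 78) (nat_lit 228) (nat_lit 0) (XT.lf (nat_lit 0) (nat_lit 615620049) (nat_lit 152) (nat_lit 16392904748) (nat_lit 76) (nat_lit 7685780865) (nat_lit 52) (nat_lit 5) (nat_lit 54) (nat_lit 5) (nat_lit 53) (nat_lit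 5) (nat_lit 399) (nat_lit 340) (nat_lit 281)) (XT.nd (nat_lit 78) (nat_lit 76) (nat_lit 0) (XT.lf (nat_lit 0) (nat_lit 4682305892) (nat_lit 152) (nat_lit 5781885461) (nat_lit 228) (nat_lit 15104406885) (nat_lit 50) (nat_lit 5) (nat_lit 52) (nat_lit 5) (nat_lit 53) (nat_lit 5) (nat_lit 400) (nat_lit 340) (nat_lit 280)) (XT.lf (nat_lit 0) (nat_lit 517197093) (nat_lit 76) (nat_lit 20463302230) (nat_lit 152) (nat_lit 5500853119) (nat_lit 49) (nat_lit 5) (nat_lit 50) (nat_lit 5) (nat_lit 51) (nat_lit 4) (nat_lit 401) (nat_lit 340) (nat_lit 279))))) (XT.nd (nat_lit 234) (nat_lit 304) (nat_lit 0) (XT.nd (nat_lit 78) (nat_lit 228) (nat_lit 0) (XT.lf (nat_lit 0) (nat_lit 4712328314) (nat_lit 152) (nat_lit 4214399329) (nat_lit 76) (nat_lit 18505134528) (nat_lit 48) (nat_lit 5) (nat_lit 50) (nat_lit 5) (nat_lit 49) (nat_lit 5) (nat_lit 402) (nat_lit 340) (nat_lit 278)) (XT.nd (nat_lit 78) (nat_lit 76) (nat_lit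 0) (XT.lf (nat_lit 0) (nat_lit 15483146429) (nat_lit 228) (nat_lit 9621025772) (nat_lit 76) (nat_lit 3319274455) (nat_lit 46) (nat_lit 5) (nat_lit 49) (nat_lit 5) (nat_lit 47) (nat_lit 4) (nat_lit 403) (nat_lit 340) (nat_lit 277)) (XT.lf (nat_lit 0) (nat_lit 13673882291) (nat_lit 76) (nat_lit 13331281632) (nat_lit 152) (nat_lit 2453071924) (nat_lit 45) (nat_lit 5) (nat_lit 46) (nat_lit 5) (nat_lit 47) (nat_lit 4) (nat_lit 404) (nat_lit 340) (nat_lit 276)))) (XT.nd (nat_lit 78) (nat_lit 76) (nat_lit 0) (XT.lf (nat_lit 0) (nat_lit 7765576592) (nat_lit 152) (nat_lit 748996252) (nat_lit 228) (nat_lit 22024036525) (nat_lit 42) (nat_lit 5) (nat_lit 44) (nat_lit 5) (nat_lit 45) (nat_lit 5) (nat_lit 405) (nat_lit 340) (nat_lit 275)) (XT.nd (nat_lit 78) (nat_lit 0) (nat_lit 0) (XT.lf (nat_lit 0) (nat_lit 932904001) (nat_lit 76) (nat_lit 19289842358) (nat_lit 152) (nat_lit 11442244788) (nat_lit 41) (nat_lit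 5) (nat_lit 42) (nat_lit 5) (nat_lit 43) (nat_lit 4) (nat_lit 406) (nat_lit 340) (nat_lit 274)) (XT.lf (nat_lit 0) (nat_lit 26201148537) (nat_lit 76) (nat_lit 6508169554) (nat_lit 152) (nat_lit 132588629) (nat_lit 41) (nat_lit 5) (nat_lit 42) (nat_lit 5) (nat_lit 43) (nat_lit 4) (nat_lit 407) (nat_lit 340) (nat_lit 273))))))) (XT.nd (nat_lit 936) (nat_lit 760) (nat_lit 0) (XT.nd (nat_lit 468) (nat_lit 304) (nat_lit 0) (XT.nd (nat_lit 234) (nat_lit 228) (nat_lit 0) (XT.nd (nat_lit 78) (nat_lit 304) (nat_lit 0) (XT.lf (nat_lit 0) (nat_lit 11716242815) (nat_lit 228) (nat_lit 15317461785) (nat_lit 76) (nat_lit 7034496276) (nat_lit 38) (nat_lit 5) (nat_lit 41) (nat_lit 5) (nat_lit 39) (nat_lit 4) (nat_lit 408) (nat_lit 340) (nat_lit 272)) (XT.nd (nat_lit 78) (nat_lit 228) (nat_lit 0) (XT.lf (nat_lit 0) (nat_lit 10242750013) (nat_lit 76) (nat_lit 14099215428) (nat_lit 152) (nat_lit 11008193029) (nat_lit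 37) (nat_lit 5) (nat_lit 38) (nat_lit 5) (nat_lit 39) (nat_lit 4) (nat_lit 409) (nat_lit 340) (nat_lit 271)) (XT.lf (nat_lit 0) (nat_lit 626900254) (nat_lit 152) (nat_lit 378432154) (nat_lit 228) (nat_lit 35687019126) (nat_lit 34) (nat_lit 5) (nat_lit 36) (nat_lit 5) (nat_lit 37) (nat_lit 5) (nat_lit 410) (nat_lit 340) (nat_lit 270)))) (XT.nd (nat_lit 78) (nat_lit 228) (nat_lit 0) (XT.lf (nat_lit 0) (nat_lit 13745758117) (nat_lit 228) (nat_lit 10253012098) (nat_lit 76) (nat_lit 14089000972) (nat_lit 34) (nat_lit 5) (nat_lit 37) (nat_lit 5) (nat_lit 35) (nat_lit 4) (nat_lit 411) (nat_lit 340) (nat_lit 269)) (XT.nd (nat_lit 78) (nat_lit 152) (nat_lit 0) (XT.lf (nat_lit 0) (nat_lit 17100696891) (nat_lit 76) (nat_lit 10148716746) (nat_lit 152) (nat_lit 12299765174) (nat_lit 33) (nat_lit 5) (nat_lit 34) (nat_lit 5) (nat_lit 35) (nat_lit 4) (nat_lit 412) (nat_lit 340) (nat_lit 268)) (XT.lf (nat_lit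 0) (nat_lit 494548589) (nat_lit 152) (nat_lit 36152890355) (nat_lit 76) (nat_lit 4431421161) (nat_lit 31) (nat_lit 5) (nat_lit 33) (nat_lit 5) (nat_lit 32) (nat_lit 4) (nat_lit 413) (nat_lit 340) (nat_lit 267))))) (XT.nd (nat_lit 234) (nat_lit 152) (nat_lit 0) (XT.nd (nat_lit 78) (nat_lit 152) (nat_lit 0) (XT.lf (nat_lit 0) (nat_lit 13972123788) (nat_lit 152) (nat_lit 8845114891) (nat_lit 76) (nat_lit 19855198533) (nat_lit 31) (nat_lit 5) (nat_lit 33) (nat_lit 5) (nat_lit 32) (nat_lit 4) (nat_lit 414) (nat_lit 340) (nat_lit 266)) (XT.nd (nat_lit 78) (nat_lit 76) (nat_lit 0) (XT.lf (nat_lit 0) (nat_lit 20148449272) (nat_lit 76) (nat_lit 8130474686) (nat_lit 152) (nat_lit 16062111550) (nat_lit 30) (nat_lit 5) (nat_lit 31) (nat_lit 5) (nat_lit 32) (nat_lit 4) (nat_lit 415) (nat_lit 340) (nat_lit 265)) (XT.lf (nat_lit 0) (nat_lit 4634162912) (nat_lit 76) (nat_lit 38835974709) (nat_lit 76) (nat_lit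 2617856481) (nat_lit 29) (nat_lit 4) (nat_lit 30) (nat_lit 5) (nat_lit 30) (nat_lit 4) (nat_lit 416) (nat_lit 340) (nat_lit 264)))) (XT.nd (nat_lit 78) (nat_lit 76) (nat_lit 0) (XT.lf (nat_lit 0) (nat_lit 11571048913) (nat_lit 152) (nat_lit 12772250386) (nat_lit 76) (nat_lit 23566783267) (nat_lit 28) (nat_lit 5) (nat_lit 30) (nat_lit 5) (nat_lit 29) (nat_lit 4) (nat_lit 417) (nat_lit 340) (nat_lit 263)) (XT.nd (nat_lit 78) (nat_lit 0) (nat_lit 0) (XT.lf (nat_lit 0) (nat_lit 17593475912) (nat_lit 76) (nat_lit 8956402025) (nat_lit 152) (nat_lit 23268583624) (nat_lit 27) (nat_lit 5) (nat_lit 28) (nat_lit 5) (nat_lit 29) (nat_lit 4) (nat_lit 418) (nat_lit 340) (nat_lit 262)) (XT.lf (nat_lit 0) (nat_lit 42445380995) (nat_lit 152) (nat_lit 2210066175) (nat_lit 0) (nat_lit 7161782532) (nat_lit 27) (nat_lit 5) (nat_lit 29) (nat_lit 4) (nat_lit 27) (nat_lit 4) (nat_lit 419) (nat_lit 340) (nat_lit 261))))))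 (XT.nd (nat_lit 468) (nat_lit 304) (nat_lit 0) (XT.nd (nat_lit 234) (nat_lit 228) (nat_lit 0) (XT.nd (nat_lit 78) (nat_lit 76) (nat_lit 0) (XT.lf (nat_lit 0) (nat_lit 5464850819) (nat_lit 152) (nat_lit 24226317565) (nat_lit 76) (nat_lit 24212855115) (nat_lit 25) (nat_lit 5) (nat_lit 27) (nat_lit 5) (nat_lit 26) (nat_lit 4) (nat_lit 420) (nat_lit 340) (nat_lit 260)) (XT.nd (nat_lit 78) (nat_lit 0) (nat_lit 0) (XT.lf (nat_lit 0) (nat_lit 7093832493) (nat_lit 76) (nat_lit 13816725023) (nat_lit 152) (nat_lit 35179987773) (nat_lit 24) (nat_lit 5) (nat_lit 25) (nat_lit 5) (nat_lit 26) (nat_lit 4) (nat_lit 421) (nat_lit 340) (nat_lit 259)) (XT.lf (nat_lit 0) (nat_lit 37376520506) (nat_lit 152) (nat_lit 17982793044) (nat_lit 0) (nat_lit 3019642312) (nat_lit 24) (nat_lit 5) (nat_lit 26) (nat_lit 4) (nat_lit 24) (nat_lit 4) (nat_lit 422) (nat_lit 340) (nat_lit 258)))) (XT.nd (nat_lit 78) (nat_lit 152)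 (nat_lit 0) (XT.lf (nat_lit 0) (nat_lit 14671274275) (nat_lit 76) (nat_lit 40245185911) (nat_lit 76) (nat_lit 5857808156) (nat_lit 23) (nat_lit 4) (nat_lit 24) (nat_lit 5) (nat_lit 24) (nat_lit 4) (nat_lit 423) (nat_lit 340) (nat_lit 257)) (XT.nd (nat_lit 78) (nat_lit 76) (nat_lit 0) (XT.lf (nat_lit 0) (nat_lit 10005793935) (nat_lit 152) (nat_lit 14104663265) (nat_lit 76) (nat_lit 39171262189) (nat_lit 22) (nat_lit 5) (nat_lit 24) (nat_lit 5) (nat_lit 23) (nat_lit 4) (nat_lit 424) (nat_lit 340) (nat_lit 256)) (XT.lf (nat_lit 0) (nat_lit 19766537693) (nat_lit 76) (nat_lit 6938204498) (nat_lit 152) (nat_lit 39203162948) (nat_lit 21) (nat_lit 5) (nat_lit 22) (nat_lit 5) (nat_lit 23) (nat_lit 4) (nat_lit 425) (nat_lit 340) (nat_lit 255))))) (XT.nd (nat_lit 234) (nat_lit 152) (nat_lit 0) (XT.nd (nat_lit 78) (nat_lit 152) (nat_lit 0) (XT.lf (nat_lit 0) (nat_lit 44464662825) (nat_lit 152) (nat_lit 13195737583)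 (nat_lit 0) (nat_lit 10998220473) (nat_lit 21) (nat_lit 5) (nat_lit 23) (nat_lit 4) (nat_lit 21) (nat_lit 4) (nat_lit 426) (nat_lit 340) (nat_lit 254)) (XT.nd (nat_lit 78) (nat_lit 76) (nat_lit 0) (XT.lf (nat_lit 0) (nat_lit 21700435674) (nat_lit 76) (nat_lit 41664830550) (nat_lit 76) (nat_lit 8174026971) (nat_lit 20) (nat_lit 4) (nat_lit 21) (nat_lit 5) (nat_lit 21) (nat_lit 4) (nat_lit 427) (nat_lit 340) (nat_lit 253)) (XT.lf (nat_lit 0) (nat_lit 8589928129) (nat_lit 152) (nat_lit 16076450645) (nat_lit 76) (nat_lit 49891775266) (nat_lit 19) (nat_lit 5) (nat_lit 21) (nat_lit 5) (nat_lit 20) (nat_lit 4) (nat_lit 428) (nat_lit 340) (nat_lit 252)))) (XT.nd (nat_lit 156) (nat_lit 76) (nat_lit 0) (XT.nd (nat_lit 78) (nat_lit 0) (nat_lit 0) (XT.lf (nat_lit 0) (nat_lit 19627693383) (nat_lit 76) (nat_lit 6561367937) (nat_lit 152) (nat_lit 51531488943) (nat_lit 18) (nat_lit 5) (nat_lit 19) (nat_lit 5)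 (nat_lit 20) (nat_lit 4) (nat_lit 429) (nat_lit 340) (nat_lit 251)) (XT.lf (nat_lit 0) (nat_lit 44931239146) (nat_lit 152) (nat_lit 23750449192) (nat_lit 0) (nat_lit 12351486484) (nat_lit 18) (nat_lit 5) (nat_lit 20) (nat_lit 4) (nat_lit 18) (nat_lit 4) (nat_lit 430) (nat_lit 340) (nat_lit 250))) (XT.nd (nat_lit 78) (nat_lit 0) (nat_lit 0) (XT.lf (nat_lit 0) (nat_lit 12441791954) (nat_lit 76) (nat_lit 52331976715) (nat_lit 76) (nat_lit 19732765760) (nat_lit 17) (nat_lit 4) (nat_lit 18) (nat_lit 5) (nat_lit 18) (nat_lit 4) (nat_lit 431) (nat_lit 340) (nat_lit 249)) (XT.lf (nat_lit 0) (nat_lit 50897370895) (nat_lit 76) (nat_lit 34933628795) (nat_lit 76) (nat_lit 2315886133) (nat_lit 17) (nat_lit 4) (nat_lit 18) (nat_lit 5) (nat_lit 18) (nat_lit 4) (nat_lit 432) (nat_lit 340) (nat_lit 248))))))))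
noncomputable def xc50 : XT := (XT.nd (nat_lit 47580) (nat_lit 0) (nat_lit 5396) (XT.nd (nat_lit 46644) (nat_lit 0) (nat_lit 15352) (XT.nd (nat_lit 46176) (nat_lit 0) (nat_lit 25916) (XT.nd (nat_lit 45942) (nat_lit 0) (nat_lit 27740) (XT.nd (nat_lit 78) (nat_lit 152) (nat_lit 0) (XT.lf (nat_lit 0) (nat_lit 15639090435) (nat_lit 152) (nat_lit 888038322) (nat_lit 76) (nat_lit 75438153439) (nat_lit 16) (nat_lit 5) (nat_lit 18) (nat_lit 5) (nat_lit 17) (nat_lit 4) (nat_lit 433) (nat_lit 340) (nat_lit 247)) (XT.nd (nat_lit 156) (nat_lit 76) (nat_lit 0) (XT.lf (nat_lit 0) (nat_lit 34819856435) (nat_lit 152) (nat_lit 58024086200) (nat_lit 0) (nat_lit 3118690695) (nat_lit 15) (nat_lit 5) (nat_lit 17) (nat_lit 4) (nat_lit 15) (nat_lit 4) (nat_lit 434) (nat_lit 340) (nat_lit 246)) (XT.lf (nat_lit 0) (nat_lit 16856170381) (nat_lit 76) (nat_lit 59714178497) (nat_lit 76) (nat_lit 27982668613) (nat_lit 14)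 (nat_lit 4) (nat_lit 15) (nat_lit 5) (nat_lit 15) (nat_lit 4) (nat_lit 436) (nat_lit 340) (nat_lit 244)))) (XT.nd (nat_lit 78) (nat_lit 532) (nat_lit 0) (XT.lf (nat_lit 0) (nat_lit 1765323145) (nat_lit 228) (nat_lit 730733280) (nat_lit 228) (nat_lit 730733280) (nat_lit 386) (nat_lit 3) (nat_lit 389) (nat_lit 3) (nat_lit 389) (nat_lit 5) (nat_lit 341) (nat_lit 341) (nat_lit 338)) (XT.nd (nat_lit 78) (nat_lit 304) (nat_lit 0) (XT.lf (nat_lit 0) (nat_lit 1831753309) (nat_lit 228) (nat_lit 2673202331) (nat_lit 304) (nat_lit 1964148428) (nat_lit 383) (nat_lit 5) (nat_lit 386) (nat_lit 3) (nat_lit 387) (nat_lit 5) (nat_lit 342) (nat_lit 341) (nat_lit 337)) (XT.lf (nat_lit 0) (nat_lit 8374146) (nat_lit 304) (nat_lit 3771388592) (nat_lit 380) (nat_lit 2712878172) (nat_lit 379) (nat_lit 5) (nat_lit 383) (nat_lit 5) (nat_lit 384) (nat_lit 5) (nat_lit 343) (nat_lit 341) (nat_lit 336))))) (XT.nd (nat_lit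 234) (nat_lit 988) (nat_lit 0) (XT.nd (nat_lit 78) (nat_lit 836) (nat_lit 0) (XT.lf (nat_lit 76) (nat_lit 1746545725) (nat_lit 0) (nat_lit 2794816295) (nat_lit 380) (nat_lit 1982301688) (nat_lit 380) (nat_lit 5) (nat_lit 379) (nat_lit 5) (nat_lit 384) (nat_lit 5) (nat_lit 344) (nat_lit 341) (nat_lit 335)) (XT.nd (nat_lit 78) (nat_lit 456) (nat_lit 0) (XT.lf (nat_lit 76) (nat_lit 888325478) (nat_lit 0) (nat_lit 1565528959) (nat_lit 456) (nat_lit 4108909108) (nat_lit 375) (nat_lit 5) (nat_lit 374) (nat_lit 5) (nat_lit 380) (nat_lit 5) (nat_lit 345) (nat_lit 341) (nat_lit 334)) (XT.lf (nat_lit 76) (nat_lit 145305245) (nat_lit 0) (nat_lit 88450085) (nat_lit 532) (nat_lit 6376262927) (nat_lit 369) (nat_lit 5) (nat_lit 368) (nat_lit 5) (nat_lit 375) (nat_lit 5) (nat_lit 346) (nat_lit 341) (nat_lit 333)))) (XT.nd (nat_lit 78) (nat_lit 1064) (nat_lit 0) (XT.lf (nat_lit 0) (nat_lit 4519014496) (nat_lit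 456) (nat_lit 510928124) (nat_lit 76) (nat_lit 1634332909) (nat_lit 369) (nat_lit 5) (nat_lit 375) (nat_lit 5) (nat_lit 370) (nat_lit 5) (nat_lit 347) (nat_lit 341) (nat_lit 332)) (XT.nd (nat_lit 78) (nat_lit 532) (nat_lit 0) (XT.lf (nat_lit 0) (nat_lit 2055071977) (nat_lit 532) (nat_lit 1060167197) (nat_lit 76) (nat_lit 3611426141) (nat_lit 362) (nat_lit 5) (nat_lit 369) (nat_lit 5) (nat_lit 363) (nat_lit 5) (nat_lit 348) (nat_lit 341) (nat_lit 331)) (XT.lf (nat_lit 0) (nat_lit 5289277123) (nat_lit 532) (nat_lit 945373253) (nat_lit 608) (nat_lit 562631909) (nat_lit 355) (nat_lit 5) (nat_lit 362) (nat_lit 5) (nat_lit 363) (nat_lit 5) (nat_lit 349) (nat_lit 341) (nat_lit 330)))))) (XT.nd (nat_lit 468) (nat_lit 5472) (nat_lit 0) (XT.nd (nat_lit 234) (nat_lit 2888) (nat_lit 0) (XT.nd (nat_lit 78) (nat_lit 1520) (nat_lit 0) (XT.lf (nat_lit 0) (nat_lit 3516763657) (nat_lit 684) (nat_lit 1885304382)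 (nat_lit 76) (nat_lit 1473275497) (nat_lit 346) (nat_lit 5) (nat_lit 355) (nat_lit 5) (nat_lit 347) (nat_lit 5) (nat_lit 350) (nat_lit 341) (nat_lit 329)) (XT.nd (nat_lit 78) (nat_lit 760) (nat_lit 0) (XT.lf (nat_lit 0) (nat_lit 659877489) (nat_lit 760) (nat_lit 2169089803) (nat_lit 76) (nat_lit 4132721879) (nat_lit 336) (nat_lit 5) (nat_lit 346) (nat_lit 5) (nat_lit 337) (nat_lit 5) (nat_lit 351) (nat_lit 341) (nat_lit 328)) (XT.lf (nat_lit 0) (nat_lit 4657146102) (nat_lit 836) (nat_lit 2373359271) (nat_lit 76) (nat_lit 25553052) (nat_lit 326) (nat_lit 5) (nat_lit 337) (nat_lit 5) (nat_lit 327) (nat_lit 5) (nat_lit 352) (nat_lit 341) (nat_lit 327)))) (XT.nd (nat_lit 78) (nat_lit 1976) (nat_lit 0) (XT.lf (nat_lit 0) (nat_lit 1551787399) (nat_lit 912) (nat_lit 2512193795) (nat_lit 76) (nat_lit 3094215633) (nat_lit 314) (nat_lit 5) (nat_lit 326) (nat_lit 5) (nat_lit 315) (nat_lit 5) (nat_lit 353)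 (nat_lit 341) (nat_lit 326)) (XT.nd (nat_lit 78) (nat_lit 1064) (nat_lit 0) (XT.lf (nat_lit 0) (nat_lit 4700733690) (nat_lit 912) (nat_lit 817405711) (nat_lit 988) (nat_lit 1750667836) (nat_lit 302) (nat_lit 5) (nat_lit 314) (nat_lit 5) (nat_lit 315) (nat_lit 5) (nat_lit 354) (nat_lit 341) (nat_lit 325)) (XT.lf (nat_lit 0) (nat_lit 2155335464) (nat_lit 1064) (nat_lit 2566311093) (nat_lit 76) (nat_lit 2665670827) (nat_lit 288) (nat_lit 5) (nat_lit 302) (nat_lit 5) (nat_lit 289) (nat_lit 5) (nat_lit 355) (nat_lit 341) (nat_lit 324))))) (XT.nd (nat_lit 234) (nat_lit 1976) (nat_lit 0) (XT.nd (nat_lit 78) (nat_lit 2432) (nat_lit 0) (XT.lf (nat_lit 0) (nat_lit 5025945496) (nat_lit 1064) (nat_lit 1089601400) (nat_lit 1140) (nat_lit 1398929179) (nat_lit 274) (nat_lit 5) (nat_lit 288) (nat_lit 5) (nat_lit 289) (nat_lit 5) (nat_lit 356) (nat_lit 341) (nat_lit 323)) (XT.nd (nat_lit 78) (nat_lit 1216) (nat_lit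 0) (XT.lf (nat_lit 0) (nat_lit 2496708786) (nat_lit 1216) (nat_lit 2362476557) (nat_lit 76) (nat_lit 2790474214) (nat_lit 258) (nat_lit 5) (nat_lit 274) (nat_lit 5) (nat_lit 259) (nat_lit 5) (nat_lit 357) (nat_lit 341) (nat_lit 322)) (XT.lf (nat_lit 0) (nat_lit 5629532493) (nat_lit 1216) (nat_lit 844237369) (nat_lit 1292) (nat_lit 1320034583) (nat_lit 242) (nat_lit 5) (nat_lit 258) (nat_lit 5) (nat_lit 259) (nat_lit 5) (nat_lit 358) (nat_lit 341) (nat_lit 321)))) (XT.nd (nat_lit 78) (nat_lit 1292) (nat_lit 0) (XT.lf (nat_lit 0) (nat_lit 2597376988) (nat_lit 684) (nat_lit 1929150936) (nat_lit 76) (nat_lit 3419558540) (nat_lit 233) (nat_lit 5) (nat_lit 242) (nat_lit 5) (nat_lit 234) (nat_lit 5) (nat_lit 359) (nat_lit 341) (nat_lit 320)) (XT.nd (nat_lit 78) (nat_lit 684) (nat_lit 0) (XT.lf (nat_lit 0) (nat_lit 6484881706) (nat_lit 608) (nat_lit 128050991) (nat_lit 684) (nat_lit 1494845391) (nat_lit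 225) (nat_lit 5) (nat_lit 233) (nat_lit 5) (nat_lit 234) (nat_lit 5) (nat_lit 360) (nat_lit 341) (nat_lit 319)) (XT.lf (nat_lit 0) (nat_lit 2474357751) (nat_lit 684) (nat_lit 1293004485) (nat_lit 76) (nat_lit 4510352204) (nat_lit 216) (nat_lit 5) (nat_lit 225) (nat_lit 5) (nat_lit 217) (nat_lit 5) (nat_lit 361) (nat_lit 341) (nat_lit 318))))))) (XT.nd (nat_lit 936) (nat_lit 3952) (nat_lit 0) (XT.nd (nat_lit 468) (nat_lit 2432) (nat_lit 0) (XT.nd (nat_lit 234) (nat_lit 1976) (nat_lit 0) (XT.nd (nat_lit 78) (nat_lit 1064) (nat_lit 0) (XT.lf (nat_lit 0) (nat_lit 6558649301) (nat_lit 608) (nat_lit 900385536) (nat_lit 76) (nat_lit 998308320) (nat_lit 209) (nat_lit 5) (nat_lit 217) (nat_lit 5) (nat_lit 210) (nat_lit 5) (nat_lit 362) (nat_lit 341) (nat_lit 317)) (XT.nd (nat_lit 78) (nat_lit 456) (nat_lit 0) (XT.lf (nat_lit 0) (nat_lit 2140396115) (nat_lit 608) (nat_lit 479708128) (nat_lit 76) (nat_lit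 6025810782) (nat_lit 201) (nat_lit 5) (nat_lit 209) (nat_lit 5) (nat_lit 202) (nat_lit 5) (nat_lit 363) (nat_lit 341) (nat_lit 316)) (XT.lf (nat_lit 0) (nat_lit 6317826166) (nat_lit 532) (nat_lit 17568450) (nat_lit 76) (nat_lit 2508745310) (nat_lit 195) (nat_lit 5) (nat_lit 202) (nat_lit 5) (nat_lit 196) (nat_lit 5) (nat_lit 364) (nat_lit 341) (nat_lit 315)))) (XT.nd (nat_lit 78) (nat_lit 912) (nat_lit 0) (XT.lf (nat_lit 0) (nat_lit 494907141) (nat_lit 456) (nat_lit 1113908373) (nat_lit 532) (nat_lit 7443361921) (nat_lit 181) (nat_lit 5) (nat_lit 187) (nat_lit 5) (nat_lit 188) (nat_lit 5) (nat_lit 365) (nat_lit 341) (nat_lit 314)) (XT.nd (nat_lit 78) (nat_lit 456) (nat_lit 0) (XT.lf (nat_lit 0) (nat_lit 1021179422) (nat_lit 456) (nat_lit 4885142993) (nat_lit 532) (nat_lit 3363359025) (nat_lit 175) (nat_lit 5) (nat_lit 181) (nat_lit 5) (nat_lit 182) (nat_lit 5) (nat_lit 366) (nat_lit 341) (nat_lit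 313)) (XT.lf (nat_lit 0) (nat_lit 892125108) (nat_lit 456) (nat_lit 7898245350) (nat_lit 76) (nat_lit 707788545) (nat_lit 169) (nat_lit 5) (nat_lit 175) (nat_lit 5) (nat_lit 170) (nat_lit 5) (nat_lit 367) (nat_lit 341) (nat_lit 312))))) (XT.nd (nat_lit 234) (nat_lit 1140) (nat_lit 0) (XT.nd (nat_lit 78) (nat_lit 836) (nat_lit 0) (XT.lf (nat_lit 0) (nat_lit 2171753253) (nat_lit 456) (nat_lit 3146994044) (nat_lit 532) (nat_lit 4417521422) (nat_lit 163) (nat_lit 5) (nat_lit 169) (nat_lit 5) (nat_lit 170) (nat_lit 5) (nat_lit 368) (nat_lit 341) (nat_lit 311)) (XT.nd (nat_lit 78) (nat_lit 456) (nat_lit 0) (XT.lf (nat_lit 0) (nat_lit 2790539560) (nat_lit 380) (nat_lit 7187400812) (nat_lit 456) (nat_lit 8049201) (nat_lit 158) (nat_lit 5) (nat_lit 163) (nat_lit 5) (nat_lit 164) (nat_lit 5) (nat_lit 369) (nat_lit 341) (nat_lit 310)) (XT.lf (nat_lit 0) (nat_lit 3404391208) (nat_lit 380) (nat_lit 1149216105)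 (nat_lit 456) (nat_lit 5692638902) (nat_lit 152) (nat_lit 5) (nat_lit 157) (nat_lit 5) (nat_lit 158) (nat_lit 5) (nat_lit 370) (nat_lit 341) (nat_lit 309)))) (XT.nd (nat_lit 78) (nat_lit 760) (nat_lit 0) (XT.lf (nat_lit 0) (nat_lit 4036134715) (nat_lit 380) (nat_lit 5353215183) (nat_lit 456) (nat_lit 1128816041) (nat_lit 147) (nat_lit 5) (nat_lit 152) (nat_lit 5) (nat_lit 153) (nat_lit 5) (nat_lit 371) (nat_lit 341) (nat_lit 308)) (XT.nd (nat_lit 78) (nat_lit 304) (nat_lit 0) (XT.lf (nat_lit 0) (nat_lit 3615498841) (nat_lit 456) (nat_lit 6126238326) (nat_lit 76) (nat_lit 1060209490) (nat_lit 141) (nat_lit 5) (nat_lit 147) (nat_lit 5) (nat_lit 142) (nat_lit 5) (nat_lit 372) (nat_lit 341) (nat_lit 307)) (XT.lf (nat_lit 0) (nat_lit 5311030743) (nat_lit 304) (nat_lit 3324531691) (nat_lit 380) (nat_lit 2462195552) (nat_lit 137) (nat_lit 5) (nat_lit 141) (nat_lit 5) (nat_lit 142) (nat_lit 5) (nat_lit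 373) (nat_lit 341) (nat_lit 306)))))) (XT.nd (nat_lit 468) (nat_lit 1900) (nat_lit 0) (XT.nd (nat_lit 234) (nat_lit 912) (nat_lit 0) (XT.nd (nat_lit 78) (nat_lit 684) (nat_lit 0) (XT.lf (nat_lit 0) (nat_lit 2496440337) (nat_lit 456) (nat_lit 5460438075) (nat_lit 76) (nat_lit 3449384110) (nat_lit 131) (nat_lit 5) (nat_lit 137) (nat_lit 5) (nat_lit 132) (nat_lit 5) (nat_lit 374) (nat_lit 341) (nat_lit 305)) (XT.nd (nat_lit 78) (nat_lit 380) (nat_lit 0) (XT.lf (nat_lit 0) (nat_lit 6575368369) (nat_lit 304) (nat_lit 1129327358) (nat_lit 380) (nat_lit 4023216181) (nat_lit 127) (nat_lit 5) (nat_lit 131) (nat_lit 5) (nat_lit 132) (nat_lit 5) (nat_lit 375) (nat_lit 341) (nat_lit 304)) (XT.lf (nat_lit 0) (nat_lit 1169229520) (nat_lit 380) (nat_lit 4879508396) (nat_lit 76) (nat_lit 6014119709) (nat_lit 122) (nat_lit 5) (nat_lit 127) (nat_lit 5) (nat_lit 123) (nat_lit 5) (nat_lit 376) (nat_lit 341) (nat_lit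 303)))) (XT.nd (nat_lit 78) (nat_lit 608) (nat_lit 0) (XT.lf (nat_lit 0) (nat_lit 6591000055) (nat_lit 380) (nat_lit 4641077391) (nat_lit 76) (nat_lit 1179716667) (nat_lit 118) (nat_lit 5) (nat_lit 123) (nat_lit 5) (nat_lit 119) (nat_lit 5) (nat_lit 377) (nat_lit 341) (nat_lit 302)) (XT.nd (nat_lit 78) (nat_lit 304) (nat_lit 0) (XT.lf (nat_lit 0) (nat_lit 8334155703) (nat_lit 304) (nat_lit 4045280797) (nat_lit 380) (nat_lit 395898144) (nat_lit 114) (nat_lit 5) (nat_lit 118) (nat_lit 5) (nat_lit 119) (nat_lit 5) (nat_lit 378) (nat_lit 341) (nat_lit 301)) (XT.lf (nat_lit 0) (nat_lit 5271376856) (nat_lit 304) (nat_lit 4311423247) (nat_lit 76) (nat_lit 3570509478) (nat_lit 110) (nat_lit 5) (nat_lit 114) (nat_lit 5) (nat_lit 111) (nat_lit 5) (nat_lit 379) (nat_lit 341) (nat_lit 300))))) (XT.nd (nat_lit 234) (nat_lit 1064) (nat_lit 0) (XT.nd (nat_lit 78) (nat_lit 532) (nat_lit 0) (XT.lf (nat_lit 0)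 (nat_lit 9328284334) (nat_lit 304) (nat_lit 1970930282) (nat_lit 380) (nat_lit 2248311064) (nat_lit 106) (nat_lit 5) (nat_lit 110) (nat_lit 5) (nat_lit 111) (nat_lit 5) (nat_lit 380) (nat_lit 341) (nat_lit 299)) (XT.nd (nat_lit 78) (nat_lit 228) (nat_lit 0) (XT.lf (nat_lit 0) (nat_lit 3704324568) (nat_lit 304) (nat_lit 4221931661) (nat_lit 76) (nat_lit 6030892180) (nat_lit 102) (nat_lit 5) (nat_lit 106) (nat_lit 5) (nat_lit 103) (nat_lit 5) (nat_lit 381) (nat_lit 341) (nat_lit 298)) (XT.lf (nat_lit 0) (nat_lit 9983871201) (nat_lit 304) (nat_lit 4279187707) (nat_lit 76) (nat_lit 121271250) (nat_lit 99) (nat_lit 5) (nat_lit 103) (nat_lit 5) (nat_lit 100) (nat_lit 5) (nat_lit 382) (nat_lit 341) (nat_lit 297)))) (XT.nd (nat_lit 156) (nat_lit 532) (nat_lit 0) (XT.nd (nat_lit 78) (nat_lit 228) (nat_lit 0) (XT.lf (nat_lit 0) (nat_lit 1851254356) (nat_lit 304) (nat_lit 4454838900) (nat_lit 76) (nat_lit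 8522069086) (nat_lit 95) (nat_lit 5) (nat_lit 99) (nat_lit 5) (nat_lit 96) (nat_lit 5) (nat_lit 383) (nat_lit 341) (nat_lit 296)) (XT.lf (nat_lit 0) (nat_lit 8410252504) (nat_lit 304) (nat_lit 4728700134) (nat_lit 76) (nat_lit 2151371966) (nat_lit 92) (nat_lit 5) (nat_lit 96) (nat_lit 5) (nat_lit 93) (nat_lit 5) (nat_lit 384) (nat_lit 341) (nat_lit 295))) (XT.nd (nat_lit 78) (nat_lit 304) (nat_lit 0) (XT.lf (nat_lit 0) (nat_lit 10660255984) (nat_lit 228) (nat_lit 4769131447) (nat_lit 304) (nat_lit 342257901) (nat_lit 89) (nat_lit 5) (nat_lit 92) (nat_lit 5) (nat_lit 93) (nat_lit 5) (nat_lit 385) (nat_lit 341) (nat_lit 294)) (XT.lf (nat_lit 0) (nat_lit 6508606886) (nat_lit 304) (nat_lit 5655803523) (nat_lit 76) (nat_lit 4107352424) (nat_lit 85) (nat_lit 5) (nat_lit 89) (nat_lit 5) (nat_lit 86) (nat_lit 5) (nat_lit 386) (nat_lit 341) (nat_lit 293))))))))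
noncomputable def xc51 : XT := (XT.nd (nat_lit 1950) (nat_lit 1444) (nat_lit 0) (XT.nd (nat_lit 936) (nat_lit 1672) (nat_lit 0) (XT.nd (nat_lit 468) (nat_lit 988) (nat_lit 0) (XT.nd (nat_lit 234) (nat_lit 608) (nat_lit 0) (XT.nd (nat_lit 78) (nat_lit 456) (nat_lit 0) (XT.lf (nat_lit 0) (nat_lit 10465934413) (nat_lit 152) (nat_lit 3354560754) (nat_lit 228) (nat_lit 2972536673) (nat_lit 83) (nat_lit 5) (nat_lit 85) (nat_lit 5) (nat_lit 86) (nat_lit 5) (nat_lit 387) (nat_lit 341) (nat_lit 292)) (XT.nd (nat_lit 78) (nat_lit 152) (nat_lit 0) (XT.lf (nat_lit 0) (nat_lit 4216849206) (nat_lit 304) (nat_lit 7188100644) (nat_lit 76) (nat_lit 5930017509) (nat_lit 79) (nat_lit 5) (nat_lit 83) (nat_lit 5) (nat_lit 80) (nat_lit 5) (nat_lit 388) (nat_lit 341) (nat_lit 291)) (XT.lf (nat_lit 0) (nat_lit 9675673159) (nat_lit 152) (nat_lit 2148999567) (nat_lit 228) (nat_lit 6074843023) (nat_lit 77) (nat_lit 5)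 (nat_lit 79) (nat_lit 5) (nat_lit 80) (nat_lit 5) (nat_lit 389) (nat_lit 341) (nat_lit 290)))) (XT.nd (nat_lit 78) (nat_lit 304) (nat_lit 0) (XT.lf (nat_lit 0) (nat_lit 1459737178) (nat_lit 304) (nat_lit 9477795082) (nat_lit 76) (nat_lit 7549442583) (nat_lit 73) (nat_lit 5) (nat_lit 77) (nat_lit 5) (nat_lit 74) (nat_lit 5) (nat_lit 390) (nat_lit 341) (nat_lit 289)) (XT.nd (nat_lit 78) (nat_lit 152) (nat_lit 0) (XT.lf (nat_lit 0) (nat_lit 8129884246) (nat_lit 152) (nat_lit 1232650087) (nat_lit 228) (nat_lit 9735965299) (nat_lit 71) (nat_lit 5) (nat_lit 73) (nat_lit 5) (nat_lit 74) (nat_lit 5) (nat_lit 391) (nat_lit 341) (nat_lit 288)) (XT.lf (nat_lit 0) (nat_lit 7010570649) (nat_lit 152) (nat_lit 10834269503) (nat_lit 228) (nat_lit 1890239824) (nat_lit 69) (nat_lit 5) (nat_lit 71) (nat_lit 5) (nat_lit 72) (nat_lit 5) (nat_lit 392) (nat_lit 341) (nat_lit 287))))) (XT.nd (nat_lit 234) (nat_lit 380)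 (nat_lit 0) (XT.nd (nat_lit 78) (nat_lit 380) (nat_lit 0) (XT.lf (nat_lit 0) (nat_lit 5637810731) (nat_lit 152) (nat_lit 700567837) (nat_lit 228) (nat_lit 14059855571) (nat_lit 66) (nat_lit 5) (nat_lit 68) (nat_lit 5) (nat_lit 69) (nat_lit 5) (nat_lit 393) (nat_lit 341) (nat_lit 286)) (XT.nd (nat_lit 78) (nat_lit 228) (nat_lit 0) (XT.lf (nat_lit 0) (nat_lit 3940900551) (nat_lit 152) (nat_lit 11199933343) (nat_lit 228) (nat_lit 5947114826) (nat_lit 64) (nat_lit 5) (nat_lit 66) (nat_lit 5) (nat_lit 67) (nat_lit 5) (nat_lit 394) (nat_lit 341) (nat_lit 285)) (XT.lf (nat_lit 0) (nat_lit 1971710604) (nat_lit 152) (nat_lit 665659573) (nat_lit 228) (nat_lit 19170557355) (nat_lit 61) (nat_lit 5) (nat_lit 63) (nat_lit 5) (nat_lit 64) (nat_lit 5) (nat_lit 395) (nat_lit 341) (nat_lit 284)))) (XT.nd (nat_lit 78) (nat_lit 380) (nat_lit 0) (XT.lf (nat_lit 0) (nat_lit 11745735802) (nat_lit 228) (nat_lit 425392854)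 (nat_lit 76) (nat_lit 10384488652) (nat_lit 61) (nat_lit 5) (nat_lit 64) (nat_lit 5) (nat_lit 62) (nat_lit 5) (nat_lit 396) (nat_lit 341) (nat_lit 283)) (XT.nd (nat_lit 78) (nat_lit 228) (nat_lit 0) (XT.lf (nat_lit 0) (nat_lit 20239617221) (nat_lit 152) (nat_lit 1212434675) (nat_lit 228) (nat_lit 1884371377) (nat_lit 59) (nat_lit 5) (nat_lit 61) (nat_lit 5) (nat_lit 62) (nat_lit 5) (nat_lit 397) (nat_lit 341) (nat_lit 282)) (XT.lf (nat_lit 0) (nat_lit 7561928329) (nat_lit 228) (nat_lit 6285049076) (nat_lit 76) (nat_lit 10300521397) (nat_lit 56) (nat_lit 5) (nat_lit 59) (nat_lit 5) (nat_lit 57) (nat_lit 5) (nat_lit 398) (nat_lit 341) (nat_lit 281)))))) (XT.nd (nat_lit 468) (nat_lit 912) (nat_lit 0) (XT.nd (nat_lit 234) (nat_lit 304) (nat_lit 0) (XT.nd (nat_lit 78) (nat_lit 304) (nat_lit 0) (XT.lf (nat_lit 0) (nat_lit 15098211473) (nat_lit 152) (nat_lit 2477149960) (nat_lit 228) (nat_lit 7419200008)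 (nat_lit 54) (nat_lit 5) (nat_lit 56) (nat_lit 5) (nat_lit 57) (nat_lit 5) (nat_lit 399) (nat_lit 341) (nat_lit 280)) (XT.nd (nat_lit 78) (nat_lit 152) (nat_lit 0) (XT.lf (nat_lit 0) (nat_lit 2379848657) (nat_lit 152) (nat_lit 14060834053) (nat_lit 76) (nat_lit 9436142828) (nat_lit 52) (nat_lit 5) (nat_lit 54) (nat_lit 5) (nat_lit 53) (nat_lit 5) (nat_lit 400) (nat_lit 341) (nat_lit 279)) (XT.lf (nat_lit 0) (nat_lit 7977793815) (nat_lit 152) (nat_lit 4689937373) (nat_lit 228) (nat_lit 14128704216) (nat_lit 50) (nat_lit 5) (nat_lit 52) (nat_lit 5) (nat_lit 53) (nat_lit 5) (nat_lit 401) (nat_lit 341) (nat_lit 278)))) (XT.nd (nat_lit 78) (nat_lit 228) (nat_lit 0) (XT.lf (nat_lit 0) (nat_lit 3552923572) (nat_lit 76) (nat_lit 20118491197) (nat_lit 152) (nat_lit 4084574448) (nat_lit 49) (nat_lit 5) (nat_lit 50) (nat_lit 5) (nat_lit 51) (nat_lit 4) (nat_lit 402) (nat_lit 341) (nat_lit 277)) (XT.nd (nat_lit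 78) (nat_lit 152) (nat_lit 0) (XT.lf (nat_lit 0) (nat_lit 6527294782) (nat_lit 152) (nat_lit 1526986482) (nat_lit 76) (nat_lit 20701632505) (nat_lit 48) (nat_lit 5) (nat_lit 50) (nat_lit 5) (nat_lit 49) (nat_lit 5) (nat_lit 403) (nat_lit 341) (nat_lit 276)) (XT.lf (nat_lit 0) (nat_lit 17800847926) (nat_lit 228) (nat_lit 7253270415) (nat_lit 76) (nat_lit 4744040981) (nat_lit 46) (nat_lit 5) (nat_lit 49) (nat_lit 5) (nat_lit 47) (nat_lit 4) (nat_lit 404) (nat_lit 341) (nat_lit 275))))) (XT.nd (nat_lit 234) (nat_lit 532) (nat_lit 0) (XT.nd (nat_lit 78) (nat_lit 304) (nat_lit 0) (XT.lf (nat_lit 0) (nat_lit 17124722581) (nat_lit 76) (nat_lit 12727341112) (nat_lit 152) (nat_lit 1034038660) (nat_lit 45) (nat_lit 5) (nat_lit 46) (nat_lit 5) (nat_lit 47) (nat_lit 4) (nat_lit 405) (nat_lit 341) (nat_lit 274)) (XT.nd (nat_lit 78) (nat_lit 76) (nat_lit 0) (XT.lf (nat_lit 0) (nat_lit 10410512489) (nat_lit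 228) (nat_lit 21154861274) (nat_lit 76) (nat_lit 455924709) (nat_lit 42) (nat_lit 5) (nat_lit 45) (nat_lit 5) (nat_lit 43) (nat_lit 4) (nat_lit 406) (nat_lit 341) (nat_lit 273)) (XT.lf (nat_lit 0) (nat_lit 3650005461) (nat_lit 76) (nat_lit 19016949042) (nat_lit 152) (nat_lit 10538165473) (nat_lit 41) (nat_lit 5) (nat_lit 42) (nat_lit 5) (nat_lit 43) (nat_lit 4) (nat_lit 407) (nat_lit 341) (nat_lit 272)))) (XT.nd (nat_lit 156) (nat_lit 304) (nat_lit 0) (XT.nd (nat_lit 78) (nat_lit 152) (nat_lit 0) (XT.lf (nat_lit 0) (nat_lit 1241961194) (nat_lit 152) (nat_lit 4400613146) (nat_lit 76) (nat_lit 28799995072) (nat_lit 40) (nat_lit 5) (nat_lit 42) (nat_lit 5) (nat_lit 41) (nat_lit 5) (nat_lit 408) (nat_lit 341) (nat_lit 271)) (XT.lf (nat_lit 0) (nat_lit 13650034406) (nat_lit 228) (nat_lit 13557118669) (nat_lit 76) (nat_lit 8523905210) (nat_lit 38) (nat_lit 5) (nat_lit 41) (nat_lit 5) (nat_lit 39) (nat_lit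 4) (nat_lit 409) (nat_lit 341) (nat_lit 270))) (XT.nd (nat_lit 78) (nat_lit 228) (nat_lit 0) (XT.lf (nat_lit 0) (nat_lit 13208690238) (nat_lit 76) (nat_lit 13657750881) (nat_lit 152) (nat_lit 10211896095) (nat_lit 37) (nat_lit 5) (nat_lit 38) (nat_lit 5) (nat_lit 39) (nat_lit 4) (nat_lit 410) (nat_lit 341) (nat_lit 269)) (XT.lf (nat_lit 0) (nat_lit 2343333808) (nat_lit 228) (nat_lit 35428137516) (nat_lit 76) (nat_lit 716766015) (nat_lit 34) (nat_lit 5) (nat_lit 37) (nat_lit 5) (nat_lit 35) (nat_lit 4) (nat_lit 411) (nat_lit 341) (nat_lit 268))))))) (XT.nd (nat_lit 936) (nat_lit 684) (nat_lit 0) (XT.nd (nat_lit 468) (nat_lit 380) (nat_lit 0) (XT.nd (nat_lit 234) (nat_lit 152) (nat_lit 0) (XT.nd (nat_lit 78) (nat_lit 228) (nat_lit 0) (XT.lf (nat_lit 0) (nat_lit 15663097819) (nat_lit 228) (nat_lit 8444932492) (nat_lit 76) (nat_lit 15847132902) (nat_lit 34) (nat_lit 5) (nat_lit 37) (nat_lit 5) (nat_lit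 35) (nat_lit 4) (nat_lit 412) (nat_lit 341) (nat_lit 267)) (XT.nd (nat_lit 78) (nat_lit 152) (nat_lit 0) (XT.lf (nat_lit 0) (nat_lit 20209938681) (nat_lit 76) (nat_lit 9595092354) (nat_lit 152) (nat_lit 11685721856) (nat_lit 33) (nat_lit 5) (nat_lit 34) (nat_lit 5) (nat_lit 35) (nat_lit 4) (nat_lit 413) (nat_lit 341) (nat_lit 266)) (XT.lf (nat_lit 0) (nat_lit 1698249808) (nat_lit 152) (nat_lit 35722447751) (nat_lit 76) (nat_lit 5676652697) (nat_lit 31) (nat_lit 5) (nat_lit 33) (nat_lit 5) (nat_lit 32) (nat_lit 4) (nat_lit 414) (nat_lit 341) (nat_lit 265)))) (XT.nd (nat_lit 78) (nat_lit 152) (nat_lit 0) (XT.lf (nat_lit 0) (nat_lit 15793562159) (nat_lit 152) (nat_lit 7155859090) (nat_lit 76) (nat_lit 21822873200) (nat_lit 31) (nat_lit 5) (nat_lit 33) (nat_lit 5) (nat_lit 32) (nat_lit 4) (nat_lit 415) (nat_lit 341) (nat_lit 264)) (XT.nd (nat_lit 78) (nat_lit 76) (nat_lit 0) (XT.lf (nat_lit 0) (nat_lit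 23226283930) (nat_lit 76) (nat_lit 7555852276) (nat_lit 152) (nat_lit 15743197230) (nat_lit 30) (nat_lit 5) (nat_lit 31) (nat_lit 5) (nat_lit 32) (nat_lit 4) (nat_lit 416) (nat_lit 341) (nat_lit 263)) (XT.lf (nat_lit 0) (nat_lit 6899589238) (nat_lit 76) (nat_lit 39809983110) (nat_lit 76) (nat_lit 1650771372) (nat_lit 29) (nat_lit 4) (nat_lit 30) (nat_lit 5) (nat_lit 30) (nat_lit 4) (nat_lit 417) (nat_lit 341) (nat_lit 262))))) (XT.nd (nat_lit 234) (nat_lit 228) (nat_lit 0) (XT.nd (nat_lit 78) (nat_lit 76) (nat_lit 0) (XT.lf (nat_lit 0) (nat_lit 13174889386) (nat_lit 152) (nat_lit 11453516398) (nat_lit 76) (nat_lit 25646355461) (nat_lit 28) (nat_lit 5) (nat_lit 30) (nat_lit 5) (nat_lit 29) (nat_lit 4) (nat_lit 418) (nat_lit 341) (nat_lit 261)) (XT.nd (nat_lit 78) (nat_lit 0) (nat_lit 0) (XT.lf (nat_lit 0) (nat_lit 20374389269) (nat_lit 76) (nat_lit 8497723231) (nat_lit 152) (nat_lit 23407366294)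 (nat_lit 27) (nat_lit 5) (nat_lit 28) (nat_lit 5) (nat_lit 29) (nat_lit 4) (nat_lit 419) (nat_lit 341) (nat_lit 260)) (XT.lf (nat_lit 0) (nat_lit 45523320985) (nat_lit 152) (nat_lit 489682259) (nat_lit 0) (nat_lit 8366357218) (nat_lit 27) (nat_lit 5) (nat_lit 29) (nat_lit 4) (nat_lit 27) (nat_lit 4) (nat_lit 420) (nat_lit 341) (nat_lit 259)))) (XT.nd (nat_lit 78) (nat_lit 76) (nat_lit 0) (XT.lf (nat_lit 0) (nat_lit 6674588635) (nat_lit 152) (nat_lit 23640534112) (nat_lit 76) (nat_lit 26255951039) (nat_lit 25) (nat_lit 5) (nat_lit 27) (nat_lit 5) (nat_lit 26) (nat_lit 4) (nat_lit 421) (nat_lit 341) (nat_lit 258)) (XT.nd (nat_lit 78) (nat_lit 0) (nat_lit 0) (XT.lf (nat_lit 0) (nat_lit 9194109958) (nat_lit 76) (nat_lit 13670655336) (nat_lit 152) (nat_lit 36002993501) (nat_lit 24) (nat_lit 5) (nat_lit 25) (nat_lit 5) (nat_lit 26) (nat_lit 4) (nat_lit 422) (nat_lit 341) (nat_lit 257)) (XT.lf (nat_lit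 0) (nat_lit 40118417725) (nat_lit 152) (nat_lit 17201118651) (nat_lit 0) (nat_lit 3952124322) (nat_lit 24) (nat_lit 5) (nat_lit 26) (nat_lit 4) (nat_lit 24) (nat_lit 4) (nat_lit 423) (nat_lit 341) (nat_lit 256)))))) (XT.nd (nat_lit 468) (nat_lit 304) (nat_lit 0) (XT.nd (nat_lit 234) (nat_lit 152) (nat_lit 0) (XT.nd (nat_lit 78) (nat_lit 152) (nat_lit 0) (XT.lf (nat_lit 0) (nat_lit 17037471836) (nat_lit 76) (nat_lit 41472001609) (nat_lit 76) (nat_lit 5278044205) (nat_lit 23) (nat_lit 4) (nat_lit 24) (nat_lit 5) (nat_lit 24) (nat_lit 4) (nat_lit 424) (nat_lit 341) (nat_lit 255)) (XT.nd (nat_lit 78) (nat_lit 76) (nat_lit 0) (XT.lf (nat_lit 0) (nat_lit 11320965278) (nat_lit 152) (nat_lit 13238744554) (nat_lit 76) (nat_lit 41861604324) (nat_lit 22) (nat_lit 5) (nat_lit 24) (nat_lit 5) (nat_lit 23) (nat_lit 4) (nat_lit 425) (nat_lit 341) (nat_lit 254)) (XT.lf (nat_lit 0) (nat_lit 22280979699) (nat_lit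 76) (nat_lit 6549747312) (nat_lit 152) (nat_lit 40348808332) (nat_lit 21) (nat_lit 5) (nat_lit 22) (nat_lit 5) (nat_lit 23) (nat_lit 4) (nat_lit 426) (nat_lit 341) (nat_lit 253)))) (XT.nd (nat_lit 78) (nat_lit 152) (nat_lit 0) (XT.lf (nat_lit 0) (nat_lit 47447721216) (nat_lit 152) (nat_lit 12386180297) (nat_lit 0) (nat_lit 12234815063) (nat_lit 21) (nat_lit 5) (nat_lit 23) (nat_lit 4) (nat_lit 21) (nat_lit 4) (nat_lit 427) (nat_lit 341) (nat_lit 252)) (XT.nd (nat_lit 78) (nat_lit 76) (nat_lit 0) (XT.lf (nat_lit 0) (nat_lit 24212683168) (nat_lit 76) (nat_lit 43058208829) (nat_lit 76) (nat_lit 7823206325) (nat_lit 20) (nat_lit 4) (nat_lit 21) (nat_lit 5) (nat_lit 21) (nat_lit 4) (nat_lit 428) (nat_lit 341) (nat_lit 251)) (XT.lf (nat_lit 0) (nat_lit 9728663568) (nat_lit 152) (nat_lit 15506859602) (nat_lit 76) (nat_lit 53029225653) (nat_lit 19) (nat_lit 5) (nat_lit 21) (nat_lit 5) (nat_lit 20) (nat_lit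 4) (nat_lit 429) (nat_lit 341) (nat_lit 250))))) (XT.nd (nat_lit 234) (nat_lit 152) (nat_lit 0) (XT.nd (nat_lit 78) (nat_lit 76) (nat_lit 0) (XT.lf (nat_lit 0) (nat_lit 21943123002) (nat_lit 76) (nat_lit 6243680786) (nat_lit 152) (nat_lit 53399091262) (nat_lit 18) (nat_lit 5) (nat_lit 19) (nat_lit 5) (nat_lit 20) (nat_lit 4) (nat_lit 430) (nat_lit 341) (nat_lit 249)) (XT.nd (nat_lit 78) (nat_lit 76) (nat_lit 0) (XT.lf (nat_lit 0) (nat_lit 47839226626) (nat_lit 152) (nat_lit 23653666624) (nat_lit 0) (nat_lit 13572065123) (nat_lit 18) (nat_lit 5) (nat_lit 20) (nat_lit 4) (nat_lit 18) (nat_lit 4) (nat_lit 431) (nat_lit 341) (nat_lit 248)) (XT.lf (nat_lit 0) (nat_lit 14311372234) (nat_lit 76) (nat_lit 54343005583) (nat_lit 76) (nat_lit 20058194835) (nat_lit 17) (nat_lit 4) (nat_lit 18) (nat_lit 5) (nat_lit 18) (nat_lit 4) (nat_lit 432) (nat_lit 341) (nat_lit 247)))) (XT.nd (nat_lit 234) (nat_lit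 0) (nat_lit 0) (XT.nd (nat_lit 78) (nat_lit 152) (nat_lit 0) (XT.lf (nat_lit 0) (nat_lit 54630325803) (nat_lit 76) (nat_lit 36103576932) (nat_lit 76) (nat_lit 1801957379) (nat_lit 17) (nat_lit 4) (nat_lit 18) (nat_lit 5) (nat_lit 18) (nat_lit 4) (nat_lit 433) (nat_lit 341) (nat_lit 246)) (XT.lf (nat_lit 0) (nat_lit 214996138) (nat_lit 76) (nat_lit 16796148727) (nat_lit 152) (nat_lit 79534671252) (nat_lit 15) (nat_lit 5) (nat_lit 16) (nat_lit 5) (nat_lit 17) (nat_lit 4) (nat_lit 434) (nat_lit 341) (nat_lit 245))) (XT.nd (nat_lit 45786) (nat_lit 0) (nat_lit 27968) (XT.lf (nat_lit 0) (nat_lit 58420317706) (nat_lit 152) (nat_lit 21652789817) (nat_lit 0) (nat_lit 25073333145) (nat_lit 15) (nat_lit 5) (nat_lit 17) (nat_lit 4) (nat_lit 15) (nat_lit 4) (nat_lit 436) (nat_lit 341) (nat_lit 243)) (XT.lf (nat_lit 0) (nat_lit 1592509892) (nat_lit 0) (nat_lit 1592509892) (nat_lit 228) (nat_lit 59319775) (nat_lit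 383) (nat_lit 5) (nat_lit 383) (nat_lit 3) (nat_lit 386) (nat_lit 3) (nat_lit 342) (nat_lit 342) (nat_lit 336))))))))
noncomputable def xc52 : XT := (XT.nd (nat_lit 1872) (nat_lit 8208) (nat_lit 0) (XT.nd (nat_lit 936) (nat_lit 9120) (nat_lit 0) (XT.nd (nat_lit 468) (nat_lit 4560) (nat_lit 0) (XT.nd (nat_lit 234) (nat_lit 912) (nat_lit 0) (XT.nd (nat_lit 78) (nat_lit 380) (nat_lit 0) (XT.lf (nat_lit 76) (nat_lit 1966009251) (nat_lit 0) (nat_lit 2314589602) (nat_lit 380) (nat_lit 2235167254) (nat_lit 379) (nat_lit 5) (nat_lit 378) (nat_lit 3) (nat_lit 383) (nat_lit 5) (nat_lit 343) (nat_lit 342) (nat_lit 335)) (XT.nd (nat_lit 78) (nat_lit 0) (nat_lit 76) (XT.lf (nat_lit 76) (nat_lit 864469629) (nat_lit 0) (nat_lit 1200609856) (nat_lit 456) (nat_lit 4485876378) (nat_lit 374) (nat_lit 5) (nat_lit 373) (nat_lit 5) (nat_lit 379) (nat_lit 5) (nat_lit 344) (nat_lit 342) (nat_lit 334)) (XT.lf (nat_lit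 0) (nat_lit 6310025953) (nat_lit 380) (nat_lit 123175841) (nat_lit 456) (nat_lit 160949616) (nat_lit 374) (nat_lit 5) (nat_lit 379) (nat_lit 5) (nat_lit 380) (nat_lit 5) (nat_lit 345) (nat_lit 342) (nat_lit 333)))) (XT.nd (nat_lit 78) (nat_lit 532) (nat_lit 0) (XT.lf (nat_lit 0) (nat_lit 3853083551) (nat_lit 456) (nat_lit 1017366573) (nat_lit 532) (nat_lit 1773862249) (nat_lit 368) (nat_lit 5) (nat_lit 374) (nat_lit 5) (nat_lit 375) (nat_lit 5) (nat_lit 346) (nat_lit 342) (nat_lit 332)) (XT.nd (nat_lit 78) (nat_lit 0) (nat_lit 0) (XT.lf (nat_lit 0) (nat_lit 1261303952) (nat_lit 532) (nat_lit 1804026986) (nat_lit 608) (nat_lit 3637412981) (nat_lit 361) (nat_lit 5) (nat_lit 368) (nat_lit 5) (nat_lit 369) (nat_lit 5) (nat_lit 347) (nat_lit 342) (nat_lit 331)) (XT.lf (nat_lit 76) (nat_lit 4270807059) (nat_lit 0) (nat_lit 997767663) (nat_lit 608) (nat_lit 1500550878) (nat_lit 362) (nat_lit 5) (nat_lit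 361) (nat_lit 5) (nat_lit 369) (nat_lit 5) (nat_lit 348) (nat_lit 342) (nat_lit 330))))) (XT.nd (nat_lit 234) (nat_lit 2660) (nat_lit 0) (XT.nd (nat_lit 78) (nat_lit 1368) (nat_lit 0) (XT.lf (nat_lit 0) (nat_lit 2418861778) (nat_lit 608) (nat_lit 3112917132) (nat_lit 76) (nat_lit 1311439840) (nat_lit 354) (nat_lit 5) (nat_lit 362) (nat_lit 5) (nat_lit 355) (nat_lit 5) (nat_lit 349) (nat_lit 342) (nat_lit 329)) (XT.nd (nat_lit 78) (nat_lit 760) (nat_lit 0) (XT.lf (nat_lit 0) (nat_lit 3284925721) (nat_lit 608) (nat_lit 3062023729) (nat_lit 684) (nat_lit 578443799) (nat_lit 346) (nat_lit 5) (nat_lit 354) (nat_lit 5) (nat_lit 355) (nat_lit 5) (nat_lit 350) (nat_lit 342) (nat_lit 328)) (XT.lf (nat_lit 0) (nat_lit 2924494684) (nat_lit 684) (nat_lit 311025603) (nat_lit 760) (nat_lit 3779984835) (nat_lit 336) (nat_lit 5) (nat_lit 345) (nat_lit 5) (nat_lit 346) (nat_lit 5) (nat_lit 351) (nat_lit 342)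 (nat_lit 327)))) (XT.nd (nat_lit 78) (nat_lit 1900) (nat_lit 0) (XT.lf (nat_lit 0) (nat_lit 2647011360) (nat_lit 760) (nat_lit 4461613460) (nat_lit 836) (nat_lit 5032271) (nat_lit 326) (nat_lit 5) (nat_lit 336) (nat_lit 5) (nat_lit 337) (nat_lit 5) (nat_lit 352) (nat_lit 342) (nat_lit 326)) (XT.nd (nat_lit 78) (nat_lit 988) (nat_lit 0) (XT.lf (nat_lit 0) (nat_lit 2439960047) (nat_lit 836) (nat_lit 1309140400) (nat_lit 912) (nat_lit 3470553756) (nat_lit 314) (nat_lit 5) (nat_lit 325) (nat_lit 5) (nat_lit 326) (nat_lit 5) (nat_lit 353) (nat_lit 342) (nat_lit 325)) (XT.lf (nat_lit 0) (nat_lit 246764511) (nat_lit 988) (nat_lit 5015170200) (nat_lit 76) (nat_lit 2072195441) (nat_lit 301) (nat_lit 5) (nat_lit 314) (nat_lit 5) (nat_lit 302) (nat_lit 5) (nat_lit 354) (nat_lit 342) (nat_lit 324)))))) (XT.nd (nat_lit 468) (nat_lit 3344) (nat_lit 0) (XT.nd (nat_lit 234) (nat_lit 2508) (nat_lit 0) (XT.nd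 (nat_lit 78) (nat_lit 2280) (nat_lit 0) (XT.lf (nat_lit 0) (nat_lit 2255850887) (nat_lit 988) (nat_lit 1720397643) (nat_lit 1064) (nat_lit 3480204697) (nat_lit 288) (nat_lit 5) (nat_lit 301) (nat_lit 5) (nat_lit 302) (nat_lit 5) (nat_lit 355) (nat_lit 342) (nat_lit 323)) (XT.nd (nat_lit 78) (nat_lit 1140) (nat_lit 0) (XT.lf (nat_lit 0) (nat_lit 214094014) (nat_lit 1140) (nat_lit 5313271519) (nat_lit 76) (nat_lit 2060144204) (nat_lit 273) (nat_lit 5) (nat_lit 288) (nat_lit 5) (nat_lit 274) (nat_lit 5) (nat_lit 356) (nat_lit 342) (nat_lit 322)) (XT.lf (nat_lit 0) (nat_lit 2341511127) (nat_lit 1140) (nat_lit 1599979516) (nat_lit 1216) (nat_lit 3785068891) (nat_lit 258) (nat_lit 5) (nat_lit 273) (nat_lit 5) (nat_lit 274) (nat_lit 5) (nat_lit 357) (nat_lit 342) (nat_lit 321)))) (XT.nd (nat_lit 78) (nat_lit 1292) (nat_lit 0) (XT.lf (nat_lit 0) (nat_lit 2482984024) (nat_lit 1216) (nat_lit 5308325038)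 (nat_lit 1292) (nat_lit 83252109) (nat_lit 242) (nat_lit 5) (nat_lit 258) (nat_lit 5) (nat_lit 259) (nat_lit 5) (nat_lit 358) (nat_lit 342) (nat_lit 320)) (XT.nd (nat_lit 78) (nat_lit 608) (nat_lit 0) (XT.lf (nat_lit 0) (nat_lit 2668931364) (nat_lit 608) (nat_lit 995782748) (nat_lit 684) (nat_lit 4366168247) (nat_lit 233) (nat_lit 5) (nat_lit 241) (nat_lit 5) (nat_lit 242) (nat_lit 5) (nat_lit 359) (nat_lit 342) (nat_lit 319)) (XT.lf (nat_lit 0) (nat_lit 2914532626) (nat_lit 608) (nat_lit 4645636855) (nat_lit 684) (nat_lit 636042269) (nat_lit 225) (nat_lit 5) (nat_lit 233) (nat_lit 5) (nat_lit 234) (nat_lit 5) (nat_lit 360) (nat_lit 342) (nat_lit 318))))) (XT.nd (nat_lit 234) (nat_lit 1520) (nat_lit 0) (XT.nd (nat_lit 78) (nat_lit 1140) (nat_lit 0) (XT.lf (nat_lit 0) (nat_lit 3161905342) (nat_lit 684) (nat_lit 5159095587) (nat_lit 76) (nat_lit 49566564) (nat_lit 216) (nat_lit 5) (nat_lit 225)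 (nat_lit 5) (nat_lit 217) (nat_lit 5) (nat_lit 361) (nat_lit 342) (nat_lit 317)) (XT.nd (nat_lit 78) (nat_lit 608) (nat_lit 0) (XT.lf (nat_lit 0) (nat_lit 3545805161) (nat_lit 532) (nat_lit 3580668107) (nat_lit 608) (nat_lit 1427345258) (nat_lit 209) (nat_lit 5) (nat_lit 216) (nat_lit 5) (nat_lit 217) (nat_lit 5) (nat_lit 362) (nat_lit 342) (nat_lit 316)) (XT.lf (nat_lit 0) (nat_lit 2457332262) (nat_lit 608) (nat_lit 4815934994) (nat_lit 76) (nat_lit 1473371952) (nat_lit 201) (nat_lit 5) (nat_lit 209) (nat_lit 5) (nat_lit 202) (nat_lit 5) (nat_lit 363) (nat_lit 342) (nat_lit 315)))) (XT.nd (nat_lit 78) (nat_lit 1064) (nat_lit 0) (XT.lf (nat_lit 0) (nat_lit 4352203011) (nat_lit 456) (nat_lit 2147923597) (nat_lit 532) (nat_lit 2448803525) (nat_lit 195) (nat_lit 5) (nat_lit 201) (nat_lit 5) (nat_lit 202) (nat_lit 5) (nat_lit 364) (nat_lit 342) (nat_lit 314)) (XT.nd (nat_lit 78) (nat_lit 456) (nat_lit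 0) (XT.lf (nat_lit 0) (nat_lit 1548260695) (nat_lit 608) (nat_lit 4349035542) (nat_lit 76) (nat_lit 3263770549) (nat_lit 187) (nat_lit 5) (nat_lit 195) (nat_lit 5) (nat_lit 188) (nat_lit 5) (nat_lit 365) (nat_lit 342) (nat_lit 313)) (XT.lf (nat_lit 0) (nat_lit 5308947292) (nat_lit 456) (nat_lit 378070850) (nat_lit 532) (nat_lit 3696338866) (nat_lit 181) (nat_lit 5) (nat_lit 187) (nat_lit 5) (nat_lit 188) (nat_lit 5) (nat_lit 366) (nat_lit 342) (nat_lit 312))))))) (XT.nd (nat_lit 936) (nat_lit 3420) (nat_lit 0) (XT.nd (nat_lit 468) (nat_lit 2128) (nat_lit 0) (XT.nd (nat_lit 234) (nat_lit 1292) (nat_lit 0) (XT.nd (nat_lit 78) (nat_lit 836) (nat_lit 0) (XT.lf (nat_lit 0) (nat_lit 437424525) (nat_lit 532) (nat_lit 3785409256) (nat_lit 76) (nat_lit 5392965313) (nat_lit 174) (nat_lit 5) (nat_lit 181) (nat_lit 5) (nat_lit 175) (nat_lit 5) (nat_lit 367) (nat_lit 342) (nat_lit 311)) (XT.nd (nat_lit 78)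 (nat_lit 456) (nat_lit 0) (XT.lf (nat_lit 0) (nat_lit 4705327187) (nat_lit 456) (nat_lit 3485333147) (nat_lit 76) (nat_lit 1668030961) (nat_lit 169) (nat_lit 5) (nat_lit 175) (nat_lit 5) (nat_lit 170) (nat_lit 5) (nat_lit 368) (nat_lit 342) (nat_lit 310)) (XT.lf (nat_lit 0) (nat_lit 6950350063) (nat_lit 456) (nat_lit 2268364463) (nat_lit 532) (nat_lit 894091701) (nat_lit 163) (nat_lit 5) (nat_lit 169) (nat_lit 5) (nat_lit 170) (nat_lit 5) (nat_lit 369) (nat_lit 342) (nat_lit 309)))) (XT.nd (nat_lit 78) (nat_lit 836) (nat_lit 0) (XT.lf (nat_lit 0) (nat_lit 3542693186) (nat_lit 456) (nat_lit 2849723198) (nat_lit 76) (nat_lit 3985185250) (nat_lit 157) (nat_lit 5) (nat_lit 163) (nat_lit 5) (nat_lit 158) (nat_lit 5) (nat_lit 370) (nat_lit 342) (nat_lit 308)) (XT.nd (nat_lit 78) (nat_lit 456) (nat_lit 0) (XT.lf (nat_lit 0) (nat_lit 8145148977) (nat_lit 380) (nat_lit 61959155) (nat_lit 456) (nat_lit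 2447570585) (nat_lit 152) (nat_lit 5) (nat_lit 157) (nat_lit 5) (nat_lit 158) (nat_lit 5) (nat_lit 371) (nat_lit 342) (nat_lit 307)) (XT.lf (nat_lit 0) (nat_lit 2188451015) (nat_lit 456) (nat_lit 2197295910) (nat_lit 76) (nat_lit 6557129826) (nat_lit 146) (nat_lit 5) (nat_lit 152) (nat_lit 5) (nat_lit 147) (nat_lit 5) (nat_lit 372) (nat_lit 342) (nat_lit 306))))) (XT.nd (nat_lit 234) (nat_lit 988) (nat_lit 0) (XT.nd (nat_lit 78) (nat_lit 760) (nat_lit 0) (XT.lf (nat_lit 0) (nat_lit 7042068157) (nat_lit 456) (nat_lit 1880739588) (nat_lit 76) (nat_lit 2320889167) (nat_lit 141) (nat_lit 5) (nat_lit 147) (nat_lit 5) (nat_lit 142) (nat_lit 5) (nat_lit 373) (nat_lit 342) (nat_lit 305)) (XT.nd (nat_lit 78) (nat_lit 380) (nat_lit 0) (XT.lf (nat_lit 0) (nat_lit 630812469) (nat_lit 380) (nat_lit 1565975225) (nat_lit 76) (nat_lit 9360733759) (nat_lit 136) (nat_lit 5) (nat_lit 141) (nat_lit 5) (nat_lit 137)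 (nat_lit 5) (nat_lit 374) (nat_lit 342) (nat_lit 304)) (XT.lf (nat_lit 0) (nat_lit 5690559457) (nat_lit 456) (nat_lit 1296725546) (nat_lit 76) (nat_lit 4896354680) (nat_lit 131) (nat_lit 5) (nat_lit 137) (nat_lit 5) (nat_lit 132) (nat_lit 5) (nat_lit 375) (nat_lit 342) (nat_lit 303)))) (XT.nd (nat_lit 78) (nat_lit 684) (nat_lit 0) (XT.lf (nat_lit 0) (nat_lit 11056026997) (nat_lit 380) (nat_lit 1012391452) (nat_lit 76) (nat_lit 156089919) (nat_lit 127) (nat_lit 5) (nat_lit 132) (nat_lit 5) (nat_lit 128) (nat_lit 5) (nat_lit 376) (nat_lit 342) (nat_lit 302)) (XT.nd (nat_lit 78) (nat_lit 304) (nat_lit 0) (XT.lf (nat_lit 0) (nat_lit 4133600549) (nat_lit 380) (nat_lit 804249821) (nat_lit 76) (nat_lit 7640218119) (nat_lit 122) (nat_lit 5) (nat_lit 127) (nat_lit 5) (nat_lit 123) (nat_lit 5) (nat_lit 377) (nat_lit 342) (nat_lit 301)) (XT.lf (nat_lit 0) (nat_lit 9741750044) (nat_lit 380) (nat_lit 606090690)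 (nat_lit 76) (nat_lit 2599188295) (nat_lit 118) (nat_lit 5) (nat_lit 123) (nat_lit 5) (nat_lit 119) (nat_lit 5) (nat_lit 378) (nat_lit 342) (nat_lit 300)))))) (XT.nd (nat_lit 468) (nat_lit 1672) (nat_lit 0) (XT.nd (nat_lit 234) (nat_lit 760) (nat_lit 0) (XT.nd (nat_lit 78) (nat_lit 608) (nat_lit 0) (XT.lf (nat_lit 0) (nat_lit 2346785617) (nat_lit 380) (nat_lit 459033356) (nat_lit 76) (nat_lit 10525106646) (nat_lit 113) (nat_lit 5) (nat_lit 118) (nat_lit 5) (nat_lit 114) (nat_lit 5) (nat_lit 379) (nat_lit 342) (nat_lit 299)) (XT.nd (nat_lit 78) (nat_lit 380) (nat_lit 0) (XT.lf (nat_lit 0) (nat_lit 8210994784) (nat_lit 304) (nat_lit 380302990) (nat_lit 76) (nat_lit 5138762840) (nat_lit 110) (nat_lit 5) (nat_lit 114) (nat_lit 5) (nat_lit 111) (nat_lit 5) (nat_lit 380) (nat_lit 342) (nat_lit 298)) (XT.lf (nat_lit 0) (nat_lit 298884036) (nat_lit 380) (nat_lit 327083390) (nat_lit 76) (nat_lit 13520623714)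 (nat_lit 105) (nat_lit 5) (nat_lit 110) (nat_lit 5) (nat_lit 106) (nat_lit 5) (nat_lit 381) (nat_lit 342) (nat_lit 297)))) (XT.nd (nat_lit 78) (nat_lit 532) (nat_lit 0) (XT.lf (nat_lit 0) (nat_lit 6430536245) (nat_lit 304) (nat_lit 406998860) (nat_lit 76) (nat_lit 7740683457) (nat_lit 102) (nat_lit 5) (nat_lit 106) (nat_lit 5) (nat_lit 103) (nat_lit 5) (nat_lit 382) (nat_lit 342) (nat_lit 296)) (XT.nd (nat_lit 78) (nat_lit 304) (nat_lit 0) (XT.lf (nat_lit 0) (nat_lit 12954619218) (nat_lit 304) (nat_lit 522232042) (nat_lit 76) (nat_lit 1552017910) (nat_lit 99) (nat_lit 5) (nat_lit 103) (nat_lit 5) (nat_lit 100) (nat_lit 5) (nat_lit 383) (nat_lit 342) (nat_lit 295)) (XT.lf (nat_lit 0) (nat_lit 4358923537) (nat_lit 304) (nat_lit 771935067) (nat_lit 76) (nat_lit 10365767805) (nat_lit 95) (nat_lit 5) (nat_lit 99) (nat_lit 5) (nat_lit 96) (nat_lit 5) (nat_lit 384) (nat_lit 342) (nat_lit 294))))) (XT.nd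 (nat_lit 234) (nat_lit 912) (nat_lit 0) (XT.nd (nat_lit 78) (nat_lit 532) (nat_lit 0) (XT.lf (nat_lit 0) (nat_lit 11181340557) (nat_lit 304) (nat_lit 1114886126) (nat_lit 76) (nat_lit 3687629406) (nat_lit 92) (nat_lit 5) (nat_lit 96) (nat_lit 5) (nat_lit 93) (nat_lit 5) (nat_lit 385) (nat_lit 342) (nat_lit 293)) (XT.nd (nat_lit 78) (nat_lit 228) (nat_lit 0) (XT.lf (nat_lit 0) (nat_lit 1945192383) (nat_lit 304) (nat_lit 1577463908) (nat_lit 76) (nat_lit 12968316172) (nat_lit 88) (nat_lit 5) (nat_lit 92) (nat_lit 5) (nat_lit 89) (nat_lit 5) (nat_lit 386) (nat_lit 342) (nat_lit 292)) (XT.lf (nat_lit 0) (nat_lit 9071508073) (nat_lit 304) (nat_lit 2207939818) (nat_lit 76) (nat_lit 5738367288) (nat_lit 85) (nat_lit 5) (nat_lit 89) (nat_lit 5) (nat_lit 86) (nat_lit 5) (nat_lit 387) (nat_lit 342) (nat_lit 291)))) (XT.nd (nat_lit 156) (nat_lit 456) (nat_lit 0) (XT.nd (nat_lit 78) (nat_lit 304) (nat_lit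 0) (XT.lf (nat_lit 0) (nat_lit 14612946570) (nat_lit 152) (nat_lit 2064331338) (nat_lit 228) (nat_lit 890040718) (nat_lit 83) (nat_lit 5) (nat_lit 85) (nat_lit 5) (nat_lit 86) (nat_lit 5) (nat_lit 388) (nat_lit 342) (nat_lit 290)) (XT.lf (nat_lit 0) (nat_lit 6559240117) (nat_lit 304) (nat_lit 3935000711) (nat_lit 76) (nat_lit 7643165924) (nat_lit 79) (nat_lit 5) (nat_lit 83) (nat_lit 5) (nat_lit 80) (nat_lit 5) (nat_lit 389) (nat_lit 342) (nat_lit 289))) (XT.nd (nat_lit 78) (nat_lit 304) (nat_lit 0) (XT.lf (nat_lit 0) (nat_lit 13668410053) (nat_lit 152) (nat_lit 811272657) (nat_lit 228) (nat_lit 4252550276) (nat_lit 77) (nat_lit 5) (nat_lit 79) (nat_lit 5) (nat_lit 80) (nat_lit 5) (nat_lit 390) (nat_lit 342) (nat_lit 288)) (XT.lf (nat_lit 0) (nat_lit 3564913328) (nat_lit 304) (nat_lit 6455571043) (nat_lit 76) (nat_lit 9329554295) (nat_lit 73) (nat_lit 5) (nat_lit 77) (nat_lit 5) (nat_lit 74)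 (nat_lit 5) (nat_lit 391) (nat_lit 342) (nat_lit 287))))))))
noncomputable def xc53 : XT := (XT.nd (nat_lit 1872) (nat_lit 1216) (nat_lit 0) (XT.nd (nat_lit 936) (nat_lit 1368) (nat_lit 0) (XT.nd (nat_lit 468) (nat_lit 760) (nat_lit 0) (XT.nd (nat_lit 234) (nat_lit 532) (nat_lit 0) (XT.nd (nat_lit 78) (nat_lit 380) (nat_lit 0) (XT.lf (nat_lit 0) (nat_lit 11800006678) (nat_lit 228) (nat_lit 8063085672) (nat_lit 76) (nat_lit 130947857) (nat_lit 71) (nat_lit 5) (nat_lit 74) (nat_lit 5) (nat_lit 72) (nat_lit 5) (nat_lit 392) (nat_lit 342) (nat_lit 286)) (XT.nd (nat_lit 78) (nat_lit 228) (nat_lit 0) (XT.lf (nat_lit 0) (nat_lit 10703967777) (nat_lit 152) (nat_lit 9952664332) (nat_lit 228) (nat_lit 7325807) (nat_lit 69) (nat_lit 5) (nat_lit 71) (nat_lit 5) (nat_lit 72) (nat_lit 5) (nat_lit 393) (nat_lit 342) (nat_lit 285)) (XT.lf (nat_lit 0) (nat_lit 8539837785) (nat_lit 228) (nat_lit 12163485696) (nat_lit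 76) (nat_lit 658018417) (nat_lit 66) (nat_lit 5) (nat_lit 69) (nat_lit 5) (nat_lit 67) (nat_lit 5) (nat_lit 394) (nat_lit 342) (nat_lit 284)))) (XT.nd (nat_lit 78) (nat_lit 380) (nat_lit 0) (XT.lf (nat_lit 0) (nat_lit 7370440223) (nat_lit 152) (nat_lit 10360042643) (nat_lit 228) (nat_lit 4356630082) (nat_lit 64) (nat_lit 5) (nat_lit 66) (nat_lit 5) (nat_lit 67) (nat_lit 5) (nat_lit 395) (nat_lit 342) (nat_lit 283)) (XT.nd (nat_lit 78) (nat_lit 152) (nat_lit 0) (XT.lf (nat_lit 0) (nat_lit 4569196453) (nat_lit 228) (nat_lit 17604701983) (nat_lit 76) (nat_lit 670190964) (nat_lit 61) (nat_lit 5) (nat_lit 64) (nat_lit 5) (nat_lit 62) (nat_lit 5) (nat_lit 396) (nat_lit 342) (nat_lit 282)) (XT.lf (nat_lit 0) (nat_lit 2668851773) (nat_lit 152) (nat_lit 11410469674) (nat_lit 228) (nat_lit 9551463213) (nat_lit 59) (nat_lit 5) (nat_lit 61) (nat_lit 5) (nat_lit 62) (nat_lit 5) (nat_lit 397) (nat_lit 342)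 (nat_lit 281))))) (XT.nd (nat_lit 234) (nat_lit 380) (nat_lit 0) (XT.nd (nat_lit 78) (nat_lit 380) (nat_lit 0) (XT.lf (nat_lit 0) (nat_lit 24192305659) (nat_lit 228) (nat_lit 226129414) (nat_lit 76) (nat_lit 34565974) (nat_lit 59) (nat_lit 5) (nat_lit 62) (nat_lit 5) (nat_lit 60) (nat_lit 4) (nat_lit 398) (nat_lit 342) (nat_lit 280)) (XT.nd (nat_lit 78) (nat_lit 152) (nat_lit 0) (XT.lf (nat_lit 0) (nat_lit 9584372609) (nat_lit 228) (nat_lit 3639473553) (nat_lit 76) (nat_lit 12081499405) (nat_lit 56) (nat_lit 5) (nat_lit 59) (nat_lit 5) (nat_lit 57) (nat_lit 5) (nat_lit 399) (nat_lit 342) (nat_lit 279)) (XT.lf (nat_lit 0) (nat_lit 18728107149) (nat_lit 152) (nat_lit 1319704056) (nat_lit 228) (nat_lit 6148479535) (nat_lit 54) (nat_lit 5) (nat_lit 56) (nat_lit 5) (nat_lit 57) (nat_lit 5) (nat_lit 400) (nat_lit 342) (nat_lit 278)))) (XT.nd (nat_lit 78) (nat_lit 228) (nat_lit 0) (XT.lf (nat_lit 0)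 (nat_lit 4071129167) (nat_lit 152) (nat_lit 11905176496) (nat_lit 76) (nat_lit 11147018377) (nat_lit 52) (nat_lit 5) (nat_lit 54) (nat_lit 5) (nat_lit 53) (nat_lit 5) (nat_lit 401) (nat_lit 342) (nat_lit 277)) (XT.nd (nat_lit 78) (nat_lit 76) (nat_lit 0) (XT.lf (nat_lit 0) (nat_lit 11153438725) (nat_lit 152) (nat_lit 3671788110) (nat_lit 228) (nat_lit 13265141228) (nat_lit 50) (nat_lit 5) (nat_lit 52) (nat_lit 5) (nat_lit 53) (nat_lit 5) (nat_lit 402) (nat_lit 342) (nat_lit 276)) (XT.lf (nat_lit 0) (nat_lit 6460607506) (nat_lit 76) (nat_lit 19883621069) (nat_lit 152) (nat_lit 2754724870) (nat_lit 49) (nat_lit 5) (nat_lit 50) (nat_lit 5) (nat_lit 51) (nat_lit 4) (nat_lit 403) (nat_lit 342) (nat_lit 275)))))) (XT.nd (nat_lit 468) (nat_lit 684) (nat_lit 0) (XT.nd (nat_lit 234) (nat_lit 304) (nat_lit 0) (XT.nd (nat_lit 78) (nat_lit 152) (nat_lit 0) (XT.lf (nat_lit 0) (nat_lit 1045762685) (nat_lit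 152) (nat_lit 7250466402) (nat_lit 228) (nat_lit 21854057244) (nat_lit 46) (nat_lit 5) (nat_lit 48) (nat_lit 5) (nat_lit 49) (nat_lit 5) (nat_lit 404) (nat_lit 342) (nat_lit 274)) (XT.nd (nat_lit 78) (nat_lit 152) (nat_lit 0) (XT.lf (nat_lit 0) (nat_lit 20090930391) (nat_lit 228) (nat_lit 5031982329) (nat_lit 76) (nat_lit 6123014281) (nat_lit 46) (nat_lit 5) (nat_lit 49) (nat_lit 5) (nat_lit 47) (nat_lit 4) (nat_lit 405) (nat_lit 342) (nat_lit 273)) (XT.lf (nat_lit 0) (nat_lit 306514594) (nat_lit 152) (nat_lit 11901713250) (nat_lit 76) (nat_lit 20181232071) (nat_lit 44) (nat_lit 5) (nat_lit 46) (nat_lit 5) (nat_lit 45) (nat_lit 5) (nat_lit 406) (nat_lit 342) (nat_lit 272)))) (XT.nd (nat_lit 78) (nat_lit 152) (nat_lit 0) (XT.lf (nat_lit 0) (nat_lit 12271419795) (nat_lit 228) (nat_lit 19718941443) (nat_lit 76) (nat_lit 1591668227) (nat_lit 42) (nat_lit 5) (nat_lit 45) (nat_lit 5) (nat_lit 43) (nat_lit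 4) (nat_lit 407) (nat_lit 342) (nat_lit 271)) (XT.nd (nat_lit 78) (nat_lit 76) (nat_lit 0) (XT.lf (nat_lit 0) (nat_lit 6254688283) (nat_lit 76) (nat_lit 18845451428) (nat_lit 152) (nat_lit 9726124492) (nat_lit 41) (nat_lit 5) (nat_lit 42) (nat_lit 5) (nat_lit 43) (nat_lit 4) (nat_lit 408) (nat_lit 342) (nat_lit 270)) (XT.lf (nat_lit 0) (nat_lit 2554365475) (nat_lit 152) (nat_lit 2288811879) (nat_lit 76) (nat_lit 31283903486) (nat_lit 40) (nat_lit 5) (nat_lit 42) (nat_lit 5) (nat_lit 41) (nat_lit 5) (nat_lit 409) (nat_lit 342) (nat_lit 269))))) (XT.nd (nat_lit 234) (nat_lit 228) (nat_lit 0) (XT.nd (nat_lit 78) (nat_lit 304) (nat_lit 0) (XT.lf (nat_lit 0) (nat_lit 15555193225) (nat_lit 228) (nat_lit 11943622035) (nat_lit 76) (nat_lit 9982013506) (nat_lit 38) (nat_lit 5) (nat_lit 41) (nat_lit 5) (nat_lit 39) (nat_lit 4) (nat_lit 410) (nat_lit 342) (nat_lit 268)) (XT.nd (nat_lit 78) (nat_lit 228)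 (nat_lit 0) (XT.lf (nat_lit 0) (nat_lit 16094796156) (nat_lit 76) (nat_lit 13300796866) (nat_lit 152) (nat_lit 9500988328) (nat_lit 37) (nat_lit 5) (nat_lit 38) (nat_lit 5) (nat_lit 39) (nat_lit 4) (nat_lit 411) (nat_lit 342) (nat_lit 267)) (XT.lf (nat_lit 0) (nat_lit 3631978399) (nat_lit 228) (nat_lit 34989325143) (nat_lit 76) (nat_lit 1756110869) (nat_lit 34) (nat_lit 5) (nat_lit 37) (nat_lit 5) (nat_lit 35) (nat_lit 4) (nat_lit 412) (nat_lit 342) (nat_lit 266)))) (XT.nd (nat_lit 78) (nat_lit 228) (nat_lit 0) (XT.lf (nat_lit 0) (nat_lit 17561945949) (nat_lit 228) (nat_lit 6762208403) (nat_lit 76) (nat_lit 17595210074) (nat_lit 34) (nat_lit 5) (nat_lit 37) (nat_lit 5) (nat_lit 35) (nat_lit 4) (nat_lit 413) (nat_lit 342) (nat_lit 265)) (XT.nd (nat_lit 78) (nat_lit 152) (nat_lit 0) (XT.lf (nat_lit 0) (nat_lit 23265067765) (nat_lit 76) (nat_lit 9112434067) (nat_lit 152) (nat_lit 11155240080) (nat_lit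 33) (nat_lit 5) (nat_lit 34) (nat_lit 5) (nat_lit 35) (nat_lit 4) (nat_lit 414) (nat_lit 342) (nat_lit 264)) (XT.lf (nat_lit 0) (nat_lit 2852526281) (nat_lit 152) (nat_lit 35478559143) (nat_lit 76) (nat_lit 6888975561) (nat_lit 31) (nat_lit 5) (nat_lit 33) (nat_lit 5) (nat_lit 32) (nat_lit 4) (nat_lit 415) (nat_lit 342) (nat_lit 263))))))) (XT.nd (nat_lit 936) (nat_lit 456) (nat_lit 0) (XT.nd (nat_lit 468) (nat_lit 380) (nat_lit 0) (XT.nd (nat_lit 234) (nat_lit 228) (nat_lit 0) (XT.nd (nat_lit 78) (nat_lit 152) (nat_lit 0) (XT.lf (nat_lit 0) (nat_lit 17601682154) (nat_lit 152) (nat_lit 5580308240) (nat_lit 76) (nat_lit 23798293269) (nat_lit 31) (nat_lit 5) (nat_lit 33) (nat_lit 5) (nat_lit 32) (nat_lit 4) (nat_lit 416) (nat_lit 342) (nat_lit 262)) (XT.nd (nat_lit 78) (nat_lit 76) (nat_lit 0) (XT.lf (nat_lit 0) (nat_lit 26265523019) (nat_lit 76) (nat_lit 7043716415) (nat_lit 152) (nat_lit 15512651970)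 (nat_lit 30) (nat_lit 5) (nat_lit 31) (nat_lit 5) (nat_lit 32) (nat_lit 4) (nat_lit 417) (nat_lit 342) (nat_lit 261)) (XT.lf (nat_lit 0) (nat_lit 9089211040) (nat_lit 76) (nat_lit 40922667904) (nat_lit 76) (nat_lit 737411589) (nat_lit 29) (nat_lit 4) (nat_lit 30) (nat_lit 5) (nat_lit 30) (nat_lit 4) (nat_lit 418) (nat_lit 342) (nat_lit 260)))) (XT.nd (nat_lit 78) (nat_lit 152) (nat_lit 0) (XT.lf (nat_lit 0) (nat_lit 14763600320) (nat_lit 152) (nat_lit 10250821238) (nat_lit 76) (nat_lit 27746118160) (nat_lit 28) (nat_lit 5) (nat_lit 30) (nat_lit 5) (nat_lit 29) (nat_lit 4) (nat_lit 419) (nat_lit 342) (nat_lit 259)) (XT.nd (nat_lit 78) (nat_lit 76) (nat_lit 0) (XT.lf (nat_lit 0) (nat_lit 23117589061) (nat_lit 76) (nat_lit 8100388171) (nat_lit 152) (nat_lit 23648350017) (nat_lit 27) (nat_lit 5) (nat_lit 28) (nat_lit 5) (nat_lit 29) (nat_lit 4) (nat_lit 420) (nat_lit 342) (nat_lit 258)) (XT.lf (nat_lit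 0) (nat_lit 1169319955) (nat_lit 76) (nat_lit 47508229013) (nat_lit 76) (nat_lit 8394382697) (nat_lit 26) (nat_lit 4) (nat_lit 27) (nat_lit 5) (nat_lit 27) (nat_lit 4) (nat_lit 421) (nat_lit 342) (nat_lit 257))))) (XT.nd (nat_lit 234) (nat_lit 228) (nat_lit 0) (XT.nd (nat_lit 78) (nat_lit 76) (nat_lit 0) (XT.lf (nat_lit 0) (nat_lit 7857746888) (nat_lit 152) (nat_lit 23192538747) (nat_lit 76) (nat_lit 28323808154) (nat_lit 25) (nat_lit 5) (nat_lit 27) (nat_lit 5) (nat_lit 26) (nat_lit 4) (nat_lit 422) (nat_lit 342) (nat_lit 256)) (XT.nd (nat_lit 78) (nat_lit 0) (nat_lit 0) (XT.lf (nat_lit 0) (nat_lit 11237113270) (nat_lit 76) (nat_lit 13595089745) (nat_lit 152) (nat_lit 36954169335) (nat_lit 24) (nat_lit 5) (nat_lit 25) (nat_lit 5) (nat_lit 26) (nat_lit 4) (nat_lit 423) (nat_lit 342) (nat_lit 255)) (XT.lf (nat_lit 0) (nat_lit 42916239921) (nat_lit 152) (nat_lit 16536626697) (nat_lit 0) (nat_lit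 4858573980) (nat_lit 24) (nat_lit 5) (nat_lit 26) (nat_lit 4) (nat_lit 24) (nat_lit 4) (nat_lit 424) (nat_lit 342) (nat_lit 254)))) (XT.nd (nat_lit 78) (nat_lit 152) (nat_lit 0) (XT.lf (nat_lit 0) (nat_lit 19370192456) (nat_lit 76) (nat_lit 42833181193) (nat_lit 76) (nat_lit 4750423188) (nat_lit 23) (nat_lit 4) (nat_lit 24) (nat_lit 5) (nat_lit 24) (nat_lit 4) (nat_lit 425) (nat_lit 342) (nat_lit 253)) (XT.nd (nat_lit 78) (nat_lit 76) (nat_lit 0) (XT.lf (nat_lit 0) (nat_lit 12626135217) (nat_lit 152) (nat_lit 12475600716) (nat_lit 76) (nat_lit 44618429688) (nat_lit 22) (nat_lit 5) (nat_lit 24) (nat_lit 5) (nat_lit 23) (nat_lit 4) (nat_lit 426) (nat_lit 342) (nat_lit 252)) (XT.lf (nat_lit 0) (nat_lit 24779260087) (nat_lit 76) (nat_lit 6210234758) (nat_lit 152) (nat_lit 41627461661) (nat_lit 21) (nat_lit 5) (nat_lit 22) (nat_lit 5) (nat_lit 23) (nat_lit 4) (nat_lit 427) (nat_lit 342) (nat_lit 251))))))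 (XT.nd (nat_lit 468) (nat_lit 152) (nat_lit 0) (XT.nd (nat_lit 234) (nat_lit 152) (nat_lit 0) (XT.nd (nat_lit 78) (nat_lit 152) (nat_lit 0) (XT.lf (nat_lit 0) (nat_lit 50509291177) (nat_lit 152) (nat_lit 11672750840) (nat_lit 0) (nat_lit 13469398053) (nat_lit 21) (nat_lit 5) (nat_lit 23) (nat_lit 4) (nat_lit 21) (nat_lit 4) (nat_lit 428) (nat_lit 342) (nat_lit 250)) (XT.nd (nat_lit 78) (nat_lit 76) (nat_lit 0) (XT.lf (nat_lit 0) (nat_lit 26717853117) (nat_lit 76) (nat_lit 44585392968) (nat_lit 76) (nat_lit 7525457803) (nat_lit 20) (nat_lit 4) (nat_lit 21) (nat_lit 5) (nat_lit 21) (nat_lit 4) (nat_lit 429) (nat_lit 342) (nat_lit 249)) (XT.lf (nat_lit 0) (nat_lit 10858397457) (nat_lit 152) (nat_lit 15036475985) (nat_lit 76) (nat_lit 56263781379) (nat_lit 19) (nat_lit 5) (nat_lit 21) (nat_lit 5) (nat_lit 20) (nat_lit 4) (nat_lit 430) (nat_lit 342) (nat_lit 248)))) (XT.nd (nat_lit 78) (nat_lit 76)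 (nat_lit 0) (XT.lf (nat_lit 0) (nat_lit 24250297248) (nat_lit 76) (nat_lit 5970145508) (nat_lit 152) (nat_lit 55425987205) (nat_lit 18) (nat_lit 5) (nat_lit 19) (nat_lit 5) (nat_lit 20) (nat_lit 4) (nat_lit 431) (nat_lit 342) (nat_lit 247)) (XT.nd (nat_lit 78) (nat_lit 76) (nat_lit 0) (XT.lf (nat_lit 0) (nat_lit 50831120405) (nat_lit 152) (nat_lit 23671447436) (nat_lit 0) (nat_lit 14797611069) (nat_lit 18) (nat_lit 5) (nat_lit 20) (nat_lit 4) (nat_lit 18) (nat_lit 4) (nat_lit 432) (nat_lit 342) (nat_lit 246)) (XT.lf (nat_lit 0) (nat_lit 16158451668) (nat_lit 76) (nat_lit 56510886050) (nat_lit 76) (nat_lit 20461368328) (nat_lit 17) (nat_lit 4) (nat_lit 18) (nat_lit 5) (nat_lit 18) (nat_lit 4) (nat_lit 433) (nat_lit 342) (nat_lit 245))))) (XT.nd (nat_lit 46098) (nat_lit 0) (nat_lit 26220) (XT.nd (nat_lit 156) (nat_lit 152) (nat_lit 0) (XT.lf (nat_lit 0) (nat_lit 58439471448) (nat_lit 76) (nat_lit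 37385641671) (nat_lit 76) (nat_lit 1320877868) (nat_lit 17) (nat_lit 4) (nat_lit 18) (nat_lit 5) (nat_lit 18) (nat_lit 4) (nat_lit 434) (nat_lit 342) (nat_lit 244)) (XT.nd (nat_lit 45864) (nat_lit 0) (nat_lit 27208) (XT.lf (nat_lit 0) (nat_lit 39515934651) (nat_lit 152) (nat_lit 61774928797) (nat_lit 0) (nat_lit 4474077829) (nat_lit 15) (nat_lit 5) (nat_lit 17) (nat_lit 4) (nat_lit 15) (nat_lit 4) (nat_lit 436) (nat_lit 342) (nat_lit 242)) (XT.lf (nat_lit 0) (nat_lit 483901948) (nat_lit 0) (nat_lit 483901948) (nat_lit 380) (nat_lit 2305707391) (nat_lit 373) (nat_lit 5) (nat_lit 373) (nat_lit 3) (nat_lit 378) (nat_lit 3) (nat_lit 343) (nat_lit 343) (nat_lit 334)))) (XT.nd (nat_lit 156) (nat_lit 532) (nat_lit 0) (XT.nd (nat_lit 78) (nat_lit 456) (nat_lit 0) (XT.lf (nat_lit 0) (nat_lit 6042295162) (nat_lit 380) (nat_lit 265248166) (nat_lit 456) (nat_lit 278614257) (nat_lit 373) (nat_lit 5) (nat_lit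 378) (nat_lit 3) (nat_lit 379) (nat_lit 5) (nat_lit 344) (nat_lit 343) (nat_lit 333)) (XT.lf (nat_lit 0) (nat_lit 3454256601) (nat_lit 456) (nat_lit 1398790960) (nat_lit 532) (nat_lit 1779302944) (nat_lit 367) (nat_lit 5) (nat_lit 373) (nat_lit 5) (nat_lit 374) (nat_lit 5) (nat_lit 345) (nat_lit 343) (nat_lit 332))) (XT.nd (nat_lit 78) (nat_lit 0) (nat_lit 0) (XT.lf (nat_lit 0) (nat_lit 733335035) (nat_lit 532) (nat_lit 2424521182) (nat_lit 608) (nat_lit 3528966814) (nat_lit 360) (nat_lit 5) (nat_lit 367) (nat_lit 5) (nat_lit 368) (nat_lit 5) (nat_lit 346) (nat_lit 343) (nat_lit 331)) (XT.lf (nat_lit 76) (nat_lit 3384800201) (nat_lit 0) (nat_lit 1195596966) (nat_lit 608) (nat_lit 2168657120) (nat_lit 361) (nat_lit 5) (nat_lit 360) (nat_lit 5) (nat_lit 368) (nat_lit 5) (nat_lit 347) (nat_lit 343) (nat_lit 330))))))))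
noncomputable def xc54 : XT := (XT.nd (nat_lit 1872) (nat_lit 6688) (nat_lit 0) (XT.nd (nat_lit 936) (nat_lit 6764) (nat_lit 0) (XT.nd (nat_lit 468) (nat_lit 6384) (nat_lit 0) (XT.nd (nat_lit 234) (nat_lit 1444) (nat_lit 0) (XT.nd (nat_lit 78) (nat_lit 684) (nat_lit 0) (XT.lf (nat_lit 0) (nat_lit 1596243722) (nat_lit 608) (nat_lit 4216285737) (nat_lit 684) (nat_lit 1006706514) (nat_lit 353) (nat_lit 5) (nat_lit 361) (nat_lit 5) (nat_lit 362) (nat_lit 5) (nat_lit 348) (nat_lit 343) (nat_lit 329)) (XT.nd (nat_lit 78) (nat_lit 684) (nat_lit 0) (XT.lf (nat_lit 76) (nat_lit 1904283777) (nat_lit 0) (nat_lit 3442539795) (nat_lit 684) (nat_lit 1550325004) (nat_lit 354) (nat_lit 5) (nat_lit 353) (nat_lit 5) (nat_lit 362) (nat_lit 5) (nat_lit 349) (nat_lit 343) (nat_lit 328)) (XT.lf (nat_lit 76) (nat_lit 1298305801) (nat_lit 0) (nat_lit 802542261) (nat_lit 760) (nat_lit 4882372047) (nat_lit 345) (nat_lit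 5) (nat_lit 344) (nat_lit 5) (nat_lit 354) (nat_lit 5) (nat_lit 350) (nat_lit 343) (nat_lit 327)))) (XT.nd (nat_lit 78) (nat_lit 836) (nat_lit 0) (XT.lf (nat_lit 0) (nat_lit 767642820) (nat_lit 684) (nat_lit 5006525445) (nat_lit 760) (nat_lit 1302935391) (nat_lit 336) (nat_lit 5) (nat_lit 345) (nat_lit 5) (nat_lit 346) (nat_lit 5) (nat_lit 351) (nat_lit 343) (nat_lit 326)) (XT.nd (nat_lit 78) (nat_lit 0) (nat_lit 0) (XT.lf (nat_lit 0) (nat_lit 313120019) (nat_lit 760) (nat_lit 1964174015) (nat_lit 836) (nat_lit 4901696709) (nat_lit 325) (nat_lit 5) (nat_lit 335) (nat_lit 5) (nat_lit 336) (nat_lit 5) (nat_lit 352) (nat_lit 343) (nat_lit 325)) (XT.lf (nat_lit 0) (nat_lit 5895407468) (nat_lit 836) (nat_lit 61454446) (nat_lit 76) (nat_lit 1332253016) (nat_lit 325) (nat_lit 5) (nat_lit 336) (nat_lit 5) (nat_lit 326) (nat_lit 5) (nat_lit 353) (nat_lit 343) (nat_lit 324))))) (XT.nd (nat_lit 234) (nat_lit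 3496) (nat_lit 0) (XT.nd (nat_lit 78) (nat_lit 1976) (nat_lit 0) (XT.lf (nat_lit 0) (nat_lit 2148915947) (nat_lit 912) (nat_lit 371007318) (nat_lit 76) (nat_lit 4887140801) (nat_lit 313) (nat_lit 5) (nat_lit 325) (nat_lit 5) (nat_lit 314) (nat_lit 5) (nat_lit 354) (nat_lit 343) (nat_lit 323)) (XT.nd (nat_lit 78) (nat_lit 1064) (nat_lit 0) (XT.lf (nat_lit 0) (nat_lit 5741860084) (nat_lit 988) (nat_lit 608177832) (nat_lit 76) (nat_lit 1183490239) (nat_lit 301) (nat_lit 5) (nat_lit 314) (nat_lit 5) (nat_lit 302) (nat_lit 5) (nat_lit 355) (nat_lit 343) (nat_lit 322)) (XT.lf (nat_lit 0) (nat_lit 1737024402) (nat_lit 1064) (nat_lit 792778598) (nat_lit 76) (nat_lit 5138315873) (nat_lit 287) (nat_lit 5) (nat_lit 301) (nat_lit 5) (nat_lit 288) (nat_lit 5) (nat_lit 356) (nat_lit 343) (nat_lit 321)))) (XT.nd (nat_lit 78) (nat_lit 2432) (nat_lit 0) (XT.lf (nat_lit 0) (nat_lit 5328794135) (nat_lit 1140) (nat_lit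 917356819) (nat_lit 76) (nat_lit 1565125990) (nat_lit 273) (nat_lit 5) (nat_lit 288) (nat_lit 5) (nat_lit 274) (nat_lit 5) (nat_lit 357) (nat_lit 343) (nat_lit 320)) (XT.nd (nat_lit 78) (nat_lit 1216) (nat_lit 0) (XT.lf (nat_lit 0) (nat_lit 1058587319) (nat_lit 1216) (nat_lit 987219939) (nat_lit 76) (nat_lit 5917264778) (nat_lit 257) (nat_lit 5) (nat_lit 273) (nat_lit 5) (nat_lit 258) (nat_lit 5) (nat_lit 358) (nat_lit 343) (nat_lit 319)) (XT.lf (nat_lit 0) (nat_lit 4674337217) (nat_lit 1292) (nat_lit 1016493795) (nat_lit 76) (nat_lit 2432490714) (nat_lit 241) (nat_lit 5) (nat_lit 258) (nat_lit 5) (nat_lit 242) (nat_lit 5) (nat_lit 359) (nat_lit 343) (nat_lit 318)))))) (XT.nd (nat_lit 468) (nat_lit 3192) (nat_lit 0) (XT.nd (nat_lit 234) (nat_lit 1672) (nat_lit 0) (XT.nd (nat_lit 78) (nat_lit 1216) (nat_lit 0) (XT.lf (nat_lit 0) (nat_lit 129080448) (nat_lit 684) (nat_lit 981217249) (nat_lit 76)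 (nat_lit 7182701728) (nat_lit 232) (nat_lit 5) (nat_lit 241) (nat_lit 5) (nat_lit 233) (nat_lit 5) (nat_lit 360) (nat_lit 343) (nat_lit 317)) (XT.nd (nat_lit 78) (nat_lit 608) (nat_lit 0) (XT.lf (nat_lit 0) (nat_lit 3792333671) (nat_lit 684) (nat_lit 931487498) (nat_lit 76) (nat_lit 3747049673) (nat_lit 224) (nat_lit 5) (nat_lit 233) (nat_lit 5) (nat_lit 225) (nat_lit 5) (nat_lit 361) (nat_lit 343) (nat_lit 316)) (XT.lf (nat_lit 0) (nat_lit 7600298877) (nat_lit 684) (nat_lit 812985184) (nat_lit 76) (nat_lit 245565042) (nat_lit 216) (nat_lit 5) (nat_lit 225) (nat_lit 5) (nat_lit 217) (nat_lit 5) (nat_lit 362) (nat_lit 343) (nat_lit 315)))) (XT.nd (nat_lit 78) (nat_lit 1064) (nat_lit 0) (XT.lf (nat_lit 0) (nat_lit 2692498679) (nat_lit 608) (nat_lit 687386308) (nat_lit 76) (nat_lit 5475498360) (nat_lit 208) (nat_lit 5) (nat_lit 216) (nat_lit 5) (nat_lit 209) (nat_lit 5) (nat_lit 363) (nat_lit 343)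 (nat_lit 314)) (XT.nd (nat_lit 78) (nat_lit 532) (nat_lit 0) (XT.lf (nat_lit 0) (nat_lit 6590555684) (nat_lit 608) (nat_lit 512951373) (nat_lit 76) (nat_lit 1958535005) (nat_lit 201) (nat_lit 5) (nat_lit 209) (nat_lit 5) (nat_lit 202) (nat_lit 5) (nat_lit 364) (nat_lit 343) (nat_lit 313)) (XT.lf (nat_lit 0) (nat_lit 1380490579) (nat_lit 532) (nat_lit 309168155) (nat_lit 76) (nat_lit 7588916153) (nat_lit 194) (nat_lit 5) (nat_lit 201) (nat_lit 5) (nat_lit 195) (nat_lit 5) (nat_lit 365) (nat_lit 343) (nat_lit 312))))) (XT.nd (nat_lit 234) (nat_lit 1292) (nat_lit 0) (XT.nd (nat_lit 78) (nat_lit 1368) (nat_lit 0) (XT.lf (nat_lit 0) (nat_lit 5389220608) (nat_lit 608) (nat_lit 94260268) (nat_lit 76) (nat_lit 4021307659) (nat_lit 187) (nat_lit 5) (nat_lit 195) (nat_lit 5) (nat_lit 188) (nat_lit 5) (nat_lit 366) (nat_lit 343) (nat_lit 311)) (XT.nd (nat_lit 78) (nat_lit 456) (nat_lit 0) (XT.lf (nat_lit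 0) (nat_lit 176398118) (nat_lit 456) (nat_lit 9425839781) (nat_lit 532) (nat_lit 140003577) (nat_lit 175) (nat_lit 5) (nat_lit 181) (nat_lit 5) (nat_lit 182) (nat_lit 5) (nat_lit 367) (nat_lit 343) (nat_lit 310)) (XT.lf (nat_lit 0) (nat_lit 425062088) (nat_lit 380) (nat_lit 3575769679) (nat_lit 456) (nat_lit 5988256169) (nat_lit 169) (nat_lit 5) (nat_lit 174) (nat_lit 5) (nat_lit 175) (nat_lit 5) (nat_lit 368) (nat_lit 343) (nat_lit 309)))) (XT.nd (nat_lit 78) (nat_lit 836) (nat_lit 0) (XT.lf (nat_lit 0) (nat_lit 715194742) (nat_lit 456) (nat_lit 7650501198) (nat_lit 532) (nat_lit 1881981579) (nat_lit 163) (nat_lit 5) (nat_lit 169) (nat_lit 5) (nat_lit 170) (nat_lit 5) (nat_lit 369) (nat_lit 343) (nat_lit 308)) (XT.nd (nat_lit 78) (nat_lit 380) (nat_lit 0) (XT.lf (nat_lit 0) (nat_lit 1011394427) (nat_lit 380) (nat_lit 1407774443) (nat_lit 456) (nat_lit 8098253824) (nat_lit 157) (nat_lit 5) (nat_lit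 162) (nat_lit 5) (nat_lit 163) (nat_lit 5) (nat_lit 370) (nat_lit 343) (nat_lit 307)) (XT.lf (nat_lit 0) (nat_lit 1301133339) (nat_lit 380) (nat_lit 5652045266) (nat_lit 456) (nat_lit 3845250022) (nat_lit 152) (nat_lit 5) (nat_lit 157) (nat_lit 5) (nat_lit 158) (nat_lit 5) (nat_lit 371) (nat_lit 343) (nat_lit 306))))))) (XT.nd (nat_lit 936) (nat_lit 2660) (nat_lit 0) (XT.nd (nat_lit 468) (nat_lit 1748) (nat_lit 0) (XT.nd (nat_lit 234) (nat_lit 1140) (nat_lit 0) (XT.nd (nat_lit 78) (nat_lit 684) (nat_lit 0) (XT.lf (nat_lit 0) (nat_lit 644513146) (nat_lit 456) (nat_lit 9471533024) (nat_lit 76) (nat_lit 976204955) (nat_lit 146) (nat_lit 5) (nat_lit 152) (nat_lit 5) (nat_lit 147) (nat_lit 5) (nat_lit 372) (nat_lit 343) (nat_lit 305)) (XT.nd (nat_lit 78) (nat_lit 304) (nat_lit 0) (XT.lf (nat_lit 0) (nat_lit 1899930526) (nat_lit 380) (nat_lit 3455280464) (nat_lit 456) (nat_lit 6042162574) (nat_lit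 141) (nat_lit 5) (nat_lit 146) (nat_lit 5) (nat_lit 147) (nat_lit 5) (nat_lit 373) (nat_lit 343) (nat_lit 304)) (XT.lf (nat_lit 0) (nat_lit 2196715712) (nat_lit 304) (nat_lit 8162603205) (nat_lit 380) (nat_lit 1356725655) (nat_lit 137) (nat_lit 5) (nat_lit 141) (nat_lit 5) (nat_lit 142) (nat_lit 5) (nat_lit 374) (nat_lit 343) (nat_lit 303)))) (XT.nd (nat_lit 78) (nat_lit 684) (nat_lit 0) (XT.lf (nat_lit 0) (nat_lit 2472209767) (nat_lit 380) (nat_lit 1085262984) (nat_lit 456) (nat_lit 8490254944) (nat_lit 131) (nat_lit 5) (nat_lit 136) (nat_lit 5) (nat_lit 137) (nat_lit 5) (nat_lit 375) (nat_lit 343) (nat_lit 302)) (XT.nd (nat_lit 78) (nat_lit 380) (nat_lit 0) (XT.lf (nat_lit 0) (nat_lit 2715679788) (nat_lit 304) (nat_lit 6069455367) (nat_lit 380) (nat_lit 3607607708) (nat_lit 127) (nat_lit 5) (nat_lit 131) (nat_lit 5) (nat_lit 132) (nat_lit 5) (nat_lit 376) (nat_lit 343) (nat_lit 301)) (XT.lf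 (nat_lit 0) (nat_lit 1554043950) (nat_lit 380) (nat_lit 9794760331) (nat_lit 76) (nat_lit 1403854287) (nat_lit 122) (nat_lit 5) (nat_lit 127) (nat_lit 5) (nat_lit 123) (nat_lit 5) (nat_lit 377) (nat_lit 343) (nat_lit 300))))) (XT.nd (nat_lit 234) (nat_lit 836) (nat_lit 0) (XT.nd (nat_lit 78) (nat_lit 608) (nat_lit 0) (XT.lf (nat_lit 0) (nat_lit 3134373155) (nat_lit 304) (nat_lit 3871782561) (nat_lit 380) (nat_lit 6120155381) (nat_lit 118) (nat_lit 5) (nat_lit 122) (nat_lit 5) (nat_lit 123) (nat_lit 5) (nat_lit 378) (nat_lit 343) (nat_lit 299)) (XT.nd (nat_lit 78) (nat_lit 304) (nat_lit 0) (XT.lf (nat_lit 0) (nat_lit 3298298032) (nat_lit 304) (nat_lit 9521156324) (nat_lit 380) (nat_lit 696555655) (nat_lit 114) (nat_lit 5) (nat_lit 118) (nat_lit 5) (nat_lit 119) (nat_lit 5) (nat_lit 379) (nat_lit 343) (nat_lit 298)) (XT.lf (nat_lit 0) (nat_lit 3393956337) (nat_lit 228) (nat_lit 1601085408) (nat_lit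 304) (nat_lit 8925899816) (nat_lit 110) (nat_lit 5) (nat_lit 113) (nat_lit 5) (nat_lit 114) (nat_lit 5) (nat_lit 380) (nat_lit 343) (nat_lit 297)))) (XT.nd (nat_lit 78) (nat_lit 532) (nat_lit 0) (XT.lf (nat_lit 0) (nat_lit 3428760687) (nat_lit 304) (nat_lit 7652998587) (nat_lit 380) (nat_lit 3260423802) (nat_lit 106) (nat_lit 5) (nat_lit 110) (nat_lit 5) (nat_lit 111) (nat_lit 5) (nat_lit 381) (nat_lit 343) (nat_lit 296)) (XT.nd (nat_lit 78) (nat_lit 228) (nat_lit 0) (XT.lf (nat_lit 0) (nat_lit 2724105490) (nat_lit 304) (nat_lit 11363629273) (nat_lit 76) (nat_lit 693346755) (nat_lit 102) (nat_lit 5) (nat_lit 106) (nat_lit 5) (nat_lit 103) (nat_lit 5) (nat_lit 382) (nat_lit 343) (nat_lit 295)) (XT.lf (nat_lit 0) (nat_lit 3288549985) (nat_lit 228) (nat_lit 5799882403) (nat_lit 304) (nat_lit 6148100440) (nat_lit 99) (nat_lit 5) (nat_lit 102) (nat_lit 5) (nat_lit 103) (nat_lit 5) (nat_lit 383) (nat_lit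 343) (nat_lit 294)))))) (XT.nd (nat_lit 468) (nat_lit 1140) (nat_lit 0) (XT.nd (nat_lit 234) (nat_lit 760) (nat_lit 0) (XT.nd (nat_lit 78) (nat_lit 456) (nat_lit 0) (XT.lf (nat_lit 0) (nat_lit 159209690) (nat_lit 304) (nat_lit 12599078886) (nat_lit 76) (nat_lit 2953344481) (nat_lit 95) (nat_lit 5) (nat_lit 99) (nat_lit 5) (nat_lit 96) (nat_lit 5) (nat_lit 384) (nat_lit 343) (nat_lit 293)) (XT.nd (nat_lit 78) (nat_lit 228) (nat_lit 0) (XT.lf (nat_lit 0) (nat_lit 2786376269) (nat_lit 228) (nat_lit 4007850554) (nat_lit 304) (nat_lit 9410264972) (nat_lit 92) (nat_lit 5) (nat_lit 95) (nat_lit 5) (nat_lit 96) (nat_lit 5) (nat_lit 385) (nat_lit 343) (nat_lit 292)) (XT.lf (nat_lit 0) (nat_lit 2367864489) (nat_lit 228) (nat_lit 11527345662) (nat_lit 304) (nat_lit 2822770645) (nat_lit 89) (nat_lit 5) (nat_lit 92) (nat_lit 5) (nat_lit 93) (nat_lit 5) (nat_lit 386) (nat_lit 343) (nat_lit 291)))) (XT.nd (nat_lit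 78) (nat_lit 456) (nat_lit 0) (XT.lf (nat_lit 0) (nat_lit 1813093137) (nat_lit 228) (nat_lit 2330733513) (nat_lit 304) (nat_lit 13108261130) (nat_lit 85) (nat_lit 5) (nat_lit 88) (nat_lit 5) (nat_lit 89) (nat_lit 5) (nat_lit 387) (nat_lit 343) (nat_lit 290)) (XT.nd (nat_lit 78) (nat_lit 304) (nat_lit 0) (XT.lf (nat_lit 0) (nat_lit 1086681301) (nat_lit 152) (nat_lit 10478300033) (nat_lit 228) (nat_lit 6242154270) (nat_lit 83) (nat_lit 5) (nat_lit 85) (nat_lit 5) (nat_lit 86) (nat_lit 5) (nat_lit 388) (nat_lit 343) (nat_lit 289)) (XT.lf (nat_lit 0) (nat_lit 238192268) (nat_lit 228) (nat_lit 831995499) (nat_lit 304) (nat_lit 17315826207) (nat_lit 79) (nat_lit 5) (nat_lit 82) (nat_lit 5) (nat_lit 83) (nat_lit 5) (nat_lit 389) (nat_lit 343) (nat_lit 288))))) (XT.nd (nat_lit 234) (nat_lit 684) (nat_lit 0) (XT.nd (nat_lit 78) (nat_lit 456) (nat_lit 0) (XT.lf (nat_lit 0) (nat_lit 8820579402) (nat_lit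 304) (nat_lit 855102251) (nat_lit 76) (nat_lit 9310265300) (nat_lit 79) (nat_lit 5) (nat_lit 83) (nat_lit 5) (nat_lit 80) (nat_lit 5) (nat_lit 390) (nat_lit 343) (nat_lit 287)) (XT.nd (nat_lit 78) (nat_lit 304) (nat_lit 0) (XT.lf (nat_lit 0) (nat_lit 17079984845) (nat_lit 228) (nat_lit 2082231731) (nat_lit 76) (nat_lit 450025360) (nat_lit 77) (nat_lit 5) (nat_lit 80) (nat_lit 5) (nat_lit 78) (nat_lit 5) (nat_lit 391) (nat_lit 343) (nat_lit 286)) (XT.lf (nat_lit 0) (nat_lit 5586414588) (nat_lit 304) (nat_lit 3607271324) (nat_lit 76) (nat_lit 11068267459) (nat_lit 73) (nat_lit 5) (nat_lit 77) (nat_lit 5) (nat_lit 74) (nat_lit 5) (nat_lit 392) (nat_lit 343) (nat_lit 285)))) (XT.nd (nat_lit 156) (nat_lit 304) (nat_lit 0) (XT.nd (nat_lit 78) (nat_lit 228) (nat_lit 0) (XT.lf (nat_lit 0) (nat_lit 14187546299) (nat_lit 228) (nat_lit 5344680728) (nat_lit 76) (nat_lit 1407313239) (nat_lit 71) (nat_lit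 5) (nat_lit 74) (nat_lit 5) (nat_lit 72) (nat_lit 5) (nat_lit 393) (nat_lit 343) (nat_lit 284)) (XT.lf (nat_lit 0) (nat_lit 1751042406) (nat_lit 228) (nat_lit 7390581079) (nat_lit 76) (nat_lit 12502522023) (nat_lit 68) (nat_lit 5) (nat_lit 71) (nat_lit 5) (nat_lit 69) (nat_lit 5) (nat_lit 394) (nat_lit 343) (nat_lit 283))) (XT.nd (nat_lit 78) (nat_lit 152) (nat_lit 0) (XT.lf (nat_lit 0) (nat_lit 10682576875) (nat_lit 228) (nat_lit 9753167571) (nat_lit 76) (nat_lit 1941949283) (nat_lit 66) (nat_lit 5) (nat_lit 69) (nat_lit 5) (nat_lit 67) (nat_lit 5) (nat_lit 395) (nat_lit 343) (nat_lit 282)) (XT.lf (nat_lit 0) (nat_lit 10670930165) (nat_lit 152) (nat_lit 9608305667) (nat_lit 228) (nat_lit 2862134615) (nat_lit 64) (nat_lit 5) (nat_lit 66) (nat_lit 5) (nat_lit 67) (nat_lit 5) (nat_lit 396) (nat_lit 343) (nat_lit 281))))))))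
noncomputable def xc55 : XT := (XT.nd (nat_lit 1950) (nat_lit 912) (nat_lit 0) (XT.nd (nat_lit 936) (nat_lit 1140) (nat_lit 0) (XT.nd (nat_lit 468) (nat_lit 760) (nat_lit 0) (XT.nd (nat_lit 234) (nat_lit 304) (nat_lit 0) (XT.nd (nat_lit 78) (nat_lit 380) (nat_lit 0) (XT.lf (nat_lit 0) (nat_lit 6436365057) (nat_lit 228) (nat_lit 15567379597) (nat_lit 76) (nat_lit 1933174099) (nat_lit 61) (nat_lit 5) (nat_lit 64) (nat_lit 5) (nat_lit 62) (nat_lit 5) (nat_lit 397) (nat_lit 343) (nat_lit 280)) (XT.nd (nat_lit 78) (nat_lit 228) (nat_lit 0) (XT.lf (nat_lit 0) (nat_lit 5636220648) (nat_lit 152) (nat_lit 10734983334) (nat_lit 228) (nat_lit 8393278746) (nat_lit 59) (nat_lit 5) (nat_lit 61) (nat_lit 5) (nat_lit 62) (nat_lit 5) (nat_lit 398) (nat_lit 343) (nat_lit 279)) (XT.lf (nat_lit 0) (nat_lit 1295306036) (nat_lit 228) (nat_lit 23096344163) (nat_lit 76) (nat_lit 1236980673) (nat_lit 56) (nat_lit 5)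 (nat_lit 59) (nat_lit 5) (nat_lit 57) (nat_lit 5) (nat_lit 399) (nat_lit 343) (nat_lit 278)))) (XT.nd (nat_lit 78) (nat_lit 304) (nat_lit 0) (XT.lf (nat_lit 0) (nat_lit 11555063225) (nat_lit 228) (nat_lit 1136796005) (nat_lit 76) (nat_lit 13833830101) (nat_lit 56) (nat_lit 5) (nat_lit 59) (nat_lit 5) (nat_lit 57) (nat_lit 5) (nat_lit 400) (nat_lit 343) (nat_lit 277)) (XT.nd (nat_lit 78) (nat_lit 152) (nat_lit 0) (XT.lf (nat_lit 0) (nat_lit 22272208744) (nat_lit 152) (nat_lit 223509303) (nat_lit 228) (nat_lit 4966850927) (nat_lit 54) (nat_lit 5) (nat_lit 56) (nat_lit 5) (nat_lit 57) (nat_lit 5) (nat_lit 401) (nat_lit 343) (nat_lit 276)) (XT.lf (nat_lit 0) (nat_lit 5700797260) (nat_lit 152) (nat_lit 9907510823) (nat_lit 76) (nat_lit 12828240868) (nat_lit 52) (nat_lit 5) (nat_lit 54) (nat_lit 5) (nat_lit 53) (nat_lit 5) (nat_lit 402) (nat_lit 343) (nat_lit 275))))) (XT.nd (nat_lit 234) (nat_lit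 304) (nat_lit 0) (XT.nd (nat_lit 78) (nat_lit 304) (nat_lit 0) (XT.lf (nat_lit 0) (nat_lit 14229709499) (nat_lit 152) (nat_lit 2719190547) (nat_lit 228) (nat_lit 12504363643) (nat_lit 50) (nat_lit 5) (nat_lit 52) (nat_lit 5) (nat_lit 53) (nat_lit 5) (nat_lit 403) (nat_lit 343) (nat_lit 274)) (XT.nd (nat_lit 78) (nat_lit 228) (nat_lit 0) (XT.lf (nat_lit 0) (nat_lit 9259862602) (nat_lit 76) (nat_lit 19752364764) (nat_lit 152) (nat_lit 1501006872) (nat_lit 49) (nat_lit 5) (nat_lit 50) (nat_lit 5) (nat_lit 51) (nat_lit 4) (nat_lit 404) (nat_lit 343) (nat_lit 273)) (XT.lf (nat_lit 0) (nat_lit 3529804124) (nat_lit 152) (nat_lit 6503947115) (nat_lit 228) (nat_lit 21584235626) (nat_lit 46) (nat_lit 5) (nat_lit 48) (nat_lit 5) (nat_lit 49) (nat_lit 5) (nat_lit 405) (nat_lit 343) (nat_lit 272)))) (XT.nd (nat_lit 78) (nat_lit 304) (nat_lit 0) (XT.lf (nat_lit 0) (nat_lit 22365354523) (nat_lit 228) (nat_lit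 2939861168) (nat_lit 76) (nat_lit 7464785177) (nat_lit 46) (nat_lit 5) (nat_lit 49) (nat_lit 5) (nat_lit 47) (nat_lit 4) (nat_lit 406) (nat_lit 343) (nat_lit 271)) (XT.nd (nat_lit 78) (nat_lit 152) (nat_lit 0) (XT.lf (nat_lit 0) (nat_lit 1565439850) (nat_lit 152) (nat_lit 10195394189) (nat_lit 76) (nat_lit 22210674238) (nat_lit 44) (nat_lit 5) (nat_lit 46) (nat_lit 5) (nat_lit 45) (nat_lit 5) (nat_lit 407) (nat_lit 343) (nat_lit 270)) (XT.lf (nat_lit 0) (nat_lit 14100756483) (nat_lit 228) (nat_lit 18443062760) (nat_lit 76) (nat_lit 2680727632) (nat_lit 42) (nat_lit 5) (nat_lit 45) (nat_lit 5) (nat_lit 43) (nat_lit 4) (nat_lit 408) (nat_lit 343) (nat_lit 269)))))) (XT.nd (nat_lit 468) (nat_lit 532) (nat_lit 0) (XT.nd (nat_lit 234) (nat_lit 304) (nat_lit 0) (XT.nd (nat_lit 78) (nat_lit 228) (nat_lit 0) (XT.lf (nat_lit 0) (nat_lit 8764413670) (nat_lit 76) (nat_lit 18769723940) (nat_lit 152) (nat_lit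 8997964272) (nat_lit 41) (nat_lit 5) (nat_lit 42) (nat_lit 5) (nat_lit 43) (nat_lit 4) (nat_lit 409) (nat_lit 343) (nat_lit 268)) (XT.nd (nat_lit 78) (nat_lit 152) (nat_lit 0) (XT.lf (nat_lit 0) (nat_lit 3816148348) (nat_lit 152) (nat_lit 288212178) (nat_lit 76) (nat_lit 33794954587) (nat_lit 40) (nat_lit 5) (nat_lit 42) (nat_lit 5) (nat_lit 41) (nat_lit 5) (nat_lit 410) (nat_lit 343) (nat_lit 267)) (XT.lf (nat_lit 0) (nat_lit 17441938916) (nat_lit 228) (nat_lit 10462478813) (nat_lit 76) (nat_lit 11417089723) (nat_lit 38) (nat_lit 5) (nat_lit 41) (nat_lit 5) (nat_lit 39) (nat_lit 4) (nat_lit 411) (nat_lit 343) (nat_lit 266)))) (XT.nd (nat_lit 78) (nat_lit 228) (nat_lit 0) (XT.lf (nat_lit 0) (nat_lit 18918285538) (nat_lit 76) (nat_lit 13022669762) (nat_lit 152) (nat_lit 8868098904) (nat_lit 37) (nat_lit 5) (nat_lit 38) (nat_lit 5) (nat_lit 39) (nat_lit 4) (nat_lit 412) (nat_lit 343) (nat_lit 265))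 (XT.nd (nat_lit 78) (nat_lit 0) (nat_lit 0) (XT.lf (nat_lit 0) (nat_lit 4876142309) (nat_lit 228) (nat_lit 34734057387) (nat_lit 76) (nat_lit 2754126438) (nat_lit 34) (nat_lit 5) (nat_lit 37) (nat_lit 5) (nat_lit 35) (nat_lit 4) (nat_lit 413) (nat_lit 343) (nat_lit 264)) (XT.lf (nat_lit 0) (nat_lit 19452009903) (nat_lit 228) (nat_lit 5191048335) (nat_lit 76) (nat_lit 19341837269) (nat_lit 34) (nat_lit 5) (nat_lit 37) (nat_lit 5) (nat_lit 35) (nat_lit 4) (nat_lit 414) (nat_lit 343) (nat_lit 263))))) (XT.nd (nat_lit 234) (nat_lit 304) (nat_lit 0) (XT.nd (nat_lit 78) (nat_lit 152) (nat_lit 0) (XT.lf (nat_lit 0) (nat_lit 26282862786) (nat_lit 76) (nat_lit 8695118894) (nat_lit 152) (nat_lit 10701874764) (nat_lit 33) (nat_lit 5) (nat_lit 34) (nat_lit 5) (nat_lit 35) (nat_lit 4) (nat_lit 415) (nat_lit 343) (nat_lit 262)) (XT.nd (nat_lit 78) (nat_lit 0) (nat_lit 0) (XT.lf (nat_lit 0) (nat_lit 3965097250)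 (nat_lit 152) (nat_lit 35411207286) (nat_lit 76) (nat_lit 8075592347) (nat_lit 31) (nat_lit 5) (nat_lit 33) (nat_lit 5) (nat_lit 32) (nat_lit 4) (nat_lit 416) (nat_lit 343) (nat_lit 261)) (XT.lf (nat_lit 0) (nat_lit 19405523076) (nat_lit 152) (nat_lit 4105723829) (nat_lit 76) (nat_lit 25790272702) (nat_lit 31) (nat_lit 5) (nat_lit 33) (nat_lit 5) (nat_lit 32) (nat_lit 4) (nat_lit 417) (nat_lit 343) (nat_lit 260)))) (XT.nd (nat_lit 156) (nat_lit 76) (nat_lit 0) (XT.nd (nat_lit 78) (nat_lit 152) (nat_lit 0) (XT.lf (nat_lit 0) (nat_lit 29282132406) (nat_lit 76) (nat_lit 6588710875) (nat_lit 152) (nat_lit 15365196023) (nat_lit 30) (nat_lit 5) (nat_lit 31) (nat_lit 5) (nat_lit 32) (nat_lit 4) (nat_lit 418) (nat_lit 343) (nat_lit 259)) (XT.lf (nat_lit 0) (nat_lit 126509212) (nat_lit 152) (nat_lit 42044811088) (nat_lit 76) (nat_lit 11089029864) (nat_lit 28) (nat_lit 5) (nat_lit 30) (nat_lit 5) (nat_lit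 29) (nat_lit 4) (nat_lit 419) (nat_lit 343) (nat_lit 258))) (XT.nd (nat_lit 78) (nat_lit 76) (nat_lit 0) (XT.lf (nat_lit 0) (nat_lit 16345287334) (nat_lit 152) (nat_lit 9153048485) (nat_lit 76) (nat_lit 29874870713) (nat_lit 28) (nat_lit 5) (nat_lit 30) (nat_lit 5) (nat_lit 29) (nat_lit 4) (nat_lit 420) (nat_lit 343) (nat_lit 257)) (XT.lf (nat_lit 0) (nat_lit 25837623006) (nat_lit 76) (nat_lit 7759628695) (nat_lit 152) (nat_lit 23987788297) (nat_lit 27) (nat_lit 5) (nat_lit 28) (nat_lit 5) (nat_lit 29) (nat_lit 4) (nat_lit 421) (nat_lit 343) (nat_lit 256))))))) (XT.nd (nat_lit 936) (nat_lit 228) (nat_lit 0) (XT.nd (nat_lit 468) (nat_lit 304) (nat_lit 0) (XT.nd (nat_lit 234) (nat_lit 152) (nat_lit 0) (XT.nd (nat_lit 78) (nat_lit 152) (nat_lit 0) (XT.lf (nat_lit 0) (nat_lit 2764039239) (nat_lit 76) (nat_lit 49148387432) (nat_lit 76) (nat_lit 7989021717) (nat_lit 26) (nat_lit 4) (nat_lit 27) (nat_lit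 5) (nat_lit 27) (nat_lit 4) (nat_lit 422) (nat_lit 343) (nat_lit 255)) (XT.nd (nat_lit 78) (nat_lit 76) (nat_lit 0) (XT.lf (nat_lit 0) (nat_lit 9021091213) (nat_lit 152) (nat_lit 22873687617) (nat_lit 76) (nat_lit 30424859844) (nat_lit 25) (nat_lit 5) (nat_lit 27) (nat_lit 5) (nat_lit 26) (nat_lit 4) (nat_lit 423) (nat_lit 343) (nat_lit 254)) (XT.lf (nat_lit 0) (nat_lit 13235066724) (nat_lit 76) (nat_lit 13586319645) (nat_lit 152) (nat_lit 38031833501) (nat_lit 24) (nat_lit 5) (nat_lit 25) (nat_lit 5) (nat_lit 26) (nat_lit 4) (nat_lit 424) (nat_lit 343) (nat_lit 253)))) (XT.nd (nat_lit 78) (nat_lit 152) (nat_lit 0) (XT.lf (nat_lit 0) (nat_lit 45780329749) (nat_lit 152) (nat_lit 15980648158) (nat_lit 0) (nat_lit 5744444577) (nat_lit 24) (nat_lit 5) (nat_lit 26) (nat_lit 4) (nat_lit 24) (nat_lit 4) (nat_lit 425) (nat_lit 343) (nat_lit 252)) (XT.nd (nat_lit 78) (nat_lit 76) (nat_lit 0) (XT.lf (nat_lit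 0) (nat_lit 21681873985) (nat_lit 76) (nat_lit 44328653861) (nat_lit 76) (nat_lit 4270009447) (nat_lit 23) (nat_lit 4) (nat_lit 24) (nat_lit 5) (nat_lit 24) (nat_lit 4) (nat_lit 426) (nat_lit 343) (nat_lit 251)) (XT.lf (nat_lit 0) (nat_lit 13927847125) (nat_lit 152) (nat_lit 11806790217) (nat_lit 76) (nat_lit 47451387588) (nat_lit 22) (nat_lit 5) (nat_lit 24) (nat_lit 5) (nat_lit 23) (nat_lit 4) (nat_lit 427) (nat_lit 343) (nat_lit 250))))) (XT.nd (nat_lit 234) (nat_lit 152) (nat_lit 0) (XT.nd (nat_lit 78) (nat_lit 76) (nat_lit 0) (XT.lf (nat_lit 0) (nat_lit 27273761778) (nat_lit 76) (nat_lit 5915757907) (nat_lit 152) (nat_lit 43038733078) (nat_lit 21) (nat_lit 5) (nat_lit 22) (nat_lit 5) (nat_lit 23) (nat_lit 4) (nat_lit 428) (nat_lit 343) (nat_lit 249)) (XT.nd (nat_lit 78) (nat_lit 76) (nat_lit 0) (XT.lf (nat_lit 0) (nat_lit 53659865849) (nat_lit 152) (nat_lit 11047555301) (nat_lit 0) (nat_lit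 14707804224) (nat_lit 21) (nat_lit 5) (nat_lit 23) (nat_lit 4) (nat_lit 21) (nat_lit 4) (nat_lit 429) (nat_lit 343) (nat_lit 248)) (XT.lf (nat_lit 0) (nat_lit 29227927897) (nat_lit 76) (nat_lit 46247110415) (nat_lit 76) (nat_lit 7276870068) (nat_lit 20) (nat_lit 4) (nat_lit 21) (nat_lit 5) (nat_lit 21) (nat_lit 4) (nat_lit 430) (nat_lit 343) (nat_lit 247)))) (XT.nd (nat_lit 78) (nat_lit 76) (nat_lit 0) (XT.lf (nat_lit 0) (nat_lit 11984810038) (nat_lit 152) (nat_lit 14658389037) (nat_lit 76) (nat_lit 59605854297) (nat_lit 19) (nat_lit 5) (nat_lit 21) (nat_lit 5) (nat_lit 20) (nat_lit 4) (nat_lit 431) (nat_lit 343) (nat_lit 246)) (XT.nd (nat_lit 78) (nat_lit 0) (nat_lit 0) (XT.lf (nat_lit 0) (nat_lit 26560334192) (nat_lit 76) (nat_lit 5737388096) (nat_lit 152) (nat_lit 57614013441) (nat_lit 18) (nat_lit 5) (nat_lit 19) (nat_lit 5) (nat_lit 20) (nat_lit 4) (nat_lit 432) (nat_lit 343) (nat_lit 245))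 (XT.lf (nat_lit 0) (nat_lit 53916832840) (nat_lit 152) (nat_lit 23798418884) (nat_lit 0) (nat_lit 16033584765) (nat_lit 18) (nat_lit 5) (nat_lit 20) (nat_lit 4) (nat_lit 18) (nat_lit 4) (nat_lit 433) (nat_lit 343) (nat_lit 244)))))) (XT.nd (nat_lit 46410) (nat_lit 0) (nat_lit 22648) (XT.nd (nat_lit 46176) (nat_lit 0) (nat_lit 25612) (XT.nd (nat_lit 156) (nat_lit 152) (nat_lit 0) (XT.lf (nat_lit 0) (nat_lit 17992687922) (nat_lit 76) (nat_lit 58838226441) (nat_lit 76) (nat_lit 20940458288) (nat_lit 17) (nat_lit 4) (nat_lit 18) (nat_lit 5) (nat_lit 18) (nat_lit 4) (nat_lit 434) (nat_lit 343) (nat_lit 243)) (XT.nd (nat_lit 45942) (nat_lit 0) (nat_lit 26676) (XT.lf (nat_lit 0) (nat_lit 2306769455) (nat_lit 76) (nat_lit 17511721378) (nat_lit 152) (nat_lit 86591312060) (nat_lit 15) (nat_lit 5) (nat_lit 16) (nat_lit 5) (nat_lit 17) (nat_lit 4) (nat_lit 436) (nat_lit 343) (nat_lit 241)) (XT.lf (nat_lit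 0) (nat_lit 1660718071) (nat_lit 532) (nat_lit 826732436) (nat_lit 532) (nat_lit 826732436) (nat_lit 366) (nat_lit 3) (nat_lit 373) (nat_lit 3) (nat_lit 373) (nat_lit 5) (nat_lit 344) (nat_lit 344) (nat_lit 332)))) (XT.nd (nat_lit 78) (nat_lit 532) (nat_lit 0) (XT.lf (nat_lit 0) (nat_lit 469713193) (nat_lit 532) (nat_lit 2920137051) (nat_lit 608) (nat_lit 3289020346) (nat_lit 359) (nat_lit 5) (nat_lit 366) (nat_lit 3) (nat_lit 367) (nat_lit 5) (nat_lit 345) (nat_lit 344) (nat_lit 331)) (XT.nd (nat_lit 78) (nat_lit 532) (nat_lit 0) (XT.lf (nat_lit 76) (nat_lit 2632495671) (nat_lit 0) (nat_lit 1535744750) (nat_lit 608) (nat_lit 2568787297) (nat_lit 360) (nat_lit 5) (nat_lit 359) (nat_lit 5) (nat_lit 367) (nat_lit 5) (nat_lit 346) (nat_lit 344) (nat_lit 330)) (XT.lf (nat_lit 0) (nat_lit 1046705518) (nat_lit 608) (nat_lit 5194371858) (nat_lit 684) (nat_lit 562268088) (nat_lit 352) (nat_lit 5) (nat_lit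 360) (nat_lit 5) (nat_lit 361) (nat_lit 5) (nat_lit 347) (nat_lit 344) (nat_lit 329))))) (XT.nd (nat_lit 234) (nat_lit 2280) (nat_lit 0) (XT.nd (nat_lit 78) (nat_lit 684) (nat_lit 0) (XT.lf (nat_lit 76) (nat_lit 658088979) (nat_lit 0) (nat_lit 3973762786) (nat_lit 684) (nat_lit 2245238711) (nat_lit 353) (nat_lit 5) (nat_lit 352) (nat_lit 5) (nat_lit 361) (nat_lit 5) (nat_lit 348) (nat_lit 344) (nat_lit 328)) (XT.nd (nat_lit 78) (nat_lit 0) (nat_lit 76) (XT.lf (nat_lit 0) (nat_lit 1251729973) (nat_lit 684) (nat_lit 191256269) (nat_lit 760) (nat_lit 5516101211) (nat_lit 343) (nat_lit 5) (nat_lit 352) (nat_lit 5) (nat_lit 353) (nat_lit 5) (nat_lit 349) (nat_lit 344) (nat_lit 327)) (XT.lf (nat_lit 0) (nat_lit 4743852037) (nat_lit 684) (nat_lit 957103777) (nat_lit 760) (nat_lit 1347677843) (nat_lit 344) (nat_lit 5) (nat_lit 353) (nat_lit 5) (nat_lit 354) (nat_lit 5) (nat_lit 350) (nat_lit 344) (nat_lit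 326)))) (XT.nd (nat_lit 156) (nat_lit 1596) (nat_lit 0) (XT.nd (nat_lit 78) (nat_lit 0) (nat_lit 76) (XT.lf (nat_lit 0) (nat_lit 1115019418) (nat_lit 760) (nat_lit 1646919608) (nat_lit 836) (nat_lit 4384306909) (nat_lit 334) (nat_lit 5) (nat_lit 344) (nat_lit 5) (nat_lit 345) (nat_lit 5) (nat_lit 351) (nat_lit 344) (nat_lit 325)) (XT.lf (nat_lit 0) (nat_lit 4530822655) (nat_lit 760) (nat_lit 2264717723) (nat_lit 76) (nat_lit 456437837) (nat_lit 335) (nat_lit 5) (nat_lit 345) (nat_lit 5) (nat_lit 336) (nat_lit 5) (nat_lit 352) (nat_lit 344) (nat_lit 324))) (XT.nd (nat_lit 78) (nat_lit 836) (nat_lit 0) (XT.lf (nat_lit 0) (nat_lit 645589566) (nat_lit 836) (nat_lit 2820984873) (nat_lit 76) (nat_lit 3899124822) (nat_lit 324) (nat_lit 5) (nat_lit 335) (nat_lit 5) (nat_lit 325) (nat_lit 5) (nat_lit 353) (nat_lit 344) (nat_lit 323)) (XT.lf (nat_lit 0) (nat_lit 4013941713) (nat_lit 912) (nat_lit 3312334985)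 (nat_lit 76) (nat_lit 161426851) (nat_lit 313) (nat_lit 5) (nat_lit 325) (nat_lit 5) (nat_lit 314) (nat_lit 5) (nat_lit 354) (nat_lit 344) (nat_lit 322))))))))
noncomputable def xc56 : XT := (XT.nd (nat_lit 1872) (nat_lit 5320) (nat_lit 0) (XT.nd (nat_lit 936) (nat_lit 4940) (nat_lit 0) (XT.nd (nat_lit 468) (nat_lit 3420) (nat_lit 0) (XT.nd (nat_lit 234) (nat_lit 3116) (nat_lit 0) (XT.nd (nat_lit 78) (nat_lit 2128) (nat_lit 0) (XT.lf (nat_lit 0) (nat_lit 3869757865) (nat_lit 912) (nat_lit 3613723661) (nat_lit 988) (nat_lit 134430925) (nat_lit 301) (nat_lit 5) (nat_lit 313) (nat_lit 5) (nat_lit 314) (nat_lit 5) (nat_lit 355) (nat_lit 344) (nat_lit 321)) (XT.nd (nat_lit 78) (nat_lit 1064) (nat_lit 0) (XT.lf (nat_lit 0) (nat_lit 3215738199) (nat_lit 1064) (nat_lit 4131421261) (nat_lit 76) (nat_lit 409290807) (nat_lit 287) (nat_lit 5) (nat_lit 301) (nat_lit 5) (nat_lit 288) (nat_lit 5) (nat_lit 356)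 (nat_lit 344) (nat_lit 320)) (XT.lf (nat_lit 0) (nat_lit 3436664408) (nat_lit 1064) (nat_lit 3245582081) (nat_lit 1140) (nat_lit 1221157280) (nat_lit 273) (nat_lit 5) (nat_lit 287) (nat_lit 5) (nat_lit 288) (nat_lit 5) (nat_lit 357) (nat_lit 344) (nat_lit 319)))) (XT.nd (nat_lit 78) (nat_lit 1900) (nat_lit 0) (XT.lf (nat_lit 0) (nat_lit 2154107425) (nat_lit 1216) (nat_lit 4750914470) (nat_lit 76) (nat_lit 1154083755) (nat_lit 257) (nat_lit 5) (nat_lit 273) (nat_lit 5) (nat_lit 258) (nat_lit 5) (nat_lit 358) (nat_lit 344) (nat_lit 318)) (XT.nd (nat_lit 78) (nat_lit 684) (nat_lit 0) (XT.lf (nat_lit 0) (nat_lit 3224876151) (nat_lit 1216) (nat_lit 2412294268) (nat_lit 1292) (nat_lit 2586198627) (nat_lit 241) (nat_lit 5) (nat_lit 257) (nat_lit 5) (nat_lit 258) (nat_lit 5) (nat_lit 359) (nat_lit 344) (nat_lit 317)) (XT.lf (nat_lit 0) (nat_lit 842568310) (nat_lit 684) (nat_lit 5197958808) (nat_lit 76)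 (nat_lit 2356275284) (nat_lit 232) (nat_lit 5) (nat_lit 241) (nat_lit 5) (nat_lit 233) (nat_lit 5) (nat_lit 360) (nat_lit 344) (nat_lit 316))))) (XT.nd (nat_lit 234) (nat_lit 1596) (nat_lit 0) (XT.nd (nat_lit 78) (nat_lit 1216) (nat_lit 0) (XT.lf (nat_lit 0) (nat_lit 3208996295) (nat_lit 608) (nat_lit 1151577714) (nat_lit 684) (nat_lit 4218486383) (nat_lit 224) (nat_lit 5) (nat_lit 232) (nat_lit 5) (nat_lit 233) (nat_lit 5) (nat_lit 361) (nat_lit 344) (nat_lit 315)) (XT.nd (nat_lit 78) (nat_lit 608) (nat_lit 0) (XT.lf (nat_lit 0) (nat_lit 3265113340) (nat_lit 608) (nat_lit 4781915801) (nat_lit 684) (nat_lit 723682576) (nat_lit 216) (nat_lit 5) (nat_lit 224) (nat_lit 5) (nat_lit 225) (nat_lit 5) (nat_lit 362) (nat_lit 344) (nat_lit 314)) (XT.lf (nat_lit 0) (nat_lit 2865536437) (nat_lit 608) (nat_lit 5612259784) (nat_lit 76) (nat_lit 494037703) (nat_lit 208) (nat_lit 5) (nat_lit 216) (nat_lit 5)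 (nat_lit 209) (nat_lit 5) (nat_lit 363) (nat_lit 344) (nat_lit 313)))) (XT.nd (nat_lit 78) (nat_lit 1064) (nat_lit 0) (XT.lf (nat_lit 0) (nat_lit 3479124358) (nat_lit 532) (nat_lit 3156468505) (nat_lit 608) (nat_lit 2546764239) (nat_lit 201) (nat_lit 5) (nat_lit 208) (nat_lit 5) (nat_lit 209) (nat_lit 5) (nat_lit 364) (nat_lit 344) (nat_lit 312)) (XT.nd (nat_lit 78) (nat_lit 532) (nat_lit 0) (XT.lf (nat_lit 0) (nat_lit 1166017102) (nat_lit 532) (nat_lit 5760881239) (nat_lit 76) (nat_lit 2476255835) (nat_lit 194) (nat_lit 5) (nat_lit 201) (nat_lit 5) (nat_lit 195) (nat_lit 5) (nat_lit 365) (nat_lit 344) (nat_lit 311)) (XT.lf (nat_lit 0) (nat_lit 3825005318) (nat_lit 532) (nat_lit 1200108063) (nat_lit 608) (nat_lit 4608764984) (nat_lit 187) (nat_lit 5) (nat_lit 194) (nat_lit 5) (nat_lit 195) (nat_lit 5) (nat_lit 366) (nat_lit 344) (nat_lit 310)))))) (XT.nd (nat_lit 468) (nat_lit 2280) (nat_lit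 0) (XT.nd (nat_lit 234) (nat_lit 1292) (nat_lit 0) (XT.nd (nat_lit 78) (nat_lit 912) (nat_lit 0) (XT.lf (nat_lit 0) (nat_lit 4036229869) (nat_lit 456) (nat_lit 5074898442) (nat_lit 532) (nat_lit 764033568) (nat_lit 181) (nat_lit 5) (nat_lit 187) (nat_lit 5) (nat_lit 188) (nat_lit 5) (nat_lit 367) (nat_lit 344) (nat_lit 309)) (XT.nd (nat_lit 78) (nat_lit 380) (nat_lit 0) (XT.lf (nat_lit 0) (nat_lit 3224864872) (nat_lit 532) (nat_lit 5860391660) (nat_lit 76) (nat_lit 1041874140) (nat_lit 174) (nat_lit 5) (nat_lit 181) (nat_lit 5) (nat_lit 175) (nat_lit 5) (nat_lit 368) (nat_lit 344) (nat_lit 308)) (XT.lf (nat_lit 0) (nat_lit 4508760297) (nat_lit 380) (nat_lit 2939735248) (nat_lit 456) (nat_lit 2941479771) (nat_lit 169) (nat_lit 5) (nat_lit 174) (nat_lit 5) (nat_lit 175) (nat_lit 5) (nat_lit 369) (nat_lit 344) (nat_lit 307)))) (XT.nd (nat_lit 78) (nat_lit 760) (nat_lit 0) (XT.lf (nat_lit 0) (nat_lit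 1233835715) (nat_lit 532) (nat_lit 5891813365) (nat_lit 76) (nat_lit 3538788930) (nat_lit 162) (nat_lit 5) (nat_lit 169) (nat_lit 5) (nat_lit 163) (nat_lit 5) (nat_lit 370) (nat_lit 344) (nat_lit 306)) (XT.nd (nat_lit 78) (nat_lit 380) (nat_lit 0) (XT.lf (nat_lit 0) (nat_lit 5042785507) (nat_lit 380) (nat_lit 555946871) (nat_lit 456) (nat_lit 5351800854) (nat_lit 157) (nat_lit 5) (nat_lit 162) (nat_lit 5) (nat_lit 163) (nat_lit 5) (nat_lit 371) (nat_lit 344) (nat_lit 305)) (XT.lf (nat_lit 0) (nat_lit 5314392756) (nat_lit 380) (nat_lit 4945797292) (nat_lit 456) (nat_lit 988424725) (nat_lit 152) (nat_lit 5) (nat_lit 157) (nat_lit 5) (nat_lit 158) (nat_lit 5) (nat_lit 372) (nat_lit 344) (nat_lit 304))))) (XT.nd (nat_lit 234) (nat_lit 1064) (nat_lit 0) (XT.nd (nat_lit 78) (nat_lit 760) (nat_lit 0) (XT.lf (nat_lit 0) (nat_lit 3571095117) (nat_lit 456) (nat_lit 5973665156) (nat_lit 76) (nat_lit 2014389954)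 (nat_lit 146) (nat_lit 5) (nat_lit 152) (nat_lit 5) (nat_lit 147) (nat_lit 5) (nat_lit 373) (nat_lit 344) (nat_lit 303)) (XT.nd (nat_lit 78) (nat_lit 380) (nat_lit 0) (XT.lf (nat_lit 0) (nat_lit 5852530912) (nat_lit 380) (nat_lit 2564052099) (nat_lit 456) (nat_lit 3466010159) (nat_lit 141) (nat_lit 5) (nat_lit 146) (nat_lit 5) (nat_lit 147) (nat_lit 5) (nat_lit 374) (nat_lit 344) (nat_lit 302)) (XT.lf (nat_lit 0) (nat_lit 1337860459) (nat_lit 380) (nat_lit 6107085317) (nat_lit 76) (nat_lit 4774495744) (nat_lit 136) (nat_lit 5) (nat_lit 141) (nat_lit 5) (nat_lit 137) (nat_lit 5) (nat_lit 375) (nat_lit 344) (nat_lit 301)))) (XT.nd (nat_lit 78) (nat_lit 684) (nat_lit 0) (XT.lf (nat_lit 0) (nat_lit 6359274251) (nat_lit 380) (nat_lit 16652629) (nat_lit 456) (nat_lit 6194229431) (nat_lit 131) (nat_lit 5) (nat_lit 136) (nat_lit 5) (nat_lit 137) (nat_lit 5) (nat_lit 376) (nat_lit 344) (nat_lit 300))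 (XT.nd (nat_lit 78) (nat_lit 380) (nat_lit 0) (XT.lf (nat_lit 0) (nat_lit 6574220569) (nat_lit 304) (nat_lit 5211075082) (nat_lit 380) (nat_lit 1149552144) (nat_lit 127) (nat_lit 5) (nat_lit 131) (nat_lit 5) (nat_lit 132) (nat_lit 5) (nat_lit 377) (nat_lit 344) (nat_lit 299)) (XT.lf (nat_lit 0) (nat_lit 4141980078) (nat_lit 380) (nat_lit 6553381626) (nat_lit 76) (nat_lit 2618970811) (nat_lit 122) (nat_lit 5) (nat_lit 127) (nat_lit 5) (nat_lit 123) (nat_lit 5) (nat_lit 378) (nat_lit 344) (nat_lit 298))))))) (XT.nd (nat_lit 936) (nat_lit 2052) (nat_lit 0) (XT.nd (nat_lit 468) (nat_lit 1520) (nat_lit 0) (XT.nd (nat_lit 234) (nat_lit 836) (nat_lit 0) (XT.nd (nat_lit 78) (nat_lit 608) (nat_lit 0) (XT.lf (nat_lit 0) (nat_lit 6915256822) (nat_lit 304) (nat_lit 2866743352) (nat_lit 380) (nat_lit 3927239460) (nat_lit 118) (nat_lit 5) (nat_lit 122) (nat_lit 5) (nat_lit 123) (nat_lit 5) (nat_lit 379) (nat_lit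 344) (nat_lit 297)) (XT.nd (nat_lit 78) (nat_lit 228) (nat_lit 0) (XT.lf (nat_lit 0) (nat_lit 1662214261) (nat_lit 380) (nat_lit 7093268931) (nat_lit 76) (nat_lit 5364584334) (nat_lit 113) (nat_lit 5) (nat_lit 118) (nat_lit 5) (nat_lit 114) (nat_lit 5) (nat_lit 380) (nat_lit 344) (nat_lit 296)) (XT.lf (nat_lit 0) (nat_lit 7087947858) (nat_lit 228) (nat_lit 456748189) (nat_lit 304) (nat_lit 7002748738) (nat_lit 110) (nat_lit 5) (nat_lit 113) (nat_lit 5) (nat_lit 114) (nat_lit 5) (nat_lit 381) (nat_lit 344) (nat_lit 295)))) (XT.nd (nat_lit 78) (nat_lit 532) (nat_lit 0) (XT.lf (nat_lit 0) (nat_lit 7079587420) (nat_lit 304) (nat_lit 6791298034) (nat_lit 380) (nat_lit 1120834879) (nat_lit 106) (nat_lit 5) (nat_lit 110) (nat_lit 5) (nat_lit 111) (nat_lit 5) (nat_lit 382) (nat_lit 344) (nat_lit 294)) (XT.nd (nat_lit 78) (nat_lit 228) (nat_lit 0) (XT.lf (nat_lit 0) (nat_lit 5055318171) (nat_lit 304)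 (nat_lit 8453975181) (nat_lit 76) (nat_lit 1944510513) (nat_lit 102) (nat_lit 5) (nat_lit 106) (nat_lit 5) (nat_lit 103) (nat_lit 5) (nat_lit 383) (nat_lit 344) (nat_lit 293)) (XT.lf (nat_lit 0) (nat_lit 6831121581) (nat_lit 228) (nat_lit 4834688458) (nat_lit 304) (nat_lit 4268402172) (nat_lit 99) (nat_lit 5) (nat_lit 102) (nat_lit 5) (nat_lit 103) (nat_lit 5) (nat_lit 384) (nat_lit 344) (nat_lit 292))))) (XT.nd (nat_lit 234) (nat_lit 760) (nat_lit 0) (XT.nd (nat_lit 78) (nat_lit 456) (nat_lit 0) (XT.lf (nat_lit 0) (nat_lit 2253429942) (nat_lit 304) (nat_lit 9855189160) (nat_lit 76) (nat_lit 4325583793) (nat_lit 95) (nat_lit 5) (nat_lit 99) (nat_lit 5) (nat_lit 96) (nat_lit 5) (nat_lit 385) (nat_lit 344) (nat_lit 291)) (XT.nd (nat_lit 78) (nat_lit 228) (nat_lit 0) (XT.lf (nat_lit 0) (nat_lit 6202828201) (nat_lit 228) (nat_lit 2949525836) (nat_lit 304) (nat_lit 7801406042) (nat_lit 92) (nat_lit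 5) (nat_lit 95) (nat_lit 5) (nat_lit 96) (nat_lit 5) (nat_lit 386) (nat_lit 344) (nat_lit 290)) (XT.lf (nat_lit 0) (nat_lit 5716908745) (nat_lit 228) (nat_lit 10837941130) (nat_lit 304) (nat_lit 939698986) (nat_lit 89) (nat_lit 5) (nat_lit 92) (nat_lit 5) (nat_lit 93) (nat_lit 5) (nat_lit 387) (nat_lit 344) (nat_lit 289)))) (XT.nd (nat_lit 78) (nat_lit 456) (nat_lit 0) (XT.lf (nat_lit 0) (nat_lit 5080522938) (nat_lit 228) (nat_lit 1191232683) (nat_lit 304) (nat_lit 11784958802) (nat_lit 85) (nat_lit 5) (nat_lit 88) (nat_lit 5) (nat_lit 89) (nat_lit 5) (nat_lit 388) (nat_lit 344) (nat_lit 288)) (XT.nd (nat_lit 78) (nat_lit 304) (nat_lit 0) (XT.lf (nat_lit 0) (nat_lit 4271317007) (nat_lit 152) (nat_lit 9742776569) (nat_lit 228) (nat_lit 4626934232) (nat_lit 83) (nat_lit 5) (nat_lit 85) (nat_lit 5) (nat_lit 86) (nat_lit 5) (nat_lit 389) (nat_lit 344) (nat_lit 287)) (XT.lf (nat_lit 0) (nat_lit 2956611319)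 (nat_lit 304) (nat_lit 15926197645) (nat_lit 76) (nat_lit 367205124) (nat_lit 79) (nat_lit 5) (nat_lit 83) (nat_lit 5) (nat_lit 80) (nat_lit 5) (nat_lit 390) (nat_lit 344) (nat_lit 286)))))) (XT.nd (nat_lit 468) (nat_lit 1064) (nat_lit 0) (XT.nd (nat_lit 234) (nat_lit 532) (nat_lit 0) (XT.nd (nat_lit 78) (nat_lit 304) (nat_lit 0) (XT.lf (nat_lit 0) (nat_lit 2115439250) (nat_lit 152) (nat_lit 8920134203) (nat_lit 228) (nat_lit 8846153648) (nat_lit 77) (nat_lit 5) (nat_lit 79) (nat_lit 5) (nat_lit 80) (nat_lit 5) (nat_lit 391) (nat_lit 344) (nat_lit 285)) (XT.nd (nat_lit 78) (nat_lit 76) (nat_lit 0) (XT.lf (nat_lit 0) (nat_lit 755005409) (nat_lit 228) (nat_lit 18895539081) (nat_lit 304) (nat_lit 890528686) (nat_lit 74) (nat_lit 5) (nat_lit 77) (nat_lit 5) (nat_lit 78) (nat_lit 5) (nat_lit 392) (nat_lit 344) (nat_lit 284)) (XT.lf (nat_lit 0) (nat_lit 7537622476) (nat_lit 304) (nat_lit 911373421)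 (nat_lit 76) (nat_lit 12775635888) (nat_lit 73) (nat_lit 5) (nat_lit 77) (nat_lit 5) (nat_lit 74) (nat_lit 5) (nat_lit 393) (nat_lit 344) (nat_lit 283)))) (XT.nd (nat_lit 78) (nat_lit 380) (nat_lit 0) (XT.lf (nat_lit 0) (nat_lit 16527344736) (nat_lit 228) (nat_lit 2780568527) (nat_lit 76) (nat_lit 2629441250) (nat_lit 71) (nat_lit 5) (nat_lit 74) (nat_lit 5) (nat_lit 72) (nat_lit 5) (nat_lit 394) (nat_lit 344) (nat_lit 282)) (XT.nd (nat_lit 78) (nat_lit 152) (nat_lit 0) (XT.lf (nat_lit 0) (nat_lit 3433682420) (nat_lit 228) (nat_lit 4977947206) (nat_lit 76) (nat_lit 14266639237) (nat_lit 68) (nat_lit 5) (nat_lit 71) (nat_lit 5) (nat_lit 69) (nat_lit 5) (nat_lit 395) (nat_lit 344) (nat_lit 281)) (XT.lf (nat_lit 0) (nat_lit 12772939007) (nat_lit 228) (nat_lit 7502964353) (nat_lit 76) (nat_lit 3173767786) (nat_lit 66) (nat_lit 5) (nat_lit 69) (nat_lit 5) (nat_lit 67) (nat_lit 5) (nat_lit 396) (nat_lit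 344) (nat_lit 280))))) (XT.nd (nat_lit 234) (nat_lit 532) (nat_lit 0) (XT.nd (nat_lit 78) (nat_lit 380) (nat_lit 0) (XT.lf (nat_lit 0) (nat_lit 13863858017) (nat_lit 152) (nat_lit 8937030149) (nat_lit 228) (nat_lit 1452110306) (nat_lit 64) (nat_lit 5) (nat_lit 66) (nat_lit 5) (nat_lit 67) (nat_lit 5) (nat_lit 397) (nat_lit 344) (nat_lit 279)) (XT.nd (nat_lit 78) (nat_lit 152) (nat_lit 0) (XT.lf (nat_lit 0) (nat_lit 8244540481) (nat_lit 228) (nat_lit 13699437932) (nat_lit 76) (nat_lit 3145001590) (nat_lit 61) (nat_lit 5) (nat_lit 64) (nat_lit 5) (nat_lit 62) (nat_lit 5) (nat_lit 398) (nat_lit 344) (nat_lit 278)) (XT.lf (nat_lit 0) (nat_lit 8488486362) (nat_lit 152) (nat_lit 10141564860) (nat_lit 228) (nat_lit 7329262296) (nat_lit 59) (nat_lit 5) (nat_lit 61) (nat_lit 5) (nat_lit 62) (nat_lit 5) (nat_lit 399) (nat_lit 344) (nat_lit 277)))) (XT.nd (nat_lit 156) (nat_lit 152) (nat_lit 0) (XT.nd (nat_lit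 78) (nat_lit 152) (nat_lit 0) (XT.lf (nat_lit 0) (nat_lit 2780520848) (nat_lit 228) (nat_lit 21694350680) (nat_lit 76) (nat_lit 2392406589) (nat_lit 56) (nat_lit 5) (nat_lit 59) (nat_lit 5) (nat_lit 57) (nat_lit 5) (nat_lit 400) (nat_lit 344) (nat_lit 276)) (XT.lf (nat_lit 0) (nat_lit 1266128727) (nat_lit 152) (nat_lit 12231667520) (nat_lit 228) (nat_lit 14313065475) (nat_lit 54) (nat_lit 5) (nat_lit 56) (nat_lit 5) (nat_lit 57) (nat_lit 5) (nat_lit 401) (nat_lit 344) (nat_lit 275))) (XT.nd (nat_lit 78) (nat_lit 152) (nat_lit 0) (XT.lf (nat_lit 0) (nat_lit 24939506852) (nat_lit 228) (nat_lit 3053009197) (nat_lit 76) (nat_lit 803456353) (nat_lit 54) (nat_lit 5) (nat_lit 57) (nat_lit 5) (nat_lit 55) (nat_lit 4) (nat_lit 402) (nat_lit 344) (nat_lit 274)) (XT.lf (nat_lit 0) (nat_lit 7279362416) (nat_lit 152) (nat_lit 8051027409) (nat_lit 76) (nat_lit 14489037557) (nat_lit 52) (nat_lit 5) (nat_lit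 54) (nat_lit 5) (nat_lit 53) (nat_lit 5) (nat_lit 403) (nat_lit 344) (nat_lit 273))))))))
noncomputable def xc57 : XT := (XT.nd (nat_lit 1872) (nat_lit 456) (nat_lit 0) (XT.nd (nat_lit 936) (nat_lit 836) (nat_lit 0) (XT.nd (nat_lit 468) (nat_lit 608) (nat_lit 0) (XT.nd (nat_lit 234) (nat_lit 304) (nat_lit 0) (XT.nd (nat_lit 78) (nat_lit 304) (nat_lit 0) (XT.lf (nat_lit 0) (nat_lit 17225638364) (nat_lit 152) (nat_lit 1824595002) (nat_lit 228) (nat_lit 11837940422) (nat_lit 50) (nat_lit 5) (nat_lit 52) (nat_lit 5) (nat_lit 53) (nat_lit 5) (nat_lit 404) (nat_lit 344) (nat_lit 272)) (XT.nd (nat_lit 78) (nat_lit 228) (nat_lit 0) (XT.lf (nat_lit 0) (nat_lit 11968864550) (nat_lit 76) (nat_lit 19719178142) (nat_lit 152) (nat_lit 313967202) (nat_lit 49) (nat_lit 5) (nat_lit 50) (nat_lit 5) (nat_lit 51) (nat_lit 4) (nat_lit 405) (nat_lit 344) (nat_lit 271)) (XT.lf (nat_lit 0) (nat_lit 5911966261) (nat_lit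 152) (nat_lit 5823210133) (nat_lit 228) (nat_lit 21427597538) (nat_lit 46) (nat_lit 5) (nat_lit 48) (nat_lit 5) (nat_lit 49) (nat_lit 5) (nat_lit 406) (nat_lit 344) (nat_lit 270)))) (XT.nd (nat_lit 78) (nat_lit 304) (nat_lit 0) (XT.lf (nat_lit 0) (nat_lit 24635438678) (nat_lit 228) (nat_lit 961030845) (nat_lit 76) (nat_lit 8777362469) (nat_lit 46) (nat_lit 5) (nat_lit 49) (nat_lit 5) (nat_lit 47) (nat_lit 4) (nat_lit 407) (nat_lit 344) (nat_lit 269)) (XT.nd (nat_lit 78) (nat_lit 152) (nat_lit 0) (XT.lf (nat_lit 0) (nat_lit 2771693272) (nat_lit 152) (nat_lit 8617721973) (nat_lit 76) (nat_lit 24246723200) (nat_lit 44) (nat_lit 5) (nat_lit 46) (nat_lit 5) (nat_lit 45) (nat_lit 5) (nat_lit 408) (nat_lit 344) (nat_lit 268)) (XT.lf (nat_lit 0) (nat_lit 15908529633) (nat_lit 228) (nat_lit 17313673264) (nat_lit 76) (nat_lit 3730388497) (nat_lit 42) (nat_lit 5) (nat_lit 45) (nat_lit 5) (nat_lit 43) (nat_lit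 4) (nat_lit 409) (nat_lit 344) (nat_lit 267))))) (XT.nd (nat_lit 234) (nat_lit 304) (nat_lit 0) (XT.nd (nat_lit 78) (nat_lit 228) (nat_lit 0) (XT.lf (nat_lit 0) (nat_lit 11195369931) (nat_lit 76) (nat_lit 18784854074) (nat_lit 152) (nat_lit 8346305620) (nat_lit 41) (nat_lit 5) (nat_lit 42) (nat_lit 5) (nat_lit 43) (nat_lit 4) (nat_lit 410) (nat_lit 344) (nat_lit 266)) (XT.nd (nat_lit 78) (nat_lit 0) (nat_lit 0) (XT.lf (nat_lit 0) (nat_lit 1647938320) (nat_lit 152) (nat_lit 3403488459) (nat_lit 228) (nat_lit 34711431225) (nat_lit 38) (nat_lit 5) (nat_lit 40) (nat_lit 5) (nat_lit 41) (nat_lit 5) (nat_lit 411) (nat_lit 344) (nat_lit 265)) (XT.lf (nat_lit 0) (nat_lit 19319918882) (nat_lit 228) (nat_lit 9100501326) (nat_lit 76) (nat_lit 12836901616) (nat_lit 38) (nat_lit 5) (nat_lit 41) (nat_lit 5) (nat_lit 39) (nat_lit 4) (nat_lit 412) (nat_lit 344) (nat_lit 264)))) (XT.nd (nat_lit 78) (nat_lit 228)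 (nat_lit 0) (XT.lf (nat_lit 0) (nat_lit 21695265188) (nat_lit 76) (nat_lit 12818323026) (nat_lit 152) (nat_lit 8306570660) (nat_lit 37) (nat_lit 5) (nat_lit 38) (nat_lit 5) (nat_lit 39) (nat_lit 4) (nat_lit 413) (nat_lit 344) (nat_lit 263)) (XT.nd (nat_lit 78) (nat_lit 0) (nat_lit 0) (XT.lf (nat_lit 0) (nat_lit 6083727192) (nat_lit 228) (nat_lit 34652407411) (nat_lit 76) (nat_lit 3717420085) (nat_lit 34) (nat_lit 5) (nat_lit 37) (nat_lit 5) (nat_lit 35) (nat_lit 4) (nat_lit 414) (nat_lit 344) (nat_lit 262)) (XT.lf (nat_lit 0) (nat_lit 21342493987) (nat_lit 228) (nat_lit 3718836137) (nat_lit 76) (nat_lit 21095202775) (nat_lit 34) (nat_lit 5) (nat_lit 37) (nat_lit 5) (nat_lit 35) (nat_lit 4) (nat_lit 415) (nat_lit 344) (nat_lit 261)))))) (XT.nd (nat_lit 468) (nat_lit 380) (nat_lit 0) (XT.nd (nat_lit 234) (nat_lit 228) (nat_lit 0) (XT.nd (nat_lit 78) (nat_lit 152) (nat_lit 0) (XT.lf (nat_lit 0)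 (nat_lit 29279129855) (nat_lit 76) (nat_lit 8338095360) (nat_lit 152) (nat_lit 10319846217) (nat_lit 33) (nat_lit 5) (nat_lit 34) (nat_lit 5) (nat_lit 35) (nat_lit 4) (nat_lit 416) (nat_lit 344) (nat_lit 260)) (XT.nd (nat_lit 78) (nat_lit 0) (nat_lit 0) (XT.lf (nat_lit 0) (nat_lit 5043120507) (nat_lit 152) (nat_lit 35511672581) (nat_lit 76) (nat_lit 9243243173) (nat_lit 31) (nat_lit 5) (nat_lit 33) (nat_lit 5) (nat_lit 32) (nat_lit 4) (nat_lit 417) (nat_lit 344) (nat_lit 259)) (XT.lf (nat_lit 0) (nat_lit 21213673891) (nat_lit 152) (nat_lit 2720443287) (nat_lit 76) (nat_lit 27807282727) (nat_lit 31) (nat_lit 5) (nat_lit 33) (nat_lit 5) (nat_lit 32) (nat_lit 4) (nat_lit 418) (nat_lit 344) (nat_lit 258)))) (XT.nd (nat_lit 78) (nat_lit 152) (nat_lit 0) (XT.lf (nat_lit 0) (nat_lit 32291212483) (nat_lit 76) (nat_lit 6186000060) (nat_lit 152) (nat_lit 15296187302) (nat_lit 30) (nat_lit 5) (nat_lit 31)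 (nat_lit 5) (nat_lit 32) (nat_lit 4) (nat_lit 419) (nat_lit 344) (nat_lit 257)) (XT.nd (nat_lit 78) (nat_lit 0) (nat_lit 0) (XT.lf (nat_lit 0) (nat_lit 936174670) (nat_lit 152) (nat_lit 42613419438) (nat_lit 76) (nat_lit 12349621018) (nat_lit 28) (nat_lit 5) (nat_lit 30) (nat_lit 5) (nat_lit 29) (nat_lit 4) (nat_lit 420) (nat_lit 344) (nat_lit 256)) (XT.lf (nat_lit 0) (nat_lit 17927637413) (nat_lit 152) (nat_lit 8150098809) (nat_lit 76) (nat_lit 32041128212) (nat_lit 28) (nat_lit 5) (nat_lit 30) (nat_lit 5) (nat_lit 29) (nat_lit 4) (nat_lit 421) (nat_lit 344) (nat_lit 255))))) (XT.nd (nat_lit 234) (nat_lit 152) (nat_lit 0) (XT.nd (nat_lit 78) (nat_lit 152) (nat_lit 0) (XT.lf (nat_lit 0) (nat_lit 28548238390) (nat_lit 76) (nat_lit 7471166697) (nat_lit 152) (nat_lit 24422570709) (nat_lit 27) (nat_lit 5) (nat_lit 28) (nat_lit 5) (nat_lit 29) (nat_lit 4) (nat_lit 422) (nat_lit 344) (nat_lit 254))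 (XT.nd (nat_lit 78) (nat_lit 76) (nat_lit 0) (XT.lf (nat_lit 0) (nat_lit 4295668217) (nat_lit 76) (nat_lit 50938910631) (nat_lit 76) (nat_lit 7640100817) (nat_lit 26) (nat_lit 4) (nat_lit 27) (nat_lit 5) (nat_lit 27) (nat_lit 4) (nat_lit 423) (nat_lit 344) (nat_lit 253)) (XT.lf (nat_lit 0) (nat_lit 10170972968) (nat_lit 152) (nat_lit 22676348807) (nat_lit 76) (nat_lit 32567292207) (nat_lit 25) (nat_lit 5) (nat_lit 27) (nat_lit 5) (nat_lit 26) (nat_lit 4) (nat_lit 424) (nat_lit 344) (nat_lit 252)))) (XT.nd (nat_lit 78) (nat_lit 76) (nat_lit 0) (XT.lf (nat_lit 0) (nat_lit 15199403091) (nat_lit 76) (nat_lit 13641123531) (nat_lit 152) (nat_lit 39234972296) (nat_lit 24) (nat_lit 5) (nat_lit 25) (nat_lit 5) (nat_lit 26) (nat_lit 4) (nat_lit 425) (nat_lit 344) (nat_lit 251)) (XT.nd (nat_lit 78) (nat_lit 76) (nat_lit 0) (XT.lf (nat_lit 0) (nat_lit 48720845403) (nat_lit 152) (nat_lit 15525431246) (nat_lit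 0) (nat_lit 6614834060) (nat_lit 24) (nat_lit 5) (nat_lit 26) (nat_lit 4) (nat_lit 24) (nat_lit 4) (nat_lit 426) (nat_lit 344) (nat_lit 250)) (XT.lf (nat_lit 0) (nat_lit 23984264199) (nat_lit 76) (nat_lit 45958976448) (nat_lit 76) (nat_lit 3832321802) (nat_lit 23) (nat_lit 4) (nat_lit 24) (nat_lit 5) (nat_lit 24) (nat_lit 4) (nat_lit 427) (nat_lit 344) (nat_lit 249))))))) (XT.nd (nat_lit 46878) (nat_lit 0) (nat_lit 16948) (XT.nd (nat_lit 468) (nat_lit 76) (nat_lit 0) (XT.nd (nat_lit 234) (nat_lit 228) (nat_lit 0) (XT.nd (nat_lit 78) (nat_lit 76) (nat_lit 0) (XT.lf (nat_lit 0) (nat_lit 15232316712) (nat_lit 152) (nat_lit 11224712008) (nat_lit 76) (nat_lit 50370021744) (nat_lit 22) (nat_lit 5) (nat_lit 24) (nat_lit 5) (nat_lit 23) (nat_lit 4) (nat_lit 428) (nat_lit 344) (nat_lit 248)) (XT.nd (nat_lit 78) (nat_lit 0) (nat_lit 0) (XT.lf (nat_lit 0) (nat_lit 29776260468) (nat_lit 76) (nat_lit 5662803318)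 (nat_lit 152) (nat_lit 44582867766) (nat_lit 21) (nat_lit 5) (nat_lit 22) (nat_lit 5) (nat_lit 23) (nat_lit 4) (nat_lit 429) (nat_lit 344) (nat_lit 247)) (XT.lf (nat_lit 0) (nat_lit 56909852441) (nat_lit 152) (nat_lit 10503485827) (nat_lit 0) (nat_lit 15955608285) (nat_lit 21) (nat_lit 5) (nat_lit 23) (nat_lit 4) (nat_lit 21) (nat_lit 4) (nat_lit 430) (nat_lit 344) (nat_lit 246)))) (XT.nd (nat_lit 78) (nat_lit 152) (nat_lit 0) (XT.lf (nat_lit 0) (nat_lit 31754342091) (nat_lit 76) (nat_lit 48044679358) (nat_lit 76) (nat_lit 7073946565) (nat_lit 20) (nat_lit 4) (nat_lit 21) (nat_lit 5) (nat_lit 21) (nat_lit 4) (nat_lit 431) (nat_lit 344) (nat_lit 245)) (XT.nd (nat_lit 78) (nat_lit 76) (nat_lit 0) (XT.lf (nat_lit 0) (nat_lit 13113295626) (nat_lit 152) (nat_lit 14366446134) (nat_lit 76) (nat_lit 63065860253) (nat_lit 19) (nat_lit 5) (nat_lit 21) (nat_lit 5) (nat_lit 20) (nat_lit 4) (nat_lit 432)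 (nat_lit 344) (nat_lit 244)) (XT.lf (nat_lit 0) (nat_lit 28883835783) (nat_lit 76) (nat_lit 5542384768) (nat_lit 152) (nat_lit 59965668195) (nat_lit 18) (nat_lit 5) (nat_lit 19) (nat_lit 5) (nat_lit 20) (nat_lit 4) (nat_lit 433) (nat_lit 344) (nat_lit 243))))) (XT.nd (nat_lit 46176) (nat_lit 0) (nat_lit 25308) (XT.nd (nat_lit 78) (nat_lit 76) (nat_lit 0) (XT.lf (nat_lit 0) (nat_lit 57106240392) (nat_lit 152) (nat_lit 24029971643) (nat_lit 0) (nat_lit 17285235108) (nat_lit 18) (nat_lit 5) (nat_lit 20) (nat_lit 4) (nat_lit 18) (nat_lit 4) (nat_lit 434) (nat_lit 344) (nat_lit 242)) (XT.nd (nat_lit 78) (nat_lit 0) (nat_lit 0) (XT.lf (nat_lit 0) (nat_lit 19823219072) (nat_lit 76) (nat_lit 61328252129) (nat_lit 76) (nat_lit 21494076707) (nat_lit 17) (nat_lit 4) (nat_lit 18) (nat_lit 5) (nat_lit 18) (nat_lit 4) (nat_lit 435) (nat_lit 344) (nat_lit 241)) (XT.lf (nat_lit 0) (nat_lit 66342399279) (nat_lit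 76) (nat_lit 40289098761) (nat_lit 76) (nat_lit 442380350) (nat_lit 17) (nat_lit 4) (nat_lit 18) (nat_lit 5) (nat_lit 18) (nat_lit 4) (nat_lit 436) (nat_lit 344) (nat_lit 240)))) (XT.nd (nat_lit 78) (nat_lit 684) (nat_lit 0) (XT.lf (nat_lit 0) (nat_lit 1007744931) (nat_lit 0) (nat_lit 1007744931) (nat_lit 532) (nat_lit 1351020919) (nat_lit 359) (nat_lit 5) (nat_lit 359) (nat_lit 3) (nat_lit 366) (nat_lit 3) (nat_lit 345) (nat_lit 345) (nat_lit 330)) (XT.nd (nat_lit 78) (nat_lit 0) (nat_lit 76) (XT.lf (nat_lit 76) (nat_lit 749521097) (nat_lit 0) (nat_lit 19452995) (nat_lit 684) (nat_lit 6026534236) (nat_lit 351) (nat_lit 5) (nat_lit 350) (nat_lit 3) (nat_lit 359) (nat_lit 5) (nat_lit 346) (nat_lit 345) (nat_lit 329)) (XT.lf (nat_lit 0) (nat_lit 4204490755) (nat_lit 608) (nat_lit 443722959) (nat_lit 684) (nat_lit 2216832704) (nat_lit 351) (nat_lit 5) (nat_lit 359) (nat_lit 5) (nat_lit 360) (nat_lit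 5) (nat_lit 347) (nat_lit 345) (nat_lit 328)))))) (XT.nd (nat_lit 468) (nat_lit 6308) (nat_lit 0) (XT.nd (nat_lit 234) (nat_lit 760) (nat_lit 0) (XT.nd (nat_lit 78) (nat_lit 684) (nat_lit 0) (XT.lf (nat_lit 0) (nat_lit 695227942) (nat_lit 684) (nat_lit 1524381279) (nat_lit 760) (nat_lit 4723167965) (nat_lit 342) (nat_lit 5) (nat_lit 351) (nat_lit 5) (nat_lit 352) (nat_lit 5) (nat_lit 348) (nat_lit 345) (nat_lit 327)) (XT.nd (nat_lit 78) (nat_lit 760) (nat_lit 0) (XT.lf (nat_lit 0) (nat_lit 4011666718) (nat_lit 684) (nat_lit 2533326912) (nat_lit 760) (nat_lit 483292365) (nat_lit 343) (nat_lit 5) (nat_lit 352) (nat_lit 5) (nat_lit 353) (nat_lit 5) (nat_lit 349) (nat_lit 345) (nat_lit 326)) (XT.lf (nat_lit 0) (nat_lit 244786583) (nat_lit 760) (nat_lit 3469021063) (nat_lit 836) (nat_lit 3407975848) (nat_lit 333) (nat_lit 5) (nat_lit 343) (nat_lit 5) (nat_lit 344) (nat_lit 5) (nat_lit 350) (nat_lit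 345) (nat_lit 325)))) (XT.nd (nat_lit 78) (nat_lit 760) (nat_lit 0) (XT.lf (nat_lit 76) (nat_lit 2884088815) (nat_lit 0) (nat_lit 587837001) (nat_lit 836) (nat_lit 3751286818) (nat_lit 334) (nat_lit 5) (nat_lit 333) (nat_lit 5) (nat_lit 344) (nat_lit 5) (nat_lit 351) (nat_lit 345) (nat_lit 324)) (XT.nd (nat_lit 78) (nat_lit 836) (nat_lit 0) (XT.lf (nat_lit 76) (nat_lit 2189154700) (nat_lit 0) (nat_lit 4573156933) (nat_lit 836) (nat_lit 570444274) (nat_lit 335) (nat_lit 5) (nat_lit 334) (nat_lit 5) (nat_lit 345) (nat_lit 5) (nat_lit 352) (nat_lit 345) (nat_lit 323)) (XT.lf (nat_lit 76) (nat_lit 1559534640) (nat_lit 0) (nat_lit 1046415391) (nat_lit 912) (nat_lit 4844403003) (nat_lit 324) (nat_lit 5) (nat_lit 323) (nat_lit 5) (nat_lit 335) (nat_lit 5) (nat_lit 353) (nat_lit 345) (nat_lit 322))))) (XT.nd (nat_lit 234) (nat_lit 3572) (nat_lit 0) (XT.nd (nat_lit 78) (nat_lit 1976) (nat_lit 0) (XT.lf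 (nat_lit 0) (nat_lit 992670126) (nat_lit 836) (nat_lit 4857497411) (nat_lit 912) (nat_lit 1725956508) (nat_lit 313) (nat_lit 5) (nat_lit 324) (nat_lit 5) (nat_lit 325) (nat_lit 5) (nat_lit 354) (nat_lit 345) (nat_lit 321)) (XT.nd (nat_lit 78) (nat_lit 988) (nat_lit 0) (XT.lf (nat_lit 0) (nat_lit 493039076) (nat_lit 912) (nat_lit 938961501) (nat_lit 988) (nat_lit 6278403309) (nat_lit 300) (nat_lit 5) (nat_lit 312) (nat_lit 5) (nat_lit 313) (nat_lit 5) (nat_lit 355) (nat_lit 345) (nat_lit 320)) (XT.lf (nat_lit 0) (nat_lit 34606385) (nat_lit 988) (nat_lit 4621313825) (nat_lit 1064) (nat_lit 3196729099) (nat_lit 287) (nat_lit 5) (nat_lit 300) (nat_lit 5) (nat_lit 301) (nat_lit 5) (nat_lit 356) (nat_lit 345) (nat_lit 319)))) (XT.nd (nat_lit 156) (nat_lit 2432) (nat_lit 0) (XT.nd (nat_lit 78) (nat_lit 1140) (nat_lit 0) (XT.lf (nat_lit 0) (nat_lit 7665010868) (nat_lit 988) (nat_lit 310052317) (nat_lit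 1064) (nat_lit 28996385) (nat_lit 287) (nat_lit 5) (nat_lit 300) (nat_lit 5) (nat_lit 301) (nat_lit 5) (nat_lit 357) (nat_lit 345) (nat_lit 318)) (XT.lf (nat_lit 0) (nat_lit 3202704795) (nat_lit 1140) (nat_lit 699693488) (nat_lit 76) (nat_lit 4260661479) (nat_lit 272) (nat_lit 5) (nat_lit 287) (nat_lit 5) (nat_lit 273) (nat_lit 5) (nat_lit 358) (nat_lit 345) (nat_lit 317))) (XT.nd (nat_lit 78) (nat_lit 1292) (nat_lit 0) (XT.lf (nat_lit 0) (nat_lit 6542435893) (nat_lit 1216) (nat_lit 989861967) (nat_lit 76) (nat_lit 799356780) (nat_lit 257) (nat_lit 5) (nat_lit 273) (nat_lit 5) (nat_lit 258) (nat_lit 5) (nat_lit 359) (nat_lit 345) (nat_lit 316)) (XT.lf (nat_lit 0) (nat_lit 1494189745) (nat_lit 1292) (nat_lit 1253770725) (nat_lit 76) (nat_lit 5760821038) (nat_lit 240) (nat_lit 5) (nat_lit 257) (nat_lit 5) (nat_lit 241) (nat_lit 5) (nat_lit 360) (nat_lit 345) (nat_lit 315))))))))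
noncomputable def xc58 : XT := (XT.nd (nat_lit 1872) (nat_lit 4408) (nat_lit 0) (XT.nd (nat_lit 936) (nat_lit 4180) (nat_lit 0) (XT.nd (nat_lit 468) (nat_lit 2812) (nat_lit 0) (XT.nd (nat_lit 234) (nat_lit 1596) (nat_lit 0) (XT.nd (nat_lit 78) (nat_lit 1292) (nat_lit 0) (XT.lf (nat_lit 0) (nat_lit 4879165967) (nat_lit 684) (nat_lit 1480089766) (nat_lit 76) (nat_lit 2335802409) (nat_lit 232) (nat_lit 5) (nat_lit 241) (nat_lit 5) (nat_lit 233) (nat_lit 5) (nat_lit 361) (nat_lit 345) (nat_lit 314)) (XT.nd (nat_lit 78) (nat_lit 684) (nat_lit 0) (XT.lf (nat_lit 0) (nat_lit 7233191201) (nat_lit 608) (nat_lit 1186808611) (nat_lit 684) (nat_lit 471104733) (nat_lit 224) (nat_lit 5) (nat_lit 232) (nat_lit 5) (nat_lit 233) (nat_lit 5) (nat_lit 362) (nat_lit 345) (nat_lit 313)) (XT.lf (nat_lit 0) (nat_lit 2988953794) (nat_lit 684) (nat_lit 1831378233) (nat_lit 76) (nat_lit 4275573287) (nat_lit 215) (nat_lit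 5) (nat_lit 224) (nat_lit 5) (nat_lit 216) (nat_lit 5) (nat_lit 363) (nat_lit 345) (nat_lit 312)))) (XT.nd (nat_lit 78) (nat_lit 1064) (nat_lit 0) (XT.lf (nat_lit 0) (nat_lit 6604075905) (nat_lit 608) (nat_lit 1956692073) (nat_lit 76) (nat_lit 750331824) (nat_lit 208) (nat_lit 5) (nat_lit 216) (nat_lit 5) (nat_lit 209) (nat_lit 5) (nat_lit 364) (nat_lit 345) (nat_lit 311)) (XT.nd (nat_lit 78) (nat_lit 456) (nat_lit 0) (XT.lf (nat_lit 0) (nat_lit 874527191) (nat_lit 608) (nat_lit 2068394909) (nat_lit 76) (nat_lit 6593073245) (nat_lit 200) (nat_lit 5) (nat_lit 208) (nat_lit 5) (nat_lit 201) (nat_lit 5) (nat_lit 365) (nat_lit 345) (nat_lit 310)) (XT.lf (nat_lit 0) (nat_lit 4594632227) (nat_lit 532) (nat_lit 2167980300) (nat_lit 76) (nat_lit 3008297247) (nat_lit 194) (nat_lit 5) (nat_lit 201) (nat_lit 5) (nat_lit 195) (nat_lit 5) (nat_lit 366) (nat_lit 345) (nat_lit 309))))) (XT.nd (nat_lit 234)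 (nat_lit 1292) (nat_lit 0) (XT.nd (nat_lit 78) (nat_lit 988) (nat_lit 0) (XT.lf (nat_lit 0) (nat_lit 7785954075) (nat_lit 532) (nat_lit 736474737) (nat_lit 608) (nat_lit 1494530552) (nat_lit 187) (nat_lit 5) (nat_lit 194) (nat_lit 5) (nat_lit 195) (nat_lit 5) (nat_lit 367) (nat_lit 345) (nat_lit 308)) (XT.nd (nat_lit 78) (nat_lit 456) (nat_lit 0) (XT.lf (nat_lit 0) (nat_lit 2377933270) (nat_lit 532) (nat_lit 2306510860) (nat_lit 76) (nat_lit 5588633419) (nat_lit 180) (nat_lit 5) (nat_lit 187) (nat_lit 5) (nat_lit 181) (nat_lit 5) (nat_lit 368) (nat_lit 345) (nat_lit 307)) (XT.lf (nat_lit 0) (nat_lit 6441890480) (nat_lit 532) (nat_lit 2359913940) (nat_lit 76) (nat_lit 1738925171) (nat_lit 174) (nat_lit 5) (nat_lit 181) (nat_lit 5) (nat_lit 175) (nat_lit 5) (nat_lit 369) (nat_lit 345) (nat_lit 306)))) (XT.nd (nat_lit 78) (nat_lit 912) (nat_lit 0) (XT.lf (nat_lit 0) (nat_lit 8418955776) (nat_lit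 380) (nat_lit 2347653607) (nat_lit 456) (nat_lit 53461508) (nat_lit 169) (nat_lit 5) (nat_lit 174) (nat_lit 5) (nat_lit 175) (nat_lit 5) (nat_lit 370) (nat_lit 345) (nat_lit 305)) (XT.nd (nat_lit 78) (nat_lit 380) (nat_lit 0) (XT.lf (nat_lit 0) (nat_lit 4172040810) (nat_lit 532) (nat_lit 2469126704) (nat_lit 76) (nat_lit 4469242288) (nat_lit 162) (nat_lit 5) (nat_lit 169) (nat_lit 5) (nat_lit 163) (nat_lit 5) (nat_lit 371) (nat_lit 345) (nat_lit 304)) (XT.lf (nat_lit 0) (nat_lit 8655343380) (nat_lit 456) (nat_lit 2510705622) (nat_lit 76) (nat_lit 247801414) (nat_lit 157) (nat_lit 5) (nat_lit 163) (nat_lit 5) (nat_lit 158) (nat_lit 5) (nat_lit 372) (nat_lit 345) (nat_lit 303)))))) (XT.nd (nat_lit 468) (nat_lit 1824) (nat_lit 0) (XT.nd (nat_lit 234) (nat_lit 1140) (nat_lit 0) (XT.nd (nat_lit 78) (nat_lit 760) (nat_lit 0) (XT.lf (nat_lit 0) (nat_lit 1694051604) (nat_lit 456) (nat_lit 2585012639)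 (nat_lit 76) (nat_lit 7450090471) (nat_lit 151) (nat_lit 5) (nat_lit 157) (nat_lit 5) (nat_lit 152) (nat_lit 5) (nat_lit 373) (nat_lit 345) (nat_lit 302)) (XT.nd (nat_lit 78) (nat_lit 380) (nat_lit 0) (XT.lf (nat_lit 0) (nat_lit 6374916372) (nat_lit 456) (nat_lit 2670131163) (nat_lit 76) (nat_lit 3012501516) (nat_lit 146) (nat_lit 5) (nat_lit 152) (nat_lit 5) (nat_lit 147) (nat_lit 5) (nat_lit 374) (nat_lit 345) (nat_lit 301)) (XT.lf (nat_lit 0) (nat_lit 9644117874) (nat_lit 380) (nat_lit 1727182244) (nat_lit 456) (nat_lit 1028643508) (nat_lit 141) (nat_lit 5) (nat_lit 146) (nat_lit 5) (nat_lit 147) (nat_lit 5) (nat_lit 375) (nat_lit 345) (nat_lit 300)))) (XT.nd (nat_lit 78) (nat_lit 760) (nat_lit 0) (XT.lf (nat_lit 0) (nat_lit 3885138119) (nat_lit 380) (nat_lit 2898139152) (nat_lit 76) (nat_lit 5972019687) (nat_lit 136) (nat_lit 5) (nat_lit 141) (nat_lit 5) (nat_lit 137) (nat_lit 5) (nat_lit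 376) (nat_lit 345) (nat_lit 299)) (XT.nd (nat_lit 78) (nat_lit 380) (nat_lit 0) (XT.lf (nat_lit 0) (nat_lit 9099429738) (nat_lit 456) (nat_lit 3044960563) (nat_lit 76) (nat_lit 981461107) (nat_lit 131) (nat_lit 5) (nat_lit 137) (nat_lit 5) (nat_lit 132) (nat_lit 5) (nat_lit 377) (nat_lit 345) (nat_lit 298)) (XT.lf (nat_lit 0) (nat_lit 1162964164) (nat_lit 380) (nat_lit 3243086046) (nat_lit 76) (nat_lit 9104873926) (nat_lit 126) (nat_lit 5) (nat_lit 131) (nat_lit 5) (nat_lit 127) (nat_lit 5) (nat_lit 378) (nat_lit 345) (nat_lit 297))))) (XT.nd (nat_lit 234) (nat_lit 836) (nat_lit 0) (XT.nd (nat_lit 78) (nat_lit 684) (nat_lit 0) (XT.lf (nat_lit 0) (nat_lit 6625935254) (nat_lit 380) (nat_lit 3496817853) (nat_lit 76) (nat_lit 3788398996) (nat_lit 122) (nat_lit 5) (nat_lit 127) (nat_lit 5) (nat_lit 123) (nat_lit 5) (nat_lit 379) (nat_lit 345) (nat_lit 296)) (XT.nd (nat_lit 78) (nat_lit 380) (nat_lit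 0) (XT.lf (nat_lit 0) (nat_lit 10548244162) (nat_lit 304) (nat_lit 1922889284) (nat_lit 380) (nat_lit 1857003981) (nat_lit 118) (nat_lit 5) (nat_lit 122) (nat_lit 5) (nat_lit 123) (nat_lit 5) (nat_lit 380) (nat_lit 345) (nat_lit 295)) (XT.lf (nat_lit 0) (nat_lit 3903443591) (nat_lit 380) (nat_lit 4156959007) (nat_lit 76) (nat_lit 6700403997) (nat_lit 113) (nat_lit 5) (nat_lit 118) (nat_lit 5) (nat_lit 114) (nat_lit 5) (nat_lit 381) (nat_lit 345) (nat_lit 294)))) (XT.nd (nat_lit 78) (nat_lit 608) (nat_lit 0) (XT.lf (nat_lit 0) (nat_lit 10014075261) (nat_lit 304) (nat_lit 4578820472) (nat_lit 76) (nat_lit 618661007) (nat_lit 110) (nat_lit 5) (nat_lit 114) (nat_lit 5) (nat_lit 111) (nat_lit 5) (nat_lit 382) (nat_lit 345) (nat_lit 293)) (XT.nd (nat_lit 78) (nat_lit 228) (nat_lit 0) (XT.lf (nat_lit 0) (nat_lit 893868883) (nat_lit 380) (nat_lit 5099305160) (nat_lit 76) (nat_lit 9686579701) (nat_lit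 105) (nat_lit 5) (nat_lit 110) (nat_lit 5) (nat_lit 106) (nat_lit 5) (nat_lit 383) (nat_lit 345) (nat_lit 292)) (XT.lf (nat_lit 0) (nat_lit 7299020502) (nat_lit 304) (nat_lit 5722174570) (nat_lit 76) (nat_lit 3145134152) (nat_lit 102) (nat_lit 5) (nat_lit 106) (nat_lit 5) (nat_lit 103) (nat_lit 5) (nat_lit 384) (nat_lit 345) (nat_lit 291))))))) (XT.nd (nat_lit 936) (nat_lit 1824) (nat_lit 0) (XT.nd (nat_lit 468) (nat_lit 1140) (nat_lit 0) (XT.nd (nat_lit 234) (nat_lit 684) (nat_lit 0) (XT.nd (nat_lit 78) (nat_lit 532) (nat_lit 0) (XT.lf (nat_lit 0) (nat_lit 10236753939) (nat_lit 228) (nat_lit 3937930304) (nat_lit 304) (nat_lit 2498055123) (nat_lit 99) (nat_lit 5) (nat_lit 102) (nat_lit 5) (nat_lit 103) (nat_lit 5) (nat_lit 385) (nat_lit 345) (nat_lit 290)) (XT.nd (nat_lit 78) (nat_lit 228) (nat_lit 0) (XT.lf (nat_lit 0) (nat_lit 4258400548) (nat_lit 304) (nat_lit 7287772954) (nat_lit 76) (nat_lit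 5652585966) (nat_lit 95) (nat_lit 5) (nat_lit 99) (nat_lit 5) (nat_lit 96) (nat_lit 5) (nat_lit 386) (nat_lit 345) (nat_lit 289)) (XT.lf (nat_lit 0) (nat_lit 9485425954) (nat_lit 228) (nat_lit 1955308481) (nat_lit 304) (nat_lit 6305424482) (nat_lit 92) (nat_lit 5) (nat_lit 95) (nat_lit 5) (nat_lit 96) (nat_lit 5) (nat_lit 387) (nat_lit 345) (nat_lit 288)))) (XT.nd (nat_lit 78) (nat_lit 380) (nat_lit 0) (XT.lf (nat_lit 0) (nat_lit 832760806) (nat_lit 304) (nat_lit 9390575779) (nat_lit 76) (nat_lit 8091879845) (nat_lit 88) (nat_lit 5) (nat_lit 92) (nat_lit 5) (nat_lit 89) (nat_lit 5) (nat_lit 388) (nat_lit 345) (nat_lit 287)) (XT.nd (nat_lit 78) (nat_lit 152) (nat_lit 0) (XT.lf (nat_lit 0) (nat_lit 8215977788) (nat_lit 228) (nat_lit 111531274) (nat_lit 304) (nat_lit 10579453558) (nat_lit 85) (nat_lit 5) (nat_lit 88) (nat_lit 5) (nat_lit 89) (nat_lit 5) (nat_lit 389) (nat_lit 345) (nat_lit 286))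 (XT.lf (nat_lit 0) (nat_lit 7324158722) (nat_lit 152) (nat_lit 9087567582) (nat_lit 228) (nat_lit 3110137858) (nat_lit 83) (nat_lit 5) (nat_lit 85) (nat_lit 5) (nat_lit 86) (nat_lit 5) (nat_lit 390) (nat_lit 345) (nat_lit 285))))) (XT.nd (nat_lit 234) (nat_lit 380) (nat_lit 0) (XT.nd (nat_lit 78) (nat_lit 456) (nat_lit 0) (XT.lf (nat_lit 0) (nat_lit 4774565871) (nat_lit 304) (nat_lit 13892015360) (nat_lit 76) (nat_lit 1495545797) (nat_lit 79) (nat_lit 5) (nat_lit 83) (nat_lit 5) (nat_lit 80) (nat_lit 5) (nat_lit 391) (nat_lit 345) (nat_lit 284)) (XT.nd (nat_lit 78) (nat_lit 304) (nat_lit 0) (XT.lf (nat_lit 0) (nat_lit 4970567890) (nat_lit 152) (nat_lit 8233807007) (nat_lit 228) (nat_lit 7622657357) (nat_lit 77) (nat_lit 5) (nat_lit 79) (nat_lit 5) (nat_lit 80) (nat_lit 5) (nat_lit 392) (nat_lit 345) (nat_lit 283)) (XT.lf (nat_lit 0) (nat_lit 675464657) (nat_lit 304) (nat_lit 18027086196) (nat_lit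 76) (nat_lit 2817827294) (nat_lit 73) (nat_lit 5) (nat_lit 77) (nat_lit 5) (nat_lit 74) (nat_lit 5) (nat_lit 393) (nat_lit 345) (nat_lit 282)))) (XT.nd (nat_lit 78) (nat_lit 228) (nat_lit 0) (XT.lf (nat_lit 0) (nat_lit 1684788133) (nat_lit 152) (nat_lit 7762361619) (nat_lit 228) (nat_lit 12792496016) (nat_lit 71) (nat_lit 5) (nat_lit 73) (nat_lit 5) (nat_lit 74) (nat_lit 5) (nat_lit 394) (nat_lit 345) (nat_lit 281)) (XT.nd (nat_lit 78) (nat_lit 228) (nat_lit 0) (XT.lf (nat_lit 0) (nat_lit 18832551993) (nat_lit 228) (nat_lit 351482451) (nat_lit 76) (nat_lit 3805595715) (nat_lit 71) (nat_lit 5) (nat_lit 74) (nat_lit 5) (nat_lit 72) (nat_lit 5) (nat_lit 395) (nat_lit 345) (nat_lit 280)) (XT.lf (nat_lit 0) (nat_lit 5052158282) (nat_lit 228) (nat_lit 2703340778) (nat_lit 76) (nat_lit 16013069713) (nat_lit 68) (nat_lit 5) (nat_lit 71) (nat_lit 5) (nat_lit 69) (nat_lit 5) (nat_lit 396) (nat_lit 345)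 (nat_lit 279)))))) (XT.nd (nat_lit 468) (nat_lit 760) (nat_lit 0) (XT.nd (nat_lit 234) (nat_lit 532) (nat_lit 0) (XT.nd (nat_lit 78) (nat_lit 380) (nat_lit 0) (XT.lf (nat_lit 0) (nat_lit 14823135426) (nat_lit 228) (nat_lit 5394791395) (nat_lit 76) (nat_lit 4361681607) (nat_lit 66) (nat_lit 5) (nat_lit 69) (nat_lit 5) (nat_lit 67) (nat_lit 5) (nat_lit 397) (nat_lit 345) (nat_lit 278)) (XT.nd (nat_lit 78) (nat_lit 228) (nat_lit 0) (XT.lf (nat_lit 0) (nat_lit 16969188190) (nat_lit 152) (nat_lit 8339264150) (nat_lit 228) (nat_lit 115980185) (nat_lit 64) (nat_lit 5) (nat_lit 66) (nat_lit 5) (nat_lit 67) (nat_lit 5) (nat_lit 398) (nat_lit 345) (nat_lit 277)) (XT.lf (nat_lit 0) (nat_lit 10004937274) (nat_lit 228) (nat_lit 11984128065) (nat_lit 76) (nat_lit 4313742632) (nat_lit 61) (nat_lit 5) (nat_lit 64) (nat_lit 5) (nat_lit 62) (nat_lit 5) (nat_lit 399) (nat_lit 345) (nat_lit 276)))) (XT.nd (nat_lit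 78) (nat_lit 380) (nat_lit 0) (XT.lf (nat_lit 0) (nat_lit 11244388849) (nat_lit 152) (nat_lit 9623547738) (nat_lit 228) (nat_lit 6349983563) (nat_lit 59) (nat_lit 5) (nat_lit 61) (nat_lit 5) (nat_lit 62) (nat_lit 5) (nat_lit 400) (nat_lit 345) (nat_lit 275)) (XT.nd (nat_lit 78) (nat_lit 152) (nat_lit 0) (XT.lf (nat_lit 0) (nat_lit 4207936469) (nat_lit 228) (nat_lit 20459965546) (nat_lit 76) (nat_lit 3503933387) (nat_lit 56) (nat_lit 5) (nat_lit 59) (nat_lit 5) (nat_lit 57) (nat_lit 5) (nat_lit 401) (nat_lit 345) (nat_lit 274)) (XT.lf (nat_lit 0) (nat_lit 3582061219) (nat_lit 152) (nat_lit 11839316154) (nat_lit 228) (nat_lit 13742419140) (nat_lit 54) (nat_lit 5) (nat_lit 56) (nat_lit 5) (nat_lit 57) (nat_lit 5) (nat_lit 402) (nat_lit 345) (nat_lit 273))))) (XT.nd (nat_lit 234) (nat_lit 456) (nat_lit 0) (XT.nd (nat_lit 78) (nat_lit 304) (nat_lit 0) (XT.lf (nat_lit 0) (nat_lit 27384902907) (nat_lit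 228) (nat_lit 1033674975) (nat_lit 76) (nat_lit 1781099990) (nat_lit 54) (nat_lit 5) (nat_lit 57) (nat_lit 5) (nat_lit 55) (nat_lit 4) (nat_lit 403) (nat_lit 345) (nat_lit 272)) (XT.nd (nat_lit 78) (nat_lit 152) (nat_lit 0) (XT.lf (nat_lit 0) (nat_lit 8816596108) (nat_lit 152) (nat_lit 6320373378) (nat_lit 76) (nat_lit 16138101359) (nat_lit 52) (nat_lit 5) (nat_lit 54) (nat_lit 5) (nat_lit 53) (nat_lit 5) (nat_lit 404) (nat_lit 345) (nat_lit 271)) (XT.lf (nat_lit 0) (nat_lit 20158977779) (nat_lit 152) (nat_lit 981080922) (nat_lit 228) (nat_lit 11258280615) (nat_lit 50) (nat_lit 5) (nat_lit 52) (nat_lit 5) (nat_lit 53) (nat_lit 5) (nat_lit 405) (nat_lit 345) (nat_lit 270)))) (XT.nd (nat_lit 156) (nat_lit 152) (nat_lit 0) (XT.nd (nat_lit 78) (nat_lit 152) (nat_lit 0) (XT.lf (nat_lit 0) (nat_lit 799181996) (nat_lit 152) (nat_lit 18971984780) (nat_lit 76) (nat_lit 13797251815) (nat_lit 48) (nat_lit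 5) (nat_lit 50) (nat_lit 5) (nat_lit 49) (nat_lit 5) (nat_lit 406) (nat_lit 345) (nat_lit 269)) (XT.lf (nat_lit 0) (nat_lit 8208174036) (nat_lit 152) (nat_lit 5201958543) (nat_lit 228) (nat_lit 21378025153) (nat_lit 46) (nat_lit 5) (nat_lit 48) (nat_lit 5) (nat_lit 49) (nat_lit 5) (nat_lit 407) (nat_lit 345) (nat_lit 268))) (XT.nd (nat_lit 78) (nat_lit 76) (nat_lit 0) (XT.lf (nat_lit 0) (nat_lit 937394018) (nat_lit 76) (nat_lit 25983558853) (nat_lit 152) (nat_lit 9139854665) (nat_lit 45) (nat_lit 5) (nat_lit 46) (nat_lit 5) (nat_lit 47) (nat_lit 4) (nat_lit 408) (nat_lit 345) (nat_lit 267)) (XT.lf (nat_lit 0) (nat_lit 3933390344) (nat_lit 152) (nat_lit 7155236710) (nat_lit 76) (nat_lit 26298528975) (nat_lit 44) (nat_lit 5) (nat_lit 46) (nat_lit 5) (nat_lit 45) (nat_lit 5) (nat_lit 409) (nat_lit 345) (nat_lit 266))))))))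
noncomputable def xc59 : XT := (XT.nd (nat_lit 1950) (nat_lit 76) (nat_lit 0) (XT.nd (nat_lit 936) (nat_lit 760) (nat_lit 0) (XT.nd (nat_lit 468) (nat_lit 456) (nat_lit 0) (XT.nd (nat_lit 234) (nat_lit 304) (nat_lit 0) (XT.nd (nat_lit 78) (nat_lit 304) (nat_lit 0) (XT.lf (nat_lit 0) (nat_lit 17704169563) (nat_lit 228) (nat_lit 16318547281) (nat_lit 76) (nat_lit 4747406320) (nat_lit 42) (nat_lit 5) (nat_lit 45) (nat_lit 5) (nat_lit 43) (nat_lit 4) (nat_lit 410) (nat_lit 345) (nat_lit 265)) (XT.nd (nat_lit 78) (nat_lit 228) (nat_lit 0) (XT.lf (nat_lit 0) (nat_lit 13562608338) (nat_lit 76) (nat_lit 18886585610) (nat_lit 152) (nat_lit 7764476351) (nat_lit 41) (nat_lit 5) (nat_lit 42) (nat_lit 5) (nat_lit 43) (nat_lit 4) (nat_lit 411) (nat_lit 345) (nat_lit 264)) (XT.lf (nat_lit 0) (nat_lit 3505014506) (nat_lit 152) (nat_lit 2749040668) (nat_lit 228) (nat_lit 35468363534) (nat_lit 38) (nat_lit 5)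 (nat_lit 40) (nat_lit 5) (nat_lit 41) (nat_lit 5) (nat_lit 412) (nat_lit 345) (nat_lit 263)))) (XT.nd (nat_lit 78) (nat_lit 304) (nat_lit 0) (XT.lf (nat_lit 0) (nat_lit 21198280377) (nat_lit 228) (nat_lit 7845683828) (nat_lit 76) (nat_lit 14248776092) (nat_lit 38) (nat_lit 5) (nat_lit 41) (nat_lit 5) (nat_lit 39) (nat_lit 4) (nat_lit 413) (nat_lit 345) (nat_lit 262)) (XT.nd (nat_lit 78) (nat_lit 228) (nat_lit 0) (XT.lf (nat_lit 0) (nat_lit 24440858719) (nat_lit 76) (nat_lit 12683293396) (nat_lit 152) (nat_lit 7810395167) (nat_lit 37) (nat_lit 5) (nat_lit 38) (nat_lit 5) (nat_lit 39) (nat_lit 4) (nat_lit 414) (nat_lit 345) (nat_lit 261)) (XT.lf (nat_lit 0) (nat_lit 7262088398) (nat_lit 228) (nat_lit 34735728148) (nat_lit 76) (nat_lit 4652123130) (nat_lit 34) (nat_lit 5) (nat_lit 37) (nat_lit 5) (nat_lit 35) (nat_lit 4) (nat_lit 415) (nat_lit 345) (nat_lit 260))))) (XT.nd (nat_lit 234) (nat_lit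 228) (nat_lit 0) (XT.nd (nat_lit 78) (nat_lit 228) (nat_lit 0) (XT.lf (nat_lit 0) (nat_lit 23242166160) (nat_lit 228) (nat_lit 2334016388) (nat_lit 76) (nat_lit 22863136286) (nat_lit 34) (nat_lit 5) (nat_lit 37) (nat_lit 5) (nat_lit 35) (nat_lit 4) (nat_lit 416) (nat_lit 345) (nat_lit 259)) (XT.nd (nat_lit 78) (nat_lit 152) (nat_lit 0) (XT.lf (nat_lit 0) (nat_lit 32268822339) (nat_lit 76) (nat_lit 8036832799) (nat_lit 152) (nat_lit 10003981580) (nat_lit 33) (nat_lit 5) (nat_lit 34) (nat_lit 5) (nat_lit 35) (nat_lit 4) (nat_lit 417) (nat_lit 345) (nat_lit 258)) (XT.lf (nat_lit 0) (nat_lit 6093252400) (nat_lit 152) (nat_lit 35772430750) (nat_lit 76) (nat_lit 10398259036) (nat_lit 31) (nat_lit 5) (nat_lit 33) (nat_lit 5) (nat_lit 32) (nat_lit 4) (nat_lit 418) (nat_lit 345) (nat_lit 257)))) (XT.nd (nat_lit 78) (nat_lit 228) (nat_lit 0) (XT.lf (nat_lit 0) (nat_lit 23034334603) (nat_lit 152) (nat_lit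 1413774538) (nat_lit 76) (nat_lit 29857507534) (nat_lit 31) (nat_lit 5) (nat_lit 33) (nat_lit 5) (nat_lit 32) (nat_lit 4) (nat_lit 419) (nat_lit 345) (nat_lit 256)) (XT.nd (nat_lit 78) (nat_lit 152) (nat_lit 0) (XT.lf (nat_lit 0) (nat_lit 35307109576) (nat_lit 76) (nat_lit 5831221733) (nat_lit 152) (nat_lit 15301569435) (nat_lit 30) (nat_lit 5) (nat_lit 31) (nat_lit 5) (nat_lit 32) (nat_lit 4) (nat_lit 420) (nat_lit 345) (nat_lit 255)) (XT.lf (nat_lit 0) (nat_lit 1711636463) (nat_lit 152) (nat_lit 43353040792) (nat_lit 76) (nat_lit 13607591558) (nat_lit 28) (nat_lit 5) (nat_lit 30) (nat_lit 5) (nat_lit 29) (nat_lit 4) (nat_lit 421) (nat_lit 345) (nat_lit 254)))))) (XT.nd (nat_lit 468) (nat_lit 456) (nat_lit 0) (XT.nd (nat_lit 234) (nat_lit 152) (nat_lit 0) (XT.nd (nat_lit 78) (nat_lit 152) (nat_lit 0) (XT.lf (nat_lit 0) (nat_lit 19517974578) (nat_lit 152) (nat_lit 7232794589) (nat_lit 76) (nat_lit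 34253174612) (nat_lit 28) (nat_lit 5) (nat_lit 30) (nat_lit 5) (nat_lit 29) (nat_lit 4) (nat_lit 422) (nat_lit 345) (nat_lit 253)) (XT.nd (nat_lit 78) (nat_lit 76) (nat_lit 0) (XT.lf (nat_lit 0) (nat_lit 31262484082) (nat_lit 76) (nat_lit 7231170897) (nat_lit 152) (nat_lit 24950178153) (nat_lit 27) (nat_lit 5) (nat_lit 28) (nat_lit 5) (nat_lit 29) (nat_lit 4) (nat_lit 423) (nat_lit 345) (nat_lit 252)) (XT.lf (nat_lit 0) (nat_lit 5774331008) (nat_lit 76) (nat_lit 52880961674) (nat_lit 76) (nat_lit 7343310406) (nat_lit 26) (nat_lit 4) (nat_lit 27) (nat_lit 5) (nat_lit 27) (nat_lit 4) (nat_lit 424) (nat_lit 345) (nat_lit 251)))) (XT.nd (nat_lit 78) (nat_lit 76) (nat_lit 0) (XT.lf (nat_lit 0) (nat_lit 11313378481) (nat_lit 152) (nat_lit 22593818682) (nat_lit 76) (nat_lit 34759093888) (nat_lit 25) (nat_lit 5) (nat_lit 27) (nat_lit 5) (nat_lit 26) (nat_lit 4) (nat_lit 425) (nat_lit 345) (nat_lit 250))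 (XT.nd (nat_lit 78) (nat_lit 0) (nat_lit 0) (XT.lf (nat_lit 0) (nat_lit 17140854452) (nat_lit 76) (nat_lit 13756728825) (nat_lit 152) (nat_lit 40563203559) (nat_lit 24) (nat_lit 5) (nat_lit 25) (nat_lit 5) (nat_lit 26) (nat_lit 4) (nat_lit 426) (nat_lit 345) (nat_lit 249)) (XT.lf (nat_lit 0) (nat_lit 51747816623) (nat_lit 152) (nat_lit 15164061703) (nat_lit 0) (nat_lit 7474525653) (nat_lit 24) (nat_lit 5) (nat_lit 26) (nat_lit 4) (nat_lit 24) (nat_lit 4) (nat_lit 427) (nat_lit 345) (nat_lit 248))))) (XT.nd (nat_lit 234) (nat_lit 228) (nat_lit 0) (XT.nd (nat_lit 78) (nat_lit 152) (nat_lit 0) (XT.lf (nat_lit 0) (nat_lit 26288508261) (nat_lit 76) (nat_lit 47725306127) (nat_lit 76) (nat_lit 3433291073) (nat_lit 23) (nat_lit 4) (nat_lit 24) (nat_lit 5) (nat_lit 24) (nat_lit 4) (nat_lit 428) (nat_lit 345) (nat_lit 247)) (XT.nd (nat_lit 78) (nat_lit 76) (nat_lit 0) (XT.lf (nat_lit 0) (nat_lit 16545476521)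 (nat_lit 152) (nat_lit 10722530176) (nat_lit 76) (nat_lit 53383819680) (nat_lit 22) (nat_lit 5) (nat_lit 24) (nat_lit 5) (nat_lit 23) (nat_lit 4) (nat_lit 429) (nat_lit 345) (nat_lit 246)) (XT.lf (nat_lit 0) (nat_lit 32298008276) (nat_lit 76) (nat_lit 5448217875) (nat_lit 152) (nat_lit 46260716855) (nat_lit 21) (nat_lit 5) (nat_lit 22) (nat_lit 5) (nat_lit 23) (nat_lit 4) (nat_lit 430) (nat_lit 345) (nat_lit 245)))) (XT.nd (nat_lit 156) (nat_lit 152) (nat_lit 0) (XT.nd (nat_lit 78) (nat_lit 76) (nat_lit 0) (XT.lf (nat_lit 0) (nat_lit 60269624700) (nat_lit 152) (nat_lit 10034150151) (nat_lit 0) (nat_lit 17218163166) (nat_lit 21) (nat_lit 5) (nat_lit 23) (nat_lit 4) (nat_lit 21) (nat_lit 4) (nat_lit 431) (nat_lit 345) (nat_lit 244)) (XT.lf (nat_lit 0) (nat_lit 34308061734) (nat_lit 76) (nat_lit 49979986725) (nat_lit 76) (nat_lit 6913569511) (nat_lit 20) (nat_lit 4) (nat_lit 21) (nat_lit 5) (nat_lit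 21) (nat_lit 4) (nat_lit 432) (nat_lit 345) (nat_lit 243))) (XT.nd (nat_lit 78) (nat_lit 76) (nat_lit 0) (XT.lf (nat_lit 0) (nat_lit 14249001302) (nat_lit 152) (nat_lit 14155188073) (nat_lit 76) (nat_lit 66654267317) (nat_lit 19) (nat_lit 5) (nat_lit 21) (nat_lit 5) (nat_lit 20) (nat_lit 4) (nat_lit 433) (nat_lit 345) (nat_lit 242)) (XT.lf (nat_lit 0) (nat_lit 31230961705) (nat_lit 76) (nat_lit 5382431234) (nat_lit 152) (nat_lit 62484091362) (nat_lit 18) (nat_lit 5) (nat_lit 19) (nat_lit 5) (nat_lit 20) (nat_lit 4) (nat_lit 434) (nat_lit 345) (nat_lit 241))))))) (XT.nd (nat_lit 46956) (nat_lit 0) (nat_lit 12388) (XT.nd (nat_lit 46488) (nat_lit 0) (nat_lit 22420) (XT.nd (nat_lit 46254) (nat_lit 0) (nat_lit 24624) (XT.nd (nat_lit 78) (nat_lit 76) (nat_lit 0) (XT.lf (nat_lit 0) (nat_lit 60409231240) (nat_lit 152) (nat_lit 24362202029) (nat_lit 0) (nat_lit 18557633920) (nat_lit 18) (nat_lit 5) (nat_lit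 20) (nat_lit 4) (nat_lit 18) (nat_lit 4) (nat_lit 435) (nat_lit 345) (nat_lit 240)) (XT.nd (nat_lit 46098) (nat_lit 0) (nat_lit 25308) (XT.lf (nat_lit 0) (nat_lit 21658730822) (nat_lit 76) (nat_lit 63984791144) (nat_lit 76) (nat_lit 22121248120) (nat_lit 17) (nat_lit 4) (nat_lit 18) (nat_lit 5) (nat_lit 18) (nat_lit 4) (nat_lit 436) (nat_lit 345) (nat_lit 239)) (XT.lf (nat_lit 0) (nat_lit 2032136204) (nat_lit 684) (nat_lit 699174709) (nat_lit 684) (nat_lit 699174709) (nat_lit 350) (nat_lit 3) (nat_lit 359) (nat_lit 3) (nat_lit 359) (nat_lit 5) (nat_lit 346) (nat_lit 346) (nat_lit 328)))) (XT.nd (nat_lit 78) (nat_lit 0) (nat_lit 0) (XT.lf (nat_lit 0) (nat_lit 417353596) (nat_lit 684) (nat_lit 2725184464) (nat_lit 760) (nat_lit 3792092315) (nat_lit 341) (nat_lit 5) (nat_lit 350) (nat_lit 3) (nat_lit 351) (nat_lit 5) (nat_lit 347) (nat_lit 346) (nat_lit 327)) (XT.nd (nat_lit 78) (nat_lit 0) (nat_lit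 76) (XT.lf (nat_lit 76) (nat_lit 3035874372) (nat_lit 0) (nat_lit 537605918) (nat_lit 760) (nat_lit 3442603596) (nat_lit 342) (nat_lit 5) (nat_lit 341) (nat_lit 5) (nat_lit 351) (nat_lit 5) (nat_lit 348) (nat_lit 346) (nat_lit 326)) (XT.lf (nat_lit 76) (nat_lit 1943686854) (nat_lit 0) (nat_lit 4816411182) (nat_lit 760) (nat_lit 345444334) (nat_lit 343) (nat_lit 5) (nat_lit 342) (nat_lit 5) (nat_lit 352) (nat_lit 5) (nat_lit 349) (nat_lit 346) (nat_lit 325))))) (XT.nd (nat_lit 234) (nat_lit 760) (nat_lit 0) (XT.nd (nat_lit 78) (nat_lit 760) (nat_lit 0) (XT.lf (nat_lit 76) (nat_lit 918248249) (nat_lit 0) (nat_lit 1798067514) (nat_lit 836) (nat_lit 4486430336) (nat_lit 333) (nat_lit 5) (nat_lit 332) (nat_lit 5) (nat_lit 343) (nat_lit 5) (nat_lit 350) (nat_lit 346) (nat_lit 324)) (XT.nd (nat_lit 78) (nat_lit 836) (nat_lit 0) (XT.lf (nat_lit 0) (nat_lit 5810368850) (nat_lit 760) (nat_lit 27714412)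 (nat_lit 836) (nat_lit 1470133032) (nat_lit 333) (nat_lit 5) (nat_lit 343) (nat_lit 5) (nat_lit 344) (nat_lit 5) (nat_lit 351) (nat_lit 346) (nat_lit 323)) (XT.lf (nat_lit 0) (nat_lit 1516212549) (nat_lit 836) (nat_lit 897213403) (nat_lit 912) (nat_lit 5007911332) (nat_lit 322) (nat_lit 5) (nat_lit 333) (nat_lit 5) (nat_lit 334) (nat_lit 5) (nat_lit 352) (nat_lit 346) (nat_lit 322)))) (XT.nd (nat_lit 78) (nat_lit 836) (nat_lit 0) (XT.lf (nat_lit 0) (nat_lit 4552876545) (nat_lit 836) (nat_lit 1704694413) (nat_lit 912) (nat_lit 1285099599) (nat_lit 323) (nat_lit 5) (nat_lit 334) (nat_lit 5) (nat_lit 335) (nat_lit 5) (nat_lit 353) (nat_lit 346) (nat_lit 321)) (XT.nd (nat_lit 78) (nat_lit 836) (nat_lit 0) (XT.lf (nat_lit 76) (nat_lit 5222058048) (nat_lit 0) (nat_lit 2444032093) (nat_lit 912) (nat_lit 6322196) (nat_lit 324) (nat_lit 5) (nat_lit 323) (nat_lit 5) (nat_lit 335) (nat_lit 5) (nat_lit 354)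 (nat_lit 346) (nat_lit 320)) (XT.lf (nat_lit 0) (nat_lit 2989980158) (nat_lit 912) (nat_lit 3157463144) (nat_lit 76) (nat_lit 1662633512) (nat_lit 312) (nat_lit 5) (nat_lit 324) (nat_lit 5) (nat_lit 313) (nat_lit 5) (nat_lit 355) (nat_lit 346) (nat_lit 319)))))) (XT.nd (nat_lit 468) (nat_lit 3952) (nat_lit 0) (XT.nd (nat_lit 234) (nat_lit 3040) (nat_lit 0) (XT.nd (nat_lit 78) (nat_lit 2128) (nat_lit 0) (XT.lf (nat_lit 0) (nat_lit 4148292352) (nat_lit 912) (nat_lit 1930084845) (nat_lit 988) (nat_lit 1878046516) (nat_lit 300) (nat_lit 5) (nat_lit 312) (nat_lit 5) (nat_lit 313) (nat_lit 5) (nat_lit 356) (nat_lit 346) (nat_lit 318)) (XT.nd (nat_lit 78) (nat_lit 1064) (nat_lit 0) (XT.lf (nat_lit 0) (nat_lit 1138015208) (nat_lit 1064) (nat_lit 4415597004) (nat_lit 76) (nat_lit 2557678082) (nat_lit 286) (nat_lit 5) (nat_lit 300) (nat_lit 5) (nat_lit 287) (nat_lit 5) (nat_lit 357) (nat_lit 346) (nat_lit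 317)) (XT.lf (nat_lit 0) (nat_lit 3290484259) (nat_lit 1064) (nat_lit 929467208) (nat_lit 1140) (nat_lit 4054838156) (nat_lit 272) (nat_lit 5) (nat_lit 286) (nat_lit 5) (nat_lit 287) (nat_lit 5) (nat_lit 358) (nat_lit 346) (nat_lit 316)))) (XT.nd (nat_lit 78) (nat_lit 1900) (nat_lit 0) (XT.lf (nat_lit 0) (nat_lit 2930726194) (nat_lit 1140) (nat_lit 4505545913) (nat_lit 1216) (nat_lit 1010844730) (nat_lit 257) (nat_lit 5) (nat_lit 272) (nat_lit 5) (nat_lit 273) (nat_lit 5) (nat_lit 359) (nat_lit 346) (nat_lit 315)) (XT.nd (nat_lit 78) (nat_lit 608) (nat_lit 0) (XT.lf (nat_lit 0) (nat_lit 2106459908) (nat_lit 1292) (nat_lit 6010858012) (nat_lit 76) (nat_lit 511256527) (nat_lit 240) (nat_lit 5) (nat_lit 257) (nat_lit 5) (nat_lit 241) (nat_lit 5) (nat_lit 360) (nat_lit 346) (nat_lit 314)) (XT.lf (nat_lit 0) (nat_lit 2328565550) (nat_lit 608) (nat_lit 3032974831) (nat_lit 684) (nat_lit 3457234013)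 (nat_lit 232) (nat_lit 5) (nat_lit 240) (nat_lit 5) (nat_lit 241) (nat_lit 5) (nat_lit 361) (nat_lit 346) (nat_lit 313))))) (XT.nd (nat_lit 234) (nat_lit 2128) (nat_lit 0) (XT.nd (nat_lit 78) (nat_lit 1216) (nat_lit 0) (XT.lf (nat_lit 0) (nat_lit 2094733451) (nat_lit 608) (nat_lit 6671628027) (nat_lit 684) (nat_lit 252564880) (nat_lit 224) (nat_lit 5) (nat_lit 232) (nat_lit 5) (nat_lit 233) (nat_lit 5) (nat_lit 362) (nat_lit 346) (nat_lit 312)) (XT.nd (nat_lit 78) (nat_lit 532) (nat_lit 0) (XT.lf (nat_lit 0) (nat_lit 1876623976) (nat_lit 608) (nat_lit 1176648419) (nat_lit 684) (nat_lit 6174913694) (nat_lit 215) (nat_lit 5) (nat_lit 223) (nat_lit 5) (nat_lit 224) (nat_lit 5) (nat_lit 363) (nat_lit 346) (nat_lit 311)) (XT.lf (nat_lit 0) (nat_lit 1685633397) (nat_lit 532) (nat_lit 4855812934) (nat_lit 608) (nat_lit 2905764866) (nat_lit 208) (nat_lit 5) (nat_lit 215) (nat_lit 5) (nat_lit 216) (nat_lit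 5) (nat_lit 364) (nat_lit 346) (nat_lit 310)))) (XT.nd (nat_lit 156) (nat_lit 1064) (nat_lit 0) (XT.nd (nat_lit 78) (nat_lit 456) (nat_lit 0) (XT.lf (nat_lit 0) (nat_lit 522698770) (nat_lit 608) (nat_lit 8136300999) (nat_lit 76) (nat_lit 1017893754) (nat_lit 200) (nat_lit 5) (nat_lit 208) (nat_lit 5) (nat_lit 201) (nat_lit 5) (nat_lit 365) (nat_lit 346) (nat_lit 309)) (XT.lf (nat_lit 0) (nat_lit 1387500258) (nat_lit 456) (nat_lit 2715472446) (nat_lit 532) (nat_lit 5813049706) (nat_lit 194) (nat_lit 5) (nat_lit 200) (nat_lit 5) (nat_lit 201) (nat_lit 5) (nat_lit 366) (nat_lit 346) (nat_lit 308))) (XT.nd (nat_lit 78) (nat_lit 532) (nat_lit 0) (XT.lf (nat_lit 0) (nat_lit 1268505311) (nat_lit 532) (nat_lit 6625026569) (nat_lit 608) (nat_lit 2272675839) (nat_lit 187) (nat_lit 5) (nat_lit 194) (nat_lit 5) (nat_lit 195) (nat_lit 5) (nat_lit 367) (nat_lit 346) (nat_lit 307)) (XT.lf (nat_lit 0) (nat_lit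 1174967493) (nat_lit 456) (nat_lit 272209767) (nat_lit 532) (nat_lit 8980424094) (nat_lit 180) (nat_lit 5) (nat_lit 186) (nat_lit 5) (nat_lit 187) (nat_lit 5) (nat_lit 368) (nat_lit 346) (nat_lit 306))))))))
noncomputable def xc60 : XT := (XT.nd (nat_lit 1872) (nat_lit 3420) (nat_lit 0) (XT.nd (nat_lit 936) (nat_lit 3268) (nat_lit 0) (XT.nd (nat_lit 468) (nat_lit 1824) (nat_lit 0) (XT.nd (nat_lit 234) (nat_lit 1216) (nat_lit 0) (XT.nd (nat_lit 78) (nat_lit 912) (nat_lit 0) (XT.lf (nat_lit 0) (nat_lit 1060680962) (nat_lit 456) (nat_lit 4316652384) (nat_lit 532) (nat_lit 5321950460) (nat_lit 174) (nat_lit 5) (nat_lit 180) (nat_lit 5) (nat_lit 181) (nat_lit 5) (nat_lit 369) (nat_lit 346) (nat_lit 305)) (XT.nd (nat_lit 78) (nat_lit 532) (nat_lit 0) (XT.lf (nat_lit 0) (nat_lit 982067925) (nat_lit 380) (nat_lit 8563042000) (nat_lit 456) (nat_lit 1438239047) (nat_lit 169) (nat_lit 5) (nat_lit 174) (nat_lit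 5) (nat_lit 175) (nat_lit 5) (nat_lit 370) (nat_lit 346) (nat_lit 304)) (XT.lf (nat_lit 0) (nat_lit 893618683) (nat_lit 456) (nat_lit 1759130922) (nat_lit 532) (nat_lit 8626198108) (nat_lit 162) (nat_lit 5) (nat_lit 168) (nat_lit 5) (nat_lit 169) (nat_lit 5) (nat_lit 371) (nat_lit 346) (nat_lit 303)))) (XT.nd (nat_lit 78) (nat_lit 836) (nat_lit 0) (XT.lf (nat_lit 0) (nat_lit 794602636) (nat_lit 380) (nat_lit 6202760786) (nat_lit 456) (nat_lit 4589199302) (nat_lit 157) (nat_lit 5) (nat_lit 162) (nat_lit 5) (nat_lit 163) (nat_lit 5) (nat_lit 372) (nat_lit 346) (nat_lit 302)) (XT.nd (nat_lit 78) (nat_lit 456) (nat_lit 0) (XT.lf (nat_lit 0) (nat_lit 721898715) (nat_lit 380) (nat_lit 10896766303) (nat_lit 456) (nat_lit 289136572) (nat_lit 152) (nat_lit 5) (nat_lit 157) (nat_lit 5) (nat_lit 158) (nat_lit 5) (nat_lit 373) (nat_lit 346) (nat_lit 301)) (XT.lf (nat_lit 0) (nat_lit 595260865) (nat_lit 380)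 (nat_lit 3648757691) (nat_lit 456) (nat_lit 7996873397) (nat_lit 146) (nat_lit 5) (nat_lit 151) (nat_lit 5) (nat_lit 152) (nat_lit 5) (nat_lit 374) (nat_lit 346) (nat_lit 300))))) (XT.nd (nat_lit 234) (nat_lit 684) (nat_lit 0) (XT.nd (nat_lit 78) (nat_lit 760) (nat_lit 0) (XT.lf (nat_lit 0) (nat_lit 472907644) (nat_lit 380) (nat_lit 8606494526) (nat_lit 456) (nat_lit 3508725881) (nat_lit 141) (nat_lit 5) (nat_lit 146) (nat_lit 5) (nat_lit 147) (nat_lit 5) (nat_lit 375) (nat_lit 346) (nat_lit 299)) (XT.nd (nat_lit 78) (nat_lit 380) (nat_lit 0) (XT.lf (nat_lit 0) (nat_lit 344017364) (nat_lit 304) (nat_lit 922034821) (nat_lit 380) (nat_lit 11683777018) (nat_lit 136) (nat_lit 5) (nat_lit 140) (nat_lit 5) (nat_lit 141) (nat_lit 5) (nat_lit 376) (nat_lit 346) (nat_lit 298)) (XT.lf (nat_lit 0) (nat_lit 147404367) (nat_lit 380) (nat_lit 6183189583) (nat_lit 456) (nat_lit 6994292342) (nat_lit 131) (nat_lit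 5) (nat_lit 136) (nat_lit 5) (nat_lit 137) (nat_lit 5) (nat_lit 377) (nat_lit 346) (nat_lit 297)))) (XT.nd (nat_lit 78) (nat_lit 684) (nat_lit 0) (XT.lf (nat_lit 0) (nat_lit 11735693372) (nat_lit 456) (nat_lit 44104263) (nat_lit 76) (nat_lit 1936298487) (nat_lit 131) (nat_lit 5) (nat_lit 137) (nat_lit 5) (nat_lit 132) (nat_lit 5) (nat_lit 378) (nat_lit 346) (nat_lit 296)) (XT.nd (nat_lit 78) (nat_lit 304) (nat_lit 0) (XT.lf (nat_lit 0) (nat_lit 3349403000) (nat_lit 380) (nat_lit 299598775) (nat_lit 76) (nat_lit 10473056657) (nat_lit 126) (nat_lit 5) (nat_lit 131) (nat_lit 5) (nat_lit 127) (nat_lit 5) (nat_lit 379) (nat_lit 346) (nat_lit 295)) (XT.lf (nat_lit 0) (nat_lit 9022407684) (nat_lit 380) (nat_lit 602059786) (nat_lit 76) (nat_lit 4919750598) (nat_lit 122) (nat_lit 5) (nat_lit 127) (nat_lit 5) (nat_lit 123) (nat_lit 5) (nat_lit 380) (nat_lit 346) (nat_lit 294)))))) (XT.nd (nat_lit 468)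 (nat_lit 1520) (nat_lit 0) (XT.nd (nat_lit 234) (nat_lit 836) (nat_lit 0) (XT.nd (nat_lit 78) (nat_lit 532) (nat_lit 0) (XT.lf (nat_lit 0) (nat_lit 103947760) (nat_lit 380) (nat_lit 927921820) (nat_lit 76) (nat_lit 13952268463) (nat_lit 117) (nat_lit 5) (nat_lit 122) (nat_lit 5) (nat_lit 118) (nat_lit 5) (nat_lit 381) (nat_lit 346) (nat_lit 293)) (XT.nd (nat_lit 78) (nat_lit 228) (nat_lit 0) (XT.lf (nat_lit 0) (nat_lit 6056092974) (nat_lit 380) (nat_lit 1379797096) (nat_lit 76) (nat_lit 8003760203) (nat_lit 113) (nat_lit 5) (nat_lit 118) (nat_lit 5) (nat_lit 114) (nat_lit 5) (nat_lit 382) (nat_lit 346) (nat_lit 292)) (XT.lf (nat_lit 0) (nat_lit 12416597147) (nat_lit 304) (nat_lit 1860785322) (nat_lit 76) (nat_lit 1637247722) (nat_lit 110) (nat_lit 5) (nat_lit 114) (nat_lit 5) (nat_lit 111) (nat_lit 5) (nat_lit 383) (nat_lit 346) (nat_lit 291)))) (XT.nd (nat_lit 78) (nat_lit 456) (nat_lit 0) (XT.lf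 (nat_lit 0) (nat_lit 2795959520) (nat_lit 380) (nat_lit 2454386934) (nat_lit 76) (nat_lit 11157257117) (nat_lit 105) (nat_lit 5) (nat_lit 110) (nat_lit 5) (nat_lit 106) (nat_lit 5) (nat_lit 384) (nat_lit 346) (nat_lit 290)) (XT.nd (nat_lit 78) (nat_lit 228) (nat_lit 0) (XT.lf (nat_lit 0) (nat_lit 9469809553) (nat_lit 304) (nat_lit 3147059380) (nat_lit 76) (nat_lit 4303205474) (nat_lit 102) (nat_lit 5) (nat_lit 106) (nat_lit 5) (nat_lit 103) (nat_lit 5) (nat_lit 385) (nat_lit 346) (nat_lit 289)) (XT.lf (nat_lit 0) (nat_lit 13527799145) (nat_lit 228) (nat_lit 3102180491) (nat_lit 304) (nat_lit 823622589) (nat_lit 99) (nat_lit 5) (nat_lit 102) (nat_lit 5) (nat_lit 103) (nat_lit 5) (nat_lit 386) (nat_lit 346) (nat_lit 288))))) (XT.nd (nat_lit 234) (nat_lit 684) (nat_lit 0) (XT.nd (nat_lit 78) (nat_lit 532) (nat_lit 0) (XT.lf (nat_lit 0) (nat_lit 6187691649) (nat_lit 304) (nat_lit 4876492065) (nat_lit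 76) (nat_lit 6942673752) (nat_lit 95) (nat_lit 5) (nat_lit 99) (nat_lit 5) (nat_lit 96) (nat_lit 5) (nat_lit 387) (nat_lit 346) (nat_lit 287)) (XT.nd (nat_lit 78) (nat_lit 304) (nat_lit 0) (XT.lf (nat_lit 0) (nat_lit 12655802779) (nat_lit 228) (nat_lit 1017524112) (nat_lit 304) (nat_lit 4909991069) (nat_lit 92) (nat_lit 5) (nat_lit 95) (nat_lit 5) (nat_lit 96) (nat_lit 5) (nat_lit 388) (nat_lit 346) (nat_lit 286)) (XT.lf (nat_lit 0) (nat_lit 2507225135) (nat_lit 304) (nat_lit 7169436329) (nat_lit 76) (nat_lit 9505023803) (nat_lit 88) (nat_lit 5) (nat_lit 92) (nat_lit 5) (nat_lit 89) (nat_lit 5) (nat_lit 389) (nat_lit 346) (nat_lit 285)))) (XT.nd (nat_lit 78) (nat_lit 456) (nat_lit 0) (XT.lf (nat_lit 0) (nat_lit 10332887559) (nat_lit 304) (nat_lit 8573102299) (nat_lit 76) (nat_lit 898358236) (nat_lit 85) (nat_lit 5) (nat_lit 89) (nat_lit 5) (nat_lit 86) (nat_lit 5) (nat_lit 390) (nat_lit 346)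 (nat_lit 284)) (XT.nd (nat_lit 78) (nat_lit 304) (nat_lit 0) (XT.lf (nat_lit 0) (nat_lit 10265673564) (nat_lit 152) (nat_lit 8505802818) (nat_lit 228) (nat_lit 1680027439) (nat_lit 83) (nat_lit 5) (nat_lit 85) (nat_lit 5) (nat_lit 86) (nat_lit 5) (nat_lit 391) (nat_lit 346) (nat_lit 283)) (XT.lf (nat_lit 0) (nat_lit 6528145852) (nat_lit 304) (nat_lit 12019276294) (nat_lit 76) (nat_lit 2577108045) (nat_lit 79) (nat_lit 5) (nat_lit 83) (nat_lit 5) (nat_lit 80) (nat_lit 5) (nat_lit 392) (nat_lit 346) (nat_lit 282))))))) (XT.nd (nat_lit 936) (nat_lit 1444) (nat_lit 0) (XT.nd (nat_lit 468) (nat_lit 988) (nat_lit 0) (XT.nd (nat_lit 234) (nat_lit 380) (nat_lit 0) (XT.nd (nat_lit 78) (nat_lit 456) (nat_lit 0) (XT.lf (nat_lit 0) (nat_lit 7712843837) (nat_lit 152) (nat_lit 7618437124) (nat_lit 228) (nat_lit 6492856916) (nat_lit 77) (nat_lit 5) (nat_lit 79) (nat_lit 5) (nat_lit 80) (nat_lit 5) (nat_lit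 393) (nat_lit 346) (nat_lit 281)) (XT.nd (nat_lit 78) (nat_lit 152) (nat_lit 0) (XT.lf (nat_lit 0) (nat_lit 2153476879) (nat_lit 304) (nat_lit 16443817705) (nat_lit 76) (nat_lit 3955548423) (nat_lit 73) (nat_lit 5) (nat_lit 77) (nat_lit 5) (nat_lit 74) (nat_lit 5) (nat_lit 394) (nat_lit 346) (nat_lit 280)) (XT.lf (nat_lit 0) (nat_lit 4182429127) (nat_lit 152) (nat_lit 7135742909) (nat_lit 228) (nat_lit 11991280002) (nat_lit 71) (nat_lit 5) (nat_lit 73) (nat_lit 5) (nat_lit 74) (nat_lit 5) (nat_lit 395) (nat_lit 346) (nat_lit 279)))) (XT.nd (nat_lit 78) (nat_lit 228) (nat_lit 0) (XT.lf (nat_lit 0) (nat_lit 1999312775) (nat_lit 152) (nat_lit 19135436926) (nat_lit 228) (nat_lit 2963339077) (nat_lit 69) (nat_lit 5) (nat_lit 71) (nat_lit 5) (nat_lit 72) (nat_lit 5) (nat_lit 396) (nat_lit 346) (nat_lit 278)) (XT.nd (nat_lit 78) (nat_lit 152) (nat_lit 0) (XT.lf (nat_lit 0) (nat_lit 6617048954) (nat_lit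 228) (nat_lit 549615491) (nat_lit 76) (nat_lit 17750774005) (nat_lit 68) (nat_lit 5) (nat_lit 71) (nat_lit 5) (nat_lit 69) (nat_lit 5) (nat_lit 397) (nat_lit 346) (nat_lit 277)) (XT.lf (nat_lit 0) (nat_lit 16844609175) (nat_lit 228) (nat_lit 3412085454) (nat_lit 76) (nat_lit 5513303494) (nat_lit 66) (nat_lit 5) (nat_lit 69) (nat_lit 5) (nat_lit 67) (nat_lit 5) (nat_lit 398) (nat_lit 346) (nat_lit 276))))) (XT.nd (nat_lit 234) (nat_lit 456) (nat_lit 0) (XT.nd (nat_lit 78) (nat_lit 304) (nat_lit 0) (XT.lf (nat_lit 0) (nat_lit 1133428112) (nat_lit 228) (nat_lit 6663854970) (nat_lit 76) (nat_lit 18860653698) (nat_lit 63) (nat_lit 5) (nat_lit 66) (nat_lit 5) (nat_lit 64) (nat_lit 5) (nat_lit 399) (nat_lit 346) (nat_lit 275)) (XT.nd (nat_lit 78) (nat_lit 152) (nat_lit 0) (XT.lf (nat_lit 0) (nat_lit 11728013861) (nat_lit 228) (nat_lit 10406208152) (nat_lit 76) (nat_lit 5446881884) (nat_lit 61) (nat_lit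 5) (nat_lit 64) (nat_lit 5) (nat_lit 62) (nat_lit 5) (nat_lit 400) (nat_lit 346) (nat_lit 274)) (XT.lf (nat_lit 0) (nat_lit 13921327719) (nat_lit 152) (nat_lit 9174933410) (nat_lit 228) (nat_lit 5446855214) (nat_lit 59) (nat_lit 5) (nat_lit 61) (nat_lit 5) (nat_lit 62) (nat_lit 5) (nat_lit 401) (nat_lit 346) (nat_lit 273)))) (XT.nd (nat_lit 78) (nat_lit 228) (nat_lit 0) (XT.lf (nat_lit 0) (nat_lit 5586940620) (nat_lit 228) (nat_lit 19379469340) (nat_lit 76) (nat_lit 4578818463) (nat_lit 56) (nat_lit 5) (nat_lit 59) (nat_lit 5) (nat_lit 57) (nat_lit 5) (nat_lit 402) (nat_lit 346) (nat_lit 272)) (XT.nd (nat_lit 78) (nat_lit 76) (nat_lit 0) (XT.lf (nat_lit 0) (nat_lit 5804362516) (nat_lit 152) (nat_lit 11520683556) (nat_lit 228) (nat_lit 13262828435) (nat_lit 54) (nat_lit 5) (nat_lit 56) (nat_lit 5) (nat_lit 57) (nat_lit 5) (nat_lit 403) (nat_lit 346) (nat_lit 271)) (XT.lf (nat_lit 0) (nat_lit 902302581)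 (nat_lit 76) (nat_lit 28947521868) (nat_lit 152) (nat_lit 1826839559) (nat_lit 53) (nat_lit 5) (nat_lit 54) (nat_lit 5) (nat_lit 55) (nat_lit 4) (nat_lit 404) (nat_lit 346) (nat_lit 270)))))) (XT.nd (nat_lit 468) (nat_lit 760) (nat_lit 0) (XT.nd (nat_lit 234) (nat_lit 304) (nat_lit 0) (XT.nd (nat_lit 78) (nat_lit 304) (nat_lit 0) (XT.lf (nat_lit 0) (nat_lit 10321612373) (nat_lit 152) (nat_lit 4701511865) (nat_lit 76) (nat_lit 17783656698) (nat_lit 52) (nat_lit 5) (nat_lit 54) (nat_lit 5) (nat_lit 53) (nat_lit 5) (nat_lit 405) (nat_lit 346) (nat_lit 269)) (XT.nd (nat_lit 78) (nat_lit 152) (nat_lit 0) (XT.lf (nat_lit 0) (nat_lit 23046343898) (nat_lit 152) (nat_lit 182294759) (nat_lit 228) (nat_lit 10758558067) (nat_lit 50) (nat_lit 5) (nat_lit 52) (nat_lit 5) (nat_lit 53) (nat_lit 5) (nat_lit 406) (nat_lit 346) (nat_lit 268)) (XT.lf (nat_lit 0) (nat_lit 1857204222) (nat_lit 152) (nat_lit 18052421767)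 (nat_lit 76) (nat_lit 15306567851) (nat_lit 48) (nat_lit 5) (nat_lit 50) (nat_lit 5) (nat_lit 49) (nat_lit 5) (nat_lit 407) (nat_lit 346) (nat_lit 267)))) (XT.nd (nat_lit 78) (nat_lit 152) (nat_lit 0) (XT.lf (nat_lit 0) (nat_lit 10433194494) (nat_lit 152) (nat_lit 4634471801) (nat_lit 228) (nat_lit 21430189664) (nat_lit 46) (nat_lit 5) (nat_lit 48) (nat_lit 5) (nat_lit 49) (nat_lit 5) (nat_lit 408) (nat_lit 346) (nat_lit 266)) (XT.nd (nat_lit 78) (nat_lit 76) (nat_lit 0) (XT.lf (nat_lit 0) (nat_lit 2767990816) (nat_lit 76) (nat_lit 26463758201) (nat_lit 152) (nat_lit 8603062302) (nat_lit 45) (nat_lit 5) (nat_lit 46) (nat_lit 5) (nat_lit 47) (nat_lit 4) (nat_lit 409) (nat_lit 346) (nat_lit 265)) (XT.lf (nat_lit 0) (nat_lit 5058052975) (nat_lit 152) (nat_lit 5795654907) (nat_lit 76) (nat_lit 28374879110) (nat_lit 44) (nat_lit 5) (nat_lit 46) (nat_lit 5) (nat_lit 45) (nat_lit 5) (nat_lit 410) (nat_lit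 346) (nat_lit 264))))) (XT.nd (nat_lit 234) (nat_lit 304) (nat_lit 0) (XT.nd (nat_lit 78) (nat_lit 304) (nat_lit 0) (XT.lf (nat_lit 0) (nat_lit 19496601124) (nat_lit 228) (nat_lit 15446665442) (nat_lit 76) (nat_lit 5738063164) (nat_lit 42) (nat_lit 5) (nat_lit 45) (nat_lit 5) (nat_lit 43) (nat_lit 4) (nat_lit 411) (nat_lit 346) (nat_lit 263)) (XT.nd (nat_lit 78) (nat_lit 228) (nat_lit 0) (XT.lf (nat_lit 0) (nat_lit 15880167246) (nat_lit 76) (nat_lit 19071267572) (nat_lit 152) (nat_lit 7246446609) (nat_lit 41) (nat_lit 5) (nat_lit 42) (nat_lit 5) (nat_lit 43) (nat_lit 4) (nat_lit 412) (nat_lit 346) (nat_lit 262)) (XT.lf (nat_lit 0) (nat_lit 5289951644) (nat_lit 152) (nat_lit 2138536045) (nat_lit 228) (nat_lit 36354127060) (nat_lit 38) (nat_lit 5) (nat_lit 40) (nat_lit 5) (nat_lit 41) (nat_lit 5) (nat_lit 413) (nat_lit 346) (nat_lit 261)))) (XT.nd (nat_lit 156) (nat_lit 228) (nat_lit 0) (XT.nd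 (nat_lit 78) (nat_lit 76) (nat_lit 0) (XT.lf (nat_lit 0) (nat_lit 23085736846) (nat_lit 228) (nat_lit 6687090410) (nat_lit 76) (nat_lit 15659654256) (nat_lit 38) (nat_lit 5) (nat_lit 41) (nat_lit 5) (nat_lit 39) (nat_lit 4) (nat_lit 414) (nat_lit 346) (nat_lit 260)) (XT.lf (nat_lit 0) (nat_lit 27169323669) (nat_lit 76) (nat_lit 12613652368) (nat_lit 152) (nat_lit 7374153904) (nat_lit 37) (nat_lit 5) (nat_lit 38) (nat_lit 5) (nat_lit 39) (nat_lit 4) (nat_lit 415) (nat_lit 346) (nat_lit 259))) (XT.nd (nat_lit 78) (nat_lit 0) (nat_lit 0) (XT.lf (nat_lit 0) (nat_lit 8418095174) (nat_lit 228) (nat_lit 34976551169) (nat_lit 76) (nat_lit 5563942022) (nat_lit 34) (nat_lit 5) (nat_lit 37) (nat_lit 5) (nat_lit 35) (nat_lit 4) (nat_lit 416) (nat_lit 346) (nat_lit 258)) (XT.lf (nat_lit 0) (nat_lit 25159419568) (nat_lit 228) (nat_lit 1025990173) (nat_lit 76) (nat_lit 24653162372) (nat_lit 34) (nat_lit 5)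 (nat_lit 37) (nat_lit 5) (nat_lit 35) (nat_lit 4) (nat_lit 417) (nat_lit 346) (nat_lit 257))))))))
noncomputable def xc61 : XT := (XT.nd (nat_lit 47970) (nat_lit 0) (nat_lit 9348) (XT.nd (nat_lit 936) (nat_lit 380) (nat_lit 0) (XT.nd (nat_lit 468) (nat_lit 380) (nat_lit 0) (XT.nd (nat_lit 234) (nat_lit 228) (nat_lit 0) (XT.nd (nat_lit 78) (nat_lit 152) (nat_lit 0) (XT.lf (nat_lit 0) (nat_lit 35266150976) (nat_lit 76) (nat_lit 7787275502) (nat_lit 152) (nat_lit 9749661886) (nat_lit 33) (nat_lit 5) (nat_lit 34) (nat_lit 5) (nat_lit 35) (nat_lit 4) (nat_lit 418) (nat_lit 346) (nat_lit 256)) (XT.nd (nat_lit 78) (nat_lit 0) (nat_lit 0) (XT.lf (nat_lit 0) (nat_lit 7121702655) (nat_lit 152) (nat_lit 36187060941) (nat_lit 76) (nat_lit 11546610722) (nat_lit 31) (nat_lit 5) (nat_lit 33) (nat_lit 5) (nat_lit 32) (nat_lit 4) (nat_lit 419) (nat_lit 346) (nat_lit 255)) (XT.lf (nat_lit 0) (nat_lit 24875372891)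 (nat_lit 152) (nat_lit 175900077) (nat_lit 76) (nat_lit 31948895991) (nat_lit 31) (nat_lit 5) (nat_lit 33) (nat_lit 5) (nat_lit 32) (nat_lit 4) (nat_lit 420) (nat_lit 346) (nat_lit 254)))) (XT.nd (nat_lit 78) (nat_lit 152) (nat_lit 0) (XT.lf (nat_lit 0) (nat_lit 38343518541) (nat_lit 76) (nat_lit 5520444199) (nat_lit 152) (nat_lit 15377825022) (nat_lit 30) (nat_lit 5) (nat_lit 31) (nat_lit 5) (nat_lit 32) (nat_lit 4) (nat_lit 421) (nat_lit 346) (nat_lit 253)) (XT.nd (nat_lit 78) (nat_lit 0) (nat_lit 0) (XT.lf (nat_lit 0) (nat_lit 2458128091) (nat_lit 152) (nat_lit 44258969821) (nat_lit 76) (nat_lit 14868913984) (nat_lit 28) (nat_lit 5) (nat_lit 30) (nat_lit 5) (nat_lit 29) (nat_lit 4) (nat_lit 422) (nat_lit 346) (nat_lit 252)) (XT.lf (nat_lit 0) (nat_lit 21123311216) (nat_lit 152) (nat_lit 6392793357) (nat_lit 76) (nat_lit 36519112245) (nat_lit 28) (nat_lit 5) (nat_lit 30) (nat_lit 5) (nat_lit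 29) (nat_lit 4) (nat_lit 423) (nat_lit 346) (nat_lit 251))))) (XT.nd (nat_lit 234) (nat_lit 152) (nat_lit 0) (XT.nd (nat_lit 78) (nat_lit 152) (nat_lit 0) (XT.lf (nat_lit 0) (nat_lit 33992804451) (nat_lit 76) (nat_lit 7036217756) (nat_lit 152) (nat_lit 25568642987) (nat_lit 27) (nat_lit 5) (nat_lit 28) (nat_lit 5) (nat_lit 29) (nat_lit 4) (nat_lit 424) (nat_lit 346) (nat_lit 250)) (XT.nd (nat_lit 78) (nat_lit 76) (nat_lit 0) (XT.lf (nat_lit 0) (nat_lit 7209423413) (nat_lit 76) (nat_lit 54976352625) (nat_lit 76) (nat_lit 7094788441) (nat_lit 26) (nat_lit 4) (nat_lit 27) (nat_lit 5) (nat_lit 27) (nat_lit 4) (nat_lit 425) (nat_lit 346) (nat_lit 249)) (XT.lf (nat_lit 0) (nat_lit 12453974267) (nat_lit 152) (nat_lit 22620246519) (nat_lit 76) (nat_lit 37008102616) (nat_lit 25) (nat_lit 5) (nat_lit 27) (nat_lit 5) (nat_lit 26) (nat_lit 4) (nat_lit 426) (nat_lit 346) (nat_lit 248)))) (XT.nd (nat_lit 78)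 (nat_lit 76) (nat_lit 0) (XT.lf (nat_lit 0) (nat_lit 19069535457) (nat_lit 76) (nat_lit 13930777619) (nat_lit 152) (nat_lit 42016744824) (nat_lit 24) (nat_lit 5) (nat_lit 25) (nat_lit 5) (nat_lit 26) (nat_lit 4) (nat_lit 427) (nat_lit 346) (nat_lit 247)) (XT.nd (nat_lit 78) (nat_lit 76) (nat_lit 0) (XT.lf (nat_lit 0) (nat_lit 54871197431) (nat_lit 152) (nat_lit 14890390769) (nat_lit 0) (nat_lit 8328025079) (nat_lit 24) (nat_lit 5) (nat_lit 26) (nat_lit 4) (nat_lit 24) (nat_lit 4) (nat_lit 428) (nat_lit 346) (nat_lit 246)) (XT.lf (nat_lit 0) (nat_lit 28605229231) (nat_lit 76) (nat_lit 49629377199) (nat_lit 76) (nat_lit 3069221550) (nat_lit 23) (nat_lit 4) (nat_lit 24) (nat_lit 5) (nat_lit 24) (nat_lit 4) (nat_lit 429) (nat_lit 346) (nat_lit 245)))))) (XT.nd (nat_lit 468) (nat_lit 0) (nat_lit 0) (XT.nd (nat_lit 234) (nat_lit 228) (nat_lit 0) (XT.nd (nat_lit 78) (nat_lit 76) (nat_lit 0) (XT.lf (nat_lit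 0) (nat_lit 17873016990) (nat_lit 152) (nat_lit 10294105726) (nat_lit 76) (nat_lit 56502259506) (nat_lit 22) (nat_lit 5) (nat_lit 24) (nat_lit 5) (nat_lit 23) (nat_lit 4) (nat_lit 430) (nat_lit 346) (nat_lit 244)) (XT.nd (nat_lit 78) (nat_lit 0) (nat_lit 0) (XT.lf (nat_lit 0) (nat_lit 34849810990) (nat_lit 76) (nat_lit 5269176969) (nat_lit 152) (nat_lit 48073712517) (nat_lit 21) (nat_lit 5) (nat_lit 22) (nat_lit 5) (nat_lit 23) (nat_lit 4) (nat_lit 431) (nat_lit 346) (nat_lit 243)) (XT.lf (nat_lit 0) (nat_lit 63749572726) (nat_lit 152) (nat_lit 9633807801) (nat_lit 0) (nat_lit 18500635466) (nat_lit 21) (nat_lit 5) (nat_lit 23) (nat_lit 4) (nat_lit 21) (nat_lit 4) (nat_lit 432) (nat_lit 346) (nat_lit 242)))) (XT.nd (nat_lit 78) (nat_lit 152) (nat_lit 0) (XT.lf (nat_lit 0) (nat_lit 36899657600) (nat_lit 76) (nat_lit 52055469870) (nat_lit 76) (nat_lit 6792967368) (nat_lit 20) (nat_lit 4) (nat_lit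 21) (nat_lit 5) (nat_lit 21) (nat_lit 4) (nat_lit 433) (nat_lit 346) (nat_lit 241)) (XT.nd (nat_lit 78) (nat_lit 76) (nat_lit 0) (XT.lf (nat_lit 0) (nat_lit 15396862610) (nat_lit 152) (nat_lit 14019790681) (nat_lit 76) (nat_lit 70381641954) (nat_lit 19) (nat_lit 5) (nat_lit 21) (nat_lit 5) (nat_lit 20) (nat_lit 4) (nat_lit 434) (nat_lit 346) (nat_lit 240)) (XT.lf (nat_lit 0) (nat_lit 33611497666) (nat_lit 76) (nat_lit 5255114906) (nat_lit 152) (nat_lit 65173048544) (nat_lit 18) (nat_lit 5) (nat_lit 19) (nat_lit 5) (nat_lit 20) (nat_lit 4) (nat_lit 435) (nat_lit 346) (nat_lit 239))))) (XT.nd (nat_lit 46332) (nat_lit 0) (nat_lit 23028) (XT.nd (nat_lit 46176) (nat_lit 0) (nat_lit 24548) (XT.lf (nat_lit 0) (nat_lit 63835750697) (nat_lit 152) (nat_lit 24791860253) (nat_lit 0) (nat_lit 19855707957) (nat_lit 18) (nat_lit 5) (nat_lit 20) (nat_lit 4) (nat_lit 18) (nat_lit 4) (nat_lit 436) (nat_lit 346)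 (nat_lit 238)) (XT.nd (nat_lit 78) (nat_lit 0) (nat_lit 0) (XT.lf (nat_lit 0) (nat_lit 857281792) (nat_lit 0) (nat_lit 857281792) (nat_lit 684) (nat_lit 1791422388) (nat_lit 341) (nat_lit 5) (nat_lit 341) (nat_lit 3) (nat_lit 350) (nat_lit 3) (nat_lit 347) (nat_lit 347) (nat_lit 326)) (XT.lf (nat_lit 76) (nat_lit 377001273) (nat_lit 0) (nat_lit 6070952982) (nat_lit 760) (nat_lit 649645234) (nat_lit 342) (nat_lit 5) (nat_lit 341) (nat_lit 5) (nat_lit 351) (nat_lit 5) (nat_lit 348) (nat_lit 347) (nat_lit 325)))) (XT.nd (nat_lit 78) (nat_lit 760) (nat_lit 0) (XT.lf (nat_lit 0) (nat_lit 2266249467) (nat_lit 760) (nat_lit 887154974) (nat_lit 836) (nat_lit 4037003757) (nat_lit 331) (nat_lit 5) (nat_lit 341) (nat_lit 5) (nat_lit 342) (nat_lit 5) (nat_lit 349) (nat_lit 347) (nat_lit 324)) (XT.nd (nat_lit 78) (nat_lit 836) (nat_lit 0) (XT.lf (nat_lit 0) (nat_lit 5185461551) (nat_lit 760) (nat_lit 2059460324)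 (nat_lit 836) (nat_lit 46713120) (nat_lit 332) (nat_lit 5) (nat_lit 342) (nat_lit 5) (nat_lit 343) (nat_lit 5) (nat_lit 350) (nat_lit 347) (nat_lit 323)) (XT.lf (nat_lit 0) (nat_lit 745168703) (nat_lit 836) (nat_lit 3183086730) (nat_lit 912) (nat_lit 3472240760) (nat_lit 321) (nat_lit 5) (nat_lit 332) (nat_lit 5) (nat_lit 333) (nat_lit 5) (nat_lit 351) (nat_lit 347) (nat_lit 322))))))) (XT.nd (nat_lit 936) (nat_lit 6232) (nat_lit 0) (XT.nd (nat_lit 468) (nat_lit 5776) (nat_lit 0) (XT.nd (nat_lit 234) (nat_lit 836) (nat_lit 0) (XT.nd (nat_lit 78) (nat_lit 836) (nat_lit 0) (XT.lf (nat_lit 76) (nat_lit 3275070350) (nat_lit 0) (nat_lit 307646469) (nat_lit 912) (nat_lit 3934929606) (nat_lit 322) (nat_lit 5) (nat_lit 321) (nat_lit 5) (nat_lit 333) (nat_lit 5) (nat_lit 352) (nat_lit 347) (nat_lit 321)) (XT.nd (nat_lit 78) (nat_lit 912) (nat_lit 0) (XT.lf (nat_lit 76) (nat_lit 2388899290) (nat_lit 0)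 (nat_lit 4104275689) (nat_lit 912) (nat_lit 1149631545) (nat_lit 323) (nat_lit 5) (nat_lit 322) (nat_lit 5) (nat_lit 334) (nat_lit 5) (nat_lit 353) (nat_lit 347) (nat_lit 320)) (XT.lf (nat_lit 76) (nat_lit 1570884815) (nat_lit 0) (nat_lit 78086352) (nat_lit 988) (nat_lit 6127558414) (nat_lit 311) (nat_lit 5) (nat_lit 310) (nat_lit 5) (nat_lit 323) (nat_lit 5) (nat_lit 354) (nat_lit 347) (nat_lit 319)))) (XT.nd (nat_lit 78) (nat_lit 912) (nat_lit 0) (XT.lf (nat_lit 76) (nat_lit 785994297) (nat_lit 0) (nat_lit 3733116778) (nat_lit 988) (nat_lit 3398898130) (nat_lit 312) (nat_lit 5) (nat_lit 311) (nat_lit 5) (nat_lit 324) (nat_lit 5) (nat_lit 355) (nat_lit 347) (nat_lit 318)) (XT.nd (nat_lit 78) (nat_lit 76) (nat_lit 0) (XT.lf (nat_lit 0) (nat_lit 76397550) (nat_lit 912) (nat_lit 7387508406) (nat_lit 988) (nat_lit 604792307) (nat_lit 300) (nat_lit 5) (nat_lit 312) (nat_lit 5) (nat_lit 313) (nat_lit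 5) (nat_lit 356) (nat_lit 347) (nat_lit 317)) (XT.lf (nat_lit 0) (nat_lit 2259079222) (nat_lit 988) (nat_lit 601092398) (nat_lit 76) (nat_lit 5366877902) (nat_lit 299) (nat_lit 5) (nat_lit 312) (nat_lit 5) (nat_lit 300) (nat_lit 5) (nat_lit 357) (nat_lit 347) (nat_lit 316))))) (XT.nd (nat_lit 234) (nat_lit 2508) (nat_lit 0) (XT.nd (nat_lit 78) (nat_lit 2280) (nat_lit 0) (XT.lf (nat_lit 0) (nat_lit 5212223978) (nat_lit 1064) (nat_lit 1224963968) (nat_lit 76) (nat_lit 1957254671) (nat_lit 286) (nat_lit 5) (nat_lit 300) (nat_lit 5) (nat_lit 287) (nat_lit 5) (nat_lit 358) (nat_lit 347) (nat_lit 315)) (XT.nd (nat_lit 78) (nat_lit 1216) (nat_lit 0) (XT.lf (nat_lit 0) (nat_lit 6768633892) (nat_lit 1064) (nat_lit 1520175370) (nat_lit 1140) (nat_lit 282181224) (nat_lit 272) (nat_lit 5) (nat_lit 286) (nat_lit 5) (nat_lit 287) (nat_lit 5) (nat_lit 359) (nat_lit 347) (nat_lit 314)) (XT.lf (nat_lit 0) (nat_lit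 2698910128) (nat_lit 1216) (nat_lit 2368023467) (nat_lit 76) (nat_lit 3688990642) (nat_lit 256) (nat_lit 5) (nat_lit 272) (nat_lit 5) (nat_lit 257) (nat_lit 5) (nat_lit 360) (nat_lit 347) (nat_lit 313)))) (XT.nd (nat_lit 78) (nat_lit 1292) (nat_lit 0) (XT.lf (nat_lit 0) (nat_lit 5802504382) (nat_lit 1292) (nat_lit 2883223664) (nat_lit 76) (nat_lit 264965903) (nat_lit 240) (nat_lit 5) (nat_lit 257) (nat_lit 5) (nat_lit 241) (nat_lit 5) (nat_lit 361) (nat_lit 347) (nat_lit 312)) (XT.nd (nat_lit 78) (nat_lit 684) (nat_lit 0) (XT.lf (nat_lit 0) (nat_lit 5774903063) (nat_lit 608) (nat_lit 3306458203) (nat_lit 684) (nat_lit 73287554) (nat_lit 232) (nat_lit 5) (nat_lit 240) (nat_lit 5) (nat_lit 241) (nat_lit 5) (nat_lit 362) (nat_lit 347) (nat_lit 311)) (XT.lf (nat_lit 0) (nat_lit 3092591759) (nat_lit 684) (nat_lit 3862083524) (nat_lit 76) (nat_lit 2413297532) (nat_lit 223) (nat_lit 5) (nat_lit 232)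 (nat_lit 5) (nat_lit 224) (nat_lit 5) (nat_lit 363) (nat_lit 347) (nat_lit 310)))))) (XT.nd (nat_lit 468) (nat_lit 2964) (nat_lit 0) (XT.nd (nat_lit 234) (nat_lit 1520) (nat_lit 0) (XT.nd (nat_lit 78) (nat_lit 1140) (nat_lit 0) (XT.lf (nat_lit 0) (nat_lit 5278599296) (nat_lit 608) (nat_lit 1152098538) (nat_lit 684) (nat_lit 3160823241) (nat_lit 215) (nat_lit 5) (nat_lit 223) (nat_lit 5) (nat_lit 224) (nat_lit 5) (nat_lit 364) (nat_lit 347) (nat_lit 309)) (XT.nd (nat_lit 78) (nat_lit 532) (nat_lit 0) (XT.lf (nat_lit 0) (nat_lit 144219252) (nat_lit 608) (nat_lit 4748888367) (nat_lit 76) (nat_lit 4932040809) (nat_lit 207) (nat_lit 5) (nat_lit 215) (nat_lit 5) (nat_lit 208) (nat_lit 5) (nat_lit 365) (nat_lit 347) (nat_lit 308)) (XT.lf (nat_lit 0) (nat_lit 3569197187) (nat_lit 608) (nat_lit 5179078158) (nat_lit 76) (nat_lit 1320679448) (nat_lit 200) (nat_lit 5) (nat_lit 208) (nat_lit 5) (nat_lit 201)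 (nat_lit 5) (nat_lit 366) (nat_lit 347) (nat_lit 307)))) (XT.nd (nat_lit 78) (nat_lit 1064) (nat_lit 0) (XT.lf (nat_lit 0) (nat_lit 4724483692) (nat_lit 456) (nat_lit 2491584546) (nat_lit 532) (nat_lit 3107400219) (nat_lit 194) (nat_lit 5) (nat_lit 200) (nat_lit 5) (nat_lit 201) (nat_lit 5) (nat_lit 367) (nat_lit 347) (nat_lit 306)) (XT.nd (nat_lit 78) (nat_lit 456) (nat_lit 0) (XT.lf (nat_lit 0) (nat_lit 493130128) (nat_lit 608) (nat_lit 6005829299) (nat_lit 76) (nat_lit 4090228093) (nat_lit 186) (nat_lit 5) (nat_lit 194) (nat_lit 5) (nat_lit 187) (nat_lit 5) (nat_lit 368) (nat_lit 347) (nat_lit 305)) (XT.lf (nat_lit 0) (nat_lit 4250414834) (nat_lit 532) (nat_lit 6415546971) (nat_lit 76) (nat_lit 200109905) (nat_lit 180) (nat_lit 5) (nat_lit 187) (nat_lit 5) (nat_lit 181) (nat_lit 5) (nat_lit 369) (nat_lit 347) (nat_lit 304))))) (XT.nd (nat_lit 234) (nat_lit 1596) (nat_lit 0) (XT.nd (nat_lit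 78) (nat_lit 912) (nat_lit 0) (XT.lf (nat_lit 0) (nat_lit 4316179101) (nat_lit 456) (nat_lit 3964258471) (nat_lit 532) (nat_lit 2873846774) (nat_lit 174) (nat_lit 5) (nat_lit 180) (nat_lit 5) (nat_lit 181) (nat_lit 5) (nat_lit 370) (nat_lit 347) (nat_lit 303)) (XT.nd (nat_lit 78) (nat_lit 456) (nat_lit 0) (XT.lf (nat_lit 0) (nat_lit 1089983002) (nat_lit 456) (nat_lit 7251769332) (nat_lit 76) (nat_lit 3113213667) (nat_lit 168) (nat_lit 5) (nat_lit 174) (nat_lit 5) (nat_lit 169) (nat_lit 5) (nat_lit 371) (nat_lit 347) (nat_lit 302)) (XT.lf (nat_lit 0) (nat_lit 4080626566) (nat_lit 456) (nat_lit 1183219362) (nat_lit 532) (nat_lit 6503870692) (nat_lit 162) (nat_lit 5) (nat_lit 168) (nat_lit 5) (nat_lit 169) (nat_lit 5) (nat_lit 372) (nat_lit 347) (nat_lit 301)))) (XT.nd (nat_lit 156) (nat_lit 760) (nat_lit 0) (XT.nd (nat_lit 78) (nat_lit 456) (nat_lit 0) (XT.lf (nat_lit 0) (nat_lit 3953410467) (nat_lit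 380) (nat_lit 5790318228) (nat_lit 456) (nat_lit 2349481812) (nat_lit 157) (nat_lit 5) (nat_lit 162) (nat_lit 5) (nat_lit 163) (nat_lit 5) (nat_lit 373) (nat_lit 347) (nat_lit 300)) (XT.lf (nat_lit 0) (nat_lit 2044752096) (nat_lit 456) (nat_lit 8601414499) (nat_lit 76) (nat_lit 1786113732) (nat_lit 151) (nat_lit 5) (nat_lit 157) (nat_lit 5) (nat_lit 152) (nat_lit 5) (nat_lit 374) (nat_lit 347) (nat_lit 299))) (XT.nd (nat_lit 78) (nat_lit 380) (nat_lit 0) (XT.lf (nat_lit 0) (nat_lit 3675856832) (nat_lit 380) (nat_lit 3040566550) (nat_lit 456) (nat_lit 6068015384) (nat_lit 146) (nat_lit 5) (nat_lit 151) (nat_lit 5) (nat_lit 152) (nat_lit 5) (nat_lit 375) (nat_lit 347) (nat_lit 298)) (XT.lf (nat_lit 0) (nat_lit 3519086590) (nat_lit 380) (nat_lit 8203153376) (nat_lit 456) (nat_lit 1428969725) (nat_lit 141) (nat_lit 5) (nat_lit 146) (nat_lit 5) (nat_lit 147) (nat_lit 5) (nat_lit 376) (nat_lit 347)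 (nat_lit 297))))))))
noncomputable def xc62 : XT := (XT.nd (nat_lit 1872) (nat_lit 2736) (nat_lit 0) (XT.nd (nat_lit 936) (nat_lit 2432) (nat_lit 0) (XT.nd (nat_lit 468) (nat_lit 1368) (nat_lit 0) (XT.nd (nat_lit 234) (nat_lit 1064) (nat_lit 0) (XT.nd (nat_lit 78) (nat_lit 684) (nat_lit 0) (XT.lf (nat_lit 0) (nat_lit 3340478169) (nat_lit 304) (nat_lit 123406068) (nat_lit 380) (nat_lit 10068791452) (nat_lit 136) (nat_lit 5) (nat_lit 140) (nat_lit 5) (nat_lit 141) (nat_lit 5) (nat_lit 377) (nat_lit 347) (nat_lit 296)) (XT.nd (nat_lit 78) (nat_lit 304) (nat_lit 0) (XT.lf (nat_lit 0) (nat_lit 3103539267) (nat_lit 380) (nat_lit 5612548290) (nat_lit 456) (nat_lit 5212394046) (nat_lit 131) (nat_lit 5) (nat_lit 136) (nat_lit 5) (nat_lit 137) (nat_lit 5) (nat_lit 378) (nat_lit 347) (nat_lit 295)) (XT.lf (nat_lit 0) (nat_lit 2869646231) (nat_lit 304) (nat_lit 11458912884) (nat_lit 380) (nat_lit 12606918)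 (nat_lit 127) (nat_lit 5) (nat_lit 131) (nat_lit 5) (nat_lit 132) (nat_lit 5) (nat_lit 379) (nat_lit 347) (nat_lit 294)))) (XT.nd (nat_lit 78) (nat_lit 684) (nat_lit 0) (XT.lf (nat_lit 0) (nat_lit 2552131010) (nat_lit 304) (nat_lit 2919697123) (nat_lit 380) (nat_lit 9297173741) (nat_lit 122) (nat_lit 5) (nat_lit 126) (nat_lit 5) (nat_lit 127) (nat_lit 5) (nat_lit 380) (nat_lit 347) (nat_lit 293)) (XT.nd (nat_lit 78) (nat_lit 380) (nat_lit 0) (XT.lf (nat_lit 0) (nat_lit 2194884062) (nat_lit 304) (nat_lit 9172917782) (nat_lit 380) (nat_lit 3846312407) (nat_lit 118) (nat_lit 5) (nat_lit 122) (nat_lit 5) (nat_lit 123) (nat_lit 5) (nat_lit 381) (nat_lit 347) (nat_lit 292)) (XT.lf (nat_lit 0) (nat_lit 1802092684) (nat_lit 304) (nat_lit 152722911) (nat_lit 380) (nat_lit 13722709393) (nat_lit 113) (nat_lit 5) (nat_lit 117) (nat_lit 5) (nat_lit 118) (nat_lit 5) (nat_lit 382) (nat_lit 347) (nat_lit 291)))))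 (XT.nd (nat_lit 234) (nat_lit 532) (nat_lit 0) (XT.nd (nat_lit 78) (nat_lit 608) (nat_lit 0) (XT.lf (nat_lit 0) (nat_lit 1283755682) (nat_lit 228) (nat_lit 6862971712) (nat_lit 304) (nat_lit 8010842077) (nat_lit 110) (nat_lit 5) (nat_lit 113) (nat_lit 5) (nat_lit 114) (nat_lit 5) (nat_lit 383) (nat_lit 347) (nat_lit 290)) (XT.nd (nat_lit 78) (nat_lit 304) (nat_lit 0) (XT.lf (nat_lit 0) (nat_lit 733482560) (nat_lit 304) (nat_lit 14036000227) (nat_lit 380) (nat_lit 1888509218) (nat_lit 106) (nat_lit 5) (nat_lit 110) (nat_lit 5) (nat_lit 111) (nat_lit 5) (nat_lit 384) (nat_lit 347) (nat_lit 289)) (XT.lf (nat_lit 0) (nat_lit 54231779) (nat_lit 228) (nat_lit 4566761033) (nat_lit 304) (nat_lit 12556056606) (nat_lit 102) (nat_lit 5) (nat_lit 105) (nat_lit 5) (nat_lit 106) (nat_lit 5) (nat_lit 385) (nat_lit 347) (nat_lit 288)))) (XT.nd (nat_lit 78) (nat_lit 532) (nat_lit 0) (XT.lf (nat_lit 0) (nat_lit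 11581248353) (nat_lit 304) (nat_lit 709197911) (nat_lit 76) (nat_lit 5426134107) (nat_lit 102) (nat_lit 5) (nat_lit 106) (nat_lit 5) (nat_lit 103) (nat_lit 5) (nat_lit 386) (nat_lit 347) (nat_lit 287)) (XT.nd (nat_lit 78) (nat_lit 228) (nat_lit 0) (XT.lf (nat_lit 0) (nat_lit 752274689) (nat_lit 304) (nat_lit 1560777667) (nat_lit 76) (nat_lit 15965141051) (nat_lit 98) (nat_lit 5) (nat_lit 102) (nat_lit 5) (nat_lit 99) (nat_lit 5) (nat_lit 387) (nat_lit 347) (nat_lit 286)) (XT.lf (nat_lit 0) (nat_lit 8053875392) (nat_lit 304) (nat_lit 2602702576) (nat_lit 76) (nat_lit 8203601987) (nat_lit 95) (nat_lit 5) (nat_lit 99) (nat_lit 5) (nat_lit 96) (nat_lit 5) (nat_lit 388) (nat_lit 347) (nat_lit 285)))))) (XT.nd (nat_lit 468) (nat_lit 1064) (nat_lit 0) (XT.nd (nat_lit 234) (nat_lit 608) (nat_lit 0) (XT.nd (nat_lit 78) (nat_lit 532) (nat_lit 0) (XT.lf (nat_lit 0) (nat_lit 15734040107) (nat_lit 228) (nat_lit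 129126129) (nat_lit 304) (nat_lit 3603831088) (nat_lit 92) (nat_lit 5) (nat_lit 95) (nat_lit 5) (nat_lit 96) (nat_lit 5) (nat_lit 389) (nat_lit 347) (nat_lit 284)) (XT.nd (nat_lit 78) (nat_lit 228) (nat_lit 0) (XT.lf (nat_lit 0) (nat_lit 4113607970) (nat_lit 304) (nat_lit 5087392737) (nat_lit 76) (nat_lit 10895059543) (nat_lit 88) (nat_lit 5) (nat_lit 92) (nat_lit 5) (nat_lit 89) (nat_lit 5) (nat_lit 390) (nat_lit 347) (nat_lit 283)) (XT.lf (nat_lit 0) (nat_lit 12291825592) (nat_lit 304) (nat_lit 6596944659) (nat_lit 76) (nat_lit 1862261071) (nat_lit 85) (nat_lit 5) (nat_lit 89) (nat_lit 5) (nat_lit 86) (nat_lit 5) (nat_lit 391) (nat_lit 347) (nat_lit 282)))) (XT.nd (nat_lit 78) (nat_lit 456) (nat_lit 0) (XT.lf (nat_lit 0) (nat_lit 13114836523) (nat_lit 152) (nat_lit 7991280584) (nat_lit 228) (nat_lit 325827168) (nat_lit 83) (nat_lit 5) (nat_lit 85) (nat_lit 5) (nat_lit 86) (nat_lit 5) (nat_lit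 392) (nat_lit 347) (nat_lit 281)) (XT.nd (nat_lit 78) (nat_lit 152) (nat_lit 0) (XT.lf (nat_lit 0) (nat_lit 8228568281) (nat_lit 304) (nat_lit 10291587198) (nat_lit 76) (nat_lit 3619147083) (nat_lit 79) (nat_lit 5) (nat_lit 83) (nat_lit 5) (nat_lit 80) (nat_lit 5) (nat_lit 393) (nat_lit 347) (nat_lit 280)) (XT.lf (nat_lit 0) (nat_lit 10360388572) (nat_lit 152) (nat_lit 7067785073) (nat_lit 228) (nat_lit 5447038711) (nat_lit 77) (nat_lit 5) (nat_lit 79) (nat_lit 5) (nat_lit 80) (nat_lit 5) (nat_lit 394) (nat_lit 347) (nat_lit 279))))) (XT.nd (nat_lit 234) (nat_lit 456) (nat_lit 0) (XT.nd (nat_lit 78) (nat_lit 304) (nat_lit 0) (XT.lf (nat_lit 0) (nat_lit 3571118059) (nat_lit 304) (nat_lit 15012382467) (nat_lit 76) (nat_lit 5057479825) (nat_lit 73) (nat_lit 5) (nat_lit 77) (nat_lit 5) (nat_lit 74) (nat_lit 5) (nat_lit 395) (nat_lit 347) (nat_lit 278)) (XT.nd (nat_lit 78) (nat_lit 152) (nat_lit 0)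 (XT.lf (nat_lit 0) (nat_lit 6580576966) (nat_lit 152) (nat_lit 6572133872) (nat_lit 228) (nat_lit 11283958910) (nat_lit 71) (nat_lit 5) (nat_lit 73) (nat_lit 5) (nat_lit 74) (nat_lit 5) (nat_lit 396) (nat_lit 347) (nat_lit 277)) (XT.lf (nat_lit 0) (nat_lit 4254121317) (nat_lit 152) (nat_lit 19174724883) (nat_lit 228) (nat_lit 1836839595) (nat_lit 69) (nat_lit 5) (nat_lit 71) (nat_lit 5) (nat_lit 72) (nat_lit 5) (nat_lit 397) (nat_lit 347) (nat_lit 276)))) (XT.nd (nat_lit 78) (nat_lit 228) (nat_lit 0) (XT.lf (nat_lit 0) (nat_lit 1528829515) (nat_lit 152) (nat_lit 6624047076) (nat_lit 228) (nat_lit 17974111939) (nat_lit 66) (nat_lit 5) (nat_lit 68) (nat_lit 5) (nat_lit 69) (nat_lit 5) (nat_lit 398) (nat_lit 347) (nat_lit 275)) (XT.nd (nat_lit 78) (nat_lit 228) (nat_lit 0) (XT.lf (nat_lit 0) (nat_lit 18848124875) (nat_lit 228) (nat_lit 1539655250) (nat_lit 76) (nat_lit 6635714979) (nat_lit 66) (nat_lit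 5) (nat_lit 69) (nat_lit 5) (nat_lit 67) (nat_lit 5) (nat_lit 399) (nat_lit 347) (nat_lit 274)) (XT.lf (nat_lit 0) (nat_lit 2326454128) (nat_lit 228) (nat_lit 4989808748) (nat_lit 76) (nat_lit 20640328123) (nat_lit 63) (nat_lit 5) (nat_lit 66) (nat_lit 5) (nat_lit 64) (nat_lit 5) (nat_lit 400) (nat_lit 347) (nat_lit 273))))))) (XT.nd (nat_lit 936) (nat_lit 1140) (nat_lit 0) (XT.nd (nat_lit 468) (nat_lit 760) (nat_lit 0) (XT.nd (nat_lit 234) (nat_lit 304) (nat_lit 0) (XT.nd (nat_lit 78) (nat_lit 380) (nat_lit 0) (XT.lf (nat_lit 0) (nat_lit 13423557160) (nat_lit 228) (nat_lit 8951800812) (nat_lit 76) (nat_lit 6551382096) (nat_lit 61) (nat_lit 5) (nat_lit 64) (nat_lit 5) (nat_lit 62) (nat_lit 5) (nat_lit 401) (nat_lit 347) (nat_lit 272)) (XT.nd (nat_lit 78) (nat_lit 228) (nat_lit 0) (XT.lf (nat_lit 0) (nat_lit 16535506964) (nat_lit 152) (nat_lit 8790331587) (nat_lit 228) (nat_lit 4612052826) (nat_lit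 59) (nat_lit 5) (nat_lit 61) (nat_lit 5) (nat_lit 62) (nat_lit 5) (nat_lit 402) (nat_lit 347) (nat_lit 271)) (XT.lf (nat_lit 0) (nat_lit 6926248945) (nat_lit 228) (nat_lit 18440511303) (nat_lit 76) (nat_lit 5623803293) (nat_lit 56) (nat_lit 5) (nat_lit 59) (nat_lit 5) (nat_lit 57) (nat_lit 5) (nat_lit 403) (nat_lit 347) (nat_lit 270)))) (XT.nd (nat_lit 78) (nat_lit 152) (nat_lit 0) (XT.lf (nat_lit 0) (nat_lit 7947821673) (nat_lit 152) (nat_lit 11270778137) (nat_lit 228) (nat_lit 12867727985) (nat_lit 54) (nat_lit 5) (nat_lit 56) (nat_lit 5) (nat_lit 57) (nat_lit 5) (nat_lit 404) (nat_lit 347) (nat_lit 269)) (XT.nd (nat_lit 78) (nat_lit 76) (nat_lit 0) (XT.lf (nat_lit 0) (nat_lit 2769877641) (nat_lit 76) (nat_lit 29575900317) (nat_lit 152) (nat_lit 884499769) (nat_lit 53) (nat_lit 5) (nat_lit 54) (nat_lit 5) (nat_lit 55) (nat_lit 4) (nat_lit 405) (nat_lit 347) (nat_lit 268)) (XT.lf (nat_lit 0)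 (nat_lit 11802941481) (nat_lit 152) (nat_lit 3181594095) (nat_lit 76) (nat_lit 19433520050) (nat_lit 52) (nat_lit 5) (nat_lit 54) (nat_lit 5) (nat_lit 53) (nat_lit 5) (nat_lit 406) (nat_lit 347) (nat_lit 267))))) (XT.nd (nat_lit 234) (nat_lit 304) (nat_lit 0) (XT.nd (nat_lit 78) (nat_lit 304) (nat_lit 0) (XT.lf (nat_lit 0) (nat_lit 25331293667) (nat_lit 228) (nat_lit 9760589011) (nat_lit 76) (nat_lit 566335380) (nat_lit 50) (nat_lit 5) (nat_lit 53) (nat_lit 5) (nat_lit 51) (nat_lit 4) (nat_lit 407) (nat_lit 347) (nat_lit 266)) (XT.nd (nat_lit 78) (nat_lit 152) (nat_lit 0) (XT.lf (nat_lit 0) (nat_lit 2873477699) (nat_lit 152) (nat_lit 17260564622) (nat_lit 76) (nat_lit 16815164674) (nat_lit 48) (nat_lit 5) (nat_lit 50) (nat_lit 5) (nat_lit 49) (nat_lit 5) (nat_lit 408) (nat_lit 347) (nat_lit 265)) (XT.lf (nat_lit 0) (nat_lit 12600760574) (nat_lit 152) (nat_lit 4115551701) (nat_lit 228) (nat_lit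 21579488947) (nat_lit 46) (nat_lit 5) (nat_lit 48) (nat_lit 5) (nat_lit 49) (nat_lit 5) (nat_lit 409) (nat_lit 347) (nat_lit 264)))) (XT.nd (nat_lit 78) (nat_lit 228) (nat_lit 0) (XT.lf (nat_lit 0) (nat_lit 4524283415) (nat_lit 76) (nat_lit 27044108384) (nat_lit 152) (nat_lit 8131823040) (nat_lit 45) (nat_lit 5) (nat_lit 46) (nat_lit 5) (nat_lit 47) (nat_lit 4) (nat_lit 410) (nat_lit 347) (nat_lit 263)) (XT.nd (nat_lit 78) (nat_lit 152) (nat_lit 0) (XT.lf (nat_lit 0) (nat_lit 6152672734) (nat_lit 152) (nat_lit 4527756348) (nat_lit 76) (nat_lit 30484256795) (nat_lit 44) (nat_lit 5) (nat_lit 46) (nat_lit 5) (nat_lit 45) (nat_lit 5) (nat_lit 411) (nat_lit 347) (nat_lit 262)) (XT.lf (nat_lit 0) (nat_lit 21294309259) (nat_lit 228) (nat_lit 14688106013) (nat_lit 76) (nat_lit 6708219410) (nat_lit 42) (nat_lit 5) (nat_lit 45) (nat_lit 5) (nat_lit 43) (nat_lit 4) (nat_lit 412) (nat_lit 347) (nat_lit 261))))))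 (XT.nd (nat_lit 468) (nat_lit 456) (nat_lit 0) (XT.nd (nat_lit 234) (nat_lit 380) (nat_lit 0) (XT.nd (nat_lit 78) (nat_lit 228) (nat_lit 0) (XT.lf (nat_lit 0) (nat_lit 18161185578) (nat_lit 76) (nat_lit 19335808440) (nat_lit 152) (nat_lit 6786770246) (nat_lit 41) (nat_lit 5) (nat_lit 42) (nat_lit 5) (nat_lit 43) (nat_lit 4) (nat_lit 413) (nat_lit 347) (nat_lit 260)) (XT.nd (nat_lit 78) (nat_lit 0) (nat_lit 0) (XT.lf (nat_lit 0) (nat_lit 7014482253) (nat_lit 152) (nat_lit 1567044111) (nat_lit 228) (nat_lit 37366704478) (nat_lit 38) (nat_lit 5) (nat_lit 40) (nat_lit 5) (nat_lit 41) (nat_lit 5) (nat_lit 414) (nat_lit 347) (nat_lit 259)) (XT.lf (nat_lit 0) (nat_lit 24990629086) (nat_lit 228) (nat_lit 5614753221) (nat_lit 76) (nat_lit 17076142058) (nat_lit 38) (nat_lit 5) (nat_lit 41) (nat_lit 5) (nat_lit 39) (nat_lit 4) (nat_lit 415) (nat_lit 347) (nat_lit 258)))) (XT.nd (nat_lit 78) (nat_lit 304)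 (nat_lit 0) (XT.lf (nat_lit 0) (nat_lit 29894159026) (nat_lit 76) (nat_lit 12605962472) (nat_lit 152) (nat_lit 6992964981) (nat_lit 37) (nat_lit 5) (nat_lit 38) (nat_lit 5) (nat_lit 39) (nat_lit 4) (nat_lit 416) (nat_lit 347) (nat_lit 257)) (XT.nd (nat_lit 78) (nat_lit 76) (nat_lit 0) (XT.lf (nat_lit 0) (nat_lit 9558185742) (nat_lit 228) (nat_lit 35368495838) (nat_lit 76) (nat_lit 6458205096) (nat_lit 34) (nat_lit 5) (nat_lit 37) (nat_lit 5) (nat_lit 35) (nat_lit 4) (nat_lit 417) (nat_lit 347) (nat_lit 256)) (XT.lf (nat_lit 0) (nat_lit 219258255) (nat_lit 76) (nat_lit 26885178802) (nat_lit 152) (nat_lit 26255399378) (nat_lit 33) (nat_lit 5) (nat_lit 34) (nat_lit 5) (nat_lit 35) (nat_lit 4) (nat_lit 418) (nat_lit 347) (nat_lit 255))))) (XT.nd (nat_lit 234) (nat_lit 228) (nat_lit 0) (XT.nd (nat_lit 78) (nat_lit 228) (nat_lit 0) (XT.lf (nat_lit 0) (nat_lit 38284685301) (nat_lit 76) (nat_lit 7585801239)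 (nat_lit 152) (nat_lit 9552774210) (nat_lit 33) (nat_lit 5) (nat_lit 34) (nat_lit 5) (nat_lit 35) (nat_lit 4) (nat_lit 419) (nat_lit 347) (nat_lit 254)) (XT.nd (nat_lit 78) (nat_lit 76) (nat_lit 0) (XT.lf (nat_lit 0) (nat_lit 8134284510) (nat_lit 152) (nat_lit 36750163333) (nat_lit 76) (nat_lit 12693953716) (nat_lit 31) (nat_lit 5) (nat_lit 33) (nat_lit 5) (nat_lit 32) (nat_lit 4) (nat_lit 420) (nat_lit 347) (nat_lit 253)) (XT.lf (nat_lit 0) (nat_lit 1022156254) (nat_lit 76) (nat_lit 25732045845) (nat_lit 152) (nat_lit 33076879134) (nat_lit 30) (nat_lit 5) (nat_lit 31) (nat_lit 5) (nat_lit 32) (nat_lit 4) (nat_lit 421) (nat_lit 347) (nat_lit 252)))) (XT.nd (nat_lit 156) (nat_lit 76) (nat_lit 0) (XT.nd (nat_lit 78) (nat_lit 152) (nat_lit 0) (XT.lf (nat_lit 0) (nat_lit 41413577449) (nat_lit 76) (nat_lit 5250127523) (nat_lit 152) (nat_lit 15521933611) (nat_lit 30) (nat_lit 5) (nat_lit 31) (nat_lit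 5) (nat_lit 32) (nat_lit 4) (nat_lit 422) (nat_lit 347) (nat_lit 251)) (XT.lf (nat_lit 0) (nat_lit 3180499170) (nat_lit 152) (nat_lit 45327498348) (nat_lit 76) (nat_lit 16139291970) (nat_lit 28) (nat_lit 5) (nat_lit 30) (nat_lit 5) (nat_lit 29) (nat_lit 4) (nat_lit 423) (nat_lit 347) (nat_lit 250))) (XT.nd (nat_lit 78) (nat_lit 76) (nat_lit 0) (XT.lf (nat_lit 0) (nat_lit 22750395515) (nat_lit 152) (nat_lit 5622509249) (nat_lit 76) (nat_lit 38846908131) (nat_lit 28) (nat_lit 5) (nat_lit 30) (nat_lit 5) (nat_lit 29) (nat_lit 4) (nat_lit 424) (nat_lit 347) (nat_lit 249)) (XT.lf (nat_lit 0) (nat_lit 36751126002) (nat_lit 76) (nat_lit 6883256139) (nat_lit 152) (nat_lit 26276513618) (nat_lit 27) (nat_lit 5) (nat_lit 28) (nat_lit 5) (nat_lit 29) (nat_lit 4) (nat_lit 425) (nat_lit 347) (nat_lit 248))))))))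
noncomputable def xc63 : XT := (XT.nd (nat_lit 48204) (nat_lit 0) (nat_lit 6080) (XT.nd (nat_lit 47190) (nat_lit 0) (nat_lit 16112) (XT.nd (nat_lit 468) (nat_lit 228) (nat_lit 0) (XT.nd (nat_lit 234) (nat_lit 152) (nat_lit 0) (XT.nd (nat_lit 78) (nat_lit 152) (nat_lit 0) (XT.lf (nat_lit 0) (nat_lit 8609691278) (nat_lit 76) (nat_lit 57227522064) (nat_lit 76) (nat_lit 6891081164) (nat_lit 26) (nat_lit 4) (nat_lit 27) (nat_lit 5) (nat_lit 27) (nat_lit 4) (nat_lit 426) (nat_lit 347) (nat_lit 247)) (XT.nd (nat_lit 78) (nat_lit 76) (nat_lit 0) (XT.lf (nat_lit 0) (nat_lit 13598148591) (nat_lit 152) (nat_lit 22750566693) (nat_lit 76) (nat_lit 39322048820) (nat_lit 25) (nat_lit 5) (nat_lit 27) (nat_lit 5) (nat_lit 26) (nat_lit 4) (nat_lit 427) (nat_lit 347) (nat_lit 246)) (XT.lf (nat_lit 0) (nat_lit 20995019742) (nat_lit 76) (nat_lit 14161295958) (nat_lit 152) (nat_lit 43596385772) (nat_lit 24) (nat_lit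 5) (nat_lit 25) (nat_lit 5) (nat_lit 26) (nat_lit 4) (nat_lit 428) (nat_lit 347) (nat_lit 245)))) (XT.nd (nat_lit 78) (nat_lit 152) (nat_lit 0) (XT.lf (nat_lit 0) (nat_lit 58100916012) (nat_lit 152) (nat_lit 14698970154) (nat_lit 0) (nat_lit 9179594716) (nat_lit 24) (nat_lit 5) (nat_lit 26) (nat_lit 4) (nat_lit 24) (nat_lit 4) (nat_lit 429) (nat_lit 347) (nat_lit 244)) (XT.nd (nat_lit 78) (nat_lit 76) (nat_lit 0) (XT.lf (nat_lit 0) (nat_lit 30944602309) (nat_lit 76) (nat_lit 51673481674) (nat_lit 76) (nat_lit 2736756028) (nat_lit 23) (nat_lit 4) (nat_lit 24) (nat_lit 5) (nat_lit 24) (nat_lit 4) (nat_lit 430) (nat_lit 347) (nat_lit 243)) (XT.lf (nat_lit 0) (nat_lit 19220424431) (nat_lit 152) (nat_lit 9933934859) (nat_lit 76) (nat_lit 59734854425) (nat_lit 22) (nat_lit 5) (nat_lit 24) (nat_lit 5) (nat_lit 23) (nat_lit 4) (nat_lit 431) (nat_lit 347) (nat_lit 242))))) (XT.nd (nat_lit 234) (nat_lit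 76) (nat_lit 0) (XT.nd (nat_lit 78) (nat_lit 76) (nat_lit 0) (XT.lf (nat_lit 0) (nat_lit 37442099543) (nat_lit 76) (nat_lit 5123155727) (nat_lit 152) (nat_lit 50023846958) (nat_lit 21) (nat_lit 5) (nat_lit 22) (nat_lit 5) (nat_lit 23) (nat_lit 4) (nat_lit 432) (nat_lit 347) (nat_lit 241)) (XT.nd (nat_lit 78) (nat_lit 76) (nat_lit 0) (XT.lf (nat_lit 0) (nat_lit 67360150493) (nat_lit 152) (nat_lit 9297312380) (nat_lit 0) (nat_lit 19808038344) (nat_lit 21) (nat_lit 5) (nat_lit 23) (nat_lit 4) (nat_lit 21) (nat_lit 4) (nat_lit 433) (nat_lit 347) (nat_lit 240)) (XT.lf (nat_lit 0) (nat_lit 39539373159) (nat_lit 76) (nat_lit 54274101694) (nat_lit 76) (nat_lit 6709685470) (nat_lit 20) (nat_lit 4) (nat_lit 21) (nat_lit 5) (nat_lit 21) (nat_lit 4) (nat_lit 434) (nat_lit 347) (nat_lit 239)))) (XT.nd (nat_lit 46332) (nat_lit 0) (nat_lit 23636) (XT.lf (nat_lit 0) (nat_lit 16561636573) (nat_lit 152) (nat_lit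 13956012147) (nat_lit 76) (nat_lit 74258693459) (nat_lit 19) (nat_lit 5) (nat_lit 21) (nat_lit 5) (nat_lit 20) (nat_lit 4) (nat_lit 435) (nat_lit 347) (nat_lit 238)) (XT.nd (nat_lit 78) (nat_lit 0) (nat_lit 0) (XT.lf (nat_lit 0) (nat_lit 1059650469) (nat_lit 836) (nat_lit 1266727312) (nat_lit 836) (nat_lit 1266727312) (nat_lit 330) (nat_lit 3) (nat_lit 341) (nat_lit 3) (nat_lit 341) (nat_lit 5) (nat_lit 348) (nat_lit 348) (nat_lit 324)) (XT.lf (nat_lit 76) (nat_lit 3320301923) (nat_lit 0) (nat_lit 1559632311) (nat_lit 836) (nat_lit 2403223325) (nat_lit 331) (nat_lit 5) (nat_lit 330) (nat_lit 3) (nat_lit 341) (nat_lit 5) (nat_lit 349) (nat_lit 348) (nat_lit 323)))))) (XT.nd (nat_lit 468) (nat_lit 5928) (nat_lit 0) (XT.nd (nat_lit 234) (nat_lit 836) (nat_lit 0) (XT.nd (nat_lit 78) (nat_lit 0) (nat_lit 0) (XT.lf (nat_lit 0) (nat_lit 275836143) (nat_lit 836) (nat_lit 5327788147) (nat_lit 912) (nat_lit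 1784610245) (nat_lit 320) (nat_lit 5) (nat_lit 331) (nat_lit 5) (nat_lit 332) (nat_lit 5) (nat_lit 350) (nat_lit 348) (nat_lit 322)) (XT.nd (nat_lit 78) (nat_lit 0) (nat_lit 76) (XT.lf (nat_lit 76) (nat_lit 849870580) (nat_lit 0) (nat_lit 2089040589) (nat_lit 912) (nat_lit 4562034916) (nat_lit 321) (nat_lit 5) (nat_lit 320) (nat_lit 5) (nat_lit 332) (nat_lit 5) (nat_lit 351) (nat_lit 348) (nat_lit 321)) (XT.lf (nat_lit 0) (nat_lit 5647730377) (nat_lit 836) (nat_lit 285231193) (nat_lit 912) (nat_lit 1689037265) (nat_lit 321) (nat_lit 5) (nat_lit 332) (nat_lit 5) (nat_lit 333) (nat_lit 5) (nat_lit 352) (nat_lit 348) (nat_lit 320)))) (XT.nd (nat_lit 78) (nat_lit 0) (nat_lit 76) (XT.lf (nat_lit 0) (nat_lit 659666878) (nat_lit 912) (nat_lit 1349484914) (nat_lit 988) (nat_lit 5741876945) (nat_lit 309) (nat_lit 5) (nat_lit 321) (nat_lit 5) (nat_lit 322) (nat_lit 5) (nat_lit 353) (nat_lit 348) (nat_lit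 319)) (XT.nd (nat_lit 78) (nat_lit 0) (nat_lit 0) (XT.lf (nat_lit 0) (nat_lit 3316685611) (nat_lit 912) (nat_lit 2374881308) (nat_lit 988) (nat_lit 2196463660) (nat_lit 310) (nat_lit 5) (nat_lit 322) (nat_lit 5) (nat_lit 323) (nat_lit 5) (nat_lit 354) (nat_lit 348) (nat_lit 318)) (XT.lf (nat_lit 76) (nat_lit 4689822637) (nat_lit 0) (nat_lit 1356769507) (nat_lit 988) (nat_lit 1987159155) (nat_lit 311) (nat_lit 5) (nat_lit 310) (nat_lit 5) (nat_lit 323) (nat_lit 5) (nat_lit 355) (nat_lit 348) (nat_lit 317))))) (XT.nd (nat_lit 234) (nat_lit 4180) (nat_lit 0) (XT.nd (nat_lit 78) (nat_lit 912) (nat_lit 0) (XT.lf (nat_lit 0) (nat_lit 671423192) (nat_lit 988) (nat_lit 4276342189) (nat_lit 1064) (nat_lit 3240067105) (nat_lit 298) (nat_lit 5) (nat_lit 311) (nat_lit 5) (nat_lit 312) (nat_lit 5) (nat_lit 356) (nat_lit 348) (nat_lit 316)) (XT.nd (nat_lit 78) (nat_lit 912) (nat_lit 0) (XT.lf (nat_lit 76)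 (nat_lit 3180537607) (nat_lit 0) (nat_lit 191566772) (nat_lit 1064) (nat_lit 4978476638) (nat_lit 299) (nat_lit 5) (nat_lit 298) (nat_lit 5) (nat_lit 312) (nat_lit 5) (nat_lit 357) (nat_lit 348) (nat_lit 315)) (XT.lf (nat_lit 0) (nat_lit 2481669269) (nat_lit 988) (nat_lit 3716984080) (nat_lit 1064) (nat_lit 2323147232) (nat_lit 286) (nat_lit 5) (nat_lit 299) (nat_lit 5) (nat_lit 300) (nat_lit 5) (nat_lit 358) (nat_lit 348) (nat_lit 314)))) (XT.nd (nat_lit 156) (nat_lit 1900) (nat_lit 0) (XT.nd (nat_lit 78) (nat_lit 1140) (nat_lit 0) (XT.lf (nat_lit 0) (nat_lit 423350828) (nat_lit 1140) (nat_lit 6862728582) (nat_lit 76) (nat_lit 1416397579) (nat_lit 271) (nat_lit 5) (nat_lit 286) (nat_lit 5) (nat_lit 272) (nat_lit 5) (nat_lit 359) (nat_lit 348) (nat_lit 313)) (XT.lf (nat_lit 0) (nat_lit 1211520563) (nat_lit 1140) (nat_lit 2045058432) (nat_lit 1216) (nat_lit 5635046255) (nat_lit 256) (nat_lit 5)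 (nat_lit 271) (nat_lit 5) (nat_lit 272) (nat_lit 5) (nat_lit 360) (nat_lit 348) (nat_lit 312))) (XT.nd (nat_lit 78) (nat_lit 684) (nat_lit 0) (XT.lf (nat_lit 0) (nat_lit 622302863) (nat_lit 1216) (nat_lit 5609449114) (nat_lit 1292) (nat_lit 2858519604) (nat_lit 240) (nat_lit 5) (nat_lit 256) (nat_lit 5) (nat_lit 257) (nat_lit 5) (nat_lit 361) (nat_lit 348) (nat_lit 311)) (XT.lf (nat_lit 0) (nat_lit 50266247) (nat_lit 684) (nat_lit 9215844243) (nat_lit 76) (nat_lit 32932549) (nat_lit 231) (nat_lit 5) (nat_lit 240) (nat_lit 5) (nat_lit 232) (nat_lit 5) (nat_lit 362) (nat_lit 348) (nat_lit 310))))))) (XT.nd (nat_lit 936) (nat_lit 4408) (nat_lit 0) (XT.nd (nat_lit 468) (nat_lit 2812) (nat_lit 0) (XT.nd (nat_lit 234) (nat_lit 1596) (nat_lit 0) (XT.nd (nat_lit 78) (nat_lit 1216) (nat_lit 0) (XT.lf (nat_lit 0) (nat_lit 3087726113) (nat_lit 684) (nat_lit 463382622) (nat_lit 76) (nat_lit 5965067961) (nat_lit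 231) (nat_lit 5) (nat_lit 240) (nat_lit 5) (nat_lit 232) (nat_lit 5) (nat_lit 363) (nat_lit 348) (nat_lit 309)) (XT.nd (nat_lit 78) (nat_lit 608) (nat_lit 0) (XT.lf (nat_lit 0) (nat_lit 6288137456) (nat_lit 684) (nat_lit 966054068) (nat_lit 76) (nat_lit 2489684388) (nat_lit 223) (nat_lit 5) (nat_lit 232) (nat_lit 5) (nat_lit 224) (nat_lit 5) (nat_lit 364) (nat_lit 348) (nat_lit 308)) (XT.lf (nat_lit 0) (nat_lit 8543113498) (nat_lit 608) (nat_lit 1134073259) (nat_lit 684) (nat_lit 304954074) (nat_lit 215) (nat_lit 5) (nat_lit 223) (nat_lit 5) (nat_lit 224) (nat_lit 5) (nat_lit 365) (nat_lit 348) (nat_lit 307)))) (XT.nd (nat_lit 78) (nat_lit 988) (nat_lit 0) (XT.lf (nat_lit 0) (nat_lit 2995634592) (nat_lit 608) (nat_lit 1928337562) (nat_lit 76) (nat_lit 5305990895) (nat_lit 207) (nat_lit 5) (nat_lit 215) (nat_lit 5) (nat_lit 208) (nat_lit 5) (nat_lit 366) (nat_lit 348) (nat_lit 306)) (XT.nd (nat_lit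 78) (nat_lit 456) (nat_lit 0) (XT.lf (nat_lit 0) (nat_lit 6487215758) (nat_lit 608) (nat_lit 2386750531) (nat_lit 76) (nat_lit 1615185988) (nat_lit 200) (nat_lit 5) (nat_lit 208) (nat_lit 5) (nat_lit 201) (nat_lit 5) (nat_lit 367) (nat_lit 348) (nat_lit 305)) (XT.lf (nat_lit 0) (nat_lit 7924525039) (nat_lit 456) (nat_lit 2289940169) (nat_lit 532) (nat_lit 545036013) (nat_lit 194) (nat_lit 5) (nat_lit 200) (nat_lit 5) (nat_lit 201) (nat_lit 5) (nat_lit 368) (nat_lit 348) (nat_lit 304))))) (XT.nd (nat_lit 234) (nat_lit 1292) (nat_lit 0) (XT.nd (nat_lit 78) (nat_lit 912) (nat_lit 0) (XT.lf (nat_lit 0) (nat_lit 3087287101) (nat_lit 608) (nat_lit 3300388734) (nat_lit 76) (nat_lit 4652949523) (nat_lit 186) (nat_lit 5) (nat_lit 194) (nat_lit 5) (nat_lit 187) (nat_lit 5) (nat_lit 369) (nat_lit 348) (nat_lit 303)) (XT.nd (nat_lit 78) (nat_lit 456) (nat_lit 0) (XT.lf (nat_lit 0) (nat_lit 6942415113) (nat_lit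 532) (nat_lit 3745874337) (nat_lit 76) (nat_lit 645809531) (nat_lit 180) (nat_lit 5) (nat_lit 187) (nat_lit 5) (nat_lit 181) (nat_lit 5) (nat_lit 370) (nat_lit 348) (nat_lit 302)) (XT.lf (nat_lit 0) (nat_lit 7436717389) (nat_lit 456) (nat_lit 3647073179) (nat_lit 532) (nat_lit 555678605) (nat_lit 174) (nat_lit 5) (nat_lit 180) (nat_lit 5) (nat_lit 181) (nat_lit 5) (nat_lit 371) (nat_lit 348) (nat_lit 301)))) (XT.nd (nat_lit 78) (nat_lit 836) (nat_lit 0) (XT.lf (nat_lit 0) (nat_lit 3476151555) (nat_lit 456) (nat_lit 4680063674) (nat_lit 76) (nat_lit 3800763548) (nat_lit 168) (nat_lit 5) (nat_lit 174) (nat_lit 5) (nat_lit 169) (nat_lit 5) (nat_lit 372) (nat_lit 348) (nat_lit 300)) (XT.nd (nat_lit 78) (nat_lit 380) (nat_lit 0) (XT.lf (nat_lit 0) (nat_lit 7134841067) (nat_lit 456) (nat_lit 640232389) (nat_lit 532) (nat_lit 4512839899) (nat_lit 162) (nat_lit 5) (nat_lit 168) (nat_lit 5) (nat_lit 169)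 (nat_lit 5) (nat_lit 373) (nat_lit 348) (nat_lit 299)) (XT.lf (nat_lit 0) (nat_lit 6980176408) (nat_lit 380) (nat_lit 5424432237) (nat_lit 456) (nat_lit 227339163) (nat_lit 157) (nat_lit 5) (nat_lit 162) (nat_lit 5) (nat_lit 163) (nat_lit 5) (nat_lit 374) (nat_lit 348) (nat_lit 298)))))) (XT.nd (nat_lit 468) (nat_lit 2052) (nat_lit 0) (XT.nd (nat_lit 234) (nat_lit 1064) (nat_lit 0) (XT.nd (nat_lit 78) (nat_lit 836) (nat_lit 0) (XT.lf (nat_lit 0) (nat_lit 4271634868) (nat_lit 456) (nat_lit 6182627906) (nat_lit 76) (nat_lit 2535233484) (nat_lit 151) (nat_lit 5) (nat_lit 157) (nat_lit 5) (nat_lit 152) (nat_lit 5) (nat_lit 375) (nat_lit 348) (nat_lit 297)) (XT.nd (nat_lit 78) (nat_lit 456) (nat_lit 0) (XT.lf (nat_lit 0) (nat_lit 6626845070) (nat_lit 380) (nat_lit 2475471044) (nat_lit 456) (nat_lit 4259215080) (nat_lit 146) (nat_lit 5) (nat_lit 151) (nat_lit 5) (nat_lit 152) (nat_lit 5) (nat_lit 376)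 (nat_lit 348) (nat_lit 296)) (XT.lf (nat_lit 0) (nat_lit 534470802) (nat_lit 456) (nat_lit 7317283610) (nat_lit 76) (nat_lit 5896700052) (nat_lit 140) (nat_lit 5) (nat_lit 146) (nat_lit 5) (nat_lit 141) (nat_lit 5) (nat_lit 377) (nat_lit 348) (nat_lit 295)))) (XT.nd (nat_lit 78) (nat_lit 760) (nat_lit 0) (XT.lf (nat_lit 0) (nat_lit 5579279149) (nat_lit 380) (nat_lit 7947015484) (nat_lit 76) (nat_lit 624196356) (nat_lit 136) (nat_lit 5) (nat_lit 141) (nat_lit 5) (nat_lit 137) (nat_lit 5) (nat_lit 378) (nat_lit 348) (nat_lit 294)) (XT.nd (nat_lit 78) (nat_lit 380) (nat_lit 0) (XT.lf (nat_lit 0) (nat_lit 5933332722) (nat_lit 380) (nat_lit 5095170469) (nat_lit 456) (nat_lit 3539577998) (nat_lit 131) (nat_lit 5) (nat_lit 136) (nat_lit 5) (nat_lit 137) (nat_lit 5) (nat_lit 379) (nat_lit 348) (nat_lit 293)) (XT.lf (nat_lit 0) (nat_lit 1825518507) (nat_lit 380) (nat_lit 9362198590) (nat_lit 76) (nat_lit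 3814869625) (nat_lit 126) (nat_lit 5) (nat_lit 131) (nat_lit 5) (nat_lit 127) (nat_lit 5) (nat_lit 380) (nat_lit 348) (nat_lit 292))))) (XT.nd (nat_lit 234) (nat_lit 1064) (nat_lit 0) (XT.nd (nat_lit 78) (nat_lit 684) (nat_lit 0) (XT.lf (nat_lit 0) (nat_lit 5285606456) (nat_lit 304) (nat_lit 2235812257) (nat_lit 380) (nat_lit 7932289941) (nat_lit 122) (nat_lit 5) (nat_lit 126) (nat_lit 5) (nat_lit 127) (nat_lit 5) (nat_lit 381) (nat_lit 348) (nat_lit 291)) (XT.nd (nat_lit 78) (nat_lit 380) (nat_lit 0) (XT.lf (nat_lit 0) (nat_lit 4880254675) (nat_lit 304) (nat_lit 8779720890) (nat_lit 380) (nat_lit 2262689615) (nat_lit 118) (nat_lit 5) (nat_lit 122) (nat_lit 5) (nat_lit 123) (nat_lit 5) (nat_lit 382) (nat_lit 348) (nat_lit 290)) (XT.lf (nat_lit 0) (nat_lit 3741957312) (nat_lit 380) (nat_lit 11989098701) (nat_lit 76) (nat_lit 679255175) (nat_lit 113) (nat_lit 5) (nat_lit 118) (nat_lit 5) (nat_lit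 114) (nat_lit 5) (nat_lit 383) (nat_lit 348) (nat_lit 289)))) (XT.nd (nat_lit 156) (nat_lit 532) (nat_lit 0) (XT.nd (nat_lit 78) (nat_lit 304) (nat_lit 0) (XT.lf (nat_lit 0) (nat_lit 3852593204) (nat_lit 228) (nat_lit 6335968125) (nat_lit 304) (nat_lit 6727463097) (nat_lit 110) (nat_lit 5) (nat_lit 113) (nat_lit 5) (nat_lit 114) (nat_lit 5) (nat_lit 384) (nat_lit 348) (nat_lit 288)) (XT.lf (nat_lit 0) (nat_lit 3242893276) (nat_lit 304) (nat_lit 13853463583) (nat_lit 380) (nat_lit 346512661) (nat_lit 106) (nat_lit 5) (nat_lit 110) (nat_lit 5) (nat_lit 111) (nat_lit 5) (nat_lit 385) (nat_lit 348) (nat_lit 287))) (XT.nd (nat_lit 78) (nat_lit 228) (nat_lit 0) (XT.lf (nat_lit 0) (nat_lit 2490165617) (nat_lit 228) (nat_lit 3913351724) (nat_lit 304) (nat_lit 11585498103) (nat_lit 102) (nat_lit 5) (nat_lit 105) (nat_lit 5) (nat_lit 106) (nat_lit 5) (nat_lit 386) (nat_lit 348) (nat_lit 286)) (XT.lf (nat_lit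 0) (nat_lit 1641305982) (nat_lit 228) (nat_lit 12020449437) (nat_lit 304) (nat_lit 4895284727) (nat_lit 99) (nat_lit 5) (nat_lit 102) (nat_lit 5) (nat_lit 103) (nat_lit 5) (nat_lit 387) (nat_lit 348) (nat_lit 285))))))))
noncomputable def xc64 : XT := (XT.nd (nat_lit 1872) (nat_lit 1900) (nat_lit 0) (XT.nd (nat_lit 936) (nat_lit 1596) (nat_lit 0) (XT.nd (nat_lit 468) (nat_lit 1216) (nat_lit 0) (XT.nd (nat_lit 234) (nat_lit 760) (nat_lit 0) (XT.nd (nat_lit 78) (nat_lit 228) (nat_lit 0) (XT.lf (nat_lit 0) (nat_lit 690302300) (nat_lit 228) (nat_lit 1557652998) (nat_lit 304) (nat_lit 16900104429) (nat_lit 95) (nat_lit 5) (nat_lit 98) (nat_lit 5) (nat_lit 99) (nat_lit 5) (nat_lit 388) (nat_lit 348) (nat_lit 284)) (XT.nd (nat_lit 78) (nat_lit 228) (nat_lit 0) (XT.lf (nat_lit 0) (nat_lit 9868631892) (nat_lit 304) (nat_lit 449287508) (nat_lit 76) (nat_lit 9442620677) (nat_lit 95) (nat_lit 5) (nat_lit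 99) (nat_lit 5) (nat_lit 96) (nat_lit 5) (nat_lit 389) (nat_lit 348) (nat_lit 283)) (XT.lf (nat_lit 0) (nat_lit 18029354018) (nat_lit 304) (nat_lit 1667140920) (nat_lit 76) (nat_lit 702388042) (nat_lit 92) (nat_lit 5) (nat_lit 96) (nat_lit 5) (nat_lit 93) (nat_lit 5) (nat_lit 390) (nat_lit 348) (nat_lit 282)))) (XT.nd (nat_lit 78) (nat_lit 456) (nat_lit 0) (XT.lf (nat_lit 0) (nat_lit 5662618597) (nat_lit 304) (nat_lit 3128142955) (nat_lit 76) (nat_lit 12269549073) (nat_lit 88) (nat_lit 5) (nat_lit 92) (nat_lit 5) (nat_lit 89) (nat_lit 5) (nat_lit 391) (nat_lit 348) (nat_lit 281)) (XT.nd (nat_lit 78) (nat_lit 228) (nat_lit 0) (XT.lf (nat_lit 0) (nat_lit 14214619734) (nat_lit 304) (nat_lit 4745555833) (nat_lit 76) (nat_lit 2788920541) (nat_lit 85) (nat_lit 5) (nat_lit 89) (nat_lit 5) (nat_lit 86) (nat_lit 5) (nat_lit 392) (nat_lit 348) (nat_lit 280)) (XT.lf (nat_lit 0) (nat_lit 943593399) (nat_lit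 228) (nat_lit 6585285243) (nat_lit 76) (nat_lit 14936167871) (nat_lit 82) (nat_lit 5) (nat_lit 85) (nat_lit 5) (nat_lit 83) (nat_lit 5) (nat_lit 393) (nat_lit 348) (nat_lit 279))))) (XT.nd (nat_lit 234) (nat_lit 532) (nat_lit 0) (XT.nd (nat_lit 78) (nat_lit 456) (nat_lit 0) (XT.lf (nat_lit 0) (nat_lit 9886268928) (nat_lit 304) (nat_lit 8694009723) (nat_lit 76) (nat_lit 4628388914) (nat_lit 79) (nat_lit 5) (nat_lit 83) (nat_lit 5) (nat_lit 80) (nat_lit 5) (nat_lit 394) (nat_lit 348) (nat_lit 278)) (XT.nd (nat_lit 78) (nat_lit 304) (nat_lit 0) (XT.lf (nat_lit 0) (nat_lit 12930020284) (nat_lit 152) (nat_lit 6576209332) (nat_lit 228) (nat_lit 4476342074) (nat_lit 77) (nat_lit 5) (nat_lit 79) (nat_lit 5) (nat_lit 80) (nat_lit 5) (nat_lit 395) (nat_lit 348) (nat_lit 277)) (XT.lf (nat_lit 0) (nat_lit 4937852952) (nat_lit 304) (nat_lit 13718896263) (nat_lit 76) (nat_lit 6130448131) (nat_lit 73) (nat_lit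 5) (nat_lit 77) (nat_lit 5) (nat_lit 74) (nat_lit 5) (nat_lit 396) (nat_lit 348) (nat_lit 276)))) (XT.nd (nat_lit 78) (nat_lit 380) (nat_lit 0) (XT.lf (nat_lit 0) (nat_lit 8895117273) (nat_lit 152) (nat_lit 6065914096) (nat_lit 228) (nat_lit 10662773552) (nat_lit 71) (nat_lit 5) (nat_lit 73) (nat_lit 5) (nat_lit 74) (nat_lit 5) (nat_lit 397) (nat_lit 348) (nat_lit 275)) (XT.nd (nat_lit 78) (nat_lit 228) (nat_lit 0) (XT.lf (nat_lit 0) (nat_lit 6421333416) (nat_lit 152) (nat_lit 19301276193) (nat_lit 228) (nat_lit 772521542) (nat_lit 69) (nat_lit 5) (nat_lit 71) (nat_lit 5) (nat_lit 72) (nat_lit 5) (nat_lit 398) (nat_lit 348) (nat_lit 274)) (XT.lf (nat_lit 0) (nat_lit 3525825304) (nat_lit 152) (nat_lit 6132774933) (nat_lit 228) (nat_lit 17741638784) (nat_lit 66) (nat_lit 5) (nat_lit 68) (nat_lit 5) (nat_lit 69) (nat_lit 5) (nat_lit 399) (nat_lit 348) (nat_lit 273)))))) (XT.nd (nat_lit 468) (nat_lit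 684) (nat_lit 0) (XT.nd (nat_lit 234) (nat_lit 532) (nat_lit 0) (XT.nd (nat_lit 78) (nat_lit 228) (nat_lit 0) (XT.lf (nat_lit 0) (nat_lit 241160391) (nat_lit 152) (nat_lit 20605008855) (nat_lit 228) (nat_lit 7496682382) (nat_lit 64) (nat_lit 5) (nat_lit 66) (nat_lit 5) (nat_lit 67) (nat_lit 5) (nat_lit 400) (nat_lit 348) (nat_lit 272)) (XT.nd (nat_lit 78) (nat_lit 152) (nat_lit 0) (XT.lf (nat_lit 0) (nat_lit 3473483963) (nat_lit 228) (nat_lit 3418674268) (nat_lit 76) (nat_lit 22431203251) (nat_lit 63) (nat_lit 5) (nat_lit 66) (nat_lit 5) (nat_lit 64) (nat_lit 5) (nat_lit 401) (nat_lit 348) (nat_lit 271)) (XT.lf (nat_lit 0) (nat_lit 15100760057) (nat_lit 228) (nat_lit 7608263645) (nat_lit 76) (nat_lit 7633741330) (nat_lit 61) (nat_lit 5) (nat_lit 64) (nat_lit 5) (nat_lit 62) (nat_lit 5) (nat_lit 402) (nat_lit 348) (nat_lit 270)))) (XT.nd (nat_lit 78) (nat_lit 380) (nat_lit 0) (XT.lf (nat_lit 0)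 (nat_lit 19102067219) (nat_lit 152) (nat_lit 8464906222) (nat_lit 228) (nat_lit 3838442180) (nat_lit 59) (nat_lit 5) (nat_lit 61) (nat_lit 5) (nat_lit 62) (nat_lit 5) (nat_lit 403) (nat_lit 348) (nat_lit 269)) (XT.nd (nat_lit 78) (nat_lit 152) (nat_lit 0) (XT.lf (nat_lit 0) (nat_lit 8233977533) (nat_lit 228) (nat_lit 17631986751) (nat_lit 76) (nat_lit 6645169337) (nat_lit 56) (nat_lit 5) (nat_lit 59) (nat_lit 5) (nat_lit 57) (nat_lit 5) (nat_lit 404) (nat_lit 348) (nat_lit 268)) (XT.lf (nat_lit 0) (nat_lit 10026157002) (nat_lit 152) (nat_lit 11085165482) (nat_lit 228) (nat_lit 12551257812) (nat_lit 54) (nat_lit 5) (nat_lit 56) (nat_lit 5) (nat_lit 57) (nat_lit 5) (nat_lit 405) (nat_lit 348) (nat_lit 267))))) (XT.nd (nat_lit 234) (nat_lit 380) (nat_lit 0) (XT.nd (nat_lit 78) (nat_lit 152) (nat_lit 0) (XT.lf (nat_lit 0) (nat_lit 8682282) (nat_lit 152) (nat_lit 30303070370) (nat_lit 76) (nat_lit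 4552626446) (nat_lit 52) (nat_lit 5) (nat_lit 54) (nat_lit 5) (nat_lit 53) (nat_lit 5) (nat_lit 406) (nat_lit 348) (nat_lit 266)) (XT.nd (nat_lit 78) (nat_lit 152) (nat_lit 0) (XT.lf (nat_lit 0) (nat_lit 13268597389) (nat_lit 152) (nat_lit 1748843085) (nat_lit 76) (nat_lit 21095155706) (nat_lit 52) (nat_lit 5) (nat_lit 54) (nat_lit 5) (nat_lit 53) (nat_lit 5) (nat_lit 407) (nat_lit 348) (nat_lit 265)) (XT.lf (nat_lit 0) (nat_lit 27453244310) (nat_lit 228) (nat_lit 8683569471) (nat_lit 76) (nat_lit 1278561255) (nat_lit 50) (nat_lit 5) (nat_lit 53) (nat_lit 5) (nat_lit 51) (nat_lit 4) (nat_lit 408) (nat_lit 348) (nat_lit 264)))) (XT.nd (nat_lit 78) (nat_lit 228) (nat_lit 0) (XT.lf (nat_lit 0) (nat_lit 3854714638) (nat_lit 152) (nat_lit 16586651145) (nat_lit 76) (nat_lit 18330089285) (nat_lit 48) (nat_lit 5) (nat_lit 50) (nat_lit 5) (nat_lit 49) (nat_lit 5) (nat_lit 409) (nat_lit 348) (nat_lit 263))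 (XT.nd (nat_lit 78) (nat_lit 76) (nat_lit 0) (XT.lf (nat_lit 0) (nat_lit 14723684186) (nat_lit 152) (nat_lit 3640473331) (nat_lit 228) (nat_lit 21821991558) (nat_lit 46) (nat_lit 5) (nat_lit 48) (nat_lit 5) (nat_lit 49) (nat_lit 5) (nat_lit 410) (nat_lit 348) (nat_lit 262)) (XT.lf (nat_lit 0) (nat_lit 6217974283) (nat_lit 76) (nat_lit 27722538087) (nat_lit 152) (nat_lit 7720824734) (nat_lit 45) (nat_lit 5) (nat_lit 46) (nat_lit 5) (nat_lit 47) (nat_lit 4) (nat_lit 411) (nat_lit 348) (nat_lit 261))))))) (XT.nd (nat_lit 936) (nat_lit 760) (nat_lit 0) (XT.nd (nat_lit 468) (nat_lit 532) (nat_lit 0) (XT.nd (nat_lit 234) (nat_lit 304) (nat_lit 0) (XT.nd (nat_lit 78) (nat_lit 228) (nat_lit 0) (XT.lf (nat_lit 0) (nat_lit 7223768602) (nat_lit 152) (nat_lit 3341281304) (nat_lit 76) (nat_lit 32634894786) (nat_lit 44) (nat_lit 5) (nat_lit 46) (nat_lit 5) (nat_lit 45) (nat_lit 5) (nat_lit 412) (nat_lit 348)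 (nat_lit 260)) (XT.nd (nat_lit 78) (nat_lit 76) (nat_lit 0) (XT.lf (nat_lit 0) (nat_lit 23105399397) (nat_lit 228) (nat_lit 14033946506) (nat_lit 76) (nat_lit 7663361071) (nat_lit 42) (nat_lit 5) (nat_lit 45) (nat_lit 5) (nat_lit 43) (nat_lit 4) (nat_lit 413) (nat_lit 348) (nat_lit 259)) (XT.lf (nat_lit 0) (nat_lit 20418006733) (nat_lit 76) (nat_lit 19677635133) (nat_lit 152) (nat_lit 6380531712) (nat_lit 41) (nat_lit 5) (nat_lit 42) (nat_lit 5) (nat_lit 43) (nat_lit 4) (nat_lit 414) (nat_lit 348) (nat_lit 258)))) (XT.nd (nat_lit 78) (nat_lit 76) (nat_lit 0) (XT.lf (nat_lit 0) (nat_lit 8689499360) (nat_lit 152) (nat_lit 1030050524) (nat_lit 228) (nat_lit 38504764024) (nat_lit 38) (nat_lit 5) (nat_lit 40) (nat_lit 5) (nat_lit 41) (nat_lit 5) (nat_lit 415) (nat_lit 348) (nat_lit 257)) (XT.nd (nat_lit 78) (nat_lit 76) (nat_lit 0) (XT.lf (nat_lit 0) (nat_lit 26920981762) (nat_lit 228) (nat_lit 4619580034)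 (nat_lit 76) (nat_lit 18504556951) (nat_lit 38) (nat_lit 5) (nat_lit 41) (nat_lit 5) (nat_lit 39) (nat_lit 4) (nat_lit 416) (nat_lit 348) (nat_lit 256)) (XT.lf (nat_lit 0) (nat_lit 32628204097) (nat_lit 76) (nat_lit 12657237906) (nat_lit 152) (nat_lit 6662434892) (nat_lit 37) (nat_lit 5) (nat_lit 38) (nat_lit 5) (nat_lit 39) (nat_lit 4) (nat_lit 417) (nat_lit 348) (nat_lit 255))))) (XT.nd (nat_lit 234) (nat_lit 228) (nat_lit 0) (XT.nd (nat_lit 78) (nat_lit 76) (nat_lit 0) (XT.lf (nat_lit 0) (nat_lit 10688417759) (nat_lit 228) (nat_lit 35906187850) (nat_lit 76) (nat_lit 7339905349) (nat_lit 34) (nat_lit 5) (nat_lit 37) (nat_lit 5) (nat_lit 35) (nat_lit 4) (nat_lit 418) (nat_lit 348) (nat_lit 254)) (XT.nd (nat_lit 78) (nat_lit 0) (nat_lit 0) (XT.lf (nat_lit 0) (nat_lit 1425675239) (nat_lit 76) (nat_lit 27666734848) (nat_lit 152) (nat_lit 26916387661) (nat_lit 33) (nat_lit 5) (nat_lit 34) (nat_lit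 5) (nat_lit 35) (nat_lit 4) (nat_lit 419) (nat_lit 348) (nat_lit 253)) (XT.lf (nat_lit 0) (nat_lit 41337447253) (nat_lit 76) (nat_lit 7429183784) (nat_lit 152) (nat_lit 9409668458) (nat_lit 33) (nat_lit 5) (nat_lit 34) (nat_lit 5) (nat_lit 35) (nat_lit 4) (nat_lit 420) (nat_lit 348) (nat_lit 252)))) (XT.nd (nat_lit 78) (nat_lit 76) (nat_lit 0) (XT.lf (nat_lit 0) (nat_lit 9136460614) (nat_lit 152) (nat_lit 37457285418) (nat_lit 76) (nat_lit 13845669504) (nat_lit 31) (nat_lit 5) (nat_lit 33) (nat_lit 5) (nat_lit 32) (nat_lit 4) (nat_lit 421) (nat_lit 348) (nat_lit 251)) (XT.nd (nat_lit 78) (nat_lit 0) (nat_lit 0) (XT.lf (nat_lit 0) (nat_lit 2171247858) (nat_lit 76) (nat_lit 26498325389) (nat_lit 152) (nat_lit 34135691984) (nat_lit 30) (nat_lit 5) (nat_lit 31) (nat_lit 5) (nat_lit 32) (nat_lit 4) (nat_lit 422) (nat_lit 348) (nat_lit 250)) (XT.lf (nat_lit 0) (nat_lit 44529955171) (nat_lit 76) (nat_lit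 5017088425) (nat_lit 152) (nat_lit 15731333999) (nat_lit 30) (nat_lit 5) (nat_lit 31) (nat_lit 5) (nat_lit 32) (nat_lit 4) (nat_lit 423) (nat_lit 348) (nat_lit 249)))))) (XT.nd (nat_lit 468) (nat_lit 304) (nat_lit 0) (XT.nd (nat_lit 234) (nat_lit 228) (nat_lit 0) (XT.nd (nat_lit 78) (nat_lit 76) (nat_lit 0) (XT.lf (nat_lit 0) (nat_lit 3883256260) (nat_lit 152) (nat_lit 46555850623) (nat_lit 76) (nat_lit 17424199687) (nat_lit 28) (nat_lit 5) (nat_lit 30) (nat_lit 5) (nat_lit 29) (nat_lit 4) (nat_lit 424) (nat_lit 348) (nat_lit 248)) (XT.nd (nat_lit 78) (nat_lit 76) (nat_lit 0) (XT.lf (nat_lit 0) (nat_lit 24405755416) (nat_lit 152) (nat_lit 4915041718) (nat_lit 76) (nat_lit 41244437459) (nat_lit 28) (nat_lit 5) (nat_lit 30) (nat_lit 5) (nat_lit 29) (nat_lit 4) (nat_lit 425) (nat_lit 348) (nat_lit 247)) (XT.lf (nat_lit 0) (nat_lit 39548937476) (nat_lit 76) (nat_lit 6769575404) (nat_lit 152) (nat_lit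 27072823182) (nat_lit 27) (nat_lit 5) (nat_lit 28) (nat_lit 5) (nat_lit 29) (nat_lit 4) (nat_lit 426) (nat_lit 348) (nat_lit 246)))) (XT.nd (nat_lit 78) (nat_lit 152) (nat_lit 0) (XT.lf (nat_lit 0) (nat_lit 9983302094) (nat_lit 76) (nat_lit 59637516587) (nat_lit 76) (nat_lit 6729107605) (nat_lit 26) (nat_lit 4) (nat_lit 27) (nat_lit 5) (nat_lit 27) (nat_lit 4) (nat_lit 427) (nat_lit 348) (nat_lit 245)) (XT.nd (nat_lit 78) (nat_lit 76) (nat_lit 0) (XT.lf (nat_lit 0) (nat_lit 14751049773) (nat_lit 152) (nat_lit 22980437747) (nat_lit 76) (nat_lit 41708596678) (nat_lit 25) (nat_lit 5) (nat_lit 27) (nat_lit 5) (nat_lit 26) (nat_lit 4) (nat_lit 428) (nat_lit 348) (nat_lit 244)) (XT.lf (nat_lit 0) (nat_lit 22926410196) (nat_lit 76) (nat_lit 14446666386) (nat_lit 152) (nat_lit 45303464659) (nat_lit 24) (nat_lit 5) (nat_lit 25) (nat_lit 5) (nat_lit 26) (nat_lit 4) (nat_lit 429) (nat_lit 348) (nat_lit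 243))))) (XT.nd (nat_lit 234) (nat_lit 152) (nat_lit 0) (XT.nd (nat_lit 78) (nat_lit 152) (nat_lit 0) (XT.lf (nat_lit 0) (nat_lit 61446922093) (nat_lit 152) (nat_lit 14584993353) (nat_lit 0) (nat_lit 10033285004) (nat_lit 24) (nat_lit 5) (nat_lit 26) (nat_lit 4) (nat_lit 24) (nat_lit 4) (nat_lit 430) (nat_lit 348) (nat_lit 242)) (XT.nd (nat_lit 78) (nat_lit 76) (nat_lit 0) (XT.lf (nat_lit 0) (nat_lit 33316423460) (nat_lit 76) (nat_lit 53860453368) (nat_lit 76) (nat_lit 2432844079) (nat_lit 23) (nat_lit 4) (nat_lit 24) (nat_lit 5) (nat_lit 24) (nat_lit 4) (nat_lit 431) (nat_lit 348) (nat_lit 241)) (XT.lf (nat_lit 0) (nat_lit 20593016258) (nat_lit 152) (nat_lit 9637093141) (nat_lit 76) (nat_lit 63091195281) (nat_lit 22) (nat_lit 5) (nat_lit 24) (nat_lit 5) (nat_lit 23) (nat_lit 4) (nat_lit 432) (nat_lit 348) (nat_lit 240)))) (XT.nd (nat_lit 46566) (nat_lit 0) (nat_lit 22724) (XT.nd (nat_lit 156)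 (nat_lit 76) (nat_lit 0) (XT.lf (nat_lit 0) (nat_lit 40084996361) (nat_lit 76) (nat_lit 5007903000) (nat_lit 152) (nat_lit 52113655012) (nat_lit 21) (nat_lit 5) (nat_lit 22) (nat_lit 5) (nat_lit 23) (nat_lit 4) (nat_lit 433) (nat_lit 348) (nat_lit 239)) (XT.lf (nat_lit 0) (nat_lit 42237187785) (nat_lit 76) (nat_lit 56639378960) (nat_lit 76) (nat_lit 6661559524) (nat_lit 20) (nat_lit 4) (nat_lit 21) (nat_lit 5) (nat_lit 21) (nat_lit 4) (nat_lit 435) (nat_lit 348) (nat_lit 237))) (XT.nd (nat_lit 78) (nat_lit 0) (nat_lit 0) (XT.lf (nat_lit 0) (nat_lit 26886281) (nat_lit 0) (nat_lit 26886281) (nat_lit 836) (nat_lit 3638482279) (nat_lit 319) (nat_lit 5) (nat_lit 319) (nat_lit 3) (nat_lit 330) (nat_lit 3) (nat_lit 349) (nat_lit 349) (nat_lit 322)) (XT.lf (nat_lit 0) (nat_lit 2620906787) (nat_lit 836) (nat_lit 1396025711) (nat_lit 912) (nat_lit 3475567875) (nat_lit 319) (nat_lit 5) (nat_lit 330) (nat_lit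 3) (nat_lit 331) (nat_lit 5) (nat_lit 350) (nat_lit 349) (nat_lit 321))))))))
noncomputable def xc65 : XT := (XT.nd (nat_lit 1872) (nat_lit 7144) (nat_lit 0) (XT.nd (nat_lit 936) (nat_lit 5852) (nat_lit 0) (XT.nd (nat_lit 468) (nat_lit 4408) (nat_lit 0) (XT.nd (nat_lit 234) (nat_lit 836) (nat_lit 0) (XT.nd (nat_lit 78) (nat_lit 836) (nat_lit 0) (XT.lf (nat_lit 76) (nat_lit 4844545132) (nat_lit 0) (nat_lit 304731571) (nat_lit 912) (nat_lit 2460017026) (nat_lit 320) (nat_lit 5) (nat_lit 319) (nat_lit 5) (nat_lit 331) (nat_lit 5) (nat_lit 351) (nat_lit 349) (nat_lit 320)) (XT.nd (nat_lit 78) (nat_lit 0) (nat_lit 76) (XT.lf (nat_lit 0) (nat_lit 3680942) (nat_lit 912) (nat_lit 4090498314) (nat_lit 988) (nat_lit 3639815240) (nat_lit 308) (nat_lit 5) (nat_lit 320) (nat_lit 5) (nat_lit 321) (nat_lit 5) (nat_lit 352) (nat_lit 349) (nat_lit 319)) (XT.lf (nat_lit 0) (nat_lit 2450903313) (nat_lit 912) (nat_lit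 5369156873) (nat_lit 988) (nat_lit 46876311) (nat_lit 309) (nat_lit 5) (nat_lit 321) (nat_lit 5) (nat_lit 322) (nat_lit 5) (nat_lit 353) (nat_lit 349) (nat_lit 318)))) (XT.nd (nat_lit 78) (nat_lit 912) (nat_lit 0) (XT.lf (nat_lit 76) (nat_lit 1390680303) (nat_lit 0) (nat_lit 3588099062) (nat_lit 988) (nat_lit 3029067347) (nat_lit 310) (nat_lit 5) (nat_lit 309) (nat_lit 5) (nat_lit 322) (nat_lit 5) (nat_lit 354) (nat_lit 349) (nat_lit 317)) (XT.nd (nat_lit 78) (nat_lit 988) (nat_lit 0) (XT.lf (nat_lit 76) (nat_lit 352359525) (nat_lit 0) (nat_lit 7215401075) (nat_lit 988) (nat_lit 590067060) (nat_lit 311) (nat_lit 5) (nat_lit 310) (nat_lit 5) (nat_lit 323) (nat_lit 5) (nat_lit 355) (nat_lit 349) (nat_lit 316)) (XT.lf (nat_lit 0) (nat_lit 1908850994) (nat_lit 988) (nat_lit 652743319) (nat_lit 1064) (nat_lit 5753913726) (nat_lit 297) (nat_lit 5) (nat_lit 310) (nat_lit 5) (nat_lit 311) (nat_lit 5)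 (nat_lit 356) (nat_lit 349) (nat_lit 315))))) (XT.nd (nat_lit 234) (nat_lit 3496) (nat_lit 0) (XT.nd (nat_lit 78) (nat_lit 988) (nat_lit 0) (XT.lf (nat_lit 0) (nat_lit 4487874395) (nat_lit 988) (nat_lit 1607649037) (nat_lit 1064) (nat_lit 2386411466) (nat_lit 298) (nat_lit 5) (nat_lit 311) (nat_lit 5) (nat_lit 312) (nat_lit 5) (nat_lit 357) (nat_lit 349) (nat_lit 314)) (XT.nd (nat_lit 78) (nat_lit 988) (nat_lit 0) (XT.lf (nat_lit 76) (nat_lit 6139448170) (nat_lit 0) (nat_lit 1030918521) (nat_lit 1064) (nat_lit 1487136701) (nat_lit 299) (nat_lit 5) (nat_lit 298) (nat_lit 5) (nat_lit 312) (nat_lit 5) (nat_lit 358) (nat_lit 349) (nat_lit 313)) (XT.lf (nat_lit 0) (nat_lit 1120788546) (nat_lit 1064) (nat_lit 3412387318) (nat_lit 76) (nat_lit 4308455807) (nat_lit 285) (nat_lit 5) (nat_lit 299) (nat_lit 5) (nat_lit 286) (nat_lit 5) (nat_lit 359) (nat_lit 349) (nat_lit 312)))) (XT.nd (nat_lit 78) (nat_lit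 2432) (nat_lit 0) (XT.lf (nat_lit 0) (nat_lit 3811605717) (nat_lit 1140) (nat_lit 4274907168) (nat_lit 76) (nat_lit 948563357) (nat_lit 271) (nat_lit 5) (nat_lit 286) (nat_lit 5) (nat_lit 272) (nat_lit 5) (nat_lit 360) (nat_lit 349) (nat_lit 311)) (XT.nd (nat_lit 78) (nat_lit 1292) (nat_lit 0) (XT.lf (nat_lit 0) (nat_lit 4119039116) (nat_lit 1140) (nat_lit 2534485237) (nat_lit 1216) (nat_lit 2584218690) (nat_lit 256) (nat_lit 5) (nat_lit 271) (nat_lit 5) (nat_lit 272) (nat_lit 5) (nat_lit 361) (nat_lit 349) (nat_lit 310)) (XT.lf (nat_lit 0) (nat_lit 193304309) (nat_lit 1292) (nat_lit 5934176219) (nat_lit 76) (nat_lit 3322753295) (nat_lit 239) (nat_lit 5) (nat_lit 256) (nat_lit 5) (nat_lit 240) (nat_lit 5) (nat_lit 362) (nat_lit 349) (nat_lit 309)))))) (XT.nd (nat_lit 468) (nat_lit 2432) (nat_lit 0) (XT.nd (nat_lit 234) (nat_lit 1596) (nat_lit 0) (XT.nd (nat_lit 78) (nat_lit 1216) (nat_lit 0)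 (XT.lf (nat_lit 0) (nat_lit 2932106867) (nat_lit 608) (nat_lit 134514717) (nat_lit 684) (nat_lit 6605690286) (nat_lit 231) (nat_lit 5) (nat_lit 239) (nat_lit 5) (nat_lit 240) (nat_lit 5) (nat_lit 363) (nat_lit 349) (nat_lit 308)) (XT.nd (nat_lit 78) (nat_lit 608) (nat_lit 0) (XT.lf (nat_lit 0) (nat_lit 2357280119) (nat_lit 608) (nat_lit 3776586190) (nat_lit 684) (nat_lit 3770158928) (nat_lit 223) (nat_lit 5) (nat_lit 231) (nat_lit 5) (nat_lit 232) (nat_lit 5) (nat_lit 364) (nat_lit 349) (nat_lit 307)) (XT.lf (nat_lit 0) (nat_lit 1823154813) (nat_lit 608) (nat_lit 7555115347) (nat_lit 684) (nat_lit 768377604) (nat_lit 215) (nat_lit 5) (nat_lit 223) (nat_lit 5) (nat_lit 224) (nat_lit 5) (nat_lit 365) (nat_lit 349) (nat_lit 306)))) (XT.nd (nat_lit 78) (nat_lit 988) (nat_lit 0) (XT.lf (nat_lit 0) (nat_lit 1293363749) (nat_lit 532) (nat_lit 1085476438) (nat_lit 608) (nat_lit 8020652721) (nat_lit 207)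 (nat_lit 5) (nat_lit 214) (nat_lit 5) (nat_lit 215) (nat_lit 5) (nat_lit 366) (nat_lit 349) (nat_lit 305)) (XT.nd (nat_lit 78) (nat_lit 456) (nat_lit 0) (XT.lf (nat_lit 0) (nat_lit 763842694) (nat_lit 532) (nat_lit 4968693365) (nat_lit 608) (nat_lit 4930298701) (nat_lit 200) (nat_lit 5) (nat_lit 207) (nat_lit 5) (nat_lit 208) (nat_lit 5) (nat_lit 367) (nat_lit 349) (nat_lit 304)) (XT.lf (nat_lit 0) (nat_lit 266718886) (nat_lit 456) (nat_lit 9032282034) (nat_lit 532) (nat_lit 1639021621) (nat_lit 194) (nat_lit 5) (nat_lit 200) (nat_lit 5) (nat_lit 201) (nat_lit 5) (nat_lit 368) (nat_lit 349) (nat_lit 303))))) (XT.nd (nat_lit 234) (nat_lit 1368) (nat_lit 0) (XT.nd (nat_lit 78) (nat_lit 988) (nat_lit 0) (XT.lf (nat_lit 0) (nat_lit 1855842332) (nat_lit 532) (nat_lit 233960052) (nat_lit 76) (nat_lit 9134438124) (nat_lit 193) (nat_lit 5) (nat_lit 200) (nat_lit 5) (nat_lit 194) (nat_lit 5) (nat_lit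 369) (nat_lit 349) (nat_lit 302)) (XT.nd (nat_lit 78) (nat_lit 456) (nat_lit 0) (XT.lf (nat_lit 0) (nat_lit 5572264124) (nat_lit 608) (nat_lit 739120616) (nat_lit 76) (nat_lit 5210504051) (nat_lit 186) (nat_lit 5) (nat_lit 194) (nat_lit 5) (nat_lit 187) (nat_lit 5) (nat_lit 370) (nat_lit 349) (nat_lit 301)) (XT.lf (nat_lit 0) (nat_lit 9538496901) (nat_lit 532) (nat_lit 1220741766) (nat_lit 76) (nat_lit 1073287427) (nat_lit 180) (nat_lit 5) (nat_lit 187) (nat_lit 5) (nat_lit 181) (nat_lit 5) (nat_lit 371) (nat_lit 349) (nat_lit 300)))) (XT.nd (nat_lit 78) (nat_lit 836) (nat_lit 0) (XT.lf (nat_lit 0) (nat_lit 1617329487) (nat_lit 532) (nat_lit 1728284120) (nat_lit 76) (nat_lit 8809567047) (nat_lit 173) (nat_lit 5) (nat_lit 180) (nat_lit 5) (nat_lit 174) (nat_lit 5) (nat_lit 372) (nat_lit 349) (nat_lit 299)) (XT.nd (nat_lit 78) (nat_lit 456) (nat_lit 0) (XT.lf (nat_lit 0) (nat_lit 5764852016) (nat_lit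 456) (nat_lit 2252575587) (nat_lit 76) (nat_lit 4473240908) (nat_lit 168) (nat_lit 5) (nat_lit 174) (nat_lit 5) (nat_lit 169) (nat_lit 5) (nat_lit 373) (nat_lit 349) (nat_lit 298)) (XT.lf (nat_lit 0) (nat_lit 10076783277) (nat_lit 456) (nat_lit 126078074) (nat_lit 532) (nat_lit 2637598149) (nat_lit 162) (nat_lit 5) (nat_lit 168) (nat_lit 5) (nat_lit 169) (nat_lit 5) (nat_lit 374) (nat_lit 349) (nat_lit 297))))))) (XT.nd (nat_lit 936) (nat_lit 2812) (nat_lit 0) (XT.nd (nat_lit 468) (nat_lit 1976) (nat_lit 0) (XT.nd (nat_lit 234) (nat_lit 1140) (nat_lit 0) (XT.nd (nat_lit 78) (nat_lit 760) (nat_lit 0) (XT.lf (nat_lit 0) (nat_lit 1757710398) (nat_lit 456) (nat_lit 3325725176) (nat_lit 76) (nat_lit 8119798343) (nat_lit 156) (nat_lit 5) (nat_lit 162) (nat_lit 5) (nat_lit 157) (nat_lit 5) (nat_lit 375) (nat_lit 349) (nat_lit 296)) (XT.nd (nat_lit 78) (nat_lit 380) (nat_lit 0) (XT.lf (nat_lit 0) (nat_lit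 6412332409) (nat_lit 456) (nat_lit 3907761733) (nat_lit 76) (nat_lit 3260465965) (nat_lit 151) (nat_lit 5) (nat_lit 157) (nat_lit 5) (nat_lit 152) (nat_lit 5) (nat_lit 376) (nat_lit 349) (nat_lit 295)) (XT.lf (nat_lit 0) (nat_lit 9468115120) (nat_lit 380) (nat_lit 1948792140) (nat_lit 456) (nat_lit 2556347196) (nat_lit 146) (nat_lit 5) (nat_lit 151) (nat_lit 5) (nat_lit 152) (nat_lit 5) (nat_lit 377) (nat_lit 349) (nat_lit 294)))) (XT.nd (nat_lit 78) (nat_lit 684) (nat_lit 0) (XT.lf (nat_lit 0) (nat_lit 2380342143) (nat_lit 456) (nat_lit 5159771184) (nat_lit 76) (nat_lit 6840663270) (nat_lit 140) (nat_lit 5) (nat_lit 146) (nat_lit 5) (nat_lit 141) (nat_lit 5) (nat_lit 378) (nat_lit 349) (nat_lit 293)) (XT.nd (nat_lit 78) (nat_lit 380) (nat_lit 0) (XT.lf (nat_lit 0) (nat_lit 7621006160) (nat_lit 380) (nat_lit 5846818554) (nat_lit 76) (nat_lit 1336806833) (nat_lit 136) (nat_lit 5) (nat_lit 141)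 (nat_lit 5) (nat_lit 137) (nat_lit 5) (nat_lit 379) (nat_lit 349) (nat_lit 292)) (XT.lf (nat_lit 0) (nat_lit 8655955359) (nat_lit 380) (nat_lit 4626114720) (nat_lit 456) (nat_lit 1962873679) (nat_lit 131) (nat_lit 5) (nat_lit 136) (nat_lit 5) (nat_lit 137) (nat_lit 5) (nat_lit 380) (nat_lit 349) (nat_lit 291))))) (XT.nd (nat_lit 234) (nat_lit 988) (nat_lit 0) (XT.nd (nat_lit 78) (nat_lit 608) (nat_lit 0) (XT.lf (nat_lit 0) (nat_lit 3584365830) (nat_lit 380) (nat_lit 7396957084) (nat_lit 76) (nat_lit 4720924729) (nat_lit 126) (nat_lit 5) (nat_lit 131) (nat_lit 5) (nat_lit 127) (nat_lit 5) (nat_lit 381) (nat_lit 349) (nat_lit 290)) (XT.nd (nat_lit 78) (nat_lit 304) (nat_lit 0) (XT.lf (nat_lit 0) (nat_lit 7913486685) (nat_lit 304) (nat_lit 1594886568) (nat_lit 380) (nat_lit 6669274064) (nat_lit 122) (nat_lit 5) (nat_lit 126) (nat_lit 5) (nat_lit 127) (nat_lit 5) (nat_lit 382) (nat_lit 349) (nat_lit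 289)) (XT.lf (nat_lit 0) (nat_lit 7460436488) (nat_lit 304) (nat_lit 8446060421) (nat_lit 380) (nat_lit 764995604) (nat_lit 118) (nat_lit 5) (nat_lit 122) (nat_lit 5) (nat_lit 123) (nat_lit 5) (nat_lit 383) (nat_lit 349) (nat_lit 288)))) (XT.nd (nat_lit 78) (nat_lit 608) (nat_lit 0) (XT.lf (nat_lit 0) (nat_lit 5462789787) (nat_lit 380) (nat_lit 10249720303) (nat_lit 76) (nat_lit 1471934532) (nat_lit 113) (nat_lit 5) (nat_lit 118) (nat_lit 5) (nat_lit 114) (nat_lit 5) (nat_lit 384) (nat_lit 349) (nat_lit 287)) (XT.nd (nat_lit 78) (nat_lit 380) (nat_lit 0) (XT.lf (nat_lit 0) (nat_lit 6317014009) (nat_lit 228) (nat_lit 5863512860) (nat_lit 304) (nat_lit 5536470190) (nat_lit 110) (nat_lit 5) (nat_lit 113) (nat_lit 5) (nat_lit 114) (nat_lit 5) (nat_lit 385) (nat_lit 349) (nat_lit 286)) (XT.lf (nat_lit 0) (nat_lit 1098580803) (nat_lit 380) (nat_lit 12634343031) (nat_lit 76) (nat_lit 4538208604) (nat_lit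 105) (nat_lit 5) (nat_lit 110) (nat_lit 5) (nat_lit 106) (nat_lit 5) (nat_lit 386) (nat_lit 349) (nat_lit 285)))))) (XT.nd (nat_lit 468) (nat_lit 1520) (nat_lit 0) (XT.nd (nat_lit 234) (nat_lit 532) (nat_lit 0) (XT.nd (nat_lit 78) (nat_lit 532) (nat_lit 0) (XT.lf (nat_lit 0) (nat_lit 4821678205) (nat_lit 228) (nat_lit 3309248462) (nat_lit 304) (nat_lit 10715012163) (nat_lit 102) (nat_lit 5) (nat_lit 105) (nat_lit 5) (nat_lit 106) (nat_lit 5) (nat_lit 387) (nat_lit 349) (nat_lit 284)) (XT.nd (nat_lit 78) (nat_lit 304) (nat_lit 0) (XT.lf (nat_lit 0) (nat_lit 3900953087) (nat_lit 228) (nat_lit 11812366490) (nat_lit 304) (nat_lit 3730222682) (nat_lit 99) (nat_lit 5) (nat_lit 102) (nat_lit 5) (nat_lit 103) (nat_lit 5) (nat_lit 388) (nat_lit 349) (nat_lit 283)) (XT.lf (nat_lit 0) (nat_lit 2866980240) (nat_lit 228) (nat_lit 830455548) (nat_lit 304) (nat_lit 16367641116) (nat_lit 95) (nat_lit 5) (nat_lit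 98) (nat_lit 5) (nat_lit 99) (nat_lit 5) (nat_lit 389) (nat_lit 349) (nat_lit 282)))) (XT.nd (nat_lit 78) (nat_lit 304) (nat_lit 0) (XT.lf (nat_lit 0) (nat_lit 1631328556) (nat_lit 228) (nat_lit 10027198780) (nat_lit 304) (nat_lit 9050885518) (nat_lit 92) (nat_lit 5) (nat_lit 95) (nat_lit 5) (nat_lit 96) (nat_lit 5) (nat_lit 390) (nat_lit 349) (nat_lit 281)) (XT.nd (nat_lit 78) (nat_lit 76) (nat_lit 0) (XT.lf (nat_lit 0) (nat_lit 297170151) (nat_lit 228) (nat_lit 19883068484) (nat_lit 304) (nat_lit 1200858070) (nat_lit 89) (nat_lit 5) (nat_lit 92) (nat_lit 5) (nat_lit 93) (nat_lit 5) (nat_lit 391) (nat_lit 349) (nat_lit 280)) (XT.lf (nat_lit 0) (nat_lit 7164189644) (nat_lit 304) (nat_lit 1276732035) (nat_lit 76) (nat_lit 13635622039) (nat_lit 88) (nat_lit 5) (nat_lit 92) (nat_lit 5) (nat_lit 89) (nat_lit 5) (nat_lit 392) (nat_lit 349) (nat_lit 279))))) (XT.nd (nat_lit 234) (nat_lit 836) (nat_lit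 0) (XT.nd (nat_lit 78) (nat_lit 456) (nat_lit 0) (XT.lf (nat_lit 0) (nat_lit 16111929280) (nat_lit 304) (nat_lit 3004388219) (nat_lit 76) (nat_lit 3684417739) (nat_lit 85) (nat_lit 5) (nat_lit 89) (nat_lit 5) (nat_lit 86) (nat_lit 5) (nat_lit 393) (nat_lit 349) (nat_lit 278)) (XT.nd (nat_lit 78) (nat_lit 228) (nat_lit 0) (XT.lf (nat_lit 0) (nat_lit 2150896391) (nat_lit 228) (nat_lit 4969525246) (nat_lit 76) (nat_lit 16432871637) (nat_lit 82) (nat_lit 5) (nat_lit 85) (nat_lit 5) (nat_lit 83) (nat_lit 5) (nat_lit 394) (nat_lit 349) (nat_lit 277)) (XT.lf (nat_lit 0) (nat_lit 11510988028) (nat_lit 304) (nat_lit 7212921696) (nat_lit 76) (nat_lit 5611086796) (nat_lit 79) (nat_lit 5) (nat_lit 83) (nat_lit 5) (nat_lit 80) (nat_lit 5) (nat_lit 395) (nat_lit 349) (nat_lit 276)))) (XT.nd (nat_lit 156) (nat_lit 380) (nat_lit 0) (XT.nd (nat_lit 78) (nat_lit 304) (nat_lit 0) (XT.lf (nat_lit 0) (nat_lit 15437394118)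 (nat_lit 152) (nat_lit 6138611639) (nat_lit 228) (nat_lit 3572677480) (nat_lit 77) (nat_lit 5) (nat_lit 79) (nat_lit 5) (nat_lit 80) (nat_lit 5) (nat_lit 396) (nat_lit 349) (nat_lit 275)) (XT.lf (nat_lit 0) (nat_lit 6262458970) (nat_lit 304) (nat_lit 12550777287) (nat_lit 76) (nat_lit 7180820255) (nat_lit 73) (nat_lit 5) (nat_lit 77) (nat_lit 5) (nat_lit 74) (nat_lit 5) (nat_lit 397) (nat_lit 349) (nat_lit 274))) (XT.nd (nat_lit 78) (nat_lit 228) (nat_lit 0) (XT.lf (nat_lit 0) (nat_lit 11140790559) (nat_lit 152) (nat_lit 5611997583) (nat_lit 228) (nat_lit 10120734630) (nat_lit 71) (nat_lit 5) (nat_lit 73) (nat_lit 5) (nat_lit 74) (nat_lit 5) (nat_lit 398) (nat_lit 349) (nat_lit 273)) (XT.lf (nat_lit 0) (nat_lit 232888671) (nat_lit 228) (nat_lit 19276283346) (nat_lit 76) (nat_lit 8279954286) (nat_lit 68) (nat_lit 5) (nat_lit 71) (nat_lit 5) (nat_lit 69) (nat_lit 5) (nat_lit 399) (nat_lit 349)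 (nat_lit 272))))))))
noncomputable def xc66 : XT := (XT.nd (nat_lit 1872) (nat_lit 684) (nat_lit 0) (XT.nd (nat_lit 936) (nat_lit 1216) (nat_lit 0) (XT.nd (nat_lit 468) (nat_lit 760) (nat_lit 0) (XT.nd (nat_lit 234) (nat_lit 532) (nat_lit 0) (XT.nd (nat_lit 78) (nat_lit 228) (nat_lit 0) (XT.lf (nat_lit 0) (nat_lit 5444115945) (nat_lit 152) (nat_lit 5693405066) (nat_lit 228) (nat_lit 17602708250) (nat_lit 66) (nat_lit 5) (nat_lit 68) (nat_lit 5) (nat_lit 69) (nat_lit 5) (nat_lit 400) (nat_lit 349) (nat_lit 271)) (XT.nd (nat_lit 78) (nat_lit 76) (nat_lit 0) (XT.lf (nat_lit 0) (nat_lit 1967479336) (nat_lit 152) (nat_lit 20892869138) (nat_lit 228) (nat_lit 6870354385) (nat_lit 64) (nat_lit 5) (nat_lit 66) (nat_lit 5) (nat_lit 67) (nat_lit 5) (nat_lit 401) (nat_lit 349) (nat_lit 270)) (XT.lf (nat_lit 0) (nat_lit 4582039911) (nat_lit 228) (nat_lit 1938247512) (nat_lit 76) (nat_lit 24241070645) (nat_lit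 63) (nat_lit 5) (nat_lit 66) (nat_lit 5) (nat_lit 64) (nat_lit 5) (nat_lit 402) (nat_lit 349) (nat_lit 269)))) (XT.nd (nat_lit 78) (nat_lit 380) (nat_lit 0) (XT.lf (nat_lit 0) (nat_lit 16768292427) (nat_lit 228) (nat_lit 6364071649) (nat_lit 76) (nat_lit 8700045295) (nat_lit 61) (nat_lit 5) (nat_lit 64) (nat_lit 5) (nat_lit 62) (nat_lit 5) (nat_lit 403) (nat_lit 349) (nat_lit 268)) (XT.nd (nat_lit 78) (nat_lit 228) (nat_lit 0) (XT.lf (nat_lit 0) (nat_lit 21635206776) (nat_lit 152) (nat_lit 8194326640) (nat_lit 228) (nat_lit 3119513235) (nat_lit 59) (nat_lit 5) (nat_lit 61) (nat_lit 5) (nat_lit 62) (nat_lit 5) (nat_lit 404) (nat_lit 349) (nat_lit 267)) (XT.lf (nat_lit 0) (nat_lit 9517709189) (nat_lit 228) (nat_lit 16943926119) (nat_lit 76) (nat_lit 7648789145) (nat_lit 56) (nat_lit 5) (nat_lit 59) (nat_lit 5) (nat_lit 57) (nat_lit 5) (nat_lit 405) (nat_lit 349) (nat_lit 266))))) (XT.nd (nat_lit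 234) (nat_lit 456) (nat_lit 0) (XT.nd (nat_lit 78) (nat_lit 152) (nat_lit 0) (XT.lf (nat_lit 0) (nat_lit 12052130834) (nat_lit 152) (nat_lit 10959921205) (nat_lit 228) (nat_lit 12308202496) (nat_lit 54) (nat_lit 5) (nat_lit 56) (nat_lit 5) (nat_lit 57) (nat_lit 5) (nat_lit 406) (nat_lit 349) (nat_lit 265)) (XT.nd (nat_lit 78) (nat_lit 0) (nat_lit 0) (XT.lf (nat_lit 0) (nat_lit 842934333) (nat_lit 152) (nat_lit 30302194637) (nat_lit 76) (nat_lit 5437362200) (nat_lit 52) (nat_lit 5) (nat_lit 54) (nat_lit 5) (nat_lit 53) (nat_lit 5) (nat_lit 407) (nat_lit 349) (nat_lit 264)) (XT.lf (nat_lit 0) (nat_lit 14726139579) (nat_lit 152) (nat_lit 392447856) (nat_lit 76) (nat_lit 22775727236) (nat_lit 52) (nat_lit 5) (nat_lit 54) (nat_lit 5) (nat_lit 53) (nat_lit 5) (nat_lit 408) (nat_lit 349) (nat_lit 263)))) (XT.nd (nat_lit 78) (nat_lit 304) (nat_lit 0) (XT.lf (nat_lit 0) (nat_lit 29601766807) (nat_lit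 228) (nat_lit 7698202376) (nat_lit 76) (nat_lit 1962815037) (nat_lit 50) (nat_lit 5) (nat_lit 53) (nat_lit 5) (nat_lit 51) (nat_lit 4) (nat_lit 409) (nat_lit 349) (nat_lit 262)) (XT.nd (nat_lit 78) (nat_lit 152) (nat_lit 0) (XT.lf (nat_lit 0) (nat_lit 4807144749) (nat_lit 152) (nat_lit 16021932266) (nat_lit 76) (nat_lit 19858082527) (nat_lit 48) (nat_lit 5) (nat_lit 50) (nat_lit 5) (nat_lit 49) (nat_lit 5) (nat_lit 410) (nat_lit 349) (nat_lit 261)) (XT.lf (nat_lit 0) (nat_lit 16813959626) (nat_lit 152) (nat_lit 3204940576) (nat_lit 228) (nat_lit 22154386521) (nat_lit 46) (nat_lit 5) (nat_lit 48) (nat_lit 5) (nat_lit 49) (nat_lit 5) (nat_lit 411) (nat_lit 349) (nat_lit 260)))))) (XT.nd (nat_lit 468) (nat_lit 608) (nat_lit 0) (XT.nd (nat_lit 234) (nat_lit 304) (nat_lit 0) (XT.nd (nat_lit 78) (nat_lit 228) (nat_lit 0) (XT.lf (nat_lit 0) (nat_lit 7859917621) (nat_lit 76) (nat_lit 28497530555) (nat_lit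 152) (nat_lit 7365288231) (nat_lit 45) (nat_lit 5) (nat_lit 46) (nat_lit 5) (nat_lit 47) (nat_lit 4) (nat_lit 412) (nat_lit 349) (nat_lit 259)) (XT.nd (nat_lit 78) (nat_lit 152) (nat_lit 0) (XT.lf (nat_lit 0) (nat_lit 8277439782) (nat_lit 152) (nat_lit 2226837105) (nat_lit 76) (nat_lit 34834825604) (nat_lit 44) (nat_lit 5) (nat_lit 46) (nat_lit 5) (nat_lit 45) (nat_lit 5) (nat_lit 413) (nat_lit 349) (nat_lit 258)) (XT.lf (nat_lit 0) (nat_lit 24937653199) (nat_lit 228) (nat_lit 13476174618) (nat_lit 76) (nat_lit 8608643131) (nat_lit 42) (nat_lit 5) (nat_lit 45) (nat_lit 5) (nat_lit 43) (nat_lit 4) (nat_lit 414) (nat_lit 349) (nat_lit 257)))) (XT.nd (nat_lit 78) (nat_lit 228) (nat_lit 0) (XT.lf (nat_lit 0) (nat_lit 22662273851) (nat_lit 76) (nat_lit 20094656365) (nat_lit 152) (nat_lit 6023297939) (nat_lit 41) (nat_lit 5) (nat_lit 42) (nat_lit 5) (nat_lit 43) (nat_lit 4) (nat_lit 415) (nat_lit 349)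 (nat_lit 256)) (XT.nd (nat_lit 78) (nat_lit 0) (nat_lit 0) (XT.lf (nat_lit 0) (nat_lit 10325147113) (nat_lit 152) (nat_lit 523416278) (nat_lit 228) (nat_lit 39767620658) (nat_lit 38) (nat_lit 5) (nat_lit 40) (nat_lit 5) (nat_lit 41) (nat_lit 5) (nat_lit 416) (nat_lit 349) (nat_lit 255)) (XT.lf (nat_lit 0) (nat_lit 28884555768) (nat_lit 228) (nat_lit 3693270285) (nat_lit 76) (nat_lit 19950971003) (nat_lit 38) (nat_lit 5) (nat_lit 41) (nat_lit 5) (nat_lit 39) (nat_lit 4) (nat_lit 417) (nat_lit 349) (nat_lit 254))))) (XT.nd (nat_lit 234) (nat_lit 228) (nat_lit 0) (XT.nd (nat_lit 78) (nat_lit 304) (nat_lit 0) (XT.lf (nat_lit 0) (nat_lit 35383729603) (nat_lit 76) (nat_lit 12764909154) (nat_lit 152) (nat_lit 6378614833) (nat_lit 37) (nat_lit 5) (nat_lit 38) (nat_lit 5) (nat_lit 39) (nat_lit 4) (nat_lit 418) (nat_lit 349) (nat_lit 253)) (XT.nd (nat_lit 78) (nat_lit 76) (nat_lit 0) (XT.lf (nat_lit 0)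 (nat_lit 11814514592) (nat_lit 228) (nat_lit 36585186331) (nat_lit 76) (nat_lit 8213739617) (nat_lit 34) (nat_lit 5) (nat_lit 37) (nat_lit 5) (nat_lit 35) (nat_lit 4) (nat_lit 419) (nat_lit 349) (nat_lit 252)) (XT.lf (nat_lit 0) (nat_lit 2581271085) (nat_lit 76) (nat_lit 28539683479) (nat_lit 152) (nat_lit 27671021842) (nat_lit 33) (nat_lit 5) (nat_lit 34) (nat_lit 5) (nat_lit 35) (nat_lit 4) (nat_lit 420) (nat_lit 349) (nat_lit 251)))) (XT.nd (nat_lit 78) (nat_lit 228) (nat_lit 0) (XT.lf (nat_lit 0) (nat_lit 44436997791) (nat_lit 76) (nat_lit 7314559057) (nat_lit 152) (nat_lit 9317118355) (nat_lit 33) (nat_lit 5) (nat_lit 34) (nat_lit 5) (nat_lit 35) (nat_lit 4) (nat_lit 421) (nat_lit 349) (nat_lit 250)) (XT.nd (nat_lit 78) (nat_lit 76) (nat_lit 0) (XT.lf (nat_lit 0) (nat_lit 10133385122) (nat_lit 152) (nat_lit 38304856191) (nat_lit 76) (nat_lit 15006903638) (nat_lit 31) (nat_lit 5) (nat_lit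 33) (nat_lit 5) (nat_lit 32) (nat_lit 4) (nat_lit 422) (nat_lit 349) (nat_lit 249)) (XT.lf (nat_lit 0) (nat_lit 3275713916) (nat_lit 76) (nat_lit 27351293588) (nat_lit 152) (nat_lit 35302765828) (nat_lit 30) (nat_lit 5) (nat_lit 31) (nat_lit 5) (nat_lit 32) (nat_lit 4) (nat_lit 423) (nat_lit 349) (nat_lit 248))))))) (XT.nd (nat_lit 47424) (nat_lit 0) (nat_lit 16568) (XT.nd (nat_lit 468) (nat_lit 304) (nat_lit 0) (XT.nd (nat_lit 234) (nat_lit 228) (nat_lit 0) (XT.nd (nat_lit 78) (nat_lit 152) (nat_lit 0) (XT.lf (nat_lit 0) (nat_lit 47704932611) (nat_lit 76) (nat_lit 4818468493) (nat_lit 152) (nat_lit 16003890456) (nat_lit 30) (nat_lit 5) (nat_lit 31) (nat_lit 5) (nat_lit 32) (nat_lit 4) (nat_lit 424) (nat_lit 349) (nat_lit 247)) (XT.nd (nat_lit 78) (nat_lit 0) (nat_lit 0) (XT.lf (nat_lit 0) (nat_lit 4570600145) (nat_lit 152) (nat_lit 47942126017) (nat_lit 76) (nat_lit 18728918169) (nat_lit 28)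 (nat_lit 5) (nat_lit 30) (nat_lit 5) (nat_lit 29) (nat_lit 4) (nat_lit 425) (nat_lit 349) (nat_lit 246)) (XT.lf (nat_lit 0) (nat_lit 26095739445) (nat_lit 152) (nat_lit 4264110817) (nat_lit 76) (nat_lit 43719524568) (nat_lit 28) (nat_lit 5) (nat_lit 30) (nat_lit 5) (nat_lit 29) (nat_lit 4) (nat_lit 426) (nat_lit 349) (nat_lit 245)))) (XT.nd (nat_lit 78) (nat_lit 152) (nat_lit 0) (XT.lf (nat_lit 0) (nat_lit 42397364099) (nat_lit 76) (nat_lit 6692776585) (nat_lit 152) (nat_lit 27957061968) (nat_lit 27) (nat_lit 5) (nat_lit 28) (nat_lit 5) (nat_lit 29) (nat_lit 4) (nat_lit 427) (nat_lit 349) (nat_lit 244)) (XT.nd (nat_lit 78) (nat_lit 76) (nat_lit 0) (XT.lf (nat_lit 0) (nat_lit 11337910512) (nat_lit 76) (nat_lit 62209976016) (nat_lit 76) (nat_lit 6606127504) (nat_lit 26) (nat_lit 4) (nat_lit 27) (nat_lit 5) (nat_lit 27) (nat_lit 4) (nat_lit 428) (nat_lit 349) (nat_lit 243)) (XT.lf (nat_lit 0) (nat_lit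 15917621537) (nat_lit 152) (nat_lit 23306187724) (nat_lit 76) (nat_lit 44175382900) (nat_lit 25) (nat_lit 5) (nat_lit 27) (nat_lit 5) (nat_lit 26) (nat_lit 4) (nat_lit 429) (nat_lit 349) (nat_lit 242))))) (XT.nd (nat_lit 234) (nat_lit 152) (nat_lit 0) (XT.nd (nat_lit 78) (nat_lit 76) (nat_lit 0) (XT.lf (nat_lit 0) (nat_lit 24872403692) (nat_lit 76) (nat_lit 14785603452) (nat_lit 152) (nat_lit 47139848411) (nat_lit 24) (nat_lit 5) (nat_lit 25) (nat_lit 5) (nat_lit 26) (nat_lit 4) (nat_lit 430) (nat_lit 349) (nat_lit 241)) (XT.nd (nat_lit 78) (nat_lit 76) (nat_lit 0) (XT.lf (nat_lit 0) (nat_lit 64919232171) (nat_lit 152) (nat_lit 14544242741) (nat_lit 0) (nat_lit 10892963361) (nat_lit 24) (nat_lit 5) (nat_lit 26) (nat_lit 4) (nat_lit 24) (nat_lit 4) (nat_lit 431) (nat_lit 349) (nat_lit 240)) (XT.lf (nat_lit 0) (nat_lit 35730173010) (nat_lit 76) (nat_lit 56193655275) (nat_lit 76) (nat_lit 2154713267)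 (nat_lit 23) (nat_lit 4) (nat_lit 24) (nat_lit 5) (nat_lit 24) (nat_lit 4) (nat_lit 432) (nat_lit 349) (nat_lit 239)))) (XT.nd (nat_lit 156) (nat_lit 76) (nat_lit 0) (XT.lf (nat_lit 0) (nat_lit 21995973742) (nat_lit 152) (nat_lit 9399185021) (nat_lit 76) (nat_lit 66580991448) (nat_lit 22) (nat_lit 5) (nat_lit 24) (nat_lit 5) (nat_lit 23) (nat_lit 4) (nat_lit 433) (nat_lit 349) (nat_lit 238)) (XT.nd (nat_lit 46488) (nat_lit 0) (nat_lit 22648) (XT.lf (nat_lit 0) (nat_lit 75015602172) (nat_lit 152) (nat_lit 8797938825) (nat_lit 0) (nat_lit 22517102884) (nat_lit 21) (nat_lit 5) (nat_lit 23) (nat_lit 4) (nat_lit 21) (nat_lit 4) (nat_lit 435) (nat_lit 349) (nat_lit 236)) (XT.lf (nat_lit 0) (nat_lit 1247196690) (nat_lit 0) (nat_lit 1247196690) (nat_lit 836) (nat_lit 1308054702) (nat_lit 319) (nat_lit 5) (nat_lit 319) (nat_lit 3) (nat_lit 330) (nat_lit 3) (nat_lit 350) (nat_lit 350) (nat_lit 320))))))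 (XT.nd (nat_lit 468) (nat_lit 4332) (nat_lit 0) (XT.nd (nat_lit 234) (nat_lit 836) (nat_lit 0) (XT.nd (nat_lit 78) (nat_lit 912) (nat_lit 0) (XT.lf (nat_lit 76) (nat_lit 1040385225) (nat_lit 0) (nat_lit 6342929135) (nat_lit 912) (nat_lit 342429146) (nat_lit 320) (nat_lit 5) (nat_lit 319) (nat_lit 5) (nat_lit 331) (nat_lit 5) (nat_lit 351) (nat_lit 350) (nat_lit 319)) (XT.nd (nat_lit 78) (nat_lit 0) (nat_lit 76) (XT.lf (nat_lit 0) (nat_lit 1937980228) (nat_lit 912) (nat_lit 372273389) (nat_lit 988) (nat_lit 5543874792) (nat_lit 307) (nat_lit 5) (nat_lit 319) (nat_lit 5) (nat_lit 320) (nat_lit 5) (nat_lit 352) (nat_lit 350) (nat_lit 318)) (XT.lf (nat_lit 0) (nat_lit 4267216268) (nat_lit 912) (nat_lit 1712632987) (nat_lit 988) (nat_lit 2010794839) (nat_lit 308) (nat_lit 5) (nat_lit 320) (nat_lit 5) (nat_lit 321) (nat_lit 5) (nat_lit 353) (nat_lit 350) (nat_lit 317)))) (XT.nd (nat_lit 78) (nat_lit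 912) (nat_lit 0) (XT.lf (nat_lit 76) (nat_lit 5131532177) (nat_lit 0) (nat_lit 1525880255) (nat_lit 988) (nat_lit 1478304743) (nat_lit 309) (nat_lit 5) (nat_lit 308) (nat_lit 5) (nat_lit 321) (nat_lit 5) (nat_lit 354) (nat_lit 350) (nat_lit 316)) (XT.nd (nat_lit 78) (nat_lit 0) (nat_lit 0) (XT.lf (nat_lit 0) (nat_lit 822316402) (nat_lit 988) (nat_lit 4264939312) (nat_lit 1064) (nat_lit 3201784364) (nat_lit 296) (nat_lit 5) (nat_lit 309) (nat_lit 5) (nat_lit 310) (nat_lit 5) (nat_lit 355) (nat_lit 350) (nat_lit 315)) (XT.lf (nat_lit 76) (nat_lit 2962522789) (nat_lit 0) (nat_lit 198238286) (nat_lit 1064) (nat_lit 5290286584) (nat_lit 297) (nat_lit 5) (nat_lit 296) (nat_lit 5) (nat_lit 310) (nat_lit 5) (nat_lit 356) (nat_lit 350) (nat_lit 314))))) (XT.nd (nat_lit 234) (nat_lit 3420) (nat_lit 0) (XT.nd (nat_lit 78) (nat_lit 988) (nat_lit 0) (XT.lf (nat_lit 76) (nat_lit 1926659941) (nat_lit 0) (nat_lit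 3683140362) (nat_lit 1064) (nat_lit 3011600973) (nat_lit 298) (nat_lit 5) (nat_lit 297) (nat_lit 5) (nat_lit 311) (nat_lit 5) (nat_lit 357) (nat_lit 350) (nat_lit 313)) (XT.nd (nat_lit 78) (nat_lit 1064) (nat_lit 0) (XT.lf (nat_lit 76) (nat_lit 944929262) (nat_lit 0) (nat_lit 7207605803) (nat_lit 1064) (nat_lit 648653366) (nat_lit 299) (nat_lit 5) (nat_lit 298) (nat_lit 5) (nat_lit 312) (nat_lit 5) (nat_lit 358) (nat_lit 350) (nat_lit 312)) (XT.lf (nat_lit 0) (nat_lit 1795305852) (nat_lit 1064) (nat_lit 21658469) (nat_lit 1140) (nat_lit 7172562695) (nat_lit 284) (nat_lit 5) (nat_lit 298) (nat_lit 5) (nat_lit 299) (nat_lit 5) (nat_lit 359) (nat_lit 350) (nat_lit 311)))) (XT.nd (nat_lit 156) (nat_lit 2432) (nat_lit 0) (XT.nd (nat_lit 78) (nat_lit 1064) (nat_lit 0) (XT.lf (nat_lit 0) (nat_lit 4362763140) (nat_lit 1064) (nat_lit 946904669) (nat_lit 76) (nat_lit 3877027413) (nat_lit 285) (nat_lit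 5) (nat_lit 299) (nat_lit 5) (nat_lit 286) (nat_lit 5) (nat_lit 360) (nat_lit 350) (nat_lit 310)) (XT.lf (nat_lit 0) (nat_lit 7056233483) (nat_lit 1140) (nat_lit 1830187363) (nat_lit 76) (nat_lit 507416376) (nat_lit 271) (nat_lit 5) (nat_lit 286) (nat_lit 5) (nat_lit 272) (nat_lit 5) (nat_lit 361) (nat_lit 350) (nat_lit 309))) (XT.nd (nat_lit 78) (nat_lit 1216) (nat_lit 0) (XT.lf (nat_lit 0) (nat_lit 303282644) (nat_lit 1216) (nat_lit 2706042420) (nat_lit 76) (nat_lit 6600906660) (nat_lit 255) (nat_lit 5) (nat_lit 271) (nat_lit 5) (nat_lit 256) (nat_lit 5) (nat_lit 362) (nat_lit 350) (nat_lit 308)) (XT.lf (nat_lit 0) (nat_lit 3047578032) (nat_lit 1292) (nat_lit 3574795049) (nat_lit 76) (nat_lit 3213826501) (nat_lit 239) (nat_lit 5) (nat_lit 256) (nat_lit 5) (nat_lit 240) (nat_lit 5) (nat_lit 363) (nat_lit 350) (nat_lit 307))))))))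
noncomputable def xc67 : XT := (XT.nd (nat_lit 1950) (nat_lit 4332) (nat_lit 0) (XT.nd (nat_lit 936) (nat_lit 4560) (nat_lit 0) (XT.nd (nat_lit 468) (nat_lit 2356) (nat_lit 0) (XT.nd (nat_lit 234) (nat_lit 1596) (nat_lit 0) (XT.nd (nat_lit 78) (nat_lit 1292) (nat_lit 0) (XT.lf (nat_lit 0) (nat_lit 5658665905) (nat_lit 608) (nat_lit 295237811) (nat_lit 684) (nat_lit 4118855047) (nat_lit 231) (nat_lit 5) (nat_lit 239) (nat_lit 5) (nat_lit 240) (nat_lit 5) (nat_lit 364) (nat_lit 350) (nat_lit 306)) (XT.nd (nat_lit 78) (nat_lit 684) (nat_lit 0) (XT.lf (nat_lit 0) (nat_lit 5063366535) (nat_lit 608) (nat_lit 4004425749) (nat_lit 684) (nat_lit 1251521837) (nat_lit 223) (nat_lit 5) (nat_lit 231) (nat_lit 5) (nat_lit 232) (nat_lit 5) (nat_lit 365) (nat_lit 350) (nat_lit 305)) (XT.lf (nat_lit 0) (nat_lit 1761671852) (nat_lit 684) (nat_lit 6088077616) (nat_lit 76) (nat_lit 2726868751) (nat_lit 214) (nat_lit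 5) (nat_lit 223) (nat_lit 5) (nat_lit 215) (nat_lit 5) (nat_lit 366) (nat_lit 350) (nat_lit 304)))) (XT.nd (nat_lit 78) (nat_lit 1064) (nat_lit 0) (XT.lf (nat_lit 0) (nat_lit 3926081512) (nat_lit 532) (nat_lit 1027552854) (nat_lit 608) (nat_lit 5891193003) (nat_lit 207) (nat_lit 5) (nat_lit 214) (nat_lit 5) (nat_lit 215) (nat_lit 5) (nat_lit 367) (nat_lit 350) (nat_lit 303)) (XT.nd (nat_lit 78) (nat_lit 532) (nat_lit 0) (XT.lf (nat_lit 0) (nat_lit 3367924822) (nat_lit 532) (nat_lit 5015836924) (nat_lit 608) (nat_lit 2740358099) (nat_lit 200) (nat_lit 5) (nat_lit 207) (nat_lit 5) (nat_lit 208) (nat_lit 5) (nat_lit 368) (nat_lit 350) (nat_lit 302)) (XT.lf (nat_lit 0) (nat_lit 614478960) (nat_lit 532) (nat_lit 8581407928) (nat_lit 76) (nat_lit 2219627537) (nat_lit 193) (nat_lit 5) (nat_lit 200) (nat_lit 5) (nat_lit 194) (nat_lit 5) (nat_lit 369) (nat_lit 350) (nat_lit 301))))) (XT.nd (nat_lit 234)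 (nat_lit 912) (nat_lit 0) (XT.nd (nat_lit 78) (nat_lit 912) (nat_lit 0) (XT.lf (nat_lit 0) (nat_lit 2281643957) (nat_lit 532) (nat_lit 1881179512) (nat_lit 608) (nat_lit 7555394388) (nat_lit 186) (nat_lit 5) (nat_lit 193) (nat_lit 5) (nat_lit 194) (nat_lit 5) (nat_lit 370) (nat_lit 350) (nat_lit 300)) (XT.nd (nat_lit 78) (nat_lit 456) (nat_lit 0) (XT.lf (nat_lit 0) (nat_lit 1730515115) (nat_lit 456) (nat_lit 6250931377) (nat_lit 532) (nat_lit 4051849182) (nat_lit 180) (nat_lit 5) (nat_lit 186) (nat_lit 5) (nat_lit 187) (nat_lit 5) (nat_lit 371) (nat_lit 350) (nat_lit 299)) (XT.lf (nat_lit 0) (nat_lit 1201925644) (nat_lit 456) (nat_lit 10864923698) (nat_lit 532) (nat_lit 295026439) (nat_lit 174) (nat_lit 5) (nat_lit 180) (nat_lit 5) (nat_lit 181) (nat_lit 5) (nat_lit 372) (nat_lit 350) (nat_lit 298)))) (XT.nd (nat_lit 78) (nat_lit 456) (nat_lit 0) (XT.lf (nat_lit 0) (nat_lit 627474908) (nat_lit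 380) (nat_lit 3062609023) (nat_lit 456) (nat_lit 9012420622) (nat_lit 168) (nat_lit 5) (nat_lit 173) (nat_lit 5) (nat_lit 174) (nat_lit 5) (nat_lit 373) (nat_lit 350) (nat_lit 297)) (XT.nd (nat_lit 78) (nat_lit 0) (nat_lit 0) (XT.lf (nat_lit 0) (nat_lit 49818815) (nat_lit 456) (nat_lit 7922024878) (nat_lit 532) (nat_lit 5085149586) (nat_lit 162) (nat_lit 5) (nat_lit 168) (nat_lit 5) (nat_lit 169) (nat_lit 5) (nat_lit 374) (nat_lit 350) (nat_lit 296)) (XT.lf (nat_lit 0) (nat_lit 12565958010) (nat_lit 532) (nat_lit 504397389) (nat_lit 76) (nat_lit 355923056) (nat_lit 162) (nat_lit 5) (nat_lit 169) (nat_lit 5) (nat_lit 163) (nat_lit 5) (nat_lit 375) (nat_lit 350) (nat_lit 295)))))) (XT.nd (nat_lit 468) (nat_lit 2204) (nat_lit 0) (XT.nd (nat_lit 234) (nat_lit 1140) (nat_lit 0) (XT.nd (nat_lit 78) (nat_lit 760) (nat_lit 0) (XT.lf (nat_lit 0) (nat_lit 3652179595) (nat_lit 456) (nat_lit 1127984038)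 (nat_lit 76) (nat_lit 9028465433) (nat_lit 156) (nat_lit 5) (nat_lit 162) (nat_lit 5) (nat_lit 157) (nat_lit 5) (nat_lit 376) (nat_lit 350) (nat_lit 294)) (XT.nd (nat_lit 78) (nat_lit 380) (nat_lit 0) (XT.lf (nat_lit 0) (nat_lit 8480899866) (nat_lit 456) (nat_lit 1759387853) (nat_lit 76) (nat_lit 3966319927) (nat_lit 151) (nat_lit 5) (nat_lit 157) (nat_lit 5) (nat_lit 152) (nat_lit 5) (nat_lit 377) (nat_lit 350) (nat_lit 293)) (XT.lf (nat_lit 0) (nat_lit 12218099376) (nat_lit 380) (nat_lit 1456252195) (nat_lit 456) (nat_lit 946451505) (nat_lit 146) (nat_lit 5) (nat_lit 151) (nat_lit 5) (nat_lit 152) (nat_lit 5) (nat_lit 378) (nat_lit 350) (nat_lit 292)))) (XT.nd (nat_lit 78) (nat_lit 684) (nat_lit 0) (XT.lf (nat_lit 0) (nat_lit 4149379932) (nat_lit 456) (nat_lit 3128982775) (nat_lit 76) (nat_lit 7771474861) (nat_lit 140) (nat_lit 5) (nat_lit 146) (nat_lit 5) (nat_lit 141) (nat_lit 5) (nat_lit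 379) (nat_lit 350) (nat_lit 291)) (XT.nd (nat_lit 78) (nat_lit 380) (nat_lit 0) (XT.lf (nat_lit 0) (nat_lit 9600934521) (nat_lit 380) (nat_lit 3873810089) (nat_lit 76) (nat_lit 2021697659) (nat_lit 136) (nat_lit 5) (nat_lit 141) (nat_lit 5) (nat_lit 137) (nat_lit 5) (nat_lit 380) (nat_lit 350) (nat_lit 290)) (XT.lf (nat_lit 0) (nat_lit 11289166734) (nat_lit 380) (nat_lit 4200899574) (nat_lit 456) (nat_lit 470374987) (nat_lit 131) (nat_lit 5) (nat_lit 136) (nat_lit 5) (nat_lit 137) (nat_lit 5) (nat_lit 381) (nat_lit 350) (nat_lit 289))))) (XT.nd (nat_lit 234) (nat_lit 1140) (nat_lit 0) (XT.nd (nat_lit 78) (nat_lit 684) (nat_lit 0) (XT.lf (nat_lit 0) (nat_lit 5276120536) (nat_lit 380) (nat_lit 5559683454) (nat_lit 76) (nat_lit 5605779693) (nat_lit 126) (nat_lit 5) (nat_lit 131) (nat_lit 5) (nat_lit 127) (nat_lit 5) (nat_lit 382) (nat_lit 350) (nat_lit 288)) (XT.nd (nat_lit 78) (nat_lit 380) (nat_lit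 0) (XT.lf (nat_lit 0) (nat_lit 10453015809) (nat_lit 304) (nat_lit 991895021) (nat_lit 380) (nat_lit 5497404095) (nat_lit 122) (nat_lit 5) (nat_lit 126) (nat_lit 5) (nat_lit 127) (nat_lit 5) (nat_lit 383) (nat_lit 350) (nat_lit 287)) (XT.lf (nat_lit 0) (nat_lit 644987035) (nat_lit 380) (nat_lit 7516050138) (nat_lit 76) (nat_lit 9300932394) (nat_lit 117) (nat_lit 5) (nat_lit 122) (nat_lit 5) (nat_lit 118) (nat_lit 5) (nat_lit 384) (nat_lit 350) (nat_lit 286)))) (XT.nd (nat_lit 156) (nat_lit 608) (nat_lit 0) (XT.nd (nat_lit 78) (nat_lit 228) (nat_lit 0) (XT.lf (nat_lit 0) (nat_lit 7127071779) (nat_lit 380) (nat_lit 8640815540) (nat_lit 76) (nat_lit 2233709579) (nat_lit 113) (nat_lit 5) (nat_lit 118) (nat_lit 5) (nat_lit 114) (nat_lit 5) (nat_lit 385) (nat_lit 350) (nat_lit 285)) (XT.lf (nat_lit 0) (nat_lit 8693446247) (nat_lit 228) (nat_lit 5440812158) (nat_lit 304) (nat_lit 4427927657) (nat_lit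 110) (nat_lit 5) (nat_lit 113) (nat_lit 5) (nat_lit 114) (nat_lit 5) (nat_lit 386) (nat_lit 350) (nat_lit 284))) (XT.nd (nat_lit 78) (nat_lit 228) (nat_lit 0) (XT.lf (nat_lit 0) (nat_lit 2473527350) (nat_lit 380) (nat_lit 11205167131) (nat_lit 76) (nat_lit 5466098449) (nat_lit 105) (nat_lit 5) (nat_lit 110) (nat_lit 5) (nat_lit 106) (nat_lit 5) (nat_lit 387) (nat_lit 350) (nat_lit 283)) (XT.lf (nat_lit 0) (nat_lit 7064580081) (nat_lit 228) (nat_lit 2749295149) (nat_lit 304) (nat_lit 9935786947) (nat_lit 102) (nat_lit 5) (nat_lit 105) (nat_lit 5) (nat_lit 106) (nat_lit 5) (nat_lit 388) (nat_lit 350) (nat_lit 282))))))) (XT.nd (nat_lit 936) (nat_lit 1748) (nat_lit 0) (XT.nd (nat_lit 468) (nat_lit 1292) (nat_lit 0) (XT.nd (nat_lit 234) (nat_lit 532) (nat_lit 0) (XT.nd (nat_lit 78) (nat_lit 532) (nat_lit 0) (XT.lf (nat_lit 0) (nat_lit 6071131630) (nat_lit 228) (nat_lit 11669102349) (nat_lit 304)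 (nat_lit 2637979819) (nat_lit 99) (nat_lit 5) (nat_lit 102) (nat_lit 5) (nat_lit 103) (nat_lit 5) (nat_lit 389) (nat_lit 350) (nat_lit 281)) (XT.nd (nat_lit 78) (nat_lit 228) (nat_lit 0) (XT.lf (nat_lit 0) (nat_lit 4953334082) (nat_lit 228) (nat_lit 141746943) (nat_lit 304) (nat_lit 15936618605) (nat_lit 95) (nat_lit 5) (nat_lit 98) (nat_lit 5) (nat_lit 99) (nat_lit 5) (nat_lit 390) (nat_lit 350) (nat_lit 280)) (XT.lf (nat_lit 0) (nat_lit 3628966846) (nat_lit 228) (nat_lit 9792612814) (nat_lit 304) (nat_lit 8287663947) (nat_lit 92) (nat_lit 5) (nat_lit 95) (nat_lit 5) (nat_lit 96) (nat_lit 5) (nat_lit 391) (nat_lit 350) (nat_lit 279)))) (XT.nd (nat_lit 78) (nat_lit 304) (nat_lit 0) (XT.lf (nat_lit 0) (nat_lit 2200923408) (nat_lit 228) (nat_lit 20137151343) (nat_lit 304) (nat_lit 77387197) (nat_lit 89) (nat_lit 5) (nat_lit 92) (nat_lit 5) (nat_lit 93) (nat_lit 5) (nat_lit 392) (nat_lit 350) (nat_lit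 278)) (XT.nd (nat_lit 78) (nat_lit 0) (nat_lit 0) (XT.lf (nat_lit 0) (nat_lit 490146051) (nat_lit 228) (nat_lit 8142125763) (nat_lit 304) (nat_lit 14514594989) (nat_lit 85) (nat_lit 5) (nat_lit 88) (nat_lit 5) (nat_lit 89) (nat_lit 5) (nat_lit 393) (nat_lit 350) (nat_lit 277)) (XT.lf (nat_lit 0) (nat_lit 17993787476) (nat_lit 304) (nat_lit 1360099326) (nat_lit 76) (nat_lit 4554399325) (nat_lit 85) (nat_lit 5) (nat_lit 89) (nat_lit 5) (nat_lit 86) (nat_lit 5) (nat_lit 394) (nat_lit 350) (nat_lit 276))))) (XT.nd (nat_lit 234) (nat_lit 684) (nat_lit 0) (XT.nd (nat_lit 78) (nat_lit 380) (nat_lit 0) (XT.lf (nat_lit 0) (nat_lit 3310707263) (nat_lit 228) (nat_lit 3453807169) (nat_lit 76) (nat_lit 17934692427) (nat_lit 82) (nat_lit 5) (nat_lit 85) (nat_lit 5) (nat_lit 83) (nat_lit 5) (nat_lit 395) (nat_lit 350) (nat_lit 275)) (XT.nd (nat_lit 78) (nat_lit 152) (nat_lit 0) (XT.lf (nat_lit 0) (nat_lit 13111848679)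 (nat_lit 304) (nat_lit 5835891125) (nat_lit 76) (nat_lit 6573072825) (nat_lit 79) (nat_lit 5) (nat_lit 83) (nat_lit 5) (nat_lit 80) (nat_lit 5) (nat_lit 396) (nat_lit 350) (nat_lit 274)) (XT.lf (nat_lit 0) (nat_lit 17897130327) (nat_lit 152) (nat_lit 5750387428) (nat_lit 228) (nat_lit 2728652217) (nat_lit 77) (nat_lit 5) (nat_lit 79) (nat_lit 5) (nat_lit 80) (nat_lit 5) (nat_lit 397) (nat_lit 350) (nat_lit 273)))) (XT.nd (nat_lit 78) (nat_lit 380) (nat_lit 0) (XT.lf (nat_lit 0) (nat_lit 7553099714) (nat_lit 304) (nat_lit 11496625640) (nat_lit 76) (nat_lit 8214554890) (nat_lit 73) (nat_lit 5) (nat_lit 77) (nat_lit 5) (nat_lit 74) (nat_lit 5) (nat_lit 398) (nat_lit 350) (nat_lit 272)) (XT.nd (nat_lit 78) (nat_lit 228) (nat_lit 0) (XT.lf (nat_lit 0) (nat_lit 13331315277) (nat_lit 152) (nat_lit 5205783660) (nat_lit 228) (nat_lit 9651553584) (nat_lit 71) (nat_lit 5) (nat_lit 73) (nat_lit 5) (nat_lit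 74) (nat_lit 5) (nat_lit 399) (nat_lit 350) (nat_lit 271)) (XT.lf (nat_lit 0) (nat_lit 1177147960) (nat_lit 228) (nat_lit 18613424471) (nat_lit 76) (nat_lit 9359896514) (nat_lit 68) (nat_lit 5) (nat_lit 71) (nat_lit 5) (nat_lit 69) (nat_lit 5) (nat_lit 400) (nat_lit 350) (nat_lit 270)))))) (XT.nd (nat_lit 468) (nat_lit 836) (nat_lit 0) (XT.nd (nat_lit 234) (nat_lit 532) (nat_lit 0) (XT.nd (nat_lit 78) (nat_lit 228) (nat_lit 0) (XT.lf (nat_lit 0) (nat_lit 7296366529) (nat_lit 152) (nat_lit 5301423515) (nat_lit 228) (nat_lit 17552220103) (nat_lit 66) (nat_lit 5) (nat_lit 68) (nat_lit 5) (nat_lit 69) (nat_lit 5) (nat_lit 401) (nat_lit 350) (nat_lit 269)) (XT.nd (nat_lit 78) (nat_lit 76) (nat_lit 0) (XT.lf (nat_lit 0) (nat_lit 3620738496) (nat_lit 152) (nat_lit 21264142836) (nat_lit 228) (nat_lit 6305788552) (nat_lit 64) (nat_lit 5) (nat_lit 66) (nat_lit 5) (nat_lit 67) (nat_lit 5) (nat_lit 402)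 (nat_lit 350) (nat_lit 268)) (XT.lf (nat_lit 0) (nat_lit 5659107212) (nat_lit 228) (nat_lit 537327263) (nat_lit 76) (nat_lit 26077439125) (nat_lit 63) (nat_lit 5) (nat_lit 66) (nat_lit 5) (nat_lit 64) (nat_lit 5) (nat_lit 403) (nat_lit 350) (nat_lit 267)))) (XT.nd (nat_lit 78) (nat_lit 380) (nat_lit 0) (XT.lf (nat_lit 0) (nat_lit 18434366338) (nat_lit 228) (nat_lit 5208710445) (nat_lit 76) (nat_lit 9756015267) (nat_lit 61) (nat_lit 5) (nat_lit 64) (nat_lit 5) (nat_lit 62) (nat_lit 5) (nat_lit 404) (nat_lit 350) (nat_lit 266)) (XT.nd (nat_lit 78) (nat_lit 228) (nat_lit 0) (XT.lf (nat_lit 0) (nat_lit 24148292463) (nat_lit 152) (nat_lit 7974723341) (nat_lit 228) (nat_lit 2449320141) (nat_lit 59) (nat_lit 5) (nat_lit 61) (nat_lit 5) (nat_lit 62) (nat_lit 5) (nat_lit 405) (nat_lit 350) (nat_lit 265)) (XT.lf (nat_lit 0) (nat_lit 10784554087) (nat_lit 228) (nat_lit 16367394560) (nat_lit 76) (nat_lit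 8640173130) (nat_lit 56) (nat_lit 5) (nat_lit 59) (nat_lit 5) (nat_lit 57) (nat_lit 5) (nat_lit 406) (nat_lit 350) (nat_lit 264))))) (XT.nd (nat_lit 234) (nat_lit 380) (nat_lit 0) (XT.nd (nat_lit 78) (nat_lit 304) (nat_lit 0) (XT.lf (nat_lit 0) (nat_lit 14037654367) (nat_lit 152) (nat_lit 10891588422) (nat_lit 228) (nat_lit 12133936243) (nat_lit 54) (nat_lit 5) (nat_lit 56) (nat_lit 5) (nat_lit 57) (nat_lit 5) (nat_lit 407) (nat_lit 350) (nat_lit 263)) (XT.nd (nat_lit 78) (nat_lit 152) (nat_lit 0) (XT.lf (nat_lit 0) (nat_lit 1641378498) (nat_lit 152) (nat_lit 30442221147) (nat_lit 76) (nat_lit 6305243400) (nat_lit 52) (nat_lit 5) (nat_lit 54) (nat_lit 5) (nat_lit 53) (nat_lit 5) (nat_lit 408) (nat_lit 350) (nat_lit 262)) (XT.lf (nat_lit 0) (nat_lit 915395481) (nat_lit 152) (nat_lit 15276133702) (nat_lit 228) (nat_lit 23575548972) (nat_lit 50) (nat_lit 5) (nat_lit 52) (nat_lit 5) (nat_lit 53)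 (nat_lit 5) (nat_lit 409) (nat_lit 350) (nat_lit 261)))) (XT.nd (nat_lit 156) (nat_lit 228) (nat_lit 0) (XT.nd (nat_lit 78) (nat_lit 152) (nat_lit 0) (XT.lf (nat_lit 0) (nat_lit 31785583293) (nat_lit 228) (nat_lit 6795542817) (nat_lit 76) (nat_lit 2623609503) (nat_lit 50) (nat_lit 5) (nat_lit 53) (nat_lit 5) (nat_lit 51) (nat_lit 4) (nat_lit 410) (nat_lit 350) (nat_lit 260)) (XT.lf (nat_lit 0) (nat_lit 5736567183) (nat_lit 152) (nat_lit 15558583132) (nat_lit 76) (nat_lit 21405625000) (nat_lit 48) (nat_lit 5) (nat_lit 50) (nat_lit 5) (nat_lit 49) (nat_lit 5) (nat_lit 411) (nat_lit 350) (nat_lit 259))) (XT.nd (nat_lit 78) (nat_lit 76) (nat_lit 0) (XT.lf (nat_lit 0) (nat_lit 18882858271) (nat_lit 152) (nat_lit 2805045725) (nat_lit 228) (nat_lit 22573938397) (nat_lit 46) (nat_lit 5) (nat_lit 48) (nat_lit 5) (nat_lit 49) (nat_lit 5) (nat_lit 412) (nat_lit 350) (nat_lit 258)) (XT.lf (nat_lit 0) (nat_lit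 9460210212) (nat_lit 76) (nat_lit 29368090133) (nat_lit 152) (nat_lit 7060919772) (nat_lit 45) (nat_lit 5) (nat_lit 46) (nat_lit 5) (nat_lit 47) (nat_lit 4) (nat_lit 413) (nat_lit 350) (nat_lit 257))))))))
noncomputable def xc68 : XT := (XT.nd (nat_lit 48438) (nat_lit 0) (nat_lit 9500) (XT.nd (nat_lit 936) (nat_lit 684) (nat_lit 0) (XT.nd (nat_lit 468) (nat_lit 532) (nat_lit 0) (XT.nd (nat_lit 234) (nat_lit 304) (nat_lit 0) (XT.nd (nat_lit 78) (nat_lit 228) (nat_lit 0) (XT.lf (nat_lit 0) (nat_lit 9319414038) (nat_lit 152) (nat_lit 1175813188) (nat_lit 76) (nat_lit 37091928407) (nat_lit 44) (nat_lit 5) (nat_lit 46) (nat_lit 5) (nat_lit 45) (nat_lit 5) (nat_lit 414) (nat_lit 350) (nat_lit 256)) (XT.nd (nat_lit 78) (nat_lit 76) (nat_lit 0) (XT.lf (nat_lit 0) (nat_lit 26798580151) (nat_lit 228) (nat_lit 13007607645) (nat_lit 76) (nat_lit 9548929261) (nat_lit 42) (nat_lit 5) (nat_lit 45) (nat_lit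 5) (nat_lit 43) (nat_lit 4) (nat_lit 415) (nat_lit 350) (nat_lit 255)) (XT.lf (nat_lit 0) (nat_lit 24905017278) (nat_lit 76) (nat_lit 20585229977) (nat_lit 152) (nat_lit 5711074754) (nat_lit 41) (nat_lit 5) (nat_lit 42) (nat_lit 5) (nat_lit 43) (nat_lit 4) (nat_lit 416) (nat_lit 350) (nat_lit 254)))) (XT.nd (nat_lit 78) (nat_lit 76) (nat_lit 0) (XT.lf (nat_lit 0) (nat_lit 11930903593) (nat_lit 152) (nat_lit 43340585) (nat_lit 228) (nat_lit 41155202084) (nat_lit 38) (nat_lit 5) (nat_lit 40) (nat_lit 5) (nat_lit 41) (nat_lit 5) (nat_lit 417) (nat_lit 350) (nat_lit 253)) (XT.nd (nat_lit 78) (nat_lit 76) (nat_lit 0) (XT.lf (nat_lit 0) (nat_lit 30888896860) (nat_lit 228) (nat_lit 2828238788) (nat_lit 76) (nat_lit 21421250804) (nat_lit 38) (nat_lit 5) (nat_lit 41) (nat_lit 5) (nat_lit 39) (nat_lit 4) (nat_lit 418) (nat_lit 350) (nat_lit 252)) (XT.lf (nat_lit 0) (nat_lit 38172521798) (nat_lit 76) (nat_lit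 12926791212) (nat_lit 152) (nat_lit 6137961172) (nat_lit 37) (nat_lit 5) (nat_lit 38) (nat_lit 5) (nat_lit 39) (nat_lit 4) (nat_lit 419) (nat_lit 350) (nat_lit 251))))) (XT.nd (nat_lit 234) (nat_lit 228) (nat_lit 0) (XT.nd (nat_lit 78) (nat_lit 76) (nat_lit 0) (XT.lf (nat_lit 0) (nat_lit 12941907846) (nat_lit 228) (nat_lit 37401918743) (nat_lit 76) (nat_lit 9084144512) (nat_lit 34) (nat_lit 5) (nat_lit 37) (nat_lit 5) (nat_lit 35) (nat_lit 4) (nat_lit 420) (nat_lit 350) (nat_lit 250)) (XT.nd (nat_lit 78) (nat_lit 0) (nat_lit 0) (XT.lf (nat_lit 0) (nat_lit 3693837663) (nat_lit 76) (nat_lit 29503730590) (nat_lit 152) (nat_lit 28518350528) (nat_lit 33) (nat_lit 5) (nat_lit 34) (nat_lit 5) (nat_lit 35) (nat_lit 4) (nat_lit 421) (nat_lit 350) (nat_lit 249)) (XT.lf (nat_lit 0) (nat_lit 47595517226) (nat_lit 76) (nat_lit 7239394569) (nat_lit 152) (nat_lit 9272286268) (nat_lit 33) (nat_lit 5) (nat_lit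 34) (nat_lit 5) (nat_lit 35) (nat_lit 4) (nat_lit 422) (nat_lit 350) (nat_lit 248)))) (XT.nd (nat_lit 78) (nat_lit 76) (nat_lit 0) (XT.lf (nat_lit 0) (nat_lit 11129942340) (nat_lit 152) (nat_lit 39290127574) (nat_lit 76) (nat_lit 16182600892) (nat_lit 31) (nat_lit 5) (nat_lit 33) (nat_lit 5) (nat_lit 32) (nat_lit 4) (nat_lit 423) (nat_lit 350) (nat_lit 247)) (XT.nd (nat_lit 78) (nat_lit 0) (nat_lit 0) (XT.lf (nat_lit 0) (nat_lit 4342813594) (nat_lit 76) (nat_lit 28290787455) (nat_lit 152) (nat_lit 36578370555) (nat_lit 30) (nat_lit 5) (nat_lit 31) (nat_lit 5) (nat_lit 32) (nat_lit 4) (nat_lit 424) (nat_lit 350) (nat_lit 246)) (XT.lf (nat_lit 0) (nat_lit 50950478272) (nat_lit 76) (nat_lit 4651705429) (nat_lit 152) (nat_lit 16337862536) (nat_lit 30) (nat_lit 5) (nat_lit 31) (nat_lit 5) (nat_lit 32) (nat_lit 4) (nat_lit 425) (nat_lit 350) (nat_lit 245)))))) (XT.nd (nat_lit 468) (nat_lit 228) (nat_lit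 0) (XT.nd (nat_lit 234) (nat_lit 228) (nat_lit 0) (XT.nd (nat_lit 78) (nat_lit 76) (nat_lit 0) (XT.lf (nat_lit 0) (nat_lit 5246459923) (nat_lit 152) (nat_lit 49485248521) (nat_lit 76) (nat_lit 20058569063) (nat_lit 28) (nat_lit 5) (nat_lit 30) (nat_lit 5) (nat_lit 29) (nat_lit 4) (nat_lit 426) (nat_lit 350) (nat_lit 244)) (XT.nd (nat_lit 78) (nat_lit 76) (nat_lit 0) (XT.lf (nat_lit 0) (nat_lit 27826554770) (nat_lit 152) (nat_lit 3663998456) (nat_lit 76) (nat_lit 46279981735) (nat_lit 28) (nat_lit 5) (nat_lit 30) (nat_lit 5) (nat_lit 29) (nat_lit 4) (nat_lit 427) (nat_lit 350) (nat_lit 243)) (XT.lf (nat_lit 0) (nat_lit 45307236612) (nat_lit 76) (nat_lit 6650746400) (nat_lit 152) (nat_lit 28929153277) (nat_lit 27) (nat_lit 5) (nat_lit 28) (nat_lit 5) (nat_lit 29) (nat_lit 4) (nat_lit 428) (nat_lit 350) (nat_lit 242)))) (XT.nd (nat_lit 78) (nat_lit 152) (nat_lit 0) (XT.lf (nat_lit 0) (nat_lit 12680718340)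 (nat_lit 76) (nat_lit 64949122074) (nat_lit 76) (nat_lit 6519712355) (nat_lit 26) (nat_lit 4) (nat_lit 27) (nat_lit 5) (nat_lit 27) (nat_lit 4) (nat_lit 429) (nat_lit 350) (nat_lit 241)) (XT.nd (nat_lit 78) (nat_lit 76) (nat_lit 0) (XT.lf (nat_lit 0) (nat_lit 17102635744) (nat_lit 152) (nat_lit 23724765219) (nat_lit 76) (nat_lit 46730053531) (nat_lit 25) (nat_lit 5) (nat_lit 27) (nat_lit 5) (nat_lit 26) (nat_lit 4) (nat_lit 430) (nat_lit 350) (nat_lit 240)) (XT.lf (nat_lit 0) (nat_lit 26841350848) (nat_lit 76) (nat_lit 15177131921) (nat_lit 152) (nat_lit 49107916133) (nat_lit 24) (nat_lit 5) (nat_lit 25) (nat_lit 5) (nat_lit 26) (nat_lit 4) (nat_lit 431) (nat_lit 350) (nat_lit 239))))) (XT.nd (nat_lit 46800) (nat_lit 0) (nat_lit 21660) (XT.nd (nat_lit 78) (nat_lit 228) (nat_lit 0) (XT.lf (nat_lit 0) (nat_lit 68527972894) (nat_lit 152) (nat_lit 14573041925) (nat_lit 0) (nat_lit 11762340877) (nat_lit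 24) (nat_lit 5) (nat_lit 26) (nat_lit 4) (nat_lit 24) (nat_lit 4) (nat_lit 432) (nat_lit 350) (nat_lit 238)) (XT.nd (nat_lit 156) (nat_lit 152) (nat_lit 0) (XT.lf (nat_lit 0) (nat_lit 38195074746) (nat_lit 76) (nat_lit 58676970000) (nat_lit 76) (nat_lit 1899843020) (nat_lit 23) (nat_lit 4) (nat_lit 24) (nat_lit 5) (nat_lit 24) (nat_lit 4) (nat_lit 433) (nat_lit 350) (nat_lit 237)) (XT.lf (nat_lit 0) (nat_lit 45561928310) (nat_lit 76) (nat_lit 4861928411) (nat_lit 152) (nat_lit 56725063207) (nat_lit 21) (nat_lit 5) (nat_lit 22) (nat_lit 5) (nat_lit 23) (nat_lit 4) (nat_lit 435) (nat_lit 350) (nat_lit 235)))) (XT.nd (nat_lit 78) (nat_lit 0) (nat_lit 0) (XT.lf (nat_lit 0) (nat_lit 887653560) (nat_lit 988) (nat_lit 1518577586) (nat_lit 988) (nat_lit 1518577586) (nat_lit 306) (nat_lit 3) (nat_lit 319) (nat_lit 3) (nat_lit 319) (nat_lit 5) (nat_lit 351) (nat_lit 351) (nat_lit 318)) (XT.nd (nat_lit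 78) (nat_lit 0) (nat_lit 76) (XT.lf (nat_lit 76) (nat_lit 3347059344) (nat_lit 0) (nat_lit 563531881) (nat_lit 988) (nat_lit 4071499784) (nat_lit 307) (nat_lit 5) (nat_lit 306) (nat_lit 3) (nat_lit 319) (nat_lit 5) (nat_lit 352) (nat_lit 351) (nat_lit 317)) (XT.lf (nat_lit 76) (nat_lit 1919478715) (nat_lit 0) (nat_lit 4188812384) (nat_lit 988) (nat_lit 2014294148) (nat_lit 308) (nat_lit 5) (nat_lit 307) (nat_lit 5) (nat_lit 320) (nat_lit 5) (nat_lit 353) (nat_lit 351) (nat_lit 316))))))) (XT.nd (nat_lit 936) (nat_lit 6460) (nat_lit 0) (XT.nd (nat_lit 468) (nat_lit 3952) (nat_lit 0) (XT.nd (nat_lit 234) (nat_lit 912) (nat_lit 0) (XT.nd (nat_lit 78) (nat_lit 0) (nat_lit 0) (XT.lf (nat_lit 0) (nat_lit 79261637) (nat_lit 988) (nat_lit 7717967174) (nat_lit 1064) (nat_lit 474804864) (nat_lit 295) (nat_lit 5) (nat_lit 308) (nat_lit 5) (nat_lit 309) (nat_lit 5) (nat_lit 354) (nat_lit 351) (nat_lit 315))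 (XT.nd (nat_lit 78) (nat_lit 0) (nat_lit 76) (XT.lf (nat_lit 0) (nat_lit 2221283797) (nat_lit 988) (nat_lit 788010845) (nat_lit 1064) (nat_lit 5419556777) (nat_lit 295) (nat_lit 5) (nat_lit 308) (nat_lit 5) (nat_lit 309) (nat_lit 5) (nat_lit 355) (nat_lit 351) (nat_lit 314)) (XT.lf (nat_lit 0) (nat_lit 4437830138) (nat_lit 988) (nat_lit 2072279423) (nat_lit 1064) (nat_lit 2084433620) (nat_lit 296) (nat_lit 5) (nat_lit 309) (nat_lit 5) (nat_lit 310) (nat_lit 5) (nat_lit 356) (nat_lit 351) (nat_lit 313)))) (XT.nd (nat_lit 78) (nat_lit 988) (nat_lit 0) (XT.lf (nat_lit 76) (nat_lit 5447590945) (nat_lit 0) (nat_lit 1297860791) (nat_lit 1064) (nat_lit 2023713525) (nat_lit 297) (nat_lit 5) (nat_lit 296) (nat_lit 5) (nat_lit 310) (nat_lit 5) (nat_lit 357) (nat_lit 351) (nat_lit 312)) (XT.nd (nat_lit 78) (nat_lit 0) (nat_lit 76) (XT.lf (nat_lit 0) (nat_lit 209886651) (nat_lit 1064) (nat_lit 4550116984)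 (nat_lit 1140) (nat_lit 4192556768) (nat_lit 283) (nat_lit 5) (nat_lit 297) (nat_lit 5) (nat_lit 298) (nat_lit 5) (nat_lit 358) (nat_lit 351) (nat_lit 311)) (XT.lf (nat_lit 0) (nat_lit 2500136812) (nat_lit 1064) (nat_lit 5759392271) (nat_lit 1140) (nat_lit 885437231) (nat_lit 284) (nat_lit 5) (nat_lit 298) (nat_lit 5) (nat_lit 299) (nat_lit 5) (nat_lit 359) (nat_lit 351) (nat_lit 310))))) (XT.nd (nat_lit 234) (nat_lit 1824) (nat_lit 0) (XT.nd (nat_lit 78) (nat_lit 2204) (nat_lit 0) (XT.lf (nat_lit 76) (nat_lit 2388760345) (nat_lit 0) (nat_lit 2536351506) (nat_lit 1140) (nat_lit 4421318887) (nat_lit 285) (nat_lit 5) (nat_lit 284) (nat_lit 5) (nat_lit 299) (nat_lit 5) (nat_lit 360) (nat_lit 351) (nat_lit 309)) (XT.nd (nat_lit 78) (nat_lit 1216) (nat_lit 0) (XT.lf (nat_lit 0) (nat_lit 1424570841) (nat_lit 1064) (nat_lit 6059761415) (nat_lit 1140) (nat_lit 2073288696) (nat_lit 271) (nat_lit 5) (nat_lit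 285) (nat_lit 5) (nat_lit 286) (nat_lit 5) (nat_lit 361) (nat_lit 351) (nat_lit 308)) (XT.lf (nat_lit 0) (nat_lit 397017083) (nat_lit 1216) (nat_lit 9283576438) (nat_lit 76) (nat_lit 98327550) (nat_lit 255) (nat_lit 5) (nat_lit 271) (nat_lit 5) (nat_lit 256) (nat_lit 5) (nat_lit 362) (nat_lit 351) (nat_lit 307)))) (XT.nd (nat_lit 78) (nat_lit 1824) (nat_lit 0) (XT.lf (nat_lit 0) (nat_lit 3006667623) (nat_lit 1216) (nat_lit 444506846) (nat_lit 76) (nat_lit 6557772047) (nat_lit 255) (nat_lit 5) (nat_lit 271) (nat_lit 5) (nat_lit 256) (nat_lit 5) (nat_lit 363) (nat_lit 351) (nat_lit 306)) (XT.nd (nat_lit 78) (nat_lit 608) (nat_lit 0) (XT.lf (nat_lit 0) (nat_lit 5780100705) (nat_lit 1292) (nat_lit 1344382891) (nat_lit 76) (nat_lit 3125026253) (nat_lit 239) (nat_lit 5) (nat_lit 256) (nat_lit 5) (nat_lit 240) (nat_lit 5) (nat_lit 364) (nat_lit 351) (nat_lit 305)) (XT.lf (nat_lit 0) (nat_lit 8281693255)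 (nat_lit 608) (nat_lit 449679844) (nat_lit 684) (nat_lit 1769587139) (nat_lit 231) (nat_lit 5) (nat_lit 239) (nat_lit 5) (nat_lit 240) (nat_lit 5) (nat_lit 365) (nat_lit 351) (nat_lit 304)))))) (XT.nd (nat_lit 468) (nat_lit 3040) (nat_lit 0) (XT.nd (nat_lit 234) (nat_lit 1596) (nat_lit 0) (XT.nd (nat_lit 78) (nat_lit 1140) (nat_lit 0) (XT.lf (nat_lit 0) (nat_lit 1119090330) (nat_lit 684) (nat_lit 3109639534) (nat_lit 76) (nat_lit 6533737936) (nat_lit 222) (nat_lit 5) (nat_lit 231) (nat_lit 5) (nat_lit 223) (nat_lit 5) (nat_lit 366) (nat_lit 351) (nat_lit 303)) (XT.nd (nat_lit 78) (nat_lit 532) (nat_lit 0) (XT.lf (nat_lit 0) (nat_lit 4165152117) (nat_lit 684) (nat_lit 3994445612) (nat_lit 76) (nat_lit 2875470815) (nat_lit 214) (nat_lit 5) (nat_lit 223) (nat_lit 5) (nat_lit 215) (nat_lit 5) (nat_lit 367) (nat_lit 351) (nat_lit 302)) (XT.lf (nat_lit 0) (nat_lit 6451682255) (nat_lit 532) (nat_lit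 977164143) (nat_lit 608) (nat_lit 3890521492) (nat_lit 207) (nat_lit 5) (nat_lit 214) (nat_lit 5) (nat_lit 215) (nat_lit 5) (nat_lit 368) (nat_lit 351) (nat_lit 301)))) (XT.nd (nat_lit 78) (nat_lit 1064) (nat_lit 0) (XT.lf (nat_lit 0) (nat_lit 5863658927) (nat_lit 532) (nat_lit 5084051801) (nat_lit 608) (nat_lit 667439008) (nat_lit 200) (nat_lit 5) (nat_lit 207) (nat_lit 5) (nat_lit 208) (nat_lit 5) (nat_lit 369) (nat_lit 351) (nat_lit 300)) (XT.nd (nat_lit 78) (nat_lit 532) (nat_lit 0) (XT.lf (nat_lit 0) (nat_lit 2733066206) (nat_lit 532) (nat_lit 6645926971) (nat_lit 76) (nat_lit 2543890589) (nat_lit 193) (nat_lit 5) (nat_lit 200) (nat_lit 5) (nat_lit 194) (nat_lit 5) (nat_lit 370) (nat_lit 351) (nat_lit 299)) (XT.lf (nat_lit 0) (nat_lit 4692498119) (nat_lit 532) (nat_lit 1688985738) (nat_lit 608) (nat_lit 5861595526) (nat_lit 186) (nat_lit 5) (nat_lit 193) (nat_lit 5) (nat_lit 194) (nat_lit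 5) (nat_lit 371) (nat_lit 351) (nat_lit 298))))) (XT.nd (nat_lit 234) (nat_lit 1672) (nat_lit 0) (XT.nd (nat_lit 78) (nat_lit 912) (nat_lit 0) (XT.lf (nat_lit 0) (nat_lit 4104602965) (nat_lit 456) (nat_lit 6215306108) (nat_lit 532) (nat_lit 2256170829) (nat_lit 180) (nat_lit 5) (nat_lit 186) (nat_lit 5) (nat_lit 187) (nat_lit 5) (nat_lit 372) (nat_lit 351) (nat_lit 297)) (XT.nd (nat_lit 78) (nat_lit 380) (nat_lit 0) (XT.lf (nat_lit 0) (nat_lit 1587558830) (nat_lit 532) (nat_lit 9400751833) (nat_lit 76) (nat_lit 1934363303) (nat_lit 173) (nat_lit 5) (nat_lit 180) (nat_lit 5) (nat_lit 174) (nat_lit 5) (nat_lit 373) (nat_lit 351) (nat_lit 296)) (XT.lf (nat_lit 0) (nat_lit 2906730096) (nat_lit 380) (nat_lit 2790696246) (nat_lit 456) (nat_lit 7584902879) (nat_lit 168) (nat_lit 5) (nat_lit 173) (nat_lit 5) (nat_lit 174) (nat_lit 5) (nat_lit 374) (nat_lit 351) (nat_lit 295)))) (XT.nd (nat_lit 156) (nat_lit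 760) (nat_lit 0) (XT.nd (nat_lit 78) (nat_lit 456) (nat_lit 0) (XT.lf (nat_lit 0) (nat_lit 2285502851) (nat_lit 456) (nat_lit 7846327454) (nat_lit 532) (nat_lit 3524584697) (nat_lit 162) (nat_lit 5) (nat_lit 168) (nat_lit 5) (nat_lit 169) (nat_lit 5) (nat_lit 375) (nat_lit 351) (nat_lit 294)) (XT.lf (nat_lit 0) (nat_lit 829603027) (nat_lit 456) (nat_lit 12377716333) (nat_lit 76) (nat_lit 838532215) (nat_lit 156) (nat_lit 5) (nat_lit 162) (nat_lit 5) (nat_lit 157) (nat_lit 5) (nat_lit 376) (nat_lit 351) (nat_lit 293))) (XT.nd (nat_lit 78) (nat_lit 380) (nat_lit 0) (XT.lf (nat_lit 0) (nat_lit 978962379) (nat_lit 380) (nat_lit 4503861231) (nat_lit 456) (nat_lit 8966279724) (nat_lit 151) (nat_lit 5) (nat_lit 156) (nat_lit 5) (nat_lit 157) (nat_lit 5) (nat_lit 377) (nat_lit 351) (nat_lit 292)) (XT.lf (nat_lit 0) (nat_lit 284046722) (nat_lit 380) (nat_lit 10209071504) (nat_lit 456) (nat_lit 4375683046)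 (nat_lit 146) (nat_lit 5) (nat_lit 151) (nat_lit 5) (nat_lit 152) (nat_lit 5) (nat_lit 378) (nat_lit 351) (nat_lit 291))))))))
noncomputable def xc69 : XT := (XT.nd (nat_lit 1872) (nat_lit 2888) (nat_lit 0) (XT.nd (nat_lit 936) (nat_lit 2508) (nat_lit 0) (XT.nd (nat_lit 468) (nat_lit 1748) (nat_lit 0) (XT.nd (nat_lit 234) (nat_lit 1064) (nat_lit 0) (XT.nd (nat_lit 78) (nat_lit 684) (nat_lit 0) (XT.lf (nat_lit 0) (nat_lit 571018493) (nat_lit 456) (nat_lit 417151299) (nat_lit 76) (nat_lit 14317143494) (nat_lit 145) (nat_lit 5) (nat_lit 151) (nat_lit 5) (nat_lit 146) (nat_lit 5) (nat_lit 379) (nat_lit 351) (nat_lit 290)) (XT.nd (nat_lit 78) (nat_lit 304) (nat_lit 0) (XT.lf (nat_lit 0) (nat_lit 5853466326) (nat_lit 456) (nat_lit 1209443735) (nat_lit 76) (nat_lit 8694087994) (nat_lit 140) (nat_lit 5) (nat_lit 146) (nat_lit 5) (nat_lit 141) (nat_lit 5) (nat_lit 380) (nat_lit 351) (nat_lit 289)) (XT.lf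 (nat_lit 0) (nat_lit 11531210774) (nat_lit 380) (nat_lit 2012761916) (nat_lit 76) (nat_lit 2683372550) (nat_lit 136) (nat_lit 5) (nat_lit 141) (nat_lit 5) (nat_lit 137) (nat_lit 5) (nat_lit 381) (nat_lit 351) (nat_lit 288)))) (XT.nd (nat_lit 78) (nat_lit 608) (nat_lit 0) (XT.lf (nat_lit 0) (nat_lit 930349999) (nat_lit 456) (nat_lit 2875716050) (nat_lit 76) (nat_lit 12909720367) (nat_lit 130) (nat_lit 5) (nat_lit 136) (nat_lit 5) (nat_lit 131) (nat_lit 5) (nat_lit 382) (nat_lit 351) (nat_lit 287)) (XT.nd (nat_lit 78) (nat_lit 304) (nat_lit 0) (XT.lf (nat_lit 0) (nat_lit 6911841678) (nat_lit 380) (nat_lit 3835743378) (nat_lit 76) (nat_lit 6474557319) (nat_lit 126) (nat_lit 5) (nat_lit 131) (nat_lit 5) (nat_lit 127) (nat_lit 5) (nat_lit 383) (nat_lit 351) (nat_lit 286)) (XT.lf (nat_lit 0) (nat_lit 12920206091) (nat_lit 304) (nat_lit 422228208) (nat_lit 380) (nat_lit 4406892284) (nat_lit 122) (nat_lit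 5) (nat_lit 126) (nat_lit 5) (nat_lit 127) (nat_lit 5) (nat_lit 384) (nat_lit 351) (nat_lit 285))))) (XT.nd (nat_lit 234) (nat_lit 836) (nat_lit 0) (XT.nd (nat_lit 78) (nat_lit 532) (nat_lit 0) (XT.lf (nat_lit 0) (nat_lit 1976608913) (nat_lit 380) (nat_lit 5943700806) (nat_lit 76) (nat_lit 10375457456) (nat_lit 117) (nat_lit 5) (nat_lit 122) (nat_lit 5) (nat_lit 118) (nat_lit 5) (nat_lit 385) (nat_lit 351) (nat_lit 284)) (XT.nd (nat_lit 78) (nat_lit 228) (nat_lit 0) (XT.lf (nat_lit 0) (nat_lit 8745232627) (nat_lit 380) (nat_lit 7148692346) (nat_lit 76) (nat_lit 2969593081) (nat_lit 113) (nat_lit 5) (nat_lit 118) (nat_lit 5) (nat_lit 114) (nat_lit 5) (nat_lit 386) (nat_lit 351) (nat_lit 283)) (XT.lf (nat_lit 0) (nat_lit 10997126757) (nat_lit 228) (nat_lit 5063531817) (nat_lit 304) (nat_lit 3392756200) (nat_lit 110) (nat_lit 5) (nat_lit 113) (nat_lit 5) (nat_lit 114) (nat_lit 5) (nat_lit 387) (nat_lit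 351) (nat_lit 282)))) (XT.nd (nat_lit 78) (nat_lit 456) (nat_lit 0) (XT.lf (nat_lit 0) (nat_lit 3794498509) (nat_lit 380) (nat_lit 9896134738) (nat_lit 76) (nat_lit 6375212364) (nat_lit 105) (nat_lit 5) (nat_lit 110) (nat_lit 5) (nat_lit 106) (nat_lit 5) (nat_lit 388) (nat_lit 351) (nat_lit 281)) (XT.nd (nat_lit 78) (nat_lit 228) (nat_lit 0) (XT.lf (nat_lit 0) (nat_lit 9233516990) (nat_lit 228) (nat_lit 2228786450) (nat_lit 304) (nat_lit 9239854458) (nat_lit 102) (nat_lit 5) (nat_lit 105) (nat_lit 5) (nat_lit 106) (nat_lit 5) (nat_lit 389) (nat_lit 351) (nat_lit 280)) (XT.lf (nat_lit 0) (nat_lit 8166190152) (nat_lit 228) (nat_lit 11586904436) (nat_lit 304) (nat_lit 1610011238) (nat_lit 99) (nat_lit 5) (nat_lit 102) (nat_lit 5) (nat_lit 103) (nat_lit 5) (nat_lit 390) (nat_lit 351) (nat_lit 279)))))) (XT.nd (nat_lit 468) (nat_lit 1216) (nat_lit 0) (XT.nd (nat_lit 234) (nat_lit 456) (nat_lit 0)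 (XT.nd (nat_lit 78) (nat_lit 532) (nat_lit 0) (XT.lf (nat_lit 0) (nat_lit 6454792489) (nat_lit 304) (nat_lit 15091631808) (nat_lit 76) (nat_lit 503486726) (nat_lit 95) (nat_lit 5) (nat_lit 99) (nat_lit 5) (nat_lit 96) (nat_lit 5) (nat_lit 391) (nat_lit 351) (nat_lit 278)) (XT.nd (nat_lit 78) (nat_lit 304) (nat_lit 0) (XT.lf (nat_lit 0) (nat_lit 5548348850) (nat_lit 228) (nat_lit 9614718825) (nat_lit 304) (nat_lit 7599311682) (nat_lit 92) (nat_lit 5) (nat_lit 95) (nat_lit 5) (nat_lit 96) (nat_lit 5) (nat_lit 392) (nat_lit 351) (nat_lit 277)) (XT.lf (nat_lit 0) (nat_lit 972863434) (nat_lit 304) (nat_lit 19490055643) (nat_lit 76) (nat_lit 3041565348) (nat_lit 88) (nat_lit 5) (nat_lit 92) (nat_lit 5) (nat_lit 89) (nat_lit 5) (nat_lit 393) (nat_lit 351) (nat_lit 276)))) (XT.nd (nat_lit 78) (nat_lit 228) (nat_lit 0) (XT.lf (nat_lit 0) (nat_lit 2199365039) (nat_lit 228) (nat_lit 7883128545) (nat_lit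 304) (nat_lit 14190969723) (nat_lit 85) (nat_lit 5) (nat_lit 88) (nat_lit 5) (nat_lit 89) (nat_lit 5) (nat_lit 394) (nat_lit 351) (nat_lit 275)) (XT.nd (nat_lit 78) (nat_lit 76) (nat_lit 0) (XT.lf (nat_lit 0) (nat_lit 203539425) (nat_lit 152) (nat_lit 19668095088) (nat_lit 228) (nat_lit 5202541581) (nat_lit 83) (nat_lit 5) (nat_lit 85) (nat_lit 5) (nat_lit 86) (nat_lit 5) (nat_lit 395) (nat_lit 351) (nat_lit 274)) (XT.lf (nat_lit 0) (nat_lit 4430678954) (nat_lit 228) (nat_lit 2026321256) (nat_lit 76) (nat_lit 19448367827) (nat_lit 82) (nat_lit 5) (nat_lit 85) (nat_lit 5) (nat_lit 83) (nat_lit 5) (nat_lit 396) (nat_lit 351) (nat_lit 273))))) (XT.nd (nat_lit 234) (nat_lit 532) (nat_lit 0) (XT.nd (nat_lit 78) (nat_lit 456) (nat_lit 0) (XT.lf (nat_lit 0) (nat_lit 14697428642) (nat_lit 304) (nat_lit 4551561731) (nat_lit 76) (nat_lit 7519805096) (nat_lit 79) (nat_lit 5) (nat_lit 83) (nat_lit 5) (nat_lit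 80) (nat_lit 5) (nat_lit 397) (nat_lit 351) (nat_lit 272)) (XT.nd (nat_lit 78) (nat_lit 304) (nat_lit 0) (XT.lf (nat_lit 0) (nat_lit 20322931517) (nat_lit 152) (nat_lit 5407380911) (nat_lit 228) (nat_lit 1937502844) (nat_lit 77) (nat_lit 5) (nat_lit 79) (nat_lit 5) (nat_lit 80) (nat_lit 5) (nat_lit 398) (nat_lit 351) (nat_lit 271)) (XT.lf (nat_lit 0) (nat_lit 8817392156) (nat_lit 304) (nat_lit 10546114055) (nat_lit 76) (nat_lit 9237249638) (nat_lit 73) (nat_lit 5) (nat_lit 77) (nat_lit 5) (nat_lit 74) (nat_lit 5) (nat_lit 399) (nat_lit 351) (nat_lit 270)))) (XT.nd (nat_lit 78) (nat_lit 380) (nat_lit 0) (XT.lf (nat_lit 0) (nat_lit 15479500262) (nat_lit 152) (nat_lit 4843112478) (nat_lit 228) (nat_lit 9249579991) (nat_lit 71) (nat_lit 5) (nat_lit 73) (nat_lit 5) (nat_lit 74) (nat_lit 5) (nat_lit 400) (nat_lit 351) (nat_lit 269)) (XT.nd (nat_lit 78) (nat_lit 152) (nat_lit 0) (XT.lf (nat_lit 0) (nat_lit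 2081914524) (nat_lit 228) (nat_lit 18068655294) (nat_lit 76) (nat_lit 10431922644) (nat_lit 68) (nat_lit 5) (nat_lit 71) (nat_lit 5) (nat_lit 69) (nat_lit 5) (nat_lit 401) (nat_lit 351) (nat_lit 268)) (XT.lf (nat_lit 0) (nat_lit 9094332053) (nat_lit 152) (nat_lit 4952751557) (nat_lit 228) (nat_lit 17585728108) (nat_lit 66) (nat_lit 5) (nat_lit 68) (nat_lit 5) (nat_lit 69) (nat_lit 5) (nat_lit 402) (nat_lit 351) (nat_lit 267))))))) (XT.nd (nat_lit 936) (nat_lit 1292) (nat_lit 0) (XT.nd (nat_lit 468) (nat_lit 684) (nat_lit 0) (XT.nd (nat_lit 234) (nat_lit 532) (nat_lit 0) (XT.nd (nat_lit 78) (nat_lit 228) (nat_lit 0) (XT.lf (nat_lit 0) (nat_lit 5212102126) (nat_lit 152) (nat_lit 21716583757) (nat_lit 228) (nat_lit 5797419429) (nat_lit 64) (nat_lit 5) (nat_lit 66) (nat_lit 5) (nat_lit 67) (nat_lit 5) (nat_lit 403) (nat_lit 351) (nat_lit 266)) (XT.nd (nat_lit 78) (nat_lit 0) (nat_lit 0) (XT.lf (nat_lit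 0) (nat_lit 810194531) (nat_lit 152) (nat_lit 5908785656) (nat_lit 228) (nat_lit 27145176697) (nat_lit 61) (nat_lit 5) (nat_lit 63) (nat_lit 5) (nat_lit 64) (nat_lit 5) (nat_lit 404) (nat_lit 351) (nat_lit 265)) (XT.lf (nat_lit 0) (nat_lit 20106796028) (nat_lit 228) (nat_lit 4132579267) (nat_lit 76) (nat_lit 10807052047) (nat_lit 61) (nat_lit 5) (nat_lit 64) (nat_lit 5) (nat_lit 62) (nat_lit 5) (nat_lit 405) (nat_lit 351) (nat_lit 264)))) (XT.nd (nat_lit 78) (nat_lit 380) (nat_lit 0) (XT.lf (nat_lit 0) (nat_lit 26653961371) (nat_lit 152) (nat_lit 7802648051) (nat_lit 228) (nat_lit 1822426731) (nat_lit 59) (nat_lit 5) (nat_lit 61) (nat_lit 5) (nat_lit 62) (nat_lit 5) (nat_lit 406) (nat_lit 351) (nat_lit 263)) (XT.nd (nat_lit 78) (nat_lit 152) (nat_lit 0) (XT.lf (nat_lit 0) (nat_lit 12041205317) (nat_lit 228) (nat_lit 15894401146) (nat_lit 76) (nat_lit 9624512424) (nat_lit 56) (nat_lit 5) (nat_lit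 59) (nat_lit 5) (nat_lit 57) (nat_lit 5) (nat_lit 407) (nat_lit 351) (nat_lit 262)) (XT.lf (nat_lit 0) (nat_lit 15993883562) (nat_lit 152) (nat_lit 10877139413) (nat_lit 228) (nat_lit 12024373303) (nat_lit 54) (nat_lit 5) (nat_lit 56) (nat_lit 5) (nat_lit 57) (nat_lit 5) (nat_lit 408) (nat_lit 351) (nat_lit 261))))) (XT.nd (nat_lit 234) (nat_lit 380) (nat_lit 0) (XT.nd (nat_lit 78) (nat_lit 152) (nat_lit 0) (XT.lf (nat_lit 0) (nat_lit 2409431503) (nat_lit 152) (nat_lit 30717091186) (nat_lit 76) (nat_lit 7161107013) (nat_lit 52) (nat_lit 5) (nat_lit 54) (nat_lit 5) (nat_lit 53) (nat_lit 5) (nat_lit 409) (nat_lit 351) (nat_lit 260)) (XT.nd (nat_lit 78) (nat_lit 0) (nat_lit 0) (XT.lf (nat_lit 0) (nat_lit 2172654360) (nat_lit 152) (nat_lit 15493415029) (nat_lit 228) (nat_lit 24069341407) (nat_lit 50) (nat_lit 5) (nat_lit 52) (nat_lit 5) (nat_lit 53) (nat_lit 5) (nat_lit 410) (nat_lit 351) (nat_lit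 259)) (XT.lf (nat_lit 0) (nat_lit 34013164631) (nat_lit 228) (nat_lit 5967456305) (nat_lit 76) (nat_lit 3265133483) (nat_lit 50) (nat_lit 5) (nat_lit 53) (nat_lit 5) (nat_lit 51) (nat_lit 4) (nat_lit 411) (nat_lit 351) (nat_lit 258)))) (XT.nd (nat_lit 78) (nat_lit 228) (nat_lit 0) (XT.lf (nat_lit 0) (nat_lit 6648397988) (nat_lit 152) (nat_lit 15189622722) (nat_lit 76) (nat_lit 22978979581) (nat_lit 48) (nat_lit 5) (nat_lit 50) (nat_lit 5) (nat_lit 49) (nat_lit 5) (nat_lit 412) (nat_lit 351) (nat_lit 257)) (XT.nd (nat_lit 78) (nat_lit 76) (nat_lit 0) (XT.lf (nat_lit 0) (nat_lit 20941015392) (nat_lit 152) (nat_lit 2437232815) (nat_lit 228) (nat_lit 23078447153) (nat_lit 46) (nat_lit 5) (nat_lit 48) (nat_lit 5) (nat_lit 49) (nat_lit 5) (nat_lit 413) (nat_lit 351) (nat_lit 256)) (XT.lf (nat_lit 0) (nat_lit 11028274428) (nat_lit 76) (nat_lit 30333712826) (nat_lit 152) (nat_lit 6803867919) (nat_lit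 45) (nat_lit 5) (nat_lit 46) (nat_lit 5) (nat_lit 47) (nat_lit 4) (nat_lit 414) (nat_lit 351) (nat_lit 255)))))) (XT.nd (nat_lit 468) (nat_lit 684) (nat_lit 0) (XT.nd (nat_lit 234) (nat_lit 304) (nat_lit 0) (XT.nd (nat_lit 78) (nat_lit 228) (nat_lit 0) (XT.lf (nat_lit 0) (nat_lit 10355092012) (nat_lit 152) (nat_lit 180303826) (nat_lit 76) (nat_lit 39413972920) (nat_lit 44) (nat_lit 5) (nat_lit 46) (nat_lit 5) (nat_lit 45) (nat_lit 5) (nat_lit 415) (nat_lit 351) (nat_lit 254)) (XT.nd (nat_lit 78) (nat_lit 76) (nat_lit 0) (XT.lf (nat_lit 0) (nat_lit 28695465433) (nat_lit 228) (nat_lit 12621819588) (nat_lit 76) (nat_lit 10488828308) (nat_lit 42) (nat_lit 5) (nat_lit 45) (nat_lit 5) (nat_lit 43) (nat_lit 4) (nat_lit 416) (nat_lit 351) (nat_lit 253)) (XT.lf (nat_lit 0) (nat_lit 27156735020) (nat_lit 76) (nat_lit 21148133919) (nat_lit 152) (nat_lit 5440267421) (nat_lit 41) (nat_lit 5) (nat_lit 42)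 (nat_lit 5) (nat_lit 43) (nat_lit 4) (nat_lit 417) (nat_lit 351) (nat_lit 252)))) (XT.nd (nat_lit 78) (nat_lit 76) (nat_lit 0) (XT.lf (nat_lit 0) (nat_lit 13105960183) (nat_lit 228) (nat_lit 42258322821) (nat_lit 76) (nat_lit 405600641) (nat_lit 38) (nat_lit 5) (nat_lit 41) (nat_lit 5) (nat_lit 39) (nat_lit 4) (nat_lit 418) (nat_lit 351) (nat_lit 251)) (XT.nd (nat_lit 78) (nat_lit 76) (nat_lit 0) (XT.lf (nat_lit 0) (nat_lit 32941380981) (nat_lit 228) (nat_lit 2017546408) (nat_lit 76) (nat_lit 22921094524) (nat_lit 38) (nat_lit 5) (nat_lit 41) (nat_lit 5) (nat_lit 39) (nat_lit 4) (nat_lit 419) (nat_lit 351) (nat_lit 250)) (XT.lf (nat_lit 0) (nat_lit 41005960328) (nat_lit 76) (nat_lit 13141055127) (nat_lit 152) (nat_lit 5937299682) (nat_lit 37) (nat_lit 5) (nat_lit 38) (nat_lit 5) (nat_lit 39) (nat_lit 4) (nat_lit 420) (nat_lit 351) (nat_lit 249))))) (XT.nd (nat_lit 234) (nat_lit 380) (nat_lit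 0) (XT.nd (nat_lit 78) (nat_lit 76) (nat_lit 0) (XT.lf (nat_lit 0) (nat_lit 14075776503) (nat_lit 228) (nat_lit 38353622931) (nat_lit 76) (nat_lit 9955329438) (nat_lit 34) (nat_lit 5) (nat_lit 37) (nat_lit 5) (nat_lit 35) (nat_lit 4) (nat_lit 421) (nat_lit 351) (nat_lit 248)) (XT.nd (nat_lit 78) (nat_lit 0) (nat_lit 0) (XT.lf (nat_lit 0) (nat_lit 4770595780) (nat_lit 76) (nat_lit 30559019556) (nat_lit 152) (nat_lit 29457898526) (nat_lit 33) (nat_lit 5) (nat_lit 34) (nat_lit 5) (nat_lit 35) (nat_lit 4) (nat_lit 422) (nat_lit 351) (nat_lit 247)) (XT.lf (nat_lit 0) (nat_lit 50824879978) (nat_lit 76) (nat_lit 7201461856) (nat_lit 152) (nat_lit 9272691506) (nat_lit 33) (nat_lit 5) (nat_lit 34) (nat_lit 5) (nat_lit 35) (nat_lit 4) (nat_lit 423) (nat_lit 351) (nat_lit 246)))) (XT.nd (nat_lit 156) (nat_lit 152) (nat_lit 0) (XT.nd (nat_lit 78) (nat_lit 76) (nat_lit 0) (XT.lf (nat_lit 0) (nat_lit 12130782279)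 (nat_lit 152) (nat_lit 40411122455) (nat_lit 76) (nat_lit 17377537805) (nat_lit 31) (nat_lit 5) (nat_lit 33) (nat_lit 5) (nat_lit 32) (nat_lit 4) (nat_lit 424) (nat_lit 351) (nat_lit 245)) (XT.lf (nat_lit 0) (nat_lit 5379286684) (nat_lit 76) (nat_lit 29317053982) (nat_lit 152) (nat_lit 37963267710) (nat_lit 30) (nat_lit 5) (nat_lit 31) (nat_lit 5) (nat_lit 32) (nat_lit 4) (nat_lit 425) (nat_lit 351) (nat_lit 244))) (XT.nd (nat_lit 78) (nat_lit 152) (nat_lit 0) (XT.lf (nat_lit 0) (nat_lit 54278318767) (nat_lit 76) (nat_lit 4514507038) (nat_lit 152) (nat_lit 16731878165) (nat_lit 30) (nat_lit 5) (nat_lit 31) (nat_lit 5) (nat_lit 32) (nat_lit 4) (nat_lit 426) (nat_lit 351) (nat_lit 243)) (XT.lf (nat_lit 0) (nat_lit 5914524207) (nat_lit 152) (nat_lit 51184922469) (nat_lit 76) (nat_lit 21418146030) (nat_lit 28) (nat_lit 5) (nat_lit 30) (nat_lit 5) (nat_lit 29) (nat_lit 4) (nat_lit 427) (nat_lit 351)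 (nat_lit 242))))))))
noncomputable def xc70 : XT := (XT.nd (nat_lit 48516) (nat_lit 0) (nat_lit 5320) (XT.nd (nat_lit 47580) (nat_lit 0) (nat_lit 14592) (XT.nd (nat_lit 546) (nat_lit 152) (nat_lit 0) (XT.nd (nat_lit 234) (nat_lit 152) (nat_lit 0) (XT.nd (nat_lit 78) (nat_lit 152) (nat_lit 0) (XT.lf (nat_lit 0) (nat_lit 29604302783) (nat_lit 152) (nat_lit 3109495066) (nat_lit 76) (nat_lit 48933646073) (nat_lit 28) (nat_lit 5) (nat_lit 30) (nat_lit 5) (nat_lit 29) (nat_lit 4) (nat_lit 428) (nat_lit 351) (nat_lit 241)) (XT.nd (nat_lit 78) (nat_lit 76) (nat_lit 0) (XT.lf (nat_lit 0) (nat_lit 48289155638) (nat_lit 76) (nat_lit 6641633820) (nat_lit 152) (nat_lit 29989432447) (nat_lit 27) (nat_lit 5) (nat_lit 28) (nat_lit 5) (nat_lit 29) (nat_lit 4) (nat_lit 429) (nat_lit 351) (nat_lit 240)) (XT.lf (nat_lit 0) (nat_lit 14018529588) (nat_lit 76) (nat_lit 67859750292) (nat_lit 76) (nat_lit 6467719266)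 (nat_lit 26) (nat_lit 4) (nat_lit 27) (nat_lit 5) (nat_lit 27) (nat_lit 4) (nat_lit 430) (nat_lit 351) (nat_lit 239)))) (XT.nd (nat_lit 78) (nat_lit 76) (nat_lit 0) (XT.lf (nat_lit 0) (nat_lit 18310722752) (nat_lit 152) (nat_lit 24233695642) (nat_lit 76) (nat_lit 49380299051) (nat_lit 25) (nat_lit 5) (nat_lit 27) (nat_lit 5) (nat_lit 26) (nat_lit 4) (nat_lit 431) (nat_lit 351) (nat_lit 238)) (XT.nd (nat_lit 78) (nat_lit 0) (nat_lit 0) (XT.lf (nat_lit 0) (nat_lit 28841311335) (nat_lit 76) (nat_lit 15620567470) (nat_lit 152) (nat_lit 51210545774) (nat_lit 24) (nat_lit 5) (nat_lit 25) (nat_lit 5) (nat_lit 26) (nat_lit 4) (nat_lit 432) (nat_lit 351) (nat_lit 237)) (XT.lf (nat_lit 0) (nat_lit 72283422889) (nat_lit 152) (nat_lit 14668212885) (nat_lit 0) (nat_lit 12644997012) (nat_lit 24) (nat_lit 5) (nat_lit 26) (nat_lit 4) (nat_lit 24) (nat_lit 4) (nat_lit 433) (nat_lit 351) (nat_lit 236))))) (XT.nd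 (nat_lit 46800) (nat_lit 0) (nat_lit 20672) (XT.nd (nat_lit 46644) (nat_lit 0) (nat_lit 21584) (XT.lf (nat_lit 0) (nat_lit 24913211536) (nat_lit 152) (nat_lit 9084962510) (nat_lit 76) (nat_lit 74000615655) (nat_lit 22) (nat_lit 5) (nat_lit 24) (nat_lit 5) (nat_lit 23) (nat_lit 4) (nat_lit 435) (nat_lit 351) (nat_lit 234)) (XT.nd (nat_lit 78) (nat_lit 0) (nat_lit 0) (XT.lf (nat_lit 0) (nat_lit 2958621178) (nat_lit 988) (nat_lit 550303414) (nat_lit 988) (nat_lit 550303414) (nat_lit 306) (nat_lit 3) (nat_lit 319) (nat_lit 3) (nat_lit 319) (nat_lit 5) (nat_lit 352) (nat_lit 352) (nat_lit 316)) (XT.lf (nat_lit 76) (nat_lit 5542954671) (nat_lit 0) (nat_lit 2442827495) (nat_lit 988) (nat_lit 277073811) (nat_lit 307) (nat_lit 5) (nat_lit 306) (nat_lit 3) (nat_lit 319) (nat_lit 5) (nat_lit 353) (nat_lit 352) (nat_lit 315)))) (XT.nd (nat_lit 78) (nat_lit 0) (nat_lit 0) (XT.lf (nat_lit 0) (nat_lit 1662879472)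 (nat_lit 988) (nat_lit 4314136260) (nat_lit 1064) (nat_lit 2438407383) (nat_lit 294) (nat_lit 5) (nat_lit 307) (nat_lit 5) (nat_lit 308) (nat_lit 5) (nat_lit 354) (nat_lit 352) (nat_lit 314)) (XT.nd (nat_lit 78) (nat_lit 0) (nat_lit 76) (XT.lf (nat_lit 76) (nat_lit 2703144279) (nat_lit 0) (nat_lit 954219048) (nat_lit 1064) (nat_lit 4919330911) (nat_lit 295) (nat_lit 5) (nat_lit 294) (nat_lit 5) (nat_lit 308) (nat_lit 5) (nat_lit 355) (nat_lit 352) (nat_lit 313)) (XT.lf (nat_lit 76) (nat_lit 1331415136) (nat_lit 0) (nat_lit 4408937009) (nat_lit 1064) (nat_lit 3006066517) (nat_lit 296) (nat_lit 5) (nat_lit 295) (nat_lit 5) (nat_lit 309) (nat_lit 5) (nat_lit 356) (nat_lit 352) (nat_lit 312)))))) (XT.nd (nat_lit 468) (nat_lit 4256) (nat_lit 0) (XT.nd (nat_lit 234) (nat_lit 912) (nat_lit 0) (XT.nd (nat_lit 78) (nat_lit 1064) (nat_lit 0) (XT.lf (nat_lit 76) (nat_lit 6461124) (nat_lit 0) (nat_lit 7895406907)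 (nat_lit 1064) (nat_lit 1023580582) (nat_lit 297) (nat_lit 5) (nat_lit 296) (nat_lit 5) (nat_lit 310) (nat_lit 5) (nat_lit 357) (nat_lit 352) (nat_lit 311)) (XT.nd (nat_lit 78) (nat_lit 0) (nat_lit 76) (XT.lf (nat_lit 0) (nat_lit 1056867417) (nat_lit 1064) (nat_lit 1283613753) (nat_lit 1140) (nat_lit 6772106086) (nat_lit 282) (nat_lit 5) (nat_lit 296) (nat_lit 5) (nat_lit 297) (nat_lit 5) (nat_lit 358) (nat_lit 352) (nat_lit 310)) (XT.lf (nat_lit 0) (nat_lit 3222977021) (nat_lit 1064) (nat_lit 2556339751) (nat_lit 1140) (nat_lit 3529422362) (nat_lit 283) (nat_lit 5) (nat_lit 297) (nat_lit 5) (nat_lit 298) (nat_lit 5) (nat_lit 359) (nat_lit 352) (nat_lit 309)))) (XT.nd (nat_lit 78) (nat_lit 1064) (nat_lit 0) (XT.lf (nat_lit 0) (nat_lit 5498551730) (nat_lit 1064) (nat_lit 3795087198) (nat_lit 1140) (nat_lit 221067356) (nat_lit 284) (nat_lit 5) (nat_lit 298) (nat_lit 5) (nat_lit 299) (nat_lit 5)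 (nat_lit 360) (nat_lit 352) (nat_lit 308)) (XT.nd (nat_lit 78) (nat_lit 1064) (nat_lit 0) (XT.lf (nat_lit 76) (nat_lit 4695912046) (nat_lit 0) (nat_lit 3233064161) (nat_lit 1140) (nat_lit 1800803897) (nat_lit 285) (nat_lit 5) (nat_lit 284) (nat_lit 5) (nat_lit 299) (nat_lit 5) (nat_lit 361) (nat_lit 352) (nat_lit 307)) (XT.lf (nat_lit 0) (nat_lit 535189173) (nat_lit 1140) (nat_lit 6252605148) (nat_lit 76) (nat_lit 3167095433) (nat_lit 270) (nat_lit 5) (nat_lit 285) (nat_lit 5) (nat_lit 271) (nat_lit 5) (nat_lit 362) (nat_lit 352) (nat_lit 306))))) (XT.nd (nat_lit 234) (nat_lit 1292) (nat_lit 0) (XT.nd (nat_lit 78) (nat_lit 1824) (nat_lit 0) (XT.lf (nat_lit 0) (nat_lit 2722366346) (nat_lit 1140) (nat_lit 257184133) (nat_lit 1216) (nat_lit 7210340771) (nat_lit 255) (nat_lit 5) (nat_lit 270) (nat_lit 5) (nat_lit 271) (nat_lit 5) (nat_lit 363) (nat_lit 352) (nat_lit 305)) (XT.nd (nat_lit 78) (nat_lit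 608) (nat_lit 0) (XT.lf (nat_lit 0) (nat_lit 1741248280) (nat_lit 1216) (nat_lit 3870786220) (nat_lit 1292) (nat_lit 4822665101) (nat_lit 239) (nat_lit 5) (nat_lit 255) (nat_lit 5) (nat_lit 256) (nat_lit 5) (nat_lit 364) (nat_lit 352) (nat_lit 304)) (XT.lf (nat_lit 0) (nat_lit 788965319) (nat_lit 608) (nat_lit 7627990897) (nat_lit 684) (nat_lit 2273600052) (nat_lit 231) (nat_lit 5) (nat_lit 239) (nat_lit 5) (nat_lit 240) (nat_lit 5) (nat_lit 365) (nat_lit 352) (nat_lit 303)))) (XT.nd (nat_lit 78) (nat_lit 1216) (nat_lit 0) (XT.lf (nat_lit 0) (nat_lit 450616739) (nat_lit 684) (nat_lit 143690760) (nat_lit 76) (nat_lit 10363145123) (nat_lit 230) (nat_lit 5) (nat_lit 239) (nat_lit 5) (nat_lit 231) (nat_lit 5) (nat_lit 366) (nat_lit 352) (nat_lit 302)) (XT.nd (nat_lit 78) (nat_lit 608) (nat_lit 0) (XT.lf (nat_lit 0) (nat_lit 3358759564) (nat_lit 684) (nat_lit 1091449385) (nat_lit 76) (nat_lit 6783995861)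 (nat_lit 222) (nat_lit 5) (nat_lit 231) (nat_lit 5) (nat_lit 223) (nat_lit 5) (nat_lit 367) (nat_lit 352) (nat_lit 301)) (XT.lf (nat_lit 0) (nat_lit 6473542759) (nat_lit 684) (nat_lit 2019078656) (nat_lit 76) (nat_lit 3030363290) (nat_lit 214) (nat_lit 5) (nat_lit 223) (nat_lit 5) (nat_lit 215) (nat_lit 5) (nat_lit 368) (nat_lit 352) (nat_lit 300))))))) (XT.nd (nat_lit 936) (nat_lit 3648) (nat_lit 0) (XT.nd (nat_lit 468) (nat_lit 2508) (nat_lit 0) (XT.nd (nat_lit 234) (nat_lit 1520) (nat_lit 0) (XT.nd (nat_lit 78) (nat_lit 1064) (nat_lit 0) (XT.lf (nat_lit 0) (nat_lit 8887007108) (nat_lit 532) (nat_lit 933717267) (nat_lit 608) (nat_lit 2003205244) (nat_lit 207) (nat_lit 5) (nat_lit 214) (nat_lit 5) (nat_lit 215) (nat_lit 5) (nat_lit 369) (nat_lit 352) (nat_lit 299)) (XT.nd (nat_lit 78) (nat_lit 456) (nat_lit 0) (XT.lf (nat_lit 0) (nat_lit 1278227801) (nat_lit 608) (nat_lit 3881516301) (nat_lit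 76) (nat_lit 6976670525) (nat_lit 199) (nat_lit 5) (nat_lit 207) (nat_lit 5) (nat_lit 200) (nat_lit 5) (nat_lit 370) (nat_lit 352) (nat_lit 298)) (XT.lf (nat_lit 0) (nat_lit 4763473075) (nat_lit 532) (nat_lit 4833505539) (nat_lit 76) (nat_lit 2864537885) (nat_lit 193) (nat_lit 5) (nat_lit 200) (nat_lit 5) (nat_lit 194) (nat_lit 5) (nat_lit 371) (nat_lit 352) (nat_lit 297)))) (XT.nd (nat_lit 78) (nat_lit 988) (nat_lit 0) (XT.lf (nat_lit 0) (nat_lit 7010362901) (nat_lit 532) (nat_lit 1513795342) (nat_lit 608) (nat_lit 4275701533) (nat_lit 186) (nat_lit 5) (nat_lit 193) (nat_lit 5) (nat_lit 194) (nat_lit 5) (nat_lit 372) (nat_lit 352) (nat_lit 296)) (XT.nd (nat_lit 78) (nat_lit 532) (nat_lit 0) (XT.lf (nat_lit 0) (nat_lit 6384719367) (nat_lit 456) (nat_lit 6210269292) (nat_lit 532) (nat_lit 556488837) (nat_lit 180) (nat_lit 5) (nat_lit 186) (nat_lit 5) (nat_lit 187) (nat_lit 5) (nat_lit 373) (nat_lit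 352) (nat_lit 295)) (XT.lf (nat_lit 0) (nat_lit 3382394107) (nat_lit 532) (nat_lit 7771725445) (nat_lit 76) (nat_lit 2362638284) (nat_lit 173) (nat_lit 5) (nat_lit 180) (nat_lit 5) (nat_lit 174) (nat_lit 5) (nat_lit 374) (nat_lit 352) (nat_lit 294))))) (XT.nd (nat_lit 234) (nat_lit 1216) (nat_lit 0) (XT.nd (nat_lit 78) (nat_lit 912) (nat_lit 0) (XT.lf (nat_lit 0) (nat_lit 5090961333) (nat_lit 380) (nat_lit 2544704320) (nat_lit 456) (nat_lit 6260620790) (nat_lit 168) (nat_lit 5) (nat_lit 173) (nat_lit 5) (nat_lit 174) (nat_lit 5) (nat_lit 375) (nat_lit 352) (nat_lit 293)) (XT.nd (nat_lit 78) (nat_lit 456) (nat_lit 0) (XT.lf (nat_lit 0) (nat_lit 4425349963) (nat_lit 456) (nat_lit 7810708526) (nat_lit 532) (nat_lit 2054716546) (nat_lit 162) (nat_lit 5) (nat_lit 168) (nat_lit 5) (nat_lit 169) (nat_lit 5) (nat_lit 376) (nat_lit 352) (nat_lit 292)) (XT.lf (nat_lit 0) (nat_lit 2431678083) (nat_lit 456)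 (nat_lit 10954466400) (nat_lit 76) (nat_lit 1314690267) (nat_lit 156) (nat_lit 5) (nat_lit 162) (nat_lit 5) (nat_lit 157) (nat_lit 5) (nat_lit 377) (nat_lit 352) (nat_lit 291)))) (XT.nd (nat_lit 78) (nat_lit 836) (nat_lit 0) (XT.lf (nat_lit 0) (nat_lit 3011508836) (nat_lit 380) (nat_lit 4250804377) (nat_lit 456) (nat_lit 7863616686) (nat_lit 151) (nat_lit 5) (nat_lit 156) (nat_lit 5) (nat_lit 157) (nat_lit 5) (nat_lit 378) (nat_lit 352) (nat_lit 290)) (XT.nd (nat_lit 78) (nat_lit 456) (nat_lit 0) (XT.lf (nat_lit 0) (nat_lit 2264843163) (nat_lit 380) (nat_lit 10209878560) (nat_lit 456) (nat_lit 3093365330) (nat_lit 146) (nat_lit 5) (nat_lit 151) (nat_lit 5) (nat_lit 152) (nat_lit 5) (nat_lit 379) (nat_lit 352) (nat_lit 289)) (XT.lf (nat_lit 0) (nat_lit 1492368699) (nat_lit 380) (nat_lit 523270054) (nat_lit 456) (nat_lit 14012045860) (nat_lit 140) (nat_lit 5) (nat_lit 145) (nat_lit 5) (nat_lit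 146) (nat_lit 5) (nat_lit 380) (nat_lit 352) (nat_lit 288)))))) (XT.nd (nat_lit 468) (nat_lit 1900) (nat_lit 0) (XT.nd (nat_lit 234) (nat_lit 988) (nat_lit 0) (XT.nd (nat_lit 78) (nat_lit 456) (nat_lit 0) (XT.lf (nat_lit 0) (nat_lit 625267780) (nat_lit 304) (nat_lit 6884358417) (nat_lit 380) (nat_lit 8993924538) (nat_lit 136) (nat_lit 5) (nat_lit 140) (nat_lit 5) (nat_lit 141) (nat_lit 5) (nat_lit 381) (nat_lit 352) (nat_lit 287)) (XT.nd (nat_lit 78) (nat_lit 456) (nat_lit 0) (XT.lf (nat_lit 0) (nat_lit 13423172243) (nat_lit 380) (nat_lit 249691460) (nat_lit 76) (nat_lit 3326012841) (nat_lit 136) (nat_lit 5) (nat_lit 141) (nat_lit 5) (nat_lit 137) (nat_lit 5) (nat_lit 382) (nat_lit 352) (nat_lit 286)) (XT.lf (nat_lit 0) (nat_lit 2259956922) (nat_lit 456) (nat_lit 1183334387) (nat_lit 76) (nat_lit 14069445994) (nat_lit 130) (nat_lit 5) (nat_lit 136) (nat_lit 5) (nat_lit 131) (nat_lit 5) (nat_lit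 383) (nat_lit 352) (nat_lit 285)))) (XT.nd (nat_lit 78) (nat_lit 684) (nat_lit 0) (XT.lf (nat_lit 0) (nat_lit 8501801214) (nat_lit 380) (nat_lit 2211726240) (nat_lit 76) (nat_lit 7332061730) (nat_lit 126) (nat_lit 5) (nat_lit 131) (nat_lit 5) (nat_lit 127) (nat_lit 5) (nat_lit 384) (nat_lit 352) (nat_lit 284)) (XT.nd (nat_lit 78) (nat_lit 380) (nat_lit 0) (XT.lf (nat_lit 0) (nat_lit 15212759804) (nat_lit 380) (nat_lit 3271583928) (nat_lit 76) (nat_lit 116039462) (nat_lit 122) (nat_lit 5) (nat_lit 127) (nat_lit 5) (nat_lit 123) (nat_lit 5) (nat_lit 385) (nat_lit 352) (nat_lit 283)) (XT.lf (nat_lit 0) (nat_lit 3254008543) (nat_lit 380) (nat_lit 4473854699) (nat_lit 76) (nat_lit 11447045242) (nat_lit 117) (nat_lit 5) (nat_lit 122) (nat_lit 5) (nat_lit 118) (nat_lit 5) (nat_lit 386) (nat_lit 352) (nat_lit 282))))) (XT.nd (nat_lit 234) (nat_lit 988) (nat_lit 0) (XT.nd (nat_lit 78) (nat_lit 608) (nat_lit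 0) (XT.lf (nat_lit 0) (nat_lit 10326990638) (nat_lit 380) (nat_lit 5760853520) (nat_lit 76) (nat_lit 3684238743) (nat_lit 113) (nat_lit 5) (nat_lit 118) (nat_lit 5) (nat_lit 114) (nat_lit 5) (nat_lit 387) (nat_lit 352) (nat_lit 281)) (XT.nd (nat_lit 78) (nat_lit 380) (nat_lit 0) (XT.lf (nat_lit 0) (nat_lit 13242228625) (nat_lit 228) (nat_lit 4727755167) (nat_lit 304) (nat_lit 2422649938) (nat_lit 110) (nat_lit 5) (nat_lit 113) (nat_lit 5) (nat_lit 114) (nat_lit 5) (nat_lit 388) (nat_lit 352) (nat_lit 280)) (XT.lf (nat_lit 0) (nat_lit 5070205105) (nat_lit 380) (nat_lit 8695439662) (nat_lit 76) (nat_lit 7270670482) (nat_lit 105) (nat_lit 5) (nat_lit 110) (nat_lit 5) (nat_lit 106) (nat_lit 5) (nat_lit 389) (nat_lit 352) (nat_lit 279)))) (XT.nd (nat_lit 156) (nat_lit 532) (nat_lit 0) (XT.nd (nat_lit 78) (nat_lit 228) (nat_lit 0) (XT.lf (nat_lit 0) (nat_lit 11342093434) (nat_lit 228) (nat_lit 1743424451)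 (nat_lit 304) (nat_lit 8620013316) (nat_lit 102) (nat_lit 5) (nat_lit 105) (nat_lit 5) (nat_lit 106) (nat_lit 5) (nat_lit 390) (nat_lit 352) (nat_lit 278)) (XT.lf (nat_lit 0) (nat_lit 10199444731) (nat_lit 228) (nat_lit 11562482737) (nat_lit 304) (nat_lit 638477722) (nat_lit 99) (nat_lit 5) (nat_lit 102) (nat_lit 5) (nat_lit 103) (nat_lit 5) (nat_lit 391) (nat_lit 352) (nat_lit 277))) (XT.nd (nat_lit 78) (nat_lit 228) (nat_lit 0) (XT.lf (nat_lit 0) (nat_lit 7781058732) (nat_lit 304) (nat_lit 14223336907) (nat_lit 76) (nat_lit 1117701174) (nat_lit 95) (nat_lit 5) (nat_lit 99) (nat_lit 5) (nat_lit 96) (nat_lit 5) (nat_lit 392) (nat_lit 352) (nat_lit 276)) (XT.lf (nat_lit 0) (nat_lit 7402123355) (nat_lit 228) (nat_lit 9489990250) (nat_lit 304) (nat_lit 6979063695) (nat_lit 92) (nat_lit 5) (nat_lit 95) (nat_lit 5) (nat_lit 96) (nat_lit 5) (nat_lit 393) (nat_lit 352) (nat_lit 275))))))))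
noncomputable def xc71 : XT := (XT.nd (nat_lit 1950) (nat_lit 1368) (nat_lit 0) (XT.nd (nat_lit 936) (nat_lit 1520) (nat_lit 0) (XT.nd (nat_lit 468) (nat_lit 1216) (nat_lit 0) (XT.nd (nat_lit 234) (nat_lit 456) (nat_lit 0) (XT.nd (nat_lit 78) (nat_lit 380) (nat_lit 0) (XT.lf (nat_lit 0) (nat_lit 1976186320) (nat_lit 304) (nat_lit 18891380432) (nat_lit 76) (nat_lit 3783321893) (nat_lit 88) (nat_lit 5) (nat_lit 92) (nat_lit 5) (nat_lit 89) (nat_lit 5) (nat_lit 394) (nat_lit 352) (nat_lit 274)) (XT.nd (nat_lit 78) (nat_lit 152) (nat_lit 0) (XT.lf (nat_lit 0) (nat_lit 3837416452) (nat_lit 228) (nat_lit 7673109456) (nat_lit 304) (nat_lit 13948722277) (nat_lit 85) (nat_lit 5) (nat_lit 88) (nat_lit 5) (nat_lit 89) (nat_lit 5) (nat_lit 395) (nat_lit 352) (nat_lit 273)) (XT.lf (nat_lit 0) (nat_lit 1719445007) (nat_lit 152) (nat_lit 20045688406) (nat_lit 228) (nat_lit 4535591058) (nat_lit 83) (nat_lit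 5) (nat_lit 85) (nat_lit 5) (nat_lit 86) (nat_lit 5) (nat_lit 396) (nat_lit 352) (nat_lit 272)))) (XT.nd (nat_lit 78) (nat_lit 380) (nat_lit 0) (XT.lf (nat_lit 0) (nat_lit 5517914786) (nat_lit 228) (nat_lit 676230269) (nat_lit 76) (nat_lit 20980369690) (nat_lit 82) (nat_lit 5) (nat_lit 85) (nat_lit 5) (nat_lit 83) (nat_lit 5) (nat_lit 397) (nat_lit 352) (nat_lit 271)) (XT.nd (nat_lit 78) (nat_lit 152) (nat_lit 0) (XT.lf (nat_lit 0) (nat_lit 16275826177) (nat_lit 304) (nat_lit 3349548933) (nat_lit 76) (nat_lit 8456410887) (nat_lit 79) (nat_lit 5) (nat_lit 83) (nat_lit 5) (nat_lit 80) (nat_lit 5) (nat_lit 398) (nat_lit 352) (nat_lit 270)) (XT.lf (nat_lit 0) (nat_lit 22727690042) (nat_lit 152) (nat_lit 5105844388) (nat_lit 228) (nat_lit 1193033784) (nat_lit 77) (nat_lit 5) (nat_lit 79) (nat_lit 5) (nat_lit 80) (nat_lit 5) (nat_lit 399) (nat_lit 352) (nat_lit 269))))) (XT.nd (nat_lit 234) (nat_lit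 532) (nat_lit 0) (XT.nd (nat_lit 78) (nat_lit 380) (nat_lit 0) (XT.lf (nat_lit 0) (nat_lit 10062468073) (nat_lit 304) (nat_lit 9689888812) (nat_lit 76) (nat_lit 10254184232) (nat_lit 73) (nat_lit 5) (nat_lit 77) (nat_lit 5) (nat_lit 74) (nat_lit 5) (nat_lit 400) (nat_lit 352) (nat_lit 268)) (XT.nd (nat_lit 78) (nat_lit 228) (nat_lit 0) (XT.lf (nat_lit 0) (nat_lit 17597347584) (nat_lit 152) (nat_lit 4520224687) (nat_lit 228) (nat_lit 8909744911) (nat_lit 71) (nat_lit 5) (nat_lit 73) (nat_lit 5) (nat_lit 74) (nat_lit 5) (nat_lit 401) (nat_lit 352) (nat_lit 267)) (XT.lf (nat_lit 0) (nat_lit 2953274801) (nat_lit 228) (nat_lit 17633820121) (nat_lit 76) (nat_lit 11501392976) (nat_lit 68) (nat_lit 5) (nat_lit 71) (nat_lit 5) (nat_lit 69) (nat_lit 5) (nat_lit 402) (nat_lit 352) (nat_lit 266)))) (XT.nd (nat_lit 78) (nat_lit 380) (nat_lit 0) (XT.lf (nat_lit 0) (nat_lit 10848955412) (nat_lit 152) (nat_lit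 4643706022) (nat_lit 228) (nat_lit 17699388208) (nat_lit 66) (nat_lit 5) (nat_lit 68) (nat_lit 5) (nat_lit 69) (nat_lit 5) (nat_lit 403) (nat_lit 352) (nat_lit 265)) (XT.nd (nat_lit 78) (nat_lit 228) (nat_lit 0) (XT.lf (nat_lit 0) (nat_lit 6751915129) (nat_lit 152) (nat_lit 22248429977) (nat_lit 228) (nat_lit 5340207815) (nat_lit 64) (nat_lit 5) (nat_lit 66) (nat_lit 5) (nat_lit 67) (nat_lit 5) (nat_lit 404) (nat_lit 352) (nat_lit 264)) (XT.lf (nat_lit 0) (nat_lit 2107499467) (nat_lit 152) (nat_lit 5657133970) (nat_lit 228) (nat_lit 27771346861) (nat_lit 61) (nat_lit 5) (nat_lit 63) (nat_lit 5) (nat_lit 64) (nat_lit 5) (nat_lit 405) (nat_lit 352) (nat_lit 263)))))) (XT.nd (nat_lit 468) (nat_lit 684) (nat_lit 0) (XT.nd (nat_lit 234) (nat_lit 456) (nat_lit 0) (XT.nd (nat_lit 78) (nat_lit 380) (nat_lit 0) (XT.lf (nat_lit 0) (nat_lit 21793053175) (nat_lit 228) (nat_lit 3126902833) (nat_lit 76) (nat_lit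 11858276319) (nat_lit 61) (nat_lit 5) (nat_lit 64) (nat_lit 5) (nat_lit 62) (nat_lit 5) (nat_lit 406) (nat_lit 352) (nat_lit 262)) (XT.nd (nat_lit 78) (nat_lit 228) (nat_lit 0) (XT.lf (nat_lit 0) (nat_lit 29164214345) (nat_lit 152) (nat_lit 7675037636) (nat_lit 228) (nat_lit 1233856987) (nat_lit 59) (nat_lit 5) (nat_lit 61) (nat_lit 5) (nat_lit 62) (nat_lit 5) (nat_lit 407) (nat_lit 352) (nat_lit 261)) (XT.lf (nat_lit 0) (nat_lit 13293989870) (nat_lit 228) (nat_lit 15517816766) (nat_lit 76) (nat_lit 10606718215) (nat_lit 56) (nat_lit 5) (nat_lit 59) (nat_lit 5) (nat_lit 57) (nat_lit 5) (nat_lit 408) (nat_lit 352) (nat_lit 260)))) (XT.nd (nat_lit 78) (nat_lit 304) (nat_lit 0) (XT.lf (nat_lit 0) (nat_lit 17931306971) (nat_lit 152) (nat_lit 10913941118) (nat_lit 228) (nat_lit 11975923258) (nat_lit 54) (nat_lit 5) (nat_lit 56) (nat_lit 5) (nat_lit 57) (nat_lit 5) (nat_lit 409) (nat_lit 352) (nat_lit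 259)) (XT.nd (nat_lit 78) (nat_lit 152) (nat_lit 0) (XT.lf (nat_lit 0) (nat_lit 3152110861) (nat_lit 152) (nat_lit 31121661376) (nat_lit 76) (nat_lit 8009503807) (nat_lit 52) (nat_lit 5) (nat_lit 54) (nat_lit 5) (nat_lit 53) (nat_lit 5) (nat_lit 410) (nat_lit 352) (nat_lit 258)) (XT.lf (nat_lit 0) (nat_lit 3380143408) (nat_lit 152) (nat_lit 15772371170) (nat_lit 228) (nat_lit 24651506878) (nat_lit 50) (nat_lit 5) (nat_lit 52) (nat_lit 5) (nat_lit 53) (nat_lit 5) (nat_lit 411) (nat_lit 352) (nat_lit 257))))) (XT.nd (nat_lit 234) (nat_lit 380) (nat_lit 0) (XT.nd (nat_lit 78) (nat_lit 304) (nat_lit 0) (XT.lf (nat_lit 0) (nat_lit 36292781751) (nat_lit 228) (nat_lit 5206542360) (nat_lit 76) (nat_lit 3891286760) (nat_lit 50) (nat_lit 5) (nat_lit 53) (nat_lit 5) (nat_lit 51) (nat_lit 4) (nat_lit 412) (nat_lit 352) (nat_lit 256)) (XT.nd (nat_lit 78) (nat_lit 152) (nat_lit 0) (XT.lf (nat_lit 0) (nat_lit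 7547713530) (nat_lit 152) (nat_lit 14908841213) (nat_lit 76) (nat_lit 24584230901) (nat_lit 48) (nat_lit 5) (nat_lit 50) (nat_lit 5) (nat_lit 49) (nat_lit 5) (nat_lit 413) (nat_lit 352) (nat_lit 255)) (XT.lf (nat_lit 0) (nat_lit 22998509888) (nat_lit 152) (nat_lit 2098264346) (nat_lit 228) (nat_lit 23666212446) (nat_lit 46) (nat_lit 5) (nat_lit 48) (nat_lit 5) (nat_lit 49) (nat_lit 5) (nat_lit 414) (nat_lit 352) (nat_lit 254)))) (XT.nd (nat_lit 156) (nat_lit 76) (nat_lit 0) (XT.nd (nat_lit 78) (nat_lit 228) (nat_lit 0) (XT.lf (nat_lit 0) (nat_lit 12572934141) (nat_lit 76) (nat_lit 31394360542) (nat_lit 152) (nat_lit 6590684588) (nat_lit 45) (nat_lit 5) (nat_lit 46) (nat_lit 5) (nat_lit 47) (nat_lit 4) (nat_lit 415) (nat_lit 352) (nat_lit 253)) (XT.lf (nat_lit 0) (nat_lit 782226230) (nat_lit 152) (nat_lit 10614880908) (nat_lit 228) (nat_lit 41033953772) (nat_lit 42) (nat_lit 5) (nat_lit 44) (nat_lit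 5) (nat_lit 45) (nat_lit 5) (nat_lit 416) (nat_lit 352) (nat_lit 252))) (XT.nd (nat_lit 78) (nat_lit 76) (nat_lit 0) (XT.lf (nat_lit 0) (nat_lit 30635414463) (nat_lit 228) (nat_lit 12313075248) (nat_lit 76) (nat_lit 11432727849) (nat_lit 42) (nat_lit 5) (nat_lit 45) (nat_lit 5) (nat_lit 43) (nat_lit 4) (nat_lit 417) (nat_lit 352) (nat_lit 251)) (XT.lf (nat_lit 0) (nat_lit 29427466899) (nat_lit 76) (nat_lit 21782540564) (nat_lit 152) (nat_lit 5207644899) (nat_lit 41) (nat_lit 5) (nat_lit 42) (nat_lit 5) (nat_lit 43) (nat_lit 4) (nat_lit 418) (nat_lit 352) (nat_lit 250))))))) (XT.nd (nat_lit 936) (nat_lit 304) (nat_lit 0) (XT.nd (nat_lit 468) (nat_lit 456) (nat_lit 0) (XT.nd (nat_lit 234) (nat_lit 304) (nat_lit 0) (XT.nd (nat_lit 78) (nat_lit 76) (nat_lit 0) (XT.lf (nat_lit 0) (nat_lit 14245105123) (nat_lit 228) (nat_lit 43464472944) (nat_lit 76) (nat_lit 834243702) (nat_lit 38) (nat_lit 5) (nat_lit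 41) (nat_lit 5) (nat_lit 39) (nat_lit 4) (nat_lit 419) (nat_lit 352) (nat_lit 249)) (XT.nd (nat_lit 78) (nat_lit 76) (nat_lit 0) (XT.lf (nat_lit 0) (nat_lit 35049256632) (nat_lit 228) (nat_lit 1254837044) (nat_lit 76) (nat_lit 24456066420) (nat_lit 38) (nat_lit 5) (nat_lit 41) (nat_lit 5) (nat_lit 39) (nat_lit 4) (nat_lit 420) (nat_lit 352) (nat_lit 248)) (XT.lf (nat_lit 0) (nat_lit 43895090490) (nat_lit 76) (nat_lit 13406202536) (nat_lit 152) (nat_lit 5773793194) (nat_lit 37) (nat_lit 5) (nat_lit 38) (nat_lit 5) (nat_lit 39) (nat_lit 4) (nat_lit 421) (nat_lit 352) (nat_lit 247)))) (XT.nd (nat_lit 78) (nat_lit 76) (nat_lit 0) (XT.lf (nat_lit 0) (nat_lit 15221083028) (nat_lit 228) (nat_lit 39438295687) (nat_lit 76) (nat_lit 10831306976) (nat_lit 34) (nat_lit 5) (nat_lit 37) (nat_lit 5) (nat_lit 35) (nat_lit 4) (nat_lit 422) (nat_lit 352) (nat_lit 246)) (XT.nd (nat_lit 78) (nat_lit 0) (nat_lit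 0) (XT.lf (nat_lit 0) (nat_lit 5818255941) (nat_lit 76) (nat_lit 31706111067) (nat_lit 152) (nat_lit 30489641952) (nat_lit 33) (nat_lit 5) (nat_lit 34) (nat_lit 5) (nat_lit 35) (nat_lit 4) (nat_lit 423) (nat_lit 352) (nat_lit 245)) (XT.lf (nat_lit 0) (nat_lit 54136724330) (nat_lit 76) (nat_lit 7198811647) (nat_lit 152) (nat_lit 9316181795) (nat_lit 33) (nat_lit 5) (nat_lit 34) (nat_lit 5) (nat_lit 35) (nat_lit 4) (nat_lit 424) (nat_lit 352) (nat_lit 244))))) (XT.nd (nat_lit 234) (nat_lit 228) (nat_lit 0) (XT.nd (nat_lit 78) (nat_lit 76) (nat_lit 0) (XT.lf (nat_lit 0) (nat_lit 13140353431) (nat_lit 152) (nat_lit 41666588784) (nat_lit 76) (nat_lit 18596352897) (nat_lit 31) (nat_lit 5) (nat_lit 33) (nat_lit 5) (nat_lit 32) (nat_lit 4) (nat_lit 425) (nat_lit 352) (nat_lit 243)) (XT.nd (nat_lit 78) (nat_lit 0) (nat_lit 0) (XT.lf (nat_lit 0) (nat_lit 6391409668) (nat_lit 76) (nat_lit 30430731764) (nat_lit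 152) (nat_lit 39458690620) (nat_lit 30) (nat_lit 5) (nat_lit 31) (nat_lit 5) (nat_lit 32) (nat_lit 4) (nat_lit 426) (nat_lit 352) (nat_lit 242)) (XT.lf (nat_lit 0) (nat_lit 57700004847) (nat_lit 76) (nat_lit 4404827707) (nat_lit 152) (nat_lit 17184909716) (nat_lit 30) (nat_lit 5) (nat_lit 31) (nat_lit 5) (nat_lit 32) (nat_lit 4) (nat_lit 427) (nat_lit 352) (nat_lit 241)))) (XT.nd (nat_lit 78) (nat_lit 76) (nat_lit 0) (XT.lf (nat_lit 0) (nat_lit 6578269727) (nat_lit 152) (nat_lit 53041594009) (nat_lit 76) (nat_lit 22812544046) (nat_lit 28) (nat_lit 5) (nat_lit 30) (nat_lit 5) (nat_lit 29) (nat_lit 4) (nat_lit 428) (nat_lit 352) (nat_lit 240)) (XT.nd (nat_lit 78) (nat_lit 76) (nat_lit 0) (XT.lf (nat_lit 0) (nat_lit 31435012502) (nat_lit 152) (nat_lit 2595851169) (nat_lit 76) (nat_lit 51688414772) (nat_lit 28) (nat_lit 5) (nat_lit 30) (nat_lit 5) (nat_lit 29) (nat_lit 4) (nat_lit 429) (nat_lit 352)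 (nat_lit 239)) (XT.lf (nat_lit 0) (nat_lit 51353551919) (nat_lit 76) (nat_lit 6663828980) (nat_lit 152) (nat_lit 31138628791) (nat_lit 27) (nat_lit 5) (nat_lit 28) (nat_lit 5) (nat_lit 29) (nat_lit 4) (nat_lit 430) (nat_lit 352) (nat_lit 238)))))) (XT.nd (nat_lit 47190) (nat_lit 0) (nat_lit 19608) (XT.nd (nat_lit 312) (nat_lit 76) (nat_lit 0) (XT.nd (nat_lit 78) (nat_lit 152) (nat_lit 0) (XT.lf (nat_lit 0) (nat_lit 15357801039) (nat_lit 76) (nat_lit 70947224986) (nat_lit 76) (nat_lit 6448267399) (nat_lit 26) (nat_lit 4) (nat_lit 27) (nat_lit 5) (nat_lit 27) (nat_lit 4) (nat_lit 431) (nat_lit 352) (nat_lit 237)) (XT.nd (nat_lit 78) (nat_lit 76) (nat_lit 0) (XT.lf (nat_lit 0) (nat_lit 19546399679) (nat_lit 152) (nat_lit 24831042249) (nat_lit 76) (nat_lit 52133888012) (nat_lit 25) (nat_lit 5) (nat_lit 27) (nat_lit 5) (nat_lit 26) (nat_lit 4) (nat_lit 432) (nat_lit 352) (nat_lit 236)) (XT.lf (nat_lit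 0) (nat_lit 30880105197) (nat_lit 76) (nat_lit 16115499657) (nat_lit 152) (nat_lit 53451103750) (nat_lit 24) (nat_lit 5) (nat_lit 25) (nat_lit 5) (nat_lit 26) (nat_lit 4) (nat_lit 433) (nat_lit 352) (nat_lit 235)))) (XT.nd (nat_lit 46722) (nat_lit 0) (nat_lit 20520) (XT.lf (nat_lit 0) (nat_lit 43314274231) (nat_lit 76) (nat_lit 64112028930) (nat_lit 76) (nat_lit 1450921187) (nat_lit 23) (nat_lit 4) (nat_lit 24) (nat_lit 5) (nat_lit 24) (nat_lit 4) (nat_lit 435) (nat_lit 352) (nat_lit 233)) (XT.nd (nat_lit 78) (nat_lit 0) (nat_lit 0) (XT.lf (nat_lit 0) (nat_lit 365683732) (nat_lit 0) (nat_lit 365683732) (nat_lit 988) (nat_lit 3474320177) (nat_lit 293) (nat_lit 5) (nat_lit 293) (nat_lit 3) (nat_lit 306) (nat_lit 3) (nat_lit 353) (nat_lit 353) (nat_lit 314)) (XT.lf (nat_lit 0) (nat_lit 3270292002) (nat_lit 988) (nat_lit 940672850) (nat_lit 1064) (nat_lit 4356734584) (nat_lit 293) (nat_lit 5) (nat_lit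 306) (nat_lit 3) (nat_lit 307) (nat_lit 5) (nat_lit 354) (nat_lit 353) (nat_lit 313))))) (XT.nd (nat_lit 234) (nat_lit 0) (nat_lit 76) (XT.nd (nat_lit 78) (nat_lit 988) (nat_lit 0) (XT.lf (nat_lit 0) (nat_lit 5135245112) (nat_lit 988) (nat_lit 2553611925) (nat_lit 1064) (nat_lit 1044025381) (nat_lit 294) (nat_lit 5) (nat_lit 307) (nat_lit 5) (nat_lit 308) (nat_lit 5) (nat_lit 355) (nat_lit 353) (nat_lit 312)) (XT.nd (nat_lit 78) (nat_lit 988) (nat_lit 0) (XT.lf (nat_lit 76) (nat_lit 4757884372) (nat_lit 0) (nat_lit 2328629485) (nat_lit 1064) (nat_lit 1820069286) (nat_lit 295) (nat_lit 5) (nat_lit 294) (nat_lit 5) (nat_lit 308) (nat_lit 5) (nat_lit 356) (nat_lit 353) (nat_lit 311)) (XT.lf (nat_lit 0) (nat_lit 35872877) (nat_lit 1064) (nat_lit 5718611232) (nat_lit 1140) (nat_lit 3334806219) (nat_lit 281) (nat_lit 5) (nat_lit 295) (nat_lit 5) (nat_lit 296) (nat_lit 5) (nat_lit 357) (nat_lit 353)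 (nat_lit 310)))) (XT.nd (nat_lit 156) (nat_lit 0) (nat_lit 76) (XT.nd (nat_lit 78) (nat_lit 0) (nat_lit 0) (XT.lf (nat_lit 0) (nat_lit 1936976801) (nat_lit 1064) (nat_lit 7274973762) (nat_lit 1140) (nat_lit 68986091) (nat_lit 282) (nat_lit 5) (nat_lit 296) (nat_lit 5) (nat_lit 297) (nat_lit 5) (nat_lit 358) (nat_lit 353) (nat_lit 309)) (XT.lf (nat_lit 76) (nat_lit 645401432) (nat_lit 0) (nat_lit 3318859999) (nat_lit 1140) (nat_lit 5517012566) (nat_lit 283) (nat_lit 5) (nat_lit 282) (nat_lit 5) (nat_lit 297) (nat_lit 5) (nat_lit 359) (nat_lit 353) (nat_lit 308))) (XT.nd (nat_lit 78) (nat_lit 0) (nat_lit 0) (XT.lf (nat_lit 0) (nat_lit 6107568990) (nat_lit 1064) (nat_lit 669387502) (nat_lit 1140) (nat_lit 2914272398) (nat_lit 283) (nat_lit 5) (nat_lit 297) (nat_lit 5) (nat_lit 298) (nat_lit 5) (nat_lit 360) (nat_lit 353) (nat_lit 307)) (XT.lf (nat_lit 76) (nat_lit 7964960285) (nat_lit 0) (nat_lit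 418810726) (nat_lit 1140) (nat_lit 1527177163) (nat_lit 284) (nat_lit 5) (nat_lit 283) (nat_lit 5) (nat_lit 298) (nat_lit 5) (nat_lit 361) (nat_lit 353) (nat_lit 306))))))))
noncomputable def xc72 : XT := (XT.nd (nat_lit 1872) (nat_lit 5472) (nat_lit 0) (XT.nd (nat_lit 936) (nat_lit 4560) (nat_lit 0) (XT.nd (nat_lit 468) (nat_lit 2736) (nat_lit 0) (XT.nd (nat_lit 234) (nat_lit 2508) (nat_lit 0) (XT.nd (nat_lit 78) (nat_lit 1064) (nat_lit 0) (XT.lf (nat_lit 0) (nat_lit 673156446) (nat_lit 1140) (nat_lit 3231674999) (nat_lit 1216) (nat_lit 6235074444) (nat_lit 269) (nat_lit 5) (nat_lit 284) (nat_lit 5) (nat_lit 285) (nat_lit 5) (nat_lit 362) (nat_lit 353) (nat_lit 305)) (XT.nd (nat_lit 78) (nat_lit 1140) (nat_lit 0) (XT.lf (nat_lit 0) (nat_lit 2983410862) (nat_lit 1140) (nat_lit 4509751266) (nat_lit 76) (nat_lit 2885785010) (nat_lit 270) (nat_lit 5) (nat_lit 285) (nat_lit 5) (nat_lit 271) (nat_lit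 5) (nat_lit 363) (nat_lit 353) (nat_lit 304)) (XT.lf (nat_lit 0) (nat_lit 4855048762) (nat_lit 1140) (nat_lit 598825940) (nat_lit 1216) (nat_lit 5174757150) (nat_lit 255) (nat_lit 5) (nat_lit 270) (nat_lit 5) (nat_lit 271) (nat_lit 5) (nat_lit 364) (nat_lit 353) (nat_lit 303)))) (XT.nd (nat_lit 78) (nat_lit 1292) (nat_lit 0) (XT.lf (nat_lit 0) (nat_lit 3839439361) (nat_lit 1216) (nat_lit 4284135006) (nat_lit 1292) (nat_lit 2764985823) (nat_lit 239) (nat_lit 5) (nat_lit 255) (nat_lit 5) (nat_lit 256) (nat_lit 5) (nat_lit 365) (nat_lit 353) (nat_lit 302)) (XT.nd (nat_lit 78) (nat_lit 684) (nat_lit 0) (XT.lf (nat_lit 0) (nat_lit 2849874814) (nat_lit 608) (nat_lit 8130051401) (nat_lit 684) (nat_lit 179993014) (nat_lit 231) (nat_lit 5) (nat_lit 239) (nat_lit 5) (nat_lit 240) (nat_lit 5) (nat_lit 366) (nat_lit 353) (nat_lit 301)) (XT.lf (nat_lit 0) (nat_lit 1852325761) (nat_lit 608) (nat_lit 699784569)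 (nat_lit 684) (nat_lit 8890012764) (nat_lit 222) (nat_lit 5) (nat_lit 230) (nat_lit 5) (nat_lit 231) (nat_lit 5) (nat_lit 367) (nat_lit 353) (nat_lit 300))))) (XT.nd (nat_lit 234) (nat_lit 1596) (nat_lit 0) (XT.nd (nat_lit 78) (nat_lit 532) (nat_lit 0) (XT.lf (nat_lit 0) (nat_lit 841993158) (nat_lit 608) (nat_lit 4673491758) (nat_lit 684) (nat_lit 6219972918) (nat_lit 214) (nat_lit 5) (nat_lit 222) (nat_lit 5) (nat_lit 223) (nat_lit 5) (nat_lit 368) (nat_lit 353) (nat_lit 299)) (XT.nd (nat_lit 78) (nat_lit 532) (nat_lit 0) (XT.lf (nat_lit 0) (nat_lit 8702102469) (nat_lit 684) (nat_lit 147162532) (nat_lit 76) (nat_lit 3191966656) (nat_lit 214) (nat_lit 5) (nat_lit 223) (nat_lit 5) (nat_lit 215) (nat_lit 5) (nat_lit 369) (nat_lit 353) (nat_lit 298)) (XT.lf (nat_lit 0) (nat_lit 11247675596) (nat_lit 532) (nat_lit 896679698) (nat_lit 608) (nat_lit 215073150) (nat_lit 207) (nat_lit 5) (nat_lit 214)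 (nat_lit 5) (nat_lit 215) (nat_lit 5) (nat_lit 370) (nat_lit 353) (nat_lit 297)))) (XT.nd (nat_lit 78) (nat_lit 988) (nat_lit 0) (XT.lf (nat_lit 0) (nat_lit 3124781744) (nat_lit 608) (nat_lit 2124741844) (nat_lit 76) (nat_lit 7439566924) (nat_lit 199) (nat_lit 5) (nat_lit 207) (nat_lit 5) (nat_lit 200) (nat_lit 5) (nat_lit 371) (nat_lit 353) (nat_lit 296)) (XT.nd (nat_lit 78) (nat_lit 532) (nat_lit 0) (XT.lf (nat_lit 0) (nat_lit 6719337031) (nat_lit 532) (nat_lit 3129858566) (nat_lit 76) (nat_lit 3183232141) (nat_lit 193) (nat_lit 5) (nat_lit 200) (nat_lit 5) (nat_lit 194) (nat_lit 5) (nat_lit 372) (nat_lit 353) (nat_lit 295)) (XT.lf (nat_lit 0) (nat_lit 9250441024) (nat_lit 532) (nat_lit 1353984264) (nat_lit 608) (nat_lit 2785202011) (nat_lit 186) (nat_lit 5) (nat_lit 193) (nat_lit 5) (nat_lit 194) (nat_lit 5) (nat_lit 373) (nat_lit 353) (nat_lit 294)))))) (XT.nd (nat_lit 468) (nat_lit 1900)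 (nat_lit 0) (XT.nd (nat_lit 234) (nat_lit 1292) (nat_lit 0) (XT.nd (nat_lit 78) (nat_lit 836) (nat_lit 0) (XT.lf (nat_lit 0) (nat_lit 1038991102) (nat_lit 532) (nat_lit 5184858048) (nat_lit 76) (nat_lit 7536455456) (nat_lit 179) (nat_lit 5) (nat_lit 186) (nat_lit 5) (nat_lit 180) (nat_lit 5) (nat_lit 374) (nat_lit 353) (nat_lit 293)) (XT.nd (nat_lit 78) (nat_lit 380) (nat_lit 0) (XT.lf (nat_lit 0) (nat_lit 5107484184) (nat_lit 532) (nat_lit 6256398810) (nat_lit 76) (nat_lit 2781502004) (nat_lit 173) (nat_lit 5) (nat_lit 180) (nat_lit 5) (nat_lit 174) (nat_lit 5) (nat_lit 375) (nat_lit 353) (nat_lit 292)) (XT.lf (nat_lit 0) (nat_lit 7194847025) (nat_lit 380) (nat_lit 2322255420) (nat_lit 456) (nat_lit 5028502412) (nat_lit 168) (nat_lit 5) (nat_lit 173) (nat_lit 5) (nat_lit 174) (nat_lit 5) (nat_lit 376) (nat_lit 353) (nat_lit 291)))) (XT.nd (nat_lit 78) (nat_lit 836) (nat_lit 0) (XT.lf (nat_lit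 0) (nat_lit 6483870947) (nat_lit 456) (nat_lit 7813094020) (nat_lit 532) (nat_lit 664393519) (nat_lit 162) (nat_lit 5) (nat_lit 168) (nat_lit 5) (nat_lit 169) (nat_lit 5) (nat_lit 377) (nat_lit 353) (nat_lit 290)) (XT.nd (nat_lit 78) (nat_lit 380) (nat_lit 0) (XT.lf (nat_lit 0) (nat_lit 3968767570) (nat_lit 456) (nat_lit 9649912397) (nat_lit 76) (nat_lit 1774285498) (nat_lit 156) (nat_lit 5) (nat_lit 162) (nat_lit 5) (nat_lit 157) (nat_lit 5) (nat_lit 378) (nat_lit 353) (nat_lit 289)) (XT.lf (nat_lit 0) (nat_lit 4961266444) (nat_lit 380) (nat_lit 4029557824) (nat_lit 456) (nat_lit 6850015640) (nat_lit 151) (nat_lit 5) (nat_lit 156) (nat_lit 5) (nat_lit 157) (nat_lit 5) (nat_lit 379) (nat_lit 353) (nat_lit 288))))) (XT.nd (nat_lit 234) (nat_lit 760) (nat_lit 0) (XT.nd (nat_lit 78) (nat_lit 760) (nat_lit 0) (XT.lf (nat_lit 0) (nat_lit 4161844146) (nat_lit 380) (nat_lit 10258108071) (nat_lit 456)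 (nat_lit 1886489951) (nat_lit 146) (nat_lit 5) (nat_lit 151) (nat_lit 5) (nat_lit 152) (nat_lit 5) (nat_lit 380) (nat_lit 353) (nat_lit 287)) (XT.nd (nat_lit 78) (nat_lit 304) (nat_lit 0) (XT.lf (nat_lit 0) (nat_lit 3325803277) (nat_lit 380) (nat_lit 78929015) (nat_lit 456) (nat_lit 13385313274) (nat_lit 140) (nat_lit 5) (nat_lit 145) (nat_lit 5) (nat_lit 146) (nat_lit 5) (nat_lit 381) (nat_lit 353) (nat_lit 286)) (XT.lf (nat_lit 0) (nat_lit 2398442751) (nat_lit 304) (nat_lit 6734679913) (nat_lit 380) (nat_lit 8157809031) (nat_lit 136) (nat_lit 5) (nat_lit 140) (nat_lit 5) (nat_lit 141) (nat_lit 5) (nat_lit 382) (nat_lit 353) (nat_lit 285)))) (XT.nd (nat_lit 78) (nat_lit 380) (nat_lit 0) (XT.lf (nat_lit 0) (nat_lit 1456687786) (nat_lit 380) (nat_lit 13844753064) (nat_lit 456) (nat_lit 2510827058) (nat_lit 131) (nat_lit 5) (nat_lit 136) (nat_lit 5) (nat_lit 137) (nat_lit 5) (nat_lit 383) (nat_lit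 353) (nat_lit 284)) (XT.nd (nat_lit 78) (nat_lit 0) (nat_lit 0) (XT.lf (nat_lit 0) (nat_lit 431374584) (nat_lit 304) (nat_lit 3109526752) (nat_lit 380) (nat_lit 14812120830) (nat_lit 126) (nat_lit 5) (nat_lit 130) (nat_lit 5) (nat_lit 131) (nat_lit 5) (nat_lit 384) (nat_lit 353) (nat_lit 283)) (XT.lf (nat_lit 0) (nat_lit 10055569235) (nat_lit 380) (nat_lit 675324518) (nat_lit 76) (nat_lit 8182815879) (nat_lit 126) (nat_lit 5) (nat_lit 131) (nat_lit 5) (nat_lit 127) (nat_lit 5) (nat_lit 385) (nat_lit 353) (nat_lit 282))))))) (XT.nd (nat_lit 936) (nat_lit 2204) (nat_lit 0) (XT.nd (nat_lit 468) (nat_lit 1444) (nat_lit 0) (XT.nd (nat_lit 234) (nat_lit 836) (nat_lit 0) (XT.nd (nat_lit 78) (nat_lit 684) (nat_lit 0) (XT.lf (nat_lit 0) (nat_lit 17068604543) (nat_lit 380) (nat_lit 1807289257) (nat_lit 76) (nat_lit 621367900) (nat_lit 122) (nat_lit 5) (nat_lit 127) (nat_lit 5) (nat_lit 123) (nat_lit 5)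 (nat_lit 386) (nat_lit 353) (nat_lit 281)) (XT.nd (nat_lit 78) (nat_lit 304) (nat_lit 0) (XT.lf (nat_lit 0) (nat_lit 4485705962) (nat_lit 380) (nat_lit 3094798095) (nat_lit 76) (nat_lit 12520816927) (nat_lit 117) (nat_lit 5) (nat_lit 122) (nat_lit 5) (nat_lit 118) (nat_lit 5) (nat_lit 387) (nat_lit 353) (nat_lit 280)) (XT.lf (nat_lit 0) (nat_lit 11881432124) (nat_lit 380) (nat_lit 4465881735) (nat_lit 76) (nat_lit 4381979938) (nat_lit 113) (nat_lit 5) (nat_lit 118) (nat_lit 5) (nat_lit 114) (nat_lit 5) (nat_lit 388) (nat_lit 353) (nat_lit 279)))) (XT.nd (nat_lit 78) (nat_lit 608) (nat_lit 0) (XT.lf (nat_lit 0) (nat_lit 15441977726) (nat_lit 228) (nat_lit 4429944974) (nat_lit 304) (nat_lit 1510000964) (nat_lit 110) (nat_lit 5) (nat_lit 113) (nat_lit 5) (nat_lit 114) (nat_lit 5) (nat_lit 389) (nat_lit 353) (nat_lit 278)) (XT.nd (nat_lit 78) (nat_lit 228) (nat_lit 0) (XT.lf (nat_lit 0) (nat_lit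 6308732748) (nat_lit 380) (nat_lit 7592341519) (nat_lit 76) (nat_lit 8157285638) (nat_lit 105) (nat_lit 5) (nat_lit 110) (nat_lit 5) (nat_lit 106) (nat_lit 5) (nat_lit 390) (nat_lit 353) (nat_lit 277)) (XT.lf (nat_lit 0) (nat_lit 13402985493) (nat_lit 228) (nat_lit 1289279283) (nat_lit 304) (nat_lit 8069758776) (nat_lit 102) (nat_lit 5) (nat_lit 105) (nat_lit 5) (nat_lit 106) (nat_lit 5) (nat_lit 391) (nat_lit 353) (nat_lit 276))))) (XT.nd (nat_lit 234) (nat_lit 684) (nat_lit 0) (XT.nd (nat_lit 78) (nat_lit 456) (nat_lit 0) (XT.lf (nat_lit 0) (nat_lit 278285877) (nat_lit 304) (nat_lit 11311876459) (nat_lit 76) (nat_lit 11902194028) (nat_lit 98) (nat_lit 5) (nat_lit 102) (nat_lit 5) (nat_lit 99) (nat_lit 5) (nat_lit 392) (nat_lit 353) (nat_lit 275)) (XT.nd (nat_lit 78) (nat_lit 228) (nat_lit 0) (XT.lf (nat_lit 0) (nat_lit 9080339895) (nat_lit 304) (nat_lit 13462506935) (nat_lit 76) (nat_lit 1707862979)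 (nat_lit 95) (nat_lit 5) (nat_lit 99) (nat_lit 5) (nat_lit 96) (nat_lit 5) (nat_lit 393) (nat_lit 353) (nat_lit 274)) (XT.lf (nat_lit 0) (nat_lit 9202031847) (nat_lit 228) (nat_lit 9415315597) (nat_lit 304) (nat_lit 6420793686) (nat_lit 92) (nat_lit 5) (nat_lit 95) (nat_lit 5) (nat_lit 96) (nat_lit 5) (nat_lit 394) (nat_lit 353) (nat_lit 273)))) (XT.nd (nat_lit 78) (nat_lit 380) (nat_lit 0) (XT.lf (nat_lit 0) (nat_lit 2940918279) (nat_lit 304) (nat_lit 18409030639) (nat_lit 76) (nat_lit 4507343568) (nat_lit 88) (nat_lit 5) (nat_lit 92) (nat_lit 5) (nat_lit 89) (nat_lit 5) (nat_lit 395) (nat_lit 353) (nat_lit 272)) (XT.nd (nat_lit 78) (nat_lit 152) (nat_lit 0) (XT.lf (nat_lit 0) (nat_lit 5415303748) (nat_lit 228) (nat_lit 7508759925) (nat_lit 304) (nat_lit 13782851423) (nat_lit 85) (nat_lit 5) (nat_lit 88) (nat_lit 5) (nat_lit 89) (nat_lit 5) (nat_lit 396) (nat_lit 353) (nat_lit 271)) (XT.lf (nat_lit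 0) (nat_lit 3171157494) (nat_lit 152) (nat_lit 20498483996) (nat_lit 228) (nat_lit 3921483897) (nat_lit 83) (nat_lit 5) (nat_lit 85) (nat_lit 5) (nat_lit 86) (nat_lit 5) (nat_lit 397) (nat_lit 353) (nat_lit 270)))))) (XT.nd (nat_lit 468) (nat_lit 1064) (nat_lit 0) (XT.nd (nat_lit 234) (nat_lit 684) (nat_lit 0) (XT.nd (nat_lit 78) (nat_lit 152) (nat_lit 0) (XT.lf (nat_lit 0) (nat_lit 618496285) (nat_lit 228) (nat_lit 5966476734) (nat_lit 304) (nat_lit 21924395959) (nat_lit 79) (nat_lit 5) (nat_lit 82) (nat_lit 5) (nat_lit 83) (nat_lit 5) (nat_lit 398) (nat_lit 353) (nat_lit 269)) (XT.nd (nat_lit 78) (nat_lit 152) (nat_lit 0) (XT.lf (nat_lit 0) (nat_lit 17854720527) (nat_lit 304) (nat_lit 2220345305) (nat_lit 76) (nat_lit 9387726249) (nat_lit 79) (nat_lit 5) (nat_lit 83) (nat_lit 5) (nat_lit 80) (nat_lit 5) (nat_lit 399) (nat_lit 353) (nat_lit 268)) (XT.lf (nat_lit 0) (nat_lit 25123586516) (nat_lit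 152) (nat_lit 4842401398) (nat_lit 228) (nat_lit 489561479) (nat_lit 77) (nat_lit 5) (nat_lit 79) (nat_lit 5) (nat_lit 80) (nat_lit 5) (nat_lit 400) (nat_lit 353) (nat_lit 267)))) (XT.nd (nat_lit 78) (nat_lit 380) (nat_lit 0) (XT.lf (nat_lit 0) (nat_lit 11295030307) (nat_lit 304) (nat_lit 8919479901) (nat_lit 76) (nat_lit 11270360212) (nat_lit 73) (nat_lit 5) (nat_lit 77) (nat_lit 5) (nat_lit 74) (nat_lit 5) (nat_lit 401) (nat_lit 353) (nat_lit 266)) (XT.nd (nat_lit 78) (nat_lit 228) (nat_lit 0) (XT.lf (nat_lit 0) (nat_lit 19696146762) (nat_lit 152) (nat_lit 4233724888) (nat_lit 228) (nat_lit 8627509636) (nat_lit 71) (nat_lit 5) (nat_lit 73) (nat_lit 5) (nat_lit 74) (nat_lit 5) (nat_lit 402) (nat_lit 353) (nat_lit 265)) (XT.lf (nat_lit 0) (nat_lit 3796870106) (nat_lit 228) (nat_lit 17301662657) (nat_lit 76) (nat_lit 12573400674) (nat_lit 68) (nat_lit 5) (nat_lit 71) (nat_lit 5) (nat_lit 69) (nat_lit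 5) (nat_lit 403) (nat_lit 353) (nat_lit 264))))) (XT.nd (nat_lit 234) (nat_lit 532) (nat_lit 0) (XT.nd (nat_lit 78) (nat_lit 380) (nat_lit 0) (XT.lf (nat_lit 0) (nat_lit 12570456929) (nat_lit 152) (nat_lit 4370963328) (nat_lit 228) (nat_lit 17889911991) (nat_lit 66) (nat_lit 5) (nat_lit 68) (nat_lit 5) (nat_lit 69) (nat_lit 5) (nat_lit 404) (nat_lit 353) (nat_lit 263)) (XT.nd (nat_lit 78) (nat_lit 228) (nat_lit 0) (XT.lf (nat_lit 0) (nat_lit 8249790157) (nat_lit 152) (nat_lit 22858372595) (nat_lit 228) (nat_lit 4929592278) (nat_lit 64) (nat_lit 5) (nat_lit 66) (nat_lit 5) (nat_lit 67) (nat_lit 5) (nat_lit 405) (nat_lit 353) (nat_lit 262)) (XT.lf (nat_lit 0) (nat_lit 3352824743) (nat_lit 152) (nat_lit 5443763032) (nat_lit 228) (nat_lit 28496795228) (nat_lit 61) (nat_lit 5) (nat_lit 63) (nat_lit 5) (nat_lit 64) (nat_lit 5) (nat_lit 406) (nat_lit 353) (nat_lit 261)))) (XT.nd (nat_lit 156) (nat_lit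 380) (nat_lit 0) (XT.nd (nat_lit 78) (nat_lit 152) (nat_lit 0) (XT.lf (nat_lit 0) (nat_lit 23500317939) (nat_lit 228) (nat_lit 2183651243) (nat_lit 76) (nat_lit 12914565799) (nat_lit 61) (nat_lit 5) (nat_lit 64) (nat_lit 5) (nat_lit 62) (nat_lit 5) (nat_lit 407) (nat_lit 353) (nat_lit 260)) (XT.lf (nat_lit 0) (nat_lit 31690502075) (nat_lit 152) (nat_lit 7589181520) (nat_lit 228) (nat_lit 679049990) (nat_lit 59) (nat_lit 5) (nat_lit 61) (nat_lit 5) (nat_lit 62) (nat_lit 5) (nat_lit 408) (nat_lit 353) (nat_lit 259))) (XT.nd (nat_lit 78) (nat_lit 152) (nat_lit 0) (XT.lf (nat_lit 0) (nat_lit 14548915474) (nat_lit 228) (nat_lit 15231299952) (nat_lit 76) (nat_lit 11591457907) (nat_lit 56) (nat_lit 5) (nat_lit 59) (nat_lit 5) (nat_lit 57) (nat_lit 5) (nat_lit 409) (nat_lit 353) (nat_lit 258)) (XT.lf (nat_lit 0) (nat_lit 19859826270) (nat_lit 152) (nat_lit 10999724102) (nat_lit 228) (nat_lit 11985450749)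 (nat_lit 54) (nat_lit 5) (nat_lit 56) (nat_lit 5) (nat_lit 57) (nat_lit 5) (nat_lit 410) (nat_lit 353) (nat_lit 257))))))))
noncomputable def xc73 : XT := (XT.nd (nat_lit 48672) (nat_lit 0) (nat_lit 10412) (XT.nd (nat_lit 936) (nat_lit 988) (nat_lit 0) (XT.nd (nat_lit 468) (nat_lit 608) (nat_lit 0) (XT.nd (nat_lit 234) (nat_lit 380) (nat_lit 0) (XT.nd (nat_lit 78) (nat_lit 152) (nat_lit 0) (XT.lf (nat_lit 0) (nat_lit 3874077205) (nat_lit 152) (nat_lit 31651636173) (nat_lit 76) (nat_lit 8854733142) (nat_lit 52) (nat_lit 5) (nat_lit 54) (nat_lit 5) (nat_lit 53) (nat_lit 5) (nat_lit 411) (nat_lit 353) (nat_lit 256)) (XT.nd (nat_lit 78) (nat_lit 0) (nat_lit 0) (XT.lf (nat_lit 0) (nat_lit 4545845663) (nat_lit 152) (nat_lit 16111361963) (nat_lit 228) (nat_lit 25320543356) (nat_lit 50) (nat_lit 5) (nat_lit 52) (nat_lit 5) (nat_lit 53) (nat_lit 5) (nat_lit 412) (nat_lit 353) (nat_lit 255)) (XT.lf (nat_lit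 0) (nat_lit 38632553616) (nat_lit 228) (nat_lit 4506065161) (nat_lit 76) (nat_lit 4505711962) (nat_lit 50) (nat_lit 5) (nat_lit 53) (nat_lit 5) (nat_lit 51) (nat_lit 4) (nat_lit 413) (nat_lit 353) (nat_lit 254)))) (XT.nd (nat_lit 78) (nat_lit 228) (nat_lit 0) (XT.lf (nat_lit 0) (nat_lit 8439290266) (nat_lit 152) (nat_lit 14710734388) (nat_lit 76) (nat_lit 26227322120) (nat_lit 48) (nat_lit 5) (nat_lit 50) (nat_lit 5) (nat_lit 49) (nat_lit 5) (nat_lit 414) (nat_lit 353) (nat_lit 253)) (XT.nd (nat_lit 78) (nat_lit 76) (nat_lit 0) (XT.lf (nat_lit 0) (nat_lit 25064937627) (nat_lit 152) (nat_lit 1785191068) (nat_lit 228) (nat_lit 24336001922) (nat_lit 46) (nat_lit 5) (nat_lit 48) (nat_lit 5) (nat_lit 49) (nat_lit 5) (nat_lit 415) (nat_lit 353) (nat_lit 252)) (XT.lf (nat_lit 0) (nat_lit 14102484242) (nat_lit 76) (nat_lit 32550438726) (nat_lit 152) (nat_lit 6418289813) (nat_lit 45) (nat_lit 5) (nat_lit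 46) (nat_lit 5) (nat_lit 47) (nat_lit 4) (nat_lit 416) (nat_lit 353) (nat_lit 251))))) (XT.nd (nat_lit 234) (nat_lit 304) (nat_lit 0) (XT.nd (nat_lit 78) (nat_lit 76) (nat_lit 0) (XT.lf (nat_lit 0) (nat_lit 1705975246) (nat_lit 152) (nat_lit 10738190511) (nat_lit 228) (nat_lit 42594088139) (nat_lit 42) (nat_lit 5) (nat_lit 44) (nat_lit 5) (nat_lit 45) (nat_lit 5) (nat_lit 417) (nat_lit 353) (nat_lit 250)) (XT.nd (nat_lit 78) (nat_lit 76) (nat_lit 0) (XT.lf (nat_lit 0) (nat_lit 32625394491) (nat_lit 228) (nat_lit 12076270672) (nat_lit 76) (nat_lit 12384825126) (nat_lit 42) (nat_lit 5) (nat_lit 45) (nat_lit 5) (nat_lit 43) (nat_lit 4) (nat_lit 418) (nat_lit 353) (nat_lit 249)) (XT.lf (nat_lit 0) (nat_lit 31726863036) (nat_lit 76) (nat_lit 22487994076) (nat_lit 152) (nat_lit 5010307514) (nat_lit 41) (nat_lit 5) (nat_lit 42) (nat_lit 5) (nat_lit 43) (nat_lit 4) (nat_lit 419) (nat_lit 353) (nat_lit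 248)))) (XT.nd (nat_lit 78) (nat_lit 76) (nat_lit 0) (XT.lf (nat_lit 0) (nat_lit 15396223809) (nat_lit 228) (nat_lit 44815233082) (nat_lit 76) (nat_lit 1246353191) (nat_lit 38) (nat_lit 5) (nat_lit 41) (nat_lit 5) (nat_lit 39) (nat_lit 4) (nat_lit 420) (nat_lit 353) (nat_lit 247)) (XT.nd (nat_lit 78) (nat_lit 76) (nat_lit 0) (XT.lf (nat_lit 0) (nat_lit 37219684635) (nat_lit 228) (nat_lit 534280317) (nat_lit 76) (nat_lit 26031629079) (nat_lit 38) (nat_lit 5) (nat_lit 41) (nat_lit 5) (nat_lit 39) (nat_lit 4) (nat_lit 421) (nat_lit 353) (nat_lit 246)) (XT.lf (nat_lit 0) (nat_lit 46850690497) (nat_lit 76) (nat_lit 13721042960) (nat_lit 152) (nat_lit 5644912357) (nat_lit 37) (nat_lit 5) (nat_lit 38) (nat_lit 5) (nat_lit 39) (nat_lit 4) (nat_lit 422) (nat_lit 353) (nat_lit 245)))))) (XT.nd (nat_lit 468) (nat_lit 456) (nat_lit 0) (XT.nd (nat_lit 234) (nat_lit 228) (nat_lit 0) (XT.nd (nat_lit 78) (nat_lit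 76) (nat_lit 0) (XT.lf (nat_lit 0) (nat_lit 16382606749) (nat_lit 228) (nat_lit 40654647307) (nat_lit 76) (nat_lit 11715920911) (nat_lit 34) (nat_lit 5) (nat_lit 37) (nat_lit 5) (nat_lit 35) (nat_lit 4) (nat_lit 423) (nat_lit 353) (nat_lit 244)) (XT.nd (nat_lit 78) (nat_lit 0) (nat_lit 0) (XT.lf (nat_lit 0) (nat_lit 6843073837) (nat_lit 76) (nat_lit 32945965856) (nat_lit 152) (nat_lit 31613986635) (nat_lit 33) (nat_lit 5) (nat_lit 34) (nat_lit 5) (nat_lit 35) (nat_lit 4) (nat_lit 424) (nat_lit 353) (nat_lit 243)) (XT.lf (nat_lit 0) (nat_lit 57542517784) (nat_lit 76) (nat_lit 7229751501) (nat_lit 152) (nat_lit 9400907633) (nat_lit 33) (nat_lit 5) (nat_lit 34) (nat_lit 5) (nat_lit 35) (nat_lit 4) (nat_lit 425) (nat_lit 353) (nat_lit 242)))) (XT.nd (nat_lit 78) (nat_lit 76) (nat_lit 0) (XT.lf (nat_lit 0) (nat_lit 14162933042) (nat_lit 152) (nat_lit 43055959226) (nat_lit 76) (nat_lit 19843574807)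 (nat_lit 31) (nat_lit 5) (nat_lit 33) (nat_lit 5) (nat_lit 32) (nat_lit 4) (nat_lit 426) (nat_lit 353) (nat_lit 241)) (XT.nd (nat_lit 78) (nat_lit 0) (nat_lit 0) (XT.lf (nat_lit 0) (nat_lit 7385046953) (nat_lit 76) (nat_lit 31632835321) (nat_lit 152) (nat_lit 41066327668) (nat_lit 30) (nat_lit 5) (nat_lit 31) (nat_lit 5) (nat_lit 32) (nat_lit 4) (nat_lit 427) (nat_lit 353) (nat_lit 240)) (XT.lf (nat_lit 0) (nat_lit 61226973472) (nat_lit 76) (nat_lit 4320847158) (nat_lit 152) (nat_lit 17696252837) (nat_lit 30) (nat_lit 5) (nat_lit 31) (nat_lit 5) (nat_lit 32) (nat_lit 4) (nat_lit 428) (nat_lit 353) (nat_lit 239))))) (XT.nd (nat_lit 234) (nat_lit 228) (nat_lit 0) (XT.nd (nat_lit 78) (nat_lit 76) (nat_lit 0) (XT.lf (nat_lit 0) (nat_lit 7240987575) (nat_lit 152) (nat_lit 55056417851) (nat_lit 76) (nat_lit 24246586863) (nat_lit 28) (nat_lit 5) (nat_lit 30) (nat_lit 5) (nat_lit 29) (nat_lit 4) (nat_lit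 429) (nat_lit 353) (nat_lit 238)) (XT.nd (nat_lit 78) (nat_lit 76) (nat_lit 0) (XT.lf (nat_lit 0) (nat_lit 33324672044) (nat_lit 152) (nat_lit 2118733386) (nat_lit 76) (nat_lit 54552278953) (nat_lit 28) (nat_lit 5) (nat_lit 30) (nat_lit 5) (nat_lit 29) (nat_lit 4) (nat_lit 430) (nat_lit 353) (nat_lit 237)) (XT.lf (nat_lit 0) (nat_lit 54510742893) (nat_lit 76) (nat_lit 6715944211) (nat_lit 152) (nat_lit 32377850228) (nat_lit 27) (nat_lit 5) (nat_lit 28) (nat_lit 5) (nat_lit 29) (nat_lit 4) (nat_lit 431) (nat_lit 353) (nat_lit 236)))) (XT.nd (nat_lit 78) (nat_lit 152) (nat_lit 0) (XT.lf (nat_lit 0) (nat_lit 16704688797) (nat_lit 76) (nat_lit 74217477101) (nat_lit 76) (nat_lit 6459716752) (nat_lit 26) (nat_lit 4) (nat_lit 27) (nat_lit 5) (nat_lit 27) (nat_lit 4) (nat_lit 432) (nat_lit 353) (nat_lit 235)) (XT.nd (nat_lit 156) (nat_lit 76) (nat_lit 0) (XT.lf (nat_lit 0) (nat_lit 20814096796) (nat_lit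 152) (nat_lit 25515371527) (nat_lit 76) (nat_lit 54998699427) (nat_lit 25) (nat_lit 5) (nat_lit 27) (nat_lit 5) (nat_lit 26) (nat_lit 4) (nat_lit 433) (nat_lit 353) (nat_lit 234)) (XT.lf (nat_lit 0) (nat_lit 80276567335) (nat_lit 152) (nat_lit 15047222840) (nat_lit 0) (nat_lit 14463940665) (nat_lit 24) (nat_lit 5) (nat_lit 26) (nat_lit 4) (nat_lit 24) (nat_lit 4) (nat_lit 435) (nat_lit 353) (nat_lit 232))))))) (XT.nd (nat_lit 936) (nat_lit 7144) (nat_lit 0) (XT.nd (nat_lit 468) (nat_lit 1900) (nat_lit 0) (XT.nd (nat_lit 234) (nat_lit 988) (nat_lit 0) (XT.nd (nat_lit 78) (nat_lit 0) (nat_lit 0) (XT.lf (nat_lit 0) (nat_lit 1234614113) (nat_lit 0) (nat_lit 1234614113) (nat_lit 988) (nat_lit 1894887424) (nat_lit 293) (nat_lit 5) (nat_lit 293) (nat_lit 3) (nat_lit 306) (nat_lit 3) (nat_lit 354) (nat_lit 354) (nat_lit 312)) (XT.nd (nat_lit 78) (nat_lit 0) (nat_lit 0) (XT.lf (nat_lit 76) (nat_lit 761786319)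 (nat_lit 0) (nat_lit 5904324863) (nat_lit 1064) (nat_lit 2231446753) (nat_lit 294) (nat_lit 5) (nat_lit 293) (nat_lit 5) (nat_lit 307) (nat_lit 5) (nat_lit 355) (nat_lit 354) (nat_lit 311)) (XT.lf (nat_lit 76) (nat_lit 8184208623) (nat_lit 0) (nat_lit 284659021) (nat_lit 1064) (nat_lit 606869909) (nat_lit 294) (nat_lit 5) (nat_lit 293) (nat_lit 5) (nat_lit 307) (nat_lit 5) (nat_lit 356) (nat_lit 354) (nat_lit 310)))) (XT.nd (nat_lit 78) (nat_lit 0) (nat_lit 76) (XT.lf (nat_lit 0) (nat_lit 1101231152) (nat_lit 1064) (nat_lit 2536065074) (nat_lit 1140) (nat_lit 5624545420) (nat_lit 280) (nat_lit 5) (nat_lit 294) (nat_lit 5) (nat_lit 295) (nat_lit 5) (nat_lit 357) (nat_lit 354) (nat_lit 309)) (XT.nd (nat_lit 78) (nat_lit 0) (nat_lit 0) (XT.lf (nat_lit 0) (nat_lit 2877258881) (nat_lit 1064) (nat_lit 4157102780) (nat_lit 1140) (nat_lit 2422899311) (nat_lit 281) (nat_lit 5) (nat_lit 295) (nat_lit 5)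 (nat_lit 296) (nat_lit 5) (nat_lit 358) (nat_lit 354) (nat_lit 308)) (XT.lf (nat_lit 76) (nat_lit 3901475038) (nat_lit 0) (nat_lit 853263792) (nat_lit 1140) (nat_lit 4907373354) (nat_lit 282) (nat_lit 5) (nat_lit 281) (nat_lit 5) (nat_lit 296) (nat_lit 5) (nat_lit 359) (nat_lit 354) (nat_lit 307))))) (XT.nd (nat_lit 234) (nat_lit 988) (nat_lit 0) (XT.nd (nat_lit 78) (nat_lit 1064) (nat_lit 0) (XT.lf (nat_lit 76) (nat_lit 2509888851) (nat_lit 0) (nat_lit 4253732422) (nat_lit 1140) (nat_lit 3112497347) (nat_lit 283) (nat_lit 5) (nat_lit 282) (nat_lit 5) (nat_lit 297) (nat_lit 5) (nat_lit 360) (nat_lit 354) (nat_lit 306)) (XT.nd (nat_lit 78) (nat_lit 1140) (nat_lit 0) (XT.lf (nat_lit 76) (nat_lit 1146979921) (nat_lit 0) (nat_lit 7747236182) (nat_lit 1140) (nat_lit 1206007912) (nat_lit 284) (nat_lit 5) (nat_lit 283) (nat_lit 5) (nat_lit 298) (nat_lit 5) (nat_lit 361) (nat_lit 354) (nat_lit 305))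 (XT.lf (nat_lit 0) (nat_lit 821946077) (nat_lit 1140) (nat_lit 204109320) (nat_lit 1216) (nat_lit 9308033634) (nat_lit 268) (nat_lit 5) (nat_lit 283) (nat_lit 5) (nat_lit 284) (nat_lit 5) (nat_lit 362) (nat_lit 354) (nat_lit 304)))) (XT.nd (nat_lit 78) (nat_lit 1064) (nat_lit 0) (XT.lf (nat_lit 0) (nat_lit 2998971511) (nat_lit 1140) (nat_lit 1546809305) (nat_lit 1216) (nat_lit 6031362092) (nat_lit 269) (nat_lit 5) (nat_lit 284) (nat_lit 5) (nat_lit 285) (nat_lit 5) (nat_lit 363) (nat_lit 354) (nat_lit 303)) (XT.nd (nat_lit 78) (nat_lit 1140) (nat_lit 0) (XT.lf (nat_lit 0) (nat_lit 5328919028) (nat_lit 1140) (nat_lit 2870854123) (nat_lit 76) (nat_lit 2631284969) (nat_lit 270) (nat_lit 5) (nat_lit 285) (nat_lit 5) (nat_lit 271) (nat_lit 5) (nat_lit 364) (nat_lit 354) (nat_lit 302)) (XT.lf (nat_lit 0) (nat_lit 6908743693) (nat_lit 1140) (nat_lit 926982749) (nat_lit 1216) (nat_lit 3260161076) (nat_lit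 255) (nat_lit 5) (nat_lit 270) (nat_lit 5) (nat_lit 271) (nat_lit 5) (nat_lit 365) (nat_lit 354) (nat_lit 301)))))) (XT.nd (nat_lit 468) (nat_lit 2888) (nat_lit 0) (XT.nd (nat_lit 234) (nat_lit 1748) (nat_lit 0) (XT.nd (nat_lit 78) (nat_lit 1292) (nat_lit 0) (XT.lf (nat_lit 0) (nat_lit 5855564315) (nat_lit 1216) (nat_lit 4697715430) (nat_lit 1292) (nat_lit 818144381) (nat_lit 239) (nat_lit 5) (nat_lit 255) (nat_lit 5) (nat_lit 256) (nat_lit 5) (nat_lit 366) (nat_lit 354) (nat_lit 300)) (XT.nd (nat_lit 78) (nat_lit 608) (nat_lit 0) (XT.lf (nat_lit 0) (nat_lit 1777701992) (nat_lit 684) (nat_lit 6850343722) (nat_lit 76) (nat_lit 3030240182) (nat_lit 230) (nat_lit 5) (nat_lit 239) (nat_lit 5) (nat_lit 231) (nat_lit 5) (nat_lit 367) (nat_lit 354) (nat_lit 299)) (XT.lf (nat_lit 0) (nat_lit 3764628012) (nat_lit 608) (nat_lit 802109989) (nat_lit 684) (nat_lit 7390124779) (nat_lit 222) (nat_lit 5) (nat_lit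 230) (nat_lit 5) (nat_lit 231) (nat_lit 5) (nat_lit 368) (nat_lit 354) (nat_lit 298)))) (XT.nd (nat_lit 78) (nat_lit 1140) (nat_lit 0) (XT.lf (nat_lit 0) (nat_lit 2707968640) (nat_lit 608) (nat_lit 4897370235) (nat_lit 684) (nat_lit 4661749646) (nat_lit 214) (nat_lit 5) (nat_lit 222) (nat_lit 5) (nat_lit 223) (nat_lit 5) (nat_lit 369) (nat_lit 354) (nat_lit 297)) (XT.nd (nat_lit 78) (nat_lit 608) (nat_lit 0) (XT.lf (nat_lit 0) (nat_lit 1667468964) (nat_lit 532) (nat_lit 9213552006) (nat_lit 608) (nat_lit 1709272332) (nat_lit 207) (nat_lit 5) (nat_lit 214) (nat_lit 5) (nat_lit 215) (nat_lit 5) (nat_lit 370) (nat_lit 354) (nat_lit 296)) (XT.lf (nat_lit 0) (nat_lit 619124213) (nat_lit 532) (nat_lit 844722239) (nat_lit 608) (nat_lit 11462426665) (nat_lit 199) (nat_lit 5) (nat_lit 206) (nat_lit 5) (nat_lit 207) (nat_lit 5) (nat_lit 371) (nat_lit 354) (nat_lit 295))))) (XT.nd (nat_lit 234) (nat_lit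 1900) (nat_lit 0) (XT.nd (nat_lit 78) (nat_lit 988) (nat_lit 0) (XT.lf (nat_lit 0) (nat_lit 4897930176) (nat_lit 608) (nat_lit 461500231) (nat_lit 76) (nat_lit 7915003658) (nat_lit 199) (nat_lit 5) (nat_lit 207) (nat_lit 5) (nat_lit 200) (nat_lit 5) (nat_lit 372) (nat_lit 354) (nat_lit 294)) (XT.nd (nat_lit 78) (nat_lit 532) (nat_lit 0) (XT.lf (nat_lit 0) (nat_lit 8613299622) (nat_lit 532) (nat_lit 1521886869) (nat_lit 76) (nat_lit 3501547818) (nat_lit 193) (nat_lit 5) (nat_lit 200) (nat_lit 5) (nat_lit 194) (nat_lit 5) (nat_lit 373) (nat_lit 354) (nat_lit 293)) (XT.lf (nat_lit 0) (nat_lit 11426849677) (nat_lit 532) (nat_lit 1208077268) (nat_lit 608) (nat_lit 1378625741) (nat_lit 186) (nat_lit 5) (nat_lit 193) (nat_lit 5) (nat_lit 194) (nat_lit 5) (nat_lit 374) (nat_lit 354) (nat_lit 292)))) (XT.nd (nat_lit 156) (nat_lit 912) (nat_lit 0) (XT.nd (nat_lit 78) (nat_lit 456) (nat_lit 0) (XT.lf (nat_lit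 0) (nat_lit 2552983583) (nat_lit 532) (nat_lit 3707483071) (nat_lit 76) (nat_lit 8143485591) (nat_lit 179) (nat_lit 5) (nat_lit 186) (nat_lit 5) (nat_lit 180) (nat_lit 5) (nat_lit 375) (nat_lit 354) (nat_lit 291)) (XT.lf (nat_lit 0) (nat_lit 6774169389) (nat_lit 532) (nat_lit 4842313620) (nat_lit 76) (nat_lit 3193349717) (nat_lit 173) (nat_lit 5) (nat_lit 180) (nat_lit 5) (nat_lit 174) (nat_lit 5) (nat_lit 376) (nat_lit 354) (nat_lit 290))) (XT.nd (nat_lit 78) (nat_lit 532) (nat_lit 0) (XT.lf (nat_lit 0) (nat_lit 9231993118) (nat_lit 380) (nat_lit 2121194390) (nat_lit 456) (nat_lit 3878431463) (nat_lit 168) (nat_lit 5) (nat_lit 173) (nat_lit 5) (nat_lit 174) (nat_lit 5) (nat_lit 377) (nat_lit 354) (nat_lit 289)) (XT.lf (nat_lit 0) (nat_lit 643821879) (nat_lit 532) (nat_lit 7201362072) (nat_lit 76) (nat_lit 7824184347) (nat_lit 161) (nat_lit 5) (nat_lit 168) (nat_lit 5) (nat_lit 162) (nat_lit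 5) (nat_lit 378) (nat_lit 354) (nat_lit 288))))))))
noncomputable def xc74 : XT := (XT.nd (nat_lit 1872) (nat_lit 3192) (nat_lit 0) (XT.nd (nat_lit 936) (nat_lit 2812) (nat_lit 0) (XT.nd (nat_lit 468) (nat_lit 1596) (nat_lit 0) (XT.nd (nat_lit 234) (nat_lit 1140) (nat_lit 0) (XT.nd (nat_lit 78) (nat_lit 760) (nat_lit 0) (XT.lf (nat_lit 0) (nat_lit 5451111239) (nat_lit 456) (nat_lit 8452337882) (nat_lit 76) (nat_lit 2220243054) (nat_lit 156) (nat_lit 5) (nat_lit 162) (nat_lit 5) (nat_lit 157) (nat_lit 5) (nat_lit 379) (nat_lit 354) (nat_lit 287)) (XT.nd (nat_lit 78) (nat_lit 380) (nat_lit 0) (XT.lf (nat_lit 0) (nat_lit 6841241027) (nat_lit 380) (nat_lit 3837578326) (nat_lit 456) (nat_lit 5916523786) (nat_lit 151) (nat_lit 5) (nat_lit 156) (nat_lit 5) (nat_lit 157) (nat_lit 5) (nat_lit 380) (nat_lit 354) (nat_lit 286)) (XT.lf (nat_lit 0) (nat_lit 5987858190) (nat_lit 380) (nat_lit 10351726021)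 (nat_lit 456) (nat_lit 745854227) (nat_lit 146) (nat_lit 5) (nat_lit 151) (nat_lit 5) (nat_lit 152) (nat_lit 5) (nat_lit 381) (nat_lit 354) (nat_lit 285)))) (XT.nd (nat_lit 78) (nat_lit 684) (nat_lit 0) (XT.lf (nat_lit 0) (nat_lit 4746811150) (nat_lit 456) (nat_lit 12510066694) (nat_lit 76) (nat_lit 337175568) (nat_lit 140) (nat_lit 5) (nat_lit 146) (nat_lit 5) (nat_lit 141) (nat_lit 5) (nat_lit 382) (nat_lit 354) (nat_lit 284)) (XT.nd (nat_lit 78) (nat_lit 380) (nat_lit 0) (XT.lf (nat_lit 0) (nat_lit 4098330042) (nat_lit 304) (nat_lit 6623435292) (nat_lit 380) (nat_lit 7399430335) (nat_lit 136) (nat_lit 5) (nat_lit 140) (nat_lit 5) (nat_lit 141) (nat_lit 5) (nat_lit 383) (nat_lit 354) (nat_lit 283)) (XT.lf (nat_lit 0) (nat_lit 3093315044) (nat_lit 380) (nat_lit 14070413583) (nat_lit 456) (nat_lit 1505928571) (nat_lit 131) (nat_lit 5) (nat_lit 136) (nat_lit 5) (nat_lit 137) (nat_lit 5) (nat_lit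 384) (nat_lit 354) (nat_lit 282))))) (XT.nd (nat_lit 234) (nat_lit 912) (nat_lit 0) (XT.nd (nat_lit 78) (nat_lit 304) (nat_lit 0) (XT.lf (nat_lit 0) (nat_lit 1993627121) (nat_lit 304) (nat_lit 2794730121) (nat_lit 380) (nat_lit 14449919257) (nat_lit 126) (nat_lit 5) (nat_lit 130) (nat_lit 5) (nat_lit 131) (nat_lit 5) (nat_lit 385) (nat_lit 354) (nat_lit 281)) (XT.nd (nat_lit 78) (nat_lit 0) (nat_lit 0) (XT.lf (nat_lit 0) (nat_lit 800394532) (nat_lit 304) (nat_lit 10789391228) (nat_lit 380) (nat_lit 8238395307) (nat_lit 122) (nat_lit 5) (nat_lit 126) (nat_lit 5) (nat_lit 127) (nat_lit 5) (nat_lit 386) (nat_lit 354) (nat_lit 280)) (XT.lf (nat_lit 0) (nat_lit 18915419576) (nat_lit 380) (nat_lit 421124136) (nat_lit 76) (nat_lit 1105521525) (nat_lit 122) (nat_lit 5) (nat_lit 127) (nat_lit 5) (nat_lit 123) (nat_lit 5) (nat_lit 387) (nat_lit 354) (nat_lit 279)))) (XT.nd (nat_lit 78) (nat_lit 532) (nat_lit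 0) (XT.lf (nat_lit 0) (nat_lit 5679603045) (nat_lit 380) (nat_lit 1795797102) (nat_lit 76) (nat_lit 13601659971) (nat_lit 117) (nat_lit 5) (nat_lit 122) (nat_lit 5) (nat_lit 118) (nat_lit 5) (nat_lit 388) (nat_lit 354) (nat_lit 278)) (XT.nd (nat_lit 78) (nat_lit 228) (nat_lit 0) (XT.lf (nat_lit 0) (nat_lit 13417083734) (nat_lit 380) (nat_lit 3253335041) (nat_lit 76) (nat_lit 5066865111) (nat_lit 113) (nat_lit 5) (nat_lit 118) (nat_lit 5) (nat_lit 114) (nat_lit 5) (nat_lit 389) (nat_lit 354) (nat_lit 277)) (XT.lf (nat_lit 0) (nat_lit 17608759305) (nat_lit 228) (nat_lit 4166908934) (nat_lit 304) (nat_lit 647830743) (nat_lit 110) (nat_lit 5) (nat_lit 113) (nat_lit 5) (nat_lit 114) (nat_lit 5) (nat_lit 390) (nat_lit 354) (nat_lit 276)))))) (XT.nd (nat_lit 468) (nat_lit 1140) (nat_lit 0) (XT.nd (nat_lit 234) (nat_lit 760) (nat_lit 0) (XT.nd (nat_lit 78) (nat_lit 532) (nat_lit 0) (XT.lf (nat_lit 0)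 (nat_lit 7517609194) (nat_lit 380) (nat_lit 6577065057) (nat_lit 76) (nat_lit 9039600380) (nat_lit 105) (nat_lit 5) (nat_lit 110) (nat_lit 5) (nat_lit 106) (nat_lit 5) (nat_lit 391) (nat_lit 354) (nat_lit 275)) (XT.nd (nat_lit 78) (nat_lit 304) (nat_lit 0) (XT.lf (nat_lit 0) (nat_lit 15428043963) (nat_lit 228) (nat_lit 862753323) (nat_lit 304) (nat_lit 7583219317) (nat_lit 102) (nat_lit 5) (nat_lit 105) (nat_lit 5) (nat_lit 106) (nat_lit 5) (nat_lit 392) (nat_lit 354) (nat_lit 274)) (XT.lf (nat_lit 0) (nat_lit 1140821973) (nat_lit 304) (nat_lit 10523558524) (nat_lit 76) (nat_lit 12976958842) (nat_lit 98) (nat_lit 5) (nat_lit 102) (nat_lit 5) (nat_lit 99) (nat_lit 5) (nat_lit 393) (nat_lit 354) (nat_lit 273)))) (XT.nd (nat_lit 78) (nat_lit 532) (nat_lit 0) (XT.lf (nat_lit 0) (nat_lit 10359960723) (nat_lit 304) (nat_lit 12800487776) (nat_lit 76) (nat_lit 2277860886) (nat_lit 95) (nat_lit 5) (nat_lit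 99) (nat_lit 5) (nat_lit 96) (nat_lit 5) (nat_lit 394) (nat_lit 354) (nat_lit 272)) (XT.nd (nat_lit 78) (nat_lit 304) (nat_lit 0) (XT.lf (nat_lit 0) (nat_lit 10959006296) (nat_lit 228) (nat_lit 9387964221) (nat_lit 304) (nat_lit 5918955191) (nat_lit 92) (nat_lit 5) (nat_lit 95) (nat_lit 5) (nat_lit 96) (nat_lit 5) (nat_lit 395) (nat_lit 354) (nat_lit 271)) (XT.lf (nat_lit 0) (nat_lit 3873381557) (nat_lit 304) (nat_lit 18035224743) (nat_lit 76) (nat_lit 5217840524) (nat_lit 88) (nat_lit 5) (nat_lit 92) (nat_lit 5) (nat_lit 89) (nat_lit 5) (nat_lit 396) (nat_lit 354) (nat_lit 270))))) (XT.nd (nat_lit 234) (nat_lit 456) (nat_lit 0) (XT.nd (nat_lit 78) (nat_lit 456) (nat_lit 0) (XT.lf (nat_lit 0) (nat_lit 6943226734) (nat_lit 228) (nat_lit 7387141229) (nat_lit 304) (nat_lit 13688949125) (nat_lit 85) (nat_lit 5) (nat_lit 88) (nat_lit 5) (nat_lit 89) (nat_lit 5) (nat_lit 397) (nat_lit 354) (nat_lit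 269)) (XT.nd (nat_lit 78) (nat_lit 304) (nat_lit 0) (XT.lf (nat_lit 0) (nat_lit 4568482024) (nat_lit 152) (nat_lit 21025005628) (nat_lit 228) (nat_lit 3354849054) (nat_lit 83) (nat_lit 5) (nat_lit 85) (nat_lit 5) (nat_lit 86) (nat_lit 5) (nat_lit 398) (nat_lit 354) (nat_lit 268)) (XT.lf (nat_lit 0) (nat_lit 1867261728) (nat_lit 228) (nat_lit 5770881655) (nat_lit 304) (nat_lit 22274852466) (nat_lit 79) (nat_lit 5) (nat_lit 82) (nat_lit 5) (nat_lit 83) (nat_lit 5) (nat_lit 399) (nat_lit 354) (nat_lit 267)))) (XT.nd (nat_lit 78) (nat_lit 456) (nat_lit 0) (XT.lf (nat_lit 0) (nat_lit 19441427565) (nat_lit 304) (nat_lit 1155234611) (nat_lit 76) (nat_lit 10318332351) (nat_lit 79) (nat_lit 5) (nat_lit 83) (nat_lit 5) (nat_lit 80) (nat_lit 5) (nat_lit 400) (nat_lit 354) (nat_lit 266)) (XT.nd (nat_lit 78) (nat_lit 228) (nat_lit 0) (XT.lf (nat_lit 0) (nat_lit 174660321) (nat_lit 228) (nat_lit 4437589294)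 (nat_lit 76) (nat_lit 27345756281) (nat_lit 76) (nat_lit 5) (nat_lit 79) (nat_lit 5) (nat_lit 77) (nat_lit 5) (nat_lit 401) (nat_lit 354) (nat_lit 265)) (XT.lf (nat_lit 0) (nat_lit 12521404343) (nat_lit 304) (nat_lit 8227219563) (nat_lit 76) (nat_lit 12290537424) (nat_lit 73) (nat_lit 5) (nat_lit 77) (nat_lit 5) (nat_lit 74) (nat_lit 5) (nat_lit 402) (nat_lit 354) (nat_lit 264))))))) (XT.nd (nat_lit 936) (nat_lit 1444) (nat_lit 0) (XT.nd (nat_lit 468) (nat_lit 836) (nat_lit 0) (XT.nd (nat_lit 234) (nat_lit 380) (nat_lit 0) (XT.nd (nat_lit 78) (nat_lit 380) (nat_lit 0) (XT.lf (nat_lit 0) (nat_lit 21786561175) (nat_lit 152) (nat_lit 3980548516) (nat_lit 228) (nat_lit 8398819340) (nat_lit 71) (nat_lit 5) (nat_lit 73) (nat_lit 5) (nat_lit 74) (nat_lit 5) (nat_lit 403) (nat_lit 354) (nat_lit 263)) (XT.nd (nat_lit 78) (nat_lit 152) (nat_lit 0) (XT.lf (nat_lit 0) (nat_lit 4617944055) (nat_lit 228) (nat_lit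 17065749446) (nat_lit 76) (nat_lit 13652808168) (nat_lit 68) (nat_lit 5) (nat_lit 71) (nat_lit 5) (nat_lit 69) (nat_lit 5) (nat_lit 404) (nat_lit 354) (nat_lit 262)) (XT.lf (nat_lit 0) (nat_lit 14268416280) (nat_lit 152) (nat_lit 4131526919) (nat_lit 228) (nat_lit 18154524934) (nat_lit 66) (nat_lit 5) (nat_lit 68) (nat_lit 5) (nat_lit 69) (nat_lit 5) (nat_lit 405) (nat_lit 354) (nat_lit 261)))) (XT.nd (nat_lit 78) (nat_lit 228) (nat_lit 0) (XT.lf (nat_lit 0) (nat_lit 9714687167) (nat_lit 152) (nat_lit 23545528066) (nat_lit 228) (nat_lit 4561445200) (nat_lit 64) (nat_lit 5) (nat_lit 66) (nat_lit 5) (nat_lit 67) (nat_lit 5) (nat_lit 406) (nat_lit 354) (nat_lit 260)) (XT.nd (nat_lit 78) (nat_lit 0) (nat_lit 0) (XT.lf (nat_lit 0) (nat_lit 4554434508) (nat_lit 152) (nat_lit 5265858090) (nat_lit 228) (nat_lit 29320166530) (nat_lit 61) (nat_lit 5) (nat_lit 63) (nat_lit 5) (nat_lit 64) (nat_lit 5) (nat_lit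 407) (nat_lit 354) (nat_lit 259)) (XT.lf (nat_lit 0) (nat_lit 25235526222) (nat_lit 228) (nat_lit 1295467155) (nat_lit 76) (nat_lit 13980589476) (nat_lit 61) (nat_lit 5) (nat_lit 64) (nat_lit 5) (nat_lit 62) (nat_lit 5) (nat_lit 408) (nat_lit 354) (nat_lit 258))))) (XT.nd (nat_lit 234) (nat_lit 304) (nat_lit 0) (XT.nd (nat_lit 78) (nat_lit 380) (nat_lit 0) (XT.lf (nat_lit 0) (nat_lit 34243804514) (nat_lit 152) (nat_lit 7542692298) (nat_lit 228) (nat_lit 153818956) (nat_lit 59) (nat_lit 5) (nat_lit 61) (nat_lit 5) (nat_lit 62) (nat_lit 5) (nat_lit 409) (nat_lit 354) (nat_lit 257)) (XT.nd (nat_lit 78) (nat_lit 152) (nat_lit 0) (XT.lf (nat_lit 0) (nat_lit 15811713729) (nat_lit 228) (nat_lit 15029229890) (nat_lit 76) (nat_lit 12583188428) (nat_lit 56) (nat_lit 5) (nat_lit 59) (nat_lit 5) (nat_lit 57) (nat_lit 5) (nat_lit 410) (nat_lit 354) (nat_lit 256)) (XT.lf (nat_lit 0) (nat_lit 21788830237) (nat_lit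 152) (nat_lit 11132554685) (nat_lit 228) (nat_lit 12050239231) (nat_lit 54) (nat_lit 5) (nat_lit 56) (nat_lit 5) (nat_lit 57) (nat_lit 5) (nat_lit 411) (nat_lit 354) (nat_lit 255)))) (XT.nd (nat_lit 78) (nat_lit 152) (nat_lit 0) (XT.lf (nat_lit 0) (nat_lit 4579672947) (nat_lit 152) (nat_lit 32303507531) (nat_lit 76) (nat_lit 9700874919) (nat_lit 52) (nat_lit 5) (nat_lit 54) (nat_lit 5) (nat_lit 53) (nat_lit 5) (nat_lit 412) (nat_lit 354) (nat_lit 254)) (XT.nd (nat_lit 78) (nat_lit 0) (nat_lit 0) (XT.lf (nat_lit 0) (nat_lit 5677169768) (nat_lit 152) (nat_lit 16509104425) (nat_lit 228) (nat_lit 26075424160) (nat_lit 50) (nat_lit 5) (nat_lit 52) (nat_lit 5) (nat_lit 53) (nat_lit 5) (nat_lit 413) (nat_lit 354) (nat_lit 253)) (XT.lf (nat_lit 0) (nat_lit 41040492206) (nat_lit 228) (nat_lit 3859890580) (nat_lit 76) (nat_lit 5111823741) (nat_lit 50) (nat_lit 5) (nat_lit 53) (nat_lit 5) (nat_lit 51) (nat_lit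 4) (nat_lit 414) (nat_lit 354) (nat_lit 252)))))) (XT.nd (nat_lit 468) (nat_lit 760) (nat_lit 0) (XT.nd (nat_lit 234) (nat_lit 304) (nat_lit 0) (XT.nd (nat_lit 78) (nat_lit 228) (nat_lit 0) (XT.lf (nat_lit 0) (nat_lit 9327641227) (nat_lit 152) (nat_lit 14590444455) (nat_lit 76) (nat_lit 27914089291) (nat_lit 48) (nat_lit 5) (nat_lit 50) (nat_lit 5) (nat_lit 49) (nat_lit 5) (nat_lit 415) (nat_lit 354) (nat_lit 251)) (XT.nd (nat_lit 78) (nat_lit 76) (nat_lit 0) (XT.lf (nat_lit 0) (nat_lit 27149479062) (nat_lit 152) (nat_lit 1495324550) (nat_lit 228) (nat_lit 25087023200) (nat_lit 46) (nat_lit 5) (nat_lit 48) (nat_lit 5) (nat_lit 49) (nat_lit 5) (nat_lit 416) (nat_lit 354) (nat_lit 250)) (XT.lf (nat_lit 0) (nat_lit 15624754389) (nat_lit 76) (nat_lit 33802777132) (nat_lit 152) (nat_lit 6283939901) (nat_lit 45) (nat_lit 5) (nat_lit 46) (nat_lit 5) (nat_lit 47) (nat_lit 4) (nat_lit 417) (nat_lit 354)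 (nat_lit 249)))) (XT.nd (nat_lit 78) (nat_lit 76) (nat_lit 0) (XT.lf (nat_lit 0) (nat_lit 2593666483) (nat_lit 152) (nat_lit 10905544986) (nat_lit 228) (nat_lit 44277930122) (nat_lit 42) (nat_lit 5) (nat_lit 44) (nat_lit 5) (nat_lit 45) (nat_lit 5) (nat_lit 418) (nat_lit 354) (nat_lit 248)) (XT.nd (nat_lit 78) (nat_lit 76) (nat_lit 0) (XT.lf (nat_lit 0) (nat_lit 34672273563) (nat_lit 228) (nat_lit 11906879363) (nat_lit 76) (nat_lit 13349155621) (nat_lit 42) (nat_lit 5) (nat_lit 45) (nat_lit 5) (nat_lit 43) (nat_lit 4) (nat_lit 419) (nat_lit 354) (nat_lit 247)) (XT.lf (nat_lit 0) (nat_lit 34064247269) (nat_lit 76) (nat_lit 23264390591) (nat_lit 152) (nat_lit 4845657692) (nat_lit 41) (nat_lit 5) (nat_lit 42) (nat_lit 5) (nat_lit 43) (nat_lit 4) (nat_lit 420) (nat_lit 354) (nat_lit 246))))) (XT.nd (nat_lit 234) (nat_lit 456) (nat_lit 0) (XT.nd (nat_lit 78) (nat_lit 76) (nat_lit 0) (XT.lf (nat_lit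 0) (nat_lit 16564097068) (nat_lit 228) (nat_lit 46309996089) (nat_lit 76) (nat_lit 1644632125) (nat_lit 38) (nat_lit 5) (nat_lit 41) (nat_lit 5) (nat_lit 39) (nat_lit 4) (nat_lit 421) (nat_lit 354) (nat_lit 245)) (XT.nd (nat_lit 78) (nat_lit 0) (nat_lit 0) (XT.lf (nat_lit 0) (nat_lit 152455525) (nat_lit 76) (nat_lit 39308785568) (nat_lit 152) (nat_lit 27502183622) (nat_lit 37) (nat_lit 5) (nat_lit 38) (nat_lit 5) (nat_lit 39) (nat_lit 4) (nat_lit 422) (nat_lit 354) (nat_lit 244)) (XT.lf (nat_lit 0) (nat_lit 49883334304) (nat_lit 76) (nat_lit 14084673608) (nat_lit 152) (nat_lit 5548409225) (nat_lit 37) (nat_lit 5) (nat_lit 38) (nat_lit 5) (nat_lit 39) (nat_lit 4) (nat_lit 423) (nat_lit 354) (nat_lit 243)))) (XT.nd (nat_lit 156) (nat_lit 152) (nat_lit 0) (XT.nd (nat_lit 78) (nat_lit 76) (nat_lit 0) (XT.lf (nat_lit 0) (nat_lit 17564974791) (nat_lit 228) (nat_lit 42002061608) (nat_lit 76) (nat_lit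 12612872136) (nat_lit 34) (nat_lit 5) (nat_lit 37) (nat_lit 5) (nat_lit 35) (nat_lit 4) (nat_lit 424) (nat_lit 354) (nat_lit 242)) (XT.lf (nat_lit 0) (nat_lit 7850901087) (nat_lit 76) (nat_lit 34279930123) (nat_lit 152) (nat_lit 32831749535) (nat_lit 33) (nat_lit 5) (nat_lit 34) (nat_lit 5) (nat_lit 35) (nat_lit 4) (nat_lit 425) (nat_lit 354) (nat_lit 241))) (XT.nd (nat_lit 78) (nat_lit 152) (nat_lit 0) (XT.lf (nat_lit 0) (nat_lit 61053618491) (nat_lit 76) (nat_lit 7292825718) (nat_lit 152) (nat_lit 9525299271) (nat_lit 33) (nat_lit 5) (nat_lit 34) (nat_lit 5) (nat_lit 35) (nat_lit 4) (nat_lit 426) (nat_lit 354) (nat_lit 240)) (XT.lf (nat_lit 0) (nat_lit 15202655149) (nat_lit 152) (nat_lit 44579315920) (nat_lit 76) (nat_lit 21123648572) (nat_lit 31) (nat_lit 5) (nat_lit 33) (nat_lit 5) (nat_lit 32) (nat_lit 4) (nat_lit 427) (nat_lit 354) (nat_lit 239))))))))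
noncomputable def xc75 : XT := (XT.nd (nat_lit 48828) (nat_lit 0) (nat_lit 4864) (XT.nd (nat_lit 47814) (nat_lit 0) (nat_lit 13300) (XT.nd (nat_lit 546) (nat_lit 152) (nat_lit 0) (XT.nd (nat_lit 234) (nat_lit 152) (nat_lit 0) (XT.nd (nat_lit 78) (nat_lit 152) (nat_lit 0) (XT.lf (nat_lit 0) (nat_lit 8365697760) (nat_lit 76) (nat_lit 32924741911) (nat_lit 152) (nat_lit 42788308466) (nat_lit 30) (nat_lit 5) (nat_lit 31) (nat_lit 5) (nat_lit 32) (nat_lit 4) (nat_lit 428) (nat_lit 354) (nat_lit 238)) (XT.nd (nat_lit 78) (nat_lit 152) (nat_lit 0) (XT.lf (nat_lit 0) (nat_lit 64870606393) (nat_lit 76) (nat_lit 4260951254) (nat_lit 152) (nat_lit 18265507778) (nat_lit 30) (nat_lit 5) (nat_lit 31) (nat_lit 5) (nat_lit 32) (nat_lit 4) (nat_lit 429) (nat_lit 354) (nat_lit 237)) (XT.lf (nat_lit 0) (nat_lit 7905807350) (nat_lit 152) (nat_lit 57231228896) (nat_lit 76) (nat_lit 25725052818) (nat_lit 28) (nat_lit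 5) (nat_lit 30) (nat_lit 5) (nat_lit 29) (nat_lit 4) (nat_lit 430) (nat_lit 354) (nat_lit 236)))) (XT.nd (nat_lit 78) (nat_lit 152) (nat_lit 0) (XT.lf (nat_lit 0) (nat_lit 35279258404) (nat_lit 152) (nat_lit 1674184486) (nat_lit 76) (nat_lit 57533356341) (nat_lit 28) (nat_lit 5) (nat_lit 30) (nat_lit 5) (nat_lit 29) (nat_lit 4) (nat_lit 431) (nat_lit 354) (nat_lit 235)) (XT.nd (nat_lit 78) (nat_lit 76) (nat_lit 0) (XT.lf (nat_lit 0) (nat_lit 57770986049) (nat_lit 76) (nat_lit 6796797006) (nat_lit 152) (nat_lit 33708570402) (nat_lit 27) (nat_lit 5) (nat_lit 28) (nat_lit 5) (nat_lit 29) (nat_lit 4) (nat_lit 432) (nat_lit 354) (nat_lit 234)) (XT.lf (nat_lit 0) (nat_lit 18065091225) (nat_lit 76) (nat_lit 77677004802) (nat_lit 76) (nat_lit 6500649058) (nat_lit 26) (nat_lit 4) (nat_lit 27) (nat_lit 5) (nat_lit 27) (nat_lit 4) (nat_lit 433) (nat_lit 354) (nat_lit 233))))) (XT.nd (nat_lit 47034) (nat_lit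 0) (nat_lit 19380) (XT.nd (nat_lit 46878) (nat_lit 0) (nat_lit 19380) (XT.lf (nat_lit 0) (nat_lit 35104558485) (nat_lit 76) (nat_lit 17259493771) (nat_lit 152) (nat_lit 58361869662) (nat_lit 24) (nat_lit 5) (nat_lit 25) (nat_lit 5) (nat_lit 26) (nat_lit 4) (nat_lit 435) (nat_lit 354) (nat_lit 231)) (XT.nd (nat_lit 78) (nat_lit 1064) (nat_lit 0) (XT.lf (nat_lit 0) (nat_lit 2067905993) (nat_lit 0) (nat_lit 2067905993) (nat_lit 988) (nat_lit 399474188) (nat_lit 293) (nat_lit 5) (nat_lit 293) (nat_lit 3) (nat_lit 306) (nat_lit 3) (nat_lit 355) (nat_lit 355) (nat_lit 310)) (XT.lf (nat_lit 0) (nat_lit 673779940) (nat_lit 1064) (nat_lit 6854864673) (nat_lit 1140) (nat_lit 1723963139) (nat_lit 279) (nat_lit 5) (nat_lit 293) (nat_lit 5) (nat_lit 294) (nat_lit 5) (nat_lit 356) (nat_lit 355) (nat_lit 309)))) (XT.nd (nat_lit 78) (nat_lit 0) (nat_lit 76) (XT.lf (nat_lit 76) (nat_lit 668952622) (nat_lit 0)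 (nat_lit 1542297054) (nat_lit 1140) (nat_lit 7232071548) (nat_lit 280) (nat_lit 5) (nat_lit 279) (nat_lit 5) (nat_lit 294) (nat_lit 5) (nat_lit 357) (nat_lit 355) (nat_lit 308)) (XT.nd (nat_lit 78) (nat_lit 0) (nat_lit 76) (XT.lf (nat_lit 0) (nat_lit 3854716284) (nat_lit 1064) (nat_lit 1028674915) (nat_lit 1140) (nat_lit 4759345914) (nat_lit 280) (nat_lit 5) (nat_lit 294) (nat_lit 5) (nat_lit 295) (nat_lit 5) (nat_lit 358) (nat_lit 355) (nat_lit 307)) (XT.lf (nat_lit 0) (nat_lit 5596715802) (nat_lit 1064) (nat_lit 2689276274) (nat_lit 1140) (nat_lit 1565679452) (nat_lit 281) (nat_lit 5) (nat_lit 295) (nat_lit 5) (nat_lit 296) (nat_lit 5) (nat_lit 359) (nat_lit 355) (nat_lit 306)))))) (XT.nd (nat_lit 468) (nat_lit 5244) (nat_lit 0) (XT.nd (nat_lit 234) (nat_lit 0) (nat_lit 0) (XT.nd (nat_lit 78) (nat_lit 988) (nat_lit 0) (XT.lf (nat_lit 76) (nat_lit 5724197357) (nat_lit 0) (nat_lit 1736871013)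 (nat_lit 1140) (nat_lit 2608963385) (nat_lit 282) (nat_lit 5) (nat_lit 281) (nat_lit 5) (nat_lit 296) (nat_lit 5) (nat_lit 360) (nat_lit 355) (nat_lit 305)) (XT.nd (nat_lit 78) (nat_lit 1064) (nat_lit 0) (XT.lf (nat_lit 76) (nat_lit 4297258439) (nat_lit 0) (nat_lit 5163860697) (nat_lit 1140) (nat_lit 836951378) (nat_lit 283) (nat_lit 5) (nat_lit 282) (nat_lit 5) (nat_lit 297) (nat_lit 5) (nat_lit 361) (nat_lit 355) (nat_lit 304)) (XT.lf (nat_lit 0) (nat_lit 1038584153) (nat_lit 1140) (nat_lit 7651815869) (nat_lit 1216) (nat_lit 1845801344) (nat_lit 268) (nat_lit 5) (nat_lit 283) (nat_lit 5) (nat_lit 284) (nat_lit 5) (nat_lit 362) (nat_lit 355) (nat_lit 303)))) (XT.nd (nat_lit 78) (nat_lit 0) (nat_lit 76) (XT.lf (nat_lit 76) (nat_lit 1468549426) (nat_lit 0) (nat_lit 1580212669) (nat_lit 1216) (nat_lit 7735513580) (nat_lit 269) (nat_lit 5) (nat_lit 268) (nat_lit 5) (nat_lit 284) (nat_lit 5) (nat_lit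 363) (nat_lit 355) (nat_lit 302)) (XT.nd (nat_lit 78) (nat_lit 0) (nat_lit 76) (XT.lf (nat_lit 76) (nat_lit 51642028) (nat_lit 0) (nat_lit 5176828662) (nat_lit 1216) (nat_lit 5814241659) (nat_lit 270) (nat_lit 5) (nat_lit 269) (nat_lit 5) (nat_lit 285) (nat_lit 5) (nat_lit 364) (nat_lit 355) (nat_lit 301)) (XT.lf (nat_lit 0) (nat_lit 7587507949) (nat_lit 1140) (nat_lit 1323344941) (nat_lit 76) (nat_lit 2401135574) (nat_lit 270) (nat_lit 5) (nat_lit 285) (nat_lit 5) (nat_lit 271) (nat_lit 5) (nat_lit 365) (nat_lit 355) (nat_lit 300))))) (XT.nd (nat_lit 234) (nat_lit 2356) (nat_lit 0) (XT.nd (nat_lit 78) (nat_lit 1900) (nat_lit 0) (XT.lf (nat_lit 0) (nat_lit 8896759104) (nat_lit 1140) (nat_lit 1243822146) (nat_lit 1216) (nat_lit 1451891187) (nat_lit 255) (nat_lit 5) (nat_lit 270) (nat_lit 5) (nat_lit 271) (nat_lit 5) (nat_lit 366) (nat_lit 355) (nat_lit 299)) (XT.nd (nat_lit 78) (nat_lit 608) (nat_lit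 0) (XT.lf (nat_lit 0) (nat_lit 1012045469) (nat_lit 1292) (nat_lit 4091173856) (nat_lit 76) (nat_lit 6780637918) (nat_lit 238) (nat_lit 5) (nat_lit 255) (nat_lit 5) (nat_lit 239) (nat_lit 5) (nat_lit 367) (nat_lit 355) (nat_lit 298)) (XT.lf (nat_lit 0) (nat_lit 3647092062) (nat_lit 684) (nat_lit 5493644398) (nat_lit 76) (nat_lit 3046328766) (nat_lit 230) (nat_lit 5) (nat_lit 239) (nat_lit 5) (nat_lit 231) (nat_lit 5) (nat_lit 368) (nat_lit 355) (nat_lit 297)))) (XT.nd (nat_lit 156) (nat_lit 1140) (nat_lit 0) (XT.nd (nat_lit 78) (nat_lit 608) (nat_lit 0) (XT.lf (nat_lit 0) (nat_lit 5603368222) (nat_lit 608) (nat_lit 903291399) (nat_lit 684) (nat_lit 5996013219) (nat_lit 222) (nat_lit 5) (nat_lit 230) (nat_lit 5) (nat_lit 231) (nat_lit 5) (nat_lit 369) (nat_lit 355) (nat_lit 296)) (XT.lf (nat_lit 0) (nat_lit 4497676209) (nat_lit 608) (nat_lit 5133353385) (nat_lit 684) (nat_lit 3199397747) (nat_lit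 214) (nat_lit 5) (nat_lit 222) (nat_lit 5) (nat_lit 223) (nat_lit 5) (nat_lit 370) (nat_lit 355) (nat_lit 295))) (XT.nd (nat_lit 78) (nat_lit 608) (nat_lit 0) (XT.lf (nat_lit 0) (nat_lit 3406230066) (nat_lit 532) (nat_lit 9601906159) (nat_lit 608) (nat_lit 163558014) (nat_lit 207) (nat_lit 5) (nat_lit 214) (nat_lit 5) (nat_lit 215) (nat_lit 5) (nat_lit 371) (nat_lit 355) (nat_lit 294)) (XT.lf (nat_lit 0) (nat_lit 2289520862) (nat_lit 532) (nat_lit 786465577) (nat_lit 608) (nat_lit 10449856959) (nat_lit 199) (nat_lit 5) (nat_lit 206) (nat_lit 5) (nat_lit 207) (nat_lit 5) (nat_lit 372) (nat_lit 355) (nat_lit 293))))))) (XT.nd (nat_lit 936) (nat_lit 3648) (nat_lit 0) (XT.nd (nat_lit 468) (nat_lit 2432) (nat_lit 0) (XT.nd (nat_lit 234) (nat_lit 1368) (nat_lit 0) (XT.nd (nat_lit 78) (nat_lit 532) (nat_lit 0) (XT.lf (nat_lit 0) (nat_lit 1142692142) (nat_lit 456) (nat_lit 5477703238) (nat_lit 532) (nat_lit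 7272885761) (nat_lit 193) (nat_lit 5) (nat_lit 199) (nat_lit 5) (nat_lit 200) (nat_lit 5) (nat_lit 373) (nat_lit 355) (nat_lit 292)) (XT.nd (nat_lit 78) (nat_lit 0) (nat_lit 0) (XT.lf (nat_lit 0) (nat_lit 2488782) (nat_lit 532) (nat_lit 10454647808) (nat_lit 608) (nat_lit 3818517783) (nat_lit 186) (nat_lit 5) (nat_lit 193) (nat_lit 5) (nat_lit 194) (nat_lit 5) (nat_lit 374) (nat_lit 355) (nat_lit 291)) (XT.lf (nat_lit 0) (nat_lit 13552737831) (nat_lit 532) (nat_lit 1074734003) (nat_lit 608) (nat_lit 45437871) (nat_lit 186) (nat_lit 5) (nat_lit 193) (nat_lit 5) (nat_lit 194) (nat_lit 5) (nat_lit 375) (nat_lit 355) (nat_lit 290)))) (XT.nd (nat_lit 78) (nat_lit 836) (nat_lit 0) (XT.lf (nat_lit 0) (nat_lit 4006748795) (nat_lit 532) (nat_lit 2317693615) (nat_lit 76) (nat_lit 8759464735) (nat_lit 179) (nat_lit 5) (nat_lit 186) (nat_lit 5) (nat_lit 180) (nat_lit 5) (nat_lit 376) (nat_lit 355) (nat_lit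 289)) (XT.nd (nat_lit 78) (nat_lit 380) (nat_lit 0) (XT.lf (nat_lit 0) (nat_lit 8392978534) (nat_lit 532) (nat_lit 3518075441) (nat_lit 76) (nat_lit 3600430004) (nat_lit 173) (nat_lit 5) (nat_lit 180) (nat_lit 5) (nat_lit 174) (nat_lit 5) (nat_lit 377) (nat_lit 355) (nat_lit 288)) (XT.lf (nat_lit 0) (nat_lit 11215047416) (nat_lit 380) (nat_lit 1939568121) (nat_lit 456) (nat_lit 2801154786) (nat_lit 168) (nat_lit 5) (nat_lit 173) (nat_lit 5) (nat_lit 174) (nat_lit 5) (nat_lit 378) (nat_lit 355) (nat_lit 287))))) (XT.nd (nat_lit 234) (nat_lit 1140) (nat_lit 0) (XT.nd (nat_lit 78) (nat_lit 760) (nat_lit 0) (XT.lf (nat_lit 0) (nat_lit 1880386787) (nat_lit 532) (nat_lit 6025562639) (nat_lit 76) (nat_lit 8510370927) (nat_lit 161) (nat_lit 5) (nat_lit 168) (nat_lit 5) (nat_lit 162) (nat_lit 5) (nat_lit 379) (nat_lit 355) (nat_lit 286)) (XT.nd (nat_lit 78) (nat_lit 380) (nat_lit 0) (XT.lf (nat_lit 0)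 (nat_lit 6888206747) (nat_lit 456) (nat_lit 7351081638) (nat_lit 76) (nat_lit 2655285394) (nat_lit 156) (nat_lit 5) (nat_lit 162) (nat_lit 5) (nat_lit 157) (nat_lit 5) (nat_lit 380) (nat_lit 355) (nat_lit 285)) (XT.lf (nat_lit 0) (nat_lit 8663494700) (nat_lit 380) (nat_lit 3672579792) (nat_lit 456) (nat_lit 5054987040) (nat_lit 151) (nat_lit 5) (nat_lit 156) (nat_lit 5) (nat_lit 157) (nat_lit 5) (nat_lit 381) (nat_lit 355) (nat_lit 284)))) (XT.nd (nat_lit 78) (nat_lit 684) (nat_lit 0) (XT.lf (nat_lit 0) (nat_lit 330422334) (nat_lit 456) (nat_lit 10155247290) (nat_lit 76) (nat_lit 7420994947) (nat_lit 145) (nat_lit 5) (nat_lit 151) (nat_lit 5) (nat_lit 146) (nat_lit 5) (nat_lit 382) (nat_lit 355) (nat_lit 283)) (XT.nd (nat_lit 78) (nat_lit 304) (nat_lit 0) (XT.lf (nat_lit 0) (nat_lit 6047769751) (nat_lit 456) (nat_lit 11660203988) (nat_lit 76) (nat_lit 733566170) (nat_lit 140) (nat_lit 5) (nat_lit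 146) (nat_lit 5) (nat_lit 141) (nat_lit 5) (nat_lit 383) (nat_lit 355) (nat_lit 282)) (XT.lf (nat_lit 0) (nat_lit 5736321513) (nat_lit 304) (nat_lit 6548277245) (nat_lit 380) (nat_lit 6711561356) (nat_lit 136) (nat_lit 5) (nat_lit 140) (nat_lit 5) (nat_lit 141) (nat_lit 5) (nat_lit 384) (nat_lit 355) (nat_lit 281)))))) (XT.nd (nat_lit 468) (nat_lit 1900) (nat_lit 0) (XT.nd (nat_lit 234) (nat_lit 684) (nat_lit 0) (XT.nd (nat_lit 78) (nat_lit 684) (nat_lit 0) (XT.lf (nat_lit 0) (nat_lit 4666387027) (nat_lit 380) (nat_lit 14350735048) (nat_lit 456) (nat_lit 555882741) (nat_lit 131) (nat_lit 5) (nat_lit 136) (nat_lit 5) (nat_lit 137) (nat_lit 5) (nat_lit 385) (nat_lit 355) (nat_lit 280)) (XT.nd (nat_lit 78) (nat_lit 304) (nat_lit 0) (XT.lf (nat_lit 0) (nat_lit 3490754109) (nat_lit 304) (nat_lit 2507915181) (nat_lit 380) (nat_lit 14172136204) (nat_lit 126) (nat_lit 5) (nat_lit 130) (nat_lit 5) (nat_lit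 131) (nat_lit 5) (nat_lit 386) (nat_lit 355) (nat_lit 279)) (XT.lf (nat_lit 0) (nat_lit 2222362172) (nat_lit 304) (nat_lit 10888763157) (nat_lit 380) (nat_lit 7679963565) (nat_lit 122) (nat_lit 5) (nat_lit 126) (nat_lit 5) (nat_lit 127) (nat_lit 5) (nat_lit 387) (nat_lit 355) (nat_lit 278)))) (XT.nd (nat_lit 78) (nat_lit 380) (nat_lit 0) (XT.lf (nat_lit 0) (nat_lit 914929077) (nat_lit 304) (nat_lit 19856085639) (nat_lit 380) (nat_lit 665625041) (nat_lit 118) (nat_lit 5) (nat_lit 122) (nat_lit 5) (nat_lit 123) (nat_lit 5) (nat_lit 388) (nat_lit 355) (nat_lit 277)) (XT.nd (nat_lit 78) (nat_lit 304) (nat_lit 0) (XT.lf (nat_lit 0) (nat_lit 6843049669) (nat_lit 380) (nat_lit 567001109) (nat_lit 76) (nat_lit 14694261970) (nat_lit 117) (nat_lit 5) (nat_lit 122) (nat_lit 5) (nat_lit 118) (nat_lit 5) (nat_lit 389) (nat_lit 355) (nat_lit 276)) (XT.lf (nat_lit 0) (nat_lit 14941978741) (nat_lit 380) (nat_lit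 2113651878) (nat_lit 76) (nat_lit 5742690158) (nat_lit 113) (nat_lit 5) (nat_lit 118) (nat_lit 5) (nat_lit 114) (nat_lit 5) (nat_lit 390) (nat_lit 355) (nat_lit 275))))) (XT.nd (nat_lit 234) (nat_lit 1064) (nat_lit 0) (XT.nd (nat_lit 78) (nat_lit 532) (nat_lit 0) (XT.lf (nat_lit 0) (nat_lit 166949667) (nat_lit 304) (nat_lit 3767132872) (nat_lit 76) (nat_lit 19585580054) (nat_lit 109) (nat_lit 5) (nat_lit 113) (nat_lit 5) (nat_lit 110) (nat_lit 5) (nat_lit 391) (nat_lit 355) (nat_lit 274)) (XT.nd (nat_lit 78) (nat_lit 228) (nat_lit 0) (XT.lf (nat_lit 0) (nat_lit 8703865896) (nat_lit 380) (nat_lit 5640708751) (nat_lit 76) (nat_lit 9921920952) (nat_lit 105) (nat_lit 5) (nat_lit 110) (nat_lit 5) (nat_lit 106) (nat_lit 5) (nat_lit 392) (nat_lit 355) (nat_lit 273)) (XT.lf (nat_lit 0) (nat_lit 17428388741) (nat_lit 228) (nat_lit 460548655) (nat_lit 304) (nat_lit 7155099196) (nat_lit 102) (nat_lit 5)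 (nat_lit 105) (nat_lit 5) (nat_lit 106) (nat_lit 5) (nat_lit 393) (nat_lit 355) (nat_lit 272)))) (XT.nd (nat_lit 156) (nat_lit 532) (nat_lit 0) (XT.nd (nat_lit 78) (nat_lit 228) (nat_lit 0) (XT.lf (nat_lit 0) (nat_lit 1967588062) (nat_lit 304) (nat_lit 9821698574) (nat_lit 76) (nat_lit 14060868111) (nat_lit 98) (nat_lit 5) (nat_lit 102) (nat_lit 5) (nat_lit 99) (nat_lit 5) (nat_lit 394) (nat_lit 355) (nat_lit 271)) (XT.lf (nat_lit 0) (nat_lit 11626805774) (nat_lit 304) (nat_lit 12229496740) (nat_lit 76) (nat_lit 2831304732) (nat_lit 95) (nat_lit 5) (nat_lit 99) (nat_lit 5) (nat_lit 96) (nat_lit 5) (nat_lit 395) (nat_lit 355) (nat_lit 270))) (XT.nd (nat_lit 78) (nat_lit 304) (nat_lit 0) (XT.lf (nat_lit 0) (nat_lit 12683258522) (nat_lit 228) (nat_lit 9405555487) (nat_lit 304) (nat_lit 5468528184) (nat_lit 92) (nat_lit 5) (nat_lit 95) (nat_lit 5) (nat_lit 96) (nat_lit 5) (nat_lit 396) (nat_lit 355)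 (nat_lit 269)) (XT.lf (nat_lit 0) (nat_lit 4779447336) (nat_lit 304) (nat_lit 17763056340) (nat_lit 76) (nat_lit 5918759559) (nat_lit 88) (nat_lit 5) (nat_lit 92) (nat_lit 5) (nat_lit 89) (nat_lit 5) (nat_lit 397) (nat_lit 355) (nat_lit 268))))))))
noncomputable def xc76 : XT := (XT.nd (nat_lit 1872) (nat_lit 1216) (nat_lit 0) (XT.nd (nat_lit 936) (nat_lit 1520) (nat_lit 0) (XT.nd (nat_lit 468) (nat_lit 912) (nat_lit 0) (XT.nd (nat_lit 234) (nat_lit 456) (nat_lit 0) (XT.nd (nat_lit 78) (nat_lit 456) (nat_lit 0) (XT.lf (nat_lit 0) (nat_lit 8430667253) (nat_lit 228) (nat_lit 7305653218) (nat_lit 304) (nat_lit 13663151802) (nat_lit 85) (nat_lit 5) (nat_lit 88) (nat_lit 5) (nat_lit 89) (nat_lit 5) (nat_lit 398) (nat_lit 355) (nat_lit 267)) (XT.nd (nat_lit 78) (nat_lit 304) (nat_lit 0) (XT.lf (nat_lit 0) (nat_lit 5920503998) (nat_lit 152) (nat_lit 21624190088) (nat_lit 228) (nat_lit 2830791926) (nat_lit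 83) (nat_lit 5) (nat_lit 85) (nat_lit 5) (nat_lit 86) (nat_lit 5) (nat_lit 399) (nat_lit 355) (nat_lit 266)) (XT.lf (nat_lit 0) (nat_lit 3065242164) (nat_lit 228) (nat_lit 5611426721) (nat_lit 304) (nat_lit 22712165799) (nat_lit 79) (nat_lit 5) (nat_lit 82) (nat_lit 5) (nat_lit 83) (nat_lit 5) (nat_lit 400) (nat_lit 355) (nat_lit 265)))) (XT.nd (nat_lit 78) (nat_lit 456) (nat_lit 0) (XT.lf (nat_lit 0) (nat_lit 21042951109) (nat_lit 304) (nat_lit 146213613) (nat_lit 76) (nat_lit 11252588914) (nat_lit 79) (nat_lit 5) (nat_lit 83) (nat_lit 5) (nat_lit 80) (nat_lit 5) (nat_lit 401) (nat_lit 355) (nat_lit 264)) (XT.nd (nat_lit 78) (nat_lit 228) (nat_lit 0) (XT.lf (nat_lit 0) (nat_lit 798966227) (nat_lit 228) (nat_lit 3610915048) (nat_lit 76) (nat_lit 29127458742) (nat_lit 76) (nat_lit 5) (nat_lit 79) (nat_lit 5) (nat_lit 77) (nat_lit 5) (nat_lit 402) (nat_lit 355) (nat_lit 263)) (XT.lf (nat_lit 0)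 (nat_lit 13747585691) (nat_lit 304) (nat_lit 7606168448) (nat_lit 76) (nat_lit 13319267651) (nat_lit 73) (nat_lit 5) (nat_lit 77) (nat_lit 5) (nat_lit 74) (nat_lit 5) (nat_lit 403) (nat_lit 355) (nat_lit 262))))) (XT.nd (nat_lit 234) (nat_lit 380) (nat_lit 0) (XT.nd (nat_lit 78) (nat_lit 380) (nat_lit 0) (XT.lf (nat_lit 0) (nat_lit 23878707441) (nat_lit 152) (nat_lit 3757931846) (nat_lit 228) (nat_lit 8220061188) (nat_lit 71) (nat_lit 5) (nat_lit 73) (nat_lit 5) (nat_lit 74) (nat_lit 5) (nat_lit 404) (nat_lit 355) (nat_lit 261)) (XT.nd (nat_lit 78) (nat_lit 152) (nat_lit 0) (XT.lf (nat_lit 0) (nat_lit 5421385878) (nat_lit 228) (nat_lit 16920400779) (nat_lit 76) (nat_lit 14744280740) (nat_lit 68) (nat_lit 5) (nat_lit 71) (nat_lit 5) (nat_lit 69) (nat_lit 5) (nat_lit 405) (nat_lit 355) (nat_lit 260)) (XT.lf (nat_lit 0) (nat_lit 15951847530) (nat_lit 152) (nat_lit 3922697755) (nat_lit 228) (nat_lit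 18490929044) (nat_lit 66) (nat_lit 5) (nat_lit 68) (nat_lit 5) (nat_lit 69) (nat_lit 5) (nat_lit 406) (nat_lit 355) (nat_lit 259)))) (XT.nd (nat_lit 78) (nat_lit 228) (nat_lit 0) (XT.lf (nat_lit 0) (nat_lit 11154986153) (nat_lit 152) (nat_lit 24309413850) (nat_lit 228) (nat_lit 4232032932) (nat_lit 64) (nat_lit 5) (nat_lit 66) (nat_lit 5) (nat_lit 67) (nat_lit 5) (nat_lit 407) (nat_lit 355) (nat_lit 258)) (XT.nd (nat_lit 78) (nat_lit 0) (nat_lit 0) (XT.lf (nat_lit 0) (nat_lit 5719996169) (nat_lit 152) (nat_lit 5120903290) (nat_lit 228) (nat_lit 30240625234) (nat_lit 61) (nat_lit 5) (nat_lit 63) (nat_lit 5) (nat_lit 64) (nat_lit 5) (nat_lit 408) (nat_lit 355) (nat_lit 257)) (XT.lf (nat_lit 0) (nat_lit 27005413540) (nat_lit 228) (nat_lit 455599560) (nat_lit 76) (nat_lit 15060839256) (nat_lit 61) (nat_lit 5) (nat_lit 64) (nat_lit 5) (nat_lit 62) (nat_lit 5) (nat_lit 409) (nat_lit 355) (nat_lit 256))))))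 (XT.nd (nat_lit 468) (nat_lit 684) (nat_lit 0) (XT.nd (nat_lit 234) (nat_lit 304) (nat_lit 0) (XT.nd (nat_lit 78) (nat_lit 304) (nat_lit 0) (XT.lf (nat_lit 0) (nat_lit 338940465) (nat_lit 228) (nat_lit 7191116152) (nat_lit 76) (nat_lit 36492341242) (nat_lit 58) (nat_lit 5) (nat_lit 61) (nat_lit 5) (nat_lit 59) (nat_lit 5) (nat_lit 410) (nat_lit 355) (nat_lit 255)) (XT.nd (nat_lit 78) (nat_lit 152) (nat_lit 0) (XT.lf (nat_lit 0) (nat_lit 17087879898) (nat_lit 228) (nat_lit 14906645979) (nat_lit 76) (nat_lit 13586186966) (nat_lit 56) (nat_lit 5) (nat_lit 59) (nat_lit 5) (nat_lit 57) (nat_lit 5) (nat_lit 411) (nat_lit 355) (nat_lit 254)) (XT.lf (nat_lit 0) (nat_lit 23727262818) (nat_lit 152) (nat_lit 11310809974) (nat_lit 228) (nat_lit 12167958398) (nat_lit 54) (nat_lit 5) (nat_lit 56) (nat_lit 5) (nat_lit 57) (nat_lit 5) (nat_lit 412) (nat_lit 355) (nat_lit 253)))) (XT.nd (nat_lit 78) (nat_lit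 152) (nat_lit 0) (XT.lf (nat_lit 0) (nat_lit 5272957622) (nat_lit 152) (nat_lit 33074501093) (nat_lit 76) (nat_lit 10551819000) (nat_lit 52) (nat_lit 5) (nat_lit 54) (nat_lit 5) (nat_lit 53) (nat_lit 5) (nat_lit 413) (nat_lit 355) (nat_lit 252)) (XT.nd (nat_lit 78) (nat_lit 0) (nat_lit 0) (XT.lf (nat_lit 0) (nat_lit 6781011769) (nat_lit 152) (nat_lit 16964649771) (nat_lit 228) (nat_lit 26915570549) (nat_lit 50) (nat_lit 5) (nat_lit 52) (nat_lit 5) (nat_lit 53) (nat_lit 5) (nat_lit 414) (nat_lit 355) (nat_lit 251)) (XT.lf (nat_lit 0) (nat_lit 43524544852) (nat_lit 228) (nat_lit 3262429019) (nat_lit 76) (nat_lit 5712835500) (nat_lit 50) (nat_lit 5) (nat_lit 53) (nat_lit 5) (nat_lit 51) (nat_lit 4) (nat_lit 415) (nat_lit 355) (nat_lit 250))))) (XT.nd (nat_lit 234) (nat_lit 304) (nat_lit 0) (XT.nd (nat_lit 78) (nat_lit 228) (nat_lit 0) (XT.lf (nat_lit 0) (nat_lit 10217049546) (nat_lit 152) (nat_lit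 14543706675) (nat_lit 76) (nat_lit 29650293587) (nat_lit 48) (nat_lit 5) (nat_lit 50) (nat_lit 5) (nat_lit 49) (nat_lit 5) (nat_lit 416) (nat_lit 355) (nat_lit 249)) (XT.nd (nat_lit 78) (nat_lit 76) (nat_lit 0) (XT.lf (nat_lit 0) (nat_lit 29260961681) (nat_lit 152) (nat_lit 1226212254) (nat_lit 228) (nat_lit 25918899241) (nat_lit 46) (nat_lit 5) (nat_lit 48) (nat_lit 5) (nat_lit 49) (nat_lit 5) (nat_lit 417) (nat_lit 355) (nat_lit 248)) (XT.lf (nat_lit 0) (nat_lit 17147167560) (nat_lit 76) (nat_lit 35152613467) (nat_lit 152) (nat_lit 6185198662) (nat_lit 45) (nat_lit 5) (nat_lit 46) (nat_lit 5) (nat_lit 47) (nat_lit 4) (nat_lit 418) (nat_lit 355) (nat_lit 247)))) (XT.nd (nat_lit 78) (nat_lit 76) (nat_lit 0) (XT.lf (nat_lit 0) (nat_lit 3451143436) (nat_lit 152) (nat_lit 11115624911) (nat_lit 228) (nat_lit 46087416266) (nat_lit 42) (nat_lit 5) (nat_lit 44) (nat_lit 5) (nat_lit 45) (nat_lit 5) (nat_lit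 419) (nat_lit 355) (nat_lit 246)) (XT.nd (nat_lit 78) (nat_lit 76) (nat_lit 0) (XT.lf (nat_lit 0) (nat_lit 36782857170) (nat_lit 228) (nat_lit 11800903746) (nat_lit 76) (nat_lit 14329619513) (nat_lit 42) (nat_lit 5) (nat_lit 45) (nat_lit 5) (nat_lit 43) (nat_lit 4) (nat_lit 420) (nat_lit 355) (nat_lit 245)) (XT.lf (nat_lit 0) (nat_lit 36448676033) (nat_lit 76) (nat_lit 24111960969) (nat_lit 152) (nat_lit 4711373504) (nat_lit 41) (nat_lit 5) (nat_lit 42) (nat_lit 5) (nat_lit 43) (nat_lit 4) (nat_lit 421) (nat_lit 355) (nat_lit 244))))))) (XT.nd (nat_lit 1014) (nat_lit 152) (nat_lit 0) (XT.nd (nat_lit 468) (nat_lit 456) (nat_lit 0) (XT.nd (nat_lit 234) (nat_lit 304) (nat_lit 0) (XT.nd (nat_lit 78) (nat_lit 76) (nat_lit 0) (XT.lf (nat_lit 0) (nat_lit 17753355951) (nat_lit 228) (nat_lit 47948853129) (nat_lit 76) (nat_lit 2031590511) (nat_lit 38) (nat_lit 5) (nat_lit 41) (nat_lit 5) (nat_lit 39) (nat_lit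 4) (nat_lit 422) (nat_lit 355) (nat_lit 243)) (XT.nd (nat_lit 78) (nat_lit 0) (nat_lit 0) (XT.lf (nat_lit 0) (nat_lit 817325236) (nat_lit 76) (nat_lit 40967156752) (nat_lit 152) (nat_lit 28516579708) (nat_lit 37) (nat_lit 5) (nat_lit 38) (nat_lit 5) (nat_lit 39) (nat_lit 4) (nat_lit 423) (nat_lit 355) (nat_lit 242)) (XT.lf (nat_lit 0) (nat_lit 53003450481) (nat_lit 76) (nat_lit 14496461484) (nat_lit 152) (nat_lit 5482293405) (nat_lit 37) (nat_lit 5) (nat_lit 38) (nat_lit 5) (nat_lit 39) (nat_lit 4) (nat_lit 424) (nat_lit 355) (nat_lit 241)))) (XT.nd (nat_lit 78) (nat_lit 76) (nat_lit 0) (XT.lf (nat_lit 0) (nat_lit 18772690837) (nat_lit 228) (nat_lit 43480561003) (nat_lit 76) (nat_lit 13525742663) (nat_lit 34) (nat_lit 5) (nat_lit 37) (nat_lit 5) (nat_lit 35) (nat_lit 4) (nat_lit 425) (nat_lit 355) (nat_lit 240)) (XT.nd (nat_lit 78) (nat_lit 0) (nat_lit 0) (XT.lf (nat_lit 0) (nat_lit 8847231683)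 (nat_lit 76) (nat_lit 35709723430) (nat_lit 152) (nat_lit 34144142970) (nat_lit 33) (nat_lit 5) (nat_lit 34) (nat_lit 5) (nat_lit 35) (nat_lit 4) (nat_lit 426) (nat_lit 355) (nat_lit 239)) (XT.lf (nat_lit 0) (nat_lit 64681333265) (nat_lit 76) (nat_lit 7386797291) (nat_lit 152) (nat_lit 9688046099) (nat_lit 33) (nat_lit 5) (nat_lit 34) (nat_lit 5) (nat_lit 35) (nat_lit 4) (nat_lit 427) (nat_lit 355) (nat_lit 238))))) (XT.nd (nat_lit 234) (nat_lit 228) (nat_lit 0) (XT.nd (nat_lit 78) (nat_lit 76) (nat_lit 0) (XT.lf (nat_lit 0) (nat_lit 16263536619) (nat_lit 152) (nat_lit 46237359932) (nat_lit 76) (nat_lit 22440960275) (nat_lit 31) (nat_lit 5) (nat_lit 33) (nat_lit 5) (nat_lit 32) (nat_lit 4) (nat_lit 428) (nat_lit 355) (nat_lit 237)) (XT.nd (nat_lit 78) (nat_lit 0) (nat_lit 0) (XT.lf (nat_lit 0) (nat_lit 9338539074) (nat_lit 76) (nat_lit 34308180662) (nat_lit 152) (nat_lit 44627192746) (nat_lit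 30) (nat_lit 5) (nat_lit 31) (nat_lit 5) (nat_lit 32) (nat_lit 4) (nat_lit 429) (nat_lit 355) (nat_lit 236)) (XT.lf (nat_lit 0) (nat_lit 68642285690) (nat_lit 76) (nat_lit 4223714678) (nat_lit 152) (nat_lit 18892563031) (nat_lit 30) (nat_lit 5) (nat_lit 31) (nat_lit 5) (nat_lit 32) (nat_lit 4) (nat_lit 430) (nat_lit 355) (nat_lit 235)))) (XT.nd (nat_lit 78) (nat_lit 76) (nat_lit 0) (XT.lf (nat_lit 0) (nat_lit 8575719392) (nat_lit 152) (nat_lit 59568518369) (nat_lit 76) (nat_lit 27252699212) (nat_lit 28) (nat_lit 5) (nat_lit 30) (nat_lit 5) (nat_lit 29) (nat_lit 4) (nat_lit 431) (nat_lit 355) (nat_lit 234)) (XT.nd (nat_lit 78) (nat_lit 76) (nat_lit 0) (XT.lf (nat_lit 0) (nat_lit 37304765777) (nat_lit 152) (nat_lit 1258587070) (nat_lit 76) (nat_lit 60639922969) (nat_lit 28) (nat_lit 5) (nat_lit 30) (nat_lit 5) (nat_lit 29) (nat_lit 4) (nat_lit 432) (nat_lit 355) (nat_lit 233)) (XT.lf (nat_lit 0)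 (nat_lit 61144529466) (nat_lit 76) (nat_lit 6905394756) (nat_lit 152) (nat_lit 35132618116) (nat_lit 27) (nat_lit 5) (nat_lit 28) (nat_lit 5) (nat_lit 29) (nat_lit 4) (nat_lit 433) (nat_lit 355) (nat_lit 232)))))) (XT.nd (nat_lit 47346) (nat_lit 0) (nat_lit 17404) (XT.nd (nat_lit 47112) (nat_lit 0) (nat_lit 19304) (XT.nd (nat_lit 46956) (nat_lit 0) (nat_lit 19228) (XT.lf (nat_lit 0) (nat_lit 23462985354) (nat_lit 152) (nat_lit 27141580090) (nat_lit 76) (nat_lit 61094245353) (nat_lit 25) (nat_lit 5) (nat_lit 27) (nat_lit 5) (nat_lit 26) (nat_lit 4) (nat_lit 435) (nat_lit 355) (nat_lit 230)) (XT.nd (nat_lit 78) (nat_lit 0) (nat_lit 76) (XT.lf (nat_lit 0) (nat_lit 1002912012) (nat_lit 1140) (nat_lit 1858090565) (nat_lit 1140) (nat_lit 1858090565) (nat_lit 278) (nat_lit 3) (nat_lit 293) (nat_lit 3) (nat_lit 293) (nat_lit 5) (nat_lit 356) (nat_lit 356) (nat_lit 308)) (XT.lf (nat_lit 0) (nat_lit 3402324529)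 (nat_lit 1064) (nat_lit 5687246917) (nat_lit 1140) (nat_lit 543577119) (nat_lit 279) (nat_lit 5) (nat_lit 293) (nat_lit 5) (nat_lit 294) (nat_lit 5) (nat_lit 357) (nat_lit 356) (nat_lit 307)))) (XT.nd (nat_lit 78) (nat_lit 0) (nat_lit 76) (XT.lf (nat_lit 76) (nat_lit 2169467048) (nat_lit 0) (nat_lit 2732976590) (nat_lit 1140) (nat_lit 4934440029) (nat_lit 280) (nat_lit 5) (nat_lit 279) (nat_lit 5) (nat_lit 294) (nat_lit 5) (nat_lit 358) (nat_lit 356) (nat_lit 306)) (XT.nd (nat_lit 78) (nat_lit 0) (nat_lit 76) (XT.lf (nat_lit 76) (nat_lit 410156568) (nat_lit 0) (nat_lit 6088787933) (nat_lit 1140) (nat_lit 3551256436) (nat_lit 281) (nat_lit 5) (nat_lit 280) (nat_lit 5) (nat_lit 295) (nat_lit 5) (nat_lit 359) (nat_lit 356) (nat_lit 305)) (XT.lf (nat_lit 0) (nat_lit 8212691254) (nat_lit 1064) (nat_lit 1303847439) (nat_lit 1140) (nat_lit 756557688) (nat_lit 281) (nat_lit 5) (nat_lit 295) (nat_lit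 5) (nat_lit 296) (nat_lit 5) (nat_lit 360) (nat_lit 356) (nat_lit 304))))) (XT.nd (nat_lit 234) (nat_lit 988) (nat_lit 0) (XT.nd (nat_lit 78) (nat_lit 1064) (nat_lit 0) (XT.lf (nat_lit 76) (nat_lit 7486732456) (nat_lit 0) (nat_lit 2586475590) (nat_lit 1140) (nat_lit 432129344) (nat_lit 282) (nat_lit 5) (nat_lit 281) (nat_lit 5) (nat_lit 296) (nat_lit 5) (nat_lit 361) (nat_lit 356) (nat_lit 303)) (XT.nd (nat_lit 78) (nat_lit 0) (nat_lit 76) (XT.lf (nat_lit 0) (nat_lit 1300462906) (nat_lit 1140) (nat_lit 4741058839) (nat_lit 1216) (nat_lit 4705896075) (nat_lit 267) (nat_lit 5) (nat_lit 282) (nat_lit 5) (nat_lit 283) (nat_lit 5) (nat_lit 362) (nat_lit 356) (nat_lit 302)) (XT.lf (nat_lit 0) (nat_lit 3158705855) (nat_lit 1140) (nat_lit 6458970925) (nat_lit 1216) (nat_lit 1382387692) (nat_lit 268) (nat_lit 5) (nat_lit 283) (nat_lit 5) (nat_lit 284) (nat_lit 5) (nat_lit 363) (nat_lit 356) (nat_lit 301))))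 (XT.nd (nat_lit 156) (nat_lit 1064) (nat_lit 0) (XT.nd (nat_lit 78) (nat_lit 0) (nat_lit 76) (XT.lf (nat_lit 76) (nat_lit 3072253085) (nat_lit 0) (nat_lit 2113364204) (nat_lit 1216) (nat_lit 6077481385) (nat_lit 269) (nat_lit 5) (nat_lit 268) (nat_lit 5) (nat_lit 284) (nat_lit 5) (nat_lit 364) (nat_lit 356) (nat_lit 300)) (XT.lf (nat_lit 76) (nat_lit 1603535298) (nat_lit 0) (nat_lit 5787015289) (nat_lit 1216) (nat_lit 4146460284) (nat_lit 270) (nat_lit 5) (nat_lit 269) (nat_lit 5) (nat_lit 285) (nat_lit 5) (nat_lit 365) (nat_lit 356) (nat_lit 299))) (XT.nd (nat_lit 78) (nat_lit 76) (nat_lit 0) (XT.lf (nat_lit 0) (nat_lit 147194009) (nat_lit 1140) (nat_lit 9628036654) (nat_lit 1216) (nat_lit 2047328325) (nat_lit 255) (nat_lit 5) (nat_lit 270) (nat_lit 5) (nat_lit 271) (nat_lit 5) (nat_lit 366) (nat_lit 356) (nat_lit 298)) (XT.lf (nat_lit 0) (nat_lit 258379204) (nat_lit 1216) (nat_lit 1290367565)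 (nat_lit 76) (nat_lit 10570475602) (nat_lit 254) (nat_lit 5) (nat_lit 270) (nat_lit 5) (nat_lit 255) (nat_lit 5) (nat_lit 367) (nat_lit 356) (nat_lit 297))))))))
noncomputable def xc77 : XT := (XT.nd (nat_lit 1872) (nat_lit 4788) (nat_lit 0) (XT.nd (nat_lit 936) (nat_lit 4180) (nat_lit 0) (XT.nd (nat_lit 468) (nat_lit 2356) (nat_lit 0) (XT.nd (nat_lit 234) (nat_lit 1748) (nat_lit 0) (XT.nd (nat_lit 78) (nat_lit 1216) (nat_lit 0) (XT.lf (nat_lit 0) (nat_lit 2744583235) (nat_lit 1292) (nat_lit 2760838022) (nat_lit 76) (nat_lit 6921485247) (nat_lit 238) (nat_lit 5) (nat_lit 255) (nat_lit 5) (nat_lit 239) (nat_lit 5) (nat_lit 368) (nat_lit 356) (nat_lit 296)) (XT.nd (nat_lit 78) (nat_lit 608) (nat_lit 0) (XT.lf (nat_lit 0) (nat_lit 5444417161) (nat_lit 684) (nat_lit 4227087154) (nat_lit 76) (nat_lit 3075812167) (nat_lit 230) (nat_lit 5) (nat_lit 239) (nat_lit 5) (nat_lit 231) (nat_lit 5) (nat_lit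 369) (nat_lit 356) (nat_lit 295)) (XT.lf (nat_lit 0) (nat_lit 7380596778) (nat_lit 608) (nat_lit 1003853620) (nat_lit 684) (nat_lit 4696160547) (nat_lit 222) (nat_lit 5) (nat_lit 230) (nat_lit 5) (nat_lit 231) (nat_lit 5) (nat_lit 370) (nat_lit 356) (nat_lit 294)))) (XT.nd (nat_lit 78) (nat_lit 1140) (nat_lit 0) (XT.lf (nat_lit 0) (nat_lit 6223067173) (nat_lit 608) (nat_lit 5381961769) (nat_lit 684) (nat_lit 1821554136) (nat_lit 214) (nat_lit 5) (nat_lit 222) (nat_lit 5) (nat_lit 223) (nat_lit 5) (nat_lit 371) (nat_lit 356) (nat_lit 293)) (XT.nd (nat_lit 78) (nat_lit 532) (nat_lit 0) (XT.lf (nat_lit 0) (nat_lit 1282270851) (nat_lit 608) (nat_lit 8721182694) (nat_lit 76) (nat_lit 3782807696) (nat_lit 206) (nat_lit 5) (nat_lit 214) (nat_lit 5) (nat_lit 207) (nat_lit 5) (nat_lit 372) (nat_lit 356) (nat_lit 292)) (XT.lf (nat_lit 0) (nat_lit 3891017710) (nat_lit 532) (nat_lit 734638948) (nat_lit 608)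 (nat_lit 9534081292) (nat_lit 199) (nat_lit 5) (nat_lit 206) (nat_lit 5) (nat_lit 207) (nat_lit 5) (nat_lit 373) (nat_lit 356) (nat_lit 291))))) (XT.nd (nat_lit 234) (nat_lit 836) (nat_lit 0) (XT.nd (nat_lit 78) (nat_lit 1064) (nat_lit 0) (XT.lf (nat_lit 0) (nat_lit 2684553628) (nat_lit 456) (nat_lit 5611368944) (nat_lit 532) (nat_lit 6251190745) (nat_lit 193) (nat_lit 5) (nat_lit 199) (nat_lit 5) (nat_lit 200) (nat_lit 5) (nat_lit 374) (nat_lit 356) (nat_lit 290)) (XT.nd (nat_lit 78) (nat_lit 532) (nat_lit 0) (XT.lf (nat_lit 0) (nat_lit 1483132907) (nat_lit 532) (nat_lit 10792859124) (nat_lit 608) (nat_lit 2674092094) (nat_lit 186) (nat_lit 5) (nat_lit 193) (nat_lit 5) (nat_lit 194) (nat_lit 5) (nat_lit 375) (nat_lit 356) (nat_lit 289)) (XT.lf (nat_lit 0) (nat_lit 264716516) (nat_lit 456) (nat_lit 937996047) (nat_lit 532) (nat_lit 14165934281) (nat_lit 179) (nat_lit 5) (nat_lit 185) (nat_lit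 5) (nat_lit 186) (nat_lit 5) (nat_lit 376) (nat_lit 356) (nat_lit 288)))) (XT.nd (nat_lit 78) (nat_lit 836) (nat_lit 0) (XT.lf (nat_lit 0) (nat_lit 5409912569) (nat_lit 532) (nat_lit 1004858469) (nat_lit 76) (nat_lit 9386830139) (nat_lit 179) (nat_lit 5) (nat_lit 186) (nat_lit 5) (nat_lit 180) (nat_lit 5) (nat_lit 377) (nat_lit 356) (nat_lit 287)) (XT.nd (nat_lit 78) (nat_lit 380) (nat_lit 0) (XT.lf (nat_lit 0) (nat_lit 9973716509) (nat_lit 532) (nat_lit 2273250088) (nat_lit 76) (nat_lit 4004862208) (nat_lit 173) (nat_lit 5) (nat_lit 180) (nat_lit 5) (nat_lit 174) (nat_lit 5) (nat_lit 378) (nat_lit 356) (nat_lit 286)) (XT.lf (nat_lit 0) (nat_lit 13155803996) (nat_lit 380) (nat_lit 1775606856) (nat_lit 456) (nat_lit 1788198240) (nat_lit 168) (nat_lit 5) (nat_lit 173) (nat_lit 5) (nat_lit 174) (nat_lit 5) (nat_lit 379) (nat_lit 356) (nat_lit 285)))))) (XT.nd (nat_lit 468) (nat_lit 1748) (nat_lit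 0) (XT.nd (nat_lit 234) (nat_lit 1140) (nat_lit 0) (XT.nd (nat_lit 78) (nat_lit 760) (nat_lit 0) (XT.lf (nat_lit 0) (nat_lit 3066808678) (nat_lit 532) (nat_lit 4933763639) (nat_lit 76) (nat_lit 9203442637) (nat_lit 161) (nat_lit 5) (nat_lit 168) (nat_lit 5) (nat_lit 162) (nat_lit 5) (nat_lit 380) (nat_lit 356) (nat_lit 284)) (XT.nd (nat_lit 78) (nat_lit 380) (nat_lit 0) (XT.lf (nat_lit 0) (nat_lit 8288889145) (nat_lit 456) (nat_lit 6336437862) (nat_lit 76) (nat_lit 3081954596) (nat_lit 156) (nat_lit 5) (nat_lit 162) (nat_lit 5) (nat_lit 157) (nat_lit 5) (nat_lit 381) (nat_lit 356) (nat_lit 283)) (XT.lf (nat_lit 0) (nat_lit 10439246868) (nat_lit 380) (nat_lit 3532510414) (nat_lit 456) (nat_lit 4257974093) (nat_lit 151) (nat_lit 5) (nat_lit 156) (nat_lit 5) (nat_lit 157) (nat_lit 5) (nat_lit 382) (nat_lit 356) (nat_lit 282)))) (XT.nd (nat_lit 78) (nat_lit 684) (nat_lit 0) (XT.lf (nat_lit 0) (nat_lit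 1343122368) (nat_lit 456) (nat_lit 9311822459) (nat_lit 76) (nat_lit 8116874622) (nat_lit 145) (nat_lit 5) (nat_lit 151) (nat_lit 5) (nat_lit 146) (nat_lit 5) (nat_lit 383) (nat_lit 356) (nat_lit 281)) (XT.nd (nat_lit 78) (nat_lit 304) (nat_lit 0) (XT.lf (nat_lit 0) (nat_lit 7314891158) (nat_lit 456) (nat_lit 10905013698) (nat_lit 76) (nat_lit 1114491031) (nat_lit 140) (nat_lit 5) (nat_lit 146) (nat_lit 5) (nat_lit 141) (nat_lit 5) (nat_lit 384) (nat_lit 356) (nat_lit 280)) (XT.lf (nat_lit 0) (nat_lit 7322978831) (nat_lit 304) (nat_lit 6507137991) (nat_lit 380) (nat_lit 6087646910) (nat_lit 136) (nat_lit 5) (nat_lit 140) (nat_lit 5) (nat_lit 141) (nat_lit 5) (nat_lit 385) (nat_lit 356) (nat_lit 279))))) (XT.nd (nat_lit 234) (nat_lit 684) (nat_lit 0) (XT.nd (nat_lit 78) (nat_lit 608) (nat_lit 0) (XT.lf (nat_lit 0) (nat_lit 339580457) (nat_lit 456) (nat_lit 14341408083) (nat_lit 76) (nat_lit 5843233087)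 (nat_lit 130) (nat_lit 5) (nat_lit 136) (nat_lit 5) (nat_lit 131) (nat_lit 5) (nat_lit 386) (nat_lit 356) (nat_lit 278)) (XT.nd (nat_lit 78) (nat_lit 304) (nat_lit 0) (XT.lf (nat_lit 0) (nat_lit 4932816196) (nat_lit 304) (nat_lit 2246416205) (nat_lit 380) (nat_lit 13973460461) (nat_lit 126) (nat_lit 5) (nat_lit 130) (nat_lit 5) (nat_lit 131) (nat_lit 5) (nat_lit 387) (nat_lit 356) (nat_lit 277)) (XT.lf (nat_lit 0) (nat_lit 3586947775) (nat_lit 304) (nat_lit 11034019789) (nat_lit 380) (nat_lit 7183824322) (nat_lit 122) (nat_lit 5) (nat_lit 126) (nat_lit 5) (nat_lit 127) (nat_lit 5) (nat_lit 388) (nat_lit 356) (nat_lit 276)))) (XT.nd (nat_lit 78) (nat_lit 304) (nat_lit 0) (XT.lf (nat_lit 0) (nat_lit 152319001) (nat_lit 380) (nat_lit 20285281854) (nat_lit 76) (nat_lit 2045738748) (nat_lit 117) (nat_lit 5) (nat_lit 122) (nat_lit 5) (nat_lit 118) (nat_lit 5) (nat_lit 389) (nat_lit 356) (nat_lit 275))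 (XT.nd (nat_lit 78) (nat_lit 0) (nat_lit 0) (XT.lf (nat_lit 0) (nat_lit 612599083) (nat_lit 304) (nat_lit 7376193761) (nat_lit 380) (nat_lit 15196431556) (nat_lit 113) (nat_lit 5) (nat_lit 117) (nat_lit 5) (nat_lit 118) (nat_lit 5) (nat_lit 390) (nat_lit 356) (nat_lit 274)) (XT.lf (nat_lit 0) (nat_lit 16463717878) (nat_lit 380) (nat_lit 1038064708) (nat_lit 76) (nat_lit 6413028105) (nat_lit 113) (nat_lit 5) (nat_lit 118) (nat_lit 5) (nat_lit 114) (nat_lit 5) (nat_lit 391) (nat_lit 356) (nat_lit 273))))))) (XT.nd (nat_lit 936) (nat_lit 1976) (nat_lit 0) (XT.nd (nat_lit 468) (nat_lit 1216) (nat_lit 0) (XT.nd (nat_lit 234) (nat_lit 760) (nat_lit 0) (XT.nd (nat_lit 78) (nat_lit 532) (nat_lit 0) (XT.lf (nat_lit 0) (nat_lit 931667547) (nat_lit 304) (nat_lit 2792854525) (nat_lit 76) (nat_lit 20948259706) (nat_lit 109) (nat_lit 5) (nat_lit 113) (nat_lit 5) (nat_lit 110) (nat_lit 5) (nat_lit 392) (nat_lit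 356) (nat_lit 272)) (XT.nd (nat_lit 78) (nat_lit 228) (nat_lit 0) (XT.lf (nat_lit 0) (nat_lit 9874094332) (nat_lit 380) (nat_lit 4775161823) (nat_lit 76) (nat_lit 10808348568) (nat_lit 105) (nat_lit 5) (nat_lit 110) (nat_lit 5) (nat_lit 106) (nat_lit 5) (nat_lit 393) (nat_lit 356) (nat_lit 271)) (XT.lf (nat_lit 0) (nat_lit 19414495326) (nat_lit 228) (nat_lit 79637462) (nat_lit 304) (nat_lit 6780626413) (nat_lit 102) (nat_lit 5) (nat_lit 105) (nat_lit 5) (nat_lit 106) (nat_lit 5) (nat_lit 394) (nat_lit 356) (nat_lit 270)))) (XT.nd (nat_lit 78) (nat_lit 456) (nat_lit 0) (XT.lf (nat_lit 0) (nat_lit 2764130722) (nat_lit 304) (nat_lit 9198916949) (nat_lit 76) (nat_lit 15158524965) (nat_lit 98) (nat_lit 5) (nat_lit 102) (nat_lit 5) (nat_lit 99) (nat_lit 5) (nat_lit 395) (nat_lit 356) (nat_lit 269)) (XT.nd (nat_lit 78) (nat_lit 228) (nat_lit 0) (XT.lf (nat_lit 0) (nat_lit 12887372379) (nat_lit 304)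 (nat_lit 11742544888) (nat_lit 76) (nat_lit 3371555502) (nat_lit 95) (nat_lit 5) (nat_lit 99) (nat_lit 5) (nat_lit 96) (nat_lit 5) (nat_lit 396) (nat_lit 356) (nat_lit 268)) (XT.lf (nat_lit 0) (nat_lit 14384361956) (nat_lit 228) (nat_lit 9466031045) (nat_lit 304) (nat_lit 5064970678) (nat_lit 92) (nat_lit 5) (nat_lit 95) (nat_lit 5) (nat_lit 96) (nat_lit 5) (nat_lit 397) (nat_lit 356) (nat_lit 267))))) (XT.nd (nat_lit 234) (nat_lit 532) (nat_lit 0) (XT.nd (nat_lit 78) (nat_lit 380) (nat_lit 0) (XT.lf (nat_lit 0) (nat_lit 5664584512) (nat_lit 304) (nat_lit 17586420368) (nat_lit 76) (nat_lit 6613815006) (nat_lit 88) (nat_lit 5) (nat_lit 92) (nat_lit 5) (nat_lit 89) (nat_lit 5) (nat_lit 398) (nat_lit 356) (nat_lit 266)) (XT.nd (nat_lit 78) (nat_lit 152) (nat_lit 0) (XT.lf (nat_lit 0) (nat_lit 9886467448) (nat_lit 228) (nat_lit 7262006108) (nat_lit 304) (nat_lit 13702096441) (nat_lit 85) (nat_lit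 5) (nat_lit 88) (nat_lit 5) (nat_lit 89) (nat_lit 5) (nat_lit 399) (nat_lit 356) (nat_lit 265)) (XT.lf (nat_lit 0) (nat_lit 7235665591) (nat_lit 152) (nat_lit 22295362566) (nat_lit 228) (nat_lit 2344848909) (nat_lit 83) (nat_lit 5) (nat_lit 85) (nat_lit 5) (nat_lit 86) (nat_lit 5) (nat_lit 400) (nat_lit 356) (nat_lit 264)))) (XT.nd (nat_lit 78) (nat_lit 228) (nat_lit 0) (XT.lf (nat_lit 0) (nat_lit 4220424771) (nat_lit 228) (nat_lit 5485649742) (nat_lit 304) (nat_lit 23234232784) (nat_lit 79) (nat_lit 5) (nat_lit 82) (nat_lit 5) (nat_lit 83) (nat_lit 5) (nat_lit 401) (nat_lit 356) (nat_lit 263)) (XT.nd (nat_lit 78) (nat_lit 76) (nat_lit 0) (XT.lf (nat_lit 0) (nat_lit 830280858) (nat_lit 152) (nat_lit 21843730643) (nat_lit 228) (nat_lit 11372365331) (nat_lit 77) (nat_lit 5) (nat_lit 79) (nat_lit 5) (nat_lit 80) (nat_lit 5) (nat_lit 402) (nat_lit 356) (nat_lit 262)) (XT.lf (nat_lit 0) (nat_lit 1397257296)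 (nat_lit 228) (nat_lit 2840391676) (nat_lit 76) (nat_lit 30959717980) (nat_lit 76) (nat_lit 5) (nat_lit 79) (nat_lit 5) (nat_lit 77) (nat_lit 5) (nat_lit 403) (nat_lit 356) (nat_lit 261)))))) (XT.nd (nat_lit 468) (nat_lit 836) (nat_lit 0) (XT.nd (nat_lit 234) (nat_lit 532) (nat_lit 0) (XT.nd (nat_lit 78) (nat_lit 380) (nat_lit 0) (XT.lf (nat_lit 0) (nat_lit 14979283461) (nat_lit 304) (nat_lit 7050048668) (nat_lit 76) (nat_lit 14360925688) (nat_lit 73) (nat_lit 5) (nat_lit 77) (nat_lit 5) (nat_lit 74) (nat_lit 5) (nat_lit 404) (nat_lit 356) (nat_lit 260)) (XT.nd (nat_lit 78) (nat_lit 228) (nat_lit 0) (XT.lf (nat_lit 0) (nat_lit 25982228489) (nat_lit 152) (nat_lit 3563384814) (nat_lit 228) (nat_lit 8088026498) (nat_lit 71) (nat_lit 5) (nat_lit 73) (nat_lit 5) (nat_lit 74) (nat_lit 5) (nat_lit 405) (nat_lit 356) (nat_lit 259)) (XT.lf (nat_lit 0) (nat_lit 6211770021) (nat_lit 228) (nat_lit 16860628401)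 (nat_lit 76) (nat_lit 15852317600) (nat_lit 68) (nat_lit 5) (nat_lit 71) (nat_lit 5) (nat_lit 69) (nat_lit 5) (nat_lit 406) (nat_lit 356) (nat_lit 258)))) (XT.nd (nat_lit 78) (nat_lit 380) (nat_lit 0) (XT.lf (nat_lit 0) (nat_lit 17629267965) (nat_lit 152) (nat_lit 3742047599) (nat_lit 228) (nat_lit 18897269477) (nat_lit 66) (nat_lit 5) (nat_lit 68) (nat_lit 5) (nat_lit 69) (nat_lit 5) (nat_lit 407) (nat_lit 356) (nat_lit 257)) (XT.nd (nat_lit 78) (nat_lit 228) (nat_lit 0) (XT.lf (nat_lit 0) (nat_lit 12578553717) (nat_lit 152) (nat_lit 25149927065) (nat_lit 228) (nat_lit 3937979678) (nat_lit 64) (nat_lit 5) (nat_lit 66) (nat_lit 5) (nat_lit 67) (nat_lit 5) (nat_lit 408) (nat_lit 356) (nat_lit 256)) (XT.lf (nat_lit 0) (nat_lit 6856644445) (nat_lit 152) (nat_lit 5006655753) (nat_lit 228) (nat_lit 31257826906) (nat_lit 61) (nat_lit 5) (nat_lit 63) (nat_lit 5) (nat_lit 64) (nat_lit 5) (nat_lit 409)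 (nat_lit 356) (nat_lit 255))))) (XT.nd (nat_lit 234) (nat_lit 456) (nat_lit 0) (XT.nd (nat_lit 78) (nat_lit 228) (nat_lit 0) (XT.lf (nat_lit 0) (nat_lit 348966057) (nat_lit 152) (nat_lit 28470944296) (nat_lit 228) (nat_lit 15814047691) (nat_lit 59) (nat_lit 5) (nat_lit 61) (nat_lit 5) (nat_lit 62) (nat_lit 5) (nat_lit 410) (nat_lit 356) (nat_lit 254)) (XT.nd (nat_lit 78) (nat_lit 152) (nat_lit 0) (XT.lf (nat_lit 0) (nat_lit 806952095) (nat_lit 228) (nat_lit 6744623765) (nat_lit 76) (nat_lit 38658354340) (nat_lit 58) (nat_lit 5) (nat_lit 61) (nat_lit 5) (nat_lit 59) (nat_lit 5) (nat_lit 411) (nat_lit 356) (nat_lit 253)) (XT.lf (nat_lit 0) (nat_lit 18382709704) (nat_lit 228) (nat_lit 14859193330) (nat_lit 76) (nat_lit 14604579413) (nat_lit 56) (nat_lit 5) (nat_lit 59) (nat_lit 5) (nat_lit 57) (nat_lit 5) (nat_lit 412) (nat_lit 356) (nat_lit 252)))) (XT.nd (nat_lit 156) (nat_lit 152) (nat_lit 0)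 (XT.nd (nat_lit 78) (nat_lit 152) (nat_lit 0) (XT.lf (nat_lit 0) (nat_lit 25683685886) (nat_lit 152) (nat_lit 11533155510) (nat_lit 228) (nat_lit 12336634963) (nat_lit 54) (nat_lit 5) (nat_lit 56) (nat_lit 5) (nat_lit 57) (nat_lit 5) (nat_lit 413) (nat_lit 356) (nat_lit 251)) (XT.lf (nat_lit 0) (nat_lit 5957740222) (nat_lit 152) (nat_lit 33962528357) (nat_lit 76) (nat_lit 11411292340) (nat_lit 52) (nat_lit 5) (nat_lit 54) (nat_lit 5) (nat_lit 53) (nat_lit 5) (nat_lit 414) (nat_lit 356) (nat_lit 250))) (XT.nd (nat_lit 78) (nat_lit 0) (nat_lit 0) (XT.lf (nat_lit 0) (nat_lit 7863811575) (nat_lit 152) (nat_lit 17477363099) (nat_lit 228) (nat_lit 27840827698) (nat_lit 50) (nat_lit 5) (nat_lit 52) (nat_lit 5) (nat_lit 53) (nat_lit 5) (nat_lit 415) (nat_lit 356) (nat_lit 249)) (XT.lf (nat_lit 0) (nat_lit 46092634259) (nat_lit 228) (nat_lit 2708583495) (nat_lit 76) (nat_lit 6311783917) (nat_lit 50) (nat_lit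 5) (nat_lit 53) (nat_lit 5) (nat_lit 51) (nat_lit 4) (nat_lit 416) (nat_lit 356) (nat_lit 248))))))))
noncomputable def xc78 : XT := (XT.nd (nat_lit 48906) (nat_lit 0) (nat_lit 7904) (XT.nd (nat_lit 936) (nat_lit 532) (nat_lit 0) (XT.nd (nat_lit 468) (nat_lit 608) (nat_lit 0) (XT.nd (nat_lit 234) (nat_lit 304) (nat_lit 0) (XT.nd (nat_lit 78) (nat_lit 228) (nat_lit 0) (XT.lf (nat_lit 0) (nat_lit 11111599308) (nat_lit 152) (nat_lit 14566801304) (nat_lit 76) (nat_lit 31441651652) (nat_lit 48) (nat_lit 5) (nat_lit 50) (nat_lit 5) (nat_lit 49) (nat_lit 5) (nat_lit 417) (nat_lit 356) (nat_lit 247)) (XT.nd (nat_lit 78) (nat_lit 76) (nat_lit 0) (XT.lf (nat_lit 0) (nat_lit 31407917851) (nat_lit 152) (nat_lit 975614908) (nat_lit 228) (nat_lit 26831646817) (nat_lit 46) (nat_lit 5) (nat_lit 48) (nat_lit 5) (nat_lit 49) (nat_lit 5) (nat_lit 418) (nat_lit 356) (nat_lit 246)) (XT.lf (nat_lit 0) (nat_lit 18676793921)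 (nat_lit 76) (nat_lit 36601579722) (nat_lit 152) (nat_lit 6119911444) (nat_lit 45) (nat_lit 5) (nat_lit 46) (nat_lit 5) (nat_lit 47) (nat_lit 4) (nat_lit 419) (nat_lit 356) (nat_lit 245)))) (XT.nd (nat_lit 78) (nat_lit 76) (nat_lit 0) (XT.lf (nat_lit 0) (nat_lit 4283830883) (nat_lit 152) (nat_lit 11367372302) (nat_lit 228) (nat_lit 48024974960) (nat_lit 42) (nat_lit 5) (nat_lit 44) (nat_lit 5) (nat_lit 45) (nat_lit 5) (nat_lit 420) (nat_lit 356) (nat_lit 244)) (XT.nd (nat_lit 78) (nat_lit 76) (nat_lit 0) (XT.lf (nat_lit 0) (nat_lit 38963922867) (nat_lit 228) (nat_lit 11754831395) (nat_lit 76) (nat_lit 15330006259) (nat_lit 42) (nat_lit 5) (nat_lit 45) (nat_lit 5) (nat_lit 43) (nat_lit 4) (nat_lit 421) (nat_lit 356) (nat_lit 243)) (XT.lf (nat_lit 0) (nat_lit 38888993190) (nat_lit 76) (nat_lit 25031255933) (nat_lit 152) (nat_lit 4605384744) (nat_lit 41) (nat_lit 5) (nat_lit 42) (nat_lit 5) (nat_lit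 43) (nat_lit 4) (nat_lit 422) (nat_lit 356) (nat_lit 242))))) (XT.nd (nat_lit 234) (nat_lit 304) (nat_lit 0) (XT.nd (nat_lit 78) (nat_lit 76) (nat_lit 0) (XT.lf (nat_lit 0) (nat_lit 18968510397) (nat_lit 228) (nat_lit 49732560852) (nat_lit 76) (nat_lit 2409566208) (nat_lit 38) (nat_lit 5) (nat_lit 41) (nat_lit 5) (nat_lit 39) (nat_lit 4) (nat_lit 423) (nat_lit 356) (nat_lit 241)) (XT.nd (nat_lit 78) (nat_lit 0) (nat_lit 0) (XT.lf (nat_lit 0) (nat_lit 1454333843) (nat_lit 76) (nat_lit 42736994776) (nat_lit 152) (nat_lit 29615231282) (nat_lit 37) (nat_lit 5) (nat_lit 38) (nat_lit 5) (nat_lit 39) (nat_lit 4) (nat_lit 424) (nat_lit 356) (nat_lit 240)) (XT.lf (nat_lit 0) (nat_lit 56221377619) (nat_lit 76) (nat_lit 14956027593) (nat_lit 152) (nat_lit 5444810542) (nat_lit 37) (nat_lit 5) (nat_lit 38) (nat_lit 5) (nat_lit 39) (nat_lit 4) (nat_lit 425) (nat_lit 356) (nat_lit 239)))) (XT.nd (nat_lit 78)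 (nat_lit 76) (nat_lit 0) (XT.lf (nat_lit 0) (nat_lit 20010161937) (nat_lit 228) (nat_lit 45090776186) (nat_lit 76) (nat_lit 14458017933) (nat_lit 34) (nat_lit 5) (nat_lit 37) (nat_lit 5) (nat_lit 35) (nat_lit 4) (nat_lit 426) (nat_lit 356) (nat_lit 238)) (XT.nd (nat_lit 78) (nat_lit 0) (nat_lit 0) (XT.lf (nat_lit 0) (nat_lit 9837244551) (nat_lit 76) (nat_lit 37237428923) (nat_lit 152) (nat_lit 35552761419) (nat_lit 33) (nat_lit 5) (nat_lit 34) (nat_lit 5) (nat_lit 35) (nat_lit 4) (nat_lit 427) (nat_lit 356) (nat_lit 237)) (XT.lf (nat_lit 0) (nat_lit 68436972580) (nat_lit 76) (nat_lit 7510631747) (nat_lit 152) (nat_lit 9888078214) (nat_lit 33) (nat_lit 5) (nat_lit 34) (nat_lit 5) (nat_lit 35) (nat_lit 4) (nat_lit 428) (nat_lit 356) (nat_lit 236)))))) (XT.nd (nat_lit 47502) (nat_lit 0) (nat_lit 18164) (XT.nd (nat_lit 234) (nat_lit 304) (nat_lit 0) (XT.nd (nat_lit 78) (nat_lit 76) (nat_lit 0) (XT.lf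 (nat_lit 0) (nat_lit 17349501397) (nat_lit 152) (nat_lit 48031385040) (nat_lit 76) (nat_lit 23799860239) (nat_lit 31) (nat_lit 5) (nat_lit 33) (nat_lit 5) (nat_lit 32) (nat_lit 4) (nat_lit 429) (nat_lit 356) (nat_lit 235)) (XT.nd (nat_lit 78) (nat_lit 0) (nat_lit 0) (XT.lf (nat_lit 0) (nat_lit 10308465053) (nat_lit 76) (nat_lit 35785223849) (nat_lit 152) (nat_lit 46585961778) (nat_lit 30) (nat_lit 5) (nat_lit 31) (nat_lit 5) (nat_lit 32) (nat_lit 4) (nat_lit 430) (nat_lit 356) (nat_lit 234)) (XT.lf (nat_lit 0) (nat_lit 72553446665) (nat_lit 76) (nat_lit 4207885320) (nat_lit 152) (nat_lit 19577581081) (nat_lit 30) (nat_lit 5) (nat_lit 31) (nat_lit 5) (nat_lit 32) (nat_lit 4) (nat_lit 431) (nat_lit 356) (nat_lit 233)))) (XT.nd (nat_lit 78) (nat_lit 152) (nat_lit 0) (XT.lf (nat_lit 0) (nat_lit 9253595316) (nat_lit 152) (nat_lit 62071414155) (nat_lit 76) (nat_lit 28834285421) (nat_lit 28) (nat_lit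 5) (nat_lit 30) (nat_lit 5) (nat_lit 29) (nat_lit 4) (nat_lit 432) (nat_lit 356) (nat_lit 232)) (XT.nd (nat_lit 156) (nat_lit 152) (nat_lit 0) (XT.lf (nat_lit 0) (nat_lit 39407232593) (nat_lit 152) (nat_lit 868630583) (nat_lit 76) (nat_lit 63880444117) (nat_lit 28) (nat_lit 5) (nat_lit 30) (nat_lit 5) (nat_lit 29) (nat_lit 4) (nat_lit 433) (nat_lit 356) (nat_lit 231)) (XT.lf (nat_lit 0) (nat_lit 20848980067) (nat_lit 76) (nat_lit 85192737402) (nat_lit 76) (nat_lit 6666297039) (nat_lit 26) (nat_lit 4) (nat_lit 27) (nat_lit 5) (nat_lit 27) (nat_lit 4) (nat_lit 435) (nat_lit 356) (nat_lit 229))))) (XT.nd (nat_lit 234) (nat_lit 988) (nat_lit 0) (XT.nd (nat_lit 78) (nat_lit 0) (nat_lit 0) (XT.lf (nat_lit 0) (nat_lit 2335755999) (nat_lit 1140) (nat_lit 1290109256) (nat_lit 1140) (nat_lit 1290109256) (nat_lit 278) (nat_lit 3) (nat_lit 293) (nat_lit 3) (nat_lit 293) (nat_lit 5) (nat_lit 357) (nat_lit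 357) (nat_lit 306)) (XT.nd (nat_lit 78) (nat_lit 0) (nat_lit 76) (XT.lf (nat_lit 76) (nat_lit 5432843601) (nat_lit 0) (nat_lit 589578000) (nat_lit 1140) (nat_lit 4017756705) (nat_lit 279) (nat_lit 5) (nat_lit 278) (nat_lit 3) (nat_lit 293) (nat_lit 5) (nat_lit 358) (nat_lit 357) (nat_lit 305)) (XT.lf (nat_lit 76) (nat_lit 3608613231) (nat_lit 0) (nat_lit 3879661414) (nat_lit 1140) (nat_lit 2769157408) (nat_lit 280) (nat_lit 5) (nat_lit 279) (nat_lit 5) (nat_lit 294) (nat_lit 5) (nat_lit 359) (nat_lit 357) (nat_lit 304)))) (XT.nd (nat_lit 78) (nat_lit 1140) (nat_lit 0) (XT.lf (nat_lit 76) (nat_lit 1801876651) (nat_lit 0) (nat_lit 7255195759) (nat_lit 1140) (nat_lit 1427619788) (nat_lit 281) (nat_lit 5) (nat_lit 280) (nat_lit 5) (nat_lit 295) (nat_lit 5) (nat_lit 360) (nat_lit 357) (nat_lit 303)) (XT.nd (nat_lit 78) (nat_lit 0) (nat_lit 76) (XT.lf (nat_lit 76) (nat_lit 9434716) (nat_lit 0) (nat_lit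 10433780) (nat_lit 1216) (nat_lit 10702328013) (nat_lit 266) (nat_lit 5) (nat_lit 265) (nat_lit 5) (nat_lit 281) (nat_lit 5) (nat_lit 361) (nat_lit 357) (nat_lit 302)) (XT.lf (nat_lit 0) (nat_lit 1607053649) (nat_lit 1140) (nat_lit 1784364365) (nat_lit 1216) (nat_lit 7576857842) (nat_lit 266) (nat_lit 5) (nat_lit 281) (nat_lit 5) (nat_lit 282) (nat_lit 5) (nat_lit 362) (nat_lit 357) (nat_lit 301))))))) (XT.nd (nat_lit 936) (nat_lit 5244) (nat_lit 0) (XT.nd (nat_lit 468) (nat_lit 2964) (nat_lit 0) (XT.nd (nat_lit 234) (nat_lit 2204) (nat_lit 0) (XT.nd (nat_lit 78) (nat_lit 0) (nat_lit 76) (XT.lf (nat_lit 0) (nat_lit 3326586569) (nat_lit 1140) (nat_lit 3570994968) (nat_lit 1216) (nat_lit 4327515885) (nat_lit 267) (nat_lit 5) (nat_lit 282) (nat_lit 5) (nat_lit 283) (nat_lit 5) (nat_lit 363) (nat_lit 357) (nat_lit 300)) (XT.nd (nat_lit 78) (nat_lit 0) (nat_lit 0) (XT.lf (nat_lit 0) (nat_lit 5192552707)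 (nat_lit 1140) (nat_lit 5352952817) (nat_lit 1216) (nat_lit 947467422) (nat_lit 268) (nat_lit 5) (nat_lit 283) (nat_lit 5) (nat_lit 284) (nat_lit 5) (nat_lit 364) (nat_lit 357) (nat_lit 299)) (XT.lf (nat_lit 76) (nat_lit 4613871351) (nat_lit 0) (nat_lit 2630951598) (nat_lit 1216) (nat_lit 4526654434) (nat_lit 269) (nat_lit 5) (nat_lit 268) (nat_lit 5) (nat_lit 284) (nat_lit 5) (nat_lit 365) (nat_lit 357) (nat_lit 298)))) (XT.nd (nat_lit 78) (nat_lit 2356) (nat_lit 0) (XT.lf (nat_lit 76) (nat_lit 3088982964) (nat_lit 0) (nat_lit 6395046502) (nat_lit 1216) (nat_lit 2577371999) (nat_lit 270) (nat_lit 5) (nat_lit 269) (nat_lit 5) (nat_lit 285) (nat_lit 5) (nat_lit 366) (nat_lit 357) (nat_lit 297)) (XT.nd (nat_lit 78) (nat_lit 1292) (nat_lit 0) (XT.lf (nat_lit 0) (nat_lit 1573474539) (nat_lit 1140) (nat_lit 10343098143) (nat_lit 1216) (nat_lit 446830737) (nat_lit 255) (nat_lit 5) (nat_lit 270) (nat_lit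 5) (nat_lit 271) (nat_lit 5) (nat_lit 367) (nat_lit 357) (nat_lit 296)) (XT.lf (nat_lit 0) (nat_lit 29339312) (nat_lit 1216) (nat_lit 1832369444) (nat_lit 1292) (nat_lit 10815109522) (nat_lit 238) (nat_lit 5) (nat_lit 254) (nat_lit 5) (nat_lit 255) (nat_lit 5) (nat_lit 368) (nat_lit 357) (nat_lit 295))))) (XT.nd (nat_lit 234) (nat_lit 1748) (nat_lit 0) (XT.nd (nat_lit 78) (nat_lit 1216) (nat_lit 0) (XT.lf (nat_lit 0) (nat_lit 4407377469) (nat_lit 1292) (nat_lit 1506685340) (nat_lit 76) (nat_lit 7087800265) (nat_lit 238) (nat_lit 5) (nat_lit 255) (nat_lit 5) (nat_lit 239) (nat_lit 5) (nat_lit 369) (nat_lit 357) (nat_lit 294)) (XT.nd (nat_lit 78) (nat_lit 608) (nat_lit 0) (XT.lf (nat_lit 0) (nat_lit 7181463864) (nat_lit 684) (nat_lit 3040491883) (nat_lit 76) (nat_lit 3118189588) (nat_lit 230) (nat_lit 5) (nat_lit 239) (nat_lit 5) (nat_lit 231) (nat_lit 5) (nat_lit 370) (nat_lit 357) (nat_lit 293))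 (XT.lf (nat_lit 0) (nat_lit 9107504299) (nat_lit 608) (nat_lit 1104293604) (nat_lit 684) (nat_lit 3480035846) (nat_lit 222) (nat_lit 5) (nat_lit 230) (nat_lit 5) (nat_lit 231) (nat_lit 5) (nat_lit 371) (nat_lit 357) (nat_lit 292)))) (XT.nd (nat_lit 78) (nat_lit 1140) (nat_lit 0) (XT.lf (nat_lit 0) (nat_lit 7895224753) (nat_lit 608) (nat_lit 5643749848) (nat_lit 684) (nat_lit 517789668) (nat_lit 214) (nat_lit 5) (nat_lit 222) (nat_lit 5) (nat_lit 223) (nat_lit 5) (nat_lit 372) (nat_lit 357) (nat_lit 291)) (XT.nd (nat_lit 78) (nat_lit 532) (nat_lit 0) (XT.lf (nat_lit 0) (nat_lit 2662171768) (nat_lit 608) (nat_lit 7768666902) (nat_lit 76) (nat_lit 4004765353) (nat_lit 206) (nat_lit 5) (nat_lit 214) (nat_lit 5) (nat_lit 207) (nat_lit 5) (nat_lit 373) (nat_lit 357) (nat_lit 290)) (XT.lf (nat_lit 0) (nat_lit 5434340301) (nat_lit 532) (nat_lit 688695242) (nat_lit 608) (nat_lit 8706233414) (nat_lit 199)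 (nat_lit 5) (nat_lit 206) (nat_lit 5) (nat_lit 207) (nat_lit 5) (nat_lit 374) (nat_lit 357) (nat_lit 289)))))) (XT.nd (nat_lit 468) (nat_lit 2888) (nat_lit 0) (XT.nd (nat_lit 234) (nat_lit 836) (nat_lit 0) (XT.nd (nat_lit 78) (nat_lit 1064) (nat_lit 0) (XT.lf (nat_lit 0) (nat_lit 4165472356) (nat_lit 456) (nat_lit 5764754211) (nat_lit 532) (nat_lit 5307206695) (nat_lit 193) (nat_lit 5) (nat_lit 199) (nat_lit 5) (nat_lit 200) (nat_lit 5) (nat_lit 375) (nat_lit 357) (nat_lit 288)) (XT.nd (nat_lit 78) (nat_lit 532) (nat_lit 0) (XT.lf (nat_lit 0) (nat_lit 2900164551) (nat_lit 532) (nat_lit 11165136026) (nat_lit 608) (nat_lit 1596593453) (nat_lit 186) (nat_lit 5) (nat_lit 193) (nat_lit 5) (nat_lit 194) (nat_lit 5) (nat_lit 376) (nat_lit 357) (nat_lit 287)) (XT.lf (nat_lit 0) (nat_lit 1605696142) (nat_lit 456) (nat_lit 800932571) (nat_lit 532) (nat_lit 13695740357) (nat_lit 179) (nat_lit 5) (nat_lit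 185) (nat_lit 5) (nat_lit 186) (nat_lit 5) (nat_lit 377) (nat_lit 357) (nat_lit 286)))) (XT.nd (nat_lit 78) (nat_lit 380) (nat_lit 0) (XT.lf (nat_lit 0) (nat_lit 245581792) (nat_lit 456) (nat_lit 6528186029) (nat_lit 532) (nat_lit 9784734815) (nat_lit 173) (nat_lit 5) (nat_lit 179) (nat_lit 5) (nat_lit 180) (nat_lit 5) (nat_lit 378) (nat_lit 357) (nat_lit 285)) (XT.nd (nat_lit 78) (nat_lit 380) (nat_lit 0) (XT.lf (nat_lit 0) (nat_lit 11525544328) (nat_lit 532) (nat_lit 1098269395) (nat_lit 76) (nat_lit 4408652442) (nat_lit 173) (nat_lit 5) (nat_lit 180) (nat_lit 5) (nat_lit 174) (nat_lit 5) (nat_lit 379) (nat_lit 357) (nat_lit 284)) (XT.lf (nat_lit 0) (nat_lit 15065298695) (nat_lit 380) (nat_lit 1627707225) (nat_lit 456) (nat_lit 831790206) (nat_lit 168) (nat_lit 5) (nat_lit 173) (nat_lit 5) (nat_lit 174) (nat_lit 5) (nat_lit 380) (nat_lit 357) (nat_lit 283))))) (XT.nd (nat_lit 234) (nat_lit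 1596) (nat_lit 0) (XT.nd (nat_lit 78) (nat_lit 760) (nat_lit 0) (XT.lf (nat_lit 0) (nat_lit 4210990429) (nat_lit 532) (nat_lit 3916889797) (nat_lit 76) (nat_lit 9906293375) (nat_lit 161) (nat_lit 5) (nat_lit 168) (nat_lit 5) (nat_lit 162) (nat_lit 5) (nat_lit 381) (nat_lit 357) (nat_lit 282)) (XT.nd (nat_lit 78) (nat_lit 380) (nat_lit 0) (XT.lf (nat_lit 0) (nat_lit 9661403497) (nat_lit 456) (nat_lit 5399565553) (nat_lit 76) (nat_lit 3502632762) (nat_lit 156) (nat_lit 5) (nat_lit 162) (nat_lit 5) (nat_lit 157) (nat_lit 5) (nat_lit 382) (nat_lit 357) (nat_lit 281)) (XT.lf (nat_lit 0) (nat_lit 12178966521) (nat_lit 380) (nat_lit 3415531973) (nat_lit 456) (nat_lit 3518707447) (nat_lit 151) (nat_lit 5) (nat_lit 156) (nat_lit 5) (nat_lit 157) (nat_lit 5) (nat_lit 383) (nat_lit 357) (nat_lit 280)))) (XT.nd (nat_lit 156) (nat_lit 760) (nat_lit 0) (XT.nd (nat_lit 78) (nat_lit 380) (nat_lit 0) (XT.lf (nat_lit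 0) (nat_lit 2313842130) (nat_lit 456) (nat_lit 8551846964) (nat_lit 76) (nat_lit 8817348674) (nat_lit 145) (nat_lit 5) (nat_lit 151) (nat_lit 5) (nat_lit 146) (nat_lit 5) (nat_lit 384) (nat_lit 357) (nat_lit 279)) (XT.lf (nat_lit 0) (nat_lit 8555676912) (nat_lit 456) (nat_lit 10236477090) (nat_lit 76) (nat_lit 1482457353) (nat_lit 140) (nat_lit 5) (nat_lit 146) (nat_lit 5) (nat_lit 141) (nat_lit 5) (nat_lit 385) (nat_lit 357) (nat_lit 278))) (XT.nd (nat_lit 78) (nat_lit 456) (nat_lit 0) (XT.lf (nat_lit 0) (nat_lit 8868122096) (nat_lit 304) (nat_lit 6498206349) (nat_lit 380) (nat_lit 5521741261) (nat_lit 136) (nat_lit 5) (nat_lit 140) (nat_lit 5) (nat_lit 141) (nat_lit 5) (nat_lit 386) (nat_lit 357) (nat_lit 277)) (XT.lf (nat_lit 0) (nat_lit 1183650363) (nat_lit 456) (nat_lit 13874868567) (nat_lit 76) (nat_lit 6466878178) (nat_lit 130) (nat_lit 5) (nat_lit 136) (nat_lit 5) (nat_lit 131) (nat_lit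 5) (nat_lit 387) (nat_lit 357) (nat_lit 276))))))))
noncomputable def xc79 : XT := (XT.nd (nat_lit 1950) (nat_lit 2128) (nat_lit 0) (XT.nd (nat_lit 936) (nat_lit 2280) (nat_lit 0) (XT.nd (nat_lit 468) (nat_lit 1596) (nat_lit 0) (XT.nd (nat_lit 234) (nat_lit 608) (nat_lit 0) (XT.nd (nat_lit 78) (nat_lit 684) (nat_lit 0) (XT.lf (nat_lit 0) (nat_lit 6329138985) (nat_lit 304) (nat_lit 2007812085) (nat_lit 380) (nat_lit 13849201462) (nat_lit 126) (nat_lit 5) (nat_lit 130) (nat_lit 5) (nat_lit 131) (nat_lit 5) (nat_lit 388) (nat_lit 357) (nat_lit 275)) (XT.nd (nat_lit 78) (nat_lit 380) (nat_lit 0) (XT.lf (nat_lit 0) (nat_lit 4903227131) (nat_lit 304) (nat_lit 11223651367) (nat_lit 380) (nat_lit 6744704952) (nat_lit 122) (nat_lit 5) (nat_lit 126) (nat_lit 5) (nat_lit 127) (nat_lit 5) (nat_lit 389) (nat_lit 357) (nat_lit 274)) (XT.lf (nat_lit 0) (nat_lit 919651155) (nat_lit 380) (nat_lit 20160501914)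 (nat_lit 76) (nat_lit 2504375107) (nat_lit 117) (nat_lit 5) (nat_lit 122) (nat_lit 5) (nat_lit 118) (nat_lit 5) (nat_lit 390) (nat_lit 357) (nat_lit 273)))) (XT.nd (nat_lit 78) (nat_lit 304) (nat_lit 0) (XT.lf (nat_lit 0) (nat_lit 1749622601) (nat_lit 304) (nat_lit 7372784460) (nat_lit 380) (nat_lit 15199875304) (nat_lit 113) (nat_lit 5) (nat_lit 117) (nat_lit 5) (nat_lit 118) (nat_lit 5) (nat_lit 391) (nat_lit 357) (nat_lit 272)) (XT.nd (nat_lit 78) (nat_lit 304) (nat_lit 0) (XT.lf (nat_lit 0) (nat_lit 17989525268) (nat_lit 380) (nat_lit 18521445) (nat_lit 76) (nat_lit 7081256326) (nat_lit 113) (nat_lit 5) (nat_lit 118) (nat_lit 5) (nat_lit 114) (nat_lit 5) (nat_lit 392) (nat_lit 357) (nat_lit 271)) (XT.lf (nat_lit 0) (nat_lit 1664301171) (nat_lit 304) (nat_lit 1877953042) (nat_lit 76) (nat_lit 22343428381) (nat_lit 109) (nat_lit 5) (nat_lit 113) (nat_lit 5) (nat_lit 110) (nat_lit 5) (nat_lit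 393) (nat_lit 357) (nat_lit 270))))) (XT.nd (nat_lit 234) (nat_lit 760) (nat_lit 0) (XT.nd (nat_lit 78) (nat_lit 532) (nat_lit 0) (XT.lf (nat_lit 0) (nat_lit 11034497589) (nat_lit 380) (nat_lit 3973028880) (nat_lit 76) (nat_lit 11702808234) (nat_lit 105) (nat_lit 5) (nat_lit 110) (nat_lit 5) (nat_lit 106) (nat_lit 5) (nat_lit 394) (nat_lit 357) (nat_lit 269)) (XT.nd (nat_lit 78) (nat_lit 304) (nat_lit 0) (XT.lf (nat_lit 0) (nat_lit 21116227399) (nat_lit 304) (nat_lit 6175458791) (nat_lit 76) (nat_lit 277247143) (nat_lit 102) (nat_lit 5) (nat_lit 106) (nat_lit 5) (nat_lit 103) (nat_lit 5) (nat_lit 395) (nat_lit 357) (nat_lit 268)) (XT.lf (nat_lit 0) (nat_lit 3535591912) (nat_lit 304) (nat_lit 8648552997) (nat_lit 76) (nat_lit 16274377244) (nat_lit 98) (nat_lit 5) (nat_lit 102) (nat_lit 5) (nat_lit 99) (nat_lit 5) (nat_lit 396) (nat_lit 357) (nat_lit 267)))) (XT.nd (nat_lit 78) (nat_lit 532) (nat_lit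 0) (XT.lf (nat_lit 0) (nat_lit 14147819290) (nat_lit 304) (nat_lit 11333366745) (nat_lit 76) (nat_lit 3901752810) (nat_lit 95) (nat_lit 5) (nat_lit 99) (nat_lit 5) (nat_lit 96) (nat_lit 5) (nat_lit 397) (nat_lit 357) (nat_lit 266)) (XT.nd (nat_lit 78) (nat_lit 304) (nat_lit 0) (XT.lf (nat_lit 0) (nat_lit 16071326547) (nat_lit 228) (nat_lit 9567629905) (nat_lit 304) (nat_lit 4704174844) (nat_lit 92) (nat_lit 5) (nat_lit 95) (nat_lit 5) (nat_lit 96) (nat_lit 5) (nat_lit 398) (nat_lit 357) (nat_lit 265)) (XT.lf (nat_lit 0) (nat_lit 6533904267) (nat_lit 304) (nat_lit 17499946566) (nat_lit 76) (nat_lit 7306517066) (nat_lit 88) (nat_lit 5) (nat_lit 92) (nat_lit 5) (nat_lit 89) (nat_lit 5) (nat_lit 399) (nat_lit 357) (nat_lit 264)))))) (XT.nd (nat_lit 468) (nat_lit 1140) (nat_lit 0) (XT.nd (nat_lit 234) (nat_lit 456) (nat_lit 0) (XT.nd (nat_lit 78) (nat_lit 456) (nat_lit 0) (XT.lf (nat_lit 0) (nat_lit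 11318901326) (nat_lit 228) (nat_lit 7254195057) (nat_lit 304) (nat_lit 13802881125) (nat_lit 85) (nat_lit 5) (nat_lit 88) (nat_lit 5) (nat_lit 89) (nat_lit 5) (nat_lit 400) (nat_lit 357) (nat_lit 263)) (XT.nd (nat_lit 78) (nat_lit 304) (nat_lit 0) (XT.lf (nat_lit 0) (nat_lit 8521835621) (nat_lit 152) (nat_lit 23038215025) (nat_lit 228) (nat_lit 1892946128) (nat_lit 83) (nat_lit 5) (nat_lit 85) (nat_lit 5) (nat_lit 86) (nat_lit 5) (nat_lit 401) (nat_lit 357) (nat_lit 262)) (XT.lf (nat_lit 0) (nat_lit 5340217437) (nat_lit 228) (nat_lit 5391362329) (nat_lit 304) (nat_lit 23839444373) (nat_lit 79) (nat_lit 5) (nat_lit 82) (nat_lit 5) (nat_lit 83) (nat_lit 5) (nat_lit 402) (nat_lit 357) (nat_lit 261)))) (XT.nd (nat_lit 78) (nat_lit 304) (nat_lit 0) (XT.lf (nat_lit 0) (nat_lit 1766906545) (nat_lit 152) (nat_lit 22567261747) (nat_lit 228) (nat_lit 11398645623) (nat_lit 77) (nat_lit 5) (nat_lit 79) (nat_lit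 5) (nat_lit 80) (nat_lit 5) (nat_lit 403) (nat_lit 357) (nat_lit 260)) (XT.nd (nat_lit 78) (nat_lit 228) (nat_lit 0) (XT.lf (nat_lit 0) (nat_lit 1973553501) (nat_lit 228) (nat_lit 2119763527) (nat_lit 76) (nat_lit 32848643834) (nat_lit 76) (nat_lit 5) (nat_lit 79) (nat_lit 5) (nat_lit 77) (nat_lit 5) (nat_lit 404) (nat_lit 357) (nat_lit 259)) (XT.lf (nat_lit 0) (nat_lit 16221960546) (nat_lit 304) (nat_lit 6553183117) (nat_lit 76) (nat_lit 15419738099) (nat_lit 73) (nat_lit 5) (nat_lit 77) (nat_lit 5) (nat_lit 74) (nat_lit 5) (nat_lit 405) (nat_lit 357) (nat_lit 258))))) (XT.nd (nat_lit 234) (nat_lit 608) (nat_lit 0) (XT.nd (nat_lit 78) (nat_lit 380) (nat_lit 0) (XT.lf (nat_lit 0) (nat_lit 28106360935) (nat_lit 152) (nat_lit 3394666413) (nat_lit 228) (nat_lit 7999876576) (nat_lit 71) (nat_lit 5) (nat_lit 73) (nat_lit 5) (nat_lit 74) (nat_lit 5) (nat_lit 406) (nat_lit 357) (nat_lit 257)) (XT.nd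 (nat_lit 78) (nat_lit 152) (nat_lit 0) (XT.lf (nat_lit 0) (nat_lit 6993392398) (nat_lit 228) (nat_lit 16882079397) (nat_lit 76) (nat_lit 16981280713) (nat_lit 68) (nat_lit 5) (nat_lit 71) (nat_lit 5) (nat_lit 69) (nat_lit 5) (nat_lit 407) (nat_lit 357) (nat_lit 256)) (XT.lf (nat_lit 0) (nat_lit 19308761349) (nat_lit 152) (nat_lit 3587394837) (nat_lit 228) (nat_lit 19372104815) (nat_lit 66) (nat_lit 5) (nat_lit 68) (nat_lit 5) (nat_lit 69) (nat_lit 5) (nat_lit 408) (nat_lit 357) (nat_lit 255)))) (XT.nd (nat_lit 156) (nat_lit 228) (nat_lit 0) (XT.nd (nat_lit 78) (nat_lit 228) (nat_lit 0) (XT.lf (nat_lit 0) (nat_lit 13992804085) (nat_lit 152) (nat_lit 26067325932) (nat_lit 228) (nat_lit 3676234761) (nat_lit 64) (nat_lit 5) (nat_lit 66) (nat_lit 5) (nat_lit 67) (nat_lit 5) (nat_lit 409) (nat_lit 357) (nat_lit 254)) (XT.lf (nat_lit 0) (nat_lit 7971039903) (nat_lit 152) (nat_lit 4921122144) (nat_lit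 228) (nat_lit 32371893227) (nat_lit 61) (nat_lit 5) (nat_lit 63) (nat_lit 5) (nat_lit 64) (nat_lit 5) (nat_lit 410) (nat_lit 357) (nat_lit 253))) (XT.nd (nat_lit 78) (nat_lit 76) (nat_lit 0) (XT.lf (nat_lit 0) (nat_lit 1125476752) (nat_lit 152) (nat_lit 29560749875) (nat_lit 228) (nat_lit 16166615145) (nat_lit 59) (nat_lit 5) (nat_lit 61) (nat_lit 5) (nat_lit 62) (nat_lit 5) (nat_lit 411) (nat_lit 357) (nat_lit 252)) (XT.lf (nat_lit 0) (nat_lit 1256428595) (nat_lit 228) (nat_lit 6350745481) (nat_lit 76) (nat_lit 40900928326) (nat_lit 58) (nat_lit 5) (nat_lit 61) (nat_lit 5) (nat_lit 59) (nat_lit 5) (nat_lit 412) (nat_lit 357) (nat_lit 251))))))) (XT.nd (nat_lit 936) (nat_lit 608) (nat_lit 0) (XT.nd (nat_lit 468) (nat_lit 760) (nat_lit 0) (XT.nd (nat_lit 234) (nat_lit 304) (nat_lit 0) (XT.nd (nat_lit 78) (nat_lit 304) (nat_lit 0) (XT.lf (nat_lit 0) (nat_lit 19701333453) (nat_lit 228) (nat_lit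 14883073679) (nat_lit 76) (nat_lit 15642366749) (nat_lit 56) (nat_lit 5) (nat_lit 59) (nat_lit 5) (nat_lit 57) (nat_lit 5) (nat_lit 413) (nat_lit 357) (nat_lit 250)) (XT.nd (nat_lit 78) (nat_lit 152) (nat_lit 0) (XT.lf (nat_lit 0) (nat_lit 27666337234) (nat_lit 152) (nat_lit 11798525338) (nat_lit 228) (nat_lit 12554626480) (nat_lit 54) (nat_lit 5) (nat_lit 56) (nat_lit 5) (nat_lit 57) (nat_lit 5) (nat_lit 414) (nat_lit 357) (nat_lit 249)) (XT.lf (nat_lit 0) (nat_lit 6637608837) (nat_lit 152) (nat_lit 34966144306) (nat_lit 76) (nat_lit 12282884069) (nat_lit 52) (nat_lit 5) (nat_lit 54) (nat_lit 5) (nat_lit 53) (nat_lit 5) (nat_lit 415) (nat_lit 357) (nat_lit 248)))) (XT.nd (nat_lit 78) (nat_lit 152) (nat_lit 0) (XT.lf (nat_lit 0) (nat_lit 8931604619) (nat_lit 152) (nat_lit 18046905484) (nat_lit 228) (nat_lit 28851443797) (nat_lit 50) (nat_lit 5) (nat_lit 52) (nat_lit 5) (nat_lit 53) (nat_lit 5)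 (nat_lit 416) (nat_lit 357) (nat_lit 247)) (XT.nd (nat_lit 78) (nat_lit 152) (nat_lit 0) (XT.lf (nat_lit 0) (nat_lit 48752696506) (nat_lit 228) (nat_lit 2193702489) (nat_lit 76) (nat_lit 6911551472) (nat_lit 50) (nat_lit 5) (nat_lit 53) (nat_lit 5) (nat_lit 51) (nat_lit 4) (nat_lit 417) (nat_lit 357) (nat_lit 246)) (XT.lf (nat_lit 0) (nat_lit 12015204022) (nat_lit 152) (nat_lit 14656510344) (nat_lit 76) (nat_lit 33293864289) (nat_lit 48) (nat_lit 5) (nat_lit 50) (nat_lit 5) (nat_lit 49) (nat_lit 5) (nat_lit 418) (nat_lit 357) (nat_lit 245))))) (XT.nd (nat_lit 234) (nat_lit 304) (nat_lit 0) (XT.nd (nat_lit 78) (nat_lit 304) (nat_lit 0) (XT.lf (nat_lit 0) (nat_lit 33598638539) (nat_lit 152) (nat_lit 741485942) (nat_lit 228) (nat_lit 27825657832) (nat_lit 46) (nat_lit 5) (nat_lit 48) (nat_lit 5) (nat_lit 49) (nat_lit 5) (nat_lit 419) (nat_lit 357) (nat_lit 244)) (XT.nd (nat_lit 78) (nat_lit 228)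 (nat_lit 0) (XT.lf (nat_lit 0) (nat_lit 20220400496) (nat_lit 76) (nat_lit 38151690981) (nat_lit 152) (nat_lit 6086181709) (nat_lit 45) (nat_lit 5) (nat_lit 46) (nat_lit 5) (nat_lit 47) (nat_lit 4) (nat_lit 420) (nat_lit 357) (nat_lit 243)) (XT.lf (nat_lit 0) (nat_lit 5096780046) (nat_lit 152) (nat_lit 11659973249) (nat_lit 228) (nat_lit 50093514302) (nat_lit 42) (nat_lit 5) (nat_lit 44) (nat_lit 5) (nat_lit 45) (nat_lit 5) (nat_lit 421) (nat_lit 357) (nat_lit 242)))) (XT.nd (nat_lit 78) (nat_lit 304) (nat_lit 0) (XT.lf (nat_lit 0) (nat_lit 41222253104) (nat_lit 228) (nat_lit 11765595607) (nat_lit 76) (nat_lit 16354017475) (nat_lit 42) (nat_lit 5) (nat_lit 45) (nat_lit 5) (nat_lit 43) (nat_lit 4) (nat_lit 422) (nat_lit 357) (nat_lit 241)) (XT.nd (nat_lit 78) (nat_lit 228) (nat_lit 0) (XT.lf (nat_lit 0) (nat_lit 41393881268) (nat_lit 76) (nat_lit 26023133392) (nat_lit 152) (nat_lit 4525851319)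 (nat_lit 41) (nat_lit 5) (nat_lit 42) (nat_lit 5) (nat_lit 43) (nat_lit 4) (nat_lit 423) (nat_lit 357) (nat_lit 240)) (XT.lf (nat_lit 0) (nat_lit 20213975961) (nat_lit 228) (nat_lit 51662513219) (nat_lit 76) (nat_lit 2780743994) (nat_lit 38) (nat_lit 5) (nat_lit 41) (nat_lit 5) (nat_lit 39) (nat_lit 4) (nat_lit 424) (nat_lit 357) (nat_lit 239)))))) (XT.nd (nat_lit 468) (nat_lit 76) (nat_lit 0) (XT.nd (nat_lit 234) (nat_lit 228) (nat_lit 0) (XT.nd (nat_lit 78) (nat_lit 228) (nat_lit 0) (XT.lf (nat_lit 0) (nat_lit 2067769215) (nat_lit 76) (nat_lit 44621218833) (nat_lit 152) (nat_lit 30799233291) (nat_lit 37) (nat_lit 5) (nat_lit 38) (nat_lit 5) (nat_lit 39) (nat_lit 4) (nat_lit 425) (nat_lit 357) (nat_lit 238)) (XT.nd (nat_lit 78) (nat_lit 228) (nat_lit 0) (XT.lf (nat_lit 0) (nat_lit 59547416672) (nat_lit 76) (nat_lit 15463233086) (nat_lit 152) (nat_lit 5434422920) (nat_lit 37) (nat_lit 5) (nat_lit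 38) (nat_lit 5) (nat_lit 39) (nat_lit 4) (nat_lit 426) (nat_lit 357) (nat_lit 237)) (XT.lf (nat_lit 0) (nat_lit 21281723602) (nat_lit 228) (nat_lit 46833920104) (nat_lit 76) (nat_lit 15413107616) (nat_lit 34) (nat_lit 5) (nat_lit 37) (nat_lit 5) (nat_lit 35) (nat_lit 4) (nat_lit 427) (nat_lit 357) (nat_lit 236)))) (XT.nd (nat_lit 78) (nat_lit 152) (nat_lit 0) (XT.lf (nat_lit 0) (nat_lit 10825842638) (nat_lit 76) (nat_lit 38865485694) (nat_lit 152) (nat_lit 37059570737) (nat_lit 33) (nat_lit 5) (nat_lit 34) (nat_lit 5) (nat_lit 35) (nat_lit 4) (nat_lit 428) (nat_lit 357) (nat_lit 235)) (XT.nd (nat_lit 78) (nat_lit 152) (nat_lit 0) (XT.lf (nat_lit 0) (nat_lit 72331902979) (nat_lit 76) (nat_lit 7663482692) (nat_lit 152) (nat_lit 10124549979) (nat_lit 33) (nat_lit 5) (nat_lit 34) (nat_lit 5) (nat_lit 35) (nat_lit 4) (nat_lit 429) (nat_lit 357) (nat_lit 234)) (XT.lf (nat_lit 0) (nat_lit 18464403177)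 (nat_lit 152) (nat_lit 49963255528) (nat_lit 76) (nat_lit 25204684951) (nat_lit 31) (nat_lit 5) (nat_lit 33) (nat_lit 5) (nat_lit 32) (nat_lit 4) (nat_lit 430) (nat_lit 357) (nat_lit 233))))) (XT.nd (nat_lit 47502) (nat_lit 0) (nat_lit 17860) (XT.nd (nat_lit 78) (nat_lit 0) (nat_lit 0) (XT.lf (nat_lit 0) (nat_lit 11280123250) (nat_lit 76) (nat_lit 37358280192) (nat_lit 152) (nat_lit 48668012151) (nat_lit 30) (nat_lit 5) (nat_lit 31) (nat_lit 5) (nat_lit 32) (nat_lit 4) (nat_lit 431) (nat_lit 357) (nat_lit 232)) (XT.nd (nat_lit 47346) (nat_lit 0) (nat_lit 18848) (XT.lf (nat_lit 0) (nat_lit 76615628469) (nat_lit 76) (nat_lit 4212370206) (nat_lit 152) (nat_lit 20320986121) (nat_lit 30) (nat_lit 5) (nat_lit 31) (nat_lit 5) (nat_lit 32) (nat_lit 4) (nat_lit 432) (nat_lit 357) (nat_lit 231)) (XT.lf (nat_lit 0) (nat_lit 3615989047) (nat_lit 1140) (nat_lit 755171783) (nat_lit 1140) (nat_lit 755171783)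 (nat_lit 278) (nat_lit 3) (nat_lit 293) (nat_lit 3) (nat_lit 293) (nat_lit 5) (nat_lit 358) (nat_lit 358) (nat_lit 304)))) (XT.nd (nat_lit 156) (nat_lit 988) (nat_lit 0) (XT.nd (nat_lit 78) (nat_lit 0) (nat_lit 76) (XT.lf (nat_lit 76) (nat_lit 6869005831) (nat_lit 0) (nat_lit 1681817116) (nat_lit 1140) (nat_lit 1923522501) (nat_lit 279) (nat_lit 5) (nat_lit 278) (nat_lit 3) (nat_lit 293) (nat_lit 5) (nat_lit 359) (nat_lit 358) (nat_lit 303)) (XT.lf (nat_lit 76) (nat_lit 4996003376) (nat_lit 0) (nat_lit 4989776905) (nat_lit 1140) (nat_lit 719855983) (nat_lit 280) (nat_lit 5) (nat_lit 279) (nat_lit 5) (nat_lit 294) (nat_lit 5) (nat_lit 360) (nat_lit 358) (nat_lit 302))) (XT.nd (nat_lit 78) (nat_lit 0) (nat_lit 0) (XT.lf (nat_lit 0) (nat_lit 576776003) (nat_lit 1140) (nat_lit 7817186011) (nat_lit 1216) (nat_lit 2553100109) (nat_lit 265) (nat_lit 5) (nat_lit 280) (nat_lit 5) (nat_lit 281) (nat_lit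 5) (nat_lit 361) (nat_lit 358) (nat_lit 301)) (XT.lf (nat_lit 76) (nat_lit 1258422837) (nat_lit 0) (nat_lit 723512850) (nat_lit 1216) (nat_lit 9216680161) (nat_lit 266) (nat_lit 5) (nat_lit 265) (nat_lit 5) (nat_lit 281) (nat_lit 5) (nat_lit 362) (nat_lit 358) (nat_lit 300))))))))
noncomputable def xc80 : XT := (XT.nd (nat_lit 1872) (nat_lit 6004) (nat_lit 0) (XT.nd (nat_lit 936) (nat_lit 5016) (nat_lit 0) (XT.nd (nat_lit 468) (nat_lit 3648) (nat_lit 0) (XT.nd (nat_lit 234) (nat_lit 912) (nat_lit 0) (XT.nd (nat_lit 78) (nat_lit 0) (nat_lit 76) (XT.lf (nat_lit 0) (nat_lit 3548572265) (nat_lit 1140) (nat_lit 621147908) (nat_lit 1216) (nat_lit 7290317096) (nat_lit 266) (nat_lit 5) (nat_lit 281) (nat_lit 5) (nat_lit 282) (nat_lit 5) (nat_lit 363) (nat_lit 358) (nat_lit 299)) (XT.nd (nat_lit 78) (nat_lit 0) (nat_lit 76) (XT.lf (nat_lit 0) (nat_lit 5271691878) (nat_lit 1140) (nat_lit 2473248287) (nat_lit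 1216) (nat_lit 3987270370) (nat_lit 267) (nat_lit 5) (nat_lit 282) (nat_lit 5) (nat_lit 283) (nat_lit 5) (nat_lit 364) (nat_lit 358) (nat_lit 298)) (XT.lf (nat_lit 0) (nat_lit 7153687426) (nat_lit 1140) (nat_lit 4324485578) (nat_lit 1216) (nat_lit 537661968) (nat_lit 268) (nat_lit 5) (nat_lit 283) (nat_lit 5) (nat_lit 284) (nat_lit 5) (nat_lit 365) (nat_lit 358) (nat_lit 297)))) (XT.nd (nat_lit 78) (nat_lit 1064) (nat_lit 0) (XT.lf (nat_lit 76) (nat_lit 6103526926) (nat_lit 0) (nat_lit 3136122021) (nat_lit 1216) (nat_lit 3070718657) (nat_lit 269) (nat_lit 5) (nat_lit 268) (nat_lit 5) (nat_lit 284) (nat_lit 5) (nat_lit 366) (nat_lit 358) (nat_lit 296)) (XT.nd (nat_lit 78) (nat_lit 1140) (nat_lit 0) (XT.lf (nat_lit 76) (nat_lit 4518054245) (nat_lit 0) (nat_lit 7003851388) (nat_lit 1216) (nat_lit 1094983185) (nat_lit 270) (nat_lit 5) (nat_lit 269) (nat_lit 5) (nat_lit 285) (nat_lit 5) (nat_lit 367)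 (nat_lit 358) (nat_lit 295)) (XT.lf (nat_lit 0) (nat_lit 1054391123) (nat_lit 1216) (nat_lit 10007150840) (nat_lit 76) (nat_lit 1874112879) (nat_lit 254) (nat_lit 5) (nat_lit 270) (nat_lit 5) (nat_lit 255) (nat_lit 5) (nat_lit 368) (nat_lit 358) (nat_lit 294))))) (XT.nd (nat_lit 234) (nat_lit 1824) (nat_lit 0) (XT.nd (nat_lit 78) (nat_lit 608) (nat_lit 0) (XT.lf (nat_lit 0) (nat_lit 1310797337) (nat_lit 1216) (nat_lit 2098594398) (nat_lit 1292) (nat_lit 9857037338) (nat_lit 238) (nat_lit 5) (nat_lit 254) (nat_lit 5) (nat_lit 255) (nat_lit 5) (nat_lit 369) (nat_lit 358) (nat_lit 293)) (XT.nd (nat_lit 78) (nat_lit 608) (nat_lit 0) (XT.lf (nat_lit 0) (nat_lit 6011478834) (nat_lit 1292) (nat_lit 319258080) (nat_lit 76) (nat_lit 7279143345) (nat_lit 238) (nat_lit 5) (nat_lit 255) (nat_lit 5) (nat_lit 239) (nat_lit 5) (nat_lit 370) (nat_lit 358) (nat_lit 292)) (XT.lf (nat_lit 0) (nat_lit 8869177281)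 (nat_lit 684) (nat_lit 1924534956) (nat_lit 76) (nat_lit 3173044023) (nat_lit 230) (nat_lit 5) (nat_lit 239) (nat_lit 5) (nat_lit 231) (nat_lit 5) (nat_lit 371) (nat_lit 358) (nat_lit 291)))) (XT.nd (nat_lit 78) (nat_lit 1216) (nat_lit 0) (XT.lf (nat_lit 0) (nat_lit 10794514600) (nat_lit 608) (nat_lit 1205084069) (nat_lit 684) (nat_lit 2337998883) (nat_lit 222) (nat_lit 5) (nat_lit 230) (nat_lit 5) (nat_lit 231) (nat_lit 5) (nat_lit 372) (nat_lit 358) (nat_lit 290)) (XT.nd (nat_lit 78) (nat_lit 532) (nat_lit 0) (XT.lf (nat_lit 0) (nat_lit 707405070) (nat_lit 684) (nat_lit 5204758472) (nat_lit 76) (nat_lit 8809908465) (nat_lit 213) (nat_lit 5) (nat_lit 222) (nat_lit 5) (nat_lit 214) (nat_lit 5) (nat_lit 373) (nat_lit 358) (nat_lit 289)) (XT.lf (nat_lit 0) (nat_lit 3988738293) (nat_lit 608) (nat_lit 6897621856) (nat_lit 76) (nat_lit 4234769854) (nat_lit 206) (nat_lit 5) (nat_lit 214) (nat_lit 5)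 (nat_lit 207) (nat_lit 5) (nat_lit 374) (nat_lit 358) (nat_lit 288)))))) (XT.nd (nat_lit 468) (nat_lit 2128) (nat_lit 0) (XT.nd (nat_lit 234) (nat_lit 1368) (nat_lit 0) (XT.nd (nat_lit 78) (nat_lit 988) (nat_lit 0) (XT.lf (nat_lit 0) (nat_lit 6929433012) (nat_lit 532) (nat_lit 648140749) (nat_lit 608) (nat_lit 7958278018) (nat_lit 199) (nat_lit 5) (nat_lit 206) (nat_lit 5) (nat_lit 207) (nat_lit 5) (nat_lit 375) (nat_lit 358) (nat_lit 287)) (XT.nd (nat_lit 78) (nat_lit 532) (nat_lit 0) (XT.lf (nat_lit 0) (nat_lit 5595234452) (nat_lit 456) (nat_lit 5937633028) (nat_lit 532) (nat_lit 4432844956) (nat_lit 193) (nat_lit 5) (nat_lit 199) (nat_lit 5) (nat_lit 200) (nat_lit 5) (nat_lit 376) (nat_lit 358) (nat_lit 286)) (XT.lf (nat_lit 0) (nat_lit 4263199988) (nat_lit 532) (nat_lit 11571586882) (nat_lit 608) (nat_lit 577826078) (nat_lit 186) (nat_lit 5) (nat_lit 193) (nat_lit 5) (nat_lit 194) (nat_lit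 5) (nat_lit 377) (nat_lit 358) (nat_lit 285)))) (XT.nd (nat_lit 78) (nat_lit 836) (nat_lit 0) (XT.lf (nat_lit 0) (nat_lit 2890283716) (nat_lit 456) (nat_lit 674119083) (nat_lit 532) (nat_lit 13311601625) (nat_lit 179) (nat_lit 5) (nat_lit 185) (nat_lit 5) (nat_lit 186) (nat_lit 5) (nat_lit 378) (nat_lit 358) (nat_lit 284)) (XT.nd (nat_lit 78) (nat_lit 380) (nat_lit 0) (XT.lf (nat_lit 0) (nat_lit 1456665210) (nat_lit 456) (nat_lit 6656882844) (nat_lit 532) (nat_lit 9242504273) (nat_lit 173) (nat_lit 5) (nat_lit 179) (nat_lit 5) (nat_lit 180) (nat_lit 5) (nat_lit 379) (nat_lit 358) (nat_lit 283)) (XT.lf (nat_lit 0) (nat_lit 15966056) (nat_lit 380) (nat_lit 13041239797) (nat_lit 456) (nat_lit 4797895724) (nat_lit 168) (nat_lit 5) (nat_lit 173) (nat_lit 5) (nat_lit 174) (nat_lit 5) (nat_lit 380) (nat_lit 358) (nat_lit 282))))) (XT.nd (nat_lit 234) (nat_lit 1216) (nat_lit 0) (XT.nd (nat_lit 78) (nat_lit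 836) (nat_lit 0) (XT.lf (nat_lit 0) (nat_lit 73740410) (nat_lit 456) (nat_lit 1419931829) (nat_lit 76) (nat_lit 16879411464) (nat_lit 167) (nat_lit 5) (nat_lit 173) (nat_lit 5) (nat_lit 168) (nat_lit 5) (nat_lit 381) (nat_lit 358) (nat_lit 281)) (XT.nd (nat_lit 78) (nat_lit 380) (nat_lit 0) (XT.lf (nat_lit 0) (nat_lit 5320262234) (nat_lit 532) (nat_lit 2966646284) (nat_lit 76) (nat_lit 10621724693) (nat_lit 161) (nat_lit 5) (nat_lit 168) (nat_lit 5) (nat_lit 162) (nat_lit 5) (nat_lit 382) (nat_lit 358) (nat_lit 280)) (XT.lf (nat_lit 0) (nat_lit 11013471310) (nat_lit 456) (nat_lit 4532406232) (nat_lit 76) (nat_lit 3919560715) (nat_lit 156) (nat_lit 5) (nat_lit 162) (nat_lit 5) (nat_lit 157) (nat_lit 5) (nat_lit 383) (nat_lit 358) (nat_lit 279)))) (XT.nd (nat_lit 78) (nat_lit 836) (nat_lit 0) (XT.lf (nat_lit 0) (nat_lit 13892456625) (nat_lit 380) (nat_lit 3320001124) (nat_lit 456) (nat_lit 2831000777)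 (nat_lit 151) (nat_lit 5) (nat_lit 156) (nat_lit 5) (nat_lit 157) (nat_lit 5) (nat_lit 384) (nat_lit 358) (nat_lit 278)) (XT.nd (nat_lit 78) (nat_lit 380) (nat_lit 0) (XT.lf (nat_lit 0) (nat_lit 3249093097) (nat_lit 456) (nat_lit 7867814262) (nat_lit 76) (nat_lit 9525454493) (nat_lit 145) (nat_lit 5) (nat_lit 151) (nat_lit 5) (nat_lit 146) (nat_lit 5) (nat_lit 385) (nat_lit 358) (nat_lit 277)) (XT.lf (nat_lit 0) (nat_lit 9777148917) (nat_lit 456) (nat_lit 9647360089) (nat_lit 76) (nat_lit 1839792711) (nat_lit 140) (nat_lit 5) (nat_lit 146) (nat_lit 5) (nat_lit 141) (nat_lit 5) (nat_lit 386) (nat_lit 358) (nat_lit 276))))))) (XT.nd (nat_lit 936) (nat_lit 2584) (nat_lit 0) (XT.nd (nat_lit 468) (nat_lit 1368) (nat_lit 0) (XT.nd (nat_lit 234) (nat_lit 988) (nat_lit 0) (XT.nd (nat_lit 78) (nat_lit 760) (nat_lit 0) (XT.lf (nat_lit 0) (nat_lit 10380910808) (nat_lit 304) (nat_lit 6519907106) (nat_lit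 380) (nat_lit 5008451459) (nat_lit 136) (nat_lit 5) (nat_lit 140) (nat_lit 5) (nat_lit 141) (nat_lit 5) (nat_lit 387) (nat_lit 358) (nat_lit 275)) (XT.nd (nat_lit 78) (nat_lit 304) (nat_lit 0) (XT.lf (nat_lit 0) (nat_lit 1993028693) (nat_lit 456) (nat_lit 13495042907) (nat_lit 76) (nat_lit 7090887336) (nat_lit 130) (nat_lit 5) (nat_lit 136) (nat_lit 5) (nat_lit 131) (nat_lit 5) (nat_lit 388) (nat_lit 358) (nat_lit 274)) (XT.lf (nat_lit 0) (nat_lit 7688391381) (nat_lit 304) (nat_lit 1789903433) (nat_lit 380) (nat_lit 13795237933) (nat_lit 126) (nat_lit 5) (nat_lit 130) (nat_lit 5) (nat_lit 131) (nat_lit 5) (nat_lit 389) (nat_lit 358) (nat_lit 273)))) (XT.nd (nat_lit 78) (nat_lit 684) (nat_lit 0) (XT.lf (nat_lit 0) (nat_lit 6179619297) (nat_lit 304) (nat_lit 11456426306) (nat_lit 380) (nat_lit 6357848965) (nat_lit 122) (nat_lit 5) (nat_lit 126) (nat_lit 5) (nat_lit 127) (nat_lit 5) (nat_lit 390)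 (nat_lit 358) (nat_lit 272)) (XT.nd (nat_lit 78) (nat_lit 304) (nat_lit 0) (XT.lf (nat_lit 0) (nat_lit 1654718706) (nat_lit 380) (nat_lit 20135380495) (nat_lit 76) (nat_lit 2952813294) (nat_lit 117) (nat_lit 5) (nat_lit 122) (nat_lit 5) (nat_lit 118) (nat_lit 5) (nat_lit 391) (nat_lit 358) (nat_lit 271)) (XT.lf (nat_lit 0) (nat_lit 2840635308) (nat_lit 304) (nat_lit 7403810087) (nat_lit 380) (nat_lit 15273812081) (nat_lit 113) (nat_lit 5) (nat_lit 117) (nat_lit 5) (nat_lit 118) (nat_lit 5) (nat_lit 392) (nat_lit 358) (nat_lit 270))))) (XT.nd (nat_lit 234) (nat_lit 760) (nat_lit 0) (XT.nd (nat_lit 78) (nat_lit 380) (nat_lit 0) (XT.lf (nat_lit 0) (nat_lit 971340389) (nat_lit 228) (nat_lit 18564296669) (nat_lit 304) (nat_lit 6788578289) (nat_lit 110) (nat_lit 5) (nat_lit 113) (nat_lit 5) (nat_lit 114) (nat_lit 5) (nat_lit 393) (nat_lit 358) (nat_lit 269)) (XT.nd (nat_lit 78) (nat_lit 304) (nat_lit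 0) (XT.lf (nat_lit 0) (nat_lit 2369784027) (nat_lit 304) (nat_lit 1015348010) (nat_lit 76) (nat_lit 23776024463) (nat_lit 109) (nat_lit 5) (nat_lit 113) (nat_lit 5) (nat_lit 110) (nat_lit 5) (nat_lit 394) (nat_lit 358) (nat_lit 268)) (XT.lf (nat_lit 0) (nat_lit 12190937698) (nat_lit 380) (nat_lit 3227561471) (nat_lit 76) (nat_lit 12609075393) (nat_lit 105) (nat_lit 5) (nat_lit 110) (nat_lit 5) (nat_lit 106) (nat_lit 5) (nat_lit 395) (nat_lit 358) (nat_lit 267)))) (XT.nd (nat_lit 78) (nat_lit 532) (nat_lit 0) (XT.lf (nat_lit 0) (nat_lit 22759967813) (nat_lit 304) (nat_lit 5552699323) (nat_lit 76) (nat_lit 616946021) (nat_lit 102) (nat_lit 5) (nat_lit 106) (nat_lit 5) (nat_lit 103) (nat_lit 5) (nat_lit 396) (nat_lit 358) (nat_lit 266)) (XT.nd (nat_lit 78) (nat_lit 228) (nat_lit 0) (XT.lf (nat_lit 0) (nat_lit 4286752147) (nat_lit 304) (nat_lit 8164599876) (nat_lit 76) (nat_lit 17412745567) (nat_lit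 98) (nat_lit 5) (nat_lit 102) (nat_lit 5) (nat_lit 99) (nat_lit 5) (nat_lit 397) (nat_lit 358) (nat_lit 265)) (XT.lf (nat_lit 0) (nat_lit 15414011426) (nat_lit 304) (nat_lit 10996356727) (nat_lit 76) (nat_lit 4424840025) (nat_lit 95) (nat_lit 5) (nat_lit 99) (nat_lit 5) (nat_lit 96) (nat_lit 5) (nat_lit 398) (nat_lit 358) (nat_lit 264)))))) (XT.nd (nat_lit 468) (nat_lit 1216) (nat_lit 0) (XT.nd (nat_lit 234) (nat_lit 608) (nat_lit 0) (XT.nd (nat_lit 78) (nat_lit 532) (nat_lit 0) (XT.lf (nat_lit 0) (nat_lit 17752667472) (nat_lit 228) (nat_lit 9708866102) (nat_lit 304) (nat_lit 4382427244) (nat_lit 92) (nat_lit 5) (nat_lit 95) (nat_lit 5) (nat_lit 96) (nat_lit 5) (nat_lit 399) (nat_lit 358) (nat_lit 263)) (XT.nd (nat_lit 78) (nat_lit 228) (nat_lit 0) (XT.lf (nat_lit 0) (nat_lit 7392200867) (nat_lit 304) (nat_lit 17498939523) (nat_lit 76) (nat_lit 8000197849) (nat_lit 88) (nat_lit 5) (nat_lit 92)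 (nat_lit 5) (nat_lit 89) (nat_lit 5) (nat_lit 400) (nat_lit 358) (nat_lit 262)) (XT.lf (nat_lit 0) (nat_lit 12735740275) (nat_lit 228) (nat_lit 7280477275) (nat_lit 304) (nat_lit 13963029592) (nat_lit 85) (nat_lit 5) (nat_lit 88) (nat_lit 5) (nat_lit 89) (nat_lit 5) (nat_lit 401) (nat_lit 358) (nat_lit 261)))) (XT.nd (nat_lit 78) (nat_lit 456) (nat_lit 0) (XT.lf (nat_lit 0) (nat_lit 9786373435) (nat_lit 152) (nat_lit 23852787300) (nat_lit 228) (nat_lit 1471361936) (nat_lit 83) (nat_lit 5) (nat_lit 85) (nat_lit 5) (nat_lit 86) (nat_lit 5) (nat_lit 402) (nat_lit 358) (nat_lit 260)) (XT.nd (nat_lit 78) (nat_lit 152) (nat_lit 0) (XT.lf (nat_lit 0) (nat_lit 6431510783) (nat_lit 228) (nat_lit 5326626682) (nat_lit 304) (nat_lit 24526654641) (nat_lit 79) (nat_lit 5) (nat_lit 82) (nat_lit 5) (nat_lit 83) (nat_lit 5) (nat_lit 403) (nat_lit 358) (nat_lit 259)) (XT.lf (nat_lit 0) (nat_lit 2667144519) (nat_lit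 152) (nat_lit 23361243493) (nat_lit 228) (nat_lit 11476661374) (nat_lit 77) (nat_lit 5) (nat_lit 79) (nat_lit 5) (nat_lit 80) (nat_lit 5) (nat_lit 404) (nat_lit 358) (nat_lit 258))))) (XT.nd (nat_lit 234) (nat_lit 760) (nat_lit 0) (XT.nd (nat_lit 78) (nat_lit 380) (nat_lit 0) (XT.lf (nat_lit 0) (nat_lit 2531581145) (nat_lit 228) (nat_lit 1443304781) (nat_lit 76) (nat_lit 34800318616) (nat_lit 76) (nat_lit 5) (nat_lit 79) (nat_lit 5) (nat_lit 77) (nat_lit 5) (nat_lit 405) (nat_lit 358) (nat_lit 257)) (XT.nd (nat_lit 78) (nat_lit 152) (nat_lit 0) (XT.lf (nat_lit 0) (nat_lit 17480870739) (nat_lit 304) (nat_lit 6110440473) (nat_lit 76) (nat_lit 16499809926) (nat_lit 73) (nat_lit 5) (nat_lit 77) (nat_lit 5) (nat_lit 74) (nat_lit 5) (nat_lit 406) (nat_lit 358) (nat_lit 256)) (XT.lf (nat_lit 0) (nat_lit 30259997369) (nat_lit 152) (nat_lit 3249762418) (nat_lit 228) (nat_lit 7953111905) (nat_lit 71) (nat_lit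 5) (nat_lit 73) (nat_lit 5) (nat_lit 74) (nat_lit 5) (nat_lit 407) (nat_lit 358) (nat_lit 255)))) (XT.nd (nat_lit 156) (nat_lit 380) (nat_lit 0) (XT.nd (nat_lit 78) (nat_lit 152) (nat_lit 0) (XT.lf (nat_lit 0) (nat_lit 7770303629) (nat_lit 228) (nat_lit 16980985704) (nat_lit 76) (nat_lit 18135421603) (nat_lit 68) (nat_lit 5) (nat_lit 71) (nat_lit 5) (nat_lit 69) (nat_lit 5) (nat_lit 408) (nat_lit 358) (nat_lit 254)) (XT.lf (nat_lit 0) (nat_lit 20998036139) (nat_lit 152) (nat_lit 3456782591) (nat_lit 228) (nat_lit 19914380681) (nat_lit 66) (nat_lit 5) (nat_lit 68) (nat_lit 5) (nat_lit 69) (nat_lit 5) (nat_lit 409) (nat_lit 358) (nat_lit 253))) (XT.nd (nat_lit 78) (nat_lit 228) (nat_lit 0) (XT.lf (nat_lit 0) (nat_lit 15404755111) (nat_lit 152) (nat_lit 27062213784) (nat_lit 228) (nat_lit 3444042961) (nat_lit 64) (nat_lit 5) (nat_lit 66) (nat_lit 5) (nat_lit 67) (nat_lit 5) (nat_lit 410) (nat_lit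 358) (nat_lit 252)) (XT.lf (nat_lit 0) (nat_lit 9069422497) (nat_lit 152) (nat_lit 4862537528) (nat_lit 228) (nat_lit 33583390360) (nat_lit 61) (nat_lit 5) (nat_lit 63) (nat_lit 5) (nat_lit 64) (nat_lit 5) (nat_lit 411) (nat_lit 358) (nat_lit 251))))))))
noncomputable def xc81 : XT := (XT.nd (nat_lit 49218) (nat_lit 0) (nat_lit 8740) (XT.nd (nat_lit 936) (nat_lit 912) (nat_lit 0) (XT.nd (nat_lit 468) (nat_lit 608) (nat_lit 0) (XT.nd (nat_lit 234) (nat_lit 456) (nat_lit 0) (XT.nd (nat_lit 78) (nat_lit 228) (nat_lit 0) (XT.lf (nat_lit 0) (nat_lit 1870242555) (nat_lit 152) (nat_lit 30736073866) (nat_lit 228) (nat_lit 16577544605) (nat_lit 59) (nat_lit 5) (nat_lit 61) (nat_lit 5) (nat_lit 62) (nat_lit 5) (nat_lit 412) (nat_lit 358) (nat_lit 250)) (XT.nd (nat_lit 78) (nat_lit 152) (nat_lit 0) (XT.lf (nat_lit 0) (nat_lit 1690341994) (nat_lit 228) (nat_lit 6005144911) (nat_lit 76) (nat_lit 43226842106)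 (nat_lit 58) (nat_lit 5) (nat_lit 61) (nat_lit 5) (nat_lit 59) (nat_lit 5) (nat_lit 413) (nat_lit 358) (nat_lit 249)) (XT.lf (nat_lit 0) (nat_lit 21048747758) (nat_lit 228) (nat_lit 14975001224) (nat_lit 76) (nat_lit 16703449591) (nat_lit 56) (nat_lit 5) (nat_lit 59) (nat_lit 5) (nat_lit 57) (nat_lit 5) (nat_lit 414) (nat_lit 358) (nat_lit 248)))) (XT.nd (nat_lit 78) (nat_lit 304) (nat_lit 0) (XT.lf (nat_lit 0) (nat_lit 29683184303) (nat_lit 152) (nat_lit 12106104260) (nat_lit 228) (nat_lit 12820597957) (nat_lit 54) (nat_lit 5) (nat_lit 56) (nat_lit 5) (nat_lit 57) (nat_lit 5) (nat_lit 415) (nat_lit 358) (nat_lit 247)) (XT.nd (nat_lit 78) (nat_lit 152) (nat_lit 0) (XT.lf (nat_lit 0) (nat_lit 7315957854) (nat_lit 152) (nat_lit 36084510054) (nat_lit 76) (nat_lit 13170068736) (nat_lit 52) (nat_lit 5) (nat_lit 54) (nat_lit 5) (nat_lit 53) (nat_lit 5) (nat_lit 416) (nat_lit 358) (nat_lit 246)) (XT.lf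 (nat_lit 0) (nat_lit 9990069172) (nat_lit 152) (nat_lit 18673218315) (nat_lit 228) (nat_lit 29948052008) (nat_lit 50) (nat_lit 5) (nat_lit 52) (nat_lit 5) (nat_lit 53) (nat_lit 5) (nat_lit 417) (nat_lit 358) (nat_lit 245))))) (XT.nd (nat_lit 234) (nat_lit 304) (nat_lit 0) (XT.nd (nat_lit 78) (nat_lit 304) (nat_lit 0) (XT.lf (nat_lit 0) (nat_lit 51512717304) (nat_lit 228) (nat_lit 1713537109) (nat_lit 76) (nat_lit 7514887195) (nat_lit 50) (nat_lit 5) (nat_lit 53) (nat_lit 5) (nat_lit 51) (nat_lit 4) (nat_lit 418) (nat_lit 358) (nat_lit 244)) (XT.nd (nat_lit 78) (nat_lit 152) (nat_lit 0) (XT.lf (nat_lit 0) (nat_lit 12931632929) (nat_lit 152) (nat_lit 14810078695) (nat_lit 76) (nat_lit 35212643721) (nat_lit 48) (nat_lit 5) (nat_lit 50) (nat_lit 5) (nat_lit 49) (nat_lit 5) (nat_lit 419) (nat_lit 358) (nat_lit 243)) (XT.lf (nat_lit 0) (nat_lit 35841223341) (nat_lit 152) (nat_lit 521952790) (nat_lit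 228) (nat_lit 28901683286) (nat_lit 46) (nat_lit 5) (nat_lit 48) (nat_lit 5) (nat_lit 49) (nat_lit 5) (nat_lit 420) (nat_lit 358) (nat_lit 242)))) (XT.nd (nat_lit 78) (nat_lit 228) (nat_lit 0) (XT.lf (nat_lit 0) (nat_lit 21784497054) (nat_lit 76) (nat_lit 39805336549) (nat_lit 152) (nat_lit 6082349926) (nat_lit 45) (nat_lit 5) (nat_lit 46) (nat_lit 5) (nat_lit 47) (nat_lit 4) (nat_lit 421) (nat_lit 358) (nat_lit 241)) (XT.nd (nat_lit 78) (nat_lit 0) (nat_lit 0) (XT.lf (nat_lit 0) (nat_lit 5894709859) (nat_lit 152) (nat_lit 11992842507) (nat_lit 228) (nat_lit 52296412779) (nat_lit 42) (nat_lit 5) (nat_lit 44) (nat_lit 5) (nat_lit 45) (nat_lit 5) (nat_lit 422) (nat_lit 358) (nat_lit 240)) (XT.lf (nat_lit 0) (nat_lit 43564666525) (nat_lit 228) (nat_lit 11830539915) (nat_lit 76) (nat_lit 17405288329) (nat_lit 42) (nat_lit 5) (nat_lit 45) (nat_lit 5) (nat_lit 43) (nat_lit 4) (nat_lit 423) (nat_lit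 358) (nat_lit 239)))))) (XT.nd (nat_lit 468) (nat_lit 228) (nat_lit 0) (XT.nd (nat_lit 234) (nat_lit 304) (nat_lit 0) (XT.nd (nat_lit 78) (nat_lit 304) (nat_lit 0) (XT.lf (nat_lit 0) (nat_lit 43971909498) (nat_lit 76) (nat_lit 27088747805) (nat_lit 152) (nat_lit 4471143738) (nat_lit 41) (nat_lit 5) (nat_lit 42) (nat_lit 5) (nat_lit 43) (nat_lit 4) (nat_lit 424) (nat_lit 358) (nat_lit 238)) (XT.nd (nat_lit 78) (nat_lit 76) (nat_lit 0) (XT.lf (nat_lit 0) (nat_lit 21494098835) (nat_lit 228) (nat_lit 53740717631) (nat_lit 76) (nat_lit 3147173008) (nat_lit 38) (nat_lit 5) (nat_lit 41) (nat_lit 5) (nat_lit 39) (nat_lit 4) (nat_lit 425) (nat_lit 358) (nat_lit 237)) (XT.lf (nat_lit 0) (nat_lit 2661605458) (nat_lit 76) (nat_lit 46623140835) (nat_lit 152) (nat_lit 32070025290) (nat_lit 37) (nat_lit 5) (nat_lit 38) (nat_lit 5) (nat_lit 39) (nat_lit 4) (nat_lit 426) (nat_lit 358) (nat_lit 236)))) (XT.nd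 (nat_lit 78) (nat_lit 304) (nat_lit 0) (XT.lf (nat_lit 0) (nat_lit 62991880631) (nat_lit 76) (nat_lit 16018167178) (nat_lit 152) (nat_lit 5449792004) (nat_lit 37) (nat_lit 5) (nat_lit 38) (nat_lit 5) (nat_lit 39) (nat_lit 4) (nat_lit 427) (nat_lit 358) (nat_lit 235)) (XT.nd (nat_lit 78) (nat_lit 76) (nat_lit 0) (XT.lf (nat_lit 0) (nat_lit 22591663358) (nat_lit 228) (nat_lit 48711765869) (nat_lit 76) (nat_lit 16394365070) (nat_lit 34) (nat_lit 5) (nat_lit 37) (nat_lit 5) (nat_lit 35) (nat_lit 4) (nat_lit 428) (nat_lit 358) (nat_lit 234)) (XT.lf (nat_lit 0) (nat_lit 11817688837) (nat_lit 76) (nat_lit 40596683176) (nat_lit 152) (nat_lit 38666899612) (nat_lit 33) (nat_lit 5) (nat_lit 34) (nat_lit 5) (nat_lit 35) (nat_lit 4) (nat_lit 429) (nat_lit 358) (nat_lit 233))))) (XT.nd (nat_lit 47580) (nat_lit 0) (nat_lit 17708) (XT.nd (nat_lit 78) (nat_lit 228) (nat_lit 0) (XT.lf (nat_lit 0) (nat_lit 76377597239)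 (nat_lit 76) (nat_lit 7844678919) (nat_lit 152) (nat_lit 10396825419) (nat_lit 33) (nat_lit 5) (nat_lit 34) (nat_lit 5) (nat_lit 35) (nat_lit 4) (nat_lit 430) (nat_lit 358) (nat_lit 232)) (XT.nd (nat_lit 78) (nat_lit 76) (nat_lit 0) (XT.lf (nat_lit 0) (nat_lit 19612046656) (nat_lit 152) (nat_lit 52035387678) (nat_lit 76) (nat_lit 26659777884) (nat_lit 31) (nat_lit 5) (nat_lit 33) (nat_lit 5) (nat_lit 32) (nat_lit 4) (nat_lit 431) (nat_lit 358) (nat_lit 231)) (XT.lf (nat_lit 0) (nat_lit 12257947956) (nat_lit 76) (nat_lit 39030090030) (nat_lit 152) (nat_lit 50877151792) (nat_lit 30) (nat_lit 5) (nat_lit 31) (nat_lit 5) (nat_lit 32) (nat_lit 4) (nat_lit 432) (nat_lit 358) (nat_lit 230)))) (XT.nd (nat_lit 78) (nat_lit 1140) (nat_lit 0) (XT.lf (nat_lit 0) (nat_lit 4852067636) (nat_lit 1140) (nat_lit 249217958) (nat_lit 1140) (nat_lit 249217958) (nat_lit 278) (nat_lit 3) (nat_lit 293) (nat_lit 3) (nat_lit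 293) (nat_lit 5) (nat_lit 359) (nat_lit 359) (nat_lit 302)) (XT.nd (nat_lit 78) (nat_lit 0) (nat_lit 76) (XT.lf (nat_lit 0) (nat_lit 60834003) (nat_lit 1140) (nat_lit 2668414509) (nat_lit 1216) (nat_lit 8207261828) (nat_lit 263) (nat_lit 5) (nat_lit 278) (nat_lit 3) (nat_lit 279) (nat_lit 5) (nat_lit 360) (nat_lit 359) (nat_lit 301)) (XT.lf (nat_lit 0) (nat_lit 1204540668) (nat_lit 1140) (nat_lit 4853520695) (nat_lit 1216) (nat_lit 5123847208) (nat_lit 264) (nat_lit 5) (nat_lit 279) (nat_lit 5) (nat_lit 280) (nat_lit 5) (nat_lit 361) (nat_lit 359) (nat_lit 300))))))) (XT.nd (nat_lit 936) (nat_lit 5852) (nat_lit 0) (XT.nd (nat_lit 468) (nat_lit 3268) (nat_lit 0) (XT.nd (nat_lit 234) (nat_lit 0) (nat_lit 152) (XT.nd (nat_lit 78) (nat_lit 0) (nat_lit 0) (XT.lf (nat_lit 0) (nat_lit 2461874103) (nat_lit 1140) (nat_lit 7042184994) (nat_lit 1216) (nat_lit 1933850952) (nat_lit 265) (nat_lit 5) (nat_lit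 280) (nat_lit 5) (nat_lit 281) (nat_lit 5) (nat_lit 362) (nat_lit 359) (nat_lit 299)) (XT.nd (nat_lit 78) (nat_lit 0) (nat_lit 76) (XT.lf (nat_lit 76) (nat_lit 2453785146) (nat_lit 0) (nat_lit 1405999043) (nat_lit 1216) (nat_lit 7844621422) (nat_lit 266) (nat_lit 5) (nat_lit 265) (nat_lit 5) (nat_lit 281) (nat_lit 5) (nat_lit 363) (nat_lit 359) (nat_lit 298)) (XT.lf (nat_lit 76) (nat_lit 493418233) (nat_lit 0) (nat_lit 4925458047) (nat_lit 1216) (nat_lit 6562635180) (nat_lit 267) (nat_lit 5) (nat_lit 266) (nat_lit 5) (nat_lit 282) (nat_lit 5) (nat_lit 364) (nat_lit 359) (nat_lit 297)))) (XT.nd (nat_lit 78) (nat_lit 0) (nat_lit 76) (XT.lf (nat_lit 0) (nat_lit 7148678722) (nat_lit 1140) (nat_lit 1439272216) (nat_lit 1216) (nat_lit 3681761953) (nat_lit 267) (nat_lit 5) (nat_lit 282) (nat_lit 5) (nat_lit 283) (nat_lit 5) (nat_lit 365) (nat_lit 359) (nat_lit 296)) (XT.nd (nat_lit 78) (nat_lit 0) (nat_lit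 0) (XT.lf (nat_lit 0) (nat_lit 9054688880) (nat_lit 1140) (nat_lit 3365095454) (nat_lit 1216) (nat_lit 149870395) (nat_lit 268) (nat_lit 5) (nat_lit 283) (nat_lit 5) (nat_lit 284) (nat_lit 5) (nat_lit 366) (nat_lit 359) (nat_lit 295)) (XT.lf (nat_lit 76) (nat_lit 7550618925) (nat_lit 0) (nat_lit 3631815054) (nat_lit 1216) (nat_lit 1698387471) (nat_lit 269) (nat_lit 5) (nat_lit 268) (nat_lit 5) (nat_lit 284) (nat_lit 5) (nat_lit 367) (nat_lit 359) (nat_lit 294))))) (XT.nd (nat_lit 234) (nat_lit 1216) (nat_lit 0) (XT.nd (nat_lit 78) (nat_lit 1140) (nat_lit 0) (XT.lf (nat_lit 0) (nat_lit 305642737) (nat_lit 1216) (nat_lit 7307494022) (nat_lit 1292) (nat_lit 5591347677) (nat_lit 253) (nat_lit 5) (nat_lit 269) (nat_lit 5) (nat_lit 270) (nat_lit 5) (nat_lit 368) (nat_lit 359) (nat_lit 293)) (XT.nd (nat_lit 78) (nat_lit 1216) (nat_lit 0) (XT.lf (nat_lit 0) (nat_lit 2480723521) (nat_lit 1216) (nat_lit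 9312257121) (nat_lit 76) (nat_lit 1747684563) (nat_lit 254) (nat_lit 5) (nat_lit 270) (nat_lit 5) (nat_lit 255) (nat_lit 5) (nat_lit 369) (nat_lit 359) (nat_lit 292)) (XT.lf (nat_lit 0) (nat_lit 2537326827) (nat_lit 1216) (nat_lit 2361897344) (nat_lit 1292) (nat_lit 8990408334) (nat_lit 238) (nat_lit 5) (nat_lit 254) (nat_lit 5) (nat_lit 255) (nat_lit 5) (nat_lit 370) (nat_lit 359) (nat_lit 291)))) (XT.nd (nat_lit 78) (nat_lit 608) (nat_lit 0) (XT.lf (nat_lit 0) (nat_lit 826264337) (nat_lit 608) (nat_lit 6748817157) (nat_lit 684) (nat_lit 6676890359) (nat_lit 230) (nat_lit 5) (nat_lit 238) (nat_lit 5) (nat_lit 239) (nat_lit 5) (nat_lit 371) (nat_lit 359) (nat_lit 290)) (XT.nd (nat_lit 78) (nat_lit 608) (nat_lit 0) (XT.lf (nat_lit 0) (nat_lit 10517751993) (nat_lit 684) (nat_lit 870665085) (nat_lit 76) (nat_lit 3240036320) (nat_lit 230) (nat_lit 5) (nat_lit 239) (nat_lit 5) (nat_lit 231) (nat_lit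 5) (nat_lit 372) (nat_lit 359) (nat_lit 289)) (XT.lf (nat_lit 0) (nat_lit 12451369660) (nat_lit 608) (nat_lit 1306676853) (nat_lit 684) (nat_lit 1261212881) (nat_lit 222) (nat_lit 5) (nat_lit 230) (nat_lit 5) (nat_lit 231) (nat_lit 5) (nat_lit 373) (nat_lit 359) (nat_lit 288)))))) (XT.nd (nat_lit 468) (nat_lit 2584) (nat_lit 0) (XT.nd (nat_lit 234) (nat_lit 1520) (nat_lit 0) (XT.nd (nat_lit 78) (nat_lit 1064) (nat_lit 0) (XT.lf (nat_lit 0) (nat_lit 1867922792) (nat_lit 684) (nat_lit 4322473181) (nat_lit 76) (nat_lit 9233596178) (nat_lit 213) (nat_lit 5) (nat_lit 222) (nat_lit 5) (nat_lit 214) (nat_lit 5) (nat_lit 374) (nat_lit 359) (nat_lit 287)) (XT.nd (nat_lit 78) (nat_lit 532) (nat_lit 0) (XT.lf (nat_lit 0) (nat_lit 5270676737) (nat_lit 608) (nat_lit 6100118920) (nat_lit 76) (nat_lit 4473507198) (nat_lit 206) (nat_lit 5) (nat_lit 214) (nat_lit 5) (nat_lit 207) (nat_lit 5) (nat_lit 375) (nat_lit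 359) (nat_lit 286)) (XT.lf (nat_lit 0) (nat_lit 8385542483) (nat_lit 532) (nat_lit 612530322) (nat_lit 608) (nat_lit 7282933808) (nat_lit 199) (nat_lit 5) (nat_lit 206) (nat_lit 5) (nat_lit 207) (nat_lit 5) (nat_lit 376) (nat_lit 359) (nat_lit 285)))) (XT.nd (nat_lit 78) (nat_lit 1064) (nat_lit 0) (XT.lf (nat_lit 0) (nat_lit 6982922231) (nat_lit 456) (nat_lit 6129880762) (nat_lit 532) (nat_lit 3620725685) (nat_lit 193) (nat_lit 5) (nat_lit 199) (nat_lit 5) (nat_lit 200) (nat_lit 5) (nat_lit 377) (nat_lit 359) (nat_lit 284)) (XT.nd (nat_lit 78) (nat_lit 456) (nat_lit 0) (XT.lf (nat_lit 0) (nat_lit 382137244) (nat_lit 608) (nat_lit 11626477678) (nat_lit 76) (nat_lit 5195150491) (nat_lit 185) (nat_lit 5) (nat_lit 193) (nat_lit 5) (nat_lit 186) (nat_lit 5) (nat_lit 378) (nat_lit 359) (nat_lit 283)) (XT.lf (nat_lit 0) (nat_lit 4127136012) (nat_lit 456) (nat_lit 556477992) (nat_lit 532) (nat_lit 13007634542)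 (nat_lit 179) (nat_lit 5) (nat_lit 185) (nat_lit 5) (nat_lit 186) (nat_lit 5) (nat_lit 379) (nat_lit 359) (nat_lit 282))))) (XT.nd (nat_lit 234) (nat_lit 1672) (nat_lit 0) (XT.nd (nat_lit 78) (nat_lit 456) (nat_lit 0) (XT.lf (nat_lit 0) (nat_lit 2616849334) (nat_lit 456) (nat_lit 6810395933) (nat_lit 532) (nat_lit 8769058255) (nat_lit 173) (nat_lit 5) (nat_lit 179) (nat_lit 5) (nat_lit 180) (nat_lit 5) (nat_lit 380) (nat_lit 359) (nat_lit 281)) (XT.nd (nat_lit 78) (nat_lit 76) (nat_lit 0) (XT.lf (nat_lit 0) (nat_lit 1098033767) (nat_lit 380) (nat_lit 13488848727) (nat_lit 456) (nat_lit 4134373647) (nat_lit 168) (nat_lit 5) (nat_lit 173) (nat_lit 5) (nat_lit 174) (nat_lit 5) (nat_lit 381) (nat_lit 359) (nat_lit 280)) (XT.lf (nat_lit 0) (nat_lit 921034998) (nat_lit 456) (nat_lit 444084870) (nat_lit 76) (nat_lit 17901036076) (nat_lit 167) (nat_lit 5) (nat_lit 173) (nat_lit 5) (nat_lit 168) (nat_lit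 5) (nat_lit 382) (nat_lit 359) (nat_lit 279)))) (XT.nd (nat_lit 156) (nat_lit 836) (nat_lit 0) (XT.nd (nat_lit 78) (nat_lit 380) (nat_lit 0) (XT.lf (nat_lit 0) (nat_lit 6401442949) (nat_lit 532) (nat_lit 2075442994) (nat_lit 76) (nat_lit 11352463217) (nat_lit 161) (nat_lit 5) (nat_lit 168) (nat_lit 5) (nat_lit 162) (nat_lit 5) (nat_lit 383) (nat_lit 359) (nat_lit 278)) (XT.lf (nat_lit 0) (nat_lit 12352351350) (nat_lit 456) (nat_lit 3727609221) (nat_lit 76) (nat_lit 4334855136) (nat_lit 156) (nat_lit 5) (nat_lit 162) (nat_lit 5) (nat_lit 157) (nat_lit 5) (nat_lit 384) (nat_lit 359) (nat_lit 277))) (XT.nd (nat_lit 78) (nat_lit 456) (nat_lit 0) (XT.lf (nat_lit 0) (nat_lit 15588931408) (nat_lit 380) (nat_lit 3244452474) (nat_lit 456) (nat_lit 2189202026) (nat_lit 151) (nat_lit 5) (nat_lit 156) (nat_lit 5) (nat_lit 157) (nat_lit 5) (nat_lit 385) (nat_lit 359) (nat_lit 276)) (XT.lf (nat_lit 0) (nat_lit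 4154911798) (nat_lit 456) (nat_lit 7252928286) (nat_lit 76) (nat_lit 10244120311) (nat_lit 145) (nat_lit 5) (nat_lit 151) (nat_lit 5) (nat_lit 146) (nat_lit 5) (nat_lit 386) (nat_lit 359) (nat_lit 275))))))))
noncomputable def xc82 : XT := (XT.nd (nat_lit 1872) (nat_lit 2660) (nat_lit 0) (XT.nd (nat_lit 936) (nat_lit 2432) (nat_lit 0) (XT.nd (nat_lit 468) (nat_lit 1444) (nat_lit 0) (XT.nd (nat_lit 234) (nat_lit 988) (nat_lit 0) (XT.nd (nat_lit 78) (nat_lit 760) (nat_lit 0) (XT.lf (nat_lit 0) (nat_lit 10985904921) (nat_lit 456) (nat_lit 9131142284) (nat_lit 76) (nat_lit 2188664424) (nat_lit 140) (nat_lit 5) (nat_lit 146) (nat_lit 5) (nat_lit 141) (nat_lit 5) (nat_lit 387) (nat_lit 359) (nat_lit 274)) (XT.nd (nat_lit 78) (nat_lit 456) (nat_lit 0) (XT.lf (nat_lit 0) (nat_lit 11869917896) (nat_lit 304) (nat_lit 6570882451) (nat_lit 380) (nat_lit 4542885945) (nat_lit 136) (nat_lit 5) (nat_lit 140)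 (nat_lit 5) (nat_lit 141) (nat_lit 5) (nat_lit 388) (nat_lit 359) (nat_lit 273)) (XT.lf (nat_lit 0) (nat_lit 2773129844) (nat_lit 456) (nat_lit 13196036242) (nat_lit 76) (nat_lit 7718143946) (nat_lit 130) (nat_lit 5) (nat_lit 136) (nat_lit 5) (nat_lit 131) (nat_lit 5) (nat_lit 389) (nat_lit 359) (nat_lit 272)))) (XT.nd (nat_lit 78) (nat_lit 684) (nat_lit 0) (XT.lf (nat_lit 0) (nat_lit 9018657159) (nat_lit 304) (nat_lit 1590691796) (nat_lit 380) (nat_lit 13807971619) (nat_lit 126) (nat_lit 5) (nat_lit 130) (nat_lit 5) (nat_lit 131) (nat_lit 5) (nat_lit 390) (nat_lit 359) (nat_lit 271)) (XT.nd (nat_lit 78) (nat_lit 380) (nat_lit 0) (XT.lf (nat_lit 0) (nat_lit 7423957006) (nat_lit 304) (nat_lit 11731372221) (nat_lit 380) (nat_lit 6018969318) (nat_lit 122) (nat_lit 5) (nat_lit 126) (nat_lit 5) (nat_lit 127) (nat_lit 5) (nat_lit 391) (nat_lit 359) (nat_lit 270)) (XT.lf (nat_lit 0) (nat_lit 2362475043)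 (nat_lit 380) (nat_lit 20205055175) (nat_lit 76) (nat_lit 3393623510) (nat_lit 117) (nat_lit 5) (nat_lit 122) (nat_lit 5) (nat_lit 118) (nat_lit 5) (nat_lit 392) (nat_lit 359) (nat_lit 269))))) (XT.nd (nat_lit 234) (nat_lit 836) (nat_lit 0) (XT.nd (nat_lit 78) (nat_lit 304) (nat_lit 0) (XT.lf (nat_lit 0) (nat_lit 3892899796) (nat_lit 304) (nat_lit 7467775107) (nat_lit 380) (nat_lit 15415228772) (nat_lit 113) (nat_lit 5) (nat_lit 117) (nat_lit 5) (nat_lit 118) (nat_lit 5) (nat_lit 393) (nat_lit 359) (nat_lit 268)) (XT.nd (nat_lit 78) (nat_lit 76) (nat_lit 0) (XT.lf (nat_lit 0) (nat_lit 1918932308) (nat_lit 228) (nat_lit 19180177024) (nat_lit 304) (nat_lit 6523576587) (nat_lit 110) (nat_lit 5) (nat_lit 113) (nat_lit 5) (nat_lit 114) (nat_lit 5) (nat_lit 394) (nat_lit 359) (nat_lit 267)) (XT.lf (nat_lit 0) (nat_lit 3052688464) (nat_lit 304) (nat_lit 198539280) (nat_lit 76) (nat_lit 25250925153)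 (nat_lit 109) (nat_lit 5) (nat_lit 113) (nat_lit 5) (nat_lit 110) (nat_lit 5) (nat_lit 395) (nat_lit 359) (nat_lit 266)))) (XT.nd (nat_lit 78) (nat_lit 532) (nat_lit 0) (XT.lf (nat_lit 0) (nat_lit 13348979122) (nat_lit 380) (nat_lit 2532595914) (nat_lit 76) (nat_lit 13530800588) (nat_lit 105) (nat_lit 5) (nat_lit 110) (nat_lit 5) (nat_lit 106) (nat_lit 5) (nat_lit 396) (nat_lit 359) (nat_lit 265)) (XT.nd (nat_lit 78) (nat_lit 304) (nat_lit 0) (XT.lf (nat_lit 0) (nat_lit 24431235178) (nat_lit 304) (nat_lit 4985406936) (nat_lit 76) (nat_lit 943336652) (nat_lit 102) (nat_lit 5) (nat_lit 106) (nat_lit 5) (nat_lit 103) (nat_lit 5) (nat_lit 397) (nat_lit 359) (nat_lit 264)) (XT.lf (nat_lit 0) (nat_lit 5022069925) (nat_lit 304) (nat_lit 7741645497) (nat_lit 76) (nat_lit 18577849476) (nat_lit 98) (nat_lit 5) (nat_lit 102) (nat_lit 5) (nat_lit 99) (nat_lit 5) (nat_lit 398) (nat_lit 359) (nat_lit 263))))))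 (XT.nd (nat_lit 468) (nat_lit 988) (nat_lit 0) (XT.nd (nat_lit 234) (nat_lit 684) (nat_lit 0) (XT.nd (nat_lit 78) (nat_lit 532) (nat_lit 0) (XT.lf (nat_lit 0) (nat_lit 16691561133) (nat_lit 304) (nat_lit 10726511656) (nat_lit 76) (nat_lit 4943587311) (nat_lit 95) (nat_lit 5) (nat_lit 99) (nat_lit 5) (nat_lit 96) (nat_lit 5) (nat_lit 399) (nat_lit 359) (nat_lit 262)) (XT.nd (nat_lit 78) (nat_lit 304) (nat_lit 0) (XT.lf (nat_lit 0) (nat_lit 19436468280) (nat_lit 228) (nat_lit 9888508683) (nat_lit 304) (nat_lit 4096372785) (nat_lit 92) (nat_lit 5) (nat_lit 95) (nat_lit 5) (nat_lit 96) (nat_lit 5) (nat_lit 400) (nat_lit 359) (nat_lit 261)) (XT.lf (nat_lit 0) (nat_lit 8243989039) (nat_lit 304) (nat_lit 17579324711) (nat_lit 76) (nat_lit 8698035342) (nat_lit 88) (nat_lit 5) (nat_lit 92) (nat_lit 5) (nat_lit 89) (nat_lit 5) (nat_lit 401) (nat_lit 359) (nat_lit 260)))) (XT.nd (nat_lit 78) (nat_lit 456)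 (nat_lit 0) (XT.lf (nat_lit 0) (nat_lit 14144313123) (nat_lit 228) (nat_lit 7339351448) (nat_lit 304) (nat_lit 14180459448) (nat_lit 85) (nat_lit 5) (nat_lit 88) (nat_lit 5) (nat_lit 89) (nat_lit 5) (nat_lit 402) (nat_lit 359) (nat_lit 259)) (XT.nd (nat_lit 78) (nat_lit 304) (nat_lit 0) (XT.lf (nat_lit 0) (nat_lit 11036187374) (nat_lit 152) (nat_lit 24739450723) (nat_lit 228) (nat_lit 1076692846) (nat_lit 83) (nat_lit 5) (nat_lit 85) (nat_lit 5) (nat_lit 86) (nat_lit 5) (nat_lit 403) (nat_lit 359) (nat_lit 258)) (XT.lf (nat_lit 0) (nat_lit 7500734824) (nat_lit 228) (nat_lit 5289734647) (nat_lit 304) (nat_lit 25295153404) (nat_lit 79) (nat_lit 5) (nat_lit 82) (nat_lit 5) (nat_lit 83) (nat_lit 5) (nat_lit 404) (nat_lit 359) (nat_lit 257))))) (XT.nd (nat_lit 234) (nat_lit 532) (nat_lit 0) (XT.nd (nat_lit 78) (nat_lit 304) (nat_lit 0) (XT.lf (nat_lit 0) (nat_lit 3536912309) (nat_lit 152) (nat_lit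 24226011934) (nat_lit 228) (nat_lit 11604311648) (nat_lit 77) (nat_lit 5) (nat_lit 79) (nat_lit 5) (nat_lit 80) (nat_lit 5) (nat_lit 405) (nat_lit 359) (nat_lit 256)) (XT.nd (nat_lit 78) (nat_lit 228) (nat_lit 0) (XT.lf (nat_lit 0) (nat_lit 3074804165) (nat_lit 228) (nat_lit 805767596) (nat_lit 76) (nat_lit 36820826692) (nat_lit 76) (nat_lit 5) (nat_lit 79) (nat_lit 5) (nat_lit 77) (nat_lit 5) (nat_lit 406) (nat_lit 359) (nat_lit 255)) (XT.lf (nat_lit 0) (nat_lit 18761093110) (nat_lit 304) (nat_lit 5717185354) (nat_lit 76) (nat_lit 17605149558) (nat_lit 73) (nat_lit 5) (nat_lit 77) (nat_lit 5) (nat_lit 74) (nat_lit 5) (nat_lit 407) (nat_lit 359) (nat_lit 254)))) (XT.nd (nat_lit 78) (nat_lit 380) (nat_lit 0) (XT.lf (nat_lit 0) (nat_lit 32451744073) (nat_lit 152) (nat_lit 3126865218) (nat_lit 228) (nat_lit 7945544370) (nat_lit 71) (nat_lit 5) (nat_lit 73) (nat_lit 5) (nat_lit 74) (nat_lit 5) (nat_lit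 408) (nat_lit 359) (nat_lit 253)) (XT.nd (nat_lit 78) (nat_lit 152) (nat_lit 0) (XT.lf (nat_lit 0) (nat_lit 8546339546) (nat_lit 228) (nat_lit 17154118742) (nat_lit 76) (nat_lit 19318906384) (nat_lit 68) (nat_lit 5) (nat_lit 71) (nat_lit 5) (nat_lit 69) (nat_lit 5) (nat_lit 409) (nat_lit 359) (nat_lit 252)) (XT.lf (nat_lit 0) (nat_lit 22704479190) (nat_lit 152) (nat_lit 3348458920) (nat_lit 228) (nat_lit 20523406404) (nat_lit 66) (nat_lit 5) (nat_lit 68) (nat_lit 5) (nat_lit 69) (nat_lit 5) (nat_lit 410) (nat_lit 359) (nat_lit 251))))))) (XT.nd (nat_lit 936) (nat_lit 1064) (nat_lit 0) (XT.nd (nat_lit 468) (nat_lit 684) (nat_lit 0) (XT.nd (nat_lit 234) (nat_lit 380) (nat_lit 0) (XT.nd (nat_lit 78) (nat_lit 380) (nat_lit 0) (XT.lf (nat_lit 0) (nat_lit 16821079781) (nat_lit 152) (nat_lit 28135525430) (nat_lit 228) (nat_lit 3238917637) (nat_lit 64) (nat_lit 5) (nat_lit 66) (nat_lit 5) (nat_lit 67)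 (nat_lit 5) (nat_lit 411) (nat_lit 359) (nat_lit 250)) (XT.nd (nat_lit 78) (nat_lit 152) (nat_lit 0) (XT.lf (nat_lit 0) (nat_lit 10157660605) (nat_lit 152) (nat_lit 4829346289) (nat_lit 228) (nat_lit 34893310419) (nat_lit 61) (nat_lit 5) (nat_lit 63) (nat_lit 5) (nat_lit 64) (nat_lit 5) (nat_lit 412) (nat_lit 359) (nat_lit 249)) (XT.lf (nat_lit 0) (nat_lit 2588237191) (nat_lit 152) (nat_lit 31998307488) (nat_lit 228) (nat_lit 17045967143) (nat_lit 59) (nat_lit 5) (nat_lit 61) (nat_lit 5) (nat_lit 62) (nat_lit 5) (nat_lit 413) (nat_lit 359) (nat_lit 248)))) (XT.nd (nat_lit 78) (nat_lit 304) (nat_lit 0) (XT.lf (nat_lit 0) (nat_lit 2111450448) (nat_lit 228) (nat_lit 5703916584) (nat_lit 76) (nat_lit 45642939190) (nat_lit 58) (nat_lit 5) (nat_lit 61) (nat_lit 5) (nat_lit 59) (nat_lit 5) (nat_lit 414) (nat_lit 359) (nat_lit 247)) (XT.nd (nat_lit 78) (nat_lit 152) (nat_lit 0) (XT.lf (nat_lit 0) (nat_lit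 22429845129) (nat_lit 228) (nat_lit 15132162951) (nat_lit 76) (nat_lit 17791651099) (nat_lit 56) (nat_lit 5) (nat_lit 59) (nat_lit 5) (nat_lit 57) (nat_lit 5) (nat_lit 415) (nat_lit 359) (nat_lit 246)) (XT.lf (nat_lit 0) (nat_lit 31741974092) (nat_lit 152) (nat_lit 12455312108) (nat_lit 228) (nat_lit 13133501009) (nat_lit 54) (nat_lit 5) (nat_lit 56) (nat_lit 5) (nat_lit 57) (nat_lit 5) (nat_lit 416) (nat_lit 359) (nat_lit 245))))) (XT.nd (nat_lit 234) (nat_lit 380) (nat_lit 0) (XT.nd (nat_lit 78) (nat_lit 152) (nat_lit 0) (XT.lf (nat_lit 0) (nat_lit 7996012958) (nat_lit 152) (nat_lit 37317360076) (nat_lit 76) (nat_lit 14076227922) (nat_lit 52) (nat_lit 5) (nat_lit 54) (nat_lit 5) (nat_lit 53) (nat_lit 5) (nat_lit 417) (nat_lit 359) (nat_lit 244)) (XT.nd (nat_lit 78) (nat_lit 0) (nat_lit 0) (XT.lf (nat_lit 0) (nat_lit 11044569748) (nat_lit 152) (nat_lit 19356509667) (nat_lit 228) (nat_lit 31131655081)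 (nat_lit 50) (nat_lit 5) (nat_lit 52) (nat_lit 5) (nat_lit 53) (nat_lit 5) (nat_lit 418) (nat_lit 359) (nat_lit 243)) (XT.lf (nat_lit 0) (nat_lit 54380766749) (nat_lit 228) (nat_lit 1264202169) (nat_lit 76) (nat_lit 8124425795) (nat_lit 50) (nat_lit 5) (nat_lit 53) (nat_lit 5) (nat_lit 51) (nat_lit 4) (nat_lit 419) (nat_lit 359) (nat_lit 242)))) (XT.nd (nat_lit 78) (nat_lit 228) (nat_lit 0) (XT.lf (nat_lit 0) (nat_lit 13864535397) (nat_lit 152) (nat_lit 15025179305) (nat_lit 76) (nat_lit 37203739596) (nat_lit 48) (nat_lit 5) (nat_lit 50) (nat_lit 5) (nat_lit 49) (nat_lit 5) (nat_lit 420) (nat_lit 359) (nat_lit 241)) (XT.nd (nat_lit 78) (nat_lit 76) (nat_lit 0) (XT.lf (nat_lit 0) (nat_lit 38143627253) (nat_lit 152) (nat_lit 315299909) (nat_lit 228) (nat_lit 30060819661) (nat_lit 46) (nat_lit 5) (nat_lit 48) (nat_lit 5) (nat_lit 49) (nat_lit 5) (nat_lit 421) (nat_lit 359) (nat_lit 240)) (XT.lf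 (nat_lit 0) (nat_lit 23375378626) (nat_lit 76) (nat_lit 41565273234) (nat_lit 152) (nat_lit 6106974572) (nat_lit 45) (nat_lit 5) (nat_lit 46) (nat_lit 5) (nat_lit 47) (nat_lit 4) (nat_lit 422) (nat_lit 359) (nat_lit 239)))))) (XT.nd (nat_lit 468) (nat_lit 456) (nat_lit 0) (XT.nd (nat_lit 234) (nat_lit 304) (nat_lit 0) (XT.nd (nat_lit 78) (nat_lit 76) (nat_lit 0) (XT.lf (nat_lit 0) (nat_lit 6682044728) (nat_lit 152) (nat_lit 12365609890) (nat_lit 228) (nat_lit 54637512566) (nat_lit 42) (nat_lit 5) (nat_lit 44) (nat_lit 5) (nat_lit 45) (nat_lit 5) (nat_lit 423) (nat_lit 359) (nat_lit 238)) (XT.nd (nat_lit 78) (nat_lit 76) (nat_lit 0) (XT.lf (nat_lit 0) (nat_lit 45998047938) (nat_lit 228) (nat_lit 11947386210) (nat_lit 76) (nat_lit 18487407602) (nat_lit 42) (nat_lit 5) (nat_lit 45) (nat_lit 5) (nat_lit 43) (nat_lit 4) (nat_lit 424) (nat_lit 359) (nat_lit 237)) (XT.lf (nat_lit 0) (nat_lit 46631579046)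 (nat_lit 76) (nat_lit 28229541425) (nat_lit 152) (nat_lit 4439825507) (nat_lit 41) (nat_lit 5) (nat_lit 42) (nat_lit 5) (nat_lit 43) (nat_lit 4) (nat_lit 425) (nat_lit 359) (nat_lit 236)))) (XT.nd (nat_lit 78) (nat_lit 76) (nat_lit 0) (XT.lf (nat_lit 0) (nat_lit 22813179356) (nat_lit 228) (nat_lit 55969775056) (nat_lit 76) (nat_lit 3510782738) (nat_lit 38) (nat_lit 5) (nat_lit 41) (nat_lit 5) (nat_lit 39) (nat_lit 4) (nat_lit 426) (nat_lit 359) (nat_lit 235)) (XT.nd (nat_lit 78) (nat_lit 0) (nat_lit 0) (XT.lf (nat_lit 0) (nat_lit 3239536327) (nat_lit 76) (nat_lit 48746462104) (nat_lit 152) (nat_lit 33429381733) (nat_lit 37) (nat_lit 5) (nat_lit 38) (nat_lit 5) (nat_lit 39) (nat_lit 4) (nat_lit 427) (nat_lit 359) (nat_lit 234)) (XT.lf (nat_lit 0) (nat_lit 66565141897) (nat_lit 76) (nat_lit 16621136706) (nat_lit 152) (nat_lit 5489762727) (nat_lit 37) (nat_lit 5) (nat_lit 38) (nat_lit 5) (nat_lit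 39) (nat_lit 4) (nat_lit 428) (nat_lit 359) (nat_lit 233))))) (XT.nd (nat_lit 234) (nat_lit 152) (nat_lit 0) (XT.nd (nat_lit 78) (nat_lit 76) (nat_lit 0) (XT.lf (nat_lit 0) (nat_lit 23944242967) (nat_lit 228) (nat_lit 50726628320) (nat_lit 76) (nat_lit 17405105612) (nat_lit 34) (nat_lit 5) (nat_lit 37) (nat_lit 5) (nat_lit 35) (nat_lit 4) (nat_lit 429) (nat_lit 359) (nat_lit 232)) (XT.nd (nat_lit 78) (nat_lit 0) (nat_lit 0) (XT.lf (nat_lit 0) (nat_lit 12817239099) (nat_lit 76) (nat_lit 42434157424) (nat_lit 152) (nat_lit 40377433107) (nat_lit 33) (nat_lit 5) (nat_lit 34) (nat_lit 5) (nat_lit 35) (nat_lit 4) (nat_lit 430) (nat_lit 359) (nat_lit 231)) (XT.lf (nat_lit 0) (nat_lit 80585682645) (nat_lit 76) (nat_lit 8053712949) (nat_lit 152) (nat_lit 10704465275) (nat_lit 33) (nat_lit 5) (nat_lit 34) (nat_lit 5) (nat_lit 35) (nat_lit 4) (nat_lit 431) (nat_lit 359) (nat_lit 230)))) (XT.nd (nat_lit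 47580) (nat_lit 0) (nat_lit 17632) (XT.nd (nat_lit 47502) (nat_lit 0) (nat_lit 17632) (XT.lf (nat_lit 0) (nat_lit 20796207555) (nat_lit 152) (nat_lit 54250734726) (nat_lit 76) (nat_lit 28169509349) (nat_lit 31) (nat_lit 5) (nat_lit 33) (nat_lit 5) (nat_lit 32) (nat_lit 4) (nat_lit 432) (nat_lit 359) (nat_lit 229)) (XT.lf (nat_lit 0) (nat_lit 229214876) (nat_lit 0) (nat_lit 229214876) (nat_lit 1140) (nat_lit 5130173520) (nat_lit 263) (nat_lit 5) (nat_lit 263) (nat_lit 3) (nat_lit 278) (nat_lit 3) (nat_lit 360) (nat_lit 360) (nat_lit 300))) (XT.nd (nat_lit 78) (nat_lit 0) (nat_lit 76) (XT.lf (nat_lit 0) (nat_lit 1915232652) (nat_lit 1140) (nat_lit 1806118671) (nat_lit 1216) (nat_lit 7705626423) (nat_lit 263) (nat_lit 5) (nat_lit 278) (nat_lit 3) (nat_lit 279) (nat_lit 5) (nat_lit 361) (nat_lit 360) (nat_lit 299)) (XT.lf (nat_lit 0) (nat_lit 3029520643) (nat_lit 1140) (nat_lit 4067327653) (nat_lit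 1216) (nat_lit 4590434636) (nat_lit 264) (nat_lit 5) (nat_lit 279) (nat_lit 5) (nat_lit 280) (nat_lit 5) (nat_lit 362) (nat_lit 360) (nat_lit 298))))))))
noncomputable def xc83 : XT := (XT.nd (nat_lit 1950) (nat_lit 6156) (nat_lit 0) (XT.nd (nat_lit 936) (nat_lit 5852) (nat_lit 0) (XT.nd (nat_lit 468) (nat_lit 3268) (nat_lit 0) (XT.nd (nat_lit 234) (nat_lit 0) (nat_lit 152) (XT.nd (nat_lit 78) (nat_lit 0) (nat_lit 0) (XT.lf (nat_lit 0) (nat_lit 4268649712) (nat_lit 1140) (nat_lit 6336824567) (nat_lit 1216) (nat_lit 1353079406) (nat_lit 265) (nat_lit 5) (nat_lit 280) (nat_lit 5) (nat_lit 281) (nat_lit 5) (nat_lit 363) (nat_lit 360) (nat_lit 297)) (XT.nd (nat_lit 78) (nat_lit 0) (nat_lit 76) (XT.lf (nat_lit 76) (nat_lit 3603631923) (nat_lit 0) (nat_lit 2062521716) (nat_lit 1216) (nat_lit 6574364740) (nat_lit 266) (nat_lit 5) (nat_lit 265) (nat_lit 5) (nat_lit 281) (nat_lit 5) (nat_lit 364) (nat_lit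 360) (nat_lit 296)) (XT.lf (nat_lit 76) (nat_lit 1568976857) (nat_lit 0) (nat_lit 5662130833) (nat_lit 1216) (nat_lit 5302568237) (nat_lit 267) (nat_lit 5) (nat_lit 266) (nat_lit 5) (nat_lit 282) (nat_lit 5) (nat_lit 365) (nat_lit 360) (nat_lit 295)))) (XT.nd (nat_lit 78) (nat_lit 0) (nat_lit 0) (XT.lf (nat_lit 0) (nat_lit 8969516059) (nat_lit 1140) (nat_lit 461223596) (nat_lit 1216) (nat_lit 3407916322) (nat_lit 267) (nat_lit 5) (nat_lit 282) (nat_lit 5) (nat_lit 283) (nat_lit 5) (nat_lit 366) (nat_lit 360) (nat_lit 294)) (XT.nd (nat_lit 78) (nat_lit 0) (nat_lit 76) (XT.lf (nat_lit 76) (nat_lit 10686290148) (nat_lit 0) (nat_lit 223111953) (nat_lit 1216) (nat_lit 2246066043) (nat_lit 268) (nat_lit 5) (nat_lit 267) (nat_lit 5) (nat_lit 283) (nat_lit 5) (nat_lit 367) (nat_lit 360) (nat_lit 293)) (XT.lf (nat_lit 76) (nat_lit 8963901029) (nat_lit 0) (nat_lit 4120786244) (nat_lit 1216) (nat_lit 399300387)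 (nat_lit 269) (nat_lit 5) (nat_lit 268) (nat_lit 5) (nat_lit 284) (nat_lit 5) (nat_lit 368) (nat_lit 360) (nat_lit 292))))) (XT.nd (nat_lit 234) (nat_lit 1216) (nat_lit 0) (XT.nd (nat_lit 78) (nat_lit 1140) (nat_lit 0) (XT.lf (nat_lit 0) (nat_lit 1620643389) (nat_lit 1216) (nat_lit 6597829856) (nat_lit 1292) (nat_lit 5606706720) (nat_lit 253) (nat_lit 5) (nat_lit 269) (nat_lit 5) (nat_lit 270) (nat_lit 5) (nat_lit 369) (nat_lit 360) (nat_lit 291)) (XT.nd (nat_lit 78) (nat_lit 1216) (nat_lit 0) (XT.lf (nat_lit 0) (nat_lit 3850667036) (nat_lit 1216) (nat_lit 8693741850) (nat_lit 76) (nat_lit 1635400801) (nat_lit 254) (nat_lit 5) (nat_lit 270) (nat_lit 5) (nat_lit 255) (nat_lit 5) (nat_lit 370) (nat_lit 360) (nat_lit 290)) (XT.lf (nat_lit 0) (nat_lit 3717244980) (nat_lit 1216) (nat_lit 2623641395) (nat_lit 1292) (nat_lit 8206839526) (nat_lit 238) (nat_lit 5) (nat_lit 254) (nat_lit 5) (nat_lit 255)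 (nat_lit 5) (nat_lit 371) (nat_lit 360) (nat_lit 289)))) (XT.nd (nat_lit 78) (nat_lit 608) (nat_lit 0) (XT.lf (nat_lit 0) (nat_lit 1927130276) (nat_lit 608) (nat_lit 7175290507) (nat_lit 684) (nat_lit 5827228107) (nat_lit 230) (nat_lit 5) (nat_lit 238) (nat_lit 5) (nat_lit 239) (nat_lit 5) (nat_lit 372) (nat_lit 360) (nat_lit 288)) (XT.nd (nat_lit 78) (nat_lit 0) (nat_lit 0) (XT.lf (nat_lit 0) (nat_lit 131540015) (nat_lit 608) (nat_lit 12006439620) (nat_lit 684) (nat_lit 3188624329) (nat_lit 222) (nat_lit 5) (nat_lit 230) (nat_lit 5) (nat_lit 231) (nat_lit 5) (nat_lit 373) (nat_lit 360) (nat_lit 287)) (XT.lf (nat_lit 0) (nat_lit 14087207376) (nat_lit 608) (nat_lit 1409506007) (nat_lit 684) (nat_lit 241565184) (nat_lit 222) (nat_lit 5) (nat_lit 230) (nat_lit 5) (nat_lit 231) (nat_lit 5) (nat_lit 374) (nat_lit 360) (nat_lit 286)))))) (XT.nd (nat_lit 468) (nat_lit 2584) (nat_lit 0) (XT.nd (nat_lit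 234) (nat_lit 1520) (nat_lit 0) (XT.nd (nat_lit 78) (nat_lit 1064) (nat_lit 0) (XT.lf (nat_lit 0) (nat_lit 2981860854) (nat_lit 684) (nat_lit 3502294605) (nat_lit 76) (nat_lit 9680030897) (nat_lit 213) (nat_lit 5) (nat_lit 222) (nat_lit 5) (nat_lit 214) (nat_lit 5) (nat_lit 375) (nat_lit 360) (nat_lit 285)) (XT.nd (nat_lit 78) (nat_lit 532) (nat_lit 0) (XT.lf (nat_lit 0) (nat_lit 6516071372) (nat_lit 608) (nat_lit 5368948876) (nat_lit 76) (nat_lit 4721671311) (nat_lit 206) (nat_lit 5) (nat_lit 214) (nat_lit 5) (nat_lit 207) (nat_lit 5) (nat_lit 376) (nat_lit 360) (nat_lit 284)) (XT.lf (nat_lit 0) (nat_lit 9811293820) (nat_lit 532) (nat_lit 581462992) (nat_lit 608) (nat_lit 6673603754) (nat_lit 199) (nat_lit 5) (nat_lit 206) (nat_lit 5) (nat_lit 207) (nat_lit 5) (nat_lit 377) (nat_lit 360) (nat_lit 283)))) (XT.nd (nat_lit 78) (nat_lit 1064) (nat_lit 0) (XT.lf (nat_lit 0) (nat_lit 8336989936) (nat_lit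 456) (nat_lit 6341468753) (nat_lit 532) (nat_lit 2864109799) (nat_lit 193) (nat_lit 5) (nat_lit 199) (nat_lit 5) (nat_lit 200) (nat_lit 5) (nat_lit 378) (nat_lit 360) (nat_lit 282)) (XT.nd (nat_lit 78) (nat_lit 456) (nat_lit 0) (XT.lf (nat_lit 0) (nat_lit 1287425862) (nat_lit 608) (nat_lit 11187779981) (nat_lit 76) (nat_lit 5561851562) (nat_lit 185) (nat_lit 5) (nat_lit 193) (nat_lit 5) (nat_lit 186) (nat_lit 5) (nat_lit 379) (nat_lit 360) (nat_lit 281)) (XT.lf (nat_lit 0) (nat_lit 5324275679) (nat_lit 456) (nat_lit 447025661) (nat_lit 532) (nat_lit 12778608410) (nat_lit 179) (nat_lit 5) (nat_lit 185) (nat_lit 5) (nat_lit 186) (nat_lit 5) (nat_lit 380) (nat_lit 360) (nat_lit 280))))) (XT.nd (nat_lit 234) (nat_lit 1216) (nat_lit 0) (XT.nd (nat_lit 78) (nat_lit 912) (nat_lit 0) (XT.lf (nat_lit 0) (nat_lit 3733951089) (nat_lit 456) (nat_lit 6988257178) (nat_lit 532) (nat_lit 8358920482) (nat_lit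 173) (nat_lit 5) (nat_lit 179) (nat_lit 5) (nat_lit 180) (nat_lit 5) (nat_lit 381) (nat_lit 360) (nat_lit 279)) (XT.nd (nat_lit 78) (nat_lit 532) (nat_lit 0) (XT.lf (nat_lit 0) (nat_lit 2133678683) (nat_lit 380) (nat_lit 13977846210) (nat_lit 456) (nat_lit 3521666603) (nat_lit 168) (nat_lit 5) (nat_lit 173) (nat_lit 5) (nat_lit 174) (nat_lit 5) (nat_lit 382) (nat_lit 360) (nat_lit 278)) (XT.lf (nat_lit 0) (nat_lit 492846046) (nat_lit 456) (nat_lit 1244155171) (nat_lit 532) (nat_lit 18469116821) (nat_lit 161) (nat_lit 5) (nat_lit 167) (nat_lit 5) (nat_lit 168) (nat_lit 5) (nat_lit 383) (nat_lit 360) (nat_lit 277)))) (XT.nd (nat_lit 156) (nat_lit 836) (nat_lit 0) (XT.nd (nat_lit 78) (nat_lit 380) (nat_lit 0) (XT.lf (nat_lit 0) (nat_lit 7460896143) (nat_lit 532) (nat_lit 1236325707) (nat_lit 76) (nat_lit 12101176890) (nat_lit 161) (nat_lit 5) (nat_lit 168) (nat_lit 5) (nat_lit 162) (nat_lit 5) (nat_lit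 384) (nat_lit 360) (nat_lit 276)) (XT.lf (nat_lit 0) (nat_lit 13684895424) (nat_lit 456) (nat_lit 2978463766) (nat_lit 76) (nat_lit 4750524320) (nat_lit 156) (nat_lit 5) (nat_lit 162) (nat_lit 5) (nat_lit 157) (nat_lit 5) (nat_lit 385) (nat_lit 360) (nat_lit 275))) (XT.nd (nat_lit 78) (nat_lit 456) (nat_lit 0) (XT.lf (nat_lit 0) (nat_lit 17277087232) (nat_lit 380) (nat_lit 3187583301) (nat_lit 456) (nat_lit 1588141682) (nat_lit 151) (nat_lit 5) (nat_lit 156) (nat_lit 5) (nat_lit 157) (nat_lit 5) (nat_lit 386) (nat_lit 360) (nat_lit 274)) (XT.lf (nat_lit 0) (nat_lit 5036910490) (nat_lit 456) (nat_lit 6701038020) (nat_lit 76) (nat_lit 10976184008) (nat_lit 145) (nat_lit 5) (nat_lit 151) (nat_lit 5) (nat_lit 146) (nat_lit 5) (nat_lit 387) (nat_lit 360) (nat_lit 273))))))) (XT.nd (nat_lit 936) (nat_lit 2584) (nat_lit 0) (XT.nd (nat_lit 468) (nat_lit 1444) (nat_lit 0) (XT.nd (nat_lit 234) (nat_lit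 988) (nat_lit 0) (XT.nd (nat_lit 78) (nat_lit 760) (nat_lit 0) (XT.lf (nat_lit 0) (nat_lit 12188169381) (nat_lit 456) (nat_lit 8681952632) (nat_lit 76) (nat_lit 2531097262) (nat_lit 140) (nat_lit 5) (nat_lit 146) (nat_lit 5) (nat_lit 141) (nat_lit 5) (nat_lit 388) (nat_lit 360) (nat_lit 272)) (XT.nd (nat_lit 78) (nat_lit 456) (nat_lit 0) (XT.lf (nat_lit 0) (nat_lit 13343197508) (nat_lit 304) (nat_lit 6649975317) (nat_lit 380) (nat_lit 4120607942) (nat_lit 136) (nat_lit 5) (nat_lit 140) (nat_lit 5) (nat_lit 141) (nat_lit 5) (nat_lit 389) (nat_lit 360) (nat_lit 271)) (XT.lf (nat_lit 0) (nat_lit 3528974288) (nat_lit 456) (nat_lit 12972610108) (nat_lit 76) (nat_lit 8351409188) (nat_lit 130) (nat_lit 5) (nat_lit 136) (nat_lit 5) (nat_lit 131) (nat_lit 5) (nat_lit 390) (nat_lit 360) (nat_lit 270)))) (XT.nd (nat_lit 78) (nat_lit 684) (nat_lit 0) (XT.lf (nat_lit 0) (nat_lit 10327500411) (nat_lit 304)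 (nat_lit 1408360801) (nat_lit 380) (nat_lit 13884285655) (nat_lit 126) (nat_lit 5) (nat_lit 130) (nat_lit 5) (nat_lit 131) (nat_lit 5) (nat_lit 391) (nat_lit 360) (nat_lit 269)) (XT.nd (nat_lit 78) (nat_lit 380) (nat_lit 0) (XT.lf (nat_lit 0) (nat_lit 8643550995) (nat_lit 304) (nat_lit 12047759063) (nat_lit 380) (nat_lit 5724206134) (nat_lit 122) (nat_lit 5) (nat_lit 126) (nat_lit 5) (nat_lit 127) (nat_lit 5) (nat_lit 392) (nat_lit 360) (nat_lit 268)) (XT.lf (nat_lit 0) (nat_lit 3047510724) (nat_lit 380) (nat_lit 20365335740) (nat_lit 76) (nat_lit 3829218111) (nat_lit 117) (nat_lit 5) (nat_lit 122) (nat_lit 5) (nat_lit 118) (nat_lit 5) (nat_lit 393) (nat_lit 360) (nat_lit 267))))) (XT.nd (nat_lit 234) (nat_lit 532) (nat_lit 0) (XT.nd (nat_lit 78) (nat_lit 608) (nat_lit 0) (XT.lf (nat_lit 0) (nat_lit 4913152698) (nat_lit 304) (nat_lit 7563408322) (nat_lit 380) (nat_lit 15621569429) (nat_lit 113)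 (nat_lit 5) (nat_lit 117) (nat_lit 5) (nat_lit 118) (nat_lit 5) (nat_lit 394) (nat_lit 360) (nat_lit 266)) (XT.nd (nat_lit 78) (nat_lit 380) (nat_lit 0) (XT.lf (nat_lit 0) (nat_lit 2830321009) (nat_lit 228) (nat_lit 19855889296) (nat_lit 304) (nat_lit 6301519031) (nat_lit 110) (nat_lit 5) (nat_lit 113) (nat_lit 5) (nat_lit 114) (nat_lit 5) (nat_lit 395) (nat_lit 360) (nat_lit 265)) (XT.lf (nat_lit 0) (nat_lit 589963187) (nat_lit 304) (nat_lit 3132972043) (nat_lit 380) (nat_lit 26188679961) (nat_lit 105) (nat_lit 5) (nat_lit 109) (nat_lit 5) (nat_lit 110) (nat_lit 5) (nat_lit 396) (nat_lit 360) (nat_lit 264)))) (XT.nd (nat_lit 78) (nat_lit 532) (nat_lit 0) (XT.lf (nat_lit 0) (nat_lit 14513928794) (nat_lit 380) (nat_lit 1882496794) (nat_lit 76) (nat_lit 14471532386) (nat_lit 105) (nat_lit 5) (nat_lit 110) (nat_lit 5) (nat_lit 106) (nat_lit 5) (nat_lit 397) (nat_lit 360) (nat_lit 263)) (XT.nd (nat_lit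 78) (nat_lit 304) (nat_lit 0) (XT.lf (nat_lit 0) (nat_lit 26136487616) (nat_lit 304) (nat_lit 4468303266) (nat_lit 76) (nat_lit 1258569997) (nat_lit 102) (nat_lit 5) (nat_lit 106) (nat_lit 5) (nat_lit 103) (nat_lit 5) (nat_lit 398) (nat_lit 360) (nat_lit 262)) (XT.lf (nat_lit 0) (nat_lit 5745717795) (nat_lit 304) (nat_lit 7374819044) (nat_lit 76) (nat_lit 19773831865) (nat_lit 98) (nat_lit 5) (nat_lit 102) (nat_lit 5) (nat_lit 99) (nat_lit 5) (nat_lit 399) (nat_lit 360) (nat_lit 261)))))) (XT.nd (nat_lit 468) (nat_lit 1140) (nat_lit 0) (XT.nd (nat_lit 234) (nat_lit 684) (nat_lit 0) (XT.nd (nat_lit 78) (nat_lit 532) (nat_lit 0) (XT.lf (nat_lit 0) (nat_lit 17985866297) (nat_lit 304) (nat_lit 10519378819) (nat_lit 76) (nat_lit 5460612739) (nat_lit 95) (nat_lit 5) (nat_lit 99) (nat_lit 5) (nat_lit 96) (nat_lit 5) (nat_lit 400) (nat_lit 360) (nat_lit 260)) (XT.nd (nat_lit 78) (nat_lit 304) (nat_lit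 0) (XT.lf (nat_lit 0) (nat_lit 21130439027) (nat_lit 228) (nat_lit 10105563846) (nat_lit 304) (nat_lit 3842982063) (nat_lit 92) (nat_lit 5) (nat_lit 95) (nat_lit 5) (nat_lit 96) (nat_lit 5) (nat_lit 401) (nat_lit 360) (nat_lit 259)) (XT.lf (nat_lit 0) (nat_lit 9093538268) (nat_lit 304) (nat_lit 17737599981) (nat_lit 76) (nat_lit 9403075522) (nat_lit 88) (nat_lit 5) (nat_lit 92) (nat_lit 5) (nat_lit 89) (nat_lit 5) (nat_lit 402) (nat_lit 360) (nat_lit 258)))) (XT.nd (nat_lit 78) (nat_lit 456) (nat_lit 0) (XT.lf (nat_lit 0) (nat_lit 15551561282) (nat_lit 228) (nat_lit 7429539255) (nat_lit 304) (nat_lit 14453453738) (nat_lit 85) (nat_lit 5) (nat_lit 88) (nat_lit 5) (nat_lit 89) (nat_lit 5) (nat_lit 403) (nat_lit 360) (nat_lit 257)) (XT.nd (nat_lit 78) (nat_lit 304) (nat_lit 0) (XT.lf (nat_lit 0) (nat_lit 12277788368) (nat_lit 152) (nat_lit 25698894060) (nat_lit 228) (nat_lit 705822557) (nat_lit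 83) (nat_lit 5) (nat_lit 85) (nat_lit 5) (nat_lit 86) (nat_lit 5) (nat_lit 404) (nat_lit 360) (nat_lit 256)) (XT.lf (nat_lit 0) (nat_lit 8553910797) (nat_lit 228) (nat_lit 5279188846) (nat_lit 304) (nat_lit 26144642169) (nat_lit 79) (nat_lit 5) (nat_lit 82) (nat_lit 5) (nat_lit 83) (nat_lit 5) (nat_lit 405) (nat_lit 360) (nat_lit 255))))) (XT.nd (nat_lit 234) (nat_lit 684) (nat_lit 0) (XT.nd (nat_lit 78) (nat_lit 304) (nat_lit 0) (XT.lf (nat_lit 0) (nat_lit 4381704015) (nat_lit 152) (nat_lit 25162216174) (nat_lit 228) (nat_lit 11779826284) (nat_lit 77) (nat_lit 5) (nat_lit 79) (nat_lit 5) (nat_lit 80) (nat_lit 5) (nat_lit 406) (nat_lit 360) (nat_lit 254)) (XT.nd (nat_lit 78) (nat_lit 228) (nat_lit 0) (XT.lf (nat_lit 0) (nat_lit 3606452729) (nat_lit 228) (nat_lit 202334956) (nat_lit 76) (nat_lit 38916282671) (nat_lit 76) (nat_lit 5) (nat_lit 79) (nat_lit 5) (nat_lit 77) (nat_lit 5) (nat_lit 407)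 (nat_lit 360) (nat_lit 253)) (XT.lf (nat_lit 0) (nat_lit 20067563942) (nat_lit 304) (nat_lit 5369233154) (nat_lit 76) (nat_lit 18739691966) (nat_lit 73) (nat_lit 5) (nat_lit 77) (nat_lit 5) (nat_lit 74) (nat_lit 5) (nat_lit 408) (nat_lit 360) (nat_lit 252)))) (XT.nd (nat_lit 156) (nat_lit 304) (nat_lit 0) (XT.nd (nat_lit 78) (nat_lit 228) (nat_lit 0) (XT.lf (nat_lit 0) (nat_lit 34689974666) (nat_lit 152) (nat_lit 3024355580) (nat_lit 228) (nat_lit 7975272265) (nat_lit 71) (nat_lit 5) (nat_lit 73) (nat_lit 5) (nat_lit 74) (nat_lit 5) (nat_lit 409) (nat_lit 360) (nat_lit 251)) (XT.lf (nat_lit 0) (nat_lit 9325149254) (nat_lit 228) (nat_lit 17398748717) (nat_lit 76) (nat_lit 20535839186) (nat_lit 68) (nat_lit 5) (nat_lit 71) (nat_lit 5) (nat_lit 69) (nat_lit 5) (nat_lit 410) (nat_lit 360) (nat_lit 250))) (XT.nd (nat_lit 78) (nat_lit 152) (nat_lit 0) (XT.lf (nat_lit 0) (nat_lit 24435205412) (nat_lit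 152) (nat_lit 3260858917) (nat_lit 228) (nat_lit 21198834493) (nat_lit 66) (nat_lit 5) (nat_lit 68) (nat_lit 5) (nat_lit 69) (nat_lit 5) (nat_lit 411) (nat_lit 360) (nat_lit 249)) (XT.lf (nat_lit 0) (nat_lit 18248153646) (nat_lit 152) (nat_lit 29288515721) (nat_lit 228) (nat_lit 3058616379) (nat_lit 64) (nat_lit 5) (nat_lit 66) (nat_lit 5) (nat_lit 67) (nat_lit 5) (nat_lit 412) (nat_lit 360) (nat_lit 248))))))))
noncomputable def xc84 : XT := (XT.nd (nat_lit 49374) (nat_lit 0) (nat_lit 8132) (XT.nd (nat_lit 936) (nat_lit 684) (nat_lit 0) (XT.nd (nat_lit 468) (nat_lit 760) (nat_lit 0) (XT.nd (nat_lit 234) (nat_lit 456) (nat_lit 0) (XT.nd (nat_lit 78) (nat_lit 228) (nat_lit 0) (XT.lf (nat_lit 0) (nat_lit 11241296001) (nat_lit 152) (nat_lit 4820184927) (nat_lit 228) (nat_lit 36303055796) (nat_lit 61) (nat_lit 5) (nat_lit 63) (nat_lit 5) (nat_lit 64) (nat_lit 5) (nat_lit 413) (nat_lit 360) (nat_lit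 247)) (XT.nd (nat_lit 78) (nat_lit 76) (nat_lit 0) (XT.lf (nat_lit 0) (nat_lit 3284073095) (nat_lit 152) (nat_lit 33349179715) (nat_lit 228) (nat_lit 17571322469) (nat_lit 59) (nat_lit 5) (nat_lit 61) (nat_lit 5) (nat_lit 62) (nat_lit 5) (nat_lit 414) (nat_lit 360) (nat_lit 246)) (XT.lf (nat_lit 0) (nat_lit 2522321252) (nat_lit 228) (nat_lit 5443547268) (nat_lit 76) (nat_lit 48156156425) (nat_lit 58) (nat_lit 5) (nat_lit 61) (nat_lit 5) (nat_lit 59) (nat_lit 5) (nat_lit 415) (nat_lit 360) (nat_lit 245)))) (XT.nd (nat_lit 78) (nat_lit 304) (nat_lit 0) (XT.lf (nat_lit 0) (nat_lit 23849441679) (nat_lit 228) (nat_lit 15352183040) (nat_lit 76) (nat_lit 18910738442) (nat_lit 56) (nat_lit 5) (nat_lit 59) (nat_lit 5) (nat_lit 57) (nat_lit 5) (nat_lit 416) (nat_lit 360) (nat_lit 244)) (XT.nd (nat_lit 78) (nat_lit 152) (nat_lit 0) (XT.lf (nat_lit 0) (nat_lit 33850279666) (nat_lit 152) (nat_lit 12845789854)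 (nat_lit 228) (nat_lit 13492555338) (nat_lit 54) (nat_lit 5) (nat_lit 56) (nat_lit 5) (nat_lit 57) (nat_lit 5) (nat_lit 417) (nat_lit 360) (nat_lit 243)) (XT.lf (nat_lit 0) (nat_lit 8680854160) (nat_lit 152) (nat_lit 38664973675) (nat_lit 76) (nat_lit 15004670384) (nat_lit 52) (nat_lit 5) (nat_lit 54) (nat_lit 5) (nat_lit 53) (nat_lit 5) (nat_lit 418) (nat_lit 360) (nat_lit 242))))) (XT.nd (nat_lit 234) (nat_lit 456) (nat_lit 0) (XT.nd (nat_lit 78) (nat_lit 152) (nat_lit 0) (XT.lf (nat_lit 0) (nat_lit 12100196981) (nat_lit 152) (nat_lit 20097242576) (nat_lit 228) (nat_lit 32403612414) (nat_lit 50) (nat_lit 5) (nat_lit 52) (nat_lit 5) (nat_lit 53) (nat_lit 5) (nat_lit 419) (nat_lit 360) (nat_lit 241)) (XT.nd (nat_lit 78) (nat_lit 152) (nat_lit 0) (XT.lf (nat_lit 0) (nat_lit 57365032824) (nat_lit 228) (nat_lit 842140807) (nat_lit 76) (nat_lit 8742705352) (nat_lit 50) (nat_lit 5) (nat_lit 53) (nat_lit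 5) (nat_lit 51) (nat_lit 4) (nat_lit 420) (nat_lit 360) (nat_lit 240)) (XT.lf (nat_lit 0) (nat_lit 14817463593) (nat_lit 152) (nat_lit 15299881967) (nat_lit 76) (nat_lit 39272963935) (nat_lit 48) (nat_lit 5) (nat_lit 50) (nat_lit 5) (nat_lit 49) (nat_lit 5) (nat_lit 421) (nat_lit 360) (nat_lit 239)))) (XT.nd (nat_lit 78) (nat_lit 304) (nat_lit 0) (XT.lf (nat_lit 0) (nat_lit 40513704528) (nat_lit 152) (nat_lit 119953321) (nat_lit 228) (nat_lit 31304497569) (nat_lit 46) (nat_lit 5) (nat_lit 48) (nat_lit 5) (nat_lit 49) (nat_lit 5) (nat_lit 422) (nat_lit 360) (nat_lit 238)) (XT.nd (nat_lit 78) (nat_lit 228) (nat_lit 0) (XT.lf (nat_lit 0) (nat_lit 24999164990) (nat_lit 76) (nat_lit 43434620668) (nat_lit 152) (nat_lit 6158815046) (nat_lit 45) (nat_lit 5) (nat_lit 46) (nat_lit 5) (nat_lit 47) (nat_lit 4) (nat_lit 423) (nat_lit 360) (nat_lit 237)) (XT.lf (nat_lit 0) (nat_lit 7462949118) (nat_lit 152)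 (nat_lit 12778108304) (nat_lit 228) (nat_lit 57121115314) (nat_lit 42) (nat_lit 5) (nat_lit 44) (nat_lit 5) (nat_lit 45) (nat_lit 5) (nat_lit 424) (nat_lit 360) (nat_lit 236)))))) (XT.nd (nat_lit 468) (nat_lit 76) (nat_lit 0) (XT.nd (nat_lit 234) (nat_lit 304) (nat_lit 0) (XT.nd (nat_lit 78) (nat_lit 304) (nat_lit 0) (XT.lf (nat_lit 0) (nat_lit 48529377170) (nat_lit 228) (nat_lit 12114206132) (nat_lit 76) (nat_lit 19603936583) (nat_lit 42) (nat_lit 5) (nat_lit 45) (nat_lit 5) (nat_lit 43) (nat_lit 4) (nat_lit 425) (nat_lit 360) (nat_lit 235)) (XT.nd (nat_lit 78) (nat_lit 228) (nat_lit 0) (XT.lf (nat_lit 0) (nat_lit 49381365775) (nat_lit 76) (nat_lit 29447237299) (nat_lit 152) (nat_lit 4430637266) (nat_lit 41) (nat_lit 5) (nat_lit 42) (nat_lit 5) (nat_lit 43) (nat_lit 4) (nat_lit 426) (nat_lit 360) (nat_lit 234)) (XT.lf (nat_lit 0) (nat_lit 24175494178) (nat_lit 228) (nat_lit 58352863848) (nat_lit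 76) (nat_lit 3873397683) (nat_lit 38) (nat_lit 5) (nat_lit 41) (nat_lit 5) (nat_lit 39) (nat_lit 4) (nat_lit 427) (nat_lit 360) (nat_lit 233)))) (XT.nd (nat_lit 78) (nat_lit 228) (nat_lit 0) (XT.lf (nat_lit 0) (nat_lit 3805005748) (nat_lit 76) (nat_lit 50995272036) (nat_lit 152) (nat_lit 34879404270) (nat_lit 37) (nat_lit 5) (nat_lit 38) (nat_lit 5) (nat_lit 39) (nat_lit 4) (nat_lit 428) (nat_lit 360) (nat_lit 232)) (XT.nd (nat_lit 78) (nat_lit 228) (nat_lit 0) (XT.lf (nat_lit 0) (nat_lit 70277677663) (nat_lit 76) (nat_lit 17272657186) (nat_lit 152) (nat_lit 5553349387) (nat_lit 37) (nat_lit 5) (nat_lit 38) (nat_lit 5) (nat_lit 39) (nat_lit 4) (nat_lit 429) (nat_lit 360) (nat_lit 231)) (XT.lf (nat_lit 0) (nat_lit 25343719462) (nat_lit 228) (nat_lit 52881348995) (nat_lit 76) (nat_lit 18448623740) (nat_lit 34) (nat_lit 5) (nat_lit 37) (nat_lit 5) (nat_lit 35) (nat_lit 4) (nat_lit 430) (nat_lit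 360) (nat_lit 230))))) (XT.nd (nat_lit 47736) (nat_lit 0) (nat_lit 17480) (XT.nd (nat_lit 78) (nat_lit 0) (nat_lit 0) (XT.lf (nat_lit 0) (nat_lit 13828773000) (nat_lit 76) (nat_lit 44381389184) (nat_lit 152) (nat_lit 42194208177) (nat_lit 33) (nat_lit 5) (nat_lit 34) (nat_lit 5) (nat_lit 35) (nat_lit 4) (nat_lit 431) (nat_lit 360) (nat_lit 229)) (XT.nd (nat_lit 47580) (nat_lit 0) (nat_lit 17480) (XT.lf (nat_lit 0) (nat_lit 84967987678) (nat_lit 76) (nat_lit 8290230873) (nat_lit 152) (nat_lit 11047215601) (nat_lit 33) (nat_lit 5) (nat_lit 34) (nat_lit 5) (nat_lit 35) (nat_lit 4) (nat_lit 432) (nat_lit 360) (nat_lit 228)) (XT.lf (nat_lit 0) (nat_lit 683603741) (nat_lit 0) (nat_lit 683603741) (nat_lit 1140) (nat_lit 4473861026) (nat_lit 263) (nat_lit 5) (nat_lit 263) (nat_lit 3) (nat_lit 278) (nat_lit 3) (nat_lit 361) (nat_lit 361) (nat_lit 298)))) (XT.nd (nat_lit 78) (nat_lit 0) (nat_lit 76) (XT.lf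 (nat_lit 0) (nat_lit 3690229612) (nat_lit 1140) (nat_lit 993280330) (nat_lit 1216) (nat_lit 7263698223) (nat_lit 263) (nat_lit 5) (nat_lit 278) (nat_lit 3) (nat_lit 279) (nat_lit 5) (nat_lit 362) (nat_lit 361) (nat_lit 297)) (XT.nd (nat_lit 78) (nat_lit 0) (nat_lit 76) (XT.lf (nat_lit 0) (nat_lit 4781679617) (nat_lit 1140) (nat_lit 3337479454) (nat_lit 1216) (nat_lit 4103761417) (nat_lit 264) (nat_lit 5) (nat_lit 279) (nat_lit 5) (nat_lit 280) (nat_lit 5) (nat_lit 363) (nat_lit 361) (nat_lit 296)) (XT.lf (nat_lit 0) (nat_lit 6009231316) (nat_lit 1140) (nat_lit 5694509626) (nat_lit 1216) (nat_lit 806253473) (nat_lit 265) (nat_lit 5) (nat_lit 280) (nat_lit 5) (nat_lit 281) (nat_lit 5) (nat_lit 364) (nat_lit 361) (nat_lit 295))))))) (XT.nd (nat_lit 936) (nat_lit 5548) (nat_lit 0) (XT.nd (nat_lit 468) (nat_lit 2964) (nat_lit 0) (XT.nd (nat_lit 234) (nat_lit 988) (nat_lit 0) (XT.nd (nat_lit 78) (nat_lit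 0) (nat_lit 76) (XT.lf (nat_lit 76) (nat_lit 4715475669) (nat_lit 0) (nat_lit 2697369091) (nat_lit 1216) (nat_lit 5395157578) (nat_lit 266) (nat_lit 5) (nat_lit 265) (nat_lit 5) (nat_lit 281) (nat_lit 5) (nat_lit 365) (nat_lit 361) (nat_lit 294)) (XT.nd (nat_lit 78) (nat_lit 0) (nat_lit 76) (XT.lf (nat_lit 76) (nat_lit 2600611833) (nat_lit 0) (nat_lit 6390044525) (nat_lit 1216) (nat_lit 4127153609) (nat_lit 267) (nat_lit 5) (nat_lit 266) (nat_lit 5) (nat_lit 282) (nat_lit 5) (nat_lit 366) (nat_lit 361) (nat_lit 293)) (XT.lf (nat_lit 76) (nat_lit 477423522) (nat_lit 0) (nat_lit 10272507649) (nat_lit 1216) (nat_lit 2690118511) (nat_lit 268) (nat_lit 5) (nat_lit 267) (nat_lit 5) (nat_lit 283) (nat_lit 5) (nat_lit 367) (nat_lit 361) (nat_lit 292)))) (XT.nd (nat_lit 78) (nat_lit 1140) (nat_lit 0) (XT.lf (nat_lit 76) (nat_lit 12145696575) (nat_lit 0) (nat_lit 582211060) (nat_lit 1216) (nat_lit 1046589602)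 (nat_lit 268) (nat_lit 5) (nat_lit 267) (nat_lit 5) (nat_lit 283) (nat_lit 5) (nat_lit 368) (nat_lit 361) (nat_lit 291)) (XT.nd (nat_lit 78) (nat_lit 0) (nat_lit 76) (XT.lf (nat_lit 0) (nat_lit 819754525) (nat_lit 1216) (nat_lit 3777596236) (nat_lit 1292) (nat_lit 9523520476) (nat_lit 252) (nat_lit 5) (nat_lit 268) (nat_lit 5) (nat_lit 269) (nat_lit 5) (nat_lit 369) (nat_lit 361) (nat_lit 290)) (XT.lf (nat_lit 0) (nat_lit 2880558565) (nat_lit 1216) (nat_lit 5952629407) (nat_lit 1292) (nat_lit 5647397302) (nat_lit 253) (nat_lit 5) (nat_lit 269) (nat_lit 5) (nat_lit 270) (nat_lit 5) (nat_lit 370) (nat_lit 361) (nat_lit 289))))) (XT.nd (nat_lit 234) (nat_lit 1292) (nat_lit 0) (XT.nd (nat_lit 78) (nat_lit 1824) (nat_lit 0) (XT.lf (nat_lit 0) (nat_lit 5173275072) (nat_lit 1216) (nat_lit 8145092773) (nat_lit 76) (nat_lit 1536066087) (nat_lit 254) (nat_lit 5) (nat_lit 270) (nat_lit 5) (nat_lit 255)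 (nat_lit 5) (nat_lit 371) (nat_lit 361) (nat_lit 288)) (XT.nd (nat_lit 78) (nat_lit 608) (nat_lit 0) (XT.lf (nat_lit 0) (nat_lit 4858256265) (nat_lit 1216) (nat_lit 2885117510) (nat_lit 1292) (nat_lit 7498733226) (nat_lit 238) (nat_lit 5) (nat_lit 254) (nat_lit 5) (nat_lit 255) (nat_lit 5) (nat_lit 372) (nat_lit 361) (nat_lit 287)) (XT.lf (nat_lit 0) (nat_lit 2984532344) (nat_lit 608) (nat_lit 7614810126) (nat_lit 684) (nat_lit 5045113985) (nat_lit 230) (nat_lit 5) (nat_lit 238) (nat_lit 5) (nat_lit 239) (nat_lit 5) (nat_lit 373) (nat_lit 361) (nat_lit 286)))) (XT.nd (nat_lit 78) (nat_lit 684) (nat_lit 0) (XT.lf (nat_lit 0) (nat_lit 1103135333) (nat_lit 608) (nat_lit 12642471421) (nat_lit 684) (nat_lit 2316904744) (nat_lit 222) (nat_lit 5) (nat_lit 230) (nat_lit 5) (nat_lit 231) (nat_lit 5) (nat_lit 374) (nat_lit 361) (nat_lit 285)) (XT.nd (nat_lit 78) (nat_lit 608) (nat_lit 0) (XT.lf (nat_lit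 0) (nat_lit 714191134) (nat_lit 684) (nat_lit 792587595) (nat_lit 76) (nat_lit 14989229745) (nat_lit 221) (nat_lit 5) (nat_lit 230) (nat_lit 5) (nat_lit 222) (nat_lit 5) (nat_lit 375) (nat_lit 361) (nat_lit 284)) (XT.lf (nat_lit 0) (nat_lit 4056615503) (nat_lit 684) (nat_lit 2737452659) (nat_lit 76) (nat_lit 10150204697) (nat_lit 213) (nat_lit 5) (nat_lit 222) (nat_lit 5) (nat_lit 214) (nat_lit 5) (nat_lit 376) (nat_lit 361) (nat_lit 283)))))) (XT.nd (nat_lit 468) (nat_lit 2508) (nat_lit 0) (XT.nd (nat_lit 234) (nat_lit 1520) (nat_lit 0) (XT.nd (nat_lit 78) (nat_lit 988) (nat_lit 0) (XT.lf (nat_lit 0) (nat_lit 7732451627) (nat_lit 608) (nat_lit 4697554152) (nat_lit 76) (nat_lit 4979966898) (nat_lit 206) (nat_lit 5) (nat_lit 214) (nat_lit 5) (nat_lit 207) (nat_lit 5) (nat_lit 377) (nat_lit 361) (nat_lit 282)) (XT.nd (nat_lit 78) (nat_lit 456) (nat_lit 0) (XT.lf (nat_lit 0) (nat_lit 11214760292)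 (nat_lit 532) (nat_lit 554578005) (nat_lit 608) (nat_lit 6124311837) (nat_lit 199) (nat_lit 5) (nat_lit 206) (nat_lit 5) (nat_lit 207) (nat_lit 5) (nat_lit 378) (nat_lit 361) (nat_lit 281)) (XT.lf (nat_lit 0) (nat_lit 9665332942) (nat_lit 456) (nat_lit 6572459609) (nat_lit 532) (nat_lit 2156837129) (nat_lit 193) (nat_lit 5) (nat_lit 199) (nat_lit 5) (nat_lit 200) (nat_lit 5) (nat_lit 379) (nat_lit 361) (nat_lit 280)))) (XT.nd (nat_lit 78) (nat_lit 912) (nat_lit 0) (XT.lf (nat_lit 0) (nat_lit 2155590131) (nat_lit 608) (nat_lit 10821979339) (nat_lit 76) (nat_lit 5936945088) (nat_lit 185) (nat_lit 5) (nat_lit 193) (nat_lit 5) (nat_lit 186) (nat_lit 5) (nat_lit 380) (nat_lit 361) (nat_lit 279)) (XT.nd (nat_lit 78) (nat_lit 456) (nat_lit 0) (XT.lf (nat_lit 0) (nat_lit 6489158730) (nat_lit 456) (nat_lit 344863356) (nat_lit 532) (nat_lit 12619889978) (nat_lit 179) (nat_lit 5) (nat_lit 185) (nat_lit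 5) (nat_lit 186) (nat_lit 5) (nat_lit 381) (nat_lit 361) (nat_lit 278)) (XT.lf (nat_lit 0) (nat_lit 4815214890) (nat_lit 456) (nat_lit 7190133936) (nat_lit 532) (nat_lit 8007169738) (nat_lit 173) (nat_lit 5) (nat_lit 179) (nat_lit 5) (nat_lit 180) (nat_lit 5) (nat_lit 382) (nat_lit 361) (nat_lit 277))))) (XT.nd (nat_lit 234) (nat_lit 1596) (nat_lit 0) (XT.nd (nat_lit 78) (nat_lit 532) (nat_lit 0) (XT.lf (nat_lit 0) (nat_lit 3129925635) (nat_lit 380) (nat_lit 14508534482) (nat_lit 456) (nat_lit 2954506645) (nat_lit 168) (nat_lit 5) (nat_lit 173) (nat_lit 5) (nat_lit 174) (nat_lit 5) (nat_lit 383) (nat_lit 361) (nat_lit 276)) (XT.nd (nat_lit 78) (nat_lit 0) (nat_lit 0) (XT.lf (nat_lit 0) (nat_lit 1395869508) (nat_lit 456) (nat_lit 1130463340) (nat_lit 532) (nat_lit 18668791457) (nat_lit 161) (nat_lit 5) (nat_lit 167) (nat_lit 5) (nat_lit 168) (nat_lit 5) (nat_lit 384) (nat_lit 361) (nat_lit 275))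 (XT.lf (nat_lit 0) (nat_lit 8504581355) (nat_lit 532) (nat_lit 442913478) (nat_lit 76) (nat_lit 12870490168) (nat_lit 161) (nat_lit 5) (nat_lit 168) (nat_lit 5) (nat_lit 162) (nat_lit 5) (nat_lit 385) (nat_lit 361) (nat_lit 274)))) (XT.nd (nat_lit 156) (nat_lit 836) (nat_lit 0) (XT.nd (nat_lit 78) (nat_lit 380) (nat_lit 0) (XT.lf (nat_lit 0) (nat_lit 15017599612) (nat_lit 456) (nat_lit 2278837370) (nat_lit 76) (nat_lit 5168482668) (nat_lit 156) (nat_lit 5) (nat_lit 162) (nat_lit 5) (nat_lit 157) (nat_lit 5) (nat_lit 386) (nat_lit 361) (nat_lit 273)) (XT.lf (nat_lit 0) (nat_lit 18965167674) (nat_lit 380) (nat_lit 3148239748) (nat_lit 456) (nat_lit 1023085778) (nat_lit 151) (nat_lit 5) (nat_lit 156) (nat_lit 5) (nat_lit 157) (nat_lit 5) (nat_lit 387) (nat_lit 361) (nat_lit 272))) (XT.nd (nat_lit 78) (nat_lit 380) (nat_lit 0) (XT.lf (nat_lit 0) (nat_lit 5900323455) (nat_lit 456) (nat_lit 6206578194)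 (nat_lit 76) (nat_lit 11724410607) (nat_lit 145) (nat_lit 5) (nat_lit 151) (nat_lit 5) (nat_lit 146) (nat_lit 5) (nat_lit 388) (nat_lit 361) (nat_lit 271)) (XT.lf (nat_lit 0) (nat_lit 13389840175) (nat_lit 456) (nat_lit 8294511246) (nat_lit 76) (nat_lit 2868989646) (nat_lit 140) (nat_lit 5) (nat_lit 146) (nat_lit 5) (nat_lit 141) (nat_lit 5) (nat_lit 389) (nat_lit 361) (nat_lit 270))))))))
noncomputable def xc85 : XT := (XT.nd (nat_lit 1872) (nat_lit 2356) (nat_lit 0) (XT.nd (nat_lit 936) (nat_lit 2356) (nat_lit 0) (XT.nd (nat_lit 468) (nat_lit 1368) (nat_lit 0) (XT.nd (nat_lit 234) (nat_lit 988) (nat_lit 0) (XT.nd (nat_lit 78) (nat_lit 760) (nat_lit 0) (XT.lf (nat_lit 0) (nat_lit 14808347149) (nat_lit 304) (nat_lit 6756214440) (nat_lit 380) (nat_lit 3737593168) (nat_lit 136) (nat_lit 5) (nat_lit 140) (nat_lit 5) (nat_lit 141) (nat_lit 5) (nat_lit 390) (nat_lit 361) (nat_lit 269)) (XT.nd (nat_lit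 78) (nat_lit 304) (nat_lit 0) (XT.lf (nat_lit 0) (nat_lit 4265230668) (nat_lit 456) (nat_lit 12820126831) (nat_lit 76) (nat_lit 8993340685) (nat_lit 130) (nat_lit 5) (nat_lit 136) (nat_lit 5) (nat_lit 131) (nat_lit 5) (nat_lit 391) (nat_lit 361) (nat_lit 268)) (XT.lf (nat_lit 0) (nat_lit 11622025449) (nat_lit 304) (nat_lit 1241259035) (nat_lit 380) (nat_lit 14021507153) (nat_lit 126) (nat_lit 5) (nat_lit 130) (nat_lit 5) (nat_lit 131) (nat_lit 5) (nat_lit 392) (nat_lit 361) (nat_lit 267)))) (XT.nd (nat_lit 78) (nat_lit 684) (nat_lit 0) (XT.lf (nat_lit 0) (nat_lit 9845248853) (nat_lit 304) (nat_lit 12405084187) (nat_lit 380) (nat_lit 5470088412) (nat_lit 122) (nat_lit 5) (nat_lit 126) (nat_lit 5) (nat_lit 127) (nat_lit 5) (nat_lit 393) (nat_lit 361) (nat_lit 266)) (XT.nd (nat_lit 78) (nat_lit 304) (nat_lit 0) (XT.lf (nat_lit 0) (nat_lit 3714092092) (nat_lit 380) (nat_lit 20612652691) (nat_lit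 76) (nat_lit 4261870332) (nat_lit 117) (nat_lit 5) (nat_lit 122) (nat_lit 5) (nat_lit 118) (nat_lit 5) (nat_lit 394) (nat_lit 361) (nat_lit 265)) (XT.lf (nat_lit 0) (nat_lit 5907661047) (nat_lit 304) (nat_lit 7689646274) (nat_lit 380) (nat_lit 15890701612) (nat_lit 113) (nat_lit 5) (nat_lit 117) (nat_lit 5) (nat_lit 118) (nat_lit 5) (nat_lit 395) (nat_lit 361) (nat_lit 264))))) (XT.nd (nat_lit 234) (nat_lit 760) (nat_lit 0) (XT.nd (nat_lit 78) (nat_lit 380) (nat_lit 0) (XT.lf (nat_lit 0) (nat_lit 3711467069) (nat_lit 228) (nat_lit 20591725412) (nat_lit 304) (nat_lit 6119328419) (nat_lit 110) (nat_lit 5) (nat_lit 113) (nat_lit 5) (nat_lit 114) (nat_lit 5) (nat_lit 396) (nat_lit 361) (nat_lit 263)) (XT.nd (nat_lit 78) (nat_lit 0) (nat_lit 0) (XT.lf (nat_lit 0) (nat_lit 1347423540) (nat_lit 304) (nat_lit 3033001880) (nat_lit 380) (nat_lit 27012524123) (nat_lit 105) (nat_lit 5) (nat_lit 109) (nat_lit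 5) (nat_lit 110) (nat_lit 5) (nat_lit 397) (nat_lit 361) (nat_lit 262)) (XT.lf (nat_lit 0) (nat_lit 15690873048) (nat_lit 380) (nat_lit 1272105610) (nat_lit 76) (nat_lit 15434738728) (nat_lit 105) (nat_lit 5) (nat_lit 110) (nat_lit 5) (nat_lit 106) (nat_lit 5) (nat_lit 398) (nat_lit 361) (nat_lit 261)))) (XT.nd (nat_lit 78) (nat_lit 532) (nat_lit 0) (XT.lf (nat_lit 0) (nat_lit 27882033702) (nat_lit 304) (nat_lit 3996594604) (nat_lit 76) (nat_lit 1564642725) (nat_lit 102) (nat_lit 5) (nat_lit 106) (nat_lit 5) (nat_lit 103) (nat_lit 5) (nat_lit 399) (nat_lit 361) (nat_lit 260)) (XT.nd (nat_lit 78) (nat_lit 228) (nat_lit 0) (XT.lf (nat_lit 0) (nat_lit 6461615361) (nat_lit 304) (nat_lit 7059742556) (nat_lit 76) (nat_lit 21004781884) (nat_lit 98) (nat_lit 5) (nat_lit 102) (nat_lit 5) (nat_lit 99) (nat_lit 5) (nat_lit 400) (nat_lit 361) (nat_lit 259)) (XT.lf (nat_lit 0) (nat_lit 19302145650) (nat_lit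 304) (nat_lit 10371009058) (nat_lit 76) (nat_lit 5978401709) (nat_lit 95) (nat_lit 5) (nat_lit 99) (nat_lit 5) (nat_lit 96) (nat_lit 5) (nat_lit 401) (nat_lit 361) (nat_lit 258)))))) (XT.nd (nat_lit 468) (nat_lit 988) (nat_lit 0) (XT.nd (nat_lit 234) (nat_lit 608) (nat_lit 0) (XT.nd (nat_lit 78) (nat_lit 532) (nat_lit 0) (XT.lf (nat_lit 0) (nat_lit 22841969898) (nat_lit 228) (nat_lit 10359259026) (nat_lit 304) (nat_lit 3619521768) (nat_lit 92) (nat_lit 5) (nat_lit 95) (nat_lit 5) (nat_lit 96) (nat_lit 5) (nat_lit 402) (nat_lit 361) (nat_lit 257)) (XT.nd (nat_lit 78) (nat_lit 228) (nat_lit 0) (XT.lf (nat_lit 0) (nat_lit 9944904322) (nat_lit 304) (nat_lit 17970792031) (nat_lit 76) (nat_lit 10118252802) (nat_lit 88) (nat_lit 5) (nat_lit 92) (nat_lit 5) (nat_lit 89) (nat_lit 5) (nat_lit 403) (nat_lit 361) (nat_lit 256)) (XT.lf (nat_lit 0) (nat_lit 16964089462) (nat_lit 228) (nat_lit 7549968812) (nat_lit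 304) (nat_lit 14780635555) (nat_lit 85) (nat_lit 5) (nat_lit 88) (nat_lit 5) (nat_lit 89) (nat_lit 5) (nat_lit 404) (nat_lit 361) (nat_lit 255)))) (XT.nd (nat_lit 78) (nat_lit 456) (nat_lit 0) (XT.lf (nat_lit 0) (nat_lit 13517339125) (nat_lit 152) (nat_lit 26732111599) (nat_lit 228) (nat_lit 355893792) (nat_lit 83) (nat_lit 5) (nat_lit 85) (nat_lit 5) (nat_lit 86) (nat_lit 5) (nat_lit 405) (nat_lit 361) (nat_lit 254)) (XT.nd (nat_lit 78) (nat_lit 152) (nat_lit 0) (XT.lf (nat_lit 0) (nat_lit 9596698610) (nat_lit 228) (nat_lit 5293685672) (nat_lit 304) (nat_lit 27075213138) (nat_lit 79) (nat_lit 5) (nat_lit 82) (nat_lit 5) (nat_lit 83) (nat_lit 5) (nat_lit 406) (nat_lit 361) (nat_lit 253)) (XT.lf (nat_lit 0) (nat_lit 5206636010) (nat_lit 152) (nat_lit 26170806477) (nat_lit 228) (nat_lit 12001741909) (nat_lit 77) (nat_lit 5) (nat_lit 79) (nat_lit 5) (nat_lit 80) (nat_lit 5) (nat_lit 407) (nat_lit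 361) (nat_lit 252))))) (XT.nd (nat_lit 234) (nat_lit 532) (nat_lit 0) (XT.nd (nat_lit 78) (nat_lit 152) (nat_lit 0) (XT.lf (nat_lit 0) (nat_lit 378814267) (nat_lit 228) (nat_lit 3754376512) (nat_lit 304) (nat_lit 40717685514) (nat_lit 73) (nat_lit 5) (nat_lit 76) (nat_lit 5) (nat_lit 77) (nat_lit 5) (nat_lit 408) (nat_lit 361) (nat_lit 251)) (XT.nd (nat_lit 78) (nat_lit 152) (nat_lit 0) (XT.lf (nat_lit 0) (nat_lit 21405106472) (nat_lit 304) (nat_lit 5062809128) (nat_lit 76) (nat_lit 19907320492) (nat_lit 73) (nat_lit 5) (nat_lit 77) (nat_lit 5) (nat_lit 74) (nat_lit 5) (nat_lit 409) (nat_lit 361) (nat_lit 250)) (XT.lf (nat_lit 0) (nat_lit 36982880101) (nat_lit 152) (nat_lit 2940786149) (nat_lit 228) (nat_lit 8040657807) (nat_lit 71) (nat_lit 5) (nat_lit 73) (nat_lit 5) (nat_lit 74) (nat_lit 5) (nat_lit 410) (nat_lit 361) (nat_lit 249)))) (XT.nd (nat_lit 78) (nat_lit 304) (nat_lit 0) (XT.lf (nat_lit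 0) (nat_lit 10110220985) (nat_lit 228) (nat_lit 17712608183) (nat_lit 76) (nat_lit 21790284192) (nat_lit 68) (nat_lit 5) (nat_lit 71) (nat_lit 5) (nat_lit 69) (nat_lit 5) (nat_lit 411) (nat_lit 361) (nat_lit 248)) (XT.nd (nat_lit 78) (nat_lit 152) (nat_lit 0) (XT.lf (nat_lit 0) (nat_lit 26197103788) (nat_lit 152) (nat_lit 3192588531) (nat_lit 228) (nat_lit 21940642674) (nat_lit 66) (nat_lit 5) (nat_lit 68) (nat_lit 5) (nat_lit 69) (nat_lit 5) (nat_lit 412) (nat_lit 361) (nat_lit 247)) (XT.lf (nat_lit 0) (nat_lit 19692098631) (nat_lit 152) (nat_lit 30522750142) (nat_lit 228) (nat_lit 2901118953) (nat_lit 64) (nat_lit 5) (nat_lit 66) (nat_lit 5) (nat_lit 67) (nat_lit 5) (nat_lit 413) (nat_lit 361) (nat_lit 246))))))) (XT.nd (nat_lit 936) (nat_lit 684) (nat_lit 0) (XT.nd (nat_lit 468) (nat_lit 760) (nat_lit 0) (XT.nd (nat_lit 234) (nat_lit 456) (nat_lit 0) (XT.nd (nat_lit 78) (nat_lit 228) (nat_lit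 0) (XT.lf (nat_lit 0) (nat_lit 12325585170) (nat_lit 152) (nat_lit 4833866576) (nat_lit 228) (nat_lit 37814426143) (nat_lit 61) (nat_lit 5) (nat_lit 63) (nat_lit 5) (nat_lit 64) (nat_lit 5) (nat_lit 414) (nat_lit 361) (nat_lit 245)) (XT.nd (nat_lit 78) (nat_lit 76) (nat_lit 0) (XT.lf (nat_lit 0) (nat_lit 3962040055) (nat_lit 152) (nat_lit 34790749224) (nat_lit 228) (nat_lit 18153341625) (nat_lit 59) (nat_lit 5) (nat_lit 61) (nat_lit 5) (nat_lit 62) (nat_lit 5) (nat_lit 415) (nat_lit 361) (nat_lit 244)) (XT.lf (nat_lit 0) (nat_lit 2925351855) (nat_lit 228) (nat_lit 5220880962) (nat_lit 76) (nat_lit 50773551798) (nat_lit 58) (nat_lit 5) (nat_lit 61) (nat_lit 5) (nat_lit 59) (nat_lit 5) (nat_lit 416) (nat_lit 361) (nat_lit 243)))) (XT.nd (nat_lit 78) (nat_lit 304) (nat_lit 0) (XT.lf (nat_lit 0) (nat_lit 25312303145) (nat_lit 228) (nat_lit 15633091005) (nat_lit 76) (nat_lit 20064442973) (nat_lit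 56) (nat_lit 5) (nat_lit 59) (nat_lit 5) (nat_lit 57) (nat_lit 5) (nat_lit 417) (nat_lit 361) (nat_lit 242)) (XT.nd (nat_lit 78) (nat_lit 152) (nat_lit 0) (XT.lf (nat_lit 0) (nat_lit 36015543644) (nat_lit 152) (nat_lit 13277387411) (nat_lit 228) (nat_lit 13897232337) (nat_lit 54) (nat_lit 5) (nat_lit 56) (nat_lit 5) (nat_lit 57) (nat_lit 5) (nat_lit 418) (nat_lit 361) (nat_lit 241)) (XT.lf (nat_lit 0) (nat_lit 9373437053) (nat_lit 152) (nat_lit 40128150337) (nat_lit 76) (nat_lit 15958650901) (nat_lit 52) (nat_lit 5) (nat_lit 54) (nat_lit 5) (nat_lit 53) (nat_lit 5) (nat_lit 419) (nat_lit 361) (nat_lit 240))))) (XT.nd (nat_lit 234) (nat_lit 456) (nat_lit 0) (XT.nd (nat_lit 78) (nat_lit 152) (nat_lit 0) (XT.lf (nat_lit 0) (nat_lit 13161804332) (nat_lit 152) (nat_lit 20896125045) (nat_lit 228) (nat_lit 33765629387) (nat_lit 50) (nat_lit 5) (nat_lit 52) (nat_lit 5) (nat_lit 53) (nat_lit 5) (nat_lit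 420) (nat_lit 361) (nat_lit 239)) (XT.nd (nat_lit 78) (nat_lit 152) (nat_lit 0) (XT.lf (nat_lit 0) (nat_lit 60473853841) (nat_lit 228) (nat_lit 444092320) (nat_lit 76) (nat_lit 9372183719) (nat_lit 50) (nat_lit 5) (nat_lit 53) (nat_lit 5) (nat_lit 51) (nat_lit 4) (nat_lit 421) (nat_lit 361) (nat_lit 238)) (XT.lf (nat_lit 0) (nat_lit 15793893621) (nat_lit 152) (nat_lit 15632625450) (nat_lit 76) (nat_lit 41426215180) (nat_lit 48) (nat_lit 5) (nat_lit 50) (nat_lit 5) (nat_lit 49) (nat_lit 5) (nat_lit 422) (nat_lit 361) (nat_lit 237)))) (XT.nd (nat_lit 78) (nat_lit 304) (nat_lit 0) (XT.lf (nat_lit 0) (nat_lit 42894346499) (nat_lit 228) (nat_lit 32569569000) (nat_lit 76) (nat_lit 64254647) (nat_lit 46) (nat_lit 5) (nat_lit 49) (nat_lit 5) (nat_lit 47) (nat_lit 4) (nat_lit 423) (nat_lit 361) (nat_lit 236)) (XT.nd (nat_lit 78) (nat_lit 228) (nat_lit 0) (XT.lf (nat_lit 0) (nat_lit 26661837465) (nat_lit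 76) (nat_lit 45416858523) (nat_lit 152) (nat_lit 6236816338) (nat_lit 45) (nat_lit 5) (nat_lit 46) (nat_lit 5) (nat_lit 47) (nat_lit 4) (nat_lit 424) (nat_lit 361) (nat_lit 235)) (XT.lf (nat_lit 0) (nat_lit 8241359299) (nat_lit 152) (nat_lit 13230363307) (nat_lit 228) (nat_lit 59751980258) (nat_lit 42) (nat_lit 5) (nat_lit 44) (nat_lit 5) (nat_lit 45) (nat_lit 5) (nat_lit 425) (nat_lit 361) (nat_lit 234)))))) (XT.nd (nat_lit 468) (nat_lit 76) (nat_lit 0) (XT.nd (nat_lit 234) (nat_lit 304) (nat_lit 0) (XT.nd (nat_lit 78) (nat_lit 304) (nat_lit 0) (XT.lf (nat_lit 0) (nat_lit 51165756991) (nat_lit 228) (nat_lit 12329395451) (nat_lit 76) (nat_lit 20758426927) (nat_lit 42) (nat_lit 5) (nat_lit 45) (nat_lit 5) (nat_lit 43) (nat_lit 4) (nat_lit 426) (nat_lit 361) (nat_lit 233)) (XT.nd (nat_lit 78) (nat_lit 228) (nat_lit 0) (XT.lf (nat_lit 0) (nat_lit 52229760846) (nat_lit 76) (nat_lit 30743833906) (nat_lit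 152) (nat_lit 4442482493) (nat_lit 41) (nat_lit 5) (nat_lit 42) (nat_lit 5) (nat_lit 43) (nat_lit 4) (nat_lit 427) (nat_lit 361) (nat_lit 232)) (XT.lf (nat_lit 0) (nat_lit 25585317281) (nat_lit 228) (nat_lit 60893727031) (nat_lit 76) (nat_lit 4236750840) (nat_lit 38) (nat_lit 5) (nat_lit 41) (nat_lit 5) (nat_lit 39) (nat_lit 4) (nat_lit 428) (nat_lit 361) (nat_lit 231)))) (XT.nd (nat_lit 78) (nat_lit 228) (nat_lit 0) (XT.lf (nat_lit 0) (nat_lit 4361235722) (nat_lit 76) (nat_lit 53374048633) (nat_lit 152) (nat_lit 36422515935) (nat_lit 37) (nat_lit 5) (nat_lit 38) (nat_lit 5) (nat_lit 39) (nat_lit 4) (nat_lit 429) (nat_lit 361) (nat_lit 230)) (XT.nd (nat_lit 78) (nat_lit 228) (nat_lit 0) (XT.lf (nat_lit 0) (nat_lit 74140113628) (nat_lit 76) (nat_lit 17973445278) (nat_lit 152) (nat_lit 5639723001) (nat_lit 37) (nat_lit 5) (nat_lit 38) (nat_lit 5) (nat_lit 39) (nat_lit 4) (nat_lit 430) (nat_lit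 361) (nat_lit 229)) (XT.lf (nat_lit 0) (nat_lit 26794365159) (nat_lit 228) (nat_lit 55179284253) (nat_lit 76) (nat_lit 19528209437) (nat_lit 34) (nat_lit 5) (nat_lit 37) (nat_lit 5) (nat_lit 35) (nat_lit 4) (nat_lit 431) (nat_lit 361) (nat_lit 228))))) (XT.nd (nat_lit 47814) (nat_lit 0) (nat_lit 17556) (XT.nd (nat_lit 47658) (nat_lit 0) (nat_lit 17480) (XT.lf (nat_lit 0) (nat_lit 14856422032) (nat_lit 76) (nat_lit 46442203668) (nat_lit 152) (nat_lit 44120611026) (nat_lit 33) (nat_lit 5) (nat_lit 34) (nat_lit 5) (nat_lit 35) (nat_lit 4) (nat_lit 432) (nat_lit 361) (nat_lit 227)) (XT.nd (nat_lit 78) (nat_lit 0) (nat_lit 0) (XT.lf (nat_lit 0) (nat_lit 1119532791) (nat_lit 0) (nat_lit 1119532791) (nat_lit 1140) (nat_lit 3869598368) (nat_lit 263) (nat_lit 5) (nat_lit 263) (nat_lit 3) (nat_lit 278) (nat_lit 3) (nat_lit 362) (nat_lit 362) (nat_lit 296)) (XT.lf (nat_lit 0) (nat_lit 5397857036) (nat_lit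 1140) (nat_lit 223765866) (nat_lit 1216) (nat_lit 6876579714) (nat_lit 263) (nat_lit 5) (nat_lit 278) (nat_lit 3) (nat_lit 279) (nat_lit 5) (nat_lit 363) (nat_lit 362) (nat_lit 295)))) (XT.nd (nat_lit 156) (nat_lit 0) (nat_lit 76) (XT.nd (nat_lit 78) (nat_lit 0) (nat_lit 76) (XT.lf (nat_lit 0) (nat_lit 6472630211) (nat_lit 1140) (nat_lit 2657900290) (nat_lit 1216) (nat_lit 3659339556) (nat_lit 264) (nat_lit 5) (nat_lit 279) (nat_lit 5) (nat_lit 280) (nat_lit 5) (nat_lit 364) (nat_lit 362) (nat_lit 294)) (XT.lf (nat_lit 0) (nat_lit 7694862151) (nat_lit 1140) (nat_lit 5109252188) (nat_lit 1216) (nat_lit 289214760) (nat_lit 265) (nat_lit 5) (nat_lit 280) (nat_lit 5) (nat_lit 281) (nat_lit 5) (nat_lit 365) (nat_lit 362) (nat_lit 293))) (XT.nd (nat_lit 78) (nat_lit 0) (nat_lit 76) (XT.lf (nat_lit 76) (nat_lit 5796294487) (nat_lit 0) (nat_lit 3314524429) (nat_lit 1216) (nat_lit 4297182669) (nat_lit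 266) (nat_lit 5) (nat_lit 265) (nat_lit 5) (nat_lit 281) (nat_lit 5) (nat_lit 366) (nat_lit 362) (nat_lit 292)) (XT.lf (nat_lit 76) (nat_lit 3595210345) (nat_lit 0) (nat_lit 7112999949) (nat_lit 1216) (nat_lit 3026896286) (nat_lit 267) (nat_lit 5) (nat_lit 266) (nat_lit 5) (nat_lit 282) (nat_lit 5) (nat_lit 367) (nat_lit 362) (nat_lit 291))))))))
noncomputable def xc86 : XT := (XT.nd (nat_lit 1872) (nat_lit 5852) (nat_lit 0) (XT.nd (nat_lit 936) (nat_lit 4788) (nat_lit 0) (XT.nd (nat_lit 468) (nat_lit 2964) (nat_lit 0) (XT.nd (nat_lit 234) (nat_lit 988) (nat_lit 0) (XT.nd (nat_lit 78) (nat_lit 1216) (nat_lit 0) (XT.lf (nat_lit 76) (nat_lit 1382334622) (nat_lit 0) (nat_lit 11117507803) (nat_lit 1216) (nat_lit 1575310396) (nat_lit 268) (nat_lit 5) (nat_lit 267) (nat_lit 5) (nat_lit 283) (nat_lit 5) (nat_lit 368) (nat_lit 362) (nat_lit 290)) (XT.nd (nat_lit 78) (nat_lit 0) (nat_lit 76) (XT.lf (nat_lit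 0) (nat_lit 89129952) (nat_lit 1216) (nat_lit 836886643) (nat_lit 1292) (nat_lit 13502037055) (nat_lit 251) (nat_lit 5) (nat_lit 267) (nat_lit 5) (nat_lit 268) (nat_lit 5) (nat_lit 369) (nat_lit 362) (nat_lit 289)) (XT.lf (nat_lit 0) (nat_lit 1977149103) (nat_lit 1216) (nat_lit 3091678322) (nat_lit 1292) (nat_lit 9724131169) (nat_lit 252) (nat_lit 5) (nat_lit 268) (nat_lit 5) (nat_lit 269) (nat_lit 5) (nat_lit 370) (nat_lit 362) (nat_lit 288)))) (XT.nd (nat_lit 78) (nat_lit 1140) (nat_lit 0) (XT.lf (nat_lit 0) (nat_lit 4093868132) (nat_lit 1216) (nat_lit 5365823741) (nat_lit 1292) (nat_lit 5712402312) (nat_lit 253) (nat_lit 5) (nat_lit 269) (nat_lit 5) (nat_lit 270) (nat_lit 5) (nat_lit 371) (nat_lit 362) (nat_lit 287)) (XT.nd (nat_lit 78) (nat_lit 1216) (nat_lit 0) (XT.lf (nat_lit 0) (nat_lit 6456949877) (nat_lit 1216) (nat_lit 7660432518) (nat_lit 76) (nat_lit 1448602042) (nat_lit 254) (nat_lit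 5) (nat_lit 270) (nat_lit 5) (nat_lit 255) (nat_lit 5) (nat_lit 372) (nat_lit 362) (nat_lit 286)) (XT.lf (nat_lit 0) (nat_lit 5967517410) (nat_lit 1216) (nat_lit 3147553925) (nat_lit 1292) (nat_lit 6859204330) (nat_lit 238) (nat_lit 5) (nat_lit 254) (nat_lit 5) (nat_lit 255) (nat_lit 5) (nat_lit 373) (nat_lit 362) (nat_lit 285))))) (XT.nd (nat_lit 234) (nat_lit 1064) (nat_lit 0) (XT.nd (nat_lit 78) (nat_lit 1292) (nat_lit 0) (XT.lf (nat_lit 0) (nat_lit 4005455608) (nat_lit 608) (nat_lit 8068797884) (nat_lit 684) (nat_lit 4323695736) (nat_lit 230) (nat_lit 5) (nat_lit 238) (nat_lit 5) (nat_lit 239) (nat_lit 5) (nat_lit 374) (nat_lit 362) (nat_lit 284)) (XT.nd (nat_lit 78) (nat_lit 684) (nat_lit 0) (XT.lf (nat_lit 0) (nat_lit 2033592161) (nat_lit 608) (nat_lit 13306984851) (nat_lit 684) (nat_lit 1497465808) (nat_lit 222) (nat_lit 5) (nat_lit 230) (nat_lit 5) (nat_lit 231) (nat_lit 5) (nat_lit 375)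 (nat_lit 362) (nat_lit 283)) (XT.lf (nat_lit 0) (nat_lit 19500492) (nat_lit 608) (nat_lit 1603952801) (nat_lit 684) (nat_lit 15670812868) (nat_lit 213) (nat_lit 5) (nat_lit 221) (nat_lit 5) (nat_lit 222) (nat_lit 5) (nat_lit 376) (nat_lit 362) (nat_lit 282)))) (XT.nd (nat_lit 78) (nat_lit 1064) (nat_lit 0) (XT.lf (nat_lit 0) (nat_lit 5099048643) (nat_lit 684) (nat_lit 2021756878) (nat_lit 76) (nat_lit 10645172759) (nat_lit 213) (nat_lit 5) (nat_lit 222) (nat_lit 5) (nat_lit 214) (nat_lit 5) (nat_lit 377) (nat_lit 362) (nat_lit 281)) (XT.nd (nat_lit 78) (nat_lit 532) (nat_lit 0) (XT.lf (nat_lit 0) (nat_lit 8926853517) (nat_lit 608) (nat_lit 4079967309) (nat_lit 76) (nat_lit 5249112201) (nat_lit 206) (nat_lit 5) (nat_lit 214) (nat_lit 5) (nat_lit 207) (nat_lit 5) (nat_lit 378) (nat_lit 362) (nat_lit 280)) (XT.lf (nat_lit 0) (nat_lit 12603527132) (nat_lit 532) (nat_lit 531551226) (nat_lit 608) (nat_lit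 5629645702) (nat_lit 199) (nat_lit 5) (nat_lit 206) (nat_lit 5) (nat_lit 207) (nat_lit 5) (nat_lit 379) (nat_lit 362) (nat_lit 279)))))) (XT.nd (nat_lit 468) (nat_lit 1900) (nat_lit 0) (XT.nd (nat_lit 234) (nat_lit 1368) (nat_lit 0) (XT.nd (nat_lit 78) (nat_lit 1064) (nat_lit 0) (XT.lf (nat_lit 0) (nat_lit 10975351071) (nat_lit 456) (nat_lit 6823003149) (nat_lit 532) (nat_lit 1493270224) (nat_lit 193) (nat_lit 5) (nat_lit 199) (nat_lit 5) (nat_lit 200) (nat_lit 5) (nat_lit 380) (nat_lit 362) (nat_lit 278)) (XT.nd (nat_lit 78) (nat_lit 456) (nat_lit 0) (XT.lf (nat_lit 0) (nat_lit 2992433561) (nat_lit 608) (nat_lit 10523904027) (nat_lit 76) (nat_lit 6321775063) (nat_lit 185) (nat_lit 5) (nat_lit 193) (nat_lit 5) (nat_lit 186) (nat_lit 5) (nat_lit 381) (nat_lit 362) (nat_lit 277)) (XT.lf (nat_lit 0) (nat_lit 7628736183) (nat_lit 456) (nat_lit 249169028) (nat_lit 532) (nat_lit 12527393455) (nat_lit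 179) (nat_lit 5) (nat_lit 185) (nat_lit 5) (nat_lit 186) (nat_lit 5) (nat_lit 382) (nat_lit 362) (nat_lit 276)))) (XT.nd (nat_lit 78) (nat_lit 912) (nat_lit 0) (XT.lf (nat_lit 0) (nat_lit 5867373591) (nat_lit 456) (nat_lit 7415821040) (nat_lit 532) (nat_lit 7709390568) (nat_lit 173) (nat_lit 5) (nat_lit 179) (nat_lit 5) (nat_lit 180) (nat_lit 5) (nat_lit 383) (nat_lit 362) (nat_lit 275)) (XT.nd (nat_lit 78) (nat_lit 532) (nat_lit 0) (XT.lf (nat_lit 0) (nat_lit 4093281797) (nat_lit 380) (nat_lit 15081395184) (nat_lit 456) (nat_lit 2428088404) (nat_lit 168) (nat_lit 5) (nat_lit 173) (nat_lit 5) (nat_lit 174) (nat_lit 5) (nat_lit 384) (nat_lit 362) (nat_lit 274)) (XT.lf (nat_lit 0) (nat_lit 2262380589) (nat_lit 456) (nat_lit 1027440395) (nat_lit 532) (nat_lit 18945740141) (nat_lit 161) (nat_lit 5) (nat_lit 167) (nat_lit 5) (nat_lit 168) (nat_lit 5) (nat_lit 385) (nat_lit 362) (nat_lit 273))))) (XT.nd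 (nat_lit 234) (nat_lit 1140) (nat_lit 0) (XT.nd (nat_lit 78) (nat_lit 380) (nat_lit 0) (XT.lf (nat_lit 0) (nat_lit 316841030) (nat_lit 380) (nat_lit 9224305678) (nat_lit 456) (nat_lit 13349202928) (nat_lit 156) (nat_lit 5) (nat_lit 161) (nat_lit 5) (nat_lit 162) (nat_lit 5) (nat_lit 386) (nat_lit 362) (nat_lit 272)) (XT.nd (nat_lit 78) (nat_lit 380) (nat_lit 0) (XT.lf (nat_lit 0) (nat_lit 16356651400) (nat_lit 456) (nat_lit 1623119752) (nat_lit 76) (nat_lit 5590564065) (nat_lit 156) (nat_lit 5) (nat_lit 162) (nat_lit 5) (nat_lit 157) (nat_lit 5) (nat_lit 387) (nat_lit 362) (nat_lit 271)) (XT.lf (nat_lit 0) (nat_lit 20661023410) (nat_lit 380) (nat_lit 3125404372) (nat_lit 456) (nat_lit 489693138) (nat_lit 151) (nat_lit 5) (nat_lit 156) (nat_lit 5) (nat_lit 157) (nat_lit 5) (nat_lit 388) (nat_lit 362) (nat_lit 270)))) (XT.nd (nat_lit 78) (nat_lit 684) (nat_lit 0) (XT.lf (nat_lit 0) (nat_lit 6750049324)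 (nat_lit 456) (nat_lit 5764515514) (nat_lit 76) (nat_lit 12491508596) (nat_lit 145) (nat_lit 5) (nat_lit 151) (nat_lit 5) (nat_lit 146) (nat_lit 5) (nat_lit 389) (nat_lit 362) (nat_lit 269)) (XT.nd (nat_lit 78) (nat_lit 304) (nat_lit 0) (XT.lf (nat_lit 0) (nat_lit 14596531571) (nat_lit 456) (nat_lit 7964076703) (nat_lit 76) (nat_lit 3204128490) (nat_lit 140) (nat_lit 5) (nat_lit 146) (nat_lit 5) (nat_lit 141) (nat_lit 5) (nat_lit 390) (nat_lit 362) (nat_lit 268)) (XT.lf (nat_lit 0) (nat_lit 16272564748) (nat_lit 304) (nat_lit 6888800996) (nat_lit 380) (nat_lit 3390191493) (nat_lit 136) (nat_lit 5) (nat_lit 140) (nat_lit 5) (nat_lit 141) (nat_lit 5) (nat_lit 391) (nat_lit 362) (nat_lit 267))))))) (XT.nd (nat_lit 936) (nat_lit 2508) (nat_lit 0) (XT.nd (nat_lit 468) (nat_lit 1368) (nat_lit 0) (XT.nd (nat_lit 234) (nat_lit 912) (nat_lit 0) (XT.nd (nat_lit 78) (nat_lit 608) (nat_lit 0) (XT.lf (nat_lit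 0) (nat_lit 4986254256) (nat_lit 456) (nat_lit 12734499355) (nat_lit 76) (nat_lit 9646509795) (nat_lit 130) (nat_lit 5) (nat_lit 136) (nat_lit 5) (nat_lit 131) (nat_lit 5) (nat_lit 392) (nat_lit 362) (nat_lit 266)) (XT.nd (nat_lit 78) (nat_lit 304) (nat_lit 0) (XT.lf (nat_lit 0) (nat_lit 12908931726) (nat_lit 304) (nat_lit 1087884521) (nat_lit 380) (nat_lit 14217373636) (nat_lit 126) (nat_lit 5) (nat_lit 130) (nat_lit 5) (nat_lit 131) (nat_lit 5) (nat_lit 393) (nat_lit 362) (nat_lit 265)) (XT.lf (nat_lit 0) (nat_lit 11035488899) (nat_lit 304) (nat_lit 12803059186) (nat_lit 380) (nat_lit 5253499384) (nat_lit 122) (nat_lit 5) (nat_lit 126) (nat_lit 5) (nat_lit 127) (nat_lit 5) (nat_lit 394) (nat_lit 362) (nat_lit 264)))) (XT.nd (nat_lit 78) (nat_lit 532) (nat_lit 0) (XT.lf (nat_lit 0) (nat_lit 4366196543) (nat_lit 380) (nat_lit 20944011097) (nat_lit 76) (nat_lit 4693731482) (nat_lit 117) (nat_lit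 5) (nat_lit 122) (nat_lit 5) (nat_lit 118) (nat_lit 5) (nat_lit 395) (nat_lit 362) (nat_lit 263)) (XT.nd (nat_lit 78) (nat_lit 228) (nat_lit 0) (XT.lf (nat_lit 0) (nat_lit 6882273772) (nat_lit 304) (nat_lit 7845618417) (nat_lit 380) (nat_lit 16220886318) (nat_lit 113) (nat_lit 5) (nat_lit 117) (nat_lit 5) (nat_lit 118) (nat_lit 5) (nat_lit 396) (nat_lit 362) (nat_lit 262)) (XT.lf (nat_lit 0) (nat_lit 4567906644) (nat_lit 228) (nat_lit 21388242886) (nat_lit 304) (nat_lit 5974259408) (nat_lit 110) (nat_lit 5) (nat_lit 113) (nat_lit 5) (nat_lit 114) (nat_lit 5) (nat_lit 397) (nat_lit 362) (nat_lit 261))))) (XT.nd (nat_lit 234) (nat_lit 760) (nat_lit 0) (XT.nd (nat_lit 78) (nat_lit 228) (nat_lit 0) (XT.lf (nat_lit 0) (nat_lit 2075077887) (nat_lit 304) (nat_lit 2951891190) (nat_lit 380) (nat_lit 27922706033) (nat_lit 105) (nat_lit 5) (nat_lit 109) (nat_lit 5) (nat_lit 110) (nat_lit 5) (nat_lit 398)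 (nat_lit 362) (nat_lit 260)) (XT.nd (nat_lit 78) (nat_lit 228) (nat_lit 0) (XT.lf (nat_lit 0) (nat_lit 16884711771) (nat_lit 380) (nat_lit 696694088) (nat_lit 76) (nat_lit 16423826887) (nat_lit 105) (nat_lit 5) (nat_lit 110) (nat_lit 5) (nat_lit 106) (nat_lit 5) (nat_lit 399) (nat_lit 362) (nat_lit 259)) (XT.lf (nat_lit 0) (nat_lit 29674068906) (nat_lit 304) (nat_lit 3565926534) (nat_lit 76) (nat_lit 1863413845) (nat_lit 102) (nat_lit 5) (nat_lit 106) (nat_lit 5) (nat_lit 103) (nat_lit 5) (nat_lit 400) (nat_lit 362) (nat_lit 258)))) (XT.nd (nat_lit 78) (nat_lit 456) (nat_lit 0) (XT.lf (nat_lit 0) (nat_lit 7173459554) (nat_lit 304) (nat_lit 6792487108) (nat_lit 76) (nat_lit 22274756512) (nat_lit 98) (nat_lit 5) (nat_lit 102) (nat_lit 5) (nat_lit 99) (nat_lit 5) (nat_lit 401) (nat_lit 362) (nat_lit 257)) (XT.nd (nat_lit 78) (nat_lit 228) (nat_lit 0) (XT.lf (nat_lit 0) (nat_lit 20645471561) (nat_lit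 304) (nat_lit 10277914429) (nat_lit 76) (nat_lit 6499324818) (nat_lit 95) (nat_lit 5) (nat_lit 99) (nat_lit 5) (nat_lit 96) (nat_lit 5) (nat_lit 402) (nat_lit 362) (nat_lit 256)) (XT.lf (nat_lit 0) (nat_lit 24578180791) (nat_lit 228) (nat_lit 10649028769) (nat_lit 304) (nat_lit 3423527881) (nat_lit 92) (nat_lit 5) (nat_lit 95) (nat_lit 5) (nat_lit 96) (nat_lit 5) (nat_lit 403) (nat_lit 362) (nat_lit 255)))))) (XT.nd (nat_lit 468) (nat_lit 1064) (nat_lit 0) (XT.nd (nat_lit 234) (nat_lit 760) (nat_lit 0) (XT.nd (nat_lit 78) (nat_lit 380) (nat_lit 0) (XT.lf (nat_lit 0) (nat_lit 10801958281) (nat_lit 304) (nat_lit 18276417392) (nat_lit 76) (nat_lit 10846408982) (nat_lit 88) (nat_lit 5) (nat_lit 92) (nat_lit 5) (nat_lit 89) (nat_lit 5) (nat_lit 404) (nat_lit 362) (nat_lit 254)) (XT.nd (nat_lit 78) (nat_lit 152) (nat_lit 0) (XT.lf (nat_lit 0) (nat_lit 18388212408) (nat_lit 228) (nat_lit 7699759855)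 (nat_lit 304) (nat_lit 15160945456) (nat_lit 85) (nat_lit 5) (nat_lit 88) (nat_lit 5) (nat_lit 89) (nat_lit 5) (nat_lit 405) (nat_lit 362) (nat_lit 253)) (XT.lf (nat_lit 0) (nat_lit 14760699359) (nat_lit 152) (nat_lit 27840393220) (nat_lit 228) (nat_lit 24282683) (nat_lit 83) (nat_lit 5) (nat_lit 85) (nat_lit 5) (nat_lit 86) (nat_lit 5) (nat_lit 406) (nat_lit 362) (nat_lit 252)))) (XT.nd (nat_lit 78) (nat_lit 456) (nat_lit 0) (XT.lf (nat_lit 0) (nat_lit 10634440364) (nat_lit 228) (nat_lit 5332100009) (nat_lit 304) (nat_lit 28087331038) (nat_lit 79) (nat_lit 5) (nat_lit 82) (nat_lit 5) (nat_lit 83) (nat_lit 5) (nat_lit 407) (nat_lit 362) (nat_lit 251)) (XT.nd (nat_lit 78) (nat_lit 304) (nat_lit 0) (XT.lf (nat_lit 0) (nat_lit 6016488712) (nat_lit 152) (nat_lit 27253024348) (nat_lit 228) (nat_lit 12268880534) (nat_lit 77) (nat_lit 5) (nat_lit 79) (nat_lit 5) (nat_lit 80) (nat_lit 5) (nat_lit 408)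 (nat_lit 362) (nat_lit 250)) (XT.lf (nat_lit 0) (nat_lit 937885753) (nat_lit 228) (nat_lit 3718062772) (nat_lit 304) (nat_lit 42427938641) (nat_lit 73) (nat_lit 5) (nat_lit 76) (nat_lit 5) (nat_lit 77) (nat_lit 5) (nat_lit 409) (nat_lit 362) (nat_lit 249))))) (XT.nd (nat_lit 234) (nat_lit 684) (nat_lit 0) (XT.nd (nat_lit 78) (nat_lit 380) (nat_lit 0) (XT.lf (nat_lit 0) (nat_lit 22778458696) (nat_lit 304) (nat_lit 4794511321) (nat_lit 76) (nat_lit 21111887358) (nat_lit 73) (nat_lit 5) (nat_lit 77) (nat_lit 5) (nat_lit 74) (nat_lit 5) (nat_lit 410) (nat_lit 362) (nat_lit 248)) (XT.nd (nat_lit 78) (nat_lit 228) (nat_lit 0) (XT.lf (nat_lit 0) (nat_lit 39338515446) (nat_lit 152) (nat_lit 2874866536) (nat_lit 228) (nat_lit 8140306959) (nat_lit 71) (nat_lit 5) (nat_lit 73) (nat_lit 5) (nat_lit 74) (nat_lit 5) (nat_lit 411) (nat_lit 362) (nat_lit 247)) (XT.lf (nat_lit 0) (nat_lit 10904905974) (nat_lit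 228) (nat_lit 18093859481) (nat_lit 76) (nat_lit 23086286425) (nat_lit 68) (nat_lit 5) (nat_lit 71) (nat_lit 5) (nat_lit 69) (nat_lit 5) (nat_lit 412) (nat_lit 362) (nat_lit 246)))) (XT.nd (nat_lit 156) (nat_lit 380) (nat_lit 0) (XT.nd (nat_lit 78) (nat_lit 152) (nat_lit 0) (XT.lf (nat_lit 0) (nat_lit 27996880163) (nat_lit 152) (nat_lit 3142409947) (nat_lit 228) (nat_lit 22749118306) (nat_lit 66) (nat_lit 5) (nat_lit 68) (nat_lit 5) (nat_lit 69) (nat_lit 5) (nat_lit 413) (nat_lit 362) (nat_lit 245)) (XT.lf (nat_lit 0) (nat_lit 21158823566) (nat_lit 152) (nat_lit 31840097295) (nat_lit 228) (nat_lit 2764607331) (nat_lit 64) (nat_lit 5) (nat_lit 66) (nat_lit 5) (nat_lit 67) (nat_lit 5) (nat_lit 414) (nat_lit 362) (nat_lit 244))) (XT.nd (nat_lit 78) (nat_lit 152) (nat_lit 0) (XT.lf (nat_lit 0) (nat_lit 13415537324) (nat_lit 152) (nat_lit 4869367073) (nat_lit 228) (nat_lit 39429607819) (nat_lit 61)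 (nat_lit 5) (nat_lit 63) (nat_lit 5) (nat_lit 64) (nat_lit 5) (nat_lit 415) (nat_lit 362) (nat_lit 243)) (XT.lf (nat_lit 0) (nat_lit 4626140520) (nat_lit 152) (nat_lit 36325398272) (nat_lit 228) (nat_lit 18792031866) (nat_lit 59) (nat_lit 5) (nat_lit 61) (nat_lit 5) (nat_lit 62) (nat_lit 5) (nat_lit 416) (nat_lit 362) (nat_lit 242))))))))
noncomputable def xc87 : XT := (XT.nd (nat_lit 49608) (nat_lit 0) (nat_lit 6308) (XT.nd (nat_lit 936) (nat_lit 532) (nat_lit 0) (XT.nd (nat_lit 468) (nat_lit 684) (nat_lit 0) (XT.nd (nat_lit 234) (nat_lit 304) (nat_lit 0) (XT.nd (nat_lit 78) (nat_lit 304) (nat_lit 0) (XT.lf (nat_lit 0) (nat_lit 3322789099) (nat_lit 228) (nat_lit 5033087215) (nat_lit 76) (nat_lit 53502331475) (nat_lit 58) (nat_lit 5) (nat_lit 61) (nat_lit 5) (nat_lit 59) (nat_lit 5) (nat_lit 417) (nat_lit 362) (nat_lit 241)) (XT.nd (nat_lit 78) (nat_lit 152) (nat_lit 0) (XT.lf (nat_lit 0) (nat_lit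 26823169443) (nat_lit 228) (nat_lit 15973293232) (nat_lit 76) (nat_lit 21256479279) (nat_lit 56) (nat_lit 5) (nat_lit 59) (nat_lit 5) (nat_lit 57) (nat_lit 5) (nat_lit 418) (nat_lit 362) (nat_lit 240)) (XT.lf (nat_lit 0) (nat_lit 38245119008) (nat_lit 152) (nat_lit 13750152985) (nat_lit 228) (nat_lit 14347240649) (nat_lit 54) (nat_lit 5) (nat_lit 56) (nat_lit 5) (nat_lit 57) (nat_lit 5) (nat_lit 419) (nat_lit 362) (nat_lit 239)))) (XT.nd (nat_lit 78) (nat_lit 152) (nat_lit 0) (XT.lf (nat_lit 0) (nat_lit 10076612475) (nat_lit 152) (nat_lit 41708188673) (nat_lit 76) (nat_lit 16941387979) (nat_lit 52) (nat_lit 5) (nat_lit 54) (nat_lit 5) (nat_lit 53) (nat_lit 5) (nat_lit 420) (nat_lit 362) (nat_lit 238)) (XT.nd (nat_lit 78) (nat_lit 0) (nat_lit 0) (XT.lf (nat_lit 0) (nat_lit 14234041943) (nat_lit 152) (nat_lit 21754101674) (nat_lit 228) (nat_lit 35219748818) (nat_lit 50) (nat_lit 5) (nat_lit 52)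 (nat_lit 5) (nat_lit 53) (nat_lit 5) (nat_lit 421) (nat_lit 362) (nat_lit 237)) (XT.lf (nat_lit 0) (nat_lit 63715750049) (nat_lit 228) (nat_lit 67062896) (nat_lit 76) (nat_lit 10015253766) (nat_lit 50) (nat_lit 5) (nat_lit 53) (nat_lit 5) (nat_lit 51) (nat_lit 4) (nat_lit 422) (nat_lit 362) (nat_lit 236))))) (XT.nd (nat_lit 234) (nat_lit 304) (nat_lit 0) (XT.nd (nat_lit 78) (nat_lit 228) (nat_lit 0) (XT.lf (nat_lit 0) (nat_lit 16797245308) (nat_lit 152) (nat_lit 16022192672) (nat_lit 76) (nat_lit 43669501492) (nat_lit 48) (nat_lit 5) (nat_lit 50) (nat_lit 5) (nat_lit 49) (nat_lit 5) (nat_lit 423) (nat_lit 362) (nat_lit 235)) (XT.nd (nat_lit 78) (nat_lit 76) (nat_lit 0) (XT.lf (nat_lit 0) (nat_lit 45247876953) (nat_lit 228) (nat_lit 33812656322) (nat_lit 76) (nat_lit 237760240) (nat_lit 46) (nat_lit 5) (nat_lit 49) (nat_lit 5) (nat_lit 47) (nat_lit 4) (nat_lit 424) (nat_lit 362) (nat_lit 234))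 (XT.lf (nat_lit 0) (nat_lit 28369273306) (nat_lit 76) (nat_lit 47515825551) (nat_lit 152) (nat_lit 6340095286) (nat_lit 45) (nat_lit 5) (nat_lit 46) (nat_lit 5) (nat_lit 47) (nat_lit 4) (nat_lit 425) (nat_lit 362) (nat_lit 233)))) (XT.nd (nat_lit 78) (nat_lit 76) (nat_lit 0) (XT.lf (nat_lit 0) (nat_lit 9021012502) (nat_lit 152) (nat_lit 13722584045) (nat_lit 228) (nat_lit 62535324557) (nat_lit 42) (nat_lit 5) (nat_lit 44) (nat_lit 5) (nat_lit 45) (nat_lit 5) (nat_lit 426) (nat_lit 362) (nat_lit 232)) (XT.nd (nat_lit 78) (nat_lit 76) (nat_lit 0) (XT.lf (nat_lit 0) (nat_lit 53914440271) (nat_lit 228) (nat_lit 12591651177) (nat_lit 76) (nat_lit 21954437629) (nat_lit 42) (nat_lit 5) (nat_lit 45) (nat_lit 5) (nat_lit 43) (nat_lit 4) (nat_lit 427) (nat_lit 362) (nat_lit 231)) (XT.lf (nat_lit 0) (nat_lit 55185309461) (nat_lit 76) (nat_lit 32121601330) (nat_lit 152) (nat_lit 4474414657) (nat_lit 41)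 (nat_lit 5) (nat_lit 42) (nat_lit 5) (nat_lit 43) (nat_lit 4) (nat_lit 428) (nat_lit 362) (nat_lit 230)))))) (XT.nd (nat_lit 48126) (nat_lit 0) (nat_lit 16492) (XT.nd (nat_lit 234) (nat_lit 228) (nat_lit 0) (XT.nd (nat_lit 78) (nat_lit 76) (nat_lit 0) (XT.lf (nat_lit 0) (nat_lit 27046939965) (nat_lit 228) (nat_lit 63596662807) (nat_lit 76) (nat_lit 4602496113) (nat_lit 38) (nat_lit 5) (nat_lit 41) (nat_lit 5) (nat_lit 39) (nat_lit 4) (nat_lit 429) (nat_lit 362) (nat_lit 229)) (XT.nd (nat_lit 78) (nat_lit 0) (nat_lit 0) (XT.lf (nat_lit 0) (nat_lit 4911251872) (nat_lit 76) (nat_lit 55887660810) (nat_lit 152) (nat_lit 38061457107) (nat_lit 37) (nat_lit 5) (nat_lit 38) (nat_lit 5) (nat_lit 39) (nat_lit 4) (nat_lit 430) (nat_lit 362) (nat_lit 228)) (XT.lf (nat_lit 0) (nat_lit 78163266323) (nat_lit 76) (nat_lit 18724412539) (nat_lit 152) (nat_lit 5748199985) (nat_lit 37) (nat_lit 5) (nat_lit 38) (nat_lit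 5) (nat_lit 39) (nat_lit 4) (nat_lit 431) (nat_lit 362) (nat_lit 227)))) (XT.nd (nat_lit 47736) (nat_lit 0) (nat_lit 17404) (XT.lf (nat_lit 0) (nat_lit 28300486794) (nat_lit 228) (nat_lit 57624296364) (nat_lit 76) (nat_lit 20647163682) (nat_lit 34) (nat_lit 5) (nat_lit 37) (nat_lit 5) (nat_lit 35) (nat_lit 4) (nat_lit 432) (nat_lit 362) (nat_lit 226)) (XT.nd (nat_lit 78) (nat_lit 0) (nat_lit 0) (XT.lf (nat_lit 0) (nat_lit 1539907493) (nat_lit 0) (nat_lit 1539907493) (nat_lit 1140) (nat_lit 3312098051) (nat_lit 263) (nat_lit 5) (nat_lit 263) (nat_lit 3) (nat_lit 278) (nat_lit 3) (nat_lit 363) (nat_lit 363) (nat_lit 294)) (XT.lf (nat_lit 76) (nat_lit 518176357) (nat_lit 0) (nat_lit 6536065617) (nat_lit 1216) (nat_lit 6026666050) (nat_lit 264) (nat_lit 5) (nat_lit 263) (nat_lit 5) (nat_lit 279) (nat_lit 5) (nat_lit 364) (nat_lit 363) (nat_lit 293))))) (XT.nd (nat_lit 234) (nat_lit 988) (nat_lit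 0) (XT.nd (nat_lit 78) (nat_lit 0) (nat_lit 0) (XT.lf (nat_lit 0) (nat_lit 8113147538) (nat_lit 1140) (nat_lit 2023037359) (nat_lit 1216) (nat_lit 3253091176) (nat_lit 264) (nat_lit 5) (nat_lit 279) (nat_lit 5) (nat_lit 280) (nat_lit 5) (nat_lit 365) (nat_lit 363) (nat_lit 292)) (XT.nd (nat_lit 78) (nat_lit 0) (nat_lit 76) (XT.lf (nat_lit 76) (nat_lit 9132097604) (nat_lit 0) (nat_lit 205876021) (nat_lit 1216) (nat_lit 4371717629) (nat_lit 265) (nat_lit 5) (nat_lit 264) (nat_lit 5) (nat_lit 280) (nat_lit 5) (nat_lit 366) (nat_lit 363) (nat_lit 291)) (XT.lf (nat_lit 76) (nat_lit 6852589968) (nat_lit 0) (nat_lit 3917699071) (nat_lit 1216) (nat_lit 3271467845) (nat_lit 266) (nat_lit 5) (nat_lit 265) (nat_lit 5) (nat_lit 281) (nat_lit 5) (nat_lit 367) (nat_lit 363) (nat_lit 290)))) (XT.nd (nat_lit 156) (nat_lit 1140) (nat_lit 0) (XT.nd (nat_lit 78) (nat_lit 0) (nat_lit 76) (XT.lf (nat_lit 76) (nat_lit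 4559159453) (nat_lit 0) (nat_lit 7834593889) (nat_lit 1216) (nat_lit 1993102776) (nat_lit 267) (nat_lit 5) (nat_lit 266) (nat_lit 5) (nat_lit 282) (nat_lit 5) (nat_lit 368) (nat_lit 363) (nat_lit 289)) (XT.lf (nat_lit 76) (nat_lit 2250580535) (nat_lit 0) (nat_lit 11973949878) (nat_lit 1216) (nat_lit 520911254) (nat_lit 268) (nat_lit 5) (nat_lit 267) (nat_lit 5) (nat_lit 283) (nat_lit 5) (nat_lit 369) (nat_lit 363) (nat_lit 288))) (XT.nd (nat_lit 78) (nat_lit 0) (nat_lit 76) (XT.lf (nat_lit 0) (nat_lit 1151731724) (nat_lit 1216) (nat_lit 96154494) (nat_lit 1292) (nat_lit 13869383852) (nat_lit 251) (nat_lit 5) (nat_lit 267) (nat_lit 5) (nat_lit 268) (nat_lit 5) (nat_lit 370) (nat_lit 363) (nat_lit 287)) (XT.lf (nat_lit 0) (nat_lit 3088620483) (nat_lit 1216) (nat_lit 2452794913) (nat_lit 1292) (nat_lit 9960391849) (nat_lit 252) (nat_lit 5) (nat_lit 268) (nat_lit 5) (nat_lit 269) (nat_lit 5) (nat_lit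 371) (nat_lit 363) (nat_lit 286))))))) (XT.nd (nat_lit 936) (nat_lit 4712) (nat_lit 0) (XT.nd (nat_lit 468) (nat_lit 2584) (nat_lit 0) (XT.nd (nat_lit 234) (nat_lit 1900) (nat_lit 0) (XT.nd (nat_lit 78) (nat_lit 1140) (nat_lit 0) (XT.lf (nat_lit 0) (nat_lit 5268431506) (nat_lit 1216) (nat_lit 4831904374) (nat_lit 1292) (nat_lit 5800866096) (nat_lit 253) (nat_lit 5) (nat_lit 269) (nat_lit 5) (nat_lit 270) (nat_lit 5) (nat_lit 372) (nat_lit 363) (nat_lit 285)) (XT.nd (nat_lit 78) (nat_lit 1216) (nat_lit 0) (XT.lf (nat_lit 0) (nat_lit 7709512610) (nat_lit 1216) (nat_lit 7234461044) (nat_lit 76) (nat_lit 1372036815) (nat_lit 254) (nat_lit 5) (nat_lit 270) (nat_lit 5) (nat_lit 255) (nat_lit 5) (nat_lit 373) (nat_lit 363) (nat_lit 284)) (XT.lf (nat_lit 0) (nat_lit 7051696756) (nat_lit 1216) (nat_lit 3412124854) (nat_lit 1292) (nat_lit 6282014381) (nat_lit 238) (nat_lit 5) (nat_lit 254) (nat_lit 5)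 (nat_lit 255) (nat_lit 5) (nat_lit 374) (nat_lit 363) (nat_lit 283)))) (XT.nd (nat_lit 78) (nat_lit 1292) (nat_lit 0) (XT.lf (nat_lit 0) (nat_lit 4996382944) (nat_lit 608) (nat_lit 8538675194) (nat_lit 684) (nat_lit 3656729549) (nat_lit 230) (nat_lit 5) (nat_lit 238) (nat_lit 5) (nat_lit 239) (nat_lit 5) (nat_lit 375) (nat_lit 363) (nat_lit 282)) (XT.nd (nat_lit 78) (nat_lit 684) (nat_lit 0) (XT.lf (nat_lit 0) (nat_lit 2929194727) (nat_lit 608) (nat_lit 14001712651) (nat_lit 684) (nat_lit 724008783) (nat_lit 222) (nat_lit 5) (nat_lit 230) (nat_lit 5) (nat_lit 231) (nat_lit 5) (nat_lit 376) (nat_lit 363) (nat_lit 281)) (XT.lf (nat_lit 0) (nat_lit 808031270) (nat_lit 608) (nat_lit 1696333095) (nat_lit 684) (nat_lit 15630318047) (nat_lit 213) (nat_lit 5) (nat_lit 221) (nat_lit 5) (nat_lit 222) (nat_lit 5) (nat_lit 377) (nat_lit 363) (nat_lit 280))))) (XT.nd (nat_lit 234) (nat_lit 1520) (nat_lit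 0) (XT.nd (nat_lit 78) (nat_lit 1064) (nat_lit 0) (XT.lf (nat_lit 0) (nat_lit 6115545170) (nat_lit 684) (nat_lit 1349540039) (nat_lit 76) (nat_lit 11166055277) (nat_lit 213) (nat_lit 5) (nat_lit 222) (nat_lit 5) (nat_lit 214) (nat_lit 5) (nat_lit 378) (nat_lit 363) (nat_lit 279)) (XT.nd (nat_lit 78) (nat_lit 532) (nat_lit 0) (XT.lf (nat_lit 0) (nat_lit 10105875837) (nat_lit 608) (nat_lit 3510755197) (nat_lit 76) (nat_lit 5529841697) (nat_lit 206) (nat_lit 5) (nat_lit 214) (nat_lit 5) (nat_lit 207) (nat_lit 5) (nat_lit 379) (nat_lit 363) (nat_lit 278)) (XT.lf (nat_lit 0) (nat_lit 13984750043) (nat_lit 532) (nat_lit 512091890) (nat_lit 608) (nat_lit 5184704652) (nat_lit 199) (nat_lit 5) (nat_lit 206) (nat_lit 5) (nat_lit 207) (nat_lit 5) (nat_lit 380) (nat_lit 363) (nat_lit 277)))) (XT.nd (nat_lit 78) (nat_lit 1064) (nat_lit 0) (XT.lf (nat_lit 0) (nat_lit 12274006590) (nat_lit 456) (nat_lit 7093332953)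 (nat_lit 532) (nat_lit 868243249) (nat_lit 193) (nat_lit 5) (nat_lit 199) (nat_lit 5) (nat_lit 200) (nat_lit 5) (nat_lit 381) (nat_lit 363) (nat_lit 276)) (XT.nd (nat_lit 78) (nat_lit 456) (nat_lit 0) (XT.lf (nat_lit 0) (nat_lit 3803337709) (nat_lit 608) (nat_lit 10288943420) (nat_lit 76) (nat_lit 6717666737) (nat_lit 185) (nat_lit 5) (nat_lit 193) (nat_lit 5) (nat_lit 186) (nat_lit 5) (nat_lit 382) (nat_lit 363) (nat_lit 275)) (XT.lf (nat_lit 0) (nat_lit 8749510422) (nat_lit 456) (nat_lit 159189843) (nat_lit 532) (nat_lit 12497535444) (nat_lit 179) (nat_lit 5) (nat_lit 185) (nat_lit 5) (nat_lit 186) (nat_lit 5) (nat_lit 383) (nat_lit 363) (nat_lit 274)))))) (XT.nd (nat_lit 468) (nat_lit 2508) (nat_lit 0) (XT.nd (nat_lit 234) (nat_lit 836) (nat_lit 0) (XT.nd (nat_lit 78) (nat_lit 912) (nat_lit 0) (XT.lf (nat_lit 0) (nat_lit 6896704136) (nat_lit 456) (nat_lit 7665233776) (nat_lit 532) (nat_lit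 7461628661) (nat_lit 173) (nat_lit 5) (nat_lit 179) (nat_lit 5) (nat_lit 180) (nat_lit 5) (nat_lit 384) (nat_lit 363) (nat_lit 273)) (XT.nd (nat_lit 78) (nat_lit 532) (nat_lit 0) (XT.lf (nat_lit 0) (nat_lit 5029791584) (nat_lit 380) (nat_lit 15697083065) (nat_lit 456) (nat_lit 1938024731) (nat_lit 168) (nat_lit 5) (nat_lit 173) (nat_lit 5) (nat_lit 174) (nat_lit 5) (nat_lit 385) (nat_lit 363) (nat_lit 272)) (XT.lf (nat_lit 0) (nat_lit 3098145972) (nat_lit 456) (nat_lit 934099387) (nat_lit 532) (nat_lit 19297570559) (nat_lit 161) (nat_lit 5) (nat_lit 167) (nat_lit 5) (nat_lit 168) (nat_lit 5) (nat_lit 386) (nat_lit 363) (nat_lit 271)))) (XT.nd (nat_lit 78) (nat_lit 456) (nat_lit 0) (XT.lf (nat_lit 0) (nat_lit 1050284689) (nat_lit 380) (nat_lit 9526554901) (nat_lit 456) (nat_lit 13441092021) (nat_lit 156) (nat_lit 5) (nat_lit 161) (nat_lit 5) (nat_lit 162) (nat_lit 5) (nat_lit 387) (nat_lit 363)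 (nat_lit 270)) (XT.nd (nat_lit 78) (nat_lit 456) (nat_lit 0) (XT.lf (nat_lit 0) (nat_lit 17707973137) (nat_lit 456) (nat_lit 1006171897) (nat_lit 76) (nat_lit 6018534231) (nat_lit 156) (nat_lit 5) (nat_lit 162) (nat_lit 5) (nat_lit 157) (nat_lit 5) (nat_lit 388) (nat_lit 363) (nat_lit 269)) (XT.lf (nat_lit 0) (nat_lit 15710823) (nat_lit 456) (nat_lit 3102315446) (nat_lit 76) (nat_lit 22356297944) (nat_lit 150) (nat_lit 5) (nat_lit 156) (nat_lit 5) (nat_lit 151) (nat_lit 5) (nat_lit 389) (nat_lit 363) (nat_lit 268))))) (XT.nd (nat_lit 234) (nat_lit 1444) (nat_lit 0) (XT.nd (nat_lit 78) (nat_lit 684) (nat_lit 0) (XT.lf (nat_lit 0) (nat_lit 7590689837) (nat_lit 456) (nat_lit 5370299938) (nat_lit 76) (nat_lit 13280145212) (nat_lit 145) (nat_lit 5) (nat_lit 151) (nat_lit 5) (nat_lit 146) (nat_lit 5) (nat_lit 390) (nat_lit 363) (nat_lit 267)) (XT.nd (nat_lit 78) (nat_lit 304) (nat_lit 0) (XT.lf (nat_lit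 0) (nat_lit 15813613830) (nat_lit 456) (nat_lit 7686398355) (nat_lit 76) (nat_lit 3538202816) (nat_lit 140) (nat_lit 5) (nat_lit 146) (nat_lit 5) (nat_lit 141) (nat_lit 5) (nat_lit 391) (nat_lit 363) (nat_lit 266)) (XT.lf (nat_lit 0) (nat_lit 17742701141) (nat_lit 304) (nat_lit 7047096678) (nat_lit 380) (nat_lit 3075092147) (nat_lit 136) (nat_lit 5) (nat_lit 140) (nat_lit 5) (nat_lit 141) (nat_lit 5) (nat_lit 392) (nat_lit 363) (nat_lit 265)))) (XT.nd (nat_lit 156) (nat_lit 684) (nat_lit 0) (XT.nd (nat_lit 78) (nat_lit 304) (nat_lit 0) (XT.lf (nat_lit 0) (nat_lit 5696122121) (nat_lit 456) (nat_lit 12712146031) (nat_lit 76) (nat_lit 10313417666) (nat_lit 130) (nat_lit 5) (nat_lit 136) (nat_lit 5) (nat_lit 131) (nat_lit 5) (nat_lit 393) (nat_lit 363) (nat_lit 264)) (XT.lf (nat_lit 0) (nat_lit 14194564258) (nat_lit 304) (nat_lit 946870615) (nat_lit 380) (nat_lit 14470002976) (nat_lit 126) (nat_lit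 5) (nat_lit 130) (nat_lit 5) (nat_lit 131) (nat_lit 5) (nat_lit 394) (nat_lit 363) (nat_lit 263))) (XT.nd (nat_lit 78) (nat_lit 380) (nat_lit 0) (XT.lf (nat_lit 0) (nat_lit 12220349605) (nat_lit 304) (nat_lit 13241598349) (nat_lit 380) (nat_lit 5071645147) (nat_lit 122) (nat_lit 5) (nat_lit 126) (nat_lit 5) (nat_lit 127) (nat_lit 5) (nat_lit 395) (nat_lit 363) (nat_lit 262)) (XT.lf (nat_lit 0) (nat_lit 5007544780) (nat_lit 380) (nat_lit 21356949314) (nat_lit 76) (nat_lit 5126846749) (nat_lit 117) (nat_lit 5) (nat_lit 122) (nat_lit 5) (nat_lit 118) (nat_lit 5) (nat_lit 396) (nat_lit 363) (nat_lit 261))))))))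
noncomputable def xc88 : XT := (XT.nd (nat_lit 1872) (nat_lit 1292) (nat_lit 0) (XT.nd (nat_lit 936) (nat_lit 1900) (nat_lit 0) (XT.nd (nat_lit 468) (nat_lit 1444) (nat_lit 0) (XT.nd (nat_lit 234) (nat_lit 532) (nat_lit 0) (XT.nd (nat_lit 78) (nat_lit 608) (nat_lit 0) (XT.lf (nat_lit 0) (nat_lit 7842468796) (nat_lit 304) (nat_lit 8030633877) (nat_lit 380) (nat_lit 16610751156) (nat_lit 113) (nat_lit 5) (nat_lit 117) (nat_lit 5) (nat_lit 118) (nat_lit 5) (nat_lit 397) (nat_lit 363) (nat_lit 260)) (XT.nd (nat_lit 78) (nat_lit 380) (nat_lit 0) (XT.lf (nat_lit 0) (nat_lit 5404797416) (nat_lit 228) (nat_lit 22246254762) (nat_lit 304) (nat_lit 5863869947) (nat_lit 110) (nat_lit 5) (nat_lit 113) (nat_lit 5) (nat_lit 114) (nat_lit 5) (nat_lit 398) (nat_lit 363) (nat_lit 259)) (XT.lf (nat_lit 0) (nat_lit 2777728080) (nat_lit 304) (nat_lit 2888364856) (nat_lit 380) (nat_lit 28919345374) (nat_lit 105) (nat_lit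 5) (nat_lit 109) (nat_lit 5) (nat_lit 110) (nat_lit 5) (nat_lit 399) (nat_lit 363) (nat_lit 258)))) (XT.nd (nat_lit 78) (nat_lit 532) (nat_lit 0) (XT.lf (nat_lit 0) (nat_lit 18100190054) (nat_lit 380) (nat_lit 151921716) (nat_lit 76) (nat_lit 17442162197) (nat_lit 105) (nat_lit 5) (nat_lit 110) (nat_lit 5) (nat_lit 106) (nat_lit 5) (nat_lit 400) (nat_lit 363) (nat_lit 257)) (XT.nd (nat_lit 78) (nat_lit 304) (nat_lit 0) (XT.lf (nat_lit 0) (nat_lit 31518709783) (nat_lit 304) (nat_lit 3172342770) (nat_lit 76) (nat_lit 2156619896) (nat_lit 102) (nat_lit 5) (nat_lit 106) (nat_lit 5) (nat_lit 103) (nat_lit 5) (nat_lit 401) (nat_lit 363) (nat_lit 256)) (XT.lf (nat_lit 0) (nat_lit 7884752419) (nat_lit 304) (nat_lit 6569533163) (nat_lit 76) (nat_lit 23587800944) (nat_lit 98) (nat_lit 5) (nat_lit 102) (nat_lit 5) (nat_lit 99) (nat_lit 5) (nat_lit 402) (nat_lit 363) (nat_lit 255))))) (XT.nd (nat_lit 234)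 (nat_lit 684) (nat_lit 0) (XT.nd (nat_lit 78) (nat_lit 532) (nat_lit 0) (XT.lf (nat_lit 0) (nat_lit 22020800584) (nat_lit 304) (nat_lit 10237030031) (nat_lit 76) (nat_lit 7025654345) (nat_lit 95) (nat_lit 5) (nat_lit 99) (nat_lit 5) (nat_lit 96) (nat_lit 5) (nat_lit 403) (nat_lit 363) (nat_lit 254)) (XT.nd (nat_lit 78) (nat_lit 304) (nat_lit 0) (XT.lf (nat_lit 0) (nat_lit 26345967289) (nat_lit 228) (nat_lit 10974502240) (nat_lit 304) (nat_lit 3252781395) (nat_lit 92) (nat_lit 5) (nat_lit 95) (nat_lit 5) (nat_lit 96) (nat_lit 5) (nat_lit 404) (nat_lit 363) (nat_lit 253)) (XT.lf (nat_lit 0) (nat_lit 11668413333) (nat_lit 304) (nat_lit 18652447568) (nat_lit 76) (nat_lit 11590310875) (nat_lit 88) (nat_lit 5) (nat_lit 92) (nat_lit 5) (nat_lit 89) (nat_lit 5) (nat_lit 405) (nat_lit 363) (nat_lit 252)))) (XT.nd (nat_lit 78) (nat_lit 456) (nat_lit 0) (XT.lf (nat_lit 0) (nat_lit 19829998060) (nat_lit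 228) (nat_lit 7878210525) (nat_lit 304) (nat_lit 15593621412) (nat_lit 85) (nat_lit 5) (nat_lit 88) (nat_lit 5) (nat_lit 89) (nat_lit 5) (nat_lit 406) (nat_lit 363) (nat_lit 251)) (XT.nd (nat_lit 78) (nat_lit 228) (nat_lit 0) (XT.lf (nat_lit 0) (nat_lit 285737798) (nat_lit 228) (nat_lit 28736693129) (nat_lit 76) (nat_lit 15724844269) (nat_lit 82) (nat_lit 5) (nat_lit 85) (nat_lit 5) (nat_lit 83) (nat_lit 5) (nat_lit 407) (nat_lit 363) (nat_lit 250)) (XT.lf (nat_lit 0) (nat_lit 11672200318) (nat_lit 228) (nat_lit 5393471498) (nat_lit 304) (nat_lit 29181817539) (nat_lit 79) (nat_lit 5) (nat_lit 82) (nat_lit 5) (nat_lit 83) (nat_lit 5) (nat_lit 408) (nat_lit 363) (nat_lit 249)))))) (XT.nd (nat_lit 468) (nat_lit 912) (nat_lit 0) (XT.nd (nat_lit 234) (nat_lit 532) (nat_lit 0) (XT.nd (nat_lit 78) (nat_lit 304) (nat_lit 0) (XT.lf (nat_lit 0) (nat_lit 6815744804) (nat_lit 152) (nat_lit 28410394428) (nat_lit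 228) (nat_lit 12580330484) (nat_lit 77) (nat_lit 5) (nat_lit 79) (nat_lit 5) (nat_lit 80) (nat_lit 5) (nat_lit 409) (nat_lit 363) (nat_lit 248)) (XT.nd (nat_lit 78) (nat_lit 0) (nat_lit 0) (XT.lf (nat_lit 0) (nat_lit 1474694574) (nat_lit 228) (nat_lit 3700761769) (nat_lit 304) (nat_lit 44253978523) (nat_lit 73) (nat_lit 5) (nat_lit 76) (nat_lit 5) (nat_lit 77) (nat_lit 5) (nat_lit 410) (nat_lit 363) (nat_lit 247)) (XT.lf (nat_lit 0) (nat_lit 24192299454) (nat_lit 304) (nat_lit 4561277012) (nat_lit 76) (nat_lit 22357233056) (nat_lit 73) (nat_lit 5) (nat_lit 77) (nat_lit 5) (nat_lit 74) (nat_lit 5) (nat_lit 411) (nat_lit 363) (nat_lit 246)))) (XT.nd (nat_lit 78) (nat_lit 380) (nat_lit 0) (XT.lf (nat_lit 0) (nat_lit 41764843793) (nat_lit 152) (nat_lit 2825449844) (nat_lit 228) (nat_lit 8273051342) (nat_lit 71) (nat_lit 5) (nat_lit 73) (nat_lit 5) (nat_lit 74) (nat_lit 5) (nat_lit 412) (nat_lit 363)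 (nat_lit 245)) (XT.nd (nat_lit 78) (nat_lit 152) (nat_lit 0) (XT.lf (nat_lit 0) (nat_lit 11712440561) (nat_lit 228) (nat_lit 18541065734) (nat_lit 76) (nat_lit 24427891471) (nat_lit 68) (nat_lit 5) (nat_lit 71) (nat_lit 5) (nat_lit 69) (nat_lit 5) (nat_lit 413) (nat_lit 363) (nat_lit 244)) (XT.lf (nat_lit 0) (nat_lit 29841097128) (nat_lit 152) (nat_lit 3109228394) (nat_lit 228) (nat_lit 23624844967) (nat_lit 66) (nat_lit 5) (nat_lit 68) (nat_lit 5) (nat_lit 69) (nat_lit 5) (nat_lit 414) (nat_lit 363) (nat_lit 243))))) (XT.nd (nat_lit 234) (nat_lit 380) (nat_lit 0) (XT.nd (nat_lit 78) (nat_lit 380) (nat_lit 0) (XT.lf (nat_lit 0) (nat_lit 22654061798) (nat_lit 152) (nat_lit 33242723154) (nat_lit 228) (nat_lit 2647447612) (nat_lit 64) (nat_lit 5) (nat_lit 66) (nat_lit 5) (nat_lit 67) (nat_lit 5) (nat_lit 415) (nat_lit 363) (nat_lit 242)) (XT.nd (nat_lit 78) (nat_lit 152) (nat_lit 0) (XT.lf (nat_lit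 0) (nat_lit 14515949471) (nat_lit 152) (nat_lit 4925812449) (nat_lit 228) (nat_lit 41151165641) (nat_lit 61) (nat_lit 5) (nat_lit 63) (nat_lit 5) (nat_lit 64) (nat_lit 5) (nat_lit 416) (nat_lit 363) (nat_lit 241)) (XT.lf (nat_lit 0) (nat_lit 5280121889) (nat_lit 152) (nat_lit 37955828354) (nat_lit 228) (nat_lit 19487663535) (nat_lit 59) (nat_lit 5) (nat_lit 61) (nat_lit 5) (nat_lit 62) (nat_lit 5) (nat_lit 417) (nat_lit 363) (nat_lit 240)))) (XT.nd (nat_lit 78) (nat_lit 304) (nat_lit 0) (XT.lf (nat_lit 0) (nat_lit 3716746832) (nat_lit 228) (nat_lit 4877632465) (nat_lit 76) (nat_lit 56349876246) (nat_lit 58) (nat_lit 5) (nat_lit 61) (nat_lit 5) (nat_lit 59) (nat_lit 5) (nat_lit 418) (nat_lit 363) (nat_lit 239)) (XT.nd (nat_lit 78) (nat_lit 152) (nat_lit 0) (XT.lf (nat_lit 0) (nat_lit 28386777928) (nat_lit 228) (nat_lit 16371547623) (nat_lit 76) (nat_lit 22490563249) (nat_lit 56) (nat_lit 5) (nat_lit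 59) (nat_lit 5) (nat_lit 57) (nat_lit 5) (nat_lit 419) (nat_lit 363) (nat_lit 238)) (XT.lf (nat_lit 0) (nat_lit 40546307549) (nat_lit 152) (nat_lit 14264323857) (nat_lit 228) (nat_lit 14842513517) (nat_lit 54) (nat_lit 5) (nat_lit 56) (nat_lit 5) (nat_lit 57) (nat_lit 5) (nat_lit 420) (nat_lit 363) (nat_lit 237))))))) (XT.nd (nat_lit 48672) (nat_lit 0) (nat_lit 14668) (XT.nd (nat_lit 468) (nat_lit 608) (nat_lit 0) (XT.nd (nat_lit 234) (nat_lit 304) (nat_lit 0) (XT.nd (nat_lit 78) (nat_lit 228) (nat_lit 0) (XT.lf (nat_lit 0) (nat_lit 10793144749) (nat_lit 152) (nat_lit 43406868691) (nat_lit 76) (nat_lit 17956080538) (nat_lit 52) (nat_lit 5) (nat_lit 54) (nat_lit 5) (nat_lit 53) (nat_lit 5) (nat_lit 421) (nat_lit 363) (nat_lit 236)) (XT.nd (nat_lit 78) (nat_lit 76) (nat_lit 0) (XT.lf (nat_lit 0) (nat_lit 15321387935) (nat_lit 152) (nat_lit 22672346782) (nat_lit 228) (nat_lit 36768344387) (nat_lit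 50) (nat_lit 5) (nat_lit 52) (nat_lit 5) (nat_lit 53) (nat_lit 5) (nat_lit 422) (nat_lit 363) (nat_lit 235)) (XT.lf (nat_lit 0) (nat_lit 297506422) (nat_lit 76) (nat_lit 66804807964) (nat_lit 152) (nat_lit 10379610990) (nat_lit 49) (nat_lit 5) (nat_lit 50) (nat_lit 5) (nat_lit 51) (nat_lit 4) (nat_lit 423) (nat_lit 363) (nat_lit 234)))) (XT.nd (nat_lit 78) (nat_lit 228) (nat_lit 0) (XT.lf (nat_lit 0) (nat_lit 17830900776) (nat_lit 152) (nat_lit 16467688654) (nat_lit 76) (nat_lit 46008963463) (nat_lit 48) (nat_lit 5) (nat_lit 50) (nat_lit 5) (nat_lit 49) (nat_lit 5) (nat_lit 424) (nat_lit 363) (nat_lit 233)) (XT.nd (nat_lit 78) (nat_lit 76) (nat_lit 0) (XT.lf (nat_lit 0) (nat_lit 47699670465) (nat_lit 228) (nat_lit 35153728025) (nat_lit 76) (nat_lit 404108896) (nat_lit 46) (nat_lit 5) (nat_lit 49) (nat_lit 5) (nat_lit 47) (nat_lit 4) (nat_lit 425) (nat_lit 363) (nat_lit 232)) (XT.lf (nat_lit 0)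 (nat_lit 30127277986) (nat_lit 76) (nat_lit 49735720323) (nat_lit 152) (nat_lit 6467928288) (nat_lit 45) (nat_lit 5) (nat_lit 46) (nat_lit 5) (nat_lit 47) (nat_lit 4) (nat_lit 426) (nat_lit 363) (nat_lit 231))))) (XT.nd (nat_lit 234) (nat_lit 304) (nat_lit 0) (XT.nd (nat_lit 78) (nat_lit 76) (nat_lit 0) (XT.lf (nat_lit 0) (nat_lit 9805473774) (nat_lit 152) (nat_lit 14255155491) (nat_lit 228) (nat_lit 65476825739) (nat_lit 42) (nat_lit 5) (nat_lit 44) (nat_lit 5) (nat_lit 45) (nat_lit 5) (nat_lit 427) (nat_lit 363) (nat_lit 230)) (XT.nd (nat_lit 78) (nat_lit 76) (nat_lit 0) (XT.lf (nat_lit 0) (nat_lit 56782856552) (nat_lit 228) (nat_lit 12899951153) (nat_lit 76) (nat_lit 23195551217) (nat_lit 42) (nat_lit 5) (nat_lit 45) (nat_lit 5) (nat_lit 43) (nat_lit 4) (nat_lit 428) (nat_lit 363) (nat_lit 229)) (XT.lf (nat_lit 0) (nat_lit 58256648016) (nat_lit 76) (nat_lit 33583078884) (nat_lit 152) (nat_lit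 4525625675) (nat_lit 41) (nat_lit 5) (nat_lit 42) (nat_lit 5) (nat_lit 43) (nat_lit 4) (nat_lit 429) (nat_lit 363) (nat_lit 228)))) (XT.nd (nat_lit 78) (nat_lit 76) (nat_lit 0) (XT.lf (nat_lit 0) (nat_lit 28564689974) (nat_lit 228) (nat_lit 66466518100) (nat_lit 76) (nat_lit 4972219767) (nat_lit 38) (nat_lit 5) (nat_lit 41) (nat_lit 5) (nat_lit 39) (nat_lit 4) (nat_lit 430) (nat_lit 363) (nat_lit 227)) (XT.nd (nat_lit 78) (nat_lit 0) (nat_lit 0) (XT.lf (nat_lit 0) (nat_lit 5457906859) (nat_lit 76) (nat_lit 58541372419) (nat_lit 152) (nat_lit 39799283138) (nat_lit 37) (nat_lit 5) (nat_lit 38) (nat_lit 5) (nat_lit 39) (nat_lit 4) (nat_lit 431) (nat_lit 363) (nat_lit 226)) (XT.lf (nat_lit 0) (nat_lit 82358184300) (nat_lit 76) (nat_lit 19526660373) (nat_lit 152) (nat_lit 5878232055) (nat_lit 37) (nat_lit 5) (nat_lit 38) (nat_lit 5) (nat_lit 39) (nat_lit 4) (nat_lit 432) (nat_lit 363) (nat_lit 225))))))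 (XT.nd (nat_lit 468) (nat_lit 2508) (nat_lit 0) (XT.nd (nat_lit 234) (nat_lit 0) (nat_lit 76) (XT.nd (nat_lit 78) (nat_lit 0) (nat_lit 0) (XT.lf (nat_lit 0) (nat_lit 1947422651) (nat_lit 0) (nat_lit 1947422651) (nat_lit 1140) (nat_lit 2796541742) (nat_lit 263) (nat_lit 5) (nat_lit 263) (nat_lit 3) (nat_lit 278) (nat_lit 3) (nat_lit 364) (nat_lit 364) (nat_lit 292)) (XT.nd (nat_lit 78) (nat_lit 0) (nat_lit 76) (XT.lf (nat_lit 76) (nat_lit 1231438070) (nat_lit 0) (nat_lit 7435194517) (nat_lit 1216) (nat_lit 5029977234) (nat_lit 264) (nat_lit 5) (nat_lit 263) (nat_lit 5) (nat_lit 279) (nat_lit 5) (nat_lit 365) (nat_lit 364) (nat_lit 291)) (XT.lf (nat_lit 0) (nat_lit 9713259170) (nat_lit 1140) (nat_lit 1427810137) (nat_lit 1216) (nat_lit 2881310035) (nat_lit 264) (nat_lit 5) (nat_lit 279) (nat_lit 5) (nat_lit 280) (nat_lit 5) (nat_lit 366) (nat_lit 364) (nat_lit 290)))) (XT.nd (nat_lit 78) (nat_lit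 0) (nat_lit 76) (XT.lf (nat_lit 76) (nat_lit 10265120007) (nat_lit 0) (nat_lit 683829919) (nat_lit 1216) (nat_lit 3411401746) (nat_lit 265) (nat_lit 5) (nat_lit 264) (nat_lit 5) (nat_lit 280) (nat_lit 5) (nat_lit 367) (nat_lit 364) (nat_lit 289)) (XT.nd (nat_lit 78) (nat_lit 0) (nat_lit 76) (XT.lf (nat_lit 76) (nat_lit 7890440107) (nat_lit 0) (nat_lit 4510362637) (nat_lit 1216) (nat_lit 2309804088) (nat_lit 266) (nat_lit 5) (nat_lit 265) (nat_lit 5) (nat_lit 281) (nat_lit 5) (nat_lit 368) (nat_lit 364) (nat_lit 288)) (XT.lf (nat_lit 76) (nat_lit 5498399594) (nat_lit 0) (nat_lit 8558245528) (nat_lit 1216) (nat_lit 1017802519) (nat_lit 267) (nat_lit 5) (nat_lit 266) (nat_lit 5) (nat_lit 282) (nat_lit 5) (nat_lit 369) (nat_lit 364) (nat_lit 287))))) (XT.nd (nat_lit 234) (nat_lit 1596) (nat_lit 0) (XT.nd (nat_lit 78) (nat_lit 0) (nat_lit 0) (XT.lf (nat_lit 0) (nat_lit 471473685) (nat_lit 1216) (nat_lit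 12369035571) (nat_lit 1292) (nat_lit 2611708642) (nat_lit 251) (nat_lit 5) (nat_lit 267) (nat_lit 5) (nat_lit 268) (nat_lit 5) (nat_lit 370) (nat_lit 364) (nat_lit 286)) (XT.nd (nat_lit 78) (nat_lit 0) (nat_lit 76) (XT.lf (nat_lit 76) (nat_lit 620975180) (nat_lit 0) (nat_lit 1554081280) (nat_lit 1292) (nat_lit 13668704150) (nat_lit 252) (nat_lit 5) (nat_lit 251) (nat_lit 5) (nat_lit 268) (nat_lit 5) (nat_lit 371) (nat_lit 364) (nat_lit 285)) (XT.lf (nat_lit 0) (nat_lit 4161522187) (nat_lit 1216) (nat_lit 1855736405) (nat_lit 1292) (nat_lit 10231703162) (nat_lit 252) (nat_lit 5) (nat_lit 268) (nat_lit 5) (nat_lit 269) (nat_lit 5) (nat_lit 372) (nat_lit 364) (nat_lit 284)))) (XT.nd (nat_lit 156) (nat_lit 1748) (nat_lit 0) (XT.nd (nat_lit 78) (nat_lit 0) (nat_lit 76) (XT.lf (nat_lit 0) (nat_lit 6411553732) (nat_lit 1216) (nat_lit 4345870972) (nat_lit 1292) (nat_lit 5912082796) (nat_lit 253) (nat_lit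 5) (nat_lit 269) (nat_lit 5) (nat_lit 270) (nat_lit 5) (nat_lit 373) (nat_lit 364) (nat_lit 283)) (XT.lf (nat_lit 0) (nat_lit 8938267369) (nat_lit 1216) (nat_lit 6862403506) (nat_lit 76) (nat_lit 1305495500) (nat_lit 254) (nat_lit 5) (nat_lit 270) (nat_lit 5) (nat_lit 255) (nat_lit 5) (nat_lit 374) (nat_lit 364) (nat_lit 282))) (XT.nd (nat_lit 78) (nat_lit 608) (nat_lit 0) (XT.lf (nat_lit 0) (nat_lit 8117028511) (nat_lit 1216) (nat_lit 3679958519) (nat_lit 1292) (nat_lit 5761511776) (nat_lit 238) (nat_lit 5) (nat_lit 254) (nat_lit 5) (nat_lit 255) (nat_lit 5) (nat_lit 375) (nat_lit 364) (nat_lit 281)) (XT.lf (nat_lit 0) (nat_lit 5963349080) (nat_lit 608) (nat_lit 9025869648) (nat_lit 684) (nat_lit 3038522060) (nat_lit 230) (nat_lit 5) (nat_lit 238) (nat_lit 5) (nat_lit 239) (nat_lit 5) (nat_lit 376) (nat_lit 364) (nat_lit 280))))))))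
noncomputable def xc89 : XT := (XT.nd (nat_lit 1872) (nat_lit 4332) (nat_lit 0) (XT.nd (nat_lit 936) (nat_lit 3876) (nat_lit 0) (XT.nd (nat_lit 468) (nat_lit 2812) (nat_lit 0) (XT.nd (nat_lit 234) (nat_lit 1520) (nat_lit 0) (XT.nd (nat_lit 78) (nat_lit 608) (nat_lit 0) (XT.lf (nat_lit 0) (nat_lit 9070853) (nat_lit 684) (nat_lit 14719283050) (nat_lit 76) (nat_lit 3786603538) (nat_lit 221) (nat_lit 5) (nat_lit 230) (nat_lit 5) (nat_lit 222) (nat_lit 5) (nat_lit 377) (nat_lit 364) (nat_lit 279)) (XT.nd (nat_lit 78) (nat_lit 0) (nat_lit 0) (XT.lf (nat_lit 0) (nat_lit 1562769117) (nat_lit 608) (nat_lit 1792199776) (nat_lit 684) (nat_lit 15664409492) (nat_lit 213) (nat_lit 5) (nat_lit 221) (nat_lit 5) (nat_lit 222) (nat_lit 5) (nat_lit 378) (nat_lit 364) (nat_lit 278)) (XT.lf (nat_lit 0) (nat_lit 7112065372) (nat_lit 684) (nat_lit 715606897) (nat_lit 76) (nat_lit 11714039564) (nat_lit 213) (nat_lit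 5) (nat_lit 222) (nat_lit 5) (nat_lit 214) (nat_lit 5) (nat_lit 379) (nat_lit 364) (nat_lit 277)))) (XT.nd (nat_lit 78) (nat_lit 988) (nat_lit 0) (XT.lf (nat_lit 0) (nat_lit 11275731665) (nat_lit 608) (nat_lit 2984968261) (nat_lit 76) (nat_lit 5822908734) (nat_lit 206) (nat_lit 5) (nat_lit 214) (nat_lit 5) (nat_lit 207) (nat_lit 5) (nat_lit 380) (nat_lit 364) (nat_lit 276)) (XT.nd (nat_lit 78) (nat_lit 456) (nat_lit 0) (XT.lf (nat_lit 0) (nat_lit 15365208909) (nat_lit 532) (nat_lit 495939661) (nat_lit 608) (nat_lit 4785052506) (nat_lit 199) (nat_lit 5) (nat_lit 206) (nat_lit 5) (nat_lit 207) (nat_lit 5) (nat_lit 381) (nat_lit 364) (nat_lit 275)) (XT.lf (nat_lit 0) (nat_lit 13567877409) (nat_lit 456) (nat_lit 7383763452) (nat_lit 532) (nat_lit 277015514) (nat_lit 193) (nat_lit 5) (nat_lit 199) (nat_lit 5) (nat_lit 200) (nat_lit 5) (nat_lit 382) (nat_lit 364) (nat_lit 274))))) (XT.nd (nat_lit 234)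 (nat_lit 1292) (nat_lit 0) (XT.nd (nat_lit 78) (nat_lit 912) (nat_lit 0) (XT.lf (nat_lit 0) (nat_lit 4593307289) (nat_lit 608) (nat_lit 10112999836) (nat_lit 76) (nat_lit 7125933675) (nat_lit 185) (nat_lit 5) (nat_lit 193) (nat_lit 5) (nat_lit 186) (nat_lit 5) (nat_lit 383) (nat_lit 364) (nat_lit 273)) (XT.nd (nat_lit 78) (nat_lit 456) (nat_lit 0) (XT.lf (nat_lit 0) (nat_lit 9857586786) (nat_lit 456) (nat_lit 74235378) (nat_lit 532) (nat_lit 12527194361) (nat_lit 179) (nat_lit 5) (nat_lit 185) (nat_lit 5) (nat_lit 186) (nat_lit 5) (nat_lit 384) (nat_lit 364) (nat_lit 272)) (XT.lf (nat_lit 0) (nat_lit 7909078450) (nat_lit 456) (nat_lit 7938401755) (nat_lit 532) (nat_lit 7260350515) (nat_lit 173) (nat_lit 5) (nat_lit 179) (nat_lit 5) (nat_lit 180) (nat_lit 5) (nat_lit 385) (nat_lit 364) (nat_lit 271)))) (XT.nd (nat_lit 78) (nat_lit 912) (nat_lit 0) (XT.lf (nat_lit 0) (nat_lit 5945086783) (nat_lit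 380) (nat_lit 16356420775) (nat_lit 456) (nat_lit 1480306382) (nat_lit 168) (nat_lit 5) (nat_lit 173) (nat_lit 5) (nat_lit 174) (nat_lit 5) (nat_lit 386) (nat_lit 364) (nat_lit 270)) (XT.nd (nat_lit 78) (nat_lit 380) (nat_lit 0) (XT.lf (nat_lit 0) (nat_lit 3908514817) (nat_lit 456) (nat_lit 849545375) (nat_lit 532) (nat_lit 19722352408) (nat_lit 161) (nat_lit 5) (nat_lit 167) (nat_lit 5) (nat_lit 168) (nat_lit 5) (nat_lit 387) (nat_lit 364) (nat_lit 269)) (XT.lf (nat_lit 0) (nat_lit 1753684735) (nat_lit 380) (nat_lit 9858695743) (nat_lit 456) (nat_lit 13591086710) (nat_lit 156) (nat_lit 5) (nat_lit 161) (nat_lit 5) (nat_lit 162) (nat_lit 5) (nat_lit 388) (nat_lit 364) (nat_lit 268)))))) (XT.nd (nat_lit 468) (nat_lit 1900) (nat_lit 0) (XT.nd (nat_lit 234) (nat_lit 1140) (nat_lit 0) (XT.nd (nat_lit 78) (nat_lit 836) (nat_lit 0) (XT.lf (nat_lit 0) (nat_lit 19077262195) (nat_lit 456) (nat_lit 423279728)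 (nat_lit 76) (nat_lit 6454102178) (nat_lit 156) (nat_lit 5) (nat_lit 162) (nat_lit 5) (nat_lit 157) (nat_lit 5) (nat_lit 389) (nat_lit 364) (nat_lit 267)) (XT.nd (nat_lit 78) (nat_lit 380) (nat_lit 0) (XT.lf (nat_lit 0) (nat_lit 488020318) (nat_lit 456) (nat_lit 2632855846) (nat_lit 76) (nat_lit 23612877612) (nat_lit 150) (nat_lit 5) (nat_lit 156) (nat_lit 5) (nat_lit 151) (nat_lit 5) (nat_lit 390) (nat_lit 364) (nat_lit 266)) (XT.lf (nat_lit 0) (nat_lit 8426585369) (nat_lit 456) (nat_lit 5019820512) (nat_lit 76) (nat_lit 14092960806) (nat_lit 145) (nat_lit 5) (nat_lit 151) (nat_lit 5) (nat_lit 146) (nat_lit 5) (nat_lit 391) (nat_lit 364) (nat_lit 265)))) (XT.nd (nat_lit 78) (nat_lit 760) (nat_lit 0) (XT.lf (nat_lit 0) (nat_lit 17046249788) (nat_lit 456) (nat_lit 7457673210) (nat_lit 76) (nat_lit 3872816268) (nat_lit 140) (nat_lit 5) (nat_lit 146) (nat_lit 5) (nat_lit 141) (nat_lit 5) (nat_lit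 392) (nat_lit 364) (nat_lit 264)) (XT.nd (nat_lit 78) (nat_lit 456) (nat_lit 0) (XT.lf (nat_lit 0) (nat_lit 19225308448) (nat_lit 304) (nat_lit 7230613083) (nat_lit 380) (nat_lit 2789292179) (nat_lit 136) (nat_lit 5) (nat_lit 140) (nat_lit 5) (nat_lit 141) (nat_lit 5) (nat_lit 393) (nat_lit 364) (nat_lit 263)) (XT.lf (nat_lit 0) (nat_lit 6398665326) (nat_lit 456) (nat_lit 12749949893) (nat_lit 76) (nat_lit 10996510210) (nat_lit 130) (nat_lit 5) (nat_lit 136) (nat_lit 5) (nat_lit 131) (nat_lit 5) (nat_lit 394) (nat_lit 364) (nat_lit 262))))) (XT.nd (nat_lit 234) (nat_lit 912) (nat_lit 0) (XT.nd (nat_lit 78) (nat_lit 684) (nat_lit 0) (XT.lf (nat_lit 0) (nat_lit 15484959995) (nat_lit 304) (nat_lit 816973210) (nat_lit 380) (nat_lit 14777866533) (nat_lit 126) (nat_lit 5) (nat_lit 130) (nat_lit 5) (nat_lit 131) (nat_lit 5) (nat_lit 395) (nat_lit 364) (nat_lit 261)) (XT.nd (nat_lit 78) (nat_lit 380)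 (nat_lit 0) (XT.lf (nat_lit 0) (nat_lit 13405594987) (nat_lit 304) (nat_lit 13720808610) (nat_lit 380) (nat_lit 4922026311) (nat_lit 122) (nat_lit 5) (nat_lit 126) (nat_lit 5) (nat_lit 127) (nat_lit 5) (nat_lit 396) (nat_lit 364) (nat_lit 260)) (XT.lf (nat_lit 0) (nat_lit 5641630328) (nat_lit 380) (nat_lit 21849502142) (nat_lit 76) (nat_lit 5563169760) (nat_lit 117) (nat_lit 5) (nat_lit 122) (nat_lit 5) (nat_lit 118) (nat_lit 5) (nat_lit 397) (nat_lit 364) (nat_lit 259)))) (XT.nd (nat_lit 78) (nat_lit 608) (nat_lit 0) (XT.lf (nat_lit 0) (nat_lit 8793396169) (nat_lit 304) (nat_lit 8244169688) (nat_lit 380) (nat_lit 17059266512) (nat_lit 113) (nat_lit 5) (nat_lit 117) (nat_lit 5) (nat_lit 118) (nat_lit 5) (nat_lit 398) (nat_lit 364) (nat_lit 258)) (XT.nd (nat_lit 78) (nat_lit 380) (nat_lit 0) (XT.lf (nat_lit 0) (nat_lit 6226960588) (nat_lit 228) (nat_lit 23166821224) (nat_lit 304) (nat_lit 5785995478)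 (nat_lit 110) (nat_lit 5) (nat_lit 113) (nat_lit 5) (nat_lit 114) (nat_lit 5) (nat_lit 399) (nat_lit 364) (nat_lit 257)) (XT.lf (nat_lit 0) (nat_lit 3459831081) (nat_lit 304) (nat_lit 2841290225) (nat_lit 380) (nat_lit 30002958031) (nat_lit 105) (nat_lit 5) (nat_lit 109) (nat_lit 5) (nat_lit 110) (nat_lit 5) (nat_lit 400) (nat_lit 364) (nat_lit 256))))))) (XT.nd (nat_lit 936) (nat_lit 1900) (nat_lit 0) (XT.nd (nat_lit 468) (nat_lit 1140) (nat_lit 0) (XT.nd (nat_lit 234) (nat_lit 760) (nat_lit 0) (XT.nd (nat_lit 78) (nat_lit 304) (nat_lit 0) (XT.lf (nat_lit 0) (nat_lit 373491057) (nat_lit 228) (nat_lit 18972026791) (nat_lit 304) (nat_lit 18123184863) (nat_lit 102) (nat_lit 5) (nat_lit 105) (nat_lit 5) (nat_lit 106) (nat_lit 5) (nat_lit 401) (nat_lit 364) (nat_lit 255)) (XT.nd (nat_lit 78) (nat_lit 304) (nat_lit 0) (XT.lf (nat_lit 0) (nat_lit 33422026163) (nat_lit 304) (nat_lit 2812247808) (nat_lit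 76) (nat_lit 2445888858) (nat_lit 102) (nat_lit 5) (nat_lit 106) (nat_lit 5) (nat_lit 103) (nat_lit 5) (nat_lit 402) (nat_lit 364) (nat_lit 254)) (XT.lf (nat_lit 0) (nat_lit 8598826672) (nat_lit 304) (nat_lit 6387734719) (nat_lit 76) (nat_lit 24947967959) (nat_lit 98) (nat_lit 5) (nat_lit 102) (nat_lit 5) (nat_lit 99) (nat_lit 5) (nat_lit 403) (nat_lit 364) (nat_lit 253)))) (XT.nd (nat_lit 78) (nat_lit 532) (nat_lit 0) (XT.lf (nat_lit 0) (nat_lit 23433002015) (nat_lit 304) (nat_lit 10245679610) (nat_lit 76) (nat_lit 7559579499) (nat_lit 95) (nat_lit 5) (nat_lit 99) (nat_lit 5) (nat_lit 96) (nat_lit 5) (nat_lit 404) (nat_lit 364) (nat_lit 252)) (XT.nd (nat_lit 78) (nat_lit 304) (nat_lit 0) (XT.lf (nat_lit 0) (nat_lit 28152043394) (nat_lit 228) (nat_lit 11335492235) (nat_lit 304) (nat_lit 3105286333) (nat_lit 92) (nat_lit 5) (nat_lit 95) (nat_lit 5) (nat_lit 96) (nat_lit 5) (nat_lit 405) (nat_lit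 364) (nat_lit 251)) (XT.lf (nat_lit 0) (nat_lit 12547849543) (nat_lit 304) (nat_lit 19097277933) (nat_lit 76) (nat_lit 12352666729) (nat_lit 88) (nat_lit 5) (nat_lit 92) (nat_lit 5) (nat_lit 89) (nat_lit 5) (nat_lit 406) (nat_lit 364) (nat_lit 250))))) (XT.nd (nat_lit 234) (nat_lit 456) (nat_lit 0) (XT.nd (nat_lit 78) (nat_lit 456) (nat_lit 0) (XT.lf (nat_lit 0) (nat_lit 21295307516) (nat_lit 228) (nat_lit 8084785612) (nat_lit 304) (nat_lit 16078181107) (nat_lit 85) (nat_lit 5) (nat_lit 88) (nat_lit 5) (nat_lit 89) (nat_lit 5) (nat_lit 407) (nat_lit 364) (nat_lit 249)) (XT.nd (nat_lit 78) (nat_lit 228) (nat_lit 0) (XT.lf (nat_lit 0) (nat_lit 581872381) (nat_lit 228) (nat_lit 29700991298) (nat_lit 76) (nat_lit 16693270805) (nat_lit 82) (nat_lit 5) (nat_lit 85) (nat_lit 5) (nat_lit 83) (nat_lit 5) (nat_lit 408) (nat_lit 364) (nat_lit 248)) (XT.lf (nat_lit 0) (nat_lit 12714801658) (nat_lit 228)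 (nat_lit 5476992228) (nat_lit 304) (nat_lit 30359838075) (nat_lit 79) (nat_lit 5) (nat_lit 82) (nat_lit 5) (nat_lit 83) (nat_lit 5) (nat_lit 409) (nat_lit 364) (nat_lit 247)))) (XT.nd (nat_lit 78) (nat_lit 304) (nat_lit 0) (XT.lf (nat_lit 0) (nat_lit 7608624249) (nat_lit 152) (nat_lit 29644718107) (nat_lit 228) (nat_lit 12935429477) (nat_lit 77) (nat_lit 5) (nat_lit 79) (nat_lit 5) (nat_lit 80) (nat_lit 5) (nat_lit 410) (nat_lit 364) (nat_lit 246)) (XT.nd (nat_lit 78) (nat_lit 0) (nat_lit 0) (XT.lf (nat_lit 0) (nat_lit 1992796226) (nat_lit 228) (nat_lit 3701487711) (nat_lit 304) (nat_lit 46198779898) (nat_lit 73) (nat_lit 5) (nat_lit 76) (nat_lit 5) (nat_lit 77) (nat_lit 5) (nat_lit 411) (nat_lit 364) (nat_lit 245)) (XT.lf (nat_lit 0) (nat_lit 25651272996) (nat_lit 304) (nat_lit 4360352314) (nat_lit 76) (nat_lit 23647204759) (nat_lit 73) (nat_lit 5) (nat_lit 77) (nat_lit 5) (nat_lit 74) (nat_lit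 5) (nat_lit 412) (nat_lit 364) (nat_lit 244)))))) (XT.nd (nat_lit 468) (nat_lit 836) (nat_lit 0) (XT.nd (nat_lit 234) (nat_lit 532) (nat_lit 0) (XT.nd (nat_lit 78) (nat_lit 380) (nat_lit 0) (XT.lf (nat_lit 0) (nat_lit 44269777662) (nat_lit 152) (nat_lit 2791520506) (nat_lit 228) (nat_lit 8437932060) (nat_lit 71) (nat_lit 5) (nat_lit 73) (nat_lit 5) (nat_lit 74) (nat_lit 5) (nat_lit 413) (nat_lit 364) (nat_lit 243)) (XT.nd (nat_lit 78) (nat_lit 152) (nat_lit 0) (XT.lf (nat_lit 0) (nat_lit 12535966704) (nat_lit 228) (nat_lit 19053165078) (nat_lit 76) (nat_lit 25819164252) (nat_lit 68) (nat_lit 5) (nat_lit 71) (nat_lit 5) (nat_lit 69) (nat_lit 5) (nat_lit 414) (nat_lit 364) (nat_lit 242)) (XT.lf (nat_lit 0) (nat_lit 31736211356) (nat_lit 152) (nat_lit 3092080244) (nat_lit 228) (nat_lit 24568691067) (nat_lit 66) (nat_lit 5) (nat_lit 68) (nat_lit 5) (nat_lit 69) (nat_lit 5) (nat_lit 415) (nat_lit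 364) (nat_lit 241)))) (XT.nd (nat_lit 78) (nat_lit 380) (nat_lit 0) (XT.lf (nat_lit 0) (nat_lit 24183406208) (nat_lit 152) (nat_lit 34733086970) (nat_lit 228) (nat_lit 2548173656) (nat_lit 64) (nat_lit 5) (nat_lit 66) (nat_lit 5) (nat_lit 67) (nat_lit 5) (nat_lit 416) (nat_lit 364) (nat_lit 240)) (XT.nd (nat_lit 78) (nat_lit 152) (nat_lit 0) (XT.lf (nat_lit 0) (nat_lit 15631438808) (nat_lit 152) (nat_lit 5002467718) (nat_lit 228) (nat_lit 42982036787) (nat_lit 61) (nat_lit 5) (nat_lit 63) (nat_lit 5) (nat_lit 64) (nat_lit 5) (nat_lit 417) (nat_lit 364) (nat_lit 239)) (XT.lf (nat_lit 0) (nat_lit 5927506072) (nat_lit 152) (nat_lit 39685057567) (nat_lit 228) (nat_lit 20240758800) (nat_lit 59) (nat_lit 5) (nat_lit 61) (nat_lit 5) (nat_lit 62) (nat_lit 5) (nat_lit 418) (nat_lit 364) (nat_lit 238))))) (XT.nd (nat_lit 234) (nat_lit 456) (nat_lit 0) (XT.nd (nat_lit 78) (nat_lit 304) (nat_lit 0) (XT.lf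 (nat_lit 0) (nat_lit 4109222067) (nat_lit 228) (nat_lit 4752254123) (nat_lit 76) (nat_lit 59323767516) (nat_lit 58) (nat_lit 5) (nat_lit 61) (nat_lit 5) (nat_lit 59) (nat_lit 5) (nat_lit 419) (nat_lit 364) (nat_lit 237)) (XT.nd (nat_lit 78) (nat_lit 152) (nat_lit 0) (XT.lf (nat_lit 0) (nat_lit 30007885545) (nat_lit 228) (nat_lit 16826941085) (nat_lit 76) (nat_lit 23770429286) (nat_lit 56) (nat_lit 5) (nat_lit 59) (nat_lit 5) (nat_lit 57) (nat_lit 5) (nat_lit 420) (nat_lit 364) (nat_lit 236)) (XT.lf (nat_lit 0) (nat_lit 42926396252) (nat_lit 152) (nat_lit 14820318484) (nat_lit 228) (nat_lit 15383197774) (nat_lit 54) (nat_lit 5) (nat_lit 56) (nat_lit 5) (nat_lit 57) (nat_lit 5) (nat_lit 421) (nat_lit 364) (nat_lit 235)))) (XT.nd (nat_lit 156) (nat_lit 152) (nat_lit 0) (XT.nd (nat_lit 78) (nat_lit 152) (nat_lit 0) (XT.lf (nat_lit 0) (nat_lit 11525728654) (nat_lit 152) (nat_lit 45226437145) (nat_lit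 76) (nat_lit 19005923712) (nat_lit 52) (nat_lit 5) (nat_lit 54) (nat_lit 5) (nat_lit 53) (nat_lit 5) (nat_lit 422) (nat_lit 364) (nat_lit 234)) (XT.lf (nat_lit 0) (nat_lit 16428177418) (nat_lit 152) (nat_lit 23652258927) (nat_lit 228) (nat_lit 38414115918) (nat_lit 50) (nat_lit 5) (nat_lit 52) (nat_lit 5) (nat_lit 53) (nat_lit 5) (nat_lit 423) (nat_lit 364) (nat_lit 233))) (XT.nd (nat_lit 78) (nat_lit 76) (nat_lit 0) (XT.lf (nat_lit 0) (nat_lit 647369391) (nat_lit 76) (nat_lit 69992797393) (nat_lit 152) (nat_lit 10710353380) (nat_lit 49) (nat_lit 5) (nat_lit 50) (nat_lit 5) (nat_lit 51) (nat_lit 4) (nat_lit 424) (nat_lit 364) (nat_lit 232)) (XT.lf (nat_lit 0) (nat_lit 18898221962) (nat_lit 152) (nat_lit 16968521022) (nat_lit 76) (nat_lit 48450896349) (nat_lit 48) (nat_lit 5) (nat_lit 50) (nat_lit 5) (nat_lit 49) (nat_lit 5) (nat_lit 425) (nat_lit 364) (nat_lit 231))))))))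
noncomputable def xc90 : XT := (XT.nd (nat_lit 49764) (nat_lit 0) (nat_lit 3800) (XT.nd (nat_lit 48828) (nat_lit 0) (nat_lit 12236) (XT.nd (nat_lit 48360) (nat_lit 0) (nat_lit 17100) (XT.nd (nat_lit 234) (nat_lit 304) (nat_lit 0) (XT.nd (nat_lit 78) (nat_lit 304) (nat_lit 0) (XT.lf (nat_lit 0) (nat_lit 50256445066) (nat_lit 228) (nat_lit 36594352192) (nat_lit 76) (nat_lit 564414698) (nat_lit 46) (nat_lit 5) (nat_lit 49) (nat_lit 5) (nat_lit 47) (nat_lit 4) (nat_lit 426) (nat_lit 364) (nat_lit 230)) (XT.nd (nat_lit 78) (nat_lit 228) (nat_lit 0) (XT.lf (nat_lit 0) (nat_lit 31941615594) (nat_lit 76) (nat_lit 52081103612) (nat_lit 152) (nat_lit 6619740337) (nat_lit 45) (nat_lit 5) (nat_lit 46) (nat_lit 5) (nat_lit 47) (nat_lit 4) (nat_lit 427) (nat_lit 364) (nat_lit 229)) (XT.lf (nat_lit 0) (nat_lit 10598160748) (nat_lit 152) (nat_lit 14828631854) (nat_lit 228) (nat_lit 68582626167) (nat_lit 42)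 (nat_lit 5) (nat_lit 44) (nat_lit 5) (nat_lit 45) (nat_lit 5) (nat_lit 428) (nat_lit 364) (nat_lit 228)))) (XT.nd (nat_lit 78) (nat_lit 304) (nat_lit 0) (XT.lf (nat_lit 0) (nat_lit 59778638172) (nat_lit 228) (nat_lit 13253535937) (nat_lit 76) (nat_lit 24485389282) (nat_lit 42) (nat_lit 5) (nat_lit 45) (nat_lit 5) (nat_lit 43) (nat_lit 4) (nat_lit 429) (nat_lit 364) (nat_lit 227)) (XT.nd (nat_lit 78) (nat_lit 228) (nat_lit 0) (XT.lf (nat_lit 0) (nat_lit 61452539901) (nat_lit 76) (nat_lit 35131074086) (nat_lit 152) (nat_lit 4595435562) (nat_lit 41) (nat_lit 5) (nat_lit 42) (nat_lit 5) (nat_lit 43) (nat_lit 4) (nat_lit 430) (nat_lit 364) (nat_lit 226)) (XT.lf (nat_lit 0) (nat_lit 30142949880) (nat_lit 228) (nat_lit 69508684961) (nat_lit 76) (nat_lit 5347451027) (nat_lit 38) (nat_lit 5) (nat_lit 41) (nat_lit 5) (nat_lit 39) (nat_lit 4) (nat_lit 431) (nat_lit 364) (nat_lit 225))))) (XT.nd (nat_lit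 234) (nat_lit 0) (nat_lit 76) (XT.nd (nat_lit 78) (nat_lit 0) (nat_lit 0) (XT.lf (nat_lit 0) (nat_lit 2344584971) (nat_lit 0) (nat_lit 2344584971) (nat_lit 1140) (nat_lit 2318535531) (nat_lit 263) (nat_lit 5) (nat_lit 263) (nat_lit 3) (nat_lit 278) (nat_lit 3) (nat_lit 365) (nat_lit 365) (nat_lit 290)) (XT.nd (nat_lit 78) (nat_lit 0) (nat_lit 76) (XT.lf (nat_lit 76) (nat_lit 1916459310) (nat_lit 0) (nat_lit 8326070449) (nat_lit 1216) (nat_lit 4104131771) (nat_lit 264) (nat_lit 5) (nat_lit 263) (nat_lit 5) (nat_lit 279) (nat_lit 5) (nat_lit 366) (nat_lit 365) (nat_lit 289)) (XT.lf (nat_lit 0) (nat_lit 11282327350) (nat_lit 1140) (nat_lit 867564281) (nat_lit 1216) (nat_lit 2540626604) (nat_lit 264) (nat_lit 5) (nat_lit 279) (nat_lit 5) (nat_lit 280) (nat_lit 5) (nat_lit 367) (nat_lit 365) (nat_lit 288)))) (XT.nd (nat_lit 78) (nat_lit 0) (nat_lit 76) (XT.lf (nat_lit 76) (nat_lit 11391906640) (nat_lit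 0) (nat_lit 1142202910) (nat_lit 1216) (nat_lit 2512673182) (nat_lit 265) (nat_lit 5) (nat_lit 264) (nat_lit 5) (nat_lit 280) (nat_lit 5) (nat_lit 368) (nat_lit 365) (nat_lit 287)) (XT.nd (nat_lit 78) (nat_lit 0) (nat_lit 76) (XT.lf (nat_lit 76) (nat_lit 8915547727) (nat_lit 0) (nat_lit 5095770667) (nat_lit 1216) (nat_lit 1404671027) (nat_lit 266) (nat_lit 5) (nat_lit 265) (nat_lit 5) (nat_lit 281) (nat_lit 5) (nat_lit 369) (nat_lit 365) (nat_lit 286)) (XT.lf (nat_lit 76) (nat_lit 6418473468) (nat_lit 0) (nat_lit 9287220792) (nat_lit 1216) (nat_lit 93676412) (nat_lit 267) (nat_lit 5) (nat_lit 266) (nat_lit 5) (nat_lit 282) (nat_lit 5) (nat_lit 370) (nat_lit 365) (nat_lit 285)))))) (XT.nd (nat_lit 468) (nat_lit 2964) (nat_lit 0) (XT.nd (nat_lit 234) (nat_lit 988) (nat_lit 0) (XT.nd (nat_lit 78) (nat_lit 0) (nat_lit 0) (XT.lf (nat_lit 0) (nat_lit 1409113042) (nat_lit 1216) (nat_lit 12311468362)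 (nat_lit 1292) (nat_lit 2476443686) (nat_lit 251) (nat_lit 5) (nat_lit 267) (nat_lit 5) (nat_lit 268) (nat_lit 5) (nat_lit 371) (nat_lit 365) (nat_lit 284)) (XT.nd (nat_lit 78) (nat_lit 0) (nat_lit 76) (XT.lf (nat_lit 76) (nat_lit 1308664978) (nat_lit 0) (nat_lit 1851995076) (nat_lit 1292) (nat_lit 13448619508) (nat_lit 252) (nat_lit 5) (nat_lit 251) (nat_lit 5) (nat_lit 268) (nat_lit 5) (nat_lit 372) (nat_lit 365) (nat_lit 283)) (XT.lf (nat_lit 0) (nat_lit 5202678279) (nat_lit 1216) (nat_lit 1295735693) (nat_lit 1292) (nat_lit 10537657227) (nat_lit 252) (nat_lit 5) (nat_lit 268) (nat_lit 5) (nat_lit 269) (nat_lit 5) (nat_lit 373) (nat_lit 365) (nat_lit 282)))) (XT.nd (nat_lit 78) (nat_lit 1140) (nat_lit 0) (XT.lf (nat_lit 0) (nat_lit 7530045841) (nat_lit 1216) (nat_lit 3903183912) (nat_lit 1292) (nat_lit 6045485934) (nat_lit 253) (nat_lit 5) (nat_lit 269) (nat_lit 5) (nat_lit 270) (nat_lit 5)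 (nat_lit 374) (nat_lit 365) (nat_lit 281)) (XT.nd (nat_lit 78) (nat_lit 1216) (nat_lit 0) (XT.lf (nat_lit 0) (nat_lit 10150059766) (nat_lit 1216) (nat_lit 6539963056) (nat_lit 76) (nat_lit 1248191449) (nat_lit 254) (nat_lit 5) (nat_lit 270) (nat_lit 5) (nat_lit 255) (nat_lit 5) (nat_lit 375) (nat_lit 365) (nat_lit 280)) (XT.lf (nat_lit 0) (nat_lit 9169362401) (nat_lit 1216) (nat_lit 3952144583) (nat_lit 1292) (nat_lit 5292577547) (nat_lit 238) (nat_lit 5) (nat_lit 254) (nat_lit 5) (nat_lit 255) (nat_lit 5) (nat_lit 376) (nat_lit 365) (nat_lit 279))))) (XT.nd (nat_lit 234) (nat_lit 1064) (nat_lit 0) (XT.nd (nat_lit 78) (nat_lit 1292) (nat_lit 0) (XT.lf (nat_lit 0) (nat_lit 6911989994) (nat_lit 608) (nat_lit 9531821357) (nat_lit 684) (nat_lit 2463877671) (nat_lit 230) (nat_lit 5) (nat_lit 238) (nat_lit 5) (nat_lit 239) (nat_lit 5) (nat_lit 377) (nat_lit 365) (nat_lit 278)) (XT.nd (nat_lit 78) (nat_lit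 608) (nat_lit 0) (XT.lf (nat_lit 0) (nat_lit 693828846) (nat_lit 684) (nat_lit 14788202431) (nat_lit 76) (nat_lit 3937881514) (nat_lit 221) (nat_lit 5) (nat_lit 230) (nat_lit 5) (nat_lit 222) (nat_lit 5) (nat_lit 378) (nat_lit 365) (nat_lit 277)) (XT.lf (nat_lit 0) (nat_lit 2288831640) (nat_lit 608) (nat_lit 1891832464) (nat_lit 684) (nat_lit 15769693950) (nat_lit 213) (nat_lit 5) (nat_lit 221) (nat_lit 5) (nat_lit 222) (nat_lit 5) (nat_lit 379) (nat_lit 365) (nat_lit 276)))) (XT.nd (nat_lit 78) (nat_lit 1064) (nat_lit 0) (XT.lf (nat_lit 0) (nat_lit 8094192852) (nat_lit 684) (nat_lit 115187565) (nat_lit 76) (nat_lit 12290382380) (nat_lit 213) (nat_lit 5) (nat_lit 222) (nat_lit 5) (nat_lit 214) (nat_lit 5) (nat_lit 380) (nat_lit 365) (nat_lit 275)) (XT.nd (nat_lit 78) (nat_lit 532) (nat_lit 0) (XT.lf (nat_lit 0) (nat_lit 12442295605) (nat_lit 608) (nat_lit 2498094501) (nat_lit 76) (nat_lit 6129088141)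 (nat_lit 206) (nat_lit 5) (nat_lit 214) (nat_lit 5) (nat_lit 207) (nat_lit 5) (nat_lit 381) (nat_lit 365) (nat_lit 274)) (XT.lf (nat_lit 0) (nat_lit 16751357213) (nat_lit 532) (nat_lit 482861975) (nat_lit 608) (nat_lit 4426674856) (nat_lit 199) (nat_lit 5) (nat_lit 206) (nat_lit 5) (nat_lit 207) (nat_lit 5) (nat_lit 382) (nat_lit 365) (nat_lit 273))))))) (XT.nd (nat_lit 936) (nat_lit 3648) (nat_lit 0) (XT.nd (nat_lit 468) (nat_lit 1900) (nat_lit 0) (XT.nd (nat_lit 234) (nat_lit 1368) (nat_lit 0) (XT.nd (nat_lit 78) (nat_lit 988) (nat_lit 0) (XT.lf (nat_lit 0) (nat_lit 279213900) (nat_lit 532) (nat_lit 7412654131) (nat_lit 76) (nat_lit 14581172552) (nat_lit 192) (nat_lit 5) (nat_lit 199) (nat_lit 5) (nat_lit 193) (nat_lit 5) (nat_lit 383) (nat_lit 365) (nat_lit 272)) (XT.nd (nat_lit 78) (nat_lit 456) (nat_lit 0) (XT.lf (nat_lit 0) (nat_lit 5367011378) (nat_lit 608) (nat_lit 9992445060) (nat_lit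 76) (nat_lit 7547884419) (nat_lit 185) (nat_lit 5) (nat_lit 193) (nat_lit 5) (nat_lit 186) (nat_lit 5) (nat_lit 384) (nat_lit 365) (nat_lit 271)) (XT.lf (nat_lit 0) (nat_lit 10952453142) (nat_lit 532) (nat_lit 12607406223) (nat_lit 76) (nat_lit 6205057) (nat_lit 179) (nat_lit 5) (nat_lit 186) (nat_lit 5) (nat_lit 180) (nat_lit 5) (nat_lit 385) (nat_lit 365) (nat_lit 270)))) (XT.nd (nat_lit 78) (nat_lit 912) (nat_lit 0) (XT.lf (nat_lit 0) (nat_lit 8910010020) (nat_lit 456) (nat_lit 8235463602) (nat_lit 532) (nat_lit 7102406972) (nat_lit 173) (nat_lit 5) (nat_lit 179) (nat_lit 5) (nat_lit 180) (nat_lit 5) (nat_lit 386) (nat_lit 365) (nat_lit 269)) (XT.nd (nat_lit 78) (nat_lit 532) (nat_lit 0) (XT.lf (nat_lit 0) (nat_lit 6844432388) (nat_lit 380) (nat_lit 17060394699) (nat_lit 456) (nat_lit 1051265388) (nat_lit 168) (nat_lit 5) (nat_lit 173) (nat_lit 5) (nat_lit 174) (nat_lit 5) (nat_lit 387) (nat_lit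 365) (nat_lit 268)) (XT.lf (nat_lit 0) (nat_lit 4698463501) (nat_lit 456) (nat_lit 772966878) (nat_lit 532) (nat_lit 20218586419) (nat_lit 161) (nat_lit 5) (nat_lit 167) (nat_lit 5) (nat_lit 168) (nat_lit 5) (nat_lit 388) (nat_lit 365) (nat_lit 267))))) (XT.nd (nat_lit 234) (nat_lit 1064) (nat_lit 0) (XT.nd (nat_lit 78) (nat_lit 456) (nat_lit 0) (XT.lf (nat_lit 0) (nat_lit 2431741590) (nat_lit 380) (nat_lit 10220848759) (nat_lit 456) (nat_lit 13797117316) (nat_lit 156) (nat_lit 5) (nat_lit 161) (nat_lit 5) (nat_lit 162) (nat_lit 5) (nat_lit 389) (nat_lit 365) (nat_lit 266)) (XT.nd (nat_lit 78) (nat_lit 76) (nat_lit 0) (XT.lf (nat_lit 0) (nat_lit 132473071) (nat_lit 380) (nat_lit 20338828503) (nat_lit 456) (nat_lit 6767731197) (nat_lit 151) (nat_lit 5) (nat_lit 156) (nat_lit 5) (nat_lit 157) (nat_lit 5) (nat_lit 390) (nat_lit 365) (nat_lit 265)) (XT.lf (nat_lit 0) (nat_lit 940107460) (nat_lit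 456) (nat_lit 2197990363) (nat_lit 76) (nat_lit 24919385230) (nat_lit 150) (nat_lit 5) (nat_lit 156) (nat_lit 5) (nat_lit 151) (nat_lit 5) (nat_lit 391) (nat_lit 365) (nat_lit 264)))) (XT.nd (nat_lit 78) (nat_lit 684) (nat_lit 0) (XT.lf (nat_lit 0) (nat_lit 9261847553) (nat_lit 456) (nat_lit 4709365350) (nat_lit 76) (nat_lit 14932582391) (nat_lit 145) (nat_lit 5) (nat_lit 151) (nat_lit 5) (nat_lit 146) (nat_lit 5) (nat_lit 392) (nat_lit 365) (nat_lit 263)) (XT.nd (nat_lit 78) (nat_lit 304) (nat_lit 0) (XT.lf (nat_lit 0) (nat_lit 18299428732) (nat_lit 456) (nat_lit 7274506926) (nat_lit 76) (nat_lit 4209498635) (nat_lit 140) (nat_lit 5) (nat_lit 146) (nat_lit 5) (nat_lit 141) (nat_lit 5) (nat_lit 393) (nat_lit 365) (nat_lit 262)) (XT.lf (nat_lit 0) (nat_lit 20726684754) (nat_lit 304) (nat_lit 7439002305) (nat_lit 380) (nat_lit 2530067831) (nat_lit 136) (nat_lit 5) (nat_lit 140) (nat_lit 5) (nat_lit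 141) (nat_lit 5) (nat_lit 394) (nat_lit 365) (nat_lit 261)))))) (XT.nd (nat_lit 468) (nat_lit 1672) (nat_lit 0) (XT.nd (nat_lit 234) (nat_lit 912) (nat_lit 0) (XT.nd (nat_lit 78) (nat_lit 608) (nat_lit 0) (XT.lf (nat_lit 0) (nat_lit 7097498456) (nat_lit 456) (nat_lit 12845222046) (nat_lit 76) (nat_lit 11698192102) (nat_lit 130) (nat_lit 5) (nat_lit 136) (nat_lit 5) (nat_lit 131) (nat_lit 5) (nat_lit 395) (nat_lit 365) (nat_lit 260)) (XT.nd (nat_lit 78) (nat_lit 304) (nat_lit 0) (XT.lf (nat_lit 0) (nat_lit 16785890556) (nat_lit 304) (nat_lit 697059117) (nat_lit 380) (nat_lit 15139765219) (nat_lit 126) (nat_lit 5) (nat_lit 130) (nat_lit 5) (nat_lit 131) (nat_lit 5) (nat_lit 396) (nat_lit 365) (nat_lit 259)) (XT.lf (nat_lit 0) (nat_lit 14596716370) (nat_lit 304) (nat_lit 14240980872) (nat_lit 380) (nat_lit 4802412349) (nat_lit 122) (nat_lit 5) (nat_lit 126) (nat_lit 5) (nat_lit 127) (nat_lit 5)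 (nat_lit 397) (nat_lit 365) (nat_lit 258)))) (XT.nd (nat_lit 78) (nat_lit 532) (nat_lit 0) (XT.lf (nat_lit 0) (nat_lit 6271746591) (nat_lit 380) (nat_lit 22420168054) (nat_lit 76) (nat_lit 6004576024) (nat_lit 117) (nat_lit 5) (nat_lit 122) (nat_lit 5) (nat_lit 118) (nat_lit 5) (nat_lit 398) (nat_lit 365) (nat_lit 257)) (XT.nd (nat_lit 78) (nat_lit 228) (nat_lit 0) (XT.lf (nat_lit 0) (nat_lit 9739917617) (nat_lit 304) (nat_lit 8485860364) (nat_lit 380) (nat_lit 17565724439) (nat_lit 113) (nat_lit 5) (nat_lit 117) (nat_lit 5) (nat_lit 118) (nat_lit 5) (nat_lit 399) (nat_lit 365) (nat_lit 256)) (XT.lf (nat_lit 0) (nat_lit 7038919321) (nat_lit 228) (nat_lit 24151242761) (nat_lit 304) (nat_lit 5738725669) (nat_lit 110) (nat_lit 5) (nat_lit 113) (nat_lit 5) (nat_lit 114) (nat_lit 5) (nat_lit 400) (nat_lit 365) (nat_lit 255))))) (XT.nd (nat_lit 234) (nat_lit 1064) (nat_lit 0) (XT.nd (nat_lit 78) (nat_lit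 228) (nat_lit 0) (XT.lf (nat_lit 0) (nat_lit 4125536102) (nat_lit 304) (nat_lit 2809665055) (nat_lit 380) (nat_lit 31174439617) (nat_lit 105) (nat_lit 5) (nat_lit 109) (nat_lit 5) (nat_lit 110) (nat_lit 5) (nat_lit 401) (nat_lit 365) (nat_lit 254)) (XT.nd (nat_lit 78) (nat_lit 0) (nat_lit 0) (XT.lf (nat_lit 0) (nat_lit 878499920) (nat_lit 228) (nat_lit 19744391046) (nat_lit 304) (nat_lit 18709875567) (nat_lit 102) (nat_lit 5) (nat_lit 105) (nat_lit 5) (nat_lit 106) (nat_lit 5) (nat_lit 402) (nat_lit 365) (nat_lit 253)) (XT.lf (nat_lit 0) (nat_lit 35390071590) (nat_lit 304) (nat_lit 2482373032) (nat_lit 76) (nat_lit 2732752886) (nat_lit 102) (nat_lit 5) (nat_lit 106) (nat_lit 5) (nat_lit 103) (nat_lit 5) (nat_lit 403) (nat_lit 365) (nat_lit 252)))) (XT.nd (nat_lit 156) (nat_lit 532) (nat_lit 0) (XT.nd (nat_lit 78) (nat_lit 228) (nat_lit 0) (XT.lf (nat_lit 0) (nat_lit 9318869259) (nat_lit 304)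 (nat_lit 6244286895) (nat_lit 76) (nat_lit 26359336395) (nat_lit 98) (nat_lit 5) (nat_lit 102) (nat_lit 5) (nat_lit 99) (nat_lit 5) (nat_lit 404) (nat_lit 365) (nat_lit 251)) (XT.lf (nat_lit 0) (nat_lit 24886884680) (nat_lit 304) (nat_lit 10301544613) (nat_lit 76) (nat_lit 8103220548) (nat_lit 95) (nat_lit 5) (nat_lit 99) (nat_lit 5) (nat_lit 96) (nat_lit 5) (nat_lit 405) (nat_lit 365) (nat_lit 250))) (XT.nd (nat_lit 78) (nat_lit 304) (nat_lit 0) (XT.lf (nat_lit 0) (nat_lit 30002981382) (nat_lit 228) (nat_lit 11731985561) (nat_lit 304) (nat_lit 2979249850) (nat_lit 92) (nat_lit 5) (nat_lit 95) (nat_lit 5) (nat_lit 96) (nat_lit 5) (nat_lit 406) (nat_lit 365) (nat_lit 249)) (XT.lf (nat_lit 0) (nat_lit 13443736845) (nat_lit 304) (nat_lit 19609700095) (nat_lit 76) (nat_lit 13136141618) (nat_lit 88) (nat_lit 5) (nat_lit 92) (nat_lit 5) (nat_lit 89) (nat_lit 5) (nat_lit 407) (nat_lit 365) (nat_lit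 248))))))))
noncomputable def xc91 : XT := (XT.nd (nat_lit 49920) (nat_lit 0) (nat_lit 8360) (XT.nd (nat_lit 936) (nat_lit 1368) (nat_lit 0) (XT.nd (nat_lit 468) (nat_lit 1064) (nat_lit 0) (XT.nd (nat_lit 234) (nat_lit 456) (nat_lit 0) (XT.nd (nat_lit 78) (nat_lit 456) (nat_lit 0) (XT.lf (nat_lit 0) (nat_lit 22789832123) (nat_lit 228) (nat_lit 8319106126) (nat_lit 304) (nat_lit 16614406375) (nat_lit 85) (nat_lit 5) (nat_lit 88) (nat_lit 5) (nat_lit 89) (nat_lit 5) (nat_lit 408) (nat_lit 365) (nat_lit 247)) (XT.nd (nat_lit 78) (nat_lit 228) (nat_lit 0) (XT.lf (nat_lit 0) (nat_lit 866610166) (nat_lit 228) (nat_lit 30757436338) (nat_lit 76) (nat_lit 17693180895) (nat_lit 82) (nat_lit 5) (nat_lit 85) (nat_lit 5) (nat_lit 83) (nat_lit 5) (nat_lit 409) (nat_lit 365) (nat_lit 246)) (XT.lf (nat_lit 0) (nat_lit 13766860403) (nat_lit 228) (nat_lit 5581995722) (nat_lit 304) (nat_lit 31622890893) (nat_lit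 79) (nat_lit 5) (nat_lit 82) (nat_lit 5) (nat_lit 83) (nat_lit 5) (nat_lit 410) (nat_lit 365) (nat_lit 245)))) (XT.nd (nat_lit 78) (nat_lit 304) (nat_lit 0) (XT.lf (nat_lit 0) (nat_lit 8399116419) (nat_lit 152) (nat_lit 30958068713) (nat_lit 228) (nat_lit 13333749676) (nat_lit 77) (nat_lit 5) (nat_lit 79) (nat_lit 5) (nat_lit 80) (nat_lit 5) (nat_lit 411) (nat_lit 365) (nat_lit 244)) (XT.nd (nat_lit 78) (nat_lit 0) (nat_lit 0) (XT.lf (nat_lit 0) (nat_lit 2495489936) (nat_lit 228) (nat_lit 3719385547) (nat_lit 304) (nat_lit 48265727916) (nat_lit 73) (nat_lit 5) (nat_lit 76) (nat_lit 5) (nat_lit 77) (nat_lit 5) (nat_lit 412) (nat_lit 365) (nat_lit 243)) (XT.lf (nat_lit 0) (nat_lit 27160012220) (nat_lit 304) (nat_lit 4189264669) (nat_lit 76) (nat_lit 24985673885) (nat_lit 73) (nat_lit 5) (nat_lit 77) (nat_lit 5) (nat_lit 74) (nat_lit 5) (nat_lit 413) (nat_lit 365) (nat_lit 242))))) (XT.nd (nat_lit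 234) (nat_lit 532) (nat_lit 0) (XT.nd (nat_lit 78) (nat_lit 380) (nat_lit 0) (XT.lf (nat_lit 0) (nat_lit 46861218181) (nat_lit 152) (nat_lit 2772183306) (nat_lit 228) (nat_lit 8634185261) (nat_lit 71) (nat_lit 5) (nat_lit 73) (nat_lit 5) (nat_lit 74) (nat_lit 5) (nat_lit 414) (nat_lit 365) (nat_lit 241)) (XT.nd (nat_lit 78) (nat_lit 152) (nat_lit 0) (XT.lf (nat_lit 0) (nat_lit 13378551085) (nat_lit 228) (nat_lit 19629447873) (nat_lit 76) (nat_lit 27264207008) (nat_lit 68) (nat_lit 5) (nat_lit 71) (nat_lit 5) (nat_lit 69) (nat_lit 5) (nat_lit 415) (nat_lit 365) (nat_lit 240)) (XT.lf (nat_lit 0) (nat_lit 33688608655) (nat_lit 152) (nat_lit 3090122288) (nat_lit 228) (nat_lit 25581800316) (nat_lit 66) (nat_lit 5) (nat_lit 68) (nat_lit 5) (nat_lit 69) (nat_lit 5) (nat_lit 416) (nat_lit 365) (nat_lit 239)))) (XT.nd (nat_lit 78) (nat_lit 380) (nat_lit 0) (XT.lf (nat_lit 0) (nat_lit 25752341887) (nat_lit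 152) (nat_lit 36313938742) (nat_lit 228) (nat_lit 2465472284) (nat_lit 64) (nat_lit 5) (nat_lit 66) (nat_lit 5) (nat_lit 67) (nat_lit 5) (nat_lit 417) (nat_lit 365) (nat_lit 238)) (XT.nd (nat_lit 78) (nat_lit 152) (nat_lit 0) (XT.lf (nat_lit 0) (nat_lit 16766472757) (nat_lit 152) (nat_lit 5098726838) (nat_lit 228) (nat_lit 44925526711) (nat_lit 61) (nat_lit 5) (nat_lit 63) (nat_lit 5) (nat_lit 64) (nat_lit 5) (nat_lit 418) (nat_lit 365) (nat_lit 237)) (XT.lf (nat_lit 0) (nat_lit 6571616603) (nat_lit 152) (nat_lit 41516419556) (nat_lit 228) (nat_lit 21052082080) (nat_lit 59) (nat_lit 5) (nat_lit 61) (nat_lit 5) (nat_lit 62) (nat_lit 5) (nat_lit 419) (nat_lit 365) (nat_lit 236)))))) (XT.nd (nat_lit 468) (nat_lit 608) (nat_lit 0) (XT.nd (nat_lit 234) (nat_lit 380) (nat_lit 0) (XT.nd (nat_lit 78) (nat_lit 304) (nat_lit 0) (XT.lf (nat_lit 0) (nat_lit 4502109832) (nat_lit 228) (nat_lit 4654937156)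 (nat_lit 76) (nat_lit 62431812996) (nat_lit 58) (nat_lit 5) (nat_lit 61) (nat_lit 5) (nat_lit 59) (nat_lit 5) (nat_lit 420) (nat_lit 365) (nat_lit 235)) (XT.nd (nat_lit 78) (nat_lit 152) (nat_lit 0) (XT.lf (nat_lit 0) (nat_lit 31691289999) (nat_lit 228) (nat_lit 17338869618) (nat_lit 76) (nat_lit 25099846781) (nat_lit 56) (nat_lit 5) (nat_lit 59) (nat_lit 5) (nat_lit 57) (nat_lit 5) (nat_lit 421) (nat_lit 365) (nat_lit 234)) (XT.lf (nat_lit 0) (nat_lit 45392691870) (nat_lit 152) (nat_lit 15418729813) (nat_lit 228) (nat_lit 15969644357) (nat_lit 54) (nat_lit 5) (nat_lit 56) (nat_lit 5) (nat_lit 57) (nat_lit 5) (nat_lit 422) (nat_lit 365) (nat_lit 233)))) (XT.nd (nat_lit 78) (nat_lit 228) (nat_lit 0) (XT.lf (nat_lit 0) (nat_lit 12277005260) (nat_lit 152) (nat_lit 47169595754) (nat_lit 76) (nat_lit 20094123885) (nat_lit 52) (nat_lit 5) (nat_lit 54) (nat_lit 5) (nat_lit 53) (nat_lit 5) (nat_lit 423)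 (nat_lit 365) (nat_lit 232)) (XT.nd (nat_lit 78) (nat_lit 76) (nat_lit 0) (XT.lf (nat_lit 0) (nat_lit 17558629450) (nat_lit 152) (nat_lit 24695456732) (nat_lit 228) (nat_lit 40160086396) (nat_lit 50) (nat_lit 5) (nat_lit 52) (nat_lit 5) (nat_lit 53) (nat_lit 5) (nat_lit 424) (nat_lit 365) (nat_lit 231)) (XT.lf (nat_lit 0) (nat_lit 983581532) (nat_lit 76) (nat_lit 73354341145) (nat_lit 152) (nat_lit 11075133490) (nat_lit 49) (nat_lit 5) (nat_lit 50) (nat_lit 5) (nat_lit 51) (nat_lit 4) (nat_lit 425) (nat_lit 365) (nat_lit 230))))) (XT.nd (nat_lit 234) (nat_lit 304) (nat_lit 0) (XT.nd (nat_lit 78) (nat_lit 228) (nat_lit 0) (XT.lf (nat_lit 0) (nat_lit 20002567207) (nat_lit 152) (nat_lit 17524382842) (nat_lit 76) (nat_lit 51001771972) (nat_lit 48) (nat_lit 5) (nat_lit 50) (nat_lit 5) (nat_lit 49) (nat_lit 5) (nat_lit 426) (nat_lit 365) (nat_lit 229)) (XT.nd (nat_lit 78) (nat_lit 76) (nat_lit 0) (XT.lf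 (nat_lit 0) (nat_lit 52925086891) (nat_lit 228) (nat_lit 38136485009) (nat_lit 76) (nat_lit 719710587) (nat_lit 46) (nat_lit 5) (nat_lit 49) (nat_lit 5) (nat_lit 47) (nat_lit 4) (nat_lit 427) (nat_lit 365) (nat_lit 228)) (XT.lf (nat_lit 0) (nat_lit 33818037606) (nat_lit 76) (nat_lit 54556902351) (nat_lit 152) (nat_lit 6795095276) (nat_lit 45) (nat_lit 5) (nat_lit 46) (nat_lit 5) (nat_lit 47) (nat_lit 4) (nat_lit 428) (nat_lit 365) (nat_lit 227)))) (XT.nd (nat_lit 156) (nat_lit 76) (nat_lit 0) (XT.nd (nat_lit 78) (nat_lit 0) (nat_lit 0) (XT.lf (nat_lit 0) (nat_lit 11402366550) (nat_lit 152) (nat_lit 15443731101) (nat_lit 228) (nat_lit 71859339463) (nat_lit 42) (nat_lit 5) (nat_lit 44) (nat_lit 5) (nat_lit 45) (nat_lit 5) (nat_lit 429) (nat_lit 365) (nat_lit 226)) (XT.lf (nat_lit 0) (nat_lit 62909646082) (nat_lit 228) (nat_lit 13651892758) (nat_lit 76) (nat_lit 25827627458) (nat_lit 42) (nat_lit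 5) (nat_lit 45) (nat_lit 5) (nat_lit 43) (nat_lit 4) (nat_lit 430) (nat_lit 365) (nat_lit 225))) (XT.nd (nat_lit 48048) (nat_lit 0) (nat_lit 16872) (XT.lf (nat_lit 0) (nat_lit 64781910193) (nat_lit 76) (nat_lit 36768662945) (nat_lit 152) (nat_lit 4683283171) (nat_lit 41) (nat_lit 5) (nat_lit 42) (nat_lit 5) (nat_lit 43) (nat_lit 4) (nat_lit 431) (nat_lit 365) (nat_lit 224)) (XT.lf (nat_lit 0) (nat_lit 2733733663) (nat_lit 0) (nat_lit 2733733663) (nat_lit 1140) (nat_lit 1874069294) (nat_lit 263) (nat_lit 5) (nat_lit 263) (nat_lit 3) (nat_lit 278) (nat_lit 3) (nat_lit 366) (nat_lit 366) (nat_lit 288))))))) (XT.nd (nat_lit 936) (nat_lit 6004) (nat_lit 0) (XT.nd (nat_lit 468) (nat_lit 1520) (nat_lit 0) (XT.nd (nat_lit 234) (nat_lit 988) (nat_lit 0) (XT.nd (nat_lit 78) (nat_lit 0) (nat_lit 76) (XT.lf (nat_lit 76) (nat_lit 2577769203) (nat_lit 0) (nat_lit 9213227674) (nat_lit 1216) (nat_lit 3241452350)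 (nat_lit 264) (nat_lit 5) (nat_lit 263) (nat_lit 5) (nat_lit 279) (nat_lit 5) (nat_lit 367) (nat_lit 366) (nat_lit 287)) (XT.nd (nat_lit 78) (nat_lit 0) (nat_lit 0) (XT.lf (nat_lit 0) (nat_lit 12829124189) (nat_lit 1140) (nat_lit 338029695) (nat_lit 1216) (nat_lit 2227976362) (nat_lit 264) (nat_lit 5) (nat_lit 279) (nat_lit 5) (nat_lit 280) (nat_lit 5) (nat_lit 368) (nat_lit 366) (nat_lit 286)) (XT.lf (nat_lit 76) (nat_lit 12517992342) (nat_lit 0) (nat_lit 1584058175) (nat_lit 1216) (nat_lit 1668421442) (nat_lit 265) (nat_lit 5) (nat_lit 264) (nat_lit 5) (nat_lit 280) (nat_lit 5) (nat_lit 369) (nat_lit 366) (nat_lit 285)))) (XT.nd (nat_lit 78) (nat_lit 1140) (nat_lit 0) (XT.lf (nat_lit 76) (nat_lit 9933284855) (nat_lit 0) (nat_lit 5676989947) (nat_lit 1216) (nat_lit 549169191) (nat_lit 266) (nat_lit 5) (nat_lit 265) (nat_lit 5) (nat_lit 281) (nat_lit 5) (nat_lit 370) (nat_lit 366) (nat_lit 284))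 (XT.nd (nat_lit 78) (nat_lit 0) (nat_lit 76) (XT.lf (nat_lit 0) (nat_lit 770670380) (nat_lit 1216) (nat_lit 9246202197) (nat_lit 1292) (nat_lit 6546118102) (nat_lit 250) (nat_lit 5) (nat_lit 266) (nat_lit 5) (nat_lit 267) (nat_lit 5) (nat_lit 371) (nat_lit 366) (nat_lit 283)) (XT.lf (nat_lit 0) (nat_lit 2308653205) (nat_lit 1216) (nat_lit 12313872630) (nat_lit 1292) (nat_lit 2359131732) (nat_lit 251) (nat_lit 5) (nat_lit 267) (nat_lit 5) (nat_lit 268) (nat_lit 5) (nat_lit 372) (nat_lit 366) (nat_lit 282))))) (XT.nd (nat_lit 234) (nat_lit 1596) (nat_lit 0) (XT.nd (nat_lit 78) (nat_lit 0) (nat_lit 76) (XT.lf (nat_lit 76) (nat_lit 1969691007) (nat_lit 0) (nat_lit 2144331549) (nat_lit 1292) (nat_lit 13301531345) (nat_lit 252) (nat_lit 5) (nat_lit 251) (nat_lit 5) (nat_lit 268) (nat_lit 5) (nat_lit 373) (nat_lit 366) (nat_lit 281)) (XT.nd (nat_lit 78) (nat_lit 0) (nat_lit 76) (XT.lf (nat_lit 0) (nat_lit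 6218440294) (nat_lit 1216) (nat_lit 768424944) (nat_lit 1292) (nat_lit 10878026626) (nat_lit 252) (nat_lit 5) (nat_lit 268) (nat_lit 5) (nat_lit 269) (nat_lit 5) (nat_lit 374) (nat_lit 366) (nat_lit 280)) (XT.lf (nat_lit 0) (nat_lit 8630280036) (nat_lit 1216) (nat_lit 3499721241) (nat_lit 1292) (nat_lit 6200639140) (nat_lit 253) (nat_lit 5) (nat_lit 269) (nat_lit 5) (nat_lit 270) (nat_lit 5) (nat_lit 375) (nat_lit 366) (nat_lit 279)))) (XT.nd (nat_lit 78) (nat_lit 1824) (nat_lit 0) (XT.lf (nat_lit 0) (nat_lit 11351330581) (nat_lit 1216) (nat_lit 6263278101) (nat_lit 76) (nat_lit 1199418413) (nat_lit 254) (nat_lit 5) (nat_lit 270) (nat_lit 5) (nat_lit 255) (nat_lit 5) (nat_lit 376) (nat_lit 366) (nat_lit 278)) (XT.nd (nat_lit 78) (nat_lit 608) (nat_lit 0) (XT.lf (nat_lit 0) (nat_lit 10214209173) (nat_lit 1216) (nat_lit 4229741054) (nat_lit 1292) (nat_lit 4870576204) (nat_lit 238) (nat_lit 5) (nat_lit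 254) (nat_lit 5) (nat_lit 255) (nat_lit 5) (nat_lit 377) (nat_lit 366) (nat_lit 277)) (XT.lf (nat_lit 0) (nat_lit 7847588096) (nat_lit 608) (nat_lit 10057989048) (nat_lit 684) (nat_lit 1928050701) (nat_lit 230) (nat_lit 5) (nat_lit 238) (nat_lit 5) (nat_lit 239) (nat_lit 5) (nat_lit 378) (nat_lit 366) (nat_lit 276)))))) (XT.nd (nat_lit 468) (nat_lit 3116) (nat_lit 0) (XT.nd (nat_lit 234) (nat_lit 1064) (nat_lit 0) (XT.nd (nat_lit 78) (nat_lit 1140) (nat_lit 0) (XT.lf (nat_lit 0) (nat_lit 1349204597) (nat_lit 684) (nat_lit 14922583281) (nat_lit 76) (nat_lit 4100261122) (nat_lit 221) (nat_lit 5) (nat_lit 230) (nat_lit 5) (nat_lit 222) (nat_lit 5) (nat_lit 379) (nat_lit 366) (nat_lit 275)) (XT.nd (nat_lit 78) (nat_lit 532) (nat_lit 0) (XT.lf (nat_lit 0) (nat_lit 2990959451) (nat_lit 608) (nat_lit 1995514971) (nat_lit 684) (nat_lit 15943270697) (nat_lit 213) (nat_lit 5) (nat_lit 221) (nat_lit 5)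 (nat_lit 222) (nat_lit 5) (nat_lit 380) (nat_lit 366) (nat_lit 274)) (XT.lf (nat_lit 0) (nat_lit 465182299) (nat_lit 532) (nat_lit 8606467740) (nat_lit 608) (nat_lit 12435701781) (nat_lit 206) (nat_lit 5) (nat_lit 213) (nat_lit 5) (nat_lit 214) (nat_lit 5) (nat_lit 381) (nat_lit 366) (nat_lit 273)))) (XT.nd (nat_lit 78) (nat_lit 1064) (nat_lit 0) (XT.lf (nat_lit 0) (nat_lit 13611147217) (nat_lit 608) (nat_lit 2046017663) (nat_lit 76) (nat_lit 6449178803) (nat_lit 206) (nat_lit 5) (nat_lit 214) (nat_lit 5) (nat_lit 207) (nat_lit 5) (nat_lit 382) (nat_lit 366) (nat_lit 272)) (XT.nd (nat_lit 78) (nat_lit 532) (nat_lit 0) (XT.lf (nat_lit 0) (nat_lit 18149367576) (nat_lit 532) (nat_lit 472651632) (nat_lit 608) (nat_lit 4105940322) (nat_lit 199) (nat_lit 5) (nat_lit 206) (nat_lit 5) (nat_lit 207) (nat_lit 5) (nat_lit 383) (nat_lit 366) (nat_lit 271)) (XT.lf (nat_lit 0) (nat_lit 805105971) (nat_lit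 532) (nat_lit 7213338721) (nat_lit 76) (nat_lit 15352708246) (nat_lit 192) (nat_lit 5) (nat_lit 199) (nat_lit 5) (nat_lit 193) (nat_lit 5) (nat_lit 384) (nat_lit 366) (nat_lit 270))))) (XT.nd (nat_lit 234) (nat_lit 1672) (nat_lit 0) (XT.nd (nat_lit 78) (nat_lit 912) (nat_lit 0) (XT.lf (nat_lit 0) (nat_lit 6128821108) (nat_lit 608) (nat_lit 9924081130) (nat_lit 76) (nat_lit 7984828808) (nat_lit 185) (nat_lit 5) (nat_lit 193) (nat_lit 5) (nat_lit 186) (nat_lit 5) (nat_lit 385) (nat_lit 366) (nat_lit 269)) (XT.nd (nat_lit 78) (nat_lit 456) (nat_lit 0) (XT.lf (nat_lit 0) (nat_lit 11976075024) (nat_lit 532) (nat_lit 12672383584) (nat_lit 76) (nat_lit 81464221) (nat_lit 179) (nat_lit 5) (nat_lit 186) (nat_lit 5) (nat_lit 180) (nat_lit 5) (nat_lit 386) (nat_lit 366) (nat_lit 268)) (XT.lf (nat_lit 0) (nat_lit 9904696596) (nat_lit 456) (nat_lit 8556662414) (nat_lit 532) (nat_lit 6985000274) (nat_lit 173)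 (nat_lit 5) (nat_lit 179) (nat_lit 5) (nat_lit 180) (nat_lit 5) (nat_lit 387) (nat_lit 366) (nat_lit 267)))) (XT.nd (nat_lit 156) (nat_lit 760) (nat_lit 0) (XT.nd (nat_lit 78) (nat_lit 532) (nat_lit 0) (XT.lf (nat_lit 0) (nat_lit 7732768534) (nat_lit 380) (nat_lit 17810151745) (nat_lit 456) (nat_lit 647541752) (nat_lit 168) (nat_lit 5) (nat_lit 173) (nat_lit 5) (nat_lit 174) (nat_lit 5) (nat_lit 388) (nat_lit 366) (nat_lit 266)) (XT.lf (nat_lit 0) (nat_lit 5472636512) (nat_lit 456) (nat_lit 703628133) (nat_lit 532) (nat_lit 20785176866) (nat_lit 161) (nat_lit 5) (nat_lit 167) (nat_lit 5) (nat_lit 168) (nat_lit 5) (nat_lit 389) (nat_lit 366) (nat_lit 265))) (XT.nd (nat_lit 78) (nat_lit 380) (nat_lit 0) (XT.lf (nat_lit 0) (nat_lit 3088814037) (nat_lit 380) (nat_lit 10613268275) (nat_lit 456) (nat_lit 14057473200) (nat_lit 156) (nat_lit 5) (nat_lit 161) (nat_lit 5) (nat_lit 162) (nat_lit 5) (nat_lit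 390) (nat_lit 366) (nat_lit 264)) (XT.lf (nat_lit 0) (nat_lit 670400205) (nat_lit 380) (nat_lit 21227671493) (nat_lit 456) (nat_lit 6690691169) (nat_lit 151) (nat_lit 5) (nat_lit 156) (nat_lit 5) (nat_lit 157) (nat_lit 5) (nat_lit 391) (nat_lit 366) (nat_lit 263))))))))
noncomputable def xc92 : XT := (XT.nd (nat_lit 1872) (nat_lit 2204) (nat_lit 0) (XT.nd (nat_lit 936) (nat_lit 2356) (nat_lit 0) (XT.nd (nat_lit 468) (nat_lit 1824) (nat_lit 0) (XT.nd (nat_lit 234) (nat_lit 1064) (nat_lit 0) (XT.nd (nat_lit 78) (nat_lit 760) (nat_lit 0) (XT.lf (nat_lit 0) (nat_lit 1375036756) (nat_lit 456) (nat_lit 1794050177) (nat_lit 76) (nat_lit 26279516612) (nat_lit 150) (nat_lit 5) (nat_lit 156) (nat_lit 5) (nat_lit 151) (nat_lit 5) (nat_lit 392) (nat_lit 366) (nat_lit 262)) (XT.nd (nat_lit 78) (nat_lit 380) (nat_lit 0) (XT.lf (nat_lit 0) (nat_lit 10100389288) (nat_lit 456) (nat_lit 4435585373) (nat_lit 76)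 (nat_lit 15801636494) (nat_lit 145) (nat_lit 5) (nat_lit 151) (nat_lit 5) (nat_lit 146) (nat_lit 5) (nat_lit 393) (nat_lit 366) (nat_lit 261)) (XT.lf (nat_lit 0) (nat_lit 19577997859) (nat_lit 456) (nat_lit 7133878582) (nat_lit 76) (nat_lit 4549716471) (nat_lit 140) (nat_lit 5) (nat_lit 146) (nat_lit 5) (nat_lit 141) (nat_lit 5) (nat_lit 394) (nat_lit 366) (nat_lit 260)))) (XT.nd (nat_lit 78) (nat_lit 760) (nat_lit 0) (XT.lf (nat_lit 0) (nat_lit 22252915485) (nat_lit 304) (nat_lit 7672048626) (nat_lit 380) (nat_lit 2294948585) (nat_lit 136) (nat_lit 5) (nat_lit 140) (nat_lit 5) (nat_lit 141) (nat_lit 5) (nat_lit 395) (nat_lit 366) (nat_lit 259)) (XT.nd (nat_lit 78) (nat_lit 304) (nat_lit 0) (XT.lf (nat_lit 0) (nat_lit 7796046724) (nat_lit 456) (nat_lit 12995668779) (nat_lit 76) (nat_lit 12420839922) (nat_lit 130) (nat_lit 5) (nat_lit 136) (nat_lit 5) (nat_lit 131) (nat_lit 5) (nat_lit 396) (nat_lit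 366) (nat_lit 258)) (XT.lf (nat_lit 0) (nat_lit 18102901692) (nat_lit 304) (nat_lit 586095516) (nat_lit 380) (nat_lit 15554808227) (nat_lit 126) (nat_lit 5) (nat_lit 130) (nat_lit 5) (nat_lit 131) (nat_lit 5) (nat_lit 397) (nat_lit 366) (nat_lit 257))))) (XT.nd (nat_lit 234) (nat_lit 836) (nat_lit 0) (XT.nd (nat_lit 78) (nat_lit 684) (nat_lit 0) (XT.lf (nat_lit 0) (nat_lit 15798970905) (nat_lit 304) (nat_lit 14802582596) (nat_lit 380) (nat_lit 4710818428) (nat_lit 122) (nat_lit 5) (nat_lit 126) (nat_lit 5) (nat_lit 127) (nat_lit 5) (nat_lit 398) (nat_lit 366) (nat_lit 256)) (XT.nd (nat_lit 78) (nat_lit 304) (nat_lit 0) (XT.lf (nat_lit 0) (nat_lit 6901011695) (nat_lit 380) (nat_lit 23067880134) (nat_lit 76) (nat_lit 6452875370) (nat_lit 117) (nat_lit 5) (nat_lit 122) (nat_lit 5) (nat_lit 118) (nat_lit 5) (nat_lit 399) (nat_lit 366) (nat_lit 255)) (XT.lf (nat_lit 0) (nat_lit 10686642876) (nat_lit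 304) (nat_lit 8755488704) (nat_lit 380) (nat_lit 18129720050) (nat_lit 113) (nat_lit 5) (nat_lit 117) (nat_lit 5) (nat_lit 118) (nat_lit 5) (nat_lit 400) (nat_lit 366) (nat_lit 254)))) (XT.nd (nat_lit 78) (nat_lit 608) (nat_lit 0) (XT.lf (nat_lit 0) (nat_lit 7844933953) (nat_lit 228) (nat_lit 25201054763) (nat_lit 304) (nat_lit 5720383418) (nat_lit 110) (nat_lit 5) (nat_lit 113) (nat_lit 5) (nat_lit 114) (nat_lit 5) (nat_lit 401) (nat_lit 366) (nat_lit 253)) (XT.nd (nat_lit 78) (nat_lit 228) (nat_lit 0) (XT.lf (nat_lit 0) (nat_lit 4778718547) (nat_lit 304) (nat_lit 2792606647) (nat_lit 380) (nat_lit 32435051561) (nat_lit 105) (nat_lit 5) (nat_lit 109) (nat_lit 5) (nat_lit 110) (nat_lit 5) (nat_lit 402) (nat_lit 366) (nat_lit 252)) (XT.lf (nat_lit 0) (nat_lit 1363544472) (nat_lit 228) (nat_lit 20571758368) (nat_lit 304) (nat_lit 19355601964) (nat_lit 102) (nat_lit 5) (nat_lit 105) (nat_lit 5)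 (nat_lit 106) (nat_lit 5) (nat_lit 403) (nat_lit 366) (nat_lit 251)))))) (XT.nd (nat_lit 468) (nat_lit 1064) (nat_lit 0) (XT.nd (nat_lit 234) (nat_lit 760) (nat_lit 0) (XT.nd (nat_lit 78) (nat_lit 532) (nat_lit 0) (XT.lf (nat_lit 0) (nat_lit 37428912239) (nat_lit 304) (nat_lit 2179745955) (nat_lit 76) (nat_lit 3018659995) (nat_lit 102) (nat_lit 5) (nat_lit 106) (nat_lit 5) (nat_lit 103) (nat_lit 5) (nat_lit 404) (nat_lit 366) (nat_lit 250)) (XT.nd (nat_lit 78) (nat_lit 228) (nat_lit 0) (XT.lf (nat_lit 0) (nat_lit 10047943111) (nat_lit 304) (nat_lit 6136696650) (nat_lit 76) (nat_lit 27826028874) (nat_lit 98) (nat_lit 5) (nat_lit 102) (nat_lit 5) (nat_lit 99) (nat_lit 5) (nat_lit 405) (nat_lit 366) (nat_lit 249)) (XT.lf (nat_lit 0) (nat_lit 26387222169) (nat_lit 304) (nat_lit 10402636377) (nat_lit 76) (nat_lit 8658641960) (nat_lit 95) (nat_lit 5) (nat_lit 99) (nat_lit 5) (nat_lit 96) (nat_lit 5)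 (nat_lit 406) (nat_lit 366) (nat_lit 248)))) (XT.nd (nat_lit 78) (nat_lit 532) (nat_lit 0) (XT.lf (nat_lit 0) (nat_lit 31905249108) (nat_lit 228) (nat_lit 12164134693) (nat_lit 304) (nat_lit 2873064225) (nat_lit 92) (nat_lit 5) (nat_lit 95) (nat_lit 5) (nat_lit 96) (nat_lit 5) (nat_lit 407) (nat_lit 366) (nat_lit 247)) (XT.nd (nat_lit 78) (nat_lit 228) (nat_lit 0) (XT.lf (nat_lit 0) (nat_lit 14359456408) (nat_lit 304) (nat_lit 20188877404) (nat_lit 76) (nat_lit 13943371875) (nat_lit 88) (nat_lit 5) (nat_lit 92) (nat_lit 5) (nat_lit 89) (nat_lit 5) (nat_lit 408) (nat_lit 366) (nat_lit 246)) (XT.lf (nat_lit 0) (nat_lit 24319128021) (nat_lit 228) (nat_lit 8580940102) (nat_lit 304) (nat_lit 17202329608) (nat_lit 85) (nat_lit 5) (nat_lit 88) (nat_lit 5) (nat_lit 89) (nat_lit 5) (nat_lit 409) (nat_lit 366) (nat_lit 245))))) (XT.nd (nat_lit 234) (nat_lit 456) (nat_lit 0) (XT.nd (nat_lit 78) (nat_lit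 380) (nat_lit 0) (XT.lf (nat_lit 0) (nat_lit 1141817469) (nat_lit 228) (nat_lit 31906551217) (nat_lit 76) (nat_lit 18727723433) (nat_lit 82) (nat_lit 5) (nat_lit 85) (nat_lit 5) (nat_lit 83) (nat_lit 5) (nat_lit 410) (nat_lit 366) (nat_lit 244)) (XT.nd (nat_lit 78) (nat_lit 152) (nat_lit 0) (XT.lf (nat_lit 0) (nat_lit 14832816722) (nat_lit 228) (nat_lit 5707947102) (nat_lit 304) (nat_lit 32972798173) (nat_lit 79) (nat_lit 5) (nat_lit 82) (nat_lit 5) (nat_lit 83) (nat_lit 5) (nat_lit 411) (nat_lit 366) (nat_lit 243)) (XT.lf (nat_lit 0) (nat_lit 9191009617) (nat_lit 152) (nat_lit 32352788203) (nat_lit 228) (nat_lit 13775084529) (nat_lit 77) (nat_lit 5) (nat_lit 79) (nat_lit 5) (nat_lit 80) (nat_lit 5) (nat_lit 412) (nat_lit 366) (nat_lit 242)))) (XT.nd (nat_lit 78) (nat_lit 152) (nat_lit 0) (XT.lf (nat_lit 0) (nat_lit 2985846201) (nat_lit 228) (nat_lit 3753720765) (nat_lit 304) (nat_lit 50458614334)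 (nat_lit 73) (nat_lit 5) (nat_lit 76) (nat_lit 5) (nat_lit 77) (nat_lit 5) (nat_lit 413) (nat_lit 366) (nat_lit 241)) (XT.nd (nat_lit 78) (nat_lit 152) (nat_lit 0) (XT.lf (nat_lit 0) (nat_lit 28723160743) (nat_lit 304) (nat_lit 4045797962) (nat_lit 76) (nat_lit 26376552944) (nat_lit 73) (nat_lit 5) (nat_lit 77) (nat_lit 5) (nat_lit 74) (nat_lit 5) (nat_lit 414) (nat_lit 366) (nat_lit 240)) (XT.lf (nat_lit 0) (nat_lit 49547092365) (nat_lit 152) (nat_lit 2766653491) (nat_lit 228) (nat_lit 8861229308) (nat_lit 71) (nat_lit 5) (nat_lit 73) (nat_lit 5) (nat_lit 74) (nat_lit 5) (nat_lit 415) (nat_lit 366) (nat_lit 239))))))) (XT.nd (nat_lit 936) (nat_lit 456) (nat_lit 0) (XT.nd (nat_lit 468) (nat_lit 760) (nat_lit 0) (XT.nd (nat_lit 234) (nat_lit 456) (nat_lit 0) (XT.nd (nat_lit 78) (nat_lit 304) (nat_lit 0) (XT.lf (nat_lit 0) (nat_lit 14243202944) (nat_lit 228) (nat_lit 20269536631) (nat_lit 76) (nat_lit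 28767176580) (nat_lit 68) (nat_lit 5) (nat_lit 71) (nat_lit 5) (nat_lit 69) (nat_lit 5) (nat_lit 416) (nat_lit 366) (nat_lit 238)) (XT.nd (nat_lit 78) (nat_lit 152) (nat_lit 0) (XT.lf (nat_lit 0) (nat_lit 35704637030) (nat_lit 152) (nat_lit 3102622082) (nat_lit 228) (nat_lit 26665583933) (nat_lit 66) (nat_lit 5) (nat_lit 68) (nat_lit 5) (nat_lit 69) (nat_lit 5) (nat_lit 417) (nat_lit 366) (nat_lit 237)) (XT.lf (nat_lit 0) (nat_lit 27366276776) (nat_lit 152) (nat_lit 37988318149) (nat_lit 228) (nat_lit 2398169884) (nat_lit 64) (nat_lit 5) (nat_lit 66) (nat_lit 5) (nat_lit 67) (nat_lit 5) (nat_lit 418) (nat_lit 366) (nat_lit 236)))) (XT.nd (nat_lit 78) (nat_lit 228) (nat_lit 0) (XT.lf (nat_lit 0) (nat_lit 17925396856) (nat_lit 152) (nat_lit 5214103755) (nat_lit 228) (nat_lit 46985306979) (nat_lit 61) (nat_lit 5) (nat_lit 63) (nat_lit 5) (nat_lit 64) (nat_lit 5) (nat_lit 419) (nat_lit 366) (nat_lit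 235)) (XT.nd (nat_lit 78) (nat_lit 76) (nat_lit 0) (XT.lf (nat_lit 0) (nat_lit 7215603535) (nat_lit 152) (nat_lit 43453563990) (nat_lit 228) (nat_lit 21922632070) (nat_lit 59) (nat_lit 5) (nat_lit 61) (nat_lit 5) (nat_lit 62) (nat_lit 5) (nat_lit 420) (nat_lit 366) (nat_lit 234)) (XT.lf (nat_lit 0) (nat_lit 4897216830) (nat_lit 228) (nat_lit 4583892927) (nat_lit 76) (nat_lit 65682072222) (nat_lit 58) (nat_lit 5) (nat_lit 61) (nat_lit 5) (nat_lit 59) (nat_lit 5) (nat_lit 421) (nat_lit 366) (nat_lit 233))))) (XT.nd (nat_lit 234) (nat_lit 304) (nat_lit 0) (XT.nd (nat_lit 78) (nat_lit 304) (nat_lit 0) (XT.lf (nat_lit 0) (nat_lit 33441850124) (nat_lit 228) (nat_lit 17907020790) (nat_lit 76) (nat_lit 26482635974) (nat_lit 56) (nat_lit 5) (nat_lit 59) (nat_lit 5) (nat_lit 57) (nat_lit 5) (nat_lit 422) (nat_lit 366) (nat_lit 232)) (XT.nd (nat_lit 78) (nat_lit 152) (nat_lit 0) (XT.lf (nat_lit 0) (nat_lit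 47952553951) (nat_lit 152) (nat_lit 16060319731) (nat_lit 228) (nat_lit 16602400220) (nat_lit 54) (nat_lit 5) (nat_lit 56) (nat_lit 5) (nat_lit 57) (nat_lit 5) (nat_lit 423) (nat_lit 366) (nat_lit 231)) (XT.lf (nat_lit 0) (nat_lit 13049576770) (nat_lit 152) (nat_lit 49239492098) (nat_lit 76) (nat_lit 21223913062) (nat_lit 52) (nat_lit 5) (nat_lit 54) (nat_lit 5) (nat_lit 53) (nat_lit 5) (nat_lit 424) (nat_lit 366) (nat_lit 230)))) (XT.nd (nat_lit 78) (nat_lit 152) (nat_lit 0) (XT.lf (nat_lit 0) (nat_lit 18716872181) (nat_lit 152) (nat_lit 25803775926) (nat_lit 228) (nat_lit 42009600631) (nat_lit 50) (nat_lit 5) (nat_lit 52) (nat_lit 5) (nat_lit 53) (nat_lit 5) (nat_lit 425) (nat_lit 366) (nat_lit 229)) (XT.nd (nat_lit 78) (nat_lit 76) (nat_lit 0) (XT.lf (nat_lit 0) (nat_lit 1308355775) (nat_lit 76) (nat_lit 76896800954) (nat_lit 152) (nat_lit 11474026165) (nat_lit 49) (nat_lit 5) (nat_lit 50)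 (nat_lit 5) (nat_lit 51) (nat_lit 4) (nat_lit 426) (nat_lit 366) (nat_lit 228)) (XT.lf (nat_lit 0) (nat_lit 21147307039) (nat_lit 152) (nat_lit 18135237603) (nat_lit 76) (nat_lit 53668260395) (nat_lit 48) (nat_lit 5) (nat_lit 50) (nat_lit 5) (nat_lit 49) (nat_lit 5) (nat_lit 427) (nat_lit 366) (nat_lit 227)))))) (XT.nd (nat_lit 48516) (nat_lit 0) (nat_lit 15732) (XT.nd (nat_lit 234) (nat_lit 0) (nat_lit 0) (XT.nd (nat_lit 78) (nat_lit 304) (nat_lit 0) (XT.lf (nat_lit 0) (nat_lit 55712674181) (nat_lit 228) (nat_lit 39782461374) (nat_lit 76) (nat_lit 870957028) (nat_lit 46) (nat_lit 5) (nat_lit 49) (nat_lit 5) (nat_lit 47) (nat_lit 4) (nat_lit 428) (nat_lit 366) (nat_lit 226)) (XT.nd (nat_lit 78) (nat_lit 228) (nat_lit 0) (XT.lf (nat_lit 0) (nat_lit 35762310219) (nat_lit 76) (nat_lit 57168415096) (nat_lit 152) (nat_lit 6993687158) (nat_lit 45) (nat_lit 5) (nat_lit 46) (nat_lit 5) (nat_lit 47) (nat_lit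 4) (nat_lit 429) (nat_lit 366) (nat_lit 225)) (XT.lf (nat_lit 0) (nat_lit 12221281035) (nat_lit 152) (nat_lit 16101330494) (nat_lit 228) (nat_lit 75314058807) (nat_lit 42) (nat_lit 5) (nat_lit 44) (nat_lit 5) (nat_lit 45) (nat_lit 5) (nat_lit 430) (nat_lit 366) (nat_lit 224)))) (XT.nd (nat_lit 48126) (nat_lit 0) (nat_lit 16796) (XT.lf (nat_lit 0) (nat_lit 66183995508) (nat_lit 228) (nat_lit 14094741386) (nat_lit 76) (nat_lit 27226009930) (nat_lit 42) (nat_lit 5) (nat_lit 45) (nat_lit 5) (nat_lit 43) (nat_lit 4) (nat_lit 431) (nat_lit 366) (nat_lit 223)) (XT.nd (nat_lit 78) (nat_lit 0) (nat_lit 0) (XT.lf (nat_lit 0) (nat_lit 3117059298) (nat_lit 0) (nat_lit 3117059298) (nat_lit 1140) (nat_lit 1459479775) (nat_lit 263) (nat_lit 5) (nat_lit 263) (nat_lit 3) (nat_lit 278) (nat_lit 3) (nat_lit 367) (nat_lit 367) (nat_lit 286)) (XT.lf (nat_lit 76) (nat_lit 3219570975) (nat_lit 0) (nat_lit 10100967246)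 (nat_lit 1216) (nat_lit 2434920878) (nat_lit 264) (nat_lit 5) (nat_lit 263) (nat_lit 5) (nat_lit 279) (nat_lit 5) (nat_lit 368) (nat_lit 367) (nat_lit 285))))) (XT.nd (nat_lit 234) (nat_lit 0) (nat_lit 76) (XT.nd (nat_lit 78) (nat_lit 1140) (nat_lit 0) (XT.lf (nat_lit 76) (nat_lit 167995822) (nat_lit 0) (nat_lit 14195519611) (nat_lit 1216) (nat_lit 1774190089) (nat_lit 265) (nat_lit 5) (nat_lit 264) (nat_lit 5) (nat_lit 280) (nat_lit 5) (nat_lit 369) (nat_lit 367) (nat_lit 284)) (XT.nd (nat_lit 78) (nat_lit 1140) (nat_lit 0) (XT.lf (nat_lit 76) (nat_lit 13648645129) (nat_lit 0) (nat_lit 2012236249) (nat_lit 1216) (nat_lit 872127867) (nat_lit 265) (nat_lit 5) (nat_lit 264) (nat_lit 5) (nat_lit 280) (nat_lit 5) (nat_lit 370) (nat_lit 367) (nat_lit 283)) (XT.lf (nat_lit 0) (nat_lit 257908745) (nat_lit 1216) (nat_lit 5996408636) (nat_lit 1292) (nat_lit 10688220326) (nat_lit 249) (nat_lit 5) (nat_lit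 265) (nat_lit 5) (nat_lit 266) (nat_lit 5) (nat_lit 371) (nat_lit 367) (nat_lit 282)))) (XT.nd (nat_lit 156) (nat_lit 0) (nat_lit 76) (XT.nd (nat_lit 78) (nat_lit 0) (nat_lit 76) (XT.lf (nat_lit 0) (nat_lit 1595699364) (nat_lit 1216) (nat_lit 9161760044) (nat_lit 1292) (nat_lit 6609756185) (nat_lit 250) (nat_lit 5) (nat_lit 266) (nat_lit 5) (nat_lit 267) (nat_lit 5) (nat_lit 372) (nat_lit 367) (nat_lit 281)) (XT.lf (nat_lit 0) (nat_lit 3176089957) (nat_lit 1216) (nat_lit 12373403767) (nat_lit 1292) (nat_lit 2258372546) (nat_lit 251) (nat_lit 5) (nat_lit 267) (nat_lit 5) (nat_lit 268) (nat_lit 5) (nat_lit 373) (nat_lit 367) (nat_lit 280))) (XT.nd (nat_lit 78) (nat_lit 0) (nat_lit 76) (XT.lf (nat_lit 76) (nat_lit 2608395765) (nat_lit 0) (nat_lit 2432715218) (nat_lit 1292) (nat_lit 13223279895) (nat_lit 252) (nat_lit 5) (nat_lit 251) (nat_lit 5) (nat_lit 268) (nat_lit 5) (nat_lit 374) (nat_lit 367)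 (nat_lit 279)) (XT.lf (nat_lit 0) (nat_lit 7214739272) (nat_lit 1216) (nat_lit 269796273) (nat_lit 1292) (nat_lit 11252754749) (nat_lit 252) (nat_lit 5) (nat_lit 268) (nat_lit 5) (nat_lit 269) (nat_lit 5) (nat_lit 375) (nat_lit 367) (nat_lit 278))))))))
noncomputable def xc93 : XT := (XT.nd (nat_lit 1872) (nat_lit 5168) (nat_lit 0) (XT.nd (nat_lit 936) (nat_lit 4332) (nat_lit 0) (XT.nd (nat_lit 468) (nat_lit 2584) (nat_lit 0) (XT.nd (nat_lit 234) (nat_lit 1900) (nat_lit 0) (XT.nd (nat_lit 78) (nat_lit 1140) (nat_lit 0) (XT.lf (nat_lit 0) (nat_lit 9718240207) (nat_lit 1216) (nat_lit 3131739624) (nat_lit 1292) (nat_lit 6377227931) (nat_lit 253) (nat_lit 5) (nat_lit 269) (nat_lit 5) (nat_lit 270) (nat_lit 5) (nat_lit 376) (nat_lit 367) (nat_lit 277)) (XT.nd (nat_lit 78) (nat_lit 1216) (nat_lit 0) (XT.lf (nat_lit 0) (nat_lit 12548164979) (nat_lit 1216) (nat_lit 6028883632) (nat_lit 76) (nat_lit 1158543431)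 (nat_lit 254) (nat_lit 5) (nat_lit 270) (nat_lit 5) (nat_lit 255) (nat_lit 5) (nat_lit 377) (nat_lit 367) (nat_lit 276)) (XT.lf (nat_lit 0) (nat_lit 11256782355) (nat_lit 1216) (nat_lit 4513780706) (nat_lit 1292) (nat_lit 4491311163) (nat_lit 238) (nat_lit 5) (nat_lit 254) (nat_lit 5) (nat_lit 255) (nat_lit 5) (nat_lit 378) (nat_lit 367) (nat_lit 275)))) (XT.nd (nat_lit 78) (nat_lit 1292) (nat_lit 0) (XT.lf (nat_lit 0) (nat_lit 8775113626) (nat_lit 608) (nat_lit 10605855958) (nat_lit 684) (nat_lit 1426701895) (nat_lit 230) (nat_lit 5) (nat_lit 238) (nat_lit 5) (nat_lit 239) (nat_lit 5) (nat_lit 379) (nat_lit 367) (nat_lit 274)) (XT.nd (nat_lit 78) (nat_lit 608) (nat_lit 0) (XT.lf (nat_lit 0) (nat_lit 1979643791) (nat_lit 684) (nat_lit 15119933061) (nat_lit 76) (nat_lit 4273968539) (nat_lit 221) (nat_lit 5) (nat_lit 230) (nat_lit 5) (nat_lit 222) (nat_lit 5) (nat_lit 380) (nat_lit 367) (nat_lit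 273)) (XT.lf (nat_lit 0) (nat_lit 3673556157) (nat_lit 608) (nat_lit 2103536419) (nat_lit 684) (nat_lit 16182694594) (nat_lit 213) (nat_lit 5) (nat_lit 221) (nat_lit 5) (nat_lit 222) (nat_lit 5) (nat_lit 381) (nat_lit 367) (nat_lit 272))))) (XT.nd (nat_lit 234) (nat_lit 1520) (nat_lit 0) (XT.nd (nat_lit 78) (nat_lit 532) (nat_lit 0) (XT.lf (nat_lit 0) (nat_lit 1022261210) (nat_lit 532) (nat_lit 9023545753) (nat_lit 608) (nat_lit 12521098670) (nat_lit 206) (nat_lit 5) (nat_lit 213) (nat_lit 5) (nat_lit 214) (nat_lit 5) (nat_lit 382) (nat_lit 367) (nat_lit 271)) (XT.nd (nat_lit 78) (nat_lit 532) (nat_lit 0) (XT.lf (nat_lit 0) (nat_lit 14787611001) (nat_lit 608) (nat_lit 1624979260) (nat_lit 76) (nat_lit 6784006227) (nat_lit 206) (nat_lit 5) (nat_lit 214) (nat_lit 5) (nat_lit 207) (nat_lit 5) (nat_lit 383) (nat_lit 367) (nat_lit 270)) (XT.lf (nat_lit 0) (nat_lit 19565173826) (nat_lit 532) (nat_lit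 465124629) (nat_lit 608) (nat_lit 3819565431) (nat_lit 199) (nat_lit 5) (nat_lit 206) (nat_lit 5) (nat_lit 207) (nat_lit 5) (nat_lit 384) (nat_lit 367) (nat_lit 269)))) (XT.nd (nat_lit 78) (nat_lit 988) (nat_lit 0) (XT.lf (nat_lit 0) (nat_lit 1309698118) (nat_lit 532) (nat_lit 7057045913) (nat_lit 76) (nat_lit 16158871610) (nat_lit 192) (nat_lit 5) (nat_lit 199) (nat_lit 5) (nat_lit 193) (nat_lit 5) (nat_lit 385) (nat_lit 367) (nat_lit 268)) (XT.nd (nat_lit 78) (nat_lit 456) (nat_lit 0) (XT.lf (nat_lit 0) (nat_lit 6882844169) (nat_lit 608) (nat_lit 9905104975) (nat_lit 76) (nat_lit 8438084006) (nat_lit 185) (nat_lit 5) (nat_lit 193) (nat_lit 5) (nat_lit 186) (nat_lit 5) (nat_lit 386) (nat_lit 367) (nat_lit 267)) (XT.lf (nat_lit 0) (nat_lit 13006624104) (nat_lit 532) (nat_lit 12793174690) (nat_lit 76) (nat_lit 153518305) (nat_lit 179) (nat_lit 5) (nat_lit 186) (nat_lit 5) (nat_lit 180) (nat_lit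 5) (nat_lit 387) (nat_lit 367) (nat_lit 266)))))) (XT.nd (nat_lit 468) (nat_lit 2128) (nat_lit 0) (XT.nd (nat_lit 234) (nat_lit 836) (nat_lit 0) (XT.nd (nat_lit 78) (nat_lit 912) (nat_lit 0) (XT.lf (nat_lit 0) (nat_lit 10898059386) (nat_lit 456) (nat_lit 8902341913) (nat_lit 532) (nat_lit 6905654327) (nat_lit 173) (nat_lit 5) (nat_lit 179) (nat_lit 5) (nat_lit 180) (nat_lit 5) (nat_lit 388) (nat_lit 367) (nat_lit 265)) (XT.nd (nat_lit 78) (nat_lit 532) (nat_lit 0) (XT.lf (nat_lit 0) (nat_lit 8614748935) (nat_lit 380) (nat_lit 18606997030) (nat_lit 456) (nat_lit 266053165) (nat_lit 168) (nat_lit 5) (nat_lit 173) (nat_lit 5) (nat_lit 174) (nat_lit 5) (nat_lit 389) (nat_lit 367) (nat_lit 264)) (XT.lf (nat_lit 0) (nat_lit 6235383835) (nat_lit 456) (nat_lit 640862067) (nat_lit 532) (nat_lit 21421407251) (nat_lit 161) (nat_lit 5) (nat_lit 167) (nat_lit 5) (nat_lit 168) (nat_lit 5) (nat_lit 390) (nat_lit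 367) (nat_lit 263)))) (XT.nd (nat_lit 78) (nat_lit 456) (nat_lit 0) (XT.lf (nat_lit 0) (nat_lit 3728955753) (nat_lit 380) (nat_lit 11036337201) (nat_lit 456) (nat_lit 14370777716) (nat_lit 156) (nat_lit 5) (nat_lit 161) (nat_lit 5) (nat_lit 162) (nat_lit 5) (nat_lit 391) (nat_lit 367) (nat_lit 262)) (XT.nd (nat_lit 78) (nat_lit 76) (nat_lit 0) (XT.lf (nat_lit 0) (nat_lit 1185828134) (nat_lit 380) (nat_lit 22172866010) (nat_lit 456) (nat_lit 6648421565) (nat_lit 151) (nat_lit 5) (nat_lit 156) (nat_lit 5) (nat_lit 157) (nat_lit 5) (nat_lit 392) (nat_lit 367) (nat_lit 261)) (XT.lf (nat_lit 0) (nat_lit 1795647028) (nat_lit 456) (nat_lit 1417684926) (nat_lit 76) (nat_lit 27697040851) (nat_lit 150) (nat_lit 5) (nat_lit 156) (nat_lit 5) (nat_lit 151) (nat_lit 5) (nat_lit 393) (nat_lit 367) (nat_lit 260))))) (XT.nd (nat_lit 234) (nat_lit 1064) (nat_lit 0) (XT.nd (nat_lit 78) (nat_lit 684) (nat_lit 0)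 (XT.lf (nat_lit 0) (nat_lit 10945952386) (nat_lit 456) (nat_lit 4195461473) (nat_lit 76) (nat_lit 16702761388) (nat_lit 145) (nat_lit 5) (nat_lit 151) (nat_lit 5) (nat_lit 146) (nat_lit 5) (nat_lit 394) (nat_lit 367) (nat_lit 259)) (XT.nd (nat_lit 78) (nat_lit 304) (nat_lit 0) (XT.lf (nat_lit 0) (nat_lit 20886691576) (nat_lit 456) (nat_lit 7033108846) (nat_lit 76) (nat_lit 4894882935) (nat_lit 140) (nat_lit 5) (nat_lit 146) (nat_lit 5) (nat_lit 141) (nat_lit 5) (nat_lit 395) (nat_lit 367) (nat_lit 258)) (XT.lf (nat_lit 0) (nat_lit 23809911821) (nat_lit 304) (nat_lit 7929661222) (nat_lit 380) (nat_lit 2081693622) (nat_lit 136) (nat_lit 5) (nat_lit 140) (nat_lit 5) (nat_lit 141) (nat_lit 5) (nat_lit 396) (nat_lit 367) (nat_lit 257)))) (XT.nd (nat_lit 78) (nat_lit 608) (nat_lit 0) (XT.lf (nat_lit 0) (nat_lit 8497570915) (nat_lit 456) (nat_lit 13199362088) (nat_lit 76) (nat_lit 13166814539) (nat_lit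 130) (nat_lit 5) (nat_lit 136) (nat_lit 5) (nat_lit 131) (nat_lit 5) (nat_lit 397) (nat_lit 367) (nat_lit 256)) (XT.nd (nat_lit 78) (nat_lit 304) (nat_lit 0) (XT.lf (nat_lit 0) (nat_lit 19441349824) (nat_lit 304) (nat_lit 483140376) (nat_lit 380) (nat_lit 16022394215) (nat_lit 126) (nat_lit 5) (nat_lit 130) (nat_lit 5) (nat_lit 131) (nat_lit 5) (nat_lit 398) (nat_lit 367) (nat_lit 255)) (XT.lf (nat_lit 0) (nat_lit 17017417151) (nat_lit 304) (nat_lit 15406251573) (nat_lit 380) (nat_lit 4645484486) (nat_lit 122) (nat_lit 5) (nat_lit 126) (nat_lit 5) (nat_lit 127) (nat_lit 5) (nat_lit 399) (nat_lit 367) (nat_lit 254))))))) (XT.nd (nat_lit 936) (nat_lit 2128) (nat_lit 0) (XT.nd (nat_lit 468) (nat_lit 1520) (nat_lit 0) (XT.nd (nat_lit 234) (nat_lit 608) (nat_lit 0) (XT.nd (nat_lit 78) (nat_lit 532) (nat_lit 0) (XT.lf (nat_lit 0) (nat_lit 7532391328) (nat_lit 380) (nat_lit 23791980424) (nat_lit 76)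 (nat_lit 6909823488) (nat_lit 117) (nat_lit 5) (nat_lit 122) (nat_lit 5) (nat_lit 118) (nat_lit 5) (nat_lit 400) (nat_lit 367) (nat_lit 253)) (XT.nd (nat_lit 78) (nat_lit 228) (nat_lit 0) (XT.lf (nat_lit 0) (nat_lit 11637963118) (nat_lit 304) (nat_lit 9052977717) (nat_lit 380) (nat_lit 18751135203) (nat_lit 113) (nat_lit 5) (nat_lit 117) (nat_lit 5) (nat_lit 118) (nat_lit 5) (nat_lit 401) (nat_lit 367) (nat_lit 252)) (XT.lf (nat_lit 0) (nat_lit 8649034315) (nat_lit 228) (nat_lit 26318023478) (nat_lit 304) (nat_lit 5729505960) (nat_lit 110) (nat_lit 5) (nat_lit 113) (nat_lit 5) (nat_lit 114) (nat_lit 5) (nat_lit 402) (nat_lit 367) (nat_lit 251)))) (XT.nd (nat_lit 78) (nat_lit 228) (nat_lit 0) (XT.lf (nat_lit 0) (nat_lit 5423011063) (nat_lit 304) (nat_lit 2789342049) (nat_lit 380) (nat_lit 33786409549) (nat_lit 105) (nat_lit 5) (nat_lit 109) (nat_lit 5) (nat_lit 110) (nat_lit 5) (nat_lit 403) (nat_lit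 367) (nat_lit 250)) (XT.nd (nat_lit 78) (nat_lit 0) (nat_lit 0) (XT.lf (nat_lit 0) (nat_lit 1831830136) (nat_lit 228) (nat_lit 21455355601) (nat_lit 304) (nat_lit 20060554504) (nat_lit 102) (nat_lit 5) (nat_lit 105) (nat_lit 5) (nat_lit 106) (nat_lit 5) (nat_lit 404) (nat_lit 367) (nat_lit 249)) (XT.lf (nat_lit 0) (nat_lit 39544654512) (nat_lit 304) (nat_lit 1901662297) (nat_lit 76) (nat_lit 3304984799) (nat_lit 102) (nat_lit 5) (nat_lit 106) (nat_lit 5) (nat_lit 103) (nat_lit 5) (nat_lit 405) (nat_lit 367) (nat_lit 248))))) (XT.nd (nat_lit 234) (nat_lit 760) (nat_lit 0) (XT.nd (nat_lit 78) (nat_lit 456) (nat_lit 0) (XT.lf (nat_lit 0) (nat_lit 10789007286) (nat_lit 304) (nat_lit 6062756345) (nat_lit 76) (nat_lit 29352228874) (nat_lit 98) (nat_lit 5) (nat_lit 102) (nat_lit 5) (nat_lit 99) (nat_lit 5) (nat_lit 406) (nat_lit 367) (nat_lit 247)) (XT.nd (nat_lit 78) (nat_lit 228) (nat_lit 0) (XT.lf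 (nat_lit 0) (nat_lit 27938776707) (nat_lit 304) (nat_lit 10547271174) (nat_lit 76) (nat_lit 9227864657) (nat_lit 95) (nat_lit 5) (nat_lit 99) (nat_lit 5) (nat_lit 96) (nat_lit 5) (nat_lit 407) (nat_lit 367) (nat_lit 246)) (XT.lf (nat_lit 0) (nat_lit 33865245039) (nat_lit 228) (nat_lit 12632250593) (nat_lit 304) (nat_lit 2785290572) (nat_lit 92) (nat_lit 5) (nat_lit 95) (nat_lit 5) (nat_lit 96) (nat_lit 5) (nat_lit 408) (nat_lit 367) (nat_lit 245)))) (XT.nd (nat_lit 78) (nat_lit 456) (nat_lit 0) (XT.lf (nat_lit 0) (nat_lit 15298320585) (nat_lit 304) (nat_lit 20834323364) (nat_lit 76) (nat_lit 14776978724) (nat_lit 88) (nat_lit 5) (nat_lit 92) (nat_lit 5) (nat_lit 89) (nat_lit 5) (nat_lit 409) (nat_lit 367) (nat_lit 244)) (XT.nd (nat_lit 78) (nat_lit 228) (nat_lit 0) (XT.lf (nat_lit 0) (nat_lit 25888648405) (nat_lit 228) (nat_lit 8870194518) (nat_lit 304) (nat_lit 17842221974) (nat_lit 85) (nat_lit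 5) (nat_lit 88) (nat_lit 5) (nat_lit 89) (nat_lit 5) (nat_lit 410) (nat_lit 367) (nat_lit 243)) (XT.lf (nat_lit 0) (nat_lit 1409227430) (nat_lit 228) (nat_lit 33149264775) (nat_lit 76) (nat_lit 19800058350) (nat_lit 82) (nat_lit 5) (nat_lit 85) (nat_lit 5) (nat_lit 83) (nat_lit 5) (nat_lit 411) (nat_lit 367) (nat_lit 242)))))) (XT.nd (nat_lit 468) (nat_lit 1064) (nat_lit 0) (XT.nd (nat_lit 234) (nat_lit 380) (nat_lit 0) (XT.nd (nat_lit 78) (nat_lit 456) (nat_lit 0) (XT.lf (nat_lit 0) (nat_lit 15916963951) (nat_lit 228) (nat_lit 5854434338) (nat_lit 304) (nat_lit 34411699065) (nat_lit 79) (nat_lit 5) (nat_lit 82) (nat_lit 5) (nat_lit 83) (nat_lit 5) (nat_lit 412) (nat_lit 367) (nat_lit 241)) (XT.nd (nat_lit 78) (nat_lit 304) (nat_lit 0) (XT.lf (nat_lit 0) (nat_lit 9987918262) (nat_lit 152) (nat_lit 33831485260) (nat_lit 228) (nat_lit 14259437277) (nat_lit 77) (nat_lit 5) (nat_lit 79) (nat_lit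 5) (nat_lit 80) (nat_lit 5) (nat_lit 413) (nat_lit 367) (nat_lit 240)) (XT.lf (nat_lit 0) (nat_lit 3466731951) (nat_lit 228) (nat_lit 3803870242) (nat_lit 304) (nat_lit 52781635773) (nat_lit 73) (nat_lit 5) (nat_lit 76) (nat_lit 5) (nat_lit 77) (nat_lit 5) (nat_lit 414) (nat_lit 367) (nat_lit 239)))) (XT.nd (nat_lit 78) (nat_lit 380) (nat_lit 0) (XT.lf (nat_lit 0) (nat_lit 30345393985) (nat_lit 304) (nat_lit 3927970000) (nat_lit 76) (nat_lit 27823811760) (nat_lit 73) (nat_lit 5) (nat_lit 77) (nat_lit 5) (nat_lit 74) (nat_lit 5) (nat_lit 415) (nat_lit 367) (nat_lit 238)) (XT.nd (nat_lit 78) (nat_lit 228) (nat_lit 0) (XT.lf (nat_lit 0) (nat_lit 52335388729) (nat_lit 152) (nat_lit 2774247862) (nat_lit 228) (nat_lit 9118653389) (nat_lit 71) (nat_lit 5) (nat_lit 73) (nat_lit 5) (nat_lit 74) (nat_lit 5) (nat_lit 416) (nat_lit 367) (nat_lit 237)) (XT.lf (nat_lit 0) (nat_lit 15132890806) (nat_lit 228)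 (nat_lit 20973368442) (nat_lit 76) (nat_lit 30332301144) (nat_lit 68) (nat_lit 5) (nat_lit 71) (nat_lit 5) (nat_lit 69) (nat_lit 5) (nat_lit 417) (nat_lit 367) (nat_lit 236))))) (XT.nd (nat_lit 234) (nat_lit 532) (nat_lit 0) (XT.nd (nat_lit 78) (nat_lit 380) (nat_lit 0) (XT.lf (nat_lit 0) (nat_lit 37790637990) (nat_lit 152) (nat_lit 3128949267) (nat_lit 228) (nat_lit 27821714469) (nat_lit 66) (nat_lit 5) (nat_lit 68) (nat_lit 5) (nat_lit 69) (nat_lit 5) (nat_lit 418) (nat_lit 367) (nat_lit 235)) (XT.nd (nat_lit 78) (nat_lit 228) (nat_lit 0) (XT.lf (nat_lit 0) (nat_lit 29030570475) (nat_lit 152) (nat_lit 39759554891) (nat_lit 228) (nat_lit 2345220316) (nat_lit 64) (nat_lit 5) (nat_lit 66) (nat_lit 5) (nat_lit 67) (nat_lit 5) (nat_lit 419) (nat_lit 367) (nat_lit 234)) (XT.lf (nat_lit 0) (nat_lit 19112460768) (nat_lit 152) (nat_lit 5348224430) (nat_lit 228) (nat_lit 49165414896) (nat_lit 61) (nat_lit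 5) (nat_lit 63) (nat_lit 5) (nat_lit 64) (nat_lit 5) (nat_lit 420) (nat_lit 367) (nat_lit 233)))) (XT.nd (nat_lit 156) (nat_lit 304) (nat_lit 0) (XT.nd (nat_lit 78) (nat_lit 76) (nat_lit 0) (XT.lf (nat_lit 0) (nat_lit 7862466344) (nat_lit 152) (nat_lit 45500458477) (nat_lit 228) (nat_lit 22853635226) (nat_lit 59) (nat_lit 5) (nat_lit 61) (nat_lit 5) (nat_lit 62) (nat_lit 5) (nat_lit 421) (nat_lit 367) (nat_lit 232)) (XT.lf (nat_lit 0) (nat_lit 5296274049) (nat_lit 228) (nat_lit 4537540102) (nat_lit 76) (nat_lit 69082882024) (nat_lit 58) (nat_lit 5) (nat_lit 61) (nat_lit 5) (nat_lit 59) (nat_lit 5) (nat_lit 422) (nat_lit 367) (nat_lit 231))) (XT.nd (nat_lit 78) (nat_lit 152) (nat_lit 0) (XT.lf (nat_lit 0) (nat_lit 35264505555) (nat_lit 228) (nat_lit 18531358397) (nat_lit 76) (nat_lit 27922683286) (nat_lit 56) (nat_lit 5) (nat_lit 59) (nat_lit 5) (nat_lit 57) (nat_lit 5) (nat_lit 423) (nat_lit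 367) (nat_lit 230)) (XT.lf (nat_lit 0) (nat_lit 50613426535) (nat_lit 152) (nat_lit 16746014564) (nat_lit 228) (nat_lit 17282201543) (nat_lit 54) (nat_lit 5) (nat_lit 56) (nat_lit 5) (nat_lit 57) (nat_lit 5) (nat_lit 424) (nat_lit 367) (nat_lit 229))))))))
noncomputable def xc94 : XT := (XT.nd (nat_lit 49998) (nat_lit 0) (nat_lit 3800) (XT.nd (nat_lit 49062) (nat_lit 0) (nat_lit 12464) (XT.nd (nat_lit 468) (nat_lit 228) (nat_lit 0) (XT.nd (nat_lit 234) (nat_lit 304) (nat_lit 0) (XT.nd (nat_lit 78) (nat_lit 228) (nat_lit 0) (XT.lf (nat_lit 0) (nat_lit 13846020457) (nat_lit 152) (nat_lit 51439713011) (nat_lit 76) (nat_lit 22398562668) (nat_lit 52) (nat_lit 5) (nat_lit 54) (nat_lit 5) (nat_lit 53) (nat_lit 5) (nat_lit 425) (nat_lit 367) (nat_lit 228)) (XT.nd (nat_lit 78) (nat_lit 76) (nat_lit 0) (XT.lf (nat_lit 0) (nat_lit 19906966364) (nat_lit 152) (nat_lit 26979267541) (nat_lit 228) (nat_lit 43966325483)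 (nat_lit 50) (nat_lit 5) (nat_lit 52) (nat_lit 5) (nat_lit 53) (nat_lit 5) (nat_lit 426) (nat_lit 367) (nat_lit 227)) (XT.lf (nat_lit 0) (nat_lit 1623746504) (nat_lit 76) (nat_lit 80628028984) (nat_lit 152) (nat_lit 11907261261) (nat_lit 49) (nat_lit 5) (nat_lit 50) (nat_lit 5) (nat_lit 51) (nat_lit 4) (nat_lit 427) (nat_lit 367) (nat_lit 226)))) (XT.nd (nat_lit 78) (nat_lit 228) (nat_lit 0) (XT.lf (nat_lit 0) (nat_lit 22335839258) (nat_lit 152) (nat_lit 18801306166) (nat_lit 76) (nat_lit 56457251486) (nat_lit 48) (nat_lit 5) (nat_lit 50) (nat_lit 5) (nat_lit 49) (nat_lit 5) (nat_lit 428) (nat_lit 367) (nat_lit 225)) (XT.nd (nat_lit 78) (nat_lit 76) (nat_lit 0) (XT.lf (nat_lit 0) (nat_lit 58626501037) (nat_lit 228) (nat_lit 41534987722) (nat_lit 76) (nat_lit 1019049923) (nat_lit 46) (nat_lit 5) (nat_lit 49) (nat_lit 5) (nat_lit 47) (nat_lit 4) (nat_lit 429) (nat_lit 367) (nat_lit 224)) (XT.lf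 (nat_lit 0) (nat_lit 37780240454) (nat_lit 76) (nat_lit 59921318959) (nat_lit 152) (nat_lit 7215332621) (nat_lit 45) (nat_lit 5) (nat_lit 46) (nat_lit 5) (nat_lit 47) (nat_lit 4) (nat_lit 430) (nat_lit 367) (nat_lit 223))))) (XT.nd (nat_lit 48360) (nat_lit 0) (nat_lit 15732) (XT.nd (nat_lit 48204) (nat_lit 0) (nat_lit 16796) (XT.lf (nat_lit 0) (nat_lit 13058010536) (nat_lit 152) (nat_lit 16802463084) (nat_lit 228) (nat_lit 78954367071) (nat_lit 42) (nat_lit 5) (nat_lit 44) (nat_lit 5) (nat_lit 45) (nat_lit 5) (nat_lit 431) (nat_lit 367) (nat_lit 222)) (XT.nd (nat_lit 78) (nat_lit 0) (nat_lit 0) (XT.lf (nat_lit 0) (nat_lit 3496621063) (nat_lit 0) (nat_lit 3496621063) (nat_lit 1140) (nat_lit 1071417044) (nat_lit 263) (nat_lit 5) (nat_lit 263) (nat_lit 3) (nat_lit 278) (nat_lit 3) (nat_lit 368) (nat_lit 368) (nat_lit 284)) (XT.lf (nat_lit 76) (nat_lit 3845777019) (nat_lit 0) (nat_lit 10993388115)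 (nat_lit 1216) (nat_lit 1678114459) (nat_lit 264) (nat_lit 5) (nat_lit 263) (nat_lit 5) (nat_lit 279) (nat_lit 5) (nat_lit 369) (nat_lit 368) (nat_lit 283)))) (XT.nd (nat_lit 78) (nat_lit 1140) (nat_lit 0) (XT.lf (nat_lit 76) (nat_lit 657112918) (nat_lit 0) (nat_lit 15237652892) (nat_lit 1216) (nat_lit 1025076120) (nat_lit 265) (nat_lit 5) (nat_lit 264) (nat_lit 5) (nat_lit 280) (nat_lit 5) (nat_lit 370) (nat_lit 368) (nat_lit 282)) (XT.nd (nat_lit 78) (nat_lit 1140) (nat_lit 0) (XT.lf (nat_lit 76) (nat_lit 14788903390) (nat_lit 0) (nat_lit 2429378824) (nat_lit 1216) (nat_lit 117807142) (nat_lit 265) (nat_lit 5) (nat_lit 264) (nat_lit 5) (nat_lit 280) (nat_lit 5) (nat_lit 371) (nat_lit 368) (nat_lit 281)) (XT.lf (nat_lit 0) (nat_lit 1017547324) (nat_lit 1216) (nat_lit 5810500668) (nat_lit 1292) (nat_lit 10938900254) (nat_lit 249) (nat_lit 5) (nat_lit 265) (nat_lit 5) (nat_lit 266) (nat_lit 5)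 (nat_lit 372) (nat_lit 368) (nat_lit 280)))))) (XT.nd (nat_lit 468) (nat_lit 3344) (nat_lit 0) (XT.nd (nat_lit 234) (nat_lit 0) (nat_lit 152) (XT.nd (nat_lit 78) (nat_lit 0) (nat_lit 76) (XT.lf (nat_lit 0) (nat_lit 2388858904) (nat_lit 1216) (nat_lit 9123927627) (nat_lit 1292) (nat_lit 6701089506) (nat_lit 250) (nat_lit 5) (nat_lit 266) (nat_lit 5) (nat_lit 267) (nat_lit 5) (nat_lit 373) (nat_lit 368) (nat_lit 279)) (XT.nd (nat_lit 78) (nat_lit 0) (nat_lit 0) (XT.lf (nat_lit 0) (nat_lit 4016984333) (nat_lit 1216) (nat_lit 12487618178) (nat_lit 1292) (nat_lit 2172909520) (nat_lit 251) (nat_lit 5) (nat_lit 267) (nat_lit 5) (nat_lit 268) (nat_lit 5) (nat_lit 374) (nat_lit 368) (nat_lit 278)) (XT.lf (nat_lit 76) (nat_lit 3228811207) (nat_lit 0) (nat_lit 2718674871) (nat_lit 1292) (nat_lit 13210223467) (nat_lit 252) (nat_lit 5) (nat_lit 251) (nat_lit 5) (nat_lit 268) (nat_lit 5) (nat_lit 375) (nat_lit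 368) (nat_lit 277)))) (XT.nd (nat_lit 78) (nat_lit 0) (nat_lit 76) (XT.lf (nat_lit 76) (nat_lit 207890716) (nat_lit 0) (nat_lit 7991241000) (nat_lit 1292) (nat_lit 11456055055) (nat_lit 253) (nat_lit 5) (nat_lit 252) (nat_lit 5) (nat_lit 269) (nat_lit 5) (nat_lit 376) (nat_lit 368) (nat_lit 276)) (XT.nd (nat_lit 78) (nat_lit 0) (nat_lit 76) (XT.lf (nat_lit 0) (nat_lit 10799568245) (nat_lit 1216) (nat_lit 2795838913) (nat_lit 1292) (nat_lit 6575052443) (nat_lit 253) (nat_lit 5) (nat_lit 269) (nat_lit 5) (nat_lit 270) (nat_lit 5) (nat_lit 377) (nat_lit 368) (nat_lit 275)) (XT.lf (nat_lit 0) (nat_lit 13746337735) (nat_lit 1216) (nat_lit 5833676227) (nat_lit 76) (nat_lit 1125000395) (nat_lit 254) (nat_lit 5) (nat_lit 270) (nat_lit 5) (nat_lit 255) (nat_lit 5) (nat_lit 378) (nat_lit 368) (nat_lit 274))))) (XT.nd (nat_lit 234) (nat_lit 1140) (nat_lit 0) (XT.nd (nat_lit 78) (nat_lit 1292) (nat_lit 0)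 (XT.lf (nat_lit 0) (nat_lit 12302036641) (nat_lit 1216) (nat_lit 4805277088) (nat_lit 1292) (nat_lit 4150984340) (nat_lit 238) (nat_lit 5) (nat_lit 254) (nat_lit 5) (nat_lit 255) (nat_lit 5) (nat_lit 379) (nat_lit 368) (nat_lit 273)) (XT.nd (nat_lit 78) (nat_lit 684) (nat_lit 0) (XT.lf (nat_lit 0) (nat_lit 9699262617) (nat_lit 608) (nat_lit 11176935566) (nat_lit 684) (nat_lit 955858902) (nat_lit 230) (nat_lit 5) (nat_lit 238) (nat_lit 5) (nat_lit 239) (nat_lit 5) (nat_lit 380) (nat_lit 368) (nat_lit 272)) (XT.lf (nat_lit 0) (nat_lit 2589264498) (nat_lit 684) (nat_lit 15378170635) (nat_lit 76) (nat_lit 4459271827) (nat_lit 221) (nat_lit 5) (nat_lit 230) (nat_lit 5) (nat_lit 222) (nat_lit 5) (nat_lit 381) (nat_lit 368) (nat_lit 271)))) (XT.nd (nat_lit 78) (nat_lit 532) (nat_lit 0) (XT.lf (nat_lit 0) (nat_lit 4340724879) (nat_lit 608) (nat_lit 2216192333) (nat_lit 684) (nat_lit 16485943031) (nat_lit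 213) (nat_lit 5) (nat_lit 221) (nat_lit 5) (nat_lit 222) (nat_lit 5) (nat_lit 382) (nat_lit 368) (nat_lit 270)) (XT.nd (nat_lit 78) (nat_lit 0) (nat_lit 0) (XT.lf (nat_lit 0) (nat_lit 1557564561) (nat_lit 532) (nat_lit 9462709096) (nat_lit 608) (nat_lit 12660633695) (nat_lit 206) (nat_lit 5) (nat_lit 213) (nat_lit 5) (nat_lit 214) (nat_lit 5) (nat_lit 383) (nat_lit 368) (nat_lit 269)) (XT.lf (nat_lit 0) (nat_lit 15976793296) (nat_lit 608) (nat_lit 1231544063) (nat_lit 76) (nat_lit 7134425119) (nat_lit 206) (nat_lit 5) (nat_lit 214) (nat_lit 5) (nat_lit 207) (nat_lit 5) (nat_lit 384) (nat_lit 368) (nat_lit 268))))))) (XT.nd (nat_lit 936) (nat_lit 3648) (nat_lit 0) (XT.nd (nat_lit 468) (nat_lit 2052) (nat_lit 0) (XT.nd (nat_lit 234) (nat_lit 1368) (nat_lit 0) (XT.nd (nat_lit 78) (nat_lit 1064) (nat_lit 0) (XT.lf (nat_lit 0) (nat_lit 21004509951) (nat_lit 532) (nat_lit 460118199) (nat_lit 608) (nat_lit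 3564582790) (nat_lit 199) (nat_lit 5) (nat_lit 206) (nat_lit 5) (nat_lit 207) (nat_lit 5) (nat_lit 385) (nat_lit 368) (nat_lit 267)) (XT.nd (nat_lit 78) (nat_lit 532) (nat_lit 0) (XT.lf (nat_lit 0) (nat_lit 1796350234) (nat_lit 532) (nat_lit 6941000482) (nat_lit 76) (nat_lit 17001761178) (nat_lit 192) (nat_lit 5) (nat_lit 199) (nat_lit 5) (nat_lit 193) (nat_lit 5) (nat_lit 386) (nat_lit 368) (nat_lit 266)) (XT.lf (nat_lit 0) (nat_lit 7632956450) (nat_lit 608) (nat_lit 9933076585) (nat_lit 76) (nat_lit 8908980277) (nat_lit 185) (nat_lit 5) (nat_lit 193) (nat_lit 5) (nat_lit 186) (nat_lit 5) (nat_lit 387) (nat_lit 368) (nat_lit 265)))) (XT.nd (nat_lit 78) (nat_lit 912) (nat_lit 0) (XT.lf (nat_lit 0) (nat_lit 14048561049) (nat_lit 532) (nat_lit 12967683245) (nat_lit 76) (nat_lit 222854875) (nat_lit 179) (nat_lit 5) (nat_lit 186) (nat_lit 5) (nat_lit 180) (nat_lit 5) (nat_lit 388) (nat_lit 368) (nat_lit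 264)) (XT.nd (nat_lit 78) (nat_lit 456) (nat_lit 0) (XT.lf (nat_lit 0) (nat_lit 11894779098) (nat_lit 456) (nat_lit 9272943252) (nat_lit 532) (nat_lit 6862187872) (nat_lit 173) (nat_lit 5) (nat_lit 179) (nat_lit 5) (nat_lit 180) (nat_lit 5) (nat_lit 389) (nat_lit 368) (nat_lit 263)) (XT.lf (nat_lit 0) (nat_lit 94158601) (nat_lit 456) (nat_lit 19357282993) (nat_lit 76) (nat_lit 9399666736) (nat_lit 167) (nat_lit 5) (nat_lit 173) (nat_lit 5) (nat_lit 168) (nat_lit 5) (nat_lit 390) (nat_lit 368) (nat_lit 262))))) (XT.nd (nat_lit 234) (nat_lit 836) (nat_lit 0) (XT.nd (nat_lit 78) (nat_lit 760) (nat_lit 0) (XT.lf (nat_lit 0) (nat_lit 6990795201) (nat_lit 456) (nat_lit 584063925) (nat_lit 532) (nat_lit 22126918922) (nat_lit 161) (nat_lit 5) (nat_lit 167) (nat_lit 5) (nat_lit 168) (nat_lit 5) (nat_lit 391) (nat_lit 368) (nat_lit 261)) (XT.nd (nat_lit 78) (nat_lit 380) (nat_lit 0) (XT.lf (nat_lit 0)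 (nat_lit 4355948678) (nat_lit 380) (nat_lit 11490562690) (nat_lit 456) (nat_lit 14735965904) (nat_lit 156) (nat_lit 5) (nat_lit 161) (nat_lit 5) (nat_lit 162) (nat_lit 5) (nat_lit 392) (nat_lit 368) (nat_lit 260)) (XT.lf (nat_lit 0) (nat_lit 1682224229) (nat_lit 380) (nat_lit 23176122410) (nat_lit 456) (nat_lit 6639070161) (nat_lit 151) (nat_lit 5) (nat_lit 156) (nat_lit 5) (nat_lit 157) (nat_lit 5) (nat_lit 393) (nat_lit 368) (nat_lit 259)))) (XT.nd (nat_lit 78) (nat_lit 760) (nat_lit 0) (XT.lf (nat_lit 0) (nat_lit 2204575351) (nat_lit 456) (nat_lit 1065831976) (nat_lit 76) (nat_lit 29175814353) (nat_lit 150) (nat_lit 5) (nat_lit 156) (nat_lit 5) (nat_lit 151) (nat_lit 5) (nat_lit 394) (nat_lit 368) (nat_lit 258)) (XT.nd (nat_lit 78) (nat_lit 380) (nat_lit 0) (XT.lf (nat_lit 0) (nat_lit 11802133121) (nat_lit 456) (nat_lit 3986274757) (nat_lit 76) (nat_lit 17638618794) (nat_lit 145) (nat_lit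 5) (nat_lit 151) (nat_lit 5) (nat_lit 146) (nat_lit 5) (nat_lit 395) (nat_lit 368) (nat_lit 257)) (XT.lf (nat_lit 0) (nat_lit 22230158875) (nat_lit 456) (nat_lit 6969831258) (nat_lit 76) (nat_lit 5246366890) (nat_lit 140) (nat_lit 5) (nat_lit 146) (nat_lit 5) (nat_lit 141) (nat_lit 5) (nat_lit 396) (nat_lit 368) (nat_lit 256)))))) (XT.nd (nat_lit 468) (nat_lit 1596) (nat_lit 0) (XT.nd (nat_lit 234) (nat_lit 988) (nat_lit 0) (XT.nd (nat_lit 78) (nat_lit 760) (nat_lit 0) (XT.lf (nat_lit 0) (nat_lit 25403446469) (nat_lit 304) (nat_lit 8211867789) (nat_lit 380) (nat_lit 1888270465) (nat_lit 136) (nat_lit 5) (nat_lit 140) (nat_lit 5) (nat_lit 141) (nat_lit 5) (nat_lit 397) (nat_lit 368) (nat_lit 255)) (XT.nd (nat_lit 78) (nat_lit 304) (nat_lit 0) (XT.lf (nat_lit 0) (nat_lit 9205190373) (nat_lit 456) (nat_lit 13454713294) (nat_lit 76) (nat_lit 13938472836) (nat_lit 130) (nat_lit 5) (nat_lit 136) (nat_lit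 5) (nat_lit 131) (nat_lit 5) (nat_lit 398) (nat_lit 368) (nat_lit 254)) (XT.lf (nat_lit 0) (nat_lit 20806435951) (nat_lit 304) (nat_lit 387333753) (nat_lit 380) (nat_lit 16542194720) (nat_lit 126) (nat_lit 5) (nat_lit 130) (nat_lit 5) (nat_lit 131) (nat_lit 5) (nat_lit 399) (nat_lit 368) (nat_lit 253)))) (XT.nd (nat_lit 78) (nat_lit 684) (nat_lit 0) (XT.lf (nat_lit 0) (nat_lit 18256948056) (nat_lit 304) (nat_lit 16052790770) (nat_lit 380) (nat_lit 4604856339) (nat_lit 122) (nat_lit 5) (nat_lit 126) (nat_lit 5) (nat_lit 127) (nat_lit 5) (nat_lit 400) (nat_lit 368) (nat_lit 252)) (XT.nd (nat_lit 78) (nat_lit 304) (nat_lit 0) (XT.lf (nat_lit 0) (nat_lit 8168719781) (nat_lit 380) (nat_lit 24592197390) (nat_lit 76) (nat_lit 7377132667) (nat_lit 117) (nat_lit 5) (nat_lit 122) (nat_lit 5) (nat_lit 118) (nat_lit 5) (nat_lit 401) (nat_lit 368) (nat_lit 251)) (XT.lf (nat_lit 0) (nat_lit 12598081771) (nat_lit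 304) (nat_lit 9378383589) (nat_lit 380) (nat_lit 19430124300) (nat_lit 113) (nat_lit 5) (nat_lit 117) (nat_lit 5) (nat_lit 118) (nat_lit 5) (nat_lit 402) (nat_lit 368) (nat_lit 250))))) (XT.nd (nat_lit 234) (nat_lit 760) (nat_lit 0) (XT.nd (nat_lit 78) (nat_lit 608) (nat_lit 0) (XT.lf (nat_lit 0) (nat_lit 9455049446) (nat_lit 228) (nat_lit 27504143225) (nat_lit 304) (nat_lit 5764827853) (nat_lit 110) (nat_lit 5) (nat_lit 113) (nat_lit 5) (nat_lit 114) (nat_lit 5) (nat_lit 403) (nat_lit 368) (nat_lit 249)) (XT.nd (nat_lit 78) (nat_lit 228) (nat_lit 0) (XT.lf (nat_lit 0) (nat_lit 6061831991) (nat_lit 304) (nat_lit 2799199237) (nat_lit 380) (nat_lit 35230474161) (nat_lit 105) (nat_lit 5) (nat_lit 109) (nat_lit 5) (nat_lit 110) (nat_lit 5) (nat_lit 404) (nat_lit 368) (nat_lit 248)) (XT.lf (nat_lit 0) (nat_lit 2286331793) (nat_lit 228) (nat_lit 22396612555) (nat_lit 304) (nat_lit 20825189887) (nat_lit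 102) (nat_lit 5) (nat_lit 105) (nat_lit 5) (nat_lit 106) (nat_lit 5) (nat_lit 405) (nat_lit 368) (nat_lit 247)))) (XT.nd (nat_lit 156) (nat_lit 456) (nat_lit 0) (XT.nd (nat_lit 78) (nat_lit 304) (nat_lit 0) (XT.lf (nat_lit 0) (nat_lit 41743471511) (nat_lit 304) (nat_lit 1645660644) (nat_lit 76) (nat_lit 3593038397) (nat_lit 102) (nat_lit 5) (nat_lit 106) (nat_lit 5) (nat_lit 103) (nat_lit 5) (nat_lit 406) (nat_lit 368) (nat_lit 246)) (XT.lf (nat_lit 0) (nat_lit 11544935672) (nat_lit 304) (nat_lit 6020519887) (nat_lit 76) (nat_lit 30942197285) (nat_lit 98) (nat_lit 5) (nat_lit 102) (nat_lit 5) (nat_lit 99) (nat_lit 5) (nat_lit 407) (nat_lit 368) (nat_lit 245))) (XT.nd (nat_lit 78) (nat_lit 228) (nat_lit 0) (XT.lf (nat_lit 0) (nat_lit 29546321827) (nat_lit 304) (nat_lit 10734047865) (nat_lit 76) (nat_lit 9812877480) (nat_lit 95) (nat_lit 5) (nat_lit 99) (nat_lit 5) (nat_lit 96) (nat_lit 5) (nat_lit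 408) (nat_lit 368) (nat_lit 244)) (XT.lf (nat_lit 0) (nat_lit 35889331305) (nat_lit 228) (nat_lit 13136796605) (nat_lit 304) (nat_lit 2714644112) (nat_lit 92) (nat_lit 5) (nat_lit 95) (nat_lit 5) (nat_lit 96) (nat_lit 5) (nat_lit 409) (nat_lit 368) (nat_lit 243))))))))
noncomputable def xc95 : XT := (XT.nd (nat_lit 50154) (nat_lit 0) (nat_lit 7600) (XT.nd (nat_lit 936) (nat_lit 1216) (nat_lit 0) (XT.nd (nat_lit 468) (nat_lit 912) (nat_lit 0) (XT.nd (nat_lit 234) (nat_lit 684) (nat_lit 0) (XT.nd (nat_lit 78) (nat_lit 456) (nat_lit 0) (XT.lf (nat_lit 0) (nat_lit 16263591586) (nat_lit 304) (nat_lit 21545882697) (nat_lit 76) (nat_lit 15639581180) (nat_lit 88) (nat_lit 5) (nat_lit 92) (nat_lit 5) (nat_lit 89) (nat_lit 5) (nat_lit 410) (nat_lit 368) (nat_lit 242)) (XT.nd (nat_lit 78) (nat_lit 228) (nat_lit 0) (XT.lf (nat_lit 0) (nat_lit 27503773781) (nat_lit 228) (nat_lit 9186908245) (nat_lit 304)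 (nat_lit 18534583309) (nat_lit 85) (nat_lit 5) (nat_lit 88) (nat_lit 5) (nat_lit 89) (nat_lit 5) (nat_lit 411) (nat_lit 368) (nat_lit 241)) (XT.lf (nat_lit 0) (nat_lit 1670454415) (nat_lit 228) (nat_lit 34486896718) (nat_lit 76) (nat_lit 20913370788) (nat_lit 82) (nat_lit 5) (nat_lit 85) (nat_lit 5) (nat_lit 83) (nat_lit 5) (nat_lit 412) (nat_lit 368) (nat_lit 240)))) (XT.nd (nat_lit 78) (nat_lit 456) (nat_lit 0) (XT.lf (nat_lit 0) (nat_lit 17023475544) (nat_lit 228) (nat_lit 6021160482) (nat_lit 304) (nat_lit 35942044548) (nat_lit 79) (nat_lit 5) (nat_lit 82) (nat_lit 5) (nat_lit 83) (nat_lit 5) (nat_lit 413) (nat_lit 368) (nat_lit 239)) (XT.nd (nat_lit 78) (nat_lit 304) (nat_lit 0) (XT.lf (nat_lit 0) (nat_lit 10793307975) (nat_lit 152) (nat_lit 35397034712) (nat_lit 228) (nat_lit 14787010974) (nat_lit 77) (nat_lit 5) (nat_lit 79) (nat_lit 5) (nat_lit 80) (nat_lit 5) (nat_lit 414) (nat_lit 368)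 (nat_lit 238)) (XT.lf (nat_lit 0) (nat_lit 3940833574) (nat_lit 228) (nat_lit 3869314039) (nat_lit 304) (nat_lit 55239393954) (nat_lit 73) (nat_lit 5) (nat_lit 76) (nat_lit 5) (nat_lit 77) (nat_lit 5) (nat_lit 415) (nat_lit 368) (nat_lit 237))))) (XT.nd (nat_lit 234) (nat_lit 532) (nat_lit 0) (XT.nd (nat_lit 78) (nat_lit 380) (nat_lit 0) (XT.lf (nat_lit 0) (nat_lit 32031439379) (nat_lit 304) (nat_lit 3834012164) (nat_lit 76) (nat_lit 29331493204) (nat_lit 73) (nat_lit 5) (nat_lit 77) (nat_lit 5) (nat_lit 74) (nat_lit 5) (nat_lit 416) (nat_lit 368) (nat_lit 236)) (XT.nd (nat_lit 78) (nat_lit 228) (nat_lit 0) (XT.lf (nat_lit 0) (nat_lit 55234191495) (nat_lit 152) (nat_lit 2794376760) (nat_lit 228) (nat_lit 9406207478) (nat_lit 71) (nat_lit 5) (nat_lit 73) (nat_lit 5) (nat_lit 74) (nat_lit 5) (nat_lit 417) (nat_lit 368) (nat_lit 235)) (XT.lf (nat_lit 0) (nat_lit 16050558216) (nat_lit 228) (nat_lit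 21741179702) (nat_lit 76) (nat_lit 31963896459) (nat_lit 68) (nat_lit 5) (nat_lit 71) (nat_lit 5) (nat_lit 69) (nat_lit 5) (nat_lit 418) (nat_lit 368) (nat_lit 234)))) (XT.nd (nat_lit 78) (nat_lit 380) (nat_lit 0) (XT.lf (nat_lit 0) (nat_lit 39952976337) (nat_lit 152) (nat_lit 3168567780) (nat_lit 228) (nat_lit 29052121134) (nat_lit 66) (nat_lit 5) (nat_lit 68) (nat_lit 5) (nat_lit 69) (nat_lit 5) (nat_lit 419) (nat_lit 368) (nat_lit 233)) (XT.nd (nat_lit 78) (nat_lit 228) (nat_lit 0) (XT.lf (nat_lit 0) (nat_lit 30750561456) (nat_lit 152) (nat_lit 41631270354) (nat_lit 228) (nat_lit 2305693973) (nat_lit 64) (nat_lit 5) (nat_lit 66) (nat_lit 5) (nat_lit 67) (nat_lit 5) (nat_lit 420) (nat_lit 368) (nat_lit 232)) (XT.lf (nat_lit 0) (nat_lit 20331842599) (nat_lit 152) (nat_lit 5500819767) (nat_lit 228) (nat_lit 51470254864) (nat_lit 61) (nat_lit 5) (nat_lit 63) (nat_lit 5) (nat_lit 64) (nat_lit 5)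 (nat_lit 421) (nat_lit 368) (nat_lit 231)))))) (XT.nd (nat_lit 468) (nat_lit 380) (nat_lit 0) (XT.nd (nat_lit 234) (nat_lit 456) (nat_lit 0) (XT.nd (nat_lit 78) (nat_lit 228) (nat_lit 0) (XT.lf (nat_lit 0) (nat_lit 8515075042) (nat_lit 152) (nat_lit 47661391865) (nat_lit 228) (nat_lit 23846540618) (nat_lit 59) (nat_lit 5) (nat_lit 61) (nat_lit 5) (nat_lit 62) (nat_lit 5) (nat_lit 422) (nat_lit 368) (nat_lit 230)) (XT.nd (nat_lit 78) (nat_lit 152) (nat_lit 0) (XT.lf (nat_lit 0) (nat_lit 5700948412) (nat_lit 228) (nat_lit 4514487428) (nat_lit 76) (nat_lit 72642882080) (nat_lit 58) (nat_lit 5) (nat_lit 61) (nat_lit 5) (nat_lit 59) (nat_lit 5) (nat_lit 423) (nat_lit 368) (nat_lit 229)) (XT.lf (nat_lit 0) (nat_lit 37164295844) (nat_lit 228) (nat_lit 19212109145) (nat_lit 76) (nat_lit 29423956238) (nat_lit 56) (nat_lit 5) (nat_lit 59) (nat_lit 5) (nat_lit 57) (nat_lit 5) (nat_lit 424) (nat_lit 368)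 (nat_lit 228)))) (XT.nd (nat_lit 78) (nat_lit 304) (nat_lit 0) (XT.lf (nat_lit 0) (nat_lit 53382868734) (nat_lit 152) (nat_lit 17476901548) (nat_lit 228) (nat_lit 18009968138) (nat_lit 54) (nat_lit 5) (nat_lit 56) (nat_lit 5) (nat_lit 57) (nat_lit 5) (nat_lit 425) (nat_lit 368) (nat_lit 227)) (XT.nd (nat_lit 78) (nat_lit 152) (nat_lit 0) (XT.lf (nat_lit 0) (nat_lit 14668901842) (nat_lit 152) (nat_lit 53774280348) (nat_lit 76) (nat_lit 23621396880) (nat_lit 52) (nat_lit 5) (nat_lit 54) (nat_lit 5) (nat_lit 53) (nat_lit 5) (nat_lit 426) (nat_lit 368) (nat_lit 226)) (XT.lf (nat_lit 0) (nat_lit 21132927448) (nat_lit 152) (nat_lit 28224197193) (nat_lit 228) (nat_lit 46034251573) (nat_lit 50) (nat_lit 5) (nat_lit 52) (nat_lit 5) (nat_lit 53) (nat_lit 5) (nat_lit 427) (nat_lit 368) (nat_lit 225))))) (XT.nd (nat_lit 234) (nat_lit 76) (nat_lit 0) (XT.nd (nat_lit 78) (nat_lit 228) (nat_lit 0) (XT.lf (nat_lit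 0) (nat_lit 1931666655) (nat_lit 76) (nat_lit 84556380984) (nat_lit 152) (nat_lit 12375217329) (nat_lit 49) (nat_lit 5) (nat_lit 50) (nat_lit 5) (nat_lit 51) (nat_lit 4) (nat_lit 428) (nat_lit 368) (nat_lit 224)) (XT.nd (nat_lit 78) (nat_lit 152) (nat_lit 0) (XT.lf (nat_lit 0) (nat_lit 23571603436) (nat_lit 152) (nat_lit 19523055541) (nat_lit 76) (nat_lit 59375876483) (nat_lit 48) (nat_lit 5) (nat_lit 50) (nat_lit 5) (nat_lit 49) (nat_lit 5) (nat_lit 429) (nat_lit 368) (nat_lit 223)) (XT.lf (nat_lit 0) (nat_lit 61674101053) (nat_lit 228) (nat_lit 43397136908) (nat_lit 76) (nat_lit 1164827856) (nat_lit 46) (nat_lit 5) (nat_lit 49) (nat_lit 5) (nat_lit 47) (nat_lit 4) (nat_lit 430) (nat_lit 368) (nat_lit 222)))) (XT.nd (nat_lit 48360) (nat_lit 0) (nat_lit 16568) (XT.nd (nat_lit 48282) (nat_lit 0) (nat_lit 16568) (XT.lf (nat_lit 0) (nat_lit 39877701205) (nat_lit 76) (nat_lit 62821677975) (nat_lit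 152) (nat_lit 7459964199) (nat_lit 45) (nat_lit 5) (nat_lit 46) (nat_lit 5) (nat_lit 47) (nat_lit 4) (nat_lit 431) (nat_lit 368) (nat_lit 221)) (XT.lf (nat_lit 0) (nat_lit 3874362592) (nat_lit 0) (nat_lit 3874362592) (nat_lit 1140) (nat_lit 706814001) (nat_lit 263) (nat_lit 5) (nat_lit 263) (nat_lit 3) (nat_lit 278) (nat_lit 3) (nat_lit 369) (nat_lit 369) (nat_lit 282))) (XT.nd (nat_lit 78) (nat_lit 0) (nat_lit 76) (XT.lf (nat_lit 76) (nat_lit 4460040921) (nat_lit 0) (nat_lit 11894415803) (nat_lit 1216) (nat_lit 965147200) (nat_lit 264) (nat_lit 5) (nat_lit 263) (nat_lit 5) (nat_lit 279) (nat_lit 5) (nat_lit 370) (nat_lit 369) (nat_lit 281)) (XT.lf (nat_lit 76) (nat_lit 1125993330) (nat_lit 0) (nat_lit 16300993406) (nat_lit 1216) (nat_lit 316399338) (nat_lit 265) (nat_lit 5) (nat_lit 264) (nat_lit 5) (nat_lit 280) (nat_lit 5) (nat_lit 371) (nat_lit 369) (nat_lit 280))))))) (XT.nd (nat_lit 936)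 (nat_lit 5168) (nat_lit 0) (XT.nd (nat_lit 468) (nat_lit 2660) (nat_lit 0) (XT.nd (nat_lit 234) (nat_lit 0) (nat_lit 228) (XT.nd (nat_lit 78) (nat_lit 0) (nat_lit 76) (XT.lf (nat_lit 0) (nat_lit 588336860) (nat_lit 1216) (nat_lit 2243672588) (nat_lit 1292) (nat_lit 15349332333) (nat_lit 248) (nat_lit 5) (nat_lit 264) (nat_lit 5) (nat_lit 265) (nat_lit 5) (nat_lit 372) (nat_lit 369) (nat_lit 279)) (XT.nd (nat_lit 78) (nat_lit 0) (nat_lit 76) (XT.lf (nat_lit 0) (nat_lit 1745742733) (nat_lit 1216) (nat_lit 5660455724) (nat_lit 1292) (nat_lit 11228492806) (nat_lit 249) (nat_lit 5) (nat_lit 265) (nat_lit 5) (nat_lit 266) (nat_lit 5) (nat_lit 373) (nat_lit 369) (nat_lit 278)) (XT.lf (nat_lit 0) (nat_lit 3155353615) (nat_lit 1216) (nat_lit 9130309569) (nat_lit 1292) (nat_lit 6819223812) (nat_lit 250) (nat_lit 5) (nat_lit 266) (nat_lit 5) (nat_lit 267) (nat_lit 5) (nat_lit 374) (nat_lit 369) (nat_lit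 277)))) (XT.nd (nat_lit 78) (nat_lit 0) (nat_lit 0) (XT.lf (nat_lit 0) (nat_lit 4836509177) (nat_lit 1216) (nat_lit 12654442826) (nat_lit 1292) (nat_lit 2101616989) (nat_lit 251) (nat_lit 5) (nat_lit 267) (nat_lit 5) (nat_lit 268) (nat_lit 5) (nat_lit 375) (nat_lit 369) (nat_lit 276)) (XT.nd (nat_lit 78) (nat_lit 0) (nat_lit 76) (XT.lf (nat_lit 76) (nat_lit 3834692270) (nat_lit 0) (nat_lit 3003655230) (nat_lit 1292) (nat_lit 13259196842) (nat_lit 252) (nat_lit 5) (nat_lit 251) (nat_lit 5) (nat_lit 268) (nat_lit 5) (nat_lit 376) (nat_lit 369) (nat_lit 275)) (XT.lf (nat_lit 76) (nat_lit 668910878) (nat_lit 0) (nat_lit 8508370438) (nat_lit 1292) (nat_lit 11443384654) (nat_lit 253) (nat_lit 5) (nat_lit 252) (nat_lit 5) (nat_lit 269) (nat_lit 5) (nat_lit 377) (nat_lit 369) (nat_lit 274))))) (XT.nd (nat_lit 234) (nat_lit 1900) (nat_lit 0) (XT.nd (nat_lit 78) (nat_lit 1140) (nat_lit 0) (XT.lf (nat_lit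 0) (nat_lit 11879606546) (nat_lit 1216) (nat_lit 2488930005) (nat_lit 1292) (nat_lit 6794021042) (nat_lit 253) (nat_lit 5) (nat_lit 269) (nat_lit 5) (nat_lit 270) (nat_lit 5) (nat_lit 378) (nat_lit 369) (nat_lit 273)) (XT.nd (nat_lit 78) (nat_lit 1216) (nat_lit 0) (XT.lf (nat_lit 0) (nat_lit 14951354856) (nat_lit 1216) (nat_lit 5674882409) (nat_lit 76) (nat_lit 1098284241) (nat_lit 254) (nat_lit 5) (nat_lit 270) (nat_lit 5) (nat_lit 255) (nat_lit 5) (nat_lit 379) (nat_lit 369) (nat_lit 272)) (XT.lf (nat_lit 0) (nat_lit 13354703252) (nat_lit 1216) (nat_lit 5105230145) (nat_lit 1292) (nat_lit 3846159514) (nat_lit 238) (nat_lit 5) (nat_lit 254) (nat_lit 5) (nat_lit 255) (nat_lit 5) (nat_lit 380) (nat_lit 369) (nat_lit 271)))) (XT.nd (nat_lit 78) (nat_lit 1292) (nat_lit 0) (XT.lf (nat_lit 0) (nat_lit 10624491790) (nat_lit 608) (nat_lit 11772777184) (nat_lit 684) (nat_lit 511880339) (nat_lit 230)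 (nat_lit 5) (nat_lit 238) (nat_lit 5) (nat_lit 239) (nat_lit 5) (nat_lit 381) (nat_lit 369) (nat_lit 270)) (XT.nd (nat_lit 78) (nat_lit 608) (nat_lit 0) (XT.lf (nat_lit 0) (nat_lit 3181891910) (nat_lit 684) (nat_lit 15695597009) (nat_lit 76) (nat_lit 4656480191) (nat_lit 221) (nat_lit 5) (nat_lit 230) (nat_lit 5) (nat_lit 222) (nat_lit 5) (nat_lit 382) (nat_lit 369) (nat_lit 269)) (XT.lf (nat_lit 0) (nat_lit 4996301636) (nat_lit 608) (nat_lit 2333785707) (nat_lit 684) (nat_lit 16851386402) (nat_lit 213) (nat_lit 5) (nat_lit 221) (nat_lit 5) (nat_lit 222) (nat_lit 5) (nat_lit 383) (nat_lit 369) (nat_lit 268)))))) (XT.nd (nat_lit 468) (nat_lit 2584) (nat_lit 0) (XT.nd (nat_lit 234) (nat_lit 1520) (nat_lit 0) (XT.nd (nat_lit 78) (nat_lit 532) (nat_lit 0) (XT.lf (nat_lit 0) (nat_lit 2074617656) (nat_lit 532) (nat_lit 9924947549) (nat_lit 608) (nat_lit 12852377481) (nat_lit 206) (nat_lit 5) (nat_lit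 213) (nat_lit 5) (nat_lit 214) (nat_lit 5) (nat_lit 384) (nat_lit 369) (nat_lit 267)) (XT.nd (nat_lit 78) (nat_lit 532) (nat_lit 0) (XT.lf (nat_lit 0) (nat_lit 17183616402) (nat_lit 608) (nat_lit 862568741) (nat_lit 76) (nat_lit 7501321958) (nat_lit 206) (nat_lit 5) (nat_lit 214) (nat_lit 5) (nat_lit 207) (nat_lit 5) (nat_lit 385) (nat_lit 369) (nat_lit 266)) (XT.lf (nat_lit 0) (nat_lit 22472946272) (nat_lit 532) (nat_lit 457489042) (nat_lit 608) (nat_lit 3338312235) (nat_lit 199) (nat_lit 5) (nat_lit 206) (nat_lit 5) (nat_lit 207) (nat_lit 5) (nat_lit 386) (nat_lit 369) (nat_lit 265)))) (XT.nd (nat_lit 78) (nat_lit 988) (nat_lit 0) (XT.lf (nat_lit 0) (nat_lit 2268178820) (nat_lit 532) (nat_lit 6862746446) (nat_lit 76) (nat_lit 17883546278) (nat_lit 192) (nat_lit 5) (nat_lit 199) (nat_lit 5) (nat_lit 193) (nat_lit 5) (nat_lit 387) (nat_lit 369) (nat_lit 264)) (XT.nd (nat_lit 78) (nat_lit 456)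 (nat_lit 0) (XT.lf (nat_lit 0) (nat_lit 8382831096) (nat_lit 608) (nat_lit 10005890380) (nat_lit 76) (nat_lit 9398866543) (nat_lit 185) (nat_lit 5) (nat_lit 193) (nat_lit 5) (nat_lit 186) (nat_lit 5) (nat_lit 388) (nat_lit 369) (nat_lit 263)) (XT.lf (nat_lit 0) (nat_lit 15106187051) (nat_lit 532) (nat_lit 13194162482) (nat_lit 76) (nat_lit 289925651) (nat_lit 179) (nat_lit 5) (nat_lit 186) (nat_lit 5) (nat_lit 180) (nat_lit 5) (nat_lit 389) (nat_lit 369) (nat_lit 262))))) (XT.nd (nat_lit 234) (nat_lit 1216) (nat_lit 0) (XT.nd (nat_lit 78) (nat_lit 912) (nat_lit 0) (XT.lf (nat_lit 0) (nat_lit 12899329158) (nat_lit 456) (nat_lit 9669002427) (nat_lit 532) (nat_lit 6852690308) (nat_lit 173) (nat_lit 5) (nat_lit 179) (nat_lit 5) (nat_lit 180) (nat_lit 5) (nat_lit 390) (nat_lit 369) (nat_lit 261)) (XT.nd (nat_lit 78) (nat_lit 456) (nat_lit 0) (XT.lf (nat_lit 0) (nat_lit 432710692) (nat_lit 456) (nat_lit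 19910875602) (nat_lit 76) (nat_lit 9939953808) (nat_lit 167) (nat_lit 5) (nat_lit 173) (nat_lit 5) (nat_lit 168) (nat_lit 5) (nat_lit 391) (nat_lit 369) (nat_lit 260)) (XT.lf (nat_lit 0) (nat_lit 7742731491) (nat_lit 456) (nat_lit 532685492) (nat_lit 532) (nat_lit 22901692359) (nat_lit 161) (nat_lit 5) (nat_lit 167) (nat_lit 5) (nat_lit 168) (nat_lit 5) (nat_lit 392) (nat_lit 369) (nat_lit 259)))) (XT.nd (nat_lit 156) (nat_lit 456) (nat_lit 0) (XT.nd (nat_lit 78) (nat_lit 380) (nat_lit 0) (XT.lf (nat_lit 0) (nat_lit 4973333538) (nat_lit 380) (nat_lit 11976572574) (nat_lit 456) (nat_lit 15152264700) (nat_lit 156) (nat_lit 5) (nat_lit 161) (nat_lit 5) (nat_lit 162) (nat_lit 5) (nat_lit 393) (nat_lit 369) (nat_lit 258)) (XT.lf (nat_lit 0) (nat_lit 2162802278) (nat_lit 380) (nat_lit 24239339505) (nat_lit 456) (nat_lit 6661025952) (nat_lit 151) (nat_lit 5) (nat_lit 156) (nat_lit 5) (nat_lit 157) (nat_lit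 5) (nat_lit 394) (nat_lit 369) (nat_lit 257))) (XT.nd (nat_lit 78) (nat_lit 380) (nat_lit 0) (XT.lf (nat_lit 0) (nat_lit 2604278923) (nat_lit 456) (nat_lit 735688475) (nat_lit 76) (nat_lit 30719794602) (nat_lit 150) (nat_lit 5) (nat_lit 156) (nat_lit 5) (nat_lit 151) (nat_lit 5) (nat_lit 395) (nat_lit 369) (nat_lit 256)) (XT.lf (nat_lit 0) (nat_lit 12672405868) (nat_lit 456) (nat_lit 3805579615) (nat_lit 76) (nat_lit 18611905141) (nat_lit 145) (nat_lit 5) (nat_lit 151) (nat_lit 5) (nat_lit 146) (nat_lit 5) (nat_lit 396) (nat_lit 369) (nat_lit 255))))))))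
noncomputable def xc96 : XT := (XT.nd (nat_lit 1872) (nat_lit 1520) (nat_lit 0) (XT.nd (nat_lit 936) (nat_lit 2432) (nat_lit 0) (XT.nd (nat_lit 468) (nat_lit 1444) (nat_lit 0) (XT.nd (nat_lit 234) (nat_lit 988) (nat_lit 0) (XT.nd (nat_lit 78) (nat_lit 760) (nat_lit 0) (XT.lf (nat_lit 0) (nat_lit 23612989014) (nat_lit 456) (nat_lit 6941966332) (nat_lit 76) (nat_lit 5605501388) (nat_lit 140) (nat_lit 5) (nat_lit 146) (nat_lit 5) (nat_lit 141) (nat_lit 5) (nat_lit 397) (nat_lit 369) (nat_lit 254)) (XT.nd (nat_lit 78) (nat_lit 456) (nat_lit 0) (XT.lf (nat_lit 0) (nat_lit 27039187099) (nat_lit 304) (nat_lit 8518809029) (nat_lit 380) (nat_lit 1712835608) (nat_lit 136) (nat_lit 5) (nat_lit 140) (nat_lit 5) (nat_lit 141) (nat_lit 5) (nat_lit 398) (nat_lit 369) (nat_lit 253)) (XT.lf (nat_lit 0) (nat_lit 9921904233) (nat_lit 456) (nat_lit 13760449504) (nat_lit 76) (nat_lit 14738178854) (nat_lit 130) (nat_lit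 5) (nat_lit 136) (nat_lit 5) (nat_lit 131) (nat_lit 5) (nat_lit 399) (nat_lit 369) (nat_lit 252)))) (XT.nd (nat_lit 78) (nat_lit 684) (nat_lit 0) (XT.lf (nat_lit 0) (nat_lit 22203237238) (nat_lit 304) (nat_lit 297889881) (nat_lit 380) (nat_lit 17114139644) (nat_lit 126) (nat_lit 5) (nat_lit 130) (nat_lit 5) (nat_lit 131) (nat_lit 5) (nat_lit 400) (nat_lit 369) (nat_lit 251)) (XT.nd (nat_lit 78) (nat_lit 380) (nat_lit 0) (XT.lf (nat_lit 0) (nat_lit 19522321578) (nat_lit 304) (nat_lit 16743164203) (nat_lit 380) (nat_lit 4587568661) (nat_lit 122) (nat_lit 5) (nat_lit 126) (nat_lit 5) (nat_lit 127) (nat_lit 5) (nat_lit 401) (nat_lit 369) (nat_lit 250)) (XT.lf (nat_lit 0) (nat_lit 8812719386) (nat_lit 380) (nat_lit 25468626257) (nat_lit 76) (nat_lit 7856481821) (nat_lit 117) (nat_lit 5) (nat_lit 122) (nat_lit 5) (nat_lit 118) (nat_lit 5) (nat_lit 402) (nat_lit 369) (nat_lit 249))))) (XT.nd (nat_lit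 234) (nat_lit 532) (nat_lit 0) (XT.nd (nat_lit 78) (nat_lit 608) (nat_lit 0) (XT.lf (nat_lit 0) (nat_lit 13571043000) (nat_lit 304) (nat_lit 9731889605) (nat_lit 380) (nat_lit 20167102022) (nat_lit 113) (nat_lit 5) (nat_lit 117) (nat_lit 5) (nat_lit 118) (nat_lit 5) (nat_lit 403) (nat_lit 369) (nat_lit 248)) (XT.nd (nat_lit 78) (nat_lit 380) (nat_lit 0) (XT.lf (nat_lit 0) (nat_lit 10266634948) (nat_lit 228) (nat_lit 28761634806) (nat_lit 304) (nat_lit 5825265703) (nat_lit 110) (nat_lit 5) (nat_lit 113) (nat_lit 5) (nat_lit 114) (nat_lit 5) (nat_lit 404) (nat_lit 369) (nat_lit 247)) (XT.lf (nat_lit 0) (nat_lit 6698411459) (nat_lit 304) (nat_lit 2821599185) (nat_lit 380) (nat_lit 36769543570) (nat_lit 105) (nat_lit 5) (nat_lit 109) (nat_lit 5) (nat_lit 110) (nat_lit 5) (nat_lit 405) (nat_lit 369) (nat_lit 246)))) (XT.nd (nat_lit 78) (nat_lit 304) (nat_lit 0) (XT.lf (nat_lit 0) (nat_lit 2729818587)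 (nat_lit 228) (nat_lit 23397158987) (nat_lit 304) (nat_lit 21650220500) (nat_lit 102) (nat_lit 5) (nat_lit 105) (nat_lit 5) (nat_lit 106) (nat_lit 5) (nat_lit 406) (nat_lit 369) (nat_lit 245)) (XT.nd (nat_lit 78) (nat_lit 304) (nat_lit 0) (XT.lf (nat_lit 0) (nat_lit 44031628555) (nat_lit 304) (nat_lit 1409499443) (nat_lit 76) (nat_lit 3884077489) (nat_lit 102) (nat_lit 5) (nat_lit 106) (nat_lit 5) (nat_lit 103) (nat_lit 5) (nat_lit 407) (nat_lit 369) (nat_lit 244)) (XT.lf (nat_lit 0) (nat_lit 12318534403) (nat_lit 304) (nat_lit 6008281233) (nat_lit 76) (nat_lit 32600288525) (nat_lit 98) (nat_lit 5) (nat_lit 102) (nat_lit 5) (nat_lit 99) (nat_lit 5) (nat_lit 408) (nat_lit 369) (nat_lit 243)))))) (XT.nd (nat_lit 468) (nat_lit 988) (nat_lit 0) (XT.nd (nat_lit 234) (nat_lit 684) (nat_lit 0) (XT.nd (nat_lit 78) (nat_lit 532) (nat_lit 0) (XT.lf (nat_lit 0) (nat_lit 31214664027) (nat_lit 304) (nat_lit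 10961827929) (nat_lit 76) (nat_lit 10415647967) (nat_lit 95) (nat_lit 5) (nat_lit 99) (nat_lit 5) (nat_lit 96) (nat_lit 5) (nat_lit 409) (nat_lit 369) (nat_lit 242)) (XT.nd (nat_lit 78) (nat_lit 304) (nat_lit 0) (XT.lf (nat_lit 0) (nat_lit 37983865003) (nat_lit 228) (nat_lit 13678383359) (nat_lit 304) (nat_lit 2659980864) (nat_lit 92) (nat_lit 5) (nat_lit 95) (nat_lit 5) (nat_lit 96) (nat_lit 5) (nat_lit 410) (nat_lit 369) (nat_lit 241)) (XT.lf (nat_lit 0) (nat_lit 17258499031) (nat_lit 304) (nat_lit 22323714850) (nat_lit 76) (nat_lit 16533808329) (nat_lit 88) (nat_lit 5) (nat_lit 92) (nat_lit 5) (nat_lit 89) (nat_lit 5) (nat_lit 411) (nat_lit 369) (nat_lit 240)))) (XT.nd (nat_lit 78) (nat_lit 456) (nat_lit 0) (XT.lf (nat_lit 0) (nat_lit 29169840434) (nat_lit 228) (nat_lit 9531245948) (nat_lit 304) (nat_lit 19280133550) (nat_lit 85) (nat_lit 5) (nat_lit 88) (nat_lit 5) (nat_lit 89) (nat_lit 5)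 (nat_lit 412) (nat_lit 369) (nat_lit 239)) (XT.nd (nat_lit 78) (nat_lit 228) (nat_lit 0) (XT.lf (nat_lit 0) (nat_lit 1927007170) (nat_lit 228) (nat_lit 35921145141) (nat_lit 76) (nat_lit 22070884697) (nat_lit 82) (nat_lit 5) (nat_lit 85) (nat_lit 5) (nat_lit 83) (nat_lit 5) (nat_lit 413) (nat_lit 369) (nat_lit 238)) (XT.lf (nat_lit 0) (nat_lit 18156430179) (nat_lit 228) (nat_lit 6207936808) (nat_lit 304) (nat_lit 37566593968) (nat_lit 79) (nat_lit 5) (nat_lit 82) (nat_lit 5) (nat_lit 83) (nat_lit 5) (nat_lit 414) (nat_lit 369) (nat_lit 237))))) (XT.nd (nat_lit 234) (nat_lit 532) (nat_lit 0) (XT.nd (nat_lit 78) (nat_lit 304) (nat_lit 0) (XT.lf (nat_lit 0) (nat_lit 11610518771) (nat_lit 152) (nat_lit 37052578229) (nat_lit 228) (nat_lit 15358199920) (nat_lit 77) (nat_lit 5) (nat_lit 79) (nat_lit 5) (nat_lit 80) (nat_lit 5) (nat_lit 415) (nat_lit 369) (nat_lit 236)) (XT.nd (nat_lit 78) (nat_lit 0)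 (nat_lit 0) (XT.lf (nat_lit 0) (nat_lit 4410677996) (nat_lit 228) (nat_lit 3949628072) (nat_lit 304) (nat_lit 57836897794) (nat_lit 73) (nat_lit 5) (nat_lit 76) (nat_lit 5) (nat_lit 77) (nat_lit 5) (nat_lit 416) (nat_lit 369) (nat_lit 235)) (XT.lf (nat_lit 0) (nat_lit 33786095879) (nat_lit 304) (nat_lit 3762351016) (nat_lit 76) (nat_lit 30903728505) (nat_lit 73) (nat_lit 5) (nat_lit 77) (nat_lit 5) (nat_lit 74) (nat_lit 5) (nat_lit 417) (nat_lit 369) (nat_lit 234)))) (XT.nd (nat_lit 78) (nat_lit 380) (nat_lit 0) (XT.lf (nat_lit 0) (nat_lit 58251713614) (nat_lit 152) (nat_lit 2826536872) (nat_lit 228) (nat_lit 9723793516) (nat_lit 71) (nat_lit 5) (nat_lit 73) (nat_lit 5) (nat_lit 74) (nat_lit 5) (nat_lit 418) (nat_lit 369) (nat_lit 233)) (XT.nd (nat_lit 78) (nat_lit 152) (nat_lit 0) (XT.lf (nat_lit 0) (nat_lit 16999138616) (nat_lit 228) (nat_lit 22573492962) (nat_lit 76) (nat_lit 33666381765)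 (nat_lit 68) (nat_lit 5) (nat_lit 71) (nat_lit 5) (nat_lit 69) (nat_lit 5) (nat_lit 419) (nat_lit 369) (nat_lit 232)) (XT.lf (nat_lit 0) (nat_lit 42198068644) (nat_lit 152) (nat_lit 3221028866) (nat_lit 228) (nat_lit 30358986549) (nat_lit 66) (nat_lit 5) (nat_lit 68) (nat_lit 5) (nat_lit 69) (nat_lit 5) (nat_lit 420) (nat_lit 369) (nat_lit 231))))))) (XT.nd (nat_lit 49218) (nat_lit 0) (nat_lit 13300) (XT.nd (nat_lit 468) (nat_lit 608) (nat_lit 0) (XT.nd (nat_lit 234) (nat_lit 380) (nat_lit 0) (XT.nd (nat_lit 78) (nat_lit 380) (nat_lit 0) (XT.lf (nat_lit 0) (nat_lit 32531592891) (nat_lit 152) (nat_lit 43607380555) (nat_lit 228) (nat_lit 2278767916) (nat_lit 64) (nat_lit 5) (nat_lit 66) (nat_lit 5) (nat_lit 67) (nat_lit 5) (nat_lit 421) (nat_lit 369) (nat_lit 230)) (XT.nd (nat_lit 78) (nat_lit 152) (nat_lit 0) (XT.lf (nat_lit 0) (nat_lit 21587671729) (nat_lit 152) (nat_lit 5671719364) (nat_lit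 228) (nat_lit 53904601370) (nat_lit 61) (nat_lit 5) (nat_lit 63) (nat_lit 5) (nat_lit 64) (nat_lit 5) (nat_lit 422) (nat_lit 369) (nat_lit 229)) (XT.lf (nat_lit 0) (nat_lit 9176189684) (nat_lit 152) (nat_lit 49940978887) (nat_lit 228) (nat_lit 24903016067) (nat_lit 59) (nat_lit 5) (nat_lit 61) (nat_lit 5) (nat_lit 62) (nat_lit 5) (nat_lit 423) (nat_lit 369) (nat_lit 228)))) (XT.nd (nat_lit 78) (nat_lit 304) (nat_lit 0) (XT.lf (nat_lit 0) (nat_lit 6112853574) (nat_lit 228) (nat_lit 4513518213) (nat_lit 76) (nat_lit 76371040656) (nat_lit 58) (nat_lit 5) (nat_lit 61) (nat_lit 5) (nat_lit 59) (nat_lit 5) (nat_lit 424) (nat_lit 369) (nat_lit 227)) (XT.nd (nat_lit 78) (nat_lit 152) (nat_lit 0) (XT.lf (nat_lit 0) (nat_lit 39146379128) (nat_lit 228) (nat_lit 19949751181) (nat_lit 76) (nat_lit 30990518030) (nat_lit 56) (nat_lit 5) (nat_lit 59) (nat_lit 5) (nat_lit 57) (nat_lit 5) (nat_lit 425) (nat_lit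 369) (nat_lit 226)) (XT.lf (nat_lit 0) (nat_lit 56268584390) (nat_lit 152) (nat_lit 18254226222) (nat_lit 228) (nat_lit 18786798988) (nat_lit 54) (nat_lit 5) (nat_lit 56) (nat_lit 5) (nat_lit 57) (nat_lit 5) (nat_lit 426) (nat_lit 369) (nat_lit 225))))) (XT.nd (nat_lit 234) (nat_lit 228) (nat_lit 0) (XT.nd (nat_lit 78) (nat_lit 228) (nat_lit 0) (XT.lf (nat_lit 0) (nat_lit 15520787172) (nat_lit 152) (nat_lit 56247648956) (nat_lit 76) (nat_lit 24895805571) (nat_lit 52) (nat_lit 5) (nat_lit 54) (nat_lit 5) (nat_lit 53) (nat_lit 5) (nat_lit 427) (nat_lit 369) (nat_lit 224)) (XT.nd (nat_lit 78) (nat_lit 76) (nat_lit 0) (XT.lf (nat_lit 0) (nat_lit 22398746397) (nat_lit 152) (nat_lit 29541045397) (nat_lit 228) (nat_lit 48217696410) (nat_lit 50) (nat_lit 5) (nat_lit 52) (nat_lit 5) (nat_lit 53) (nat_lit 5) (nat_lit 428) (nat_lit 369) (nat_lit 223)) (XT.lf (nat_lit 0) (nat_lit 2233903344) (nat_lit 76)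 (nat_lit 88690731146) (nat_lit 152) (nat_lit 12878416294) (nat_lit 49) (nat_lit 5) (nat_lit 50) (nat_lit 5) (nat_lit 51) (nat_lit 4) (nat_lit 429) (nat_lit 369) (nat_lit 222)))) (XT.nd (nat_lit 78) (nat_lit 152) (nat_lit 0) (XT.lf (nat_lit 0) (nat_lit 24858094915) (nat_lit 152) (nat_lit 20301189330) (nat_lit 76) (nat_lit 62431529648) (nat_lit 48) (nat_lit 5) (nat_lit 50) (nat_lit 5) (nat_lit 49) (nat_lit 5) (nat_lit 430) (nat_lit 369) (nat_lit 221)) (XT.nd (nat_lit 48360) (nat_lit 0) (nat_lit 16492) (XT.lf (nat_lit 0) (nat_lit 64863270925) (nat_lit 228) (nat_lit 45372345046) (nat_lit 76) (nat_lit 1309078715) (nat_lit 46) (nat_lit 5) (nat_lit 49) (nat_lit 5) (nat_lit 47) (nat_lit 4) (nat_lit 431) (nat_lit 369) (nat_lit 220)) (XT.lf (nat_lit 0) (nat_lit 4252126505) (nat_lit 0) (nat_lit 4252126505) (nat_lit 1140) (nat_lit 362858650) (nat_lit 263) (nat_lit 5) (nat_lit 263) (nat_lit 3) (nat_lit 278)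 (nat_lit 3) (nat_lit 370) (nat_lit 370) (nat_lit 280)))))) (XT.nd (nat_lit 468) (nat_lit 2052) (nat_lit 0) (XT.nd (nat_lit 234) (nat_lit 0) (nat_lit 76) (XT.nd (nat_lit 78) (nat_lit 1140) (nat_lit 0) (XT.lf (nat_lit 76) (nat_lit 5065786778) (nat_lit 0) (nat_lit 12807828913) (nat_lit 1216) (nat_lit 290617275) (nat_lit 264) (nat_lit 5) (nat_lit 263) (nat_lit 5) (nat_lit 279) (nat_lit 5) (nat_lit 371) (nat_lit 370) (nat_lit 279)) (XT.nd (nat_lit 78) (nat_lit 0) (nat_lit 0) (XT.lf (nat_lit 0) (nat_lit 350092610) (nat_lit 1216) (nat_lit 17035846390) (nat_lit 1292) (nat_lit 1224152453) (nat_lit 248) (nat_lit 5) (nat_lit 264) (nat_lit 5) (nat_lit 265) (nat_lit 5) (nat_lit 372) (nat_lit 370) (nat_lit 278)) (XT.lf (nat_lit 0) (nat_lit 1261400484) (nat_lit 1216) (nat_lit 1966120507) (nat_lit 1292) (nat_lit 15843307185) (nat_lit 248) (nat_lit 5) (nat_lit 264) (nat_lit 5) (nat_lit 265) (nat_lit 5) (nat_lit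 373) (nat_lit 370) (nat_lit 277)))) (XT.nd (nat_lit 78) (nat_lit 0) (nat_lit 76) (XT.lf (nat_lit 0) (nat_lit 2447377300) (nat_lit 1216) (nat_lit 5543868553) (nat_lit 1292) (nat_lit 11556491178) (nat_lit 249) (nat_lit 5) (nat_lit 265) (nat_lit 5) (nat_lit 266) (nat_lit 5) (nat_lit 374) (nat_lit 370) (nat_lit 276)) (XT.nd (nat_lit 78) (nat_lit 0) (nat_lit 76) (XT.lf (nat_lit 0) (nat_lit 3900016322) (nat_lit 1216) (nat_lit 9178830091) (nat_lit 1292) (nat_lit 6963432014) (nat_lit 250) (nat_lit 5) (nat_lit 266) (nat_lit 5) (nat_lit 267) (nat_lit 5) (nat_lit 375) (nat_lit 370) (nat_lit 275)) (XT.lf (nat_lit 0) (nat_lit 5639491667) (nat_lit 1216) (nat_lit 12872147951) (nat_lit 1292) (nat_lit 2043488762) (nat_lit 251) (nat_lit 5) (nat_lit 267) (nat_lit 5) (nat_lit 268) (nat_lit 5) (nat_lit 376) (nat_lit 370) (nat_lit 274))))) (XT.nd (nat_lit 234) (nat_lit 2280) (nat_lit 0) (XT.nd (nat_lit 78) (nat_lit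 0) (nat_lit 76) (XT.lf (nat_lit 76) (nat_lit 4429547520) (nat_lit 0) (nat_lit 3289027664) (nat_lit 1292) (nat_lit 13367473873) (nat_lit 252) (nat_lit 5) (nat_lit 251) (nat_lit 5) (nat_lit 268) (nat_lit 5) (nat_lit 377) (nat_lit 370) (nat_lit 273)) (XT.nd (nat_lit 78) (nat_lit 0) (nat_lit 76) (XT.lf (nat_lit 76) (nat_lit 1111087148) (nat_lit 0) (nat_lit 9040426045) (nat_lit 1292) (nat_lit 11484512477) (nat_lit 253) (nat_lit 5) (nat_lit 252) (nat_lit 5) (nat_lit 269) (nat_lit 5) (nat_lit 378) (nat_lit 370) (nat_lit 272)) (XT.lf (nat_lit 0) (nat_lit 12963437112) (nat_lit 1216) (nat_lit 2208205663) (nat_lit 1292) (nat_lit 7034144750) (nat_lit 253) (nat_lit 5) (nat_lit 269) (nat_lit 5) (nat_lit 270) (nat_lit 5) (nat_lit 379) (nat_lit 370) (nat_lit 271)))) (XT.nd (nat_lit 156) (nat_lit 1292) (nat_lit 0) (XT.nd (nat_lit 78) (nat_lit 1216) (nat_lit 0) (XT.lf (nat_lit 0) (nat_lit 16168491971) (nat_lit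 1216) (nat_lit 5550030041) (nat_lit 76) (nat_lit 1077945687) (nat_lit 254) (nat_lit 5) (nat_lit 270) (nat_lit 5) (nat_lit 255) (nat_lit 5) (nat_lit 380) (nat_lit 370) (nat_lit 270)) (XT.lf (nat_lit 0) (nat_lit 14419322567) (nat_lit 1216) (nat_lit 5414631519) (nat_lit 1292) (nat_lit 3573729130) (nat_lit 238) (nat_lit 5) (nat_lit 254) (nat_lit 5) (nat_lit 255) (nat_lit 5) (nat_lit 381) (nat_lit 370) (nat_lit 269))) (XT.nd (nat_lit 78) (nat_lit 684) (nat_lit 0) (XT.lf (nat_lit 0) (nat_lit 11555050657) (nat_lit 608) (nat_lit 12394971453) (nat_lit 684) (nat_lit 91423102) (nat_lit 230) (nat_lit 5) (nat_lit 238) (nat_lit 5) (nat_lit 239) (nat_lit 5) (nat_lit 382) (nat_lit 370) (nat_lit 268)) (XT.lf (nat_lit 0) (nat_lit 3761090077) (nat_lit 684) (nat_lit 16070869234) (nat_lit 76) (nat_lit 4865943451) (nat_lit 221) (nat_lit 5) (nat_lit 230) (nat_lit 5) (nat_lit 222) (nat_lit 5) (nat_lit 383) (nat_lit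 370) (nat_lit 267))))))))
noncomputable def xc97 : XT := (XT.nd (nat_lit 1872) (nat_lit 4104) (nat_lit 0) (XT.nd (nat_lit 936) (nat_lit 3724) (nat_lit 0) (XT.nd (nat_lit 468) (nat_lit 2584) (nat_lit 0) (XT.nd (nat_lit 234) (nat_lit 1596) (nat_lit 0) (XT.nd (nat_lit 78) (nat_lit 532) (nat_lit 0) (XT.lf (nat_lit 0) (nat_lit 5643885889) (nat_lit 608) (nat_lit 2456628060) (nat_lit 684) (nat_lit 17277761817) (nat_lit 213) (nat_lit 5) (nat_lit 221) (nat_lit 5) (nat_lit 222) (nat_lit 5) (nat_lit 384) (nat_lit 370) (nat_lit 266)) (XT.nd (nat_lit 78) (nat_lit 0) (nat_lit 0) (XT.lf (nat_lit 0) (nat_lit 2576693090) (nat_lit 532) (nat_lit 10411311025) (nat_lit 608) (nat_lit 13094735223) (nat_lit 206) (nat_lit 5) (nat_lit 213) (nat_lit 5) (nat_lit 214) (nat_lit 5) (nat_lit 385) (nat_lit 370) (nat_lit 265)) (XT.lf (nat_lit 0) (nat_lit 18412850230) (nat_lit 608) (nat_lit 515173345) (nat_lit 76) (nat_lit 7885617610)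 (nat_lit 206) (nat_lit 5) (nat_lit 214) (nat_lit 5) (nat_lit 207) (nat_lit 5) (nat_lit 386) (nat_lit 370) (nat_lit 264)))) (XT.nd (nat_lit 78) (nat_lit 1064) (nat_lit 0) (XT.lf (nat_lit 0) (nat_lit 23975923132) (nat_lit 532) (nat_lit 457111732) (nat_lit 608) (nat_lit 3138334700) (nat_lit 199) (nat_lit 5) (nat_lit 206) (nat_lit 5) (nat_lit 207) (nat_lit 5) (nat_lit 387) (nat_lit 370) (nat_lit 263)) (XT.nd (nat_lit 78) (nat_lit 532) (nat_lit 0) (XT.lf (nat_lit 0) (nat_lit 2728083067) (nat_lit 532) (nat_lit 6820120449) (nat_lit 76) (nat_lit 18806473743) (nat_lit 192) (nat_lit 5) (nat_lit 199) (nat_lit 5) (nat_lit 193) (nat_lit 5) (nat_lit 388) (nat_lit 370) (nat_lit 262)) (XT.lf (nat_lit 0) (nat_lit 9135965234) (nat_lit 608) (nat_lit 10121749493) (nat_lit 76) (nat_lit 9909115768) (nat_lit 185) (nat_lit 5) (nat_lit 193) (nat_lit 5) (nat_lit 186) (nat_lit 5) (nat_lit 389) (nat_lit 370) (nat_lit 261)))))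 (XT.nd (nat_lit 234) (nat_lit 1216) (nat_lit 0) (XT.nd (nat_lit 78) (nat_lit 912) (nat_lit 0) (XT.lf (nat_lit 0) (nat_lit 16183671416) (nat_lit 532) (nat_lit 13471190402) (nat_lit 76) (nat_lit 355150307) (nat_lit 179) (nat_lit 5) (nat_lit 186) (nat_lit 5) (nat_lit 180) (nat_lit 5) (nat_lit 390) (nat_lit 370) (nat_lit 260)) (XT.nd (nat_lit 78) (nat_lit 456) (nat_lit 0) (XT.lf (nat_lit 0) (nat_lit 13916006369) (nat_lit 456) (nat_lit 10091148251) (nat_lit 532) (nat_lit 6875499919) (nat_lit 173) (nat_lit 5) (nat_lit 179) (nat_lit 5) (nat_lit 180) (nat_lit 5) (nat_lit 391) (nat_lit 370) (nat_lit 259)) (XT.lf (nat_lit 0) (nat_lit 757152722) (nat_lit 456) (nat_lit 20530662883) (nat_lit 76) (nat_lit 10500719059) (nat_lit 167) (nat_lit 5) (nat_lit 173) (nat_lit 5) (nat_lit 168) (nat_lit 5) (nat_lit 392) (nat_lit 370) (nat_lit 258)))) (XT.nd (nat_lit 78) (nat_lit 760) (nat_lit 0) (XT.lf (nat_lit 0) (nat_lit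 8494853580) (nat_lit 456) (nat_lit 486229854) (nat_lit 532) (nat_lit 23746030936) (nat_lit 161) (nat_lit 5) (nat_lit 167) (nat_lit 5) (nat_lit 168) (nat_lit 5) (nat_lit 393) (nat_lit 370) (nat_lit 257)) (XT.nd (nat_lit 78) (nat_lit 380) (nat_lit 0) (XT.lf (nat_lit 0) (nat_lit 5584437790) (nat_lit 380) (nat_lit 12495112539) (nat_lit 456) (nat_lit 15619175441) (nat_lit 156) (nat_lit 5) (nat_lit 161) (nat_lit 5) (nat_lit 162) (nat_lit 5) (nat_lit 394) (nat_lit 370) (nat_lit 256)) (XT.lf (nat_lit 0) (nat_lit 2630549500) (nat_lit 380) (nat_lit 25364604417) (nat_lit 456) (nat_lit 6712900183) (nat_lit 151) (nat_lit 5) (nat_lit 156) (nat_lit 5) (nat_lit 157) (nat_lit 5) (nat_lit 395) (nat_lit 370) (nat_lit 255)))))) (XT.nd (nat_lit 468) (nat_lit 1824) (nat_lit 0) (XT.nd (nat_lit 234) (nat_lit 1064) (nat_lit 0) (XT.nd (nat_lit 78) (nat_lit 760) (nat_lit 0) (XT.lf (nat_lit 0) (nat_lit 2997055050) (nat_lit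 456) (nat_lit 424685961) (nat_lit 76) (nat_lit 32333053749) (nat_lit 150) (nat_lit 5) (nat_lit 156) (nat_lit 5) (nat_lit 151) (nat_lit 5) (nat_lit 396) (nat_lit 370) (nat_lit 254)) (XT.nd (nat_lit 78) (nat_lit 380) (nat_lit 0) (XT.lf (nat_lit 0) (nat_lit 13560145064) (nat_lit 456) (nat_lit 3651179339) (nat_lit 76) (nat_lit 19625362446) (nat_lit 145) (nat_lit 5) (nat_lit 151) (nat_lit 5) (nat_lit 146) (nat_lit 5) (nat_lit 397) (nat_lit 370) (nat_lit 253)) (XT.lf (nat_lit 0) (nat_lit 25039735694) (nat_lit 456) (nat_lit 6947698218) (nat_lit 76) (nat_lit 5973591563) (nat_lit 140) (nat_lit 5) (nat_lit 146) (nat_lit 5) (nat_lit 141) (nat_lit 5) (nat_lit 398) (nat_lit 370) (nat_lit 252)))) (XT.nd (nat_lit 78) (nat_lit 760) (nat_lit 0) (XT.lf (nat_lit 0) (nat_lit 28722727684) (nat_lit 304) (nat_lit 8850733925) (nat_lit 380) (nat_lit 1553716953) (nat_lit 136) (nat_lit 5) (nat_lit 140) (nat_lit 5) (nat_lit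 141) (nat_lit 5) (nat_lit 399) (nat_lit 370) (nat_lit 251)) (XT.nd (nat_lit 78) (nat_lit 304) (nat_lit 0) (XT.lf (nat_lit 0) (nat_lit 10650611092) (nat_lit 456) (nat_lit 14115592655) (nat_lit 76) (nat_lit 15568314443) (nat_lit 130) (nat_lit 5) (nat_lit 136) (nat_lit 5) (nat_lit 131) (nat_lit 5) (nat_lit 400) (nat_lit 370) (nat_lit 250)) (XT.lf (nat_lit 0) (nat_lit 23636736504) (nat_lit 304) (nat_lit 214089990) (nat_lit 380) (nat_lit 17738404620) (nat_lit 126) (nat_lit 5) (nat_lit 130) (nat_lit 5) (nat_lit 131) (nat_lit 5) (nat_lit 401) (nat_lit 370) (nat_lit 249))))) (XT.nd (nat_lit 234) (nat_lit 836) (nat_lit 0) (XT.nd (nat_lit 78) (nat_lit 684) (nat_lit 0) (XT.lf (nat_lit 0) (nat_lit 20818189239) (nat_lit 304) (nat_lit 17478493746) (nat_lit 380) (nat_lit 4592429638) (nat_lit 122) (nat_lit 5) (nat_lit 126) (nat_lit 5) (nat_lit 127) (nat_lit 5) (nat_lit 402) (nat_lit 370) (nat_lit 248)) (XT.nd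 (nat_lit 78) (nat_lit 304) (nat_lit 0) (XT.lf (nat_lit 0) (nat_lit 9467018499) (nat_lit 380) (nat_lit 26421711989) (nat_lit 76) (nat_lit 8349525886) (nat_lit 117) (nat_lit 5) (nat_lit 122) (nat_lit 5) (nat_lit 118) (nat_lit 5) (nat_lit 403) (nat_lit 370) (nat_lit 247)) (XT.lf (nat_lit 0) (nat_lit 14560758089) (nat_lit 304) (nat_lit 10113800943) (nat_lit 380) (nat_lit 20962732866) (nat_lit 113) (nat_lit 5) (nat_lit 117) (nat_lit 5) (nat_lit 118) (nat_lit 5) (nat_lit 404) (nat_lit 370) (nat_lit 246)))) (XT.nd (nat_lit 78) (nat_lit 608) (nat_lit 0) (XT.lf (nat_lit 0) (nat_lit 11087298241) (nat_lit 228) (nat_lit 30092945045) (nat_lit 304) (nat_lit 5909904460) (nat_lit 110) (nat_lit 5) (nat_lit 113) (nat_lit 5) (nat_lit 114) (nat_lit 5) (nat_lit 405) (nat_lit 370) (nat_lit 245)) (XT.nd (nat_lit 78) (nat_lit 228) (nat_lit 0) (XT.lf (nat_lit 0) (nat_lit 7335815360) (nat_lit 304) (nat_lit 2856048747)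 (nat_lit 380) (nat_lit 38406248142) (nat_lit 105) (nat_lit 5) (nat_lit 109) (nat_lit 5) (nat_lit 110) (nat_lit 5) (nat_lit 406) (nat_lit 370) (nat_lit 244)) (XT.lf (nat_lit 0) (nat_lit 3164876595) (nat_lit 228) (nat_lit 24458822655) (nat_lit 304) (nat_lit 22536605555) (nat_lit 102) (nat_lit 5) (nat_lit 105) (nat_lit 5) (nat_lit 106) (nat_lit 5) (nat_lit 407) (nat_lit 370) (nat_lit 243))))))) (XT.nd (nat_lit 936) (nat_lit 1748) (nat_lit 0) (XT.nd (nat_lit 468) (nat_lit 1064) (nat_lit 0) (XT.nd (nat_lit 234) (nat_lit 760) (nat_lit 0) (XT.nd (nat_lit 78) (nat_lit 532) (nat_lit 0) (XT.lf (nat_lit 0) (nat_lit 46415507912) (nat_lit 304) (nat_lit 1191136109) (nat_lit 76) (nat_lit 4179312813) (nat_lit 102) (nat_lit 5) (nat_lit 106) (nat_lit 5) (nat_lit 103) (nat_lit 5) (nat_lit 408) (nat_lit 370) (nat_lit 242)) (XT.nd (nat_lit 78) (nat_lit 228) (nat_lit 0) (XT.lf (nat_lit 0) (nat_lit 13112558127) (nat_lit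 304) (nat_lit 6024555024) (nat_lit 76) (nat_lit 34330966332) (nat_lit 98) (nat_lit 5) (nat_lit 102) (nat_lit 5) (nat_lit 99) (nat_lit 5) (nat_lit 409) (nat_lit 370) (nat_lit 241)) (XT.lf (nat_lit 0) (nat_lit 32948663540) (nat_lit 304) (nat_lit 11229717666) (nat_lit 76) (nat_lit 11038132508) (nat_lit 95) (nat_lit 5) (nat_lit 99) (nat_lit 5) (nat_lit 96) (nat_lit 5) (nat_lit 410) (nat_lit 370) (nat_lit 240)))) (XT.nd (nat_lit 78) (nat_lit 532) (nat_lit 0) (XT.lf (nat_lit 0) (nat_lit 40155227988) (nat_lit 228) (nat_lit 14257764589) (nat_lit 304) (nat_lit 2620285618) (nat_lit 92) (nat_lit 5) (nat_lit 95) (nat_lit 5) (nat_lit 96) (nat_lit 5) (nat_lit 411) (nat_lit 370) (nat_lit 239)) (XT.nd (nat_lit 78) (nat_lit 228) (nat_lit 0) (XT.lf (nat_lit 0) (nat_lit 18286256514) (nat_lit 304) (nat_lit 23168279748) (nat_lit 76) (nat_lit 17462311073) (nat_lit 88) (nat_lit 5) (nat_lit 92) (nat_lit 5) (nat_lit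 89) (nat_lit 5) (nat_lit 412) (nat_lit 370) (nat_lit 238)) (XT.lf (nat_lit 0) (nat_lit 30892167344) (nat_lit 228) (nat_lit 9903492862) (nat_lit 304) (nat_lit 20079805603) (nat_lit 85) (nat_lit 5) (nat_lit 88) (nat_lit 5) (nat_lit 89) (nat_lit 5) (nat_lit 413) (nat_lit 370) (nat_lit 237))))) (XT.nd (nat_lit 234) (nat_lit 456) (nat_lit 0) (XT.nd (nat_lit 78) (nat_lit 380) (nat_lit 0) (XT.lf (nat_lit 0) (nat_lit 2180300870) (nat_lit 228) (nat_lit 37454076401) (nat_lit 76) (nat_lit 23275875979) (nat_lit 82) (nat_lit 5) (nat_lit 85) (nat_lit 5) (nat_lit 83) (nat_lit 5) (nat_lit 414) (nat_lit 370) (nat_lit 236)) (XT.nd (nat_lit 78) (nat_lit 152) (nat_lit 0) (XT.lf (nat_lit 0) (nat_lit 19319835232) (nat_lit 228) (nat_lit 6414676779) (nat_lit 304) (nat_lit 39288413183) (nat_lit 79) (nat_lit 5) (nat_lit 82) (nat_lit 5) (nat_lit 83) (nat_lit 5) (nat_lit 415) (nat_lit 370) (nat_lit 235)) (XT.lf (nat_lit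 0) (nat_lit 12442786566) (nat_lit 152) (nat_lit 38801526217) (nat_lit 228) (nat_lit 15973582386) (nat_lit 77) (nat_lit 5) (nat_lit 79) (nat_lit 5) (nat_lit 80) (nat_lit 5) (nat_lit 416) (nat_lit 370) (nat_lit 234)))) (XT.nd (nat_lit 78) (nat_lit 152) (nat_lit 0) (XT.lf (nat_lit 0) (nat_lit 4878652026) (nat_lit 228) (nat_lit 4044477576) (nat_lit 304) (nat_lit 60579567303) (nat_lit 73) (nat_lit 5) (nat_lit 76) (nat_lit 5) (nat_lit 77) (nat_lit 5) (nat_lit 417) (nat_lit 370) (nat_lit 233)) (XT.nd (nat_lit 78) (nat_lit 152) (nat_lit 0) (XT.lf (nat_lit 0) (nat_lit 35614252855) (nat_lit 304) (nat_lit 3711591691) (nat_lit 76) (nat_lit 32544752247) (nat_lit 73) (nat_lit 5) (nat_lit 77) (nat_lit 5) (nat_lit 74) (nat_lit 5) (nat_lit 418) (nat_lit 370) (nat_lit 232)) (XT.lf (nat_lit 0) (nat_lit 61396328813) (nat_lit 152) (nat_lit 2870304780) (nat_lit 228) (nat_lit 10071457717) (nat_lit 71) (nat_lit 5) (nat_lit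 73) (nat_lit 5) (nat_lit 74) (nat_lit 5) (nat_lit 419) (nat_lit 370) (nat_lit 231)))))) (XT.nd (nat_lit 468) (nat_lit 760) (nat_lit 0) (XT.nd (nat_lit 234) (nat_lit 456) (nat_lit 0) (XT.nd (nat_lit 78) (nat_lit 304) (nat_lit 0) (XT.lf (nat_lit 0) (nat_lit 17981569461) (nat_lit 228) (nat_lit 23471105728) (nat_lit 76) (nat_lit 35444295397) (nat_lit 68) (nat_lit 5) (nat_lit 71) (nat_lit 5) (nat_lit 69) (nat_lit 5) (nat_lit 420) (nat_lit 370) (nat_lit 230)) (XT.nd (nat_lit 78) (nat_lit 152) (nat_lit 0) (XT.lf (nat_lit 0) (nat_lit 44532410616) (nat_lit 152) (nat_lit 3285964842) (nat_lit 228) (nat_lit 31744744819) (nat_lit 66) (nat_lit 5) (nat_lit 68) (nat_lit 5) (nat_lit 69) (nat_lit 5) (nat_lit 421) (nat_lit 370) (nat_lit 229)) (XT.lf (nat_lit 0) (nat_lit 34379037264) (nat_lit 152) (nat_lit 45692100316) (nat_lit 228) (nat_lit 2263716964) (nat_lit 64) (nat_lit 5) (nat_lit 66) (nat_lit 5) (nat_lit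 67) (nat_lit 5) (nat_lit 422) (nat_lit 370) (nat_lit 228)))) (XT.nd (nat_lit 78) (nat_lit 228) (nat_lit 0) (XT.lf (nat_lit 0) (nat_lit 22884050327) (nat_lit 152) (nat_lit 5860846020) (nat_lit 228) (nat_lit 56473603558) (nat_lit 61) (nat_lit 5) (nat_lit 63) (nat_lit 5) (nat_lit 64) (nat_lit 5) (nat_lit 423) (nat_lit 370) (nat_lit 227)) (XT.nd (nat_lit 78) (nat_lit 76) (nat_lit 0) (XT.lf (nat_lit 0) (nat_lit 9848478433) (nat_lit 152) (nat_lit 52344166088) (nat_lit 228) (nat_lit 26024945480) (nat_lit 59) (nat_lit 5) (nat_lit 61) (nat_lit 5) (nat_lit 62) (nat_lit 5) (nat_lit 424) (nat_lit 370) (nat_lit 226)) (XT.lf (nat_lit 0) (nat_lit 6533559964) (nat_lit 228) (nat_lit 4533576358) (nat_lit 76) (nat_lit 80276680646) (nat_lit 58) (nat_lit 5) (nat_lit 61) (nat_lit 5) (nat_lit 59) (nat_lit 5) (nat_lit 425) (nat_lit 370) (nat_lit 225))))) (XT.nd (nat_lit 234) (nat_lit 304) (nat_lit 0) (XT.nd (nat_lit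 78) (nat_lit 304) (nat_lit 0) (XT.lf (nat_lit 0) (nat_lit 41216050457) (nat_lit 228) (nat_lit 20745004344) (nat_lit 76) (nat_lit 32626541873) (nat_lit 56) (nat_lit 5) (nat_lit 59) (nat_lit 5) (nat_lit 57) (nat_lit 5) (nat_lit 426) (nat_lit 370) (nat_lit 224)) (XT.nd (nat_lit 78) (nat_lit 152) (nat_lit 0) (XT.lf (nat_lit 0) (nat_lit 59278450997) (nat_lit 152) (nat_lit 19079390682) (nat_lit 228) (nat_lit 19613968818) (nat_lit 54) (nat_lit 5) (nat_lit 56) (nat_lit 5) (nat_lit 57) (nat_lit 5) (nat_lit 427) (nat_lit 370) (nat_lit 223)) (XT.lf (nat_lit 0) (nat_lit 16404255318) (nat_lit 152) (nat_lit 58864706769) (nat_lit 76) (nat_lit 26225256936) (nat_lit 52) (nat_lit 5) (nat_lit 54) (nat_lit 5) (nat_lit 53) (nat_lit 5) (nat_lit 428) (nat_lit 370) (nat_lit 222)))) (XT.nd (nat_lit 156) (nat_lit 76) (nat_lit 0) (XT.nd (nat_lit 78) (nat_lit 76) (nat_lit 0) (XT.lf (nat_lit 0) (nat_lit 23708409410) (nat_lit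 152) (nat_lit 30932508864) (nat_lit 228) (nat_lit 50521308902) (nat_lit 50) (nat_lit 5) (nat_lit 52) (nat_lit 5) (nat_lit 53) (nat_lit 5) (nat_lit 429) (nat_lit 370) (nat_lit 221)) (XT.lf (nat_lit 0) (nat_lit 2532132168) (nat_lit 76) (nat_lit 93040488667) (nat_lit 152) (nat_lit 13417519059) (nat_lit 49) (nat_lit 5) (nat_lit 50) (nat_lit 5) (nat_lit 51) (nat_lit 4) (nat_lit 430) (nat_lit 370) (nat_lit 220))) (XT.nd (nat_lit 48438) (nat_lit 0) (nat_lit 16340) (XT.lf (nat_lit 0) (nat_lit 26198878396) (nat_lit 152) (nat_lit 21136639738) (nat_lit 76) (nat_lit 65631890113) (nat_lit 48) (nat_lit 5) (nat_lit 50) (nat_lit 5) (nat_lit 49) (nat_lit 5) (nat_lit 431) (nat_lit 370) (nat_lit 219)) (XT.lf (nat_lit 0) (nat_lit 4631667780) (nat_lit 0) (nat_lit 4631667780) (nat_lit 1140) (nat_lit 36968884) (nat_lit 263) (nat_lit 5) (nat_lit 263) (nat_lit 3) (nat_lit 278) (nat_lit 3) (nat_lit 371) (nat_lit 371)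 (nat_lit 278))))))))
noncomputable def xc98 : XT := (XT.nd (nat_lit 1872) (nat_lit 6460) (nat_lit 0) (XT.nd (nat_lit 936) (nat_lit 5548) (nat_lit 0) (XT.nd (nat_lit 468) (nat_lit 1368) (nat_lit 0) (XT.nd (nat_lit 234) (nat_lit 0) (nat_lit 152) (XT.nd (nat_lit 78) (nat_lit 0) (nat_lit 76) (XT.lf (nat_lit 0) (nat_lit 343602864) (nat_lit 1216) (nat_lit 13390211107) (nat_lit 1292) (nat_lit 5319163457) (nat_lit 247) (nat_lit 5) (nat_lit 263) (nat_lit 5) (nat_lit 264) (nat_lit 5) (nat_lit 372) (nat_lit 371) (nat_lit 277)) (XT.nd (nat_lit 78) (nat_lit 0) (nat_lit 0) (XT.lf (nat_lit 0) (nat_lit 980594175) (nat_lit 1216) (nat_lit 17516461843) (nat_lit 1292) (nat_lit 1024891729) (nat_lit 248) (nat_lit 5) (nat_lit 264) (nat_lit 5) (nat_lit 265) (nat_lit 5) (nat_lit 373) (nat_lit 371) (nat_lit 276)) (XT.lf (nat_lit 0) (nat_lit 1908277113) (nat_lit 1216) (nat_lit 1710924755) (nat_lit 1292) (nat_lit 16387407451)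 (nat_lit 248) (nat_lit 5) (nat_lit 264) (nat_lit 5) (nat_lit 265) (nat_lit 5) (nat_lit 374) (nat_lit 371) (nat_lit 275)))) (XT.nd (nat_lit 78) (nat_lit 0) (nat_lit 76) (XT.lf (nat_lit 0) (nat_lit 3126977395) (nat_lit 1216) (nat_lit 5458603970) (nat_lit 1292) (nat_lit 11922591230) (nat_lit 249) (nat_lit 5) (nat_lit 265) (nat_lit 5) (nat_lit 266) (nat_lit 5) (nat_lit 375) (nat_lit 371) (nat_lit 274)) (XT.nd (nat_lit 78) (nat_lit 0) (nat_lit 76) (XT.lf (nat_lit 0) (nat_lit 4627348227) (nat_lit 1216) (nat_lit 9267708143) (nat_lit 1292) (nat_lit 7133142854) (nat_lit 250) (nat_lit 5) (nat_lit 266) (nat_lit 5) (nat_lit 267) (nat_lit 5) (nat_lit 376) (nat_lit 371) (nat_lit 273)) (XT.lf (nat_lit 0) (nat_lit 6430452220) (nat_lit 1216) (nat_lit 13139322681) (nat_lit 1292) (nat_lit 1997627756) (nat_lit 251) (nat_lit 5) (nat_lit 267) (nat_lit 5) (nat_lit 268) (nat_lit 5) (nat_lit 377) (nat_lit 371) (nat_lit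 272))))) (XT.nd (nat_lit 234) (nat_lit 1672) (nat_lit 0) (XT.nd (nat_lit 78) (nat_lit 0) (nat_lit 76) (XT.lf (nat_lit 76) (nat_lit 5016667197) (nat_lit 0) (nat_lit 3576100066) (nat_lit 1292) (nat_lit 13532733906) (nat_lit 252) (nat_lit 5) (nat_lit 251) (nat_lit 5) (nat_lit 268) (nat_lit 5) (nat_lit 378) (nat_lit 371) (nat_lit 271)) (XT.nd (nat_lit 78) (nat_lit 0) (nat_lit 76) (XT.lf (nat_lit 76) (nat_lit 1537372322) (nat_lit 0) (nat_lit 9589170328) (nat_lit 1292) (nat_lit 11577067888) (nat_lit 253) (nat_lit 5) (nat_lit 252) (nat_lit 5) (nat_lit 269) (nat_lit 5) (nat_lit 379) (nat_lit 371) (nat_lit 270)) (XT.lf (nat_lit 0) (nat_lit 14055917575) (nat_lit 1216) (nat_lit 1951114048) (nat_lit 1292) (nat_lit 7295532400) (nat_lit 253) (nat_lit 5) (nat_lit 269) (nat_lit 5) (nat_lit 270) (nat_lit 5) (nat_lit 380) (nat_lit 371) (nat_lit 269)))) (XT.nd (nat_lit 78) (nat_lit 1900) (nat_lit 0) (XT.lf (nat_lit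 0) (nat_lit 17402829833) (nat_lit 1216) (nat_lit 5456922482) (nat_lit 76) (nat_lit 1063586494) (nat_lit 254) (nat_lit 5) (nat_lit 270) (nat_lit 5) (nat_lit 255) (nat_lit 5) (nat_lit 381) (nat_lit 371) (nat_lit 268)) (XT.nd (nat_lit 78) (nat_lit 684) (nat_lit 0) (XT.lf (nat_lit 0) (nat_lit 15500274322) (nat_lit 1216) (nat_lit 5734469550) (nat_lit 1292) (nat_lit 3330884194) (nat_lit 238) (nat_lit 5) (nat_lit 254) (nat_lit 5) (nat_lit 255) (nat_lit 5) (nat_lit 382) (nat_lit 371) (nat_lit 267)) (XT.lf (nat_lit 0) (nat_lit 302565727) (nat_lit 684) (nat_lit 12739534723) (nat_lit 76) (nat_lit 12189390103) (nat_lit 229) (nat_lit 5) (nat_lit 238) (nat_lit 5) (nat_lit 230) (nat_lit 5) (nat_lit 383) (nat_lit 371) (nat_lit 266)))))) (XT.nd (nat_lit 468) (nat_lit 2736) (nat_lit 0) (XT.nd (nat_lit 234) (nat_lit 1064) (nat_lit 0) (XT.nd (nat_lit 78) (nat_lit 1140) (nat_lit 0) (XT.lf (nat_lit 0) (nat_lit 4330190904)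 (nat_lit 684) (nat_lit 16502977207) (nat_lit 76) (nat_lit 5088051734) (nat_lit 221) (nat_lit 5) (nat_lit 230) (nat_lit 5) (nat_lit 222) (nat_lit 5) (nat_lit 384) (nat_lit 371) (nat_lit 265)) (XT.nd (nat_lit 78) (nat_lit 532) (nat_lit 0) (XT.lf (nat_lit 0) (nat_lit 6286868549) (nat_lit 608) (nat_lit 2585040477) (nat_lit 684) (nat_lit 17764149767) (nat_lit 213) (nat_lit 5) (nat_lit 221) (nat_lit 5) (nat_lit 222) (nat_lit 5) (nat_lit 385) (nat_lit 371) (nat_lit 264)) (XT.lf (nat_lit 0) (nat_lit 3066837994) (nat_lit 532) (nat_lit 10922911586) (nat_lit 608) (nat_lit 13386423337) (nat_lit 206) (nat_lit 5) (nat_lit 213) (nat_lit 5) (nat_lit 214) (nat_lit 5) (nat_lit 386) (nat_lit 371) (nat_lit 263)))) (XT.nd (nat_lit 78) (nat_lit 1064) (nat_lit 0) (XT.lf (nat_lit 0) (nat_lit 19669141729) (nat_lit 608) (nat_lit 186715383) (nat_lit 76) (nat_lit 8288269968) (nat_lit 206) (nat_lit 5) (nat_lit 214) (nat_lit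 5) (nat_lit 207) (nat_lit 5) (nat_lit 387) (nat_lit 371) (nat_lit 262)) (XT.nd (nat_lit 78) (nat_lit 532) (nat_lit 0) (XT.lf (nat_lit 0) (nat_lit 25518782368) (nat_lit 532) (nat_lit 458877286) (nat_lit 608) (nat_lit 2962468535) (nat_lit 199) (nat_lit 5) (nat_lit 206) (nat_lit 5) (nat_lit 207) (nat_lit 5) (nat_lit 388) (nat_lit 371) (nat_lit 261)) (XT.lf (nat_lit 0) (nat_lit 3178768677) (nat_lit 532) (nat_lit 6811227768) (nat_lit 76) (nat_lit 19772874664) (nat_lit 192) (nat_lit 5) (nat_lit 199) (nat_lit 5) (nat_lit 193) (nat_lit 5) (nat_lit 389) (nat_lit 371) (nat_lit 260))))) (XT.nd (nat_lit 234) (nat_lit 1292) (nat_lit 0) (XT.nd (nat_lit 78) (nat_lit 912) (nat_lit 0) (XT.lf (nat_lit 0) (nat_lit 9895704615) (nat_lit 608) (nat_lit 10279142722) (nat_lit 76) (nat_lit 10441130194) (nat_lit 185) (nat_lit 5) (nat_lit 193) (nat_lit 5) (nat_lit 186) (nat_lit 5) (nat_lit 390) (nat_lit 371) (nat_lit 259))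 (XT.nd (nat_lit 78) (nat_lit 456) (nat_lit 0) (XT.lf (nat_lit 0) (nat_lit 17285077219) (nat_lit 532) (nat_lit 13797647696) (nat_lit 76) (nat_lit 418919953) (nat_lit 179) (nat_lit 5) (nat_lit 186) (nat_lit 5) (nat_lit 180) (nat_lit 5) (nat_lit 391) (nat_lit 371) (nat_lit 258)) (XT.lf (nat_lit 0) (nat_lit 14948959297) (nat_lit 456) (nat_lit 10540100859) (nat_lit 532) (nat_lit 6929184298) (nat_lit 173) (nat_lit 5) (nat_lit 179) (nat_lit 5) (nat_lit 180) (nat_lit 5) (nat_lit 392) (nat_lit 371) (nat_lit 257)))) (XT.nd (nat_lit 78) (nat_lit 836) (nat_lit 0) (XT.lf (nat_lit 0) (nat_lit 1069664775) (nat_lit 456) (nat_lit 21216373806) (nat_lit 76) (nat_lit 11083594070) (nat_lit 167) (nat_lit 5) (nat_lit 173) (nat_lit 5) (nat_lit 168) (nat_lit 5) (nat_lit 393) (nat_lit 371) (nat_lit 256)) (XT.nd (nat_lit 78) (nat_lit 380) (nat_lit 0) (XT.lf (nat_lit 0) (nat_lit 9250648880) (nat_lit 456) (nat_lit 444246642)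 (nat_lit 532) (nat_lit 24660546959) (nat_lit 161) (nat_lit 5) (nat_lit 167) (nat_lit 5) (nat_lit 168) (nat_lit 5) (nat_lit 394) (nat_lit 371) (nat_lit 255)) (XT.lf (nat_lit 0) (nat_lit 6192401244) (nat_lit 380) (nat_lit 13047043982) (nat_lit 456) (nat_lit 16136458482) (nat_lit 156) (nat_lit 5) (nat_lit 161) (nat_lit 5) (nat_lit 162) (nat_lit 5) (nat_lit 395) (nat_lit 371) (nat_lit 254))))))) (XT.nd (nat_lit 936) (nat_lit 2584) (nat_lit 0) (XT.nd (nat_lit 468) (nat_lit 1900) (nat_lit 0) (XT.nd (nat_lit 234) (nat_lit 1140) (nat_lit 0) (XT.nd (nat_lit 78) (nat_lit 456) (nat_lit 0) (XT.lf (nat_lit 0) (nat_lit 3088251224) (nat_lit 380) (nat_lit 26554193310) (nat_lit 456) (nat_lit 6793509303) (nat_lit 151) (nat_lit 5) (nat_lit 156) (nat_lit 5) (nat_lit 157) (nat_lit 5) (nat_lit 396) (nat_lit 371) (nat_lit 253)) (XT.nd (nat_lit 78) (nat_lit 380) (nat_lit 0) (XT.lf (nat_lit 0) (nat_lit 3385059440) (nat_lit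 456) (nat_lit 130467254) (nat_lit 76) (nat_lit 34019792075) (nat_lit 150) (nat_lit 5) (nat_lit 156) (nat_lit 5) (nat_lit 151) (nat_lit 5) (nat_lit 397) (nat_lit 371) (nat_lit 252)) (XT.lf (nat_lit 0) (nat_lit 14468645654) (nat_lit 456) (nat_lit 3521104060) (nat_lit 76) (nat_lit 20681788889) (nat_lit 145) (nat_lit 5) (nat_lit 151) (nat_lit 5) (nat_lit 146) (nat_lit 5) (nat_lit 398) (nat_lit 371) (nat_lit 251)))) (XT.nd (nat_lit 78) (nat_lit 760) (nat_lit 0) (XT.lf (nat_lit 0) (nat_lit 26514939920) (nat_lit 456) (nat_lit 6985453714) (nat_lit 76) (nat_lit 6351922030) (nat_lit 140) (nat_lit 5) (nat_lit 146) (nat_lit 5) (nat_lit 141) (nat_lit 5) (nat_lit 399) (nat_lit 371) (nat_lit 250)) (XT.nd (nat_lit 78) (nat_lit 456) (nat_lit 0) (XT.lf (nat_lit 0) (nat_lit 30459618018) (nat_lit 304) (nat_lit 9207995742) (nat_lit 380) (nat_lit 1409397871) (nat_lit 136) (nat_lit 5) (nat_lit 140) (nat_lit 5) (nat_lit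 141) (nat_lit 5) (nat_lit 400) (nat_lit 371) (nat_lit 249)) (XT.lf (nat_lit 0) (nat_lit 11394127269) (nat_lit 456) (nat_lit 14519440928) (nat_lit 76) (nat_lit 16431289480) (nat_lit 130) (nat_lit 5) (nat_lit 136) (nat_lit 5) (nat_lit 131) (nat_lit 5) (nat_lit 401) (nat_lit 371) (nat_lit 248))))) (XT.nd (nat_lit 234) (nat_lit 912) (nat_lit 0) (XT.nd (nat_lit 78) (nat_lit 684) (nat_lit 0) (XT.lf (nat_lit 0) (nat_lit 25111849887) (nat_lit 304) (nat_lit 135275773) (nat_lit 380) (nat_lit 18415400128) (nat_lit 126) (nat_lit 5) (nat_lit 130) (nat_lit 5) (nat_lit 131) (nat_lit 5) (nat_lit 402) (nat_lit 371) (nat_lit 247)) (XT.nd (nat_lit 78) (nat_lit 380) (nat_lit 0) (XT.lf (nat_lit 0) (nat_lit 22149122812) (nat_lit 304) (nat_lit 18260056830) (nat_lit 380) (nat_lit 4618407169) (nat_lit 122) (nat_lit 5) (nat_lit 126) (nat_lit 5) (nat_lit 127) (nat_lit 5) (nat_lit 403) (nat_lit 371) (nat_lit 246)) (XT.lf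 (nat_lit 0) (nat_lit 10134168194) (nat_lit 380) (nat_lit 27452234703) (nat_lit 76) (nat_lit 8857904650) (nat_lit 117) (nat_lit 5) (nat_lit 122) (nat_lit 5) (nat_lit 118) (nat_lit 5) (nat_lit 404) (nat_lit 371) (nat_lit 245)))) (XT.nd (nat_lit 78) (nat_lit 608) (nat_lit 0) (XT.lf (nat_lit 0) (nat_lit 15571029952) (nat_lit 304) (nat_lit 10524540294) (nat_lit 380) (nat_lit 21817922338) (nat_lit 113) (nat_lit 5) (nat_lit 117) (nat_lit 5) (nat_lit 118) (nat_lit 5) (nat_lit 405) (nat_lit 371) (nat_lit 244)) (XT.nd (nat_lit 78) (nat_lit 380) (nat_lit 0) (XT.lf (nat_lit 0) (nat_lit 11920421925) (nat_lit 228) (nat_lit 31500747399) (nat_lit 304) (nat_lit 6017985145) (nat_lit 110) (nat_lit 5) (nat_lit 113) (nat_lit 5) (nat_lit 114) (nat_lit 5) (nat_lit 406) (nat_lit 371) (nat_lit 243)) (XT.lf (nat_lit 0) (nat_lit 7976967423) (nat_lit 304) (nat_lit 2902134271) (nat_lit 380) (nat_lit 40143546847) (nat_lit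 105) (nat_lit 5) (nat_lit 109) (nat_lit 5) (nat_lit 110) (nat_lit 5) (nat_lit 407) (nat_lit 371) (nat_lit 242)))))) (XT.nd (nat_lit 468) (nat_lit 1292) (nat_lit 0) (XT.nd (nat_lit 234) (nat_lit 760) (nat_lit 0) (XT.nd (nat_lit 78) (nat_lit 304) (nat_lit 0) (XT.lf (nat_lit 0) (nat_lit 3593929567) (nat_lit 228) (nat_lit 25583628384) (nat_lit 304) (nat_lit 23485543796) (nat_lit 102) (nat_lit 5) (nat_lit 105) (nat_lit 5) (nat_lit 106) (nat_lit 5) (nat_lit 408) (nat_lit 371) (nat_lit 241)) (XT.nd (nat_lit 78) (nat_lit 304) (nat_lit 0) (XT.lf (nat_lit 0) (nat_lit 48901632904) (nat_lit 304) (nat_lit 988708055) (nat_lit 76) (nat_lit 4479916957) (nat_lit 102) (nat_lit 5) (nat_lit 106) (nat_lit 5) (nat_lit 103) (nat_lit 5) (nat_lit 409) (nat_lit 371) (nat_lit 240)) (XT.lf (nat_lit 0) (nat_lit 13929725267) (nat_lit 304) (nat_lit 6068059174) (nat_lit 76) (nat_lit 36138819301) (nat_lit 98) (nat_lit 5) (nat_lit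 102) (nat_lit 5) (nat_lit 99) (nat_lit 5) (nat_lit 410) (nat_lit 371) (nat_lit 239)))) (XT.nd (nat_lit 78) (nat_lit 532) (nat_lit 0) (XT.lf (nat_lit 0) (nat_lit 34753254369) (nat_lit 304) (nat_lit 11537052384) (nat_lit 76) (nat_lit 11682285975) (nat_lit 95) (nat_lit 5) (nat_lit 99) (nat_lit 5) (nat_lit 96) (nat_lit 5) (nat_lit 411) (nat_lit 371) (nat_lit 238)) (XT.nd (nat_lit 78) (nat_lit 304) (nat_lit 0) (XT.lf (nat_lit 0) (nat_lit 42409855360) (nat_lit 228) (nat_lit 14875833827) (nat_lit 304) (nat_lit 2594661088) (nat_lit 92) (nat_lit 5) (nat_lit 95) (nat_lit 5) (nat_lit 96) (nat_lit 5) (nat_lit 412) (nat_lit 371) (nat_lit 237)) (XT.lf (nat_lit 0) (nat_lit 19350077304) (nat_lit 304) (nat_lit 24080325622) (nat_lit 76) (nat_lit 18427773408) (nat_lit 88) (nat_lit 5) (nat_lit 92) (nat_lit 5) (nat_lit 89) (nat_lit 5) (nat_lit 413) (nat_lit 371) (nat_lit 236))))) (XT.nd (nat_lit 234) (nat_lit 608)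 (nat_lit 0) (XT.nd (nat_lit 78) (nat_lit 456) (nat_lit 0) (XT.lf (nat_lit 0) (nat_lit 32676081732) (nat_lit 228) (nat_lit 10304050378) (nat_lit 304) (nat_lit 20934739534) (nat_lit 85) (nat_lit 5) (nat_lit 88) (nat_lit 5) (nat_lit 89) (nat_lit 5) (nat_lit 414) (nat_lit 371) (nat_lit 235)) (XT.nd (nat_lit 78) (nat_lit 228) (nat_lit 0) (XT.lf (nat_lit 0) (nat_lit 2431668151) (nat_lit 228) (nat_lit 39088117184) (nat_lit 76) (nat_lit 24531685241) (nat_lit 82) (nat_lit 5) (nat_lit 85) (nat_lit 5) (nat_lit 83) (nat_lit 5) (nat_lit 415) (nat_lit 371) (nat_lit 234)) (XT.lf (nat_lit 0) (nat_lit 20517648803) (nat_lit 228) (nat_lit 6641390781) (nat_lit 304) (nat_lit 41110874220) (nat_lit 79) (nat_lit 5) (nat_lit 82) (nat_lit 5) (nat_lit 83) (nat_lit 5) (nat_lit 416) (nat_lit 371) (nat_lit 233)))) (XT.nd (nat_lit 156) (nat_lit 152) (nat_lit 0) (XT.nd (nat_lit 78) (nat_lit 304) (nat_lit 0) (XT.lf (nat_lit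 0) (nat_lit 13293263179) (nat_lit 152) (nat_lit 40647560874) (nat_lit 228) (nat_lit 16633914539) (nat_lit 77) (nat_lit 5) (nat_lit 79) (nat_lit 5) (nat_lit 80) (nat_lit 5) (nat_lit 417) (nat_lit 371) (nat_lit 232)) (XT.lf (nat_lit 0) (nat_lit 5347020120) (nat_lit 228) (nat_lit 4153611296) (nat_lit 304) (nat_lit 63473239200) (nat_lit 73) (nat_lit 5) (nat_lit 76) (nat_lit 5) (nat_lit 77) (nat_lit 5) (nat_lit 418) (nat_lit 371) (nat_lit 231))) (XT.nd (nat_lit 78) (nat_lit 152) (nat_lit 0) (XT.lf (nat_lit 0) (nat_lit 37520908521) (nat_lit 304) (nat_lit 3680502907) (nat_lit 76) (nat_lit 34258917129) (nat_lit 73) (nat_lit 5) (nat_lit 77) (nat_lit 5) (nat_lit 74) (nat_lit 5) (nat_lit 419) (nat_lit 371) (nat_lit 230)) (XT.lf (nat_lit 0) (nat_lit 64676602867) (nat_lit 152) (nat_lit 2925331189) (nat_lit 228) (nat_lit 10449383914) (nat_lit 71) (nat_lit 5) (nat_lit 73) (nat_lit 5) (nat_lit 74) (nat_lit 5)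 (nat_lit 420) (nat_lit 371) (nat_lit 229))))))))
noncomputable def xc99 : XT := (XT.nd (nat_lit 50466) (nat_lit 0) (nat_lit 3648) (XT.nd (nat_lit 49452) (nat_lit 0) (nat_lit 12388) (XT.nd (nat_lit 468) (nat_lit 608) (nat_lit 0) (XT.nd (nat_lit 234) (nat_lit 456) (nat_lit 0) (XT.nd (nat_lit 78) (nat_lit 304) (nat_lit 0) (XT.lf (nat_lit 0) (nat_lit 19000805679) (nat_lit 228) (nat_lit 24435081076) (nat_lit 76) (nat_lit 37302310205) (nat_lit 68) (nat_lit 5) (nat_lit 71) (nat_lit 5) (nat_lit 69) (nat_lit 5) (nat_lit 421) (nat_lit 371) (nat_lit 228)) (XT.nd (nat_lit 78) (nat_lit 152) (nat_lit 0) (XT.lf (nat_lit 0) (nat_lit 46962603518) (nat_lit 152) (nat_lit 3363083522) (nat_lit 228) (nat_lit 33212080873) (nat_lit 66) (nat_lit 5) (nat_lit 68) (nat_lit 5) (nat_lit 69) (nat_lit 5) (nat_lit 422) (nat_lit 371) (nat_lit 227)) (XT.lf (nat_lit 0) (nat_lit 36298319947) (nat_lit 152) (nat_lit 47889948627) (nat_lit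 228) (nat_lit 2259905672) (nat_lit 64) (nat_lit 5) (nat_lit 66) (nat_lit 5) (nat_lit 67) (nat_lit 5) (nat_lit 423) (nat_lit 371) (nat_lit 226)))) (XT.nd (nat_lit 78) (nat_lit 228) (nat_lit 0) (XT.lf (nat_lit 0) (nat_lit 24225073715) (nat_lit 152) (nat_lit 6068210940) (nat_lit 228) (nat_lit 59182791328) (nat_lit 61) (nat_lit 5) (nat_lit 63) (nat_lit 5) (nat_lit 64) (nat_lit 5) (nat_lit 424) (nat_lit 371) (nat_lit 225)) (XT.nd (nat_lit 78) (nat_lit 76) (nat_lit 0) (XT.lf (nat_lit 0) (nat_lit 10534534341) (nat_lit 152) (nat_lit 54876239024) (nat_lit 228) (nat_lit 27214427321) (nat_lit 59) (nat_lit 5) (nat_lit 61) (nat_lit 5) (nat_lit 62) (nat_lit 5) (nat_lit 425) (nat_lit 371) (nat_lit 224)) (XT.lf (nat_lit 0) (nat_lit 6964604140) (nat_lit 228) (nat_lit 4573753802) (nat_lit 76) (nat_lit 84369506022) (nat_lit 58) (nat_lit 5) (nat_lit 61) (nat_lit 5) (nat_lit 59) (nat_lit 5) (nat_lit 426) (nat_lit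 371) (nat_lit 223))))) (XT.nd (nat_lit 234) (nat_lit 152) (nat_lit 0) (XT.nd (nat_lit 78) (nat_lit 304) (nat_lit 0) (XT.lf (nat_lit 0) (nat_lit 43378759895) (nat_lit 228) (nat_lit 21598822002) (nat_lit 76) (nat_lit 34336325148) (nat_lit 56) (nat_lit 5) (nat_lit 59) (nat_lit 5) (nat_lit 57) (nat_lit 5) (nat_lit 427) (nat_lit 371) (nat_lit 222)) (XT.nd (nat_lit 78) (nat_lit 152) (nat_lit 0) (XT.lf (nat_lit 0) (nat_lit 62420548048) (nat_lit 152) (nat_lit 19953952641) (nat_lit 228) (nat_lit 20492925653) (nat_lit 54) (nat_lit 5) (nat_lit 56) (nat_lit 5) (nat_lit 57) (nat_lit 5) (nat_lit 428) (nat_lit 371) (nat_lit 221)) (XT.lf (nat_lit 0) (nat_lit 17321909161) (nat_lit 152) (nat_lit 61630776906) (nat_lit 76) (nat_lit 27613309884) (nat_lit 52) (nat_lit 5) (nat_lit 54) (nat_lit 5) (nat_lit 53) (nat_lit 5) (nat_lit 429) (nat_lit 371) (nat_lit 220)))) (XT.nd (nat_lit 48594) (nat_lit 0) (nat_lit 14896)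 (XT.lf (nat_lit 0) (nat_lit 25065916677) (nat_lit 152) (nat_lit 32401502740) (nat_lit 228) (nat_lit 52950075184) (nat_lit 50) (nat_lit 5) (nat_lit 52) (nat_lit 5) (nat_lit 53) (nat_lit 5) (nat_lit 430) (nat_lit 371) (nat_lit 219)) (XT.nd (nat_lit 78) (nat_lit 0) (nat_lit 76) (XT.lf (nat_lit 0) (nat_lit 267898759) (nat_lit 1292) (nat_lit 4744062079) (nat_lit 1292) (nat_lit 4744062079) (nat_lit 246) (nat_lit 3) (nat_lit 263) (nat_lit 3) (nat_lit 263) (nat_lit 5) (nat_lit 372) (nat_lit 372) (nat_lit 276)) (XT.lf (nat_lit 0) (nat_lit 943818349) (nat_lit 1216) (nat_lit 13732987767) (nat_lit 1292) (nat_lit 5311083055) (nat_lit 247) (nat_lit 5) (nat_lit 263) (nat_lit 5) (nat_lit 264) (nat_lit 5) (nat_lit 373) (nat_lit 372) (nat_lit 275)))))) (XT.nd (nat_lit 468) (nat_lit 2660) (nat_lit 0) (XT.nd (nat_lit 234) (nat_lit 0) (nat_lit 152) (XT.nd (nat_lit 78) (nat_lit 0) (nat_lit 0) (XT.lf (nat_lit 0) (nat_lit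 1585630174) (nat_lit 1216) (nat_lit 18055616574) (nat_lit 1292) (nat_lit 839883846) (nat_lit 248) (nat_lit 5) (nat_lit 264) (nat_lit 5) (nat_lit 265) (nat_lit 5) (nat_lit 374) (nat_lit 372) (nat_lit 274)) (XT.nd (nat_lit 78) (nat_lit 0) (nat_lit 76) (XT.lf (nat_lit 0) (nat_lit 2533220769) (nat_lit 1216) (nat_lit 1475834459) (nat_lit 1292) (nat_lit 16981775472) (nat_lit 248) (nat_lit 5) (nat_lit 264) (nat_lit 5) (nat_lit 265) (nat_lit 5) (nat_lit 375) (nat_lit 372) (nat_lit 273)) (XT.lf (nat_lit 0) (nat_lit 3788751416) (nat_lit 1216) (nat_lit 5402774067) (nat_lit 1292) (nat_lit 12326680422) (nat_lit 249) (nat_lit 5) (nat_lit 265) (nat_lit 5) (nat_lit 266) (nat_lit 5) (nat_lit 376) (nat_lit 372) (nat_lit 272)))) (XT.nd (nat_lit 78) (nat_lit 0) (nat_lit 76) (XT.lf (nat_lit 0) (nat_lit 5341555629) (nat_lit 1216) (nat_lit 9395435089) (nat_lit 1292) (nat_lit 7327930826) (nat_lit 250) (nat_lit 5) (nat_lit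 266) (nat_lit 5) (nat_lit 267) (nat_lit 5) (nat_lit 377) (nat_lit 372) (nat_lit 271)) (XT.nd (nat_lit 78) (nat_lit 0) (nat_lit 0) (XT.lf (nat_lit 0) (nat_lit 7213640110) (nat_lit 1216) (nat_lit 13454853289) (nat_lit 1292) (nat_lit 1963236633) (nat_lit 251) (nat_lit 5) (nat_lit 267) (nat_lit 5) (nat_lit 268) (nat_lit 5) (nat_lit 378) (nat_lit 372) (nat_lit 270)) (XT.lf (nat_lit 76) (nat_lit 5599148903) (nat_lit 0) (nat_lit 3866125948) (nat_lit 1292) (nat_lit 13753031680) (nat_lit 252) (nat_lit 5) (nat_lit 251) (nat_lit 5) (nat_lit 268) (nat_lit 5) (nat_lit 379) (nat_lit 372) (nat_lit 269))))) (XT.nd (nat_lit 234) (nat_lit 2964) (nat_lit 0) (XT.nd (nat_lit 78) (nat_lit 0) (nat_lit 76) (XT.lf (nat_lit 76) (nat_lit 1950504719) (nat_lit 0) (nat_lit 10156359438) (nat_lit 1292) (nat_lit 11719032201) (nat_lit 253) (nat_lit 5) (nat_lit 252) (nat_lit 5) (nat_lit 269) (nat_lit 5) (nat_lit 380) (nat_lit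 372) (nat_lit 268)) (XT.nd (nat_lit 78) (nat_lit 0) (nat_lit 76) (XT.lf (nat_lit 0) (nat_lit 15161714457) (nat_lit 1216) (nat_lit 1715334696) (nat_lit 1292) (nat_lit 7578386492) (nat_lit 253) (nat_lit 5) (nat_lit 269) (nat_lit 5) (nat_lit 270) (nat_lit 5) (nat_lit 381) (nat_lit 372) (nat_lit 267)) (XT.lf (nat_lit 0) (nat_lit 18659287210) (nat_lit 1216) (nat_lit 5393615263) (nat_lit 76) (nat_lit 1054855183) (nat_lit 254) (nat_lit 5) (nat_lit 270) (nat_lit 5) (nat_lit 255) (nat_lit 5) (nat_lit 382) (nat_lit 372) (nat_lit 266)))) (XT.nd (nat_lit 156) (nat_lit 1216) (nat_lit 0) (XT.nd (nat_lit 78) (nat_lit 684) (nat_lit 0) (XT.lf (nat_lit 0) (nat_lit 16601805613) (nat_lit 1216) (nat_lit 6065734030) (nat_lit 1292) (nat_lit 3115087004) (nat_lit 238) (nat_lit 5) (nat_lit 254) (nat_lit 5) (nat_lit 255) (nat_lit 5) (nat_lit 383) (nat_lit 372) (nat_lit 265)) (XT.lf (nat_lit 0) (nat_lit 677500628) (nat_lit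 684) (nat_lit 13040677622) (nat_lit 76) (nat_lit 12763952952) (nat_lit 229) (nat_lit 5) (nat_lit 238) (nat_lit 5) (nat_lit 230) (nat_lit 5) (nat_lit 384) (nat_lit 372) (nat_lit 264))) (XT.nd (nat_lit 78) (nat_lit 608) (nat_lit 0) (XT.lf (nat_lit 0) (nat_lit 4892320697) (nat_lit 684) (nat_lit 16991223130) (nat_lit 76) (nat_lit 5323235373) (nat_lit 221) (nat_lit 5) (nat_lit 230) (nat_lit 5) (nat_lit 222) (nat_lit 5) (nat_lit 385) (nat_lit 372) (nat_lit 263)) (XT.lf (nat_lit 0) (nat_lit 6928457658) (nat_lit 608) (nat_lit 2719354645) (nat_lit 684) (nat_lit 18309953500) (nat_lit 213) (nat_lit 5) (nat_lit 221) (nat_lit 5) (nat_lit 222) (nat_lit 5) (nat_lit 386) (nat_lit 372) (nat_lit 262))))))) (XT.nd (nat_lit 936) (nat_lit 3572) (nat_lit 0) (XT.nd (nat_lit 468) (nat_lit 2584) (nat_lit 0) (XT.nd (nat_lit 234) (nat_lit 1520) (nat_lit 0) (XT.nd (nat_lit 78) (nat_lit 532) (nat_lit 0) (XT.lf (nat_lit 0)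 (nat_lit 3547898941) (nat_lit 532) (nat_lit 11460925654) (nat_lit 608) (nat_lit 13726448680) (nat_lit 206) (nat_lit 5) (nat_lit 213) (nat_lit 5) (nat_lit 214) (nat_lit 5) (nat_lit 387) (nat_lit 372) (nat_lit 261)) (XT.nd (nat_lit 78) (nat_lit 0) (nat_lit 0) (XT.lf (nat_lit 0) (nat_lit 127726168) (nat_lit 532) (nat_lit 20830543955) (nat_lit 608) (nat_lit 8583778256) (nat_lit 199) (nat_lit 5) (nat_lit 206) (nat_lit 5) (nat_lit 207) (nat_lit 5) (nat_lit 388) (nat_lit 372) (nat_lit 260)) (XT.lf (nat_lit 0) (nat_lit 27106796843) (nat_lit 532) (nat_lit 462691868) (nat_lit 608) (nat_lit 2808748062) (nat_lit 199) (nat_lit 5) (nat_lit 206) (nat_lit 5) (nat_lit 207) (nat_lit 5) (nat_lit 389) (nat_lit 372) (nat_lit 259)))) (XT.nd (nat_lit 78) (nat_lit 988) (nat_lit 0) (XT.lf (nat_lit 0) (nat_lit 3622769657) (nat_lit 532) (nat_lit 6834420718) (nat_lit 76) (nat_lit 20785171217) (nat_lit 192) (nat_lit 5) (nat_lit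 199) (nat_lit 5) (nat_lit 193) (nat_lit 5) (nat_lit 390) (nat_lit 372) (nat_lit 258)) (XT.nd (nat_lit 78) (nat_lit 456) (nat_lit 0) (XT.lf (nat_lit 0) (nat_lit 10665266371) (nat_lit 608) (nat_lit 10476823898) (nat_lit 76) (nat_lit 10996346466) (nat_lit 185) (nat_lit 5) (nat_lit 193) (nat_lit 5) (nat_lit 186) (nat_lit 5) (nat_lit 391) (nat_lit 372) (nat_lit 257)) (XT.lf (nat_lit 0) (nat_lit 18414385259) (nat_lit 532) (nat_lit 14172698130) (nat_lit 76) (nat_lit 481600309) (nat_lit 179) (nat_lit 5) (nat_lit 186) (nat_lit 5) (nat_lit 180) (nat_lit 5) (nat_lit 392) (nat_lit 372) (nat_lit 256))))) (XT.nd (nat_lit 234) (nat_lit 1216) (nat_lit 0) (XT.nd (nat_lit 78) (nat_lit 912) (nat_lit 0) (XT.lf (nat_lit 0) (nat_lit 16002214619) (nat_lit 456) (nat_lit 11016670705) (nat_lit 532) (nat_lit 7012522772) (nat_lit 173) (nat_lit 5) (nat_lit 179) (nat_lit 5) (nat_lit 180) (nat_lit 5) (nat_lit 393) (nat_lit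 372) (nat_lit 255)) (XT.nd (nat_lit 78) (nat_lit 456) (nat_lit 0) (XT.lf (nat_lit 0) (nat_lit 1372267667) (nat_lit 456) (nat_lit 21968056694) (nat_lit 76) (nat_lit 11690235503) (nat_lit 167) (nat_lit 5) (nat_lit 173) (nat_lit 5) (nat_lit 168) (nat_lit 5) (nat_lit 394) (nat_lit 372) (nat_lit 254)) (XT.lf (nat_lit 0) (nat_lit 10013455810) (nat_lit 456) (nat_lit 406327722) (nat_lit 532) (nat_lit 25646149795) (nat_lit 161) (nat_lit 5) (nat_lit 167) (nat_lit 5) (nat_lit 168) (nat_lit 5) (nat_lit 395) (nat_lit 372) (nat_lit 253)))) (XT.nd (nat_lit 78) (nat_lit 836) (nat_lit 0) (XT.lf (nat_lit 0) (nat_lit 6800199596) (nat_lit 380) (nat_lit 13633342500) (nat_lit 456) (nat_lit 16704119745) (nat_lit 156) (nat_lit 5) (nat_lit 161) (nat_lit 5) (nat_lit 162) (nat_lit 5) (nat_lit 396) (nat_lit 372) (nat_lit 252)) (XT.nd (nat_lit 78) (nat_lit 456) (nat_lit 0) (XT.lf (nat_lit 0) (nat_lit 3538513443) (nat_lit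 380) (nat_lit 27810572973) (nat_lit 456) (nat_lit 6901859699) (nat_lit 151) (nat_lit 5) (nat_lit 156) (nat_lit 5) (nat_lit 157) (nat_lit 5) (nat_lit 397) (nat_lit 372) (nat_lit 251)) (XT.lf (nat_lit 0) (nat_lit 152102627) (nat_lit 380) (nat_lit 3619682445) (nat_lit 456) (nat_lit 35633710895) (nat_lit 145) (nat_lit 5) (nat_lit 150) (nat_lit 5) (nat_lit 151) (nat_lit 5) (nat_lit 398) (nat_lit 372) (nat_lit 250)))))) (XT.nd (nat_lit 468) (nat_lit 1824) (nat_lit 0) (XT.nd (nat_lit 234) (nat_lit 1064) (nat_lit 0) (XT.nd (nat_lit 78) (nat_lit 684) (nat_lit 0) (XT.lf (nat_lit 0) (nat_lit 15401142187) (nat_lit 456) (nat_lit 3413590786) (nat_lit 76) (nat_lit 21784049145) (nat_lit 145) (nat_lit 5) (nat_lit 151) (nat_lit 5) (nat_lit 146) (nat_lit 5) (nat_lit 399) (nat_lit 372) (nat_lit 249)) (XT.nd (nat_lit 78) (nat_lit 304) (nat_lit 0) (XT.lf (nat_lit 0) (nat_lit 28043151716) (nat_lit 456) (nat_lit 7053883392)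 (nat_lit 76) (nat_lit 6741763836) (nat_lit 140) (nat_lit 5) (nat_lit 146) (nat_lit 5) (nat_lit 141) (nat_lit 5) (nat_lit 400) (nat_lit 372) (nat_lit 248)) (XT.lf (nat_lit 0) (nat_lit 32255391618) (nat_lit 304) (nat_lit 9591048699) (nat_lit 380) (nat_lit 1278502749) (nat_lit 136) (nat_lit 5) (nat_lit 140) (nat_lit 5) (nat_lit 141) (nat_lit 5) (nat_lit 401) (nat_lit 372) (nat_lit 247)))) (XT.nd (nat_lit 78) (nat_lit 608) (nat_lit 0) (XT.lf (nat_lit 0) (nat_lit 12155203810) (nat_lit 456) (nat_lit 14971552331) (nat_lit 76) (nat_lit 17329551746) (nat_lit 130) (nat_lit 5) (nat_lit 136) (nat_lit 5) (nat_lit 131) (nat_lit 5) (nat_lit 402) (nat_lit 372) (nat_lit 246)) (XT.nd (nat_lit 78) (nat_lit 304) (nat_lit 0) (XT.lf (nat_lit 0) (nat_lit 26633452865) (nat_lit 304) (nat_lit 60843446) (nat_lit 380) (nat_lit 19145762223) (nat_lit 126) (nat_lit 5) (nat_lit 130) (nat_lit 5) (nat_lit 131) (nat_lit 5) (nat_lit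 403) (nat_lit 372) (nat_lit 245)) (XT.lf (nat_lit 0) (nat_lit 23519639370) (nat_lit 304) (nat_lit 19089284975) (nat_lit 380) (nat_lit 4664616461) (nat_lit 122) (nat_lit 5) (nat_lit 126) (nat_lit 5) (nat_lit 127) (nat_lit 5) (nat_lit 404) (nat_lit 372) (nat_lit 244))))) (XT.nd (nat_lit 234) (nat_lit 912) (nat_lit 0) (XT.nd (nat_lit 78) (nat_lit 532) (nat_lit 0) (XT.lf (nat_lit 0) (nat_lit 10816657801) (nat_lit 380) (nat_lit 28561297336) (nat_lit 76) (nat_lit 9383251103) (nat_lit 117) (nat_lit 5) (nat_lit 122) (nat_lit 5) (nat_lit 118) (nat_lit 5) (nat_lit 405) (nat_lit 372) (nat_lit 243)) (XT.nd (nat_lit 78) (nat_lit 228) (nat_lit 0) (XT.lf (nat_lit 0) (nat_lit 16605575969) (nat_lit 304) (nat_lit 10964644228) (nat_lit 380) (nat_lit 22733809682) (nat_lit 113) (nat_lit 5) (nat_lit 117) (nat_lit 5) (nat_lit 118) (nat_lit 5) (nat_lit 406) (nat_lit 372) (nat_lit 242)) (XT.lf (nat_lit 0) (nat_lit 12769285445)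 (nat_lit 228) (nat_lit 32987943590) (nat_lit 304) (nat_lit 6148893892) (nat_lit 110) (nat_lit 5) (nat_lit 113) (nat_lit 5) (nat_lit 114) (nat_lit 5) (nat_lit 407) (nat_lit 372) (nat_lit 241)))) (XT.nd (nat_lit 156) (nat_lit 304) (nat_lit 0) (XT.nd (nat_lit 78) (nat_lit 228) (nat_lit 0) (XT.lf (nat_lit 0) (nat_lit 8624669576) (nat_lit 304) (nat_lit 2959515893) (nat_lit 380) (nat_lit 41984725366) (nat_lit 105) (nat_lit 5) (nat_lit 109) (nat_lit 5) (nat_lit 110) (nat_lit 5) (nat_lit 408) (nat_lit 372) (nat_lit 240)) (XT.lf (nat_lit 0) (nat_lit 4019257919) (nat_lit 228) (nat_lit 26773798100) (nat_lit 304) (nat_lit 24498467665) (nat_lit 102) (nat_lit 5) (nat_lit 105) (nat_lit 5) (nat_lit 106) (nat_lit 5) (nat_lit 409) (nat_lit 372) (nat_lit 239))) (XT.nd (nat_lit 78) (nat_lit 304) (nat_lit 0) (XT.lf (nat_lit 0) (nat_lit 51496691508) (nat_lit 304) (nat_lit 800515468) (nat_lit 76) (nat_lit 4787031628)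 (nat_lit 102) (nat_lit 5) (nat_lit 106) (nat_lit 5) (nat_lit 103) (nat_lit 5) (nat_lit 410) (nat_lit 372) (nat_lit 238)) (XT.lf (nat_lit 0) (nat_lit 14772732377) (nat_lit 304) (nat_lit 6137699229) (nat_lit 76) (nat_lit 38028576278) (nat_lit 98) (nat_lit 5) (nat_lit 102) (nat_lit 5) (nat_lit 99) (nat_lit 5) (nat_lit 411) (nat_lit 372) (nat_lit 237))))))))
noncomputable def xc100 : XT := (XT.nd (nat_lit 50466) (nat_lit 0) (nat_lit 6384) (XT.nd (nat_lit 936) (nat_lit 1064) (nat_lit 0) (XT.nd (nat_lit 468) (nat_lit 988) (nat_lit 0) (XT.nd (nat_lit 234) (nat_lit 684) (nat_lit 0) (XT.nd (nat_lit 78) (nat_lit 532) (nat_lit 0) (XT.lf (nat_lit 0) (nat_lit 36633463711) (nat_lit 304) (nat_lit 11883382405) (nat_lit 76) (nat_lit 12350070878) (nat_lit 95) (nat_lit 5) (nat_lit 99) (nat_lit 5) (nat_lit 96) (nat_lit 5) (nat_lit 412) (nat_lit 372) (nat_lit 236)) (XT.nd (nat_lit 78) (nat_lit 304) (nat_lit 0) (XT.lf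 (nat_lit 0) (nat_lit 44754262843) (nat_lit 228) (nat_lit 15533621898) (nat_lit 304) (nat_lit 2582318123) (nat_lit 92) (nat_lit 5) (nat_lit 95) (nat_lit 5) (nat_lit 96) (nat_lit 5) (nat_lit 413) (nat_lit 372) (nat_lit 235)) (XT.lf (nat_lit 0) (nat_lit 20453189301) (nat_lit 304) (nat_lit 25060878762) (nat_lit 76) (nat_lit 19432923332) (nat_lit 88) (nat_lit 5) (nat_lit 92) (nat_lit 5) (nat_lit 89) (nat_lit 5) (nat_lit 414) (nat_lit 372) (nat_lit 234)))) (XT.nd (nat_lit 78) (nat_lit 456) (nat_lit 0) (XT.lf (nat_lit 0) (nat_lit 34526943434) (nat_lit 228) (nat_lit 10733432374) (nat_lit 304) (nat_lit 21846278008) (nat_lit 85) (nat_lit 5) (nat_lit 88) (nat_lit 5) (nat_lit 89) (nat_lit 5) (nat_lit 415) (nat_lit 372) (nat_lit 233)) (XT.nd (nat_lit 78) (nat_lit 228) (nat_lit 0) (XT.lf (nat_lit 0) (nat_lit 2682369234) (nat_lit 228) (nat_lit 40826048633) (nat_lit 76) (nat_lit 25841730240) (nat_lit 82) (nat_lit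 5) (nat_lit 85) (nat_lit 5) (nat_lit 83) (nat_lit 5) (nat_lit 416) (nat_lit 372) (nat_lit 232)) (XT.lf (nat_lit 0) (nat_lit 21753800457) (nat_lit 228) (nat_lit 6888181558) (nat_lit 304) (nat_lit 43037656369) (nat_lit 79) (nat_lit 5) (nat_lit 82) (nat_lit 5) (nat_lit 83) (nat_lit 5) (nat_lit 417) (nat_lit 372) (nat_lit 231))))) (XT.nd (nat_lit 234) (nat_lit 532) (nat_lit 0) (XT.nd (nat_lit 78) (nat_lit 304) (nat_lit 0) (XT.lf (nat_lit 0) (nat_lit 14165034986) (nat_lit 152) (nat_lit 42594640365) (nat_lit 228) (nat_lit 17340125489) (nat_lit 77) (nat_lit 5) (nat_lit 79) (nat_lit 5) (nat_lit 80) (nat_lit 5) (nat_lit 418) (nat_lit 372) (nat_lit 230)) (XT.nd (nat_lit 78) (nat_lit 0) (nat_lit 0) (XT.lf (nat_lit 0) (nat_lit 5817940734) (nat_lit 228) (nat_lit 4276856343) (nat_lit 304) (nat_lit 66524174205) (nat_lit 73) (nat_lit 5) (nat_lit 76) (nat_lit 5) (nat_lit 77) (nat_lit 5) (nat_lit 419) (nat_lit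 372) (nat_lit 229)) (XT.lf (nat_lit 0) (nat_lit 39511187981) (nat_lit 304) (nat_lit 3668003455) (nat_lit 76) (nat_lit 36050708583) (nat_lit 73) (nat_lit 5) (nat_lit 77) (nat_lit 5) (nat_lit 74) (nat_lit 5) (nat_lit 420) (nat_lit 372) (nat_lit 228)))) (XT.nd (nat_lit 78) (nat_lit 380) (nat_lit 0) (XT.lf (nat_lit 0) (nat_lit 68101324270) (nat_lit 152) (nat_lit 2991335771) (nat_lit 228) (nat_lit 10857887859) (nat_lit 71) (nat_lit 5) (nat_lit 73) (nat_lit 5) (nat_lit 74) (nat_lit 5) (nat_lit 421) (nat_lit 372) (nat_lit 227)) (XT.nd (nat_lit 78) (nat_lit 152) (nat_lit 0) (XT.lf (nat_lit 0) (nat_lit 20059832579) (nat_lit 228) (nat_lit 25466739948) (nat_lit 76) (nat_lit 39245248880) (nat_lit 68) (nat_lit 5) (nat_lit 71) (nat_lit 5) (nat_lit 69) (nat_lit 5) (nat_lit 422) (nat_lit 372) (nat_lit 226)) (XT.lf (nat_lit 0) (nat_lit 49495379836) (nat_lit 152) (nat_lit 3452163266) (nat_lit 228) (nat_lit 34763931006)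 (nat_lit 66) (nat_lit 5) (nat_lit 68) (nat_lit 5) (nat_lit 69) (nat_lit 5) (nat_lit 423) (nat_lit 372) (nat_lit 225)))))) (XT.nd (nat_lit 468) (nat_lit 152) (nat_lit 0) (XT.nd (nat_lit 234) (nat_lit 380) (nat_lit 0) (XT.nd (nat_lit 78) (nat_lit 380) (nat_lit 0) (XT.lf (nat_lit 0) (nat_lit 38294941902) (nat_lit 152) (nat_lit 50205755170) (nat_lit 228) (nat_lit 2266781100) (nat_lit 64) (nat_lit 5) (nat_lit 66) (nat_lit 5) (nat_lit 67) (nat_lit 5) (nat_lit 424) (nat_lit 372) (nat_lit 224)) (XT.nd (nat_lit 78) (nat_lit 152) (nat_lit 0) (XT.lf (nat_lit 0) (nat_lit 25614849734) (nat_lit 152) (nat_lit 6293909577) (nat_lit 228) (nat_lit 62038082906) (nat_lit 61) (nat_lit 5) (nat_lit 63) (nat_lit 5) (nat_lit 64) (nat_lit 5) (nat_lit 425) (nat_lit 372) (nat_lit 223)) (XT.lf (nat_lit 0) (nat_lit 11236890978) (nat_lit 152) (nat_lit 57542830687) (nat_lit 228) (nat_lit 28473774145) (nat_lit 59) (nat_lit 5)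 (nat_lit 61) (nat_lit 5) (nat_lit 62) (nat_lit 5) (nat_lit 426) (nat_lit 372) (nat_lit 222)))) (XT.nd (nat_lit 78) (nat_lit 304) (nat_lit 0) (XT.lf (nat_lit 0) (nat_lit 7407497547) (nat_lit 228) (nat_lit 4633279247) (nat_lit 76) (nat_lit 88659628801) (nat_lit 58) (nat_lit 5) (nat_lit 61) (nat_lit 5) (nat_lit 59) (nat_lit 5) (nat_lit 427) (nat_lit 372) (nat_lit 221)) (XT.nd (nat_lit 78) (nat_lit 152) (nat_lit 0) (XT.lf (nat_lit 0) (nat_lit 45640130465) (nat_lit 228) (nat_lit 22512384365) (nat_lit 76) (nat_lit 36124303476) (nat_lit 56) (nat_lit 5) (nat_lit 59) (nat_lit 5) (nat_lit 57) (nat_lit 5) (nat_lit 428) (nat_lit 372) (nat_lit 220)) (XT.lf (nat_lit 0) (nat_lit 65703184976) (nat_lit 152) (nat_lit 20879625262) (nat_lit 228) (nat_lit 21425289301) (nat_lit 54) (nat_lit 5) (nat_lit 56) (nat_lit 5) (nat_lit 57) (nat_lit 5) (nat_lit 429) (nat_lit 372) (nat_lit 219))))) (XT.nd (nat_lit 48828) (nat_lit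 0) (nat_lit 14896) (XT.nd (nat_lit 48672) (nat_lit 0) (nat_lit 14744) (XT.lf (nat_lit 0) (nat_lit 18276386548) (nat_lit 152) (nat_lit 64551621692) (nat_lit 76) (nat_lit 29063626263) (nat_lit 52) (nat_lit 5) (nat_lit 54) (nat_lit 5) (nat_lit 53) (nat_lit 5) (nat_lit 430) (nat_lit 372) (nat_lit 218)) (XT.nd (nat_lit 78) (nat_lit 0) (nat_lit 76) (XT.lf (nat_lit 0) (nat_lit 558807187) (nat_lit 1292) (nat_lit 4838287148) (nat_lit 1292) (nat_lit 4838287148) (nat_lit 246) (nat_lit 3) (nat_lit 263) (nat_lit 3) (nat_lit 263) (nat_lit 5) (nat_lit 373) (nat_lit 373) (nat_lit 274)) (XT.lf (nat_lit 0) (nat_lit 1519839508) (nat_lit 1216) (nat_lit 14123279881) (nat_lit 1292) (nat_lit 5328076142) (nat_lit 247) (nat_lit 5) (nat_lit 263) (nat_lit 5) (nat_lit 264) (nat_lit 5) (nat_lit 374) (nat_lit 373) (nat_lit 273)))) (XT.nd (nat_lit 78) (nat_lit 0) (nat_lit 0) (XT.lf (nat_lit 0) (nat_lit 2169225778) (nat_lit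 1216) (nat_lit 18653029276) (nat_lit 1292) (nat_lit 667590084) (nat_lit 248) (nat_lit 5) (nat_lit 264) (nat_lit 5) (nat_lit 265) (nat_lit 5) (nat_lit 375) (nat_lit 373) (nat_lit 272)) (XT.nd (nat_lit 78) (nat_lit 0) (nat_lit 76) (XT.lf (nat_lit 0) (nat_lit 3140180945) (nat_lit 1216) (nat_lit 1258799394) (nat_lit 1292) (nat_lit 17626780480) (nat_lit 248) (nat_lit 5) (nat_lit 264) (nat_lit 5) (nat_lit 265) (nat_lit 5) (nat_lit 376) (nat_lit 373) (nat_lit 271)) (XT.lf (nat_lit 0) (nat_lit 4436624499) (nat_lit 1216) (nat_lit 5374717668) (nat_lit 1292) (nat_lit 12768828168) (nat_lit 249) (nat_lit 5) (nat_lit 265) (nat_lit 5) (nat_lit 266) (nat_lit 5) (nat_lit 377) (nat_lit 373) (nat_lit 270))))))) (XT.nd (nat_lit 936) (nat_lit 4788) (nat_lit 0) (XT.nd (nat_lit 468) (nat_lit 3876) (nat_lit 0) (XT.nd (nat_lit 234) (nat_lit 0) (nat_lit 152) (XT.nd (nat_lit 78) (nat_lit 0) (nat_lit 76) (XT.lf (nat_lit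 0) (nat_lit 6046583515) (nat_lit 1216) (nat_lit 9560754726) (nat_lit 1292) (nat_lit 7547507258) (nat_lit 250) (nat_lit 5) (nat_lit 266) (nat_lit 5) (nat_lit 267) (nat_lit 5) (nat_lit 378) (nat_lit 373) (nat_lit 269)) (XT.nd (nat_lit 78) (nat_lit 0) (nat_lit 0) (XT.lf (nat_lit 0) (nat_lit 7993066132) (nat_lit 1216) (nat_lit 13817903866) (nat_lit 1292) (nat_lit 1939609339) (nat_lit 251) (nat_lit 5) (nat_lit 267) (nat_lit 5) (nat_lit 268) (nat_lit 5) (nat_lit 379) (nat_lit 373) (nat_lit 268)) (XT.lf (nat_lit 76) (nat_lit 6179921174) (nat_lit 0) (nat_lit 4160312861) (nat_lit 1292) (nat_lit 14026770411) (nat_lit 252) (nat_lit 5) (nat_lit 251) (nat_lit 5) (nat_lit 268) (nat_lit 5) (nat_lit 380) (nat_lit 373) (nat_lit 267)))) (XT.nd (nat_lit 78) (nat_lit 0) (nat_lit 76) (XT.lf (nat_lit 76) (nat_lit 2353031115) (nat_lit 0) (nat_lit 10743751646) (nat_lit 1292) (nat_lit 11908712535) (nat_lit 253) (nat_lit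 5) (nat_lit 252) (nat_lit 5) (nat_lit 269) (nat_lit 5) (nat_lit 381) (nat_lit 373) (nat_lit 266)) (XT.nd (nat_lit 78) (nat_lit 0) (nat_lit 76) (XT.lf (nat_lit 0) (nat_lit 16285333971) (nat_lit 1216) (nat_lit 1498756710) (nat_lit 1292) (nat_lit 7882999669) (nat_lit 253) (nat_lit 5) (nat_lit 269) (nat_lit 5) (nat_lit 270) (nat_lit 5) (nat_lit 382) (nat_lit 373) (nat_lit 265)) (XT.lf (nat_lit 0) (nat_lit 19942651466) (nat_lit 1216) (nat_lit 5358395035) (nat_lit 76) (nat_lit 1051443169) (nat_lit 254) (nat_lit 5) (nat_lit 270) (nat_lit 5) (nat_lit 255) (nat_lit 5) (nat_lit 383) (nat_lit 373) (nat_lit 264))))) (XT.nd (nat_lit 234) (nat_lit 1672) (nat_lit 0) (XT.nd (nat_lit 78) (nat_lit 1292) (nat_lit 0) (XT.lf (nat_lit 0) (nat_lit 17728056959) (nat_lit 1216) (nat_lit 6409420734) (nat_lit 1292) (nat_lit 2924046435) (nat_lit 238) (nat_lit 5) (nat_lit 254) (nat_lit 5) (nat_lit 255) (nat_lit 5) (nat_lit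 384) (nat_lit 373) (nat_lit 263)) (XT.nd (nat_lit 78) (nat_lit 608) (nat_lit 0) (XT.lf (nat_lit 0) (nat_lit 1037730864) (nat_lit 684) (nat_lit 13388100314) (nat_lit 76) (nat_lit 13370489233) (nat_lit 229) (nat_lit 5) (nat_lit 238) (nat_lit 5) (nat_lit 230) (nat_lit 5) (nat_lit 385) (nat_lit 373) (nat_lit 262)) (XT.lf (nat_lit 0) (nat_lit 5450424485) (nat_lit 684) (nat_lit 17535203392) (nat_lit 76) (nat_lit 5571964990) (nat_lit 221) (nat_lit 5) (nat_lit 230) (nat_lit 5) (nat_lit 222) (nat_lit 5) (nat_lit 386) (nat_lit 373) (nat_lit 261)))) (XT.nd (nat_lit 78) (nat_lit 1064) (nat_lit 0) (XT.lf (nat_lit 0) (nat_lit 7571702022) (nat_lit 608) (nat_lit 2859913891) (nat_lit 684) (nat_lit 18914880875) (nat_lit 213) (nat_lit 5) (nat_lit 221) (nat_lit 5) (nat_lit 222) (nat_lit 5) (nat_lit 387) (nat_lit 373) (nat_lit 260)) (XT.nd (nat_lit 78) (nat_lit 532) (nat_lit 0) (XT.lf (nat_lit 0) (nat_lit 4022544725)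 (nat_lit 532) (nat_lit 12026596417) (nat_lit 608) (nat_lit 14114090094) (nat_lit 206) (nat_lit 5) (nat_lit 213) (nat_lit 5) (nat_lit 214) (nat_lit 5) (nat_lit 388) (nat_lit 373) (nat_lit 259)) (XT.lf (nat_lit 0) (nat_lit 431327101) (nat_lit 532) (nat_lit 21853852789) (nat_lit 608) (nat_lit 8725496788) (nat_lit 199) (nat_lit 5) (nat_lit 206) (nat_lit 5) (nat_lit 207) (nat_lit 5) (nat_lit 389) (nat_lit 373) (nat_lit 258)))))) (XT.nd (nat_lit 468) (nat_lit 2356) (nat_lit 0) (XT.nd (nat_lit 234) (nat_lit 1368) (nat_lit 0) (XT.nd (nat_lit 78) (nat_lit 1064) (nat_lit 0) (XT.lf (nat_lit 0) (nat_lit 28745198232) (nat_lit 532) (nat_lit 468475639) (nat_lit 608) (nat_lit 2675404150) (nat_lit 199) (nat_lit 5) (nat_lit 206) (nat_lit 5) (nat_lit 207) (nat_lit 5) (nat_lit 390) (nat_lit 373) (nat_lit 257)) (XT.nd (nat_lit 78) (nat_lit 532) (nat_lit 0) (XT.lf (nat_lit 0) (nat_lit 4062468272) (nat_lit 532) (nat_lit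 6888279225) (nat_lit 76) (nat_lit 21845883583) (nat_lit 192) (nat_lit 5) (nat_lit 199) (nat_lit 5) (nat_lit 193) (nat_lit 5) (nat_lit 391) (nat_lit 373) (nat_lit 256)) (XT.lf (nat_lit 0) (nat_lit 11447760098) (nat_lit 608) (nat_lit 10713793474) (nat_lit 76) (nat_lit 11576240671) (nat_lit 185) (nat_lit 5) (nat_lit 193) (nat_lit 5) (nat_lit 186) (nat_lit 5) (nat_lit 392) (nat_lit 373) (nat_lit 255)))) (XT.nd (nat_lit 78) (nat_lit 912) (nat_lit 0) (XT.lf (nat_lit 0) (nat_lit 19575516476) (nat_lit 532) (nat_lit 14595771177) (nat_lit 76) (nat_lit 543534618) (nat_lit 179) (nat_lit 5) (nat_lit 186) (nat_lit 5) (nat_lit 180) (nat_lit 5) (nat_lit 393) (nat_lit 373) (nat_lit 254)) (XT.nd (nat_lit 78) (nat_lit 456) (nat_lit 0) (XT.lf (nat_lit 0) (nat_lit 17079701636) (nat_lit 456) (nat_lit 11521758029) (nat_lit 532) (nat_lit 7124490643) (nat_lit 173) (nat_lit 5) (nat_lit 179) (nat_lit 5) (nat_lit 180) (nat_lit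 5) (nat_lit 394) (nat_lit 373) (nat_lit 253)) (XT.lf (nat_lit 0) (nat_lit 1666839919) (nat_lit 456) (nat_lit 22786064244) (nat_lit 76) (nat_lit 12322331614) (nat_lit 167) (nat_lit 5) (nat_lit 173) (nat_lit 5) (nat_lit 168) (nat_lit 5) (nat_lit 395) (nat_lit 373) (nat_lit 252))))) (XT.nd (nat_lit 234) (nat_lit 1140) (nat_lit 0) (XT.nd (nat_lit 78) (nat_lit 760) (nat_lit 0) (XT.lf (nat_lit 0) (nat_lit 10786486411) (nat_lit 456) (nat_lit 372103290) (nat_lit 532) (nat_lit 26704035959) (nat_lit 161) (nat_lit 5) (nat_lit 167) (nat_lit 5) (nat_lit 168) (nat_lit 5) (nat_lit 396) (nat_lit 373) (nat_lit 251)) (XT.nd (nat_lit 78) (nat_lit 380) (nat_lit 0) (XT.lf (nat_lit 0) (nat_lit 7410666074) (nat_lit 380) (nat_lit 14255096988) (nat_lit 456) (nat_lit 17322399056) (nat_lit 156) (nat_lit 5) (nat_lit 161) (nat_lit 5) (nat_lit 162) (nat_lit 5) (nat_lit 397) (nat_lit 373) (nat_lit 250)) (XT.lf (nat_lit 0)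 (nat_lit 3983783477) (nat_lit 380) (nat_lit 29136403207) (nat_lit 456) (nat_lit 7037134028) (nat_lit 151) (nat_lit 5) (nat_lit 156) (nat_lit 5) (nat_lit 157) (nat_lit 5) (nat_lit 398) (nat_lit 373) (nat_lit 249)))) (XT.nd (nat_lit 156) (nat_lit 684) (nat_lit 0) (XT.nd (nat_lit 78) (nat_lit 0) (nat_lit 0) (XT.lf (nat_lit 0) (nat_lit 424396762) (nat_lit 380) (nat_lit 3734449858) (nat_lit 456) (nat_lit 37210911418) (nat_lit 145) (nat_lit 5) (nat_lit 150) (nat_lit 5) (nat_lit 151) (nat_lit 5) (nat_lit 399) (nat_lit 373) (nat_lit 248)) (XT.lf (nat_lit 0) (nat_lit 16360826735) (nat_lit 456) (nat_lit 3327065357) (nat_lit 76) (nat_lit 22935084538) (nat_lit 145) (nat_lit 5) (nat_lit 151) (nat_lit 5) (nat_lit 146) (nat_lit 5) (nat_lit 400) (nat_lit 373) (nat_lit 247))) (XT.nd (nat_lit 78) (nat_lit 304) (nat_lit 0) (XT.lf (nat_lit 0) (nat_lit 29628950843) (nat_lit 456) (nat_lit 7151844676) (nat_lit 76)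 (nat_lit 7144381011) (nat_lit 140) (nat_lit 5) (nat_lit 146) (nat_lit 5) (nat_lit 141) (nat_lit 5) (nat_lit 401) (nat_lit 373) (nat_lit 246)) (XT.lf (nat_lit 0) (nat_lit 34115592218) (nat_lit 304) (nat_lit 10000445279) (nat_lit 380) (nat_lit 1159783882) (nat_lit 136) (nat_lit 5) (nat_lit 140) (nat_lit 5) (nat_lit 141) (nat_lit 5) (nat_lit 402) (nat_lit 373) (nat_lit 245))))))))
noncomputable def xc101 : XT := (XT.nd (nat_lit 1872) (nat_lit 532) (nat_lit 0) (XT.nd (nat_lit 936) (nat_lit 2356) (nat_lit 0) (XT.nd (nat_lit 468) (nat_lit 1368) (nat_lit 0) (XT.nd (nat_lit 234) (nat_lit 912) (nat_lit 0) (XT.nd (nat_lit 78) (nat_lit 608) (nat_lit 0) (XT.lf (nat_lit 0) (nat_lit 12936542394) (nat_lit 456) (nat_lit 15471730271) (nat_lit 76) (nat_lit 18265596492) (nat_lit 130) (nat_lit 5) (nat_lit 136) (nat_lit 5) (nat_lit 131) (nat_lit 5) (nat_lit 403) (nat_lit 373) (nat_lit 244)) (XT.nd (nat_lit 78) (nat_lit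 304) (nat_lit 0) (XT.lf (nat_lit 0) (nat_lit 28196737042) (nat_lit 380) (nat_lit 19920676930) (nat_lit 76) (nat_lit 9571165) (nat_lit 126) (nat_lit 5) (nat_lit 131) (nat_lit 5) (nat_lit 127) (nat_lit 5) (nat_lit 404) (nat_lit 373) (nat_lit 243)) (XT.lf (nat_lit 0) (nat_lit 24934224892) (nat_lit 304) (nat_lit 19967763104) (nat_lit 380) (nat_lit 4730308901) (nat_lit 122) (nat_lit 5) (nat_lit 126) (nat_lit 5) (nat_lit 127) (nat_lit 5) (nat_lit 405) (nat_lit 373) (nat_lit 242)))) (XT.nd (nat_lit 78) (nat_lit 532) (nat_lit 0) (XT.lf (nat_lit 0) (nat_lit 11516929418) (nat_lit 380) (nat_lit 29750315398) (nat_lit 76) (nat_lit 9927199345) (nat_lit 117) (nat_lit 5) (nat_lit 122) (nat_lit 5) (nat_lit 118) (nat_lit 5) (nat_lit 406) (nat_lit 373) (nat_lit 241)) (XT.nd (nat_lit 78) (nat_lit 228) (nat_lit 0) (XT.lf (nat_lit 0) (nat_lit 17668049344) (nat_lit 304) (nat_lit 11434760267) (nat_lit 380) (nat_lit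 23711762050) (nat_lit 113) (nat_lit 5) (nat_lit 117) (nat_lit 5) (nat_lit 118) (nat_lit 5) (nat_lit 407) (nat_lit 373) (nat_lit 240)) (XT.lf (nat_lit 0) (nat_lit 13637085248) (nat_lit 228) (nat_lit 34557666232) (nat_lit 304) (nat_lit 6302152183) (nat_lit 110) (nat_lit 5) (nat_lit 113) (nat_lit 5) (nat_lit 114) (nat_lit 5) (nat_lit 408) (nat_lit 373) (nat_lit 239))))) (XT.nd (nat_lit 234) (nat_lit 760) (nat_lit 0) (XT.nd (nat_lit 78) (nat_lit 228) (nat_lit 0) (XT.lf (nat_lit 0) (nat_lit 9281620772) (nat_lit 304) (nat_lit 3027922443) (nat_lit 380) (nat_lit 43933395809) (nat_lit 105) (nat_lit 5) (nat_lit 109) (nat_lit 5) (nat_lit 110) (nat_lit 5) (nat_lit 409) (nat_lit 373) (nat_lit 238)) (XT.nd (nat_lit 78) (nat_lit 0) (nat_lit 0) (XT.lf (nat_lit 0) (nat_lit 4443016167) (nat_lit 228) (nat_lit 28031751766) (nat_lit 304) (nat_lit 25577038830) (nat_lit 102) (nat_lit 5) (nat_lit 105) (nat_lit 5) (nat_lit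 106) (nat_lit 5) (nat_lit 410) (nat_lit 373) (nat_lit 237)) (XT.lf (nat_lit 0) (nat_lit 54207559605) (nat_lit 304) (nat_lit 625005650) (nat_lit 76) (nat_lit 5101774432) (nat_lit 102) (nat_lit 5) (nat_lit 106) (nat_lit 5) (nat_lit 103) (nat_lit 5) (nat_lit 411) (nat_lit 373) (nat_lit 236)))) (XT.nd (nat_lit 78) (nat_lit 456) (nat_lit 0) (XT.lf (nat_lit 0) (nat_lit 15644267722) (nat_lit 304) (nat_lit 6232554346) (nat_lit 76) (nat_lit 40005121656) (nat_lit 98) (nat_lit 5) (nat_lit 102) (nat_lit 5) (nat_lit 99) (nat_lit 5) (nat_lit 412) (nat_lit 373) (nat_lit 235)) (XT.nd (nat_lit 78) (nat_lit 228) (nat_lit 0) (XT.lf (nat_lit 0) (nat_lit 38594430886) (nat_lit 304) (nat_lit 12268460733) (nat_lit 76) (nat_lit 13043466127) (nat_lit 95) (nat_lit 5) (nat_lit 99) (nat_lit 5) (nat_lit 96) (nat_lit 5) (nat_lit 413) (nat_lit 373) (nat_lit 234)) (XT.lf (nat_lit 0) (nat_lit 47195073231) (nat_lit 228) (nat_lit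 16232295174) (nat_lit 304) (nat_lit 2582566892) (nat_lit 92) (nat_lit 5) (nat_lit 95) (nat_lit 5) (nat_lit 96) (nat_lit 5) (nat_lit 414) (nat_lit 373) (nat_lit 233)))))) (XT.nd (nat_lit 468) (nat_lit 912) (nat_lit 0) (XT.nd (nat_lit 234) (nat_lit 684) (nat_lit 0) (XT.nd (nat_lit 78) (nat_lit 456) (nat_lit 0) (XT.lf (nat_lit 0) (nat_lit 21598849338) (nat_lit 304) (nat_lit 26111235043) (nat_lit 76) (nat_lit 20480543424) (nat_lit 88) (nat_lit 5) (nat_lit 92) (nat_lit 5) (nat_lit 89) (nat_lit 5) (nat_lit 415) (nat_lit 373) (nat_lit 232)) (XT.nd (nat_lit 78) (nat_lit 228) (nat_lit 0) (XT.lf (nat_lit 0) (nat_lit 36450168261) (nat_lit 228) (nat_lit 11192262248) (nat_lit 304) (nat_lit 22815962881) (nat_lit 85) (nat_lit 5) (nat_lit 88) (nat_lit 5) (nat_lit 89) (nat_lit 5) (nat_lit 416) (nat_lit 373) (nat_lit 231)) (XT.lf (nat_lit 0) (nat_lit 2933601234) (nat_lit 228) (nat_lit 42671002394) (nat_lit 76)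 (nat_lit 27209518101) (nat_lit 82) (nat_lit 5) (nat_lit 85) (nat_lit 5) (nat_lit 83) (nat_lit 5) (nat_lit 417) (nat_lit 373) (nat_lit 230)))) (XT.nd (nat_lit 78) (nat_lit 456) (nat_lit 0) (XT.lf (nat_lit 0) (nat_lit 23032210856) (nat_lit 228) (nat_lit 7155240283) (nat_lit 304) (nat_lit 45072748656) (nat_lit 79) (nat_lit 5) (nat_lit 82) (nat_lit 5) (nat_lit 83) (nat_lit 5) (nat_lit 418) (nat_lit 373) (nat_lit 229)) (XT.nd (nat_lit 78) (nat_lit 304) (nat_lit 0) (XT.lf (nat_lit 0) (nat_lit 15061140385) (nat_lit 152) (nat_lit 44647004082) (nat_lit 228) (nat_lit 18093313371) (nat_lit 77) (nat_lit 5) (nat_lit 79) (nat_lit 5) (nat_lit 80) (nat_lit 5) (nat_lit 419) (nat_lit 373) (nat_lit 228)) (XT.lf (nat_lit 0) (nat_lit 6293481406) (nat_lit 228) (nat_lit 4414113656) (nat_lit 304) (nat_lit 69739065949) (nat_lit 73) (nat_lit 5) (nat_lit 76) (nat_lit 5) (nat_lit 77) (nat_lit 5) (nat_lit 420) (nat_lit 373)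 (nat_lit 227))))) (XT.nd (nat_lit 234) (nat_lit 532) (nat_lit 0) (XT.nd (nat_lit 78) (nat_lit 380) (nat_lit 0) (XT.lf (nat_lit 0) (nat_lit 41590361016) (nat_lit 304) (nat_lit 3673150025) (nat_lit 76) (nat_lit 37924759293) (nat_lit 73) (nat_lit 5) (nat_lit 77) (nat_lit 5) (nat_lit 74) (nat_lit 5) (nat_lit 421) (nat_lit 373) (nat_lit 226)) (XT.nd (nat_lit 78) (nat_lit 228) (nat_lit 0) (XT.lf (nat_lit 0) (nat_lit 71679534482) (nat_lit 152) (nat_lit 3068102580) (nat_lit 228) (nat_lit 11297412410) (nat_lit 71) (nat_lit 5) (nat_lit 73) (nat_lit 5) (nat_lit 74) (nat_lit 5) (nat_lit 422) (nat_lit 373) (nat_lit 225)) (XT.lf (nat_lit 0) (nat_lit 21161678282) (nat_lit 228) (nat_lit 26567655011) (nat_lit 76) (nat_lit 41278099228) (nat_lit 68) (nat_lit 5) (nat_lit 71) (nat_lit 5) (nat_lit 69) (nat_lit 5) (nat_lit 423) (nat_lit 373) (nat_lit 224)))) (XT.nd (nat_lit 78) (nat_lit 380) (nat_lit 0) (XT.lf (nat_lit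 0) (nat_lit 52137628322) (nat_lit 152) (nat_lit 3553048588) (nat_lit 228) (nat_lit 36403484553) (nat_lit 66) (nat_lit 5) (nat_lit 68) (nat_lit 5) (nat_lit 69) (nat_lit 5) (nat_lit 424) (nat_lit 373) (nat_lit 223)) (XT.nd (nat_lit 78) (nat_lit 228) (nat_lit 0) (XT.lf (nat_lit 0) (nat_lit 40374501658) (nat_lit 152) (nat_lit 52644667973) (nat_lit 228) (nat_lit 2283866317) (nat_lit 64) (nat_lit 5) (nat_lit 66) (nat_lit 5) (nat_lit 67) (nat_lit 5) (nat_lit 425) (nat_lit 373) (nat_lit 222)) (XT.lf (nat_lit 0) (nat_lit 27057517239) (nat_lit 152) (nat_lit 6538118063) (nat_lit 228) (nat_lit 65045793864) (nat_lit 61) (nat_lit 5) (nat_lit 63) (nat_lit 5) (nat_lit 64) (nat_lit 5) (nat_lit 426) (nat_lit 373) (nat_lit 221))))))) (XT.nd (nat_lit 49608) (nat_lit 0) (nat_lit 9500) (XT.nd (nat_lit 49140) (nat_lit 0) (nat_lit 14744) (XT.nd (nat_lit 234) (nat_lit 152) (nat_lit 0) (XT.nd (nat_lit 78) (nat_lit 228)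 (nat_lit 0) (XT.lf (nat_lit 0) (nat_lit 11958037041) (nat_lit 152) (nat_lit 60349931144) (nat_lit 228) (nat_lit 29805513153) (nat_lit 59) (nat_lit 5) (nat_lit 61) (nat_lit 5) (nat_lit 62) (nat_lit 5) (nat_lit 427) (nat_lit 373) (nat_lit 220)) (XT.nd (nat_lit 78) (nat_lit 152) (nat_lit 0) (XT.lf (nat_lit 0) (nat_lit 7863734737) (nat_lit 228) (nat_lit 4711508067) (nat_lit 76) (nat_lit 93157596615) (nat_lit 58) (nat_lit 5) (nat_lit 61) (nat_lit 5) (nat_lit 59) (nat_lit 5) (nat_lit 428) (nat_lit 373) (nat_lit 219)) (XT.lf (nat_lit 0) (nat_lit 48005976059) (nat_lit 228) (nat_lit 23487093163) (nat_lit 76) (nat_lit 37995064745) (nat_lit 56) (nat_lit 5) (nat_lit 59) (nat_lit 5) (nat_lit 57) (nat_lit 5) (nat_lit 429) (nat_lit 373) (nat_lit 218)))) (XT.nd (nat_lit 48750) (nat_lit 0) (nat_lit 14592) (XT.lf (nat_lit 0) (nat_lit 69134928828) (nat_lit 152) (nat_lit 21858277717) (nat_lit 228) (nat_lit 22412850695)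 (nat_lit 54) (nat_lit 5) (nat_lit 56) (nat_lit 5) (nat_lit 57) (nat_lit 5) (nat_lit 430) (nat_lit 373) (nat_lit 217)) (XT.nd (nat_lit 78) (nat_lit 0) (nat_lit 76) (XT.lf (nat_lit 0) (nat_lit 838460463) (nat_lit 1292) (nat_lit 4950516213) (nat_lit 1292) (nat_lit 4950516213) (nat_lit 246) (nat_lit 3) (nat_lit 263) (nat_lit 3) (nat_lit 263) (nat_lit 5) (nat_lit 374) (nat_lit 374) (nat_lit 272)) (XT.lf (nat_lit 0) (nat_lit 2075496102) (nat_lit 1216) (nat_lit 14560639091) (nat_lit 1292) (nat_lit 5369027735) (nat_lit 247) (nat_lit 5) (nat_lit 263) (nat_lit 5) (nat_lit 264) (nat_lit 5) (nat_lit 375) (nat_lit 374) (nat_lit 271))))) (XT.nd (nat_lit 234) (nat_lit 0) (nat_lit 152) (XT.nd (nat_lit 78) (nat_lit 0) (nat_lit 0) (XT.lf (nat_lit 0) (nat_lit 2735114818) (nat_lit 1216) (nat_lit 19308702847) (nat_lit 1292) (nat_lit 506604097) (nat_lit 248) (nat_lit 5) (nat_lit 264) (nat_lit 5) (nat_lit 265) (nat_lit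 5) (nat_lit 376) (nat_lit 374) (nat_lit 270)) (XT.nd (nat_lit 78) (nat_lit 0) (nat_lit 76) (XT.lf (nat_lit 0) (nat_lit 3732835470) (nat_lit 1216) (nat_lit 1057950894) (nat_lit 1292) (nat_lit 18323009513) (nat_lit 248) (nat_lit 5) (nat_lit 264) (nat_lit 5) (nat_lit 265) (nat_lit 5) (nat_lit 377) (nat_lit 374) (nat_lit 269)) (XT.lf (nat_lit 0) (nat_lit 5074270247) (nat_lit 1216) (nat_lit 5372981803) (nat_lit 1292) (nat_lit 13249277490) (nat_lit 249) (nat_lit 5) (nat_lit 265) (nat_lit 5) (nat_lit 266) (nat_lit 5) (nat_lit 378) (nat_lit 374) (nat_lit 268)))) (XT.nd (nat_lit 78) (nat_lit 0) (nat_lit 76) (XT.lf (nat_lit 0) (nat_lit 6746146345) (nat_lit 1216) (nat_lit 9762645416) (nat_lit 1292) (nat_lit 7791712454) (nat_lit 250) (nat_lit 5) (nat_lit 266) (nat_lit 5) (nat_lit 267) (nat_lit 5) (nat_lit 379) (nat_lit 374) (nat_lit 267)) (XT.nd (nat_lit 78) (nat_lit 0) (nat_lit 0) (XT.lf (nat_lit 0) (nat_lit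 8772532606) (nat_lit 1216) (nat_lit 14227899206) (nat_lit 1292) (nat_lit 1926123478) (nat_lit 251) (nat_lit 5) (nat_lit 267) (nat_lit 5) (nat_lit 268) (nat_lit 5) (nat_lit 380) (nat_lit 374) (nat_lit 266)) (XT.lf (nat_lit 76) (nat_lit 6761765147) (nat_lit 0) (nat_lit 4459830197) (nat_lit 1292) (nat_lit 14352677772) (nat_lit 252) (nat_lit 5) (nat_lit 251) (nat_lit 5) (nat_lit 268) (nat_lit 5) (nat_lit 381) (nat_lit 374) (nat_lit 265)))))) (XT.nd (nat_lit 468) (nat_lit 3192) (nat_lit 0) (XT.nd (nat_lit 234) (nat_lit 2356) (nat_lit 0) (XT.nd (nat_lit 78) (nat_lit 0) (nat_lit 76) (XT.lf (nat_lit 76) (nat_lit 2747327715) (nat_lit 0) (nat_lit 11353115405) (nat_lit 1292) (nat_lit 12144718433) (nat_lit 253) (nat_lit 5) (nat_lit 252) (nat_lit 5) (nat_lit 269) (nat_lit 5) (nat_lit 382) (nat_lit 374) (nat_lit 264)) (XT.nd (nat_lit 78) (nat_lit 0) (nat_lit 76) (XT.lf (nat_lit 0) (nat_lit 17431150593) (nat_lit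 1216) (nat_lit 1299458971) (nat_lit 1292) (nat_lit 8209751785) (nat_lit 253) (nat_lit 5) (nat_lit 269) (nat_lit 5) (nat_lit 270) (nat_lit 5) (nat_lit 383) (nat_lit 374) (nat_lit 263)) (XT.lf (nat_lit 0) (nat_lit 21257607074) (nat_lit 1216) (nat_lit 5349760600) (nat_lit 76) (nat_lit 1053081294) (nat_lit 254) (nat_lit 5) (nat_lit 270) (nat_lit 5) (nat_lit 255) (nat_lit 5) (nat_lit 384) (nat_lit 374) (nat_lit 262)))) (XT.nd (nat_lit 78) (nat_lit 1292) (nat_lit 0) (XT.lf (nat_lit 0) (nat_lit 18883086624) (nat_lit 1216) (nat_lit 6766535764) (nat_lit 1292) (nat_lit 2755695541) (nat_lit 238) (nat_lit 5) (nat_lit 254) (nat_lit 5) (nat_lit 255) (nat_lit 5) (nat_lit 385) (nat_lit 374) (nat_lit 261)) (XT.nd (nat_lit 78) (nat_lit 608) (nat_lit 0) (XT.lf (nat_lit 0) (nat_lit 1385631199) (nat_lit 684) (nat_lit 13781214001) (nat_lit 76) (nat_lit 14010295902) (nat_lit 229) (nat_lit 5) (nat_lit 238) (nat_lit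 5) (nat_lit 230) (nat_lit 5) (nat_lit 386) (nat_lit 374) (nat_lit 260)) (XT.lf (nat_lit 0) (nat_lit 6007288342) (nat_lit 684) (nat_lit 18134792681) (nat_lit 76) (nat_lit 5834751765) (nat_lit 221) (nat_lit 5) (nat_lit 230) (nat_lit 5) (nat_lit 222) (nat_lit 5) (nat_lit 387) (nat_lit 374) (nat_lit 259))))) (XT.nd (nat_lit 234) (nat_lit 1520) (nat_lit 0) (XT.nd (nat_lit 78) (nat_lit 1064) (nat_lit 0) (XT.lf (nat_lit 0) (nat_lit 8219512955) (nat_lit 608) (nat_lit 3007074225) (nat_lit 684) (nat_lit 19578928501) (nat_lit 213) (nat_lit 5) (nat_lit 221) (nat_lit 5) (nat_lit 222) (nat_lit 5) (nat_lit 388) (nat_lit 374) (nat_lit 258)) (XT.nd (nat_lit 78) (nat_lit 532) (nat_lit 0) (XT.lf (nat_lit 0) (nat_lit 4493287233) (nat_lit 532) (nat_lit 12621236424) (nat_lit 608) (nat_lit 14548882109) (nat_lit 206) (nat_lit 5) (nat_lit 213) (nat_lit 5) (nat_lit 214) (nat_lit 5) (nat_lit 389) (nat_lit 374) (nat_lit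 257)) (XT.lf (nat_lit 0) (nat_lit 722475882) (nat_lit 532) (nat_lit 22930020836) (nat_lit 608) (nat_lit 8901027518) (nat_lit 199) (nat_lit 5) (nat_lit 206) (nat_lit 5) (nat_lit 207) (nat_lit 5) (nat_lit 390) (nat_lit 374) (nat_lit 256)))) (XT.nd (nat_lit 156) (nat_lit 988) (nat_lit 0) (XT.nd (nat_lit 78) (nat_lit 532) (nat_lit 0) (XT.lf (nat_lit 0) (nat_lit 30439203311) (nat_lit 532) (nat_lit 476161714) (nat_lit 608) (nat_lit 2560846634) (nat_lit 199) (nat_lit 5) (nat_lit 206) (nat_lit 5) (nat_lit 207) (nat_lit 5) (nat_lit 391) (nat_lit 374) (nat_lit 255)) (XT.lf (nat_lit 0) (nat_lit 4500113347) (nat_lit 532) (nat_lit 6971593387) (nat_lit 76) (nat_lit 22957636996) (nat_lit 192) (nat_lit 5) (nat_lit 199) (nat_lit 5) (nat_lit 193) (nat_lit 5) (nat_lit 392) (nat_lit 374) (nat_lit 254))) (XT.nd (nat_lit 78) (nat_lit 456) (nat_lit 0) (XT.lf (nat_lit 0) (nat_lit 12246207430) (nat_lit 608) (nat_lit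 10989282133) (nat_lit 76) (nat_lit 12182333322) (nat_lit 185) (nat_lit 5) (nat_lit 193) (nat_lit 5) (nat_lit 186) (nat_lit 5) (nat_lit 393) (nat_lit 374) (nat_lit 253)) (XT.lf (nat_lit 0) (nat_lit 20772353029) (nat_lit 532) (nat_lit 15066546710) (nat_lit 76) (nat_lit 605046309) (nat_lit 179) (nat_lit 5) (nat_lit 186) (nat_lit 5) (nat_lit 180) (nat_lit 5) (nat_lit 394) (nat_lit 374) (nat_lit 252))))))))
noncomputable def xc102 : XT := (XT.nd (nat_lit 1872) (nat_lit 1976) (nat_lit 0) (XT.nd (nat_lit 936) (nat_lit 3040) (nat_lit 0) (XT.nd (nat_lit 468) (nat_lit 1748) (nat_lit 0) (XT.nd (nat_lit 234) (nat_lit 1216) (nat_lit 0) (XT.nd (nat_lit 78) (nat_lit 912) (nat_lit 0) (XT.lf (nat_lit 0) (nat_lit 18185275187) (nat_lit 456) (nat_lit 12056352769) (nat_lit 532) (nat_lit 7264245090) (nat_lit 173) (nat_lit 5) (nat_lit 179) (nat_lit 5) (nat_lit 180) (nat_lit 5) (nat_lit 395) (nat_lit 374) (nat_lit 251))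 (XT.nd (nat_lit 78) (nat_lit 456) (nat_lit 0) (XT.lf (nat_lit 0) (nat_lit 1955133270) (nat_lit 456) (nat_lit 23671040667) (nat_lit 76) (nat_lit 12981608590) (nat_lit 167) (nat_lit 5) (nat_lit 173) (nat_lit 5) (nat_lit 168) (nat_lit 5) (nat_lit 396) (nat_lit 374) (nat_lit 250)) (XT.lf (nat_lit 0) (nat_lit 11572847295) (nat_lit 456) (nat_lit 341238325) (nat_lit 532) (nat_lit 27835680999) (nat_lit 161) (nat_lit 5) (nat_lit 167) (nat_lit 5) (nat_lit 168) (nat_lit 5) (nat_lit 397) (nat_lit 374) (nat_lit 249)))) (XT.nd (nat_lit 78) (nat_lit 836) (nat_lit 0) (XT.lf (nat_lit 0) (nat_lit 8026511395) (nat_lit 380) (nat_lit 14913509310) (nat_lit 456) (nat_lit 17991760119) (nat_lit 156) (nat_lit 5) (nat_lit 161) (nat_lit 5) (nat_lit 162) (nat_lit 5) (nat_lit 398) (nat_lit 374) (nat_lit 248)) (XT.nd (nat_lit 78) (nat_lit 456) (nat_lit 0) (XT.lf (nat_lit 0) (nat_lit 4426368896) (nat_lit 380) (nat_lit 30534539998)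 (nat_lit 456) (nat_lit 7198679022) (nat_lit 151) (nat_lit 5) (nat_lit 156) (nat_lit 5) (nat_lit 157) (nat_lit 5) (nat_lit 399) (nat_lit 374) (nat_lit 247)) (XT.lf (nat_lit 0) (nat_lit 685697329) (nat_lit 380) (nat_lit 3861111843) (nat_lit 456) (nat_lit 38885983045) (nat_lit 145) (nat_lit 5) (nat_lit 150) (nat_lit 5) (nat_lit 151) (nat_lit 5) (nat_lit 400) (nat_lit 374) (nat_lit 246))))) (XT.nd (nat_lit 234) (nat_lit 1064) (nat_lit 0) (XT.nd (nat_lit 78) (nat_lit 684) (nat_lit 0) (XT.lf (nat_lit 0) (nat_lit 17350865748) (nat_lit 456) (nat_lit 3260126137) (nat_lit 76) (nat_lit 24137923061) (nat_lit 145) (nat_lit 5) (nat_lit 151) (nat_lit 5) (nat_lit 146) (nat_lit 5) (nat_lit 401) (nat_lit 374) (nat_lit 245)) (XT.nd (nat_lit 78) (nat_lit 304) (nat_lit 0) (XT.lf (nat_lit 0) (nat_lit 31276966677) (nat_lit 456) (nat_lit 7278386673) (nat_lit 76) (nat_lit 7561036781) (nat_lit 140) (nat_lit 5) (nat_lit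 146) (nat_lit 5) (nat_lit 141) (nat_lit 5) (nat_lit 402) (nat_lit 374) (nat_lit 244)) (XT.lf (nat_lit 0) (nat_lit 36045799057) (nat_lit 304) (nat_lit 10436834115) (nat_lit 380) (nat_lit 1052109579) (nat_lit 136) (nat_lit 5) (nat_lit 140) (nat_lit 5) (nat_lit 141) (nat_lit 5) (nat_lit 403) (nat_lit 374) (nat_lit 243)))) (XT.nd (nat_lit 78) (nat_lit 608) (nat_lit 0) (XT.lf (nat_lit 0) (nat_lit 13740810233) (nat_lit 456) (nat_lit 16020010956) (nat_lit 76) (nat_lit 19241975779) (nat_lit 130) (nat_lit 5) (nat_lit 136) (nat_lit 5) (nat_lit 131) (nat_lit 5) (nat_lit 404) (nat_lit 374) (nat_lit 242)) (XT.nd (nat_lit 78) (nat_lit 304) (nat_lit 0) (XT.lf (nat_lit 0) (nat_lit 29759263257) (nat_lit 380) (nat_lit 20693903596) (nat_lit 76) (nat_lit 75546455) (nat_lit 126) (nat_lit 5) (nat_lit 131) (nat_lit 5) (nat_lit 127) (nat_lit 5) (nat_lit 405) (nat_lit 374) (nat_lit 241)) (XT.lf (nat_lit 0) (nat_lit 26397356594)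 (nat_lit 304) (nat_lit 20897229609) (nat_lit 380) (nat_lit 4814862095) (nat_lit 122) (nat_lit 5) (nat_lit 126) (nat_lit 5) (nat_lit 127) (nat_lit 5) (nat_lit 406) (nat_lit 374) (nat_lit 240)))))) (XT.nd (nat_lit 468) (nat_lit 1520) (nat_lit 0) (XT.nd (nat_lit 234) (nat_lit 608) (nat_lit 0) (XT.nd (nat_lit 78) (nat_lit 532) (nat_lit 0) (XT.lf (nat_lit 0) (nat_lit 12237391515) (nat_lit 380) (nat_lit 31021008670) (nat_lit 76) (nat_lit 10491392136) (nat_lit 117) (nat_lit 5) (nat_lit 122) (nat_lit 5) (nat_lit 118) (nat_lit 5) (nat_lit 407) (nat_lit 374) (nat_lit 239)) (XT.nd (nat_lit 78) (nat_lit 228) (nat_lit 0) (XT.lf (nat_lit 0) (nat_lit 18762059136) (nat_lit 304) (nat_lit 11935644610) (nat_lit 380) (nat_lit 24753370003) (nat_lit 113) (nat_lit 5) (nat_lit 117) (nat_lit 5) (nat_lit 118) (nat_lit 5) (nat_lit 408) (nat_lit 374) (nat_lit 238)) (XT.lf (nat_lit 0) (nat_lit 14526953598) (nat_lit 228)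 (nat_lit 36213282389) (nat_lit 304) (nat_lit 6477408178) (nat_lit 110) (nat_lit 5) (nat_lit 113) (nat_lit 5) (nat_lit 114) (nat_lit 5) (nat_lit 409) (nat_lit 374) (nat_lit 237)))) (XT.nd (nat_lit 78) (nat_lit 228) (nat_lit 0) (XT.lf (nat_lit 0) (nat_lit 9950434433) (nat_lit 304) (nat_lit 3107146915) (nat_lit 380) (nat_lit 45993497957) (nat_lit 105) (nat_lit 5) (nat_lit 109) (nat_lit 5) (nat_lit 110) (nat_lit 5) (nat_lit 410) (nat_lit 374) (nat_lit 236)) (XT.nd (nat_lit 78) (nat_lit 0) (nat_lit 0) (XT.lf (nat_lit 0) (nat_lit 4867248926) (nat_lit 228) (nat_lit 29360109206) (nat_lit 304) (nat_lit 26723144995) (nat_lit 102) (nat_lit 5) (nat_lit 105) (nat_lit 5) (nat_lit 106) (nat_lit 5) (nat_lit 411) (nat_lit 374) (nat_lit 235)) (XT.lf (nat_lit 0) (nat_lit 57041324000) (nat_lit 304) (nat_lit 460758797) (nat_lit 76) (nat_lit 5425245215) (nat_lit 102) (nat_lit 5) (nat_lit 106) (nat_lit 5) (nat_lit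 103) (nat_lit 5) (nat_lit 412) (nat_lit 374) (nat_lit 234))))) (XT.nd (nat_lit 234) (nat_lit 760) (nat_lit 0) (XT.nd (nat_lit 78) (nat_lit 456) (nat_lit 0) (XT.lf (nat_lit 0) (nat_lit 16547024171) (nat_lit 304) (nat_lit 6351864744) (nat_lit 76) (nat_lit 42073510676) (nat_lit 98) (nat_lit 5) (nat_lit 102) (nat_lit 5) (nat_lit 99) (nat_lit 5) (nat_lit 413) (nat_lit 374) (nat_lit 233)) (XT.nd (nat_lit 78) (nat_lit 228) (nat_lit 0) (XT.lf (nat_lit 0) (nat_lit 40641425890) (nat_lit 304) (nat_lit 12692232257) (nat_lit 76) (nat_lit 13764475447) (nat_lit 95) (nat_lit 5) (nat_lit 99) (nat_lit 5) (nat_lit 96) (nat_lit 5) (nat_lit 414) (nat_lit 374) (nat_lit 232)) (XT.lf (nat_lit 0) (nat_lit 49739042083) (nat_lit 228) (nat_lit 16973154541) (nat_lit 304) (nat_lit 2594808944) (nat_lit 92) (nat_lit 5) (nat_lit 95) (nat_lit 5) (nat_lit 96) (nat_lit 5) (nat_lit 415) (nat_lit 374) (nat_lit 231)))) (XT.nd (nat_lit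 78) (nat_lit 456) (nat_lit 0) (XT.lf (nat_lit 0) (nat_lit 22790356951) (nat_lit 304) (nat_lit 27232953116) (nat_lit 76) (nat_lit 21573481186) (nat_lit 88) (nat_lit 5) (nat_lit 92) (nat_lit 5) (nat_lit 89) (nat_lit 5) (nat_lit 416) (nat_lit 374) (nat_lit 230)) (XT.nd (nat_lit 78) (nat_lit 228) (nat_lit 0) (XT.lf (nat_lit 0) (nat_lit 38451250511) (nat_lit 228) (nat_lit 11681270603) (nat_lit 304) (nat_lit 23845532882) (nat_lit 85) (nat_lit 5) (nat_lit 88) (nat_lit 5) (nat_lit 89) (nat_lit 5) (nat_lit 417) (nat_lit 374) (nat_lit 229)) (XT.lf (nat_lit 0) (nat_lit 3186506727) (nat_lit 228) (nat_lit 44626458481) (nat_lit 76) (nat_lit 28638657360) (nat_lit 82) (nat_lit 5) (nat_lit 85) (nat_lit 5) (nat_lit 83) (nat_lit 5) (nat_lit 418) (nat_lit 374) (nat_lit 228))))))) (XT.nd (nat_lit 49686) (nat_lit 0) (nat_lit 13148) (XT.nd (nat_lit 468) (nat_lit 912) (nat_lit 0) (XT.nd (nat_lit 234) (nat_lit 380) (nat_lit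 0) (XT.nd (nat_lit 78) (nat_lit 456) (nat_lit 0) (XT.lf (nat_lit 0) (nat_lit 24356810401) (nat_lit 228) (nat_lit 7442843248) (nat_lit 304) (nat_lit 47220453633) (nat_lit 79) (nat_lit 5) (nat_lit 82) (nat_lit 5) (nat_lit 83) (nat_lit 5) (nat_lit 419) (nat_lit 374) (nat_lit 227)) (XT.nd (nat_lit 78) (nat_lit 304) (nat_lit 0) (XT.lf (nat_lit 0) (nat_lit 15984586202) (nat_lit 152) (nat_lit 46809178955) (nat_lit 228) (nat_lit 18894742403) (nat_lit 77) (nat_lit 5) (nat_lit 79) (nat_lit 5) (nat_lit 80) (nat_lit 5) (nat_lit 420) (nat_lit 374) (nat_lit 226)) (XT.lf (nat_lit 0) (nat_lit 6775632696) (nat_lit 228) (nat_lit 4565354030) (nat_lit 304) (nat_lit 73125051477) (nat_lit 73) (nat_lit 5) (nat_lit 76) (nat_lit 5) (nat_lit 77) (nat_lit 5) (nat_lit 421) (nat_lit 374) (nat_lit 225)))) (XT.nd (nat_lit 78) (nat_lit 380) (nat_lit 0) (XT.lf (nat_lit 0) (nat_lit 43763859689) (nat_lit 304) (nat_lit 3695126254)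 (nat_lit 76) (nat_lit 39885863725) (nat_lit 73) (nat_lit 5) (nat_lit 77) (nat_lit 5) (nat_lit 74) (nat_lit 5) (nat_lit 422) (nat_lit 374) (nat_lit 224)) (XT.nd (nat_lit 78) (nat_lit 228) (nat_lit 0) (XT.lf (nat_lit 0) (nat_lit 75420557918) (nat_lit 152) (nat_lit 3155475982) (nat_lit 228) (nat_lit 11768523537) (nat_lit 71) (nat_lit 5) (nat_lit 73) (nat_lit 5) (nat_lit 74) (nat_lit 5) (nat_lit 423) (nat_lit 374) (nat_lit 223)) (XT.lf (nat_lit 0) (nat_lit 22309425755) (nat_lit 228) (nat_lit 27739645985) (nat_lit 76) (nat_lit 43406029500) (nat_lit 68) (nat_lit 5) (nat_lit 71) (nat_lit 5) (nat_lit 69) (nat_lit 5) (nat_lit 424) (nat_lit 374) (nat_lit 222))))) (XT.nd (nat_lit 234) (nat_lit 380) (nat_lit 0) (XT.nd (nat_lit 78) (nat_lit 380) (nat_lit 0) (XT.lf (nat_lit 0) (nat_lit 54896418576) (nat_lit 152) (nat_lit 3665646286) (nat_lit 228) (nat_lit 38134186669) (nat_lit 66) (nat_lit 5) (nat_lit 68)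 (nat_lit 5) (nat_lit 69) (nat_lit 5) (nat_lit 425) (nat_lit 374) (nat_lit 221)) (XT.nd (nat_lit 78) (nat_lit 228) (nat_lit 0) (XT.lf (nat_lit 0) (nat_lit 42542716683) (nat_lit 152) (nat_lit 55212162183) (nat_lit 228) (nat_lit 2310754565) (nat_lit 64) (nat_lit 5) (nat_lit 66) (nat_lit 5) (nat_lit 67) (nat_lit 5) (nat_lit 426) (nat_lit 374) (nat_lit 220)) (XT.lf (nat_lit 0) (nat_lit 28557263866) (nat_lit 152) (nat_lit 6801090186) (nat_lit 228) (nat_lit 68212647559) (nat_lit 61) (nat_lit 5) (nat_lit 63) (nat_lit 5) (nat_lit 64) (nat_lit 5) (nat_lit 427) (nat_lit 374) (nat_lit 219)))) (XT.nd (nat_lit 78) (nat_lit 228) (nat_lit 0) (XT.lf (nat_lit 0) (nat_lit 12700430063) (nat_lit 152) (nat_lit 63303898378) (nat_lit 228) (nat_lit 31212387724) (nat_lit 59) (nat_lit 5) (nat_lit 61) (nat_lit 5) (nat_lit 62) (nat_lit 5) (nat_lit 428) (nat_lit 374) (nat_lit 218)) (XT.nd (nat_lit 78) (nat_lit 152) (nat_lit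 0) (XT.lf (nat_lit 0) (nat_lit 8334801123) (nat_lit 228) (nat_lit 4807913273) (nat_lit 76) (nat_lit 97874421002) (nat_lit 58) (nat_lit 5) (nat_lit 61) (nat_lit 5) (nat_lit 59) (nat_lit 5) (nat_lit 429) (nat_lit 374) (nat_lit 217)) (XT.lf (nat_lit 0) (nat_lit 50482319370) (nat_lit 228) (nat_lit 24524567622) (nat_lit 76) (nat_lit 39953363193) (nat_lit 56) (nat_lit 5) (nat_lit 59) (nat_lit 5) (nat_lit 57) (nat_lit 5) (nat_lit 430) (nat_lit 374) (nat_lit 216)))))) (XT.nd (nat_lit 468) (nat_lit 1292) (nat_lit 0) (XT.nd (nat_lit 234) (nat_lit 0) (nat_lit 152) (XT.nd (nat_lit 78) (nat_lit 0) (nat_lit 76) (XT.lf (nat_lit 0) (nat_lit 1108694521) (nat_lit 1292) (nat_lit 5080413640) (nat_lit 1292) (nat_lit 5080413640) (nat_lit 246) (nat_lit 3) (nat_lit 263) (nat_lit 3) (nat_lit 263) (nat_lit 5) (nat_lit 375) (nat_lit 375) (nat_lit 270)) (XT.nd (nat_lit 78) (nat_lit 0) (nat_lit 76) (XT.lf (nat_lit 0) (nat_lit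 2614340856) (nat_lit 1216) (nat_lit 15044857182) (nat_lit 1292) (nat_lit 5432987318) (nat_lit 247) (nat_lit 5) (nat_lit 263) (nat_lit 5) (nat_lit 264) (nat_lit 5) (nat_lit 376) (nat_lit 375) (nat_lit 269)) (XT.lf (nat_lit 0) (nat_lit 3286771013) (nat_lit 1216) (nat_lit 20022910875) (nat_lit 1292) (nat_lit 355639072) (nat_lit 248) (nat_lit 5) (nat_lit 264) (nat_lit 5) (nat_lit 265) (nat_lit 5) (nat_lit 377) (nat_lit 375) (nat_lit 268)))) (XT.nd (nat_lit 78) (nat_lit 0) (nat_lit 76) (XT.lf (nat_lit 0) (nat_lit 4314620533) (nat_lit 1216) (nat_lit 871584521) (nat_lit 1292) (nat_lit 19071259769) (nat_lit 248) (nat_lit 5) (nat_lit 264) (nat_lit 5) (nat_lit 265) (nat_lit 5) (nat_lit 378) (nat_lit 375) (nat_lit 267)) (XT.nd (nat_lit 78) (nat_lit 0) (nat_lit 76) (XT.lf (nat_lit 0) (nat_lit 5705139789) (nat_lit 1216) (nat_lit 5396305045) (nat_lit 1292) (nat_lit 13768437884) (nat_lit 249) (nat_lit 5) (nat_lit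 265) (nat_lit 5) (nat_lit 266) (nat_lit 5) (nat_lit 379) (nat_lit 375) (nat_lit 266)) (XT.lf (nat_lit 0) (nat_lit 7443756297) (nat_lit 1216) (nat_lit 10000304176) (nat_lit 1292) (nat_lit 8060508809) (nat_lit 250) (nat_lit 5) (nat_lit 266) (nat_lit 5) (nat_lit 267) (nat_lit 5) (nat_lit 380) (nat_lit 375) (nat_lit 265))))) (XT.nd (nat_lit 234) (nat_lit 1672) (nat_lit 0) (XT.nd (nat_lit 78) (nat_lit 0) (nat_lit 0) (XT.lf (nat_lit 0) (nat_lit 9555660975) (nat_lit 1216) (nat_lit 14684509720) (nat_lit 1292) (nat_lit 1922233437) (nat_lit 251) (nat_lit 5) (nat_lit 267) (nat_lit 5) (nat_lit 268) (nat_lit 5) (nat_lit 381) (nat_lit 375) (nat_lit 264)) (XT.nd (nat_lit 78) (nat_lit 0) (nat_lit 76) (XT.lf (nat_lit 76) (nat_lit 7347334507) (nat_lit 0) (nat_lit 4765816439) (nat_lit 1292) (nat_lit 14729784531) (nat_lit 252) (nat_lit 5) (nat_lit 251) (nat_lit 5) (nat_lit 268) (nat_lit 5) (nat_lit 382) (nat_lit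 375) (nat_lit 263)) (XT.lf (nat_lit 76) (nat_lit 3135619311) (nat_lit 0) (nat_lit 11986237096) (nat_lit 1292) (nat_lit 12425940995) (nat_lit 253) (nat_lit 5) (nat_lit 252) (nat_lit 5) (nat_lit 269) (nat_lit 5) (nat_lit 383) (nat_lit 375) (nat_lit 262)))) (XT.nd (nat_lit 156) (nat_lit 1824) (nat_lit 0) (XT.nd (nat_lit 78) (nat_lit 0) (nat_lit 76) (XT.lf (nat_lit 0) (nat_lit 18603433676) (nat_lit 1216) (nat_lit 1115692169) (nat_lit 1292) (nat_lit 8559107523) (nat_lit 253) (nat_lit 5) (nat_lit 269) (nat_lit 5) (nat_lit 270) (nat_lit 5) (nat_lit 384) (nat_lit 375) (nat_lit 261)) (XT.lf (nat_lit 0) (nat_lit 22608762289) (nat_lit 1216) (nat_lit 5366405830) (nat_lit 76) (nat_lit 1059536688) (nat_lit 254) (nat_lit 5) (nat_lit 270) (nat_lit 5) (nat_lit 255) (nat_lit 5) (nat_lit 385) (nat_lit 375) (nat_lit 260))) (XT.nd (nat_lit 78) (nat_lit 684) (nat_lit 0) (XT.lf (nat_lit 0) (nat_lit 20070893396) (nat_lit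 1216) (nat_lit 7138099734) (nat_lit 1292) (nat_lit 2608171279) (nat_lit 238) (nat_lit 5) (nat_lit 254) (nat_lit 5) (nat_lit 255) (nat_lit 5) (nat_lit 386) (nat_lit 375) (nat_lit 259)) (XT.lf (nat_lit 0) (nat_lit 1723405994) (nat_lit 684) (nat_lit 14219670322) (nat_lit 76) (nat_lit 14684762813) (nat_lit 229) (nat_lit 5) (nat_lit 238) (nat_lit 5) (nat_lit 230) (nat_lit 5) (nat_lit 387) (nat_lit 375) (nat_lit 258))))))))
noncomputable def xc103 : XT := (XT.nd (nat_lit 1950) (nat_lit 3344) (nat_lit 0) (XT.nd (nat_lit 936) (nat_lit 4104) (nat_lit 0) (XT.nd (nat_lit 468) (nat_lit 2736) (nat_lit 0) (XT.nd (nat_lit 234) (nat_lit 1064) (nat_lit 0) (XT.nd (nat_lit 78) (nat_lit 1140) (nat_lit 0) (XT.lf (nat_lit 0) (nat_lit 6565559910) (nat_lit 684) (nat_lit 18790130156) (nat_lit 76) (nat_lit 6112147879) (nat_lit 221) (nat_lit 5) (nat_lit 230) (nat_lit 5) (nat_lit 222) (nat_lit 5) (nat_lit 388) (nat_lit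 375) (nat_lit 257)) (XT.nd (nat_lit 78) (nat_lit 532) (nat_lit 0) (XT.lf (nat_lit 0) (nat_lit 8874684370) (nat_lit 608) (nat_lit 3161205386) (nat_lit 684) (nat_lit 20302367972) (nat_lit 213) (nat_lit 5) (nat_lit 221) (nat_lit 5) (nat_lit 222) (nat_lit 5) (nat_lit 389) (nat_lit 375) (nat_lit 256)) (XT.lf (nat_lit 0) (nat_lit 4962500593) (nat_lit 532) (nat_lit 13246230387) (nat_lit 608) (nat_lit 15030600600) (nat_lit 206) (nat_lit 5) (nat_lit 213) (nat_lit 5) (nat_lit 214) (nat_lit 5) (nat_lit 390) (nat_lit 375) (nat_lit 255)))) (XT.nd (nat_lit 78) (nat_lit 532) (nat_lit 0) (XT.lf (nat_lit 0) (nat_lit 1003118884) (nat_lit 532) (nat_lit 24061533585) (nat_lit 608) (nat_lit 9109576300) (nat_lit 199) (nat_lit 5) (nat_lit 206) (nat_lit 5) (nat_lit 207) (nat_lit 5) (nat_lit 391) (nat_lit 375) (nat_lit 254)) (XT.nd (nat_lit 78) (nat_lit 532) (nat_lit 0) (XT.lf (nat_lit 0) (nat_lit 32194038913) (nat_lit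 532) (nat_lit 485695235) (nat_lit 608) (nat_lit 2463648400) (nat_lit 199) (nat_lit 5) (nat_lit 206) (nat_lit 5) (nat_lit 207) (nat_lit 5) (nat_lit 392) (nat_lit 375) (nat_lit 253)) (XT.lf (nat_lit 0) (nat_lit 4937837075) (nat_lit 532) (nat_lit 7083347842) (nat_lit 76) (nat_lit 24123168944) (nat_lit 192) (nat_lit 5) (nat_lit 199) (nat_lit 5) (nat_lit 193) (nat_lit 5) (nat_lit 393) (nat_lit 375) (nat_lit 252))))) (XT.nd (nat_lit 234) (nat_lit 1292) (nat_lit 0) (XT.nd (nat_lit 78) (nat_lit 912) (nat_lit 0) (XT.lf (nat_lit 0) (nat_lit 13063560275) (nat_lit 608) (nat_lit 11302736249) (nat_lit 76) (nat_lit 12816194313) (nat_lit 185) (nat_lit 5) (nat_lit 193) (nat_lit 5) (nat_lit 186) (nat_lit 5) (nat_lit 394) (nat_lit 375) (nat_lit 251)) (XT.nd (nat_lit 78) (nat_lit 456) (nat_lit 0) (XT.lf (nat_lit 0) (nat_lit 22008758190) (nat_lit 532) (nat_lit 15584941597) (nat_lit 76) (nat_lit 666441445) (nat_lit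 179) (nat_lit 5) (nat_lit 186) (nat_lit 5) (nat_lit 180) (nat_lit 5) (nat_lit 395) (nat_lit 375) (nat_lit 250)) (XT.lf (nat_lit 0) (nat_lit 19322737104) (nat_lit 456) (nat_lit 12621534887) (nat_lit 532) (nat_lit 7431112597) (nat_lit 173) (nat_lit 5) (nat_lit 179) (nat_lit 5) (nat_lit 180) (nat_lit 5) (nat_lit 396) (nat_lit 375) (nat_lit 249)))) (XT.nd (nat_lit 78) (nat_lit 836) (nat_lit 0) (XT.lf (nat_lit 0) (nat_lit 2238786854) (nat_lit 456) (nat_lit 24623910805) (nat_lit 76) (nat_lit 13669836770) (nat_lit 167) (nat_lit 5) (nat_lit 173) (nat_lit 5) (nat_lit 168) (nat_lit 5) (nat_lit 397) (nat_lit 375) (nat_lit 248)) (XT.nd (nat_lit 78) (nat_lit 380) (nat_lit 0) (XT.lf (nat_lit 0) (nat_lit 12375559105) (nat_lit 456) (nat_lit 313429376) (nat_lit 532) (nat_lit 29042833069) (nat_lit 161) (nat_lit 5) (nat_lit 167) (nat_lit 5) (nat_lit 168) (nat_lit 5) (nat_lit 398) (nat_lit 375) (nat_lit 247)) (XT.lf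 (nat_lit 0) (nat_lit 8650342196) (nat_lit 380) (nat_lit 15609894502) (nat_lit 456) (nat_lit 18712882011) (nat_lit 156) (nat_lit 5) (nat_lit 161) (nat_lit 5) (nat_lit 162) (nat_lit 5) (nat_lit 399) (nat_lit 375) (nat_lit 246)))))) (XT.nd (nat_lit 468) (nat_lit 2128) (nat_lit 0) (XT.nd (nat_lit 234) (nat_lit 1140) (nat_lit 0) (XT.nd (nat_lit 78) (nat_lit 456) (nat_lit 0) (XT.lf (nat_lit 0) (nat_lit 4868454911) (nat_lit 380) (nat_lit 32008039452) (nat_lit 456) (nat_lit 7385994645) (nat_lit 151) (nat_lit 5) (nat_lit 156) (nat_lit 5) (nat_lit 157) (nat_lit 5) (nat_lit 400) (nat_lit 375) (nat_lit 245)) (XT.nd (nat_lit 78) (nat_lit 0) (nat_lit 0) (XT.lf (nat_lit 0) (nat_lit 937742494) (nat_lit 380) (nat_lit 3999690785) (nat_lit 456) (nat_lit 40662051863) (nat_lit 145) (nat_lit 5) (nat_lit 150) (nat_lit 5) (nat_lit 151) (nat_lit 5) (nat_lit 401) (nat_lit 375) (nat_lit 244)) (XT.lf (nat_lit 0) (nat_lit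 18374415998) (nat_lit 456) (nat_lit 3211529280) (nat_lit 76) (nat_lit 25395689323) (nat_lit 145) (nat_lit 5) (nat_lit 151) (nat_lit 5) (nat_lit 146) (nat_lit 5) (nat_lit 402) (nat_lit 375) (nat_lit 243)))) (XT.nd (nat_lit 78) (nat_lit 760) (nat_lit 0) (XT.lf (nat_lit 0) (nat_lit 32991897361) (nat_lit 456) (nat_lit 7432736631) (nat_lit 76) (nat_lit 7992999477) (nat_lit 140) (nat_lit 5) (nat_lit 146) (nat_lit 5) (nat_lit 141) (nat_lit 5) (nat_lit 403) (nat_lit 375) (nat_lit 242)) (XT.nd (nat_lit 78) (nat_lit 456) (nat_lit 0) (XT.lf (nat_lit 0) (nat_lit 38051651122) (nat_lit 304) (nat_lit 10900958426) (nat_lit 380) (nat_lit 954453383) (nat_lit 136) (nat_lit 5) (nat_lit 140) (nat_lit 5) (nat_lit 141) (nat_lit 5) (nat_lit 404) (nat_lit 375) (nat_lit 241)) (XT.lf (nat_lit 0) (nat_lit 14570654118) (nat_lit 456) (nat_lit 16616652475) (nat_lit 76) (nat_lit 20261307642) (nat_lit 130) (nat_lit 5) (nat_lit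 136) (nat_lit 5) (nat_lit 131) (nat_lit 5) (nat_lit 405) (nat_lit 375) (nat_lit 240))))) (XT.nd (nat_lit 234) (nat_lit 1140) (nat_lit 0) (XT.nd (nat_lit 78) (nat_lit 684) (nat_lit 0) (XT.lf (nat_lit 0) (nat_lit 31385720173) (nat_lit 380) (nat_lit 21526506096) (nat_lit 76) (nat_lit 138731244) (nat_lit 126) (nat_lit 5) (nat_lit 131) (nat_lit 5) (nat_lit 127) (nat_lit 5) (nat_lit 406) (nat_lit 375) (nat_lit 239)) (XT.nd (nat_lit 78) (nat_lit 380) (nat_lit 0) (XT.lf (nat_lit 0) (nat_lit 27913524158) (nat_lit 304) (nat_lit 21879577121) (nat_lit 380) (nat_lit 4917770958) (nat_lit 122) (nat_lit 5) (nat_lit 126) (nat_lit 5) (nat_lit 127) (nat_lit 5) (nat_lit 407) (nat_lit 375) (nat_lit 238)) (XT.lf (nat_lit 0) (nat_lit 12980431727) (nat_lit 380) (nat_lit 32375394706) (nat_lit 76) (nat_lit 11077488112) (nat_lit 117) (nat_lit 5) (nat_lit 122) (nat_lit 5) (nat_lit 118) (nat_lit 5) (nat_lit 408) (nat_lit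 375) (nat_lit 237)))) (XT.nd (nat_lit 156) (nat_lit 608) (nat_lit 0) (XT.nd (nat_lit 78) (nat_lit 228) (nat_lit 0) (XT.lf (nat_lit 0) (nat_lit 19891189145) (nat_lit 304) (nat_lit 12468160472) (nat_lit 380) (nat_lit 25860444262) (nat_lit 113) (nat_lit 5) (nat_lit 117) (nat_lit 5) (nat_lit 118) (nat_lit 5) (nat_lit 409) (nat_lit 375) (nat_lit 236)) (XT.lf (nat_lit 0) (nat_lit 15441976188) (nat_lit 228) (nat_lit 37958398069) (nat_lit 304) (nat_lit 6674429051) (nat_lit 110) (nat_lit 5) (nat_lit 113) (nat_lit 5) (nat_lit 114) (nat_lit 5) (nat_lit 410) (nat_lit 375) (nat_lit 235))) (XT.nd (nat_lit 78) (nat_lit 228) (nat_lit 0) (XT.lf (nat_lit 0) (nat_lit 10633654678) (nat_lit 304) (nat_lit 3197042447) (nat_lit 380) (nat_lit 48169301977) (nat_lit 105) (nat_lit 5) (nat_lit 109) (nat_lit 5) (nat_lit 110) (nat_lit 5) (nat_lit 411) (nat_lit 375) (nat_lit 234)) (XT.lf (nat_lit 0) (nat_lit 5293905659) (nat_lit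 228) (nat_lit 30761692763) (nat_lit 304) (nat_lit 27938897912) (nat_lit 102) (nat_lit 5) (nat_lit 105) (nat_lit 5) (nat_lit 106) (nat_lit 5) (nat_lit 412) (nat_lit 375) (nat_lit 233))))))) (XT.nd (nat_lit 936) (nat_lit 988) (nat_lit 0) (XT.nd (nat_lit 468) (nat_lit 1064) (nat_lit 0) (XT.nd (nat_lit 234) (nat_lit 760) (nat_lit 0) (XT.nd (nat_lit 78) (nat_lit 532) (nat_lit 0) (XT.lf (nat_lit 0) (nat_lit 60005305316) (nat_lit 304) (nat_lit 306475072) (nat_lit 76) (nat_lit 5758532022) (nat_lit 102) (nat_lit 5) (nat_lit 106) (nat_lit 5) (nat_lit 103) (nat_lit 5) (nat_lit 413) (nat_lit 375) (nat_lit 232)) (XT.nd (nat_lit 78) (nat_lit 228) (nat_lit 0) (XT.lf (nat_lit 0) (nat_lit 17483711491) (nat_lit 304) (nat_lit 6495020503) (nat_lit 76) (nat_lit 44238984793) (nat_lit 98) (nat_lit 5) (nat_lit 102) (nat_lit 5) (nat_lit 99) (nat_lit 5) (nat_lit 414) (nat_lit 375) (nat_lit 231)) (XT.lf (nat_lit 0) (nat_lit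 42779867669) (nat_lit 304) (nat_lit 13154824358) (nat_lit 76) (nat_lit 14515135513) (nat_lit 95) (nat_lit 5) (nat_lit 99) (nat_lit 5) (nat_lit 96) (nat_lit 5) (nat_lit 415) (nat_lit 375) (nat_lit 230)))) (XT.nd (nat_lit 78) (nat_lit 532) (nat_lit 0) (XT.lf (nat_lit 0) (nat_lit 52393082794) (nat_lit 228) (nat_lit 17757635042) (nat_lit 304) (nat_lit 2618530078) (nat_lit 92) (nat_lit 5) (nat_lit 95) (nat_lit 5) (nat_lit 96) (nat_lit 5) (nat_lit 416) (nat_lit 375) (nat_lit 229)) (XT.nd (nat_lit 78) (nat_lit 228) (nat_lit 0) (XT.lf (nat_lit 0) (nat_lit 24031067674) (nat_lit 304) (nat_lit 28427849135) (nat_lit 76) (nat_lit 22714659182) (nat_lit 88) (nat_lit 5) (nat_lit 92) (nat_lit 5) (nat_lit 89) (nat_lit 5) (nat_lit 417) (nat_lit 375) (nat_lit 228)) (XT.lf (nat_lit 0) (nat_lit 40535784771) (nat_lit 228) (nat_lit 12201293538) (nat_lit 304) (nat_lit 24936922322) (nat_lit 85) (nat_lit 5) (nat_lit 88)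 (nat_lit 5) (nat_lit 89) (nat_lit 5) (nat_lit 418) (nat_lit 375) (nat_lit 227))))) (XT.nd (nat_lit 234) (nat_lit 456) (nat_lit 0) (XT.nd (nat_lit 78) (nat_lit 380) (nat_lit 0) (XT.lf (nat_lit 0) (nat_lit 3442181661) (nat_lit 228) (nat_lit 46696244867) (nat_lit 76) (nat_lit 30132869915) (nat_lit 82) (nat_lit 5) (nat_lit 85) (nat_lit 5) (nat_lit 83) (nat_lit 5) (nat_lit 419) (nat_lit 375) (nat_lit 226)) (XT.nd (nat_lit 78) (nat_lit 152) (nat_lit 0) (XT.lf (nat_lit 0) (nat_lit 25731557047) (nat_lit 228) (nat_lit 7751349085) (nat_lit 304) (nat_lit 49485392454) (nat_lit 79) (nat_lit 5) (nat_lit 82) (nat_lit 5) (nat_lit 83) (nat_lit 5) (nat_lit 420) (nat_lit 375) (nat_lit 225)) (XT.lf (nat_lit 0) (nat_lit 16938363174) (nat_lit 152) (nat_lit 49085986810) (nat_lit 228) (nat_lit 19745840851) (nat_lit 77) (nat_lit 5) (nat_lit 79) (nat_lit 5) (nat_lit 80) (nat_lit 5) (nat_lit 421) (nat_lit 375) (nat_lit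 224)))) (XT.nd (nat_lit 78) (nat_lit 152) (nat_lit 0) (XT.lf (nat_lit 0) (nat_lit 7266321106) (nat_lit 228) (nat_lit 4730614648) (nat_lit 304) (nat_lit 76689723308) (nat_lit 73) (nat_lit 5) (nat_lit 76) (nat_lit 5) (nat_lit 77) (nat_lit 5) (nat_lit 422) (nat_lit 375) (nat_lit 223)) (XT.nd (nat_lit 78) (nat_lit 152) (nat_lit 0) (XT.lf (nat_lit 0) (nat_lit 46037295869) (nat_lit 304) (nat_lit 3733232886) (nat_lit 76) (nat_lit 41938992710) (nat_lit 73) (nat_lit 5) (nat_lit 77) (nat_lit 5) (nat_lit 74) (nat_lit 5) (nat_lit 423) (nat_lit 375) (nat_lit 222)) (XT.lf (nat_lit 0) (nat_lit 79334031810) (nat_lit 152) (nat_lit 3253357058) (nat_lit 228) (nat_lit 12271907089) (nat_lit 71) (nat_lit 5) (nat_lit 73) (nat_lit 5) (nat_lit 74) (nat_lit 5) (nat_lit 424) (nat_lit 375) (nat_lit 221)))))) (XT.nd (nat_lit 49296) (nat_lit 0) (nat_lit 14288) (XT.nd (nat_lit 234) (nat_lit 456) (nat_lit 0) (XT.nd (nat_lit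 78) (nat_lit 304) (nat_lit 0) (XT.lf (nat_lit 0) (nat_lit 23506224534) (nat_lit 228) (nat_lit 28984776332) (nat_lit 76) (nat_lit 45634403818) (nat_lit 68) (nat_lit 5) (nat_lit 71) (nat_lit 5) (nat_lit 69) (nat_lit 5) (nat_lit 425) (nat_lit 375) (nat_lit 220)) (XT.nd (nat_lit 78) (nat_lit 152) (nat_lit 0) (XT.lf (nat_lit 0) (nat_lit 57779025299) (nat_lit 152) (nat_lit 3789922041) (nat_lit 228) (nat_lit 39959742160) (nat_lit 66) (nat_lit 5) (nat_lit 68) (nat_lit 5) (nat_lit 69) (nat_lit 5) (nat_lit 426) (nat_lit 375) (nat_lit 219)) (XT.lf (nat_lit 0) (nat_lit 44805444301) (nat_lit 152) (nat_lit 57914049940) (nat_lit 228) (nat_lit 2347104024) (nat_lit 64) (nat_lit 5) (nat_lit 66) (nat_lit 5) (nat_lit 67) (nat_lit 5) (nat_lit 427) (nat_lit 375) (nat_lit 218)))) (XT.nd (nat_lit 78) (nat_lit 228) (nat_lit 0) (XT.lf (nat_lit 0) (nat_lit 30118343173) (nat_lit 152) (nat_lit 7083154871) (nat_lit 228) (nat_lit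 71545786969) (nat_lit 61) (nat_lit 5) (nat_lit 63) (nat_lit 5) (nat_lit 64) (nat_lit 5) (nat_lit 428) (nat_lit 375) (nat_lit 217)) (XT.nd (nat_lit 78) (nat_lit 76) (nat_lit 0) (XT.lf (nat_lit 0) (nat_lit 13466509316) (nat_lit 152) (nat_lit 66411470329) (nat_lit 228) (nat_lit 32697359866) (nat_lit 59) (nat_lit 5) (nat_lit 61) (nat_lit 5) (nat_lit 62) (nat_lit 5) (nat_lit 429) (nat_lit 375) (nat_lit 216)) (XT.lf (nat_lit 0) (nat_lit 8822180317) (nat_lit 228) (nat_lit 4922077466) (nat_lit 76) (nat_lit 102821606503) (nat_lit 58) (nat_lit 5) (nat_lit 61) (nat_lit 5) (nat_lit 59) (nat_lit 5) (nat_lit 430) (nat_lit 375) (nat_lit 215))))) (XT.nd (nat_lit 234) (nat_lit 0) (nat_lit 152) (XT.nd (nat_lit 78) (nat_lit 0) (nat_lit 76) (XT.lf (nat_lit 0) (nat_lit 1371214086) (nat_lit 1292) (nat_lit 5227741911) (nat_lit 1292) (nat_lit 5227741911) (nat_lit 246) (nat_lit 3) (nat_lit 263) (nat_lit 3) (nat_lit 263)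 (nat_lit 5) (nat_lit 376) (nat_lit 376) (nat_lit 268)) (XT.nd (nat_lit 78) (nat_lit 0) (nat_lit 76) (XT.lf (nat_lit 0) (nat_lit 3139679168) (nat_lit 1216) (nat_lit 15575953680) (nat_lit 1292) (nat_lit 5519156590) (nat_lit 247) (nat_lit 5) (nat_lit 263) (nat_lit 5) (nat_lit 264) (nat_lit 5) (nat_lit 377) (nat_lit 376) (nat_lit 267)) (XT.lf (nat_lit 0) (nat_lit 3827436506) (nat_lit 1216) (nat_lit 20796186021) (nat_lit 1292) (nat_lit 213516054) (nat_lit 248) (nat_lit 5) (nat_lit 264) (nat_lit 5) (nat_lit 265) (nat_lit 5) (nat_lit 378) (nat_lit 376) (nat_lit 266)))) (XT.nd (nat_lit 156) (nat_lit 0) (nat_lit 152) (XT.nd (nat_lit 78) (nat_lit 0) (nat_lit 76) (XT.lf (nat_lit 0) (nat_lit 4888758172) (nat_lit 1216) (nat_lit 698144320) (nat_lit 1292) (nat_lit 19872532309) (nat_lit 248) (nat_lit 5) (nat_lit 264) (nat_lit 5) (nat_lit 265) (nat_lit 5) (nat_lit 379) (nat_lit 376) (nat_lit 265)) (XT.lf (nat_lit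 0) (nat_lit 6332488416) (nat_lit 1216) (nat_lit 5443602520) (nat_lit 1292) (nat_lit 14326879298) (nat_lit 249) (nat_lit 5) (nat_lit 265) (nat_lit 5) (nat_lit 266) (nat_lit 5) (nat_lit 380) (nat_lit 376) (nat_lit 264))) (XT.nd (nat_lit 78) (nat_lit 0) (nat_lit 76) (XT.lf (nat_lit 0) (nat_lit 8142749223) (nat_lit 1216) (nat_lit 10273132526) (nat_lit 1292) (nat_lit 8353974823) (nat_lit 250) (nat_lit 5) (nat_lit 266) (nat_lit 5) (nat_lit 267) (nat_lit 5) (nat_lit 381) (nat_lit 376) (nat_lit 263)) (XT.lf (nat_lit 0) (nat_lit 10345917256) (nat_lit 1216) (nat_lit 15187638202) (nat_lit 1292) (nat_lit 1927464188) (nat_lit 251) (nat_lit 5) (nat_lit 267) (nat_lit 5) (nat_lit 268) (nat_lit 5) (nat_lit 382) (nat_lit 376) (nat_lit 262))))))))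
noncomputable def xc104 : XT := (XT.nd (nat_lit 1872) (nat_lit 5396) (nat_lit 0) (XT.nd (nat_lit 936) (nat_lit 4712) (nat_lit 0) (XT.nd (nat_lit 468) (nat_lit 2812) (nat_lit 0) (XT.nd (nat_lit 234) (nat_lit 1672) (nat_lit 0) (XT.nd (nat_lit 78) (nat_lit 0) (nat_lit 76) (XT.lf (nat_lit 76) (nat_lit 7939173887) (nat_lit 0) (nat_lit 5079385929) (nat_lit 1292) (nat_lit 15157405614) (nat_lit 252) (nat_lit 5) (nat_lit 251) (nat_lit 5) (nat_lit 268) (nat_lit 5) (nat_lit 383) (nat_lit 376) (nat_lit 261)) (XT.nd (nat_lit 78) (nat_lit 0) (nat_lit 76) (XT.lf (nat_lit 76) (nat_lit 3519996839) (nat_lit 0) (nat_lit 12644928470) (nat_lit 1292) (nat_lit 12751534318) (nat_lit 253) (nat_lit 5) (nat_lit 252) (nat_lit 5) (nat_lit 269) (nat_lit 5) (nat_lit 384) (nat_lit 376) (nat_lit 260)) (XT.lf (nat_lit 0) (nat_lit 19806372303) (nat_lit 1216) (nat_lit 945862492) (nat_lit 1292) (nat_lit 8931614508) (nat_lit 253)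 (nat_lit 5) (nat_lit 269) (nat_lit 5) (nat_lit 270) (nat_lit 5) (nat_lit 385) (nat_lit 376) (nat_lit 259)))) (XT.nd (nat_lit 78) (nat_lit 1900) (nat_lit 0) (XT.lf (nat_lit 0) (nat_lit 24000674201) (nat_lit 1216) (nat_lit 5407204307) (nat_lit 76) (nat_lit 1070609967) (nat_lit 254) (nat_lit 5) (nat_lit 270) (nat_lit 5) (nat_lit 255) (nat_lit 5) (nat_lit 386) (nat_lit 376) (nat_lit 258)) (XT.nd (nat_lit 78) (nat_lit 684) (nat_lit 0) (XT.lf (nat_lit 0) (nat_lit 21295438013) (nat_lit 1216) (nat_lit 7525151824) (nat_lit 1292) (nat_lit 2479796134) (nat_lit 238) (nat_lit 5) (nat_lit 254) (nat_lit 5) (nat_lit 255) (nat_lit 5) (nat_lit 387) (nat_lit 376) (nat_lit 257)) (XT.lf (nat_lit 0) (nat_lit 2053107572) (nat_lit 684) (nat_lit 14703348279) (nat_lit 76) (nat_lit 15395374754) (nat_lit 229) (nat_lit 5) (nat_lit 238) (nat_lit 5) (nat_lit 230) (nat_lit 5) (nat_lit 388) (nat_lit 376) (nat_lit 256))))) (XT.nd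 (nat_lit 234) (nat_lit 1064) (nat_lit 0) (XT.nd (nat_lit 78) (nat_lit 1140) (nat_lit 0) (XT.lf (nat_lit 0) (nat_lit 7127767293) (nat_lit 684) (nat_lit 19501607495) (nat_lit 76) (nat_lit 6404747133) (nat_lit 221) (nat_lit 5) (nat_lit 230) (nat_lit 5) (nat_lit 222) (nat_lit 5) (nat_lit 389) (nat_lit 376) (nat_lit 255)) (XT.nd (nat_lit 78) (nat_lit 532) (nat_lit 0) (XT.lf (nat_lit 0) (nat_lit 9539911347) (nat_lit 608) (nat_lit 3322691914) (nat_lit 684) (nat_lit 21085734031) (nat_lit 213) (nat_lit 5) (nat_lit 221) (nat_lit 5) (nat_lit 222) (nat_lit 5) (nat_lit 390) (nat_lit 376) (nat_lit 254)) (XT.lf (nat_lit 0) (nat_lit 5432438774) (nat_lit 532) (nat_lit 13903038180) (nat_lit 608) (nat_lit 15559250254) (nat_lit 206) (nat_lit 5) (nat_lit 213) (nat_lit 5) (nat_lit 214) (nat_lit 5) (nat_lit 391) (nat_lit 376) (nat_lit 253)))) (XT.nd (nat_lit 78) (nat_lit 532) (nat_lit 0) (XT.lf (nat_lit 0) (nat_lit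 1275060957) (nat_lit 532) (nat_lit 25251015441) (nat_lit 608) (nat_lit 9350540291) (nat_lit 199) (nat_lit 5) (nat_lit 206) (nat_lit 5) (nat_lit 207) (nat_lit 5) (nat_lit 392) (nat_lit 376) (nat_lit 252)) (XT.nd (nat_lit 78) (nat_lit 532) (nat_lit 0) (XT.lf (nat_lit 0) (nat_lit 34014965743) (nat_lit 532) (nat_lit 497032546) (nat_lit 608) (nat_lit 2382530988) (nat_lit 199) (nat_lit 5) (nat_lit 206) (nat_lit 5) (nat_lit 207) (nat_lit 5) (nat_lit 393) (nat_lit 376) (nat_lit 251)) (XT.lf (nat_lit 0) (nat_lit 5377670480) (nat_lit 532) (nat_lit 7222707783) (nat_lit 76) (nat_lit 25345336551) (nat_lit 192) (nat_lit 5) (nat_lit 199) (nat_lit 5) (nat_lit 193) (nat_lit 5) (nat_lit 394) (nat_lit 376) (nat_lit 250)))))) (XT.nd (nat_lit 468) (nat_lit 1976) (nat_lit 0) (XT.nd (nat_lit 234) (nat_lit 1292) (nat_lit 0) (XT.nd (nat_lit 78) (nat_lit 912) (nat_lit 0) (XT.lf (nat_lit 0) (nat_lit 13902717857) (nat_lit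 608) (nat_lit 11653805042) (nat_lit 76) (nat_lit 13479447861) (nat_lit 185) (nat_lit 5) (nat_lit 193) (nat_lit 5) (nat_lit 186) (nat_lit 5) (nat_lit 395) (nat_lit 376) (nat_lit 249)) (XT.nd (nat_lit 78) (nat_lit 456) (nat_lit 0) (XT.lf (nat_lit 0) (nat_lit 23288595201) (nat_lit 532) (nat_lit 16151098020) (nat_lit 76) (nat_lit 728010974) (nat_lit 179) (nat_lit 5) (nat_lit 186) (nat_lit 5) (nat_lit 180) (nat_lit 5) (nat_lit 396) (nat_lit 376) (nat_lit 248)) (XT.lf (nat_lit 0) (nat_lit 20495856415) (nat_lit 456) (nat_lit 13218475105) (nat_lit 532) (nat_lit 7624577752) (nat_lit 173) (nat_lit 5) (nat_lit 179) (nat_lit 5) (nat_lit 180) (nat_lit 5) (nat_lit 397) (nat_lit 376) (nat_lit 247)))) (XT.nd (nat_lit 78) (nat_lit 836) (nat_lit 0) (XT.lf (nat_lit 0) (nat_lit 2519340184) (nat_lit 456) (nat_lit 25645871066) (nat_lit 76) (nat_lit 14388836773) (nat_lit 167) (nat_lit 5) (nat_lit 173) (nat_lit 5) (nat_lit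 168) (nat_lit 5) (nat_lit 398) (nat_lit 376) (nat_lit 246)) (XT.nd (nat_lit 78) (nat_lit 380) (nat_lit 0) (XT.lf (nat_lit 0) (nat_lit 13197574652) (nat_lit 456) (nat_lit 288401646) (nat_lit 532) (nat_lit 30327508074) (nat_lit 161) (nat_lit 5) (nat_lit 167) (nat_lit 5) (nat_lit 168) (nat_lit 5) (nat_lit 399) (nat_lit 376) (nat_lit 245)) (XT.lf (nat_lit 0) (nat_lit 9284678109) (nat_lit 380) (nat_lit 16345681495) (nat_lit 456) (nat_lit 19486652086) (nat_lit 156) (nat_lit 5) (nat_lit 161) (nat_lit 5) (nat_lit 162) (nat_lit 5) (nat_lit 400) (nat_lit 376) (nat_lit 244))))) (XT.nd (nat_lit 234) (nat_lit 1140) (nat_lit 0) (XT.nd (nat_lit 78) (nat_lit 456) (nat_lit 0) (XT.lf (nat_lit 0) (nat_lit 5312120351) (nat_lit 380) (nat_lit 33560162471) (nat_lit 456) (nat_lit 7598724465) (nat_lit 151) (nat_lit 5) (nat_lit 156) (nat_lit 5) (nat_lit 157) (nat_lit 5) (nat_lit 401) (nat_lit 376) (nat_lit 243)) (XT.nd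 (nat_lit 78) (nat_lit 0) (nat_lit 0) (XT.lf (nat_lit 0) (nat_lit 1182144628) (nat_lit 380) (nat_lit 4150263397) (nat_lit 456) (nat_lit 42542564584) (nat_lit 145) (nat_lit 5) (nat_lit 150) (nat_lit 5) (nat_lit 151) (nat_lit 5) (nat_lit 402) (nat_lit 376) (nat_lit 242)) (XT.lf (nat_lit 0) (nat_lit 19434639712) (nat_lit 456) (nat_lit 3180175437) (nat_lit 76) (nat_lit 26711614478) (nat_lit 145) (nat_lit 5) (nat_lit 151) (nat_lit 5) (nat_lit 146) (nat_lit 5) (nat_lit 403) (nat_lit 376) (nat_lit 241)))) (XT.nd (nat_lit 78) (nat_lit 760) (nat_lit 0) (XT.lf (nat_lit 0) (nat_lit 34778528375) (nat_lit 456) (nat_lit 7614287860) (nat_lit 76) (nat_lit 8441548187) (nat_lit 140) (nat_lit 5) (nat_lit 146) (nat_lit 5) (nat_lit 141) (nat_lit 5) (nat_lit 404) (nat_lit 376) (nat_lit 240)) (XT.nd (nat_lit 78) (nat_lit 456) (nat_lit 0) (XT.lf (nat_lit 0) (nat_lit 40138870514) (nat_lit 304) (nat_lit 11393654968) (nat_lit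 380) (nat_lit 865884283) (nat_lit 136) (nat_lit 5) (nat_lit 140) (nat_lit 5) (nat_lit 141) (nat_lit 5) (nat_lit 405) (nat_lit 376) (nat_lit 239)) (XT.lf (nat_lit 0) (nat_lit 15428713693) (nat_lit 456) (nat_lit 17262125435) (nat_lit 76) (nat_lit 21326285108) (nat_lit 130) (nat_lit 5) (nat_lit 136) (nat_lit 5) (nat_lit 131) (nat_lit 5) (nat_lit 406) (nat_lit 376) (nat_lit 238))))))) (XT.nd (nat_lit 936) (nat_lit 2204) (nat_lit 0) (XT.nd (nat_lit 468) (nat_lit 1292) (nat_lit 0) (XT.nd (nat_lit 234) (nat_lit 912) (nat_lit 0) (XT.nd (nat_lit 78) (nat_lit 684) (nat_lit 0) (XT.lf (nat_lit 0) (nat_lit 33080624098) (nat_lit 380) (nat_lit 22419527382) (nat_lit 76) (nat_lit 199552129) (nat_lit 126) (nat_lit 5) (nat_lit 131) (nat_lit 5) (nat_lit 127) (nat_lit 5) (nat_lit 407) (nat_lit 376) (nat_lit 237)) (XT.nd (nat_lit 78) (nat_lit 380) (nat_lit 0) (XT.lf (nat_lit 0) (nat_lit 29487250011) (nat_lit 304)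 (nat_lit 22916853965) (nat_lit 380) (nat_lit 5038639785) (nat_lit 122) (nat_lit 5) (nat_lit 126) (nat_lit 5) (nat_lit 127) (nat_lit 5) (nat_lit 408) (nat_lit 376) (nat_lit 236)) (XT.lf (nat_lit 0) (nat_lit 13748428946) (nat_lit 380) (nat_lit 33815784035) (nat_lit 76) (nat_lit 11687168749) (nat_lit 117) (nat_lit 5) (nat_lit 122) (nat_lit 5) (nat_lit 118) (nat_lit 5) (nat_lit 409) (nat_lit 376) (nat_lit 235)))) (XT.nd (nat_lit 78) (nat_lit 608) (nat_lit 0) (XT.lf (nat_lit 0) (nat_lit 21059015770) (nat_lit 304) (nat_lit 13033277005) (nat_lit 380) (nat_lit 27035013650) (nat_lit 113) (nat_lit 5) (nat_lit 117) (nat_lit 5) (nat_lit 118) (nat_lit 5) (nat_lit 410) (nat_lit 376) (nat_lit 234)) (XT.nd (nat_lit 78) (nat_lit 380) (nat_lit 0) (XT.lf (nat_lit 0) (nat_lit 16385208702) (nat_lit 228) (nat_lit 39796863605) (nat_lit 304) (nat_lit 6893094235) (nat_lit 110) (nat_lit 5) (nat_lit 113) (nat_lit 5) (nat_lit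 114) (nat_lit 5) (nat_lit 411) (nat_lit 376) (nat_lit 233)) (XT.lf (nat_lit 0) (nat_lit 11333771447) (nat_lit 304) (nat_lit 3297518774) (nat_lit 380) (nat_lit 50465412538) (nat_lit 105) (nat_lit 5) (nat_lit 109) (nat_lit 5) (nat_lit 110) (nat_lit 5) (nat_lit 412) (nat_lit 376) (nat_lit 232))))) (XT.nd (nat_lit 234) (nat_lit 760) (nat_lit 0) (XT.nd (nat_lit 78) (nat_lit 304) (nat_lit 0) (XT.lf (nat_lit 0) (nat_lit 5724854263) (nat_lit 228) (nat_lit 32239530776) (nat_lit 304) (nat_lit 29226632529) (nat_lit 102) (nat_lit 5) (nat_lit 105) (nat_lit 5) (nat_lit 106) (nat_lit 5) (nat_lit 413) (nat_lit 376) (nat_lit 231)) (XT.nd (nat_lit 78) (nat_lit 304) (nat_lit 0) (XT.lf (nat_lit 0) (nat_lit 63107080890) (nat_lit 304) (nat_lit 160962849) (nat_lit 76) (nat_lit 6102716714) (nat_lit 102) (nat_lit 5) (nat_lit 106) (nat_lit 5) (nat_lit 103) (nat_lit 5) (nat_lit 414) (nat_lit 376) (nat_lit 230)) (XT.lf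 (nat_lit 0) (nat_lit 18457068142) (nat_lit 304) (nat_lit 6661551594) (nat_lit 76) (nat_lit 46506987169) (nat_lit 98) (nat_lit 5) (nat_lit 102) (nat_lit 5) (nat_lit 99) (nat_lit 5) (nat_lit 415) (nat_lit 376) (nat_lit 229)))) (XT.nd (nat_lit 78) (nat_lit 532) (nat_lit 0) (XT.lf (nat_lit 0) (nat_lit 45015342219) (nat_lit 304) (nat_lit 13656538807) (nat_lit 76) (nat_lit 15297523847) (nat_lit 95) (nat_lit 5) (nat_lit 99) (nat_lit 5) (nat_lit 96) (nat_lit 5) (nat_lit 416) (nat_lit 376) (nat_lit 228)) (XT.nd (nat_lit 78) (nat_lit 304) (nat_lit 0) (XT.lf (nat_lit 0) (nat_lit 55164291227) (nat_lit 228) (nat_lit 18587306159) (nat_lit 304) (nat_lit 2653293940) (nat_lit 92) (nat_lit 5) (nat_lit 95) (nat_lit 5) (nat_lit 96) (nat_lit 5) (nat_lit 417) (nat_lit 376) (nat_lit 227)) (XT.lf (nat_lit 0) (nat_lit 25324405979) (nat_lit 304) (nat_lit 29697992942) (nat_lit 76) (nat_lit 23907085054) (nat_lit 88) (nat_lit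 5) (nat_lit 92) (nat_lit 5) (nat_lit 89) (nat_lit 5) (nat_lit 418) (nat_lit 376) (nat_lit 226)))))) (XT.nd (nat_lit 468) (nat_lit 1064) (nat_lit 0) (XT.nd (nat_lit 234) (nat_lit 456) (nat_lit 0) (XT.nd (nat_lit 78) (nat_lit 456) (nat_lit 0) (XT.lf (nat_lit 0) (nat_lit 42709487148) (nat_lit 228) (nat_lit 12753271506) (nat_lit 304) (nat_lit 26092260770) (nat_lit 85) (nat_lit 5) (nat_lit 88) (nat_lit 5) (nat_lit 89) (nat_lit 5) (nat_lit 419) (nat_lit 376) (nat_lit 225)) (XT.nd (nat_lit 78) (nat_lit 228) (nat_lit 0) (XT.lf (nat_lit 0) (nat_lit 3701682669) (nat_lit 228) (nat_lit 48884538709) (nat_lit 76) (nat_lit 31696002923) (nat_lit 82) (nat_lit 5) (nat_lit 85) (nat_lit 5) (nat_lit 83) (nat_lit 5) (nat_lit 420) (nat_lit 376) (nat_lit 224)) (XT.lf (nat_lit 0) (nat_lit 27160453380) (nat_lit 228) (nat_lit 8081196515) (nat_lit 304) (nat_lit 51872511184) (nat_lit 79) (nat_lit 5) (nat_lit 82) (nat_lit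 5) (nat_lit 83) (nat_lit 5) (nat_lit 421) (nat_lit 376) (nat_lit 223)))) (XT.nd (nat_lit 78) (nat_lit 304) (nat_lit 0) (XT.lf (nat_lit 0) (nat_lit 17925460618) (nat_lit 152) (nat_lit 51482552733) (nat_lit 228) (nat_lit 20648199857) (nat_lit 77) (nat_lit 5) (nat_lit 79) (nat_lit 5) (nat_lit 80) (nat_lit 5) (nat_lit 422) (nat_lit 376) (nat_lit 222)) (XT.nd (nat_lit 78) (nat_lit 0) (nat_lit 0) (XT.lf (nat_lit 0) (nat_lit 7767421085) (nat_lit 228) (nat_lit 4909996098) (nat_lit 304) (nat_lit 80441143039) (nat_lit 73) (nat_lit 5) (nat_lit 76) (nat_lit 5) (nat_lit 77) (nat_lit 5) (nat_lit 423) (nat_lit 376) (nat_lit 221)) (XT.lf (nat_lit 0) (nat_lit 48416478753) (nat_lit 304) (nat_lit 3786878948) (nat_lit 76) (nat_lit 44089308149) (nat_lit 73) (nat_lit 5) (nat_lit 77) (nat_lit 5) (nat_lit 74) (nat_lit 5) (nat_lit 424) (nat_lit 376) (nat_lit 220))))) (XT.nd (nat_lit 234) (nat_lit 532) (nat_lit 0) (XT.nd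 (nat_lit 78) (nat_lit 380) (nat_lit 0) (XT.lf (nat_lit 0) (nat_lit 83429936119) (nat_lit 152) (nat_lit 3361700445) (nat_lit 228) (nat_lit 12808366276) (nat_lit 71) (nat_lit 5) (nat_lit 73) (nat_lit 5) (nat_lit 74) (nat_lit 5) (nat_lit 425) (nat_lit 376) (nat_lit 219)) (XT.nd (nat_lit 78) (nat_lit 152) (nat_lit 0) (XT.lf (nat_lit 0) (nat_lit 24755302193) (nat_lit 228) (nat_lit 30305351247) (nat_lit 76) (nat_lit 47968797790) (nat_lit 68) (nat_lit 5) (nat_lit 71) (nat_lit 5) (nat_lit 69) (nat_lit 5) (nat_lit 426) (nat_lit 376) (nat_lit 218)) (XT.lf (nat_lit 0) (nat_lit 60792952341) (nat_lit 152) (nat_lit 3925897454) (nat_lit 228) (nat_lit 41884120340) (nat_lit 66) (nat_lit 5) (nat_lit 68) (nat_lit 5) (nat_lit 69) (nat_lit 5) (nat_lit 427) (nat_lit 376) (nat_lit 217)))) (XT.nd (nat_lit 156) (nat_lit 152) (nat_lit 0) (XT.nd (nat_lit 78) (nat_lit 228) (nat_lit 0) (XT.lf (nat_lit 0) (nat_lit 47168702261)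 (nat_lit 152) (nat_lit 60756491346) (nat_lit 228) (nat_lit 2392633129) (nat_lit 64) (nat_lit 5) (nat_lit 66) (nat_lit 5) (nat_lit 67) (nat_lit 5) (nat_lit 428) (nat_lit 376) (nat_lit 216)) (XT.lf (nat_lit 0) (nat_lit 31745091273) (nat_lit 152) (nat_lit 7384714135) (nat_lit 228) (nat_lit 75052787910) (nat_lit 61) (nat_lit 5) (nat_lit 63) (nat_lit 5) (nat_lit 64) (nat_lit 5) (nat_lit 429) (nat_lit 376) (nat_lit 215))) (XT.nd (nat_lit 48984) (nat_lit 0) (nat_lit 14212) (XT.lf (nat_lit 0) (nat_lit 14258708025) (nat_lit 152) (nat_lit 69679778115) (nat_lit 228) (nat_lit 34263613579) (nat_lit 59) (nat_lit 5) (nat_lit 61) (nat_lit 5) (nat_lit 62) (nat_lit 5) (nat_lit 430) (nat_lit 376) (nat_lit 214)) (XT.lf (nat_lit 0) (nat_lit 1627606844) (nat_lit 1292) (nat_lit 5392355845) (nat_lit 1292) (nat_lit 5392355845) (nat_lit 246) (nat_lit 3) (nat_lit 263) (nat_lit 3) (nat_lit 263) (nat_lit 5) (nat_lit 377)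 (nat_lit 377) (nat_lit 266))))))))
noncomputable def xc105 : XT := (XT.nd (nat_lit 1872) (nat_lit 6460) (nat_lit 0) (XT.nd (nat_lit 936) (nat_lit 5548) (nat_lit 0) (XT.nd (nat_lit 468) (nat_lit 1368) (nat_lit 0) (XT.nd (nat_lit 234) (nat_lit 0) (nat_lit 152) (XT.nd (nat_lit 78) (nat_lit 0) (nat_lit 76) (XT.lf (nat_lit 0) (nat_lit 3654596250) (nat_lit 1216) (nat_lit 16154165095) (nat_lit 1292) (nat_lit 5626878506) (nat_lit 247) (nat_lit 5) (nat_lit 263) (nat_lit 5) (nat_lit 264) (nat_lit 5) (nat_lit 378) (nat_lit 377) (nat_lit 265)) (XT.nd (nat_lit 78) (nat_lit 0) (nat_lit 0) (XT.lf (nat_lit 0) (nat_lit 4360147962) (nat_lit 1216) (nat_lit 21629310153) (nat_lit 1292) (nat_lit 79153335) (nat_lit 248) (nat_lit 5) (nat_lit 264) (nat_lit 5) (nat_lit 265) (nat_lit 5) (nat_lit 379) (nat_lit 377) (nat_lit 264)) (XT.lf (nat_lit 0) (nat_lit 5458281443) (nat_lit 1216) (nat_lit 536208518) (nat_lit 1292) (nat_lit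 20728026999) (nat_lit 248) (nat_lit 5) (nat_lit 264) (nat_lit 5) (nat_lit 265) (nat_lit 5) (nat_lit 380) (nat_lit 377) (nat_lit 263)))) (XT.nd (nat_lit 78) (nat_lit 0) (nat_lit 76) (XT.lf (nat_lit 0) (nat_lit 6959400036) (nat_lit 1216) (nat_lit 5513952463) (nat_lit 1292) (nat_lit 14925327135) (nat_lit 249) (nat_lit 5) (nat_lit 265) (nat_lit 5) (nat_lit 266) (nat_lit 5) (nat_lit 381) (nat_lit 377) (nat_lit 262)) (XT.nd (nat_lit 78) (nat_lit 0) (nat_lit 76) (XT.lf (nat_lit 0) (nat_lit 8846308554) (nat_lit 1216) (nat_lit 10580723975) (nat_lit 1292) (nat_lit 8672299935) (nat_lit 250) (nat_lit 5) (nat_lit 266) (nat_lit 5) (nat_lit 267) (nat_lit 5) (nat_lit 382) (nat_lit 377) (nat_lit 261)) (XT.lf (nat_lit 0) (nat_lit 11146635552) (nat_lit 1216) (nat_lit 15737408317) (nat_lit 1292) (nat_lit 1941405723) (nat_lit 251) (nat_lit 5) (nat_lit 267) (nat_lit 5) (nat_lit 268) (nat_lit 5) (nat_lit 383) (nat_lit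 377) (nat_lit 260))))) (XT.nd (nat_lit 234) (nat_lit 1672) (nat_lit 0) (XT.nd (nat_lit 78) (nat_lit 0) (nat_lit 76) (XT.lf (nat_lit 76) (nat_lit 8539735896) (nat_lit 0) (nat_lit 5401635197) (nat_lit 1292) (nat_lit 15635123382) (nat_lit 252) (nat_lit 5) (nat_lit 251) (nat_lit 5) (nat_lit 268) (nat_lit 5) (nat_lit 384) (nat_lit 377) (nat_lit 259)) (XT.nd (nat_lit 78) (nat_lit 0) (nat_lit 76) (XT.lf (nat_lit 76) (nat_lit 3902433472) (nat_lit 0) (nat_lit 13331033868) (nat_lit 1292) (nat_lit 13120899036) (nat_lit 253) (nat_lit 5) (nat_lit 252) (nat_lit 5) (nat_lit 269) (nat_lit 5) (nat_lit 385) (nat_lit 377) (nat_lit 258)) (XT.lf (nat_lit 0) (nat_lit 21044098575) (nat_lit 1216) (nat_lit 788516808) (nat_lit 1292) (nat_lit 9327901907) (nat_lit 253) (nat_lit 5) (nat_lit 269) (nat_lit 5) (nat_lit 270) (nat_lit 5) (nat_lit 386) (nat_lit 377) (nat_lit 257)))) (XT.nd (nat_lit 78) (nat_lit 1900) (nat_lit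 0) (XT.lf (nat_lit 0) (nat_lit 25437872353) (nat_lit 1216) (nat_lit 5471195530) (nat_lit 76) (nat_lit 1086132705) (nat_lit 254) (nat_lit 5) (nat_lit 270) (nat_lit 5) (nat_lit 255) (nat_lit 5) (nat_lit 387) (nat_lit 377) (nat_lit 256)) (XT.nd (nat_lit 78) (nat_lit 684) (nat_lit 0) (XT.lf (nat_lit 0) (nat_lit 22560663381) (nat_lit 1216) (nat_lit 7928753727) (nat_lit 1292) (nat_lit 2369061489) (nat_lit 238) (nat_lit 5) (nat_lit 254) (nat_lit 5) (nat_lit 255) (nat_lit 5) (nat_lit 388) (nat_lit 377) (nat_lit 255)) (XT.lf (nat_lit 0) (nat_lit 2376653000) (nat_lit 684) (nat_lit 15232342849) (nat_lit 76) (nat_lit 16143713833) (nat_lit 229) (nat_lit 5) (nat_lit 238) (nat_lit 5) (nat_lit 230) (nat_lit 5) (nat_lit 389) (nat_lit 377) (nat_lit 254)))))) (XT.nd (nat_lit 468) (nat_lit 2736) (nat_lit 0) (XT.nd (nat_lit 234) (nat_lit 1064) (nat_lit 0) (XT.nd (nat_lit 78) (nat_lit 1140) (nat_lit 0) (XT.lf (nat_lit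 0) (nat_lit 7696336509) (nat_lit 684) (nat_lit 20269858691) (nat_lit 76) (nat_lit 6713185723) (nat_lit 221) (nat_lit 5) (nat_lit 230) (nat_lit 5) (nat_lit 222) (nat_lit 5) (nat_lit 390) (nat_lit 377) (nat_lit 253)) (XT.nd (nat_lit 78) (nat_lit 532) (nat_lit 0) (XT.lf (nat_lit 0) (nat_lit 10217807376) (nat_lit 608) (nat_lit 3491934227) (nat_lit 684) (nat_lit 21929814529) (nat_lit 213) (nat_lit 5) (nat_lit 221) (nat_lit 5) (nat_lit 222) (nat_lit 5) (nat_lit 391) (nat_lit 377) (nat_lit 252)) (XT.lf (nat_lit 0) (nat_lit 5905251780) (nat_lit 532) (nat_lit 14593198047) (nat_lit 608) (nat_lit 16135053696) (nat_lit 206) (nat_lit 5) (nat_lit 213) (nat_lit 5) (nat_lit 214) (nat_lit 5) (nat_lit 392) (nat_lit 377) (nat_lit 251)))) (XT.nd (nat_lit 78) (nat_lit 532) (nat_lit 0) (XT.lf (nat_lit 0) (nat_lit 1539980562) (nat_lit 532) (nat_lit 26501235307) (nat_lit 608) (nat_lit 9623496036) (nat_lit 199) (nat_lit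 5) (nat_lit 206) (nat_lit 5) (nat_lit 207) (nat_lit 5) (nat_lit 393) (nat_lit 377) (nat_lit 250)) (XT.nd (nat_lit 78) (nat_lit 532) (nat_lit 0) (XT.lf (nat_lit 0) (nat_lit 35907301227) (nat_lit 532) (nat_lit 510140454) (nat_lit 608) (nat_lit 2316351566) (nat_lit 199) (nat_lit 5) (nat_lit 206) (nat_lit 5) (nat_lit 207) (nat_lit 5) (nat_lit 394) (nat_lit 377) (nat_lit 249)) (XT.lf (nat_lit 0) (nat_lit 5821557679) (nat_lit 532) (nat_lit 7389006481) (nat_lit 76) (nat_lit 26627124159) (nat_lit 192) (nat_lit 5) (nat_lit 199) (nat_lit 5) (nat_lit 193) (nat_lit 5) (nat_lit 395) (nat_lit 377) (nat_lit 248))))) (XT.nd (nat_lit 234) (nat_lit 1292) (nat_lit 0) (XT.nd (nat_lit 78) (nat_lit 912) (nat_lit 0) (XT.lf (nat_lit 0) (nat_lit 14766542700) (nat_lit 608) (nat_lit 12042329291) (nat_lit 76) (nat_lit 14173777471) (nat_lit 185) (nat_lit 5) (nat_lit 193) (nat_lit 5) (nat_lit 186) (nat_lit 5) (nat_lit 396)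 (nat_lit 377) (nat_lit 247)) (XT.nd (nat_lit 78) (nat_lit 456) (nat_lit 0) (XT.lf (nat_lit 0) (nat_lit 24615745235) (nat_lit 532) (nat_lit 16765373414) (nat_lit 76) (nat_lit 790032798) (nat_lit 179) (nat_lit 5) (nat_lit 186) (nat_lit 5) (nat_lit 180) (nat_lit 5) (nat_lit 397) (nat_lit 377) (nat_lit 246)) (XT.lf (nat_lit 0) (nat_lit 21708388425) (nat_lit 456) (nat_lit 13848436024) (nat_lit 532) (nat_lit 7844273330) (nat_lit 173) (nat_lit 5) (nat_lit 179) (nat_lit 5) (nat_lit 180) (nat_lit 5) (nat_lit 398) (nat_lit 377) (nat_lit 245)))) (XT.nd (nat_lit 78) (nat_lit 836) (nat_lit 0) (XT.lf (nat_lit 0) (nat_lit 2798245050) (nat_lit 456) (nat_lit 26738382054) (nat_lit 76) (nat_lit 15140485563) (nat_lit 167) (nat_lit 5) (nat_lit 173) (nat_lit 5) (nat_lit 168) (nat_lit 5) (nat_lit 399) (nat_lit 377) (nat_lit 244)) (XT.nd (nat_lit 78) (nat_lit 380) (nat_lit 0) (XT.lf (nat_lit 0) (nat_lit 14041795871)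 (nat_lit 456) (nat_lit 265906356) (nat_lit 532) (nat_lit 31691986290) (nat_lit 161) (nat_lit 5) (nat_lit 167) (nat_lit 5) (nat_lit 168) (nat_lit 5) (nat_lit 400) (nat_lit 377) (nat_lit 243)) (XT.lf (nat_lit 0) (nat_lit 9931967618) (nat_lit 380) (nat_lit 17122414339) (nat_lit 456) (nat_lit 20314160177) (nat_lit 156) (nat_lit 5) (nat_lit 161) (nat_lit 5) (nat_lit 162) (nat_lit 5) (nat_lit 401) (nat_lit 377) (nat_lit 242))))))) (XT.nd (nat_lit 936) (nat_lit 2584) (nat_lit 0) (XT.nd (nat_lit 468) (nat_lit 1900) (nat_lit 0) (XT.nd (nat_lit 234) (nat_lit 1140) (nat_lit 0) (XT.nd (nat_lit 78) (nat_lit 456) (nat_lit 0) (XT.lf (nat_lit 0) (nat_lit 5759352395) (nat_lit 380) (nat_lit 35194380161) (nat_lit 456) (nat_lit 7836647163) (nat_lit 151) (nat_lit 5) (nat_lit 156) (nat_lit 5) (nat_lit 157) (nat_lit 5) (nat_lit 402) (nat_lit 377) (nat_lit 241)) (XT.nd (nat_lit 78) (nat_lit 0) (nat_lit 0) (XT.lf (nat_lit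 0) (nat_lit 1420403796) (nat_lit 380) (nat_lit 4312958491) (nat_lit 456) (nat_lit 44531289301) (nat_lit 145) (nat_lit 5) (nat_lit 150) (nat_lit 5) (nat_lit 151) (nat_lit 5) (nat_lit 403) (nat_lit 377) (nat_lit 240)) (XT.lf (nat_lit 0) (nat_lit 20534719012) (nat_lit 456) (nat_lit 3165097763) (nat_lit 76) (nat_lit 28089046167) (nat_lit 145) (nat_lit 5) (nat_lit 151) (nat_lit 5) (nat_lit 146) (nat_lit 5) (nat_lit 404) (nat_lit 377) (nat_lit 239)))) (XT.nd (nat_lit 78) (nat_lit 760) (nat_lit 0) (XT.lf (nat_lit 0) (nat_lit 36641750617) (nat_lit 456) (nat_lit 7822589009) (nat_lit 76) (nat_lit 8907978192) (nat_lit 140) (nat_lit 5) (nat_lit 146) (nat_lit 5) (nat_lit 141) (nat_lit 5) (nat_lit 405) (nat_lit 377) (nat_lit 238)) (XT.nd (nat_lit 78) (nat_lit 456) (nat_lit 0) (XT.lf (nat_lit 0) (nat_lit 42313285093) (nat_lit 304) (nat_lit 11915853473) (nat_lit 380) (nat_lit 785557845) (nat_lit 136) (nat_lit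 5) (nat_lit 140) (nat_lit 5) (nat_lit 141) (nat_lit 5) (nat_lit 406) (nat_lit 377) (nat_lit 237)) (XT.lf (nat_lit 0) (nat_lit 16317634067) (nat_lit 456) (nat_lit 17957105029) (nat_lit 76) (nat_lit 22439685155) (nat_lit 130) (nat_lit 5) (nat_lit 136) (nat_lit 5) (nat_lit 131) (nat_lit 5) (nat_lit 407) (nat_lit 377) (nat_lit 236))))) (XT.nd (nat_lit 234) (nat_lit 912) (nat_lit 0) (XT.nd (nat_lit 78) (nat_lit 684) (nat_lit 0) (XT.lf (nat_lit 0) (nat_lit 34848594457) (nat_lit 380) (nat_lit 23374241603) (nat_lit 76) (nat_lit 258404405) (nat_lit 126) (nat_lit 5) (nat_lit 131) (nat_lit 5) (nat_lit 127) (nat_lit 5) (nat_lit 408) (nat_lit 377) (nat_lit 235)) (XT.nd (nat_lit 78) (nat_lit 380) (nat_lit 0) (XT.lf (nat_lit 0) (nat_lit 31123108789) (nat_lit 304) (nat_lit 24011266267) (nat_lit 380) (nat_lit 5177175202) (nat_lit 122) (nat_lit 5) (nat_lit 126) (nat_lit 5) (nat_lit 127) (nat_lit 5) (nat_lit 409)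 (nat_lit 377) (nat_lit 234)) (XT.lf (nat_lit 0) (nat_lit 14543764800) (nat_lit 380) (nat_lit 35344776950) (nat_lit 76) (nat_lit 12322145084) (nat_lit 117) (nat_lit 5) (nat_lit 122) (nat_lit 5) (nat_lit 118) (nat_lit 5) (nat_lit 410) (nat_lit 377) (nat_lit 233)))) (XT.nd (nat_lit 78) (nat_lit 608) (nat_lit 0) (XT.lf (nat_lit 0) (nat_lit 22269124987) (nat_lit 304) (nat_lit 13632068755) (nat_lit 380) (nat_lit 28279324127) (nat_lit 113) (nat_lit 5) (nat_lit 117) (nat_lit 5) (nat_lit 118) (nat_lit 5) (nat_lit 411) (nat_lit 377) (nat_lit 232)) (XT.nd (nat_lit 78) (nat_lit 380) (nat_lit 0) (XT.lf (nat_lit 0) (nat_lit 17359692451) (nat_lit 228) (nat_lit 41732779922) (nat_lit 304) (nat_lit 7133389519) (nat_lit 110) (nat_lit 5) (nat_lit 113) (nat_lit 5) (nat_lit 114) (nat_lit 5) (nat_lit 412) (nat_lit 377) (nat_lit 231)) (XT.lf (nat_lit 0) (nat_lit 12053234655) (nat_lit 304) (nat_lit 3408539116) (nat_lit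 380) (nat_lit 52886774288) (nat_lit 105) (nat_lit 5) (nat_lit 109) (nat_lit 5) (nat_lit 110) (nat_lit 5) (nat_lit 413) (nat_lit 377) (nat_lit 230)))))) (XT.nd (nat_lit 468) (nat_lit 1292) (nat_lit 0) (XT.nd (nat_lit 234) (nat_lit 760) (nat_lit 0) (XT.nd (nat_lit 78) (nat_lit 304) (nat_lit 0) (XT.lf (nat_lit 0) (nat_lit 6161893640) (nat_lit 228) (nat_lit 33796861851) (nat_lit 304) (nat_lit 30588907213) (nat_lit 102) (nat_lit 5) (nat_lit 105) (nat_lit 5) (nat_lit 106) (nat_lit 5) (nat_lit 414) (nat_lit 377) (nat_lit 229)) (XT.nd (nat_lit 78) (nat_lit 304) (nat_lit 0) (XT.lf (nat_lit 0) (nat_lit 66354507777) (nat_lit 304) (nat_lit 23128019) (nat_lit 76) (nat_lit 6458880297) (nat_lit 102) (nat_lit 5) (nat_lit 106) (nat_lit 5) (nat_lit 103) (nat_lit 5) (nat_lit 415) (nat_lit 377) (nat_lit 228)) (XT.lf (nat_lit 0) (nat_lit 19469872639) (nat_lit 304) (nat_lit 6851119028) (nat_lit 76) (nat_lit 48883178375)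 (nat_lit 98) (nat_lit 5) (nat_lit 102) (nat_lit 5) (nat_lit 99) (nat_lit 5) (nat_lit 416) (nat_lit 377) (nat_lit 227)))) (XT.nd (nat_lit 78) (nat_lit 532) (nat_lit 0) (XT.lf (nat_lit 0) (nat_lit 47353620591) (nat_lit 304) (nat_lit 14197844869) (nat_lit 76) (nat_lit 16113766533) (nat_lit 95) (nat_lit 5) (nat_lit 99) (nat_lit 5) (nat_lit 96) (nat_lit 5) (nat_lit 417) (nat_lit 377) (nat_lit 226)) (XT.nd (nat_lit 78) (nat_lit 304) (nat_lit 0) (XT.lf (nat_lit 0) (nat_lit 58059969999) (nat_lit 228) (nat_lit 19463872704) (nat_lit 304) (nat_lit 2698736286) (nat_lit 92) (nat_lit 5) (nat_lit 95) (nat_lit 5) (nat_lit 96) (nat_lit 5) (nat_lit 418) (nat_lit 377) (nat_lit 225)) (XT.lf (nat_lit 0) (nat_lit 26673877907) (nat_lit 304) (nat_lit 31045705605) (nat_lit 76) (nat_lit 25153861450) (nat_lit 88) (nat_lit 5) (nat_lit 92) (nat_lit 5) (nat_lit 89) (nat_lit 5) (nat_lit 419) (nat_lit 377) (nat_lit 224)))))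 (XT.nd (nat_lit 234) (nat_lit 608) (nat_lit 0) (XT.nd (nat_lit 78) (nat_lit 456) (nat_lit 0) (XT.lf (nat_lit 0) (nat_lit 44978216052) (nat_lit 228) (nat_lit 13338248725) (nat_lit 304) (nat_lit 27313873656) (nat_lit 85) (nat_lit 5) (nat_lit 88) (nat_lit 5) (nat_lit 89) (nat_lit 5) (nat_lit 420) (nat_lit 377) (nat_lit 223)) (XT.nd (nat_lit 78) (nat_lit 228) (nat_lit 0) (XT.lf (nat_lit 0) (nat_lit 3966033855) (nat_lit 228) (nat_lit 51195869136) (nat_lit 76) (nat_lit 33332040722) (nat_lit 82) (nat_lit 5) (nat_lit 85) (nat_lit 5) (nat_lit 83) (nat_lit 5) (nat_lit 421) (nat_lit 377) (nat_lit 222)) (XT.lf (nat_lit 0) (nat_lit 28647563106) (nat_lit 228) (nat_lit 8432902578) (nat_lit 304) (nat_lit 54387088314) (nat_lit 79) (nat_lit 5) (nat_lit 82) (nat_lit 5) (nat_lit 83) (nat_lit 5) (nat_lit 422) (nat_lit 377) (nat_lit 221)))) (XT.nd (nat_lit 156) (nat_lit 152) (nat_lit 0) (XT.nd (nat_lit 78) (nat_lit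 304) (nat_lit 0) (XT.lf (nat_lit 0) (nat_lit 18948880393) (nat_lit 152) (nat_lit 54004314458) (nat_lit 228) (nat_lit 21603573082) (nat_lit 77) (nat_lit 5) (nat_lit 79) (nat_lit 5) (nat_lit 80) (nat_lit 5) (nat_lit 423) (nat_lit 377) (nat_lit 220)) (XT.lf (nat_lit 0) (nat_lit 8280766219) (nat_lit 228) (nat_lit 5103659820) (nat_lit 304) (nat_lit 84387856487) (nat_lit 73) (nat_lit 5) (nat_lit 76) (nat_lit 5) (nat_lit 77) (nat_lit 5) (nat_lit 424) (nat_lit 377) (nat_lit 219))) (XT.nd (nat_lit 78) (nat_lit 152) (nat_lit 0) (XT.lf (nat_lit 0) (nat_lit 50907432478) (nat_lit 304) (nat_lit 3855573840) (nat_lit 76) (nat_lit 46342177913) (nat_lit 73) (nat_lit 5) (nat_lit 77) (nat_lit 5) (nat_lit 74) (nat_lit 5) (nat_lit 425) (nat_lit 377) (nat_lit 218)) (XT.lf (nat_lit 0) (nat_lit 87718623598) (nat_lit 152) (nat_lit 3480511576) (nat_lit 228) (nat_lit 13378819812) (nat_lit 71) (nat_lit 5) (nat_lit 73) (nat_lit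 5) (nat_lit 74) (nat_lit 5) (nat_lit 426) (nat_lit 377) (nat_lit 217))))))))
noncomputable def xc106 : XT := (XT.nd (nat_lit 50934) (nat_lit 0) (nat_lit 1140) (XT.nd (nat_lit 49998) (nat_lit 0) (nat_lit 8740) (XT.nd (nat_lit 49530) (nat_lit 0) (nat_lit 13984) (XT.nd (nat_lit 49296) (nat_lit 0) (nat_lit 13832) (XT.nd (nat_lit 78) (nat_lit 304) (nat_lit 0) (XT.lf (nat_lit 0) (nat_lit 26059975631) (nat_lit 228) (nat_lit 31703916857) (nat_lit 76) (nat_lit 50415014352) (nat_lit 68) (nat_lit 5) (nat_lit 71) (nat_lit 5) (nat_lit 69) (nat_lit 5) (nat_lit 427) (nat_lit 377) (nat_lit 216)) (XT.nd (nat_lit 78) (nat_lit 152) (nat_lit 0) (XT.lf (nat_lit 0) (nat_lit 63945956672) (nat_lit 152) (nat_lit 4073647485) (nat_lit 228) (nat_lit 43911560890) (nat_lit 66) (nat_lit 5) (nat_lit 68) (nat_lit 5) (nat_lit 69) (nat_lit 5) (nat_lit 428) (nat_lit 377) (nat_lit 215)) (XT.lf (nat_lit 0) (nat_lit 49638689070) (nat_lit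 152) (nat_lit 63746006534) (nat_lit 228) (nat_lit 2447116400) (nat_lit 64) (nat_lit 5) (nat_lit 66) (nat_lit 5) (nat_lit 67) (nat_lit 5) (nat_lit 429) (nat_lit 377) (nat_lit 214)))) (XT.nd (nat_lit 78) (nat_lit 0) (nat_lit 76) (XT.lf (nat_lit 0) (nat_lit 1879356395) (nat_lit 1292) (nat_lit 5574197526) (nat_lit 1292) (nat_lit 5574197526) (nat_lit 246) (nat_lit 3) (nat_lit 263) (nat_lit 3) (nat_lit 263) (nat_lit 5) (nat_lit 378) (nat_lit 378) (nat_lit 264)) (XT.nd (nat_lit 78) (nat_lit 0) (nat_lit 0) (XT.lf (nat_lit 0) (nat_lit 4161981957) (nat_lit 1216) (nat_lit 16779935691) (nat_lit 1292) (nat_lit 5755627499) (nat_lit 247) (nat_lit 5) (nat_lit 263) (nat_lit 5) (nat_lit 264) (nat_lit 5) (nat_lit 379) (nat_lit 378) (nat_lit 263)) (XT.lf (nat_lit 76) (nat_lit 4838828073) (nat_lit 0) (nat_lit 49407327) (nat_lit 1292) (nat_lit 22474373726) (nat_lit 248) (nat_lit 5) (nat_lit 247) (nat_lit 5) (nat_lit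 264) (nat_lit 5) (nat_lit 380) (nat_lit 378) (nat_lit 262))))) (XT.nd (nat_lit 234) (nat_lit 0) (nat_lit 228) (XT.nd (nat_lit 78) (nat_lit 0) (nat_lit 76) (XT.lf (nat_lit 0) (nat_lit 6026057521) (nat_lit 1216) (nat_lit 384476525) (nat_lit 1292) (nat_lit 21639138620) (nat_lit 248) (nat_lit 5) (nat_lit 264) (nat_lit 5) (nat_lit 265) (nat_lit 5) (nat_lit 381) (nat_lit 378) (nat_lit 261)) (XT.nd (nat_lit 78) (nat_lit 0) (nat_lit 76) (XT.lf (nat_lit 0) (nat_lit 7588809675) (nat_lit 1216) (nat_lit 5606584161) (nat_lit 1292) (nat_lit 15564658229) (nat_lit 249) (nat_lit 5) (nat_lit 265) (nat_lit 5) (nat_lit 266) (nat_lit 5) (nat_lit 382) (nat_lit 378) (nat_lit 260)) (XT.lf (nat_lit 0) (nat_lit 9557487355) (nat_lit 1216) (nat_lit 10922852984) (nat_lit 1292) (nat_lit 9015780121) (nat_lit 250) (nat_lit 5) (nat_lit 266) (nat_lit 5) (nat_lit 267) (nat_lit 5) (nat_lit 383) (nat_lit 378) (nat_lit 259)))) (XT.nd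 (nat_lit 78) (nat_lit 0) (nat_lit 0) (XT.lf (nat_lit 0) (nat_lit 11961039831) (nat_lit 1216) (nat_lit 16334154656) (nat_lit 1292) (nat_lit 1963708050) (nat_lit 251) (nat_lit 5) (nat_lit 267) (nat_lit 5) (nat_lit 268) (nat_lit 5) (nat_lit 384) (nat_lit 378) (nat_lit 258)) (XT.nd (nat_lit 78) (nat_lit 0) (nat_lit 76) (XT.lf (nat_lit 76) (nat_lit 9151396899) (nat_lit 0) (nat_lit 5733648904) (nat_lit 1292) (nat_lit 16162772965) (nat_lit 252) (nat_lit 5) (nat_lit 251) (nat_lit 5) (nat_lit 268) (nat_lit 5) (nat_lit 385) (nat_lit 378) (nat_lit 257)) (XT.lf (nat_lit 76) (nat_lit 4284799401) (nat_lit 0) (nat_lit 14046437239) (nat_lit 1292) (nat_lit 13533667800) (nat_lit 253) (nat_lit 5) (nat_lit 252) (nat_lit 5) (nat_lit 269) (nat_lit 5) (nat_lit 386) (nat_lit 378) (nat_lit 256)))))) (XT.nd (nat_lit 468) (nat_lit 2584) (nat_lit 0) (XT.nd (nat_lit 234) (nat_lit 1900) (nat_lit 0) (XT.nd (nat_lit 78) (nat_lit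 1140) (nat_lit 0) (XT.lf (nat_lit 0) (nat_lit 22320709543) (nat_lit 1216) (nat_lit 642329217) (nat_lit 1292) (nat_lit 9748679474) (nat_lit 253) (nat_lit 5) (nat_lit 269) (nat_lit 5) (nat_lit 270) (nat_lit 5) (nat_lit 387) (nat_lit 378) (nat_lit 255)) (XT.nd (nat_lit 78) (nat_lit 1216) (nat_lit 0) (XT.lf (nat_lit 0) (nat_lit 26924881111) (nat_lit 1216) (nat_lit 5557572547) (nat_lit 76) (nat_lit 1105965181) (nat_lit 254) (nat_lit 5) (nat_lit 270) (nat_lit 5) (nat_lit 255) (nat_lit 5) (nat_lit 388) (nat_lit 378) (nat_lit 254)) (XT.lf (nat_lit 0) (nat_lit 23870513753) (nat_lit 1216) (nat_lit 8349993510) (nat_lit 1292) (nat_lit 2274612566) (nat_lit 238) (nat_lit 5) (nat_lit 254) (nat_lit 5) (nat_lit 255) (nat_lit 5) (nat_lit 389) (nat_lit 378) (nat_lit 253)))) (XT.nd (nat_lit 78) (nat_lit 1216) (nat_lit 0) (XT.lf (nat_lit 0) (nat_lit 2695839436) (nat_lit 684) (nat_lit 15806955145) (nat_lit 76) (nat_lit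 16931462192) (nat_lit 229) (nat_lit 5) (nat_lit 238) (nat_lit 5) (nat_lit 230) (nat_lit 5) (nat_lit 390) (nat_lit 378) (nat_lit 252)) (XT.nd (nat_lit 78) (nat_lit 608) (nat_lit 0) (XT.lf (nat_lit 0) (nat_lit 8273607621) (nat_lit 684) (nat_lit 21095751464) (nat_lit 76) (nat_lit 7038143180) (nat_lit 221) (nat_lit 5) (nat_lit 230) (nat_lit 5) (nat_lit 222) (nat_lit 5) (nat_lit 391) (nat_lit 378) (nat_lit 251)) (XT.lf (nat_lit 0) (nat_lit 10910920385) (nat_lit 608) (nat_lit 3669349729) (nat_lit 684) (nat_lit 22835642032) (nat_lit 213) (nat_lit 5) (nat_lit 221) (nat_lit 5) (nat_lit 222) (nat_lit 5) (nat_lit 392) (nat_lit 378) (nat_lit 250))))) (XT.nd (nat_lit 234) (nat_lit 1520) (nat_lit 0) (XT.nd (nat_lit 78) (nat_lit 532) (nat_lit 0) (XT.lf (nat_lit 0) (nat_lit 6383000597) (nat_lit 532) (nat_lit 15318330020) (nat_lit 608) (nat_lit 16758442144) (nat_lit 206) (nat_lit 5) (nat_lit 213) (nat_lit 5)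 (nat_lit 214) (nat_lit 5) (nat_lit 393) (nat_lit 378) (nat_lit 249)) (XT.nd (nat_lit 78) (nat_lit 0) (nat_lit 0) (XT.lf (nat_lit 0) (nat_lit 1799443587) (nat_lit 532) (nat_lit 27815112578) (nat_lit 608) (nat_lit 9928188961) (nat_lit 199) (nat_lit 5) (nat_lit 206) (nat_lit 5) (nat_lit 207) (nat_lit 5) (nat_lit 394) (nat_lit 378) (nat_lit 248)) (XT.lf (nat_lit 0) (nat_lit 37876441524) (nat_lit 532) (nat_lit 524995577) (nat_lit 608) (nat_lit 2264091167) (nat_lit 199) (nat_lit 5) (nat_lit 206) (nat_lit 5) (nat_lit 207) (nat_lit 5) (nat_lit 395) (nat_lit 378) (nat_lit 247)))) (XT.nd (nat_lit 78) (nat_lit 988) (nat_lit 0) (XT.lf (nat_lit 0) (nat_lit 6271369055) (nat_lit 532) (nat_lit 7581734184) (nat_lit 76) (nat_lit 27971651142) (nat_lit 192) (nat_lit 5) (nat_lit 199) (nat_lit 5) (nat_lit 193) (nat_lit 5) (nat_lit 396) (nat_lit 378) (nat_lit 246)) (XT.nd (nat_lit 78) (nat_lit 456) (nat_lit 0) (XT.lf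 (nat_lit 0) (nat_lit 15657875686) (nat_lit 608) (nat_lit 12468331466) (nat_lit 76) (nat_lit 14900930941) (nat_lit 185) (nat_lit 5) (nat_lit 193) (nat_lit 5) (nat_lit 186) (nat_lit 5) (nat_lit 397) (nat_lit 378) (nat_lit 245)) (XT.lf (nat_lit 0) (nat_lit 25994124582) (nat_lit 532) (nat_lit 17428331874) (nat_lit 76) (nat_lit 852773691) (nat_lit 179) (nat_lit 5) (nat_lit 186) (nat_lit 5) (nat_lit 180) (nat_lit 5) (nat_lit 398) (nat_lit 378) (nat_lit 244))))))) (XT.nd (nat_lit 936) (nat_lit 3268) (nat_lit 0) (XT.nd (nat_lit 468) (nat_lit 1748) (nat_lit 0) (XT.nd (nat_lit 234) (nat_lit 1216) (nat_lit 0) (XT.nd (nat_lit 78) (nat_lit 912) (nat_lit 0) (XT.lf (nat_lit 0) (nat_lit 22964092825) (nat_lit 456) (nat_lit 14512773620) (nat_lit 532) (nat_lit 8089971523) (nat_lit 173) (nat_lit 5) (nat_lit 179) (nat_lit 5) (nat_lit 180) (nat_lit 5) (nat_lit 399) (nat_lit 378) (nat_lit 243)) (XT.nd (nat_lit 78)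 (nat_lit 456) (nat_lit 0) (XT.lf (nat_lit 0) (nat_lit 3076876447) (nat_lit 456) (nat_lit 27903162774) (nat_lit 76) (nat_lit 15926722495) (nat_lit 167) (nat_lit 5) (nat_lit 173) (nat_lit 5) (nat_lit 168) (nat_lit 5) (nat_lit 400) (nat_lit 378) (nat_lit 242)) (XT.lf (nat_lit 0) (nat_lit 14911089734) (nat_lit 456) (nat_lit 245718343) (nat_lit 532) (nat_lit 33138810379) (nat_lit 161) (nat_lit 5) (nat_lit 167) (nat_lit 5) (nat_lit 168) (nat_lit 5) (nat_lit 401) (nat_lit 378) (nat_lit 241)))) (XT.nd (nat_lit 78) (nat_lit 836) (nat_lit 0) (XT.lf (nat_lit 0) (nat_lit 10594602828) (nat_lit 380) (nat_lit 17941753895) (nat_lit 456) (nat_lit 21196694024) (nat_lit 156) (nat_lit 5) (nat_lit 161) (nat_lit 5) (nat_lit 162) (nat_lit 5) (nat_lit 402) (nat_lit 378) (nat_lit 240)) (XT.nd (nat_lit 78) (nat_lit 456) (nat_lit 0) (XT.lf (nat_lit 0) (nat_lit 6212060175) (nat_lit 380) (nat_lit 36914379955) (nat_lit 456)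 (nat_lit 8099669067) (nat_lit 151) (nat_lit 5) (nat_lit 156) (nat_lit 5) (nat_lit 157) (nat_lit 5) (nat_lit 403) (nat_lit 378) (nat_lit 239)) (XT.lf (nat_lit 0) (nat_lit 1653920074) (nat_lit 380) (nat_lit 4487955100) (nat_lit 456) (nat_lit 46632317700) (nat_lit 145) (nat_lit 5) (nat_lit 150) (nat_lit 5) (nat_lit 151) (nat_lit 5) (nat_lit 404) (nat_lit 378) (nat_lit 238))))) (XT.nd (nat_lit 234) (nat_lit 1064) (nat_lit 0) (XT.nd (nat_lit 78) (nat_lit 684) (nat_lit 0) (XT.lf (nat_lit 0) (nat_lit 21677869760) (nat_lit 456) (nat_lit 3165451112) (nat_lit 76) (nat_lit 29531458534) (nat_lit 145) (nat_lit 5) (nat_lit 151) (nat_lit 5) (nat_lit 146) (nat_lit 5) (nat_lit 405) (nat_lit 378) (nat_lit 237)) (XT.nd (nat_lit 78) (nat_lit 304) (nat_lit 0) (XT.lf (nat_lit 0) (nat_lit 38586578125) (nat_lit 456) (nat_lit 8057334565) (nat_lit 76) (nat_lit 9393606213) (nat_lit 140) (nat_lit 5) (nat_lit 146) (nat_lit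 5) (nat_lit 141) (nat_lit 5) (nat_lit 406) (nat_lit 378) (nat_lit 236)) (XT.lf (nat_lit 0) (nat_lit 44580850530) (nat_lit 304) (nat_lit 12468576537) (nat_lit 380) (nat_lit 712708162) (nat_lit 136) (nat_lit 5) (nat_lit 140) (nat_lit 5) (nat_lit 141) (nat_lit 5) (nat_lit 407) (nat_lit 378) (nat_lit 235)))) (XT.nd (nat_lit 78) (nat_lit 608) (nat_lit 0) (XT.lf (nat_lit 0) (nat_lit 17240077846) (nat_lit 456) (nat_lit 18702464426) (nat_lit 76) (nat_lit 23604377613) (nat_lit 130) (nat_lit 5) (nat_lit 136) (nat_lit 5) (nat_lit 131) (nat_lit 5) (nat_lit 408) (nat_lit 378) (nat_lit 234)) (XT.nd (nat_lit 78) (nat_lit 304) (nat_lit 0) (XT.lf (nat_lit 0) (nat_lit 36694370351) (nat_lit 380) (nat_lit 24392149014) (nat_lit 76) (nat_lit 315655391) (nat_lit 126) (nat_lit 5) (nat_lit 131) (nat_lit 5) (nat_lit 127) (nat_lit 5) (nat_lit 409) (nat_lit 378) (nat_lit 233)) (XT.lf (nat_lit 0) (nat_lit 32825746112) (nat_lit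 304) (nat_lit 25165180695) (nat_lit 380) (nat_lit 5333179929) (nat_lit 122) (nat_lit 5) (nat_lit 126) (nat_lit 5) (nat_lit 127) (nat_lit 5) (nat_lit 410) (nat_lit 378) (nat_lit 232)))))) (XT.nd (nat_lit 468) (nat_lit 1520) (nat_lit 0) (XT.nd (nat_lit 234) (nat_lit 836) (nat_lit 0) (XT.nd (nat_lit 78) (nat_lit 532) (nat_lit 0) (XT.lf (nat_lit 0) (nat_lit 15368834588) (nat_lit 380) (nat_lit 36965261796) (nat_lit 76) (nat_lit 12984164262) (nat_lit 117) (nat_lit 5) (nat_lit 122) (nat_lit 5) (nat_lit 118) (nat_lit 5) (nat_lit 411) (nat_lit 378) (nat_lit 231)) (XT.nd (nat_lit 78) (nat_lit 228) (nat_lit 0) (XT.lf (nat_lit 0) (nat_lit 23525128564) (nat_lit 304) (nat_lit 14265715639) (nat_lit 380) (nat_lit 29595838900) (nat_lit 113) (nat_lit 5) (nat_lit 117) (nat_lit 5) (nat_lit 118) (nat_lit 5) (nat_lit 412) (nat_lit 378) (nat_lit 230)) (XT.lf (nat_lit 0) (nat_lit 18368469196) (nat_lit 228) (nat_lit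 43770505663) (nat_lit 304) (nat_lit 7395401918) (nat_lit 110) (nat_lit 5) (nat_lit 113) (nat_lit 5) (nat_lit 114) (nat_lit 5) (nat_lit 413) (nat_lit 378) (nat_lit 229)))) (XT.nd (nat_lit 78) (nat_lit 456) (nat_lit 0) (XT.lf (nat_lit 0) (nat_lit 12794467485) (nat_lit 304) (nat_lit 3530117458) (nat_lit 380) (nat_lit 55438678646) (nat_lit 105) (nat_lit 5) (nat_lit 109) (nat_lit 5) (nat_lit 110) (nat_lit 5) (nat_lit 414) (nat_lit 378) (nat_lit 228)) (XT.nd (nat_lit 78) (nat_lit 228) (nat_lit 0) (XT.lf (nat_lit 0) (nat_lit 6606765341) (nat_lit 228) (nat_lit 35437139896) (nat_lit 304) (nat_lit 32028505007) (nat_lit 102) (nat_lit 5) (nat_lit 105) (nat_lit 5) (nat_lit 106) (nat_lit 5) (nat_lit 415) (nat_lit 378) (nat_lit 227)) (XT.lf (nat_lit 0) (nat_lit 110185859) (nat_lit 228) (nat_lit 69646619263) (nat_lit 304) (nat_lit 6718981298) (nat_lit 99) (nat_lit 5) (nat_lit 102) (nat_lit 5) (nat_lit 103) (nat_lit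 5) (nat_lit 416) (nat_lit 378) (nat_lit 226))))) (XT.nd (nat_lit 234) (nat_lit 988) (nat_lit 0) (XT.nd (nat_lit 78) (nat_lit 456) (nat_lit 0) (XT.lf (nat_lit 0) (nat_lit 20524954560) (nat_lit 304) (nat_lit 7063507048) (nat_lit 76) (nat_lit 51373452348) (nat_lit 98) (nat_lit 5) (nat_lit 102) (nat_lit 5) (nat_lit 99) (nat_lit 5) (nat_lit 417) (nat_lit 378) (nat_lit 225)) (XT.nd (nat_lit 78) (nat_lit 228) (nat_lit 0) (XT.lf (nat_lit 0) (nat_lit 49800676914) (nat_lit 304) (nat_lit 14779373504) (nat_lit 76) (nat_lit 16966045783) (nat_lit 95) (nat_lit 5) (nat_lit 99) (nat_lit 5) (nat_lit 96) (nat_lit 5) (nat_lit 418) (nat_lit 378) (nat_lit 224)) (XT.lf (nat_lit 0) (nat_lit 61087652591) (nat_lit 228) (nat_lit 20389176306) (nat_lit 304) (nat_lit 2754559856) (nat_lit 92) (nat_lit 5) (nat_lit 95) (nat_lit 5) (nat_lit 96) (nat_lit 5) (nat_lit 419) (nat_lit 378) (nat_lit 223)))) (XT.nd (nat_lit 156) (nat_lit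 456) (nat_lit 0) (XT.nd (nat_lit 78) (nat_lit 228) (nat_lit 0) (XT.lf (nat_lit 0) (nat_lit 28083083484) (nat_lit 304) (nat_lit 32473558246) (nat_lit 76) (nat_lit 26458195923) (nat_lit 88) (nat_lit 5) (nat_lit 92) (nat_lit 5) (nat_lit 89) (nat_lit 5) (nat_lit 420) (nat_lit 378) (nat_lit 222)) (XT.lf (nat_lit 0) (nat_lit 47347992657) (nat_lit 228) (nat_lit 13957373083) (nat_lit 304) (nat_lit 28604283754) (nat_lit 85) (nat_lit 5) (nat_lit 88) (nat_lit 5) (nat_lit 89) (nat_lit 5) (nat_lit 421) (nat_lit 378) (nat_lit 221))) (XT.nd (nat_lit 78) (nat_lit 228) (nat_lit 0) (XT.lf (nat_lit 0) (nat_lit 4236233101) (nat_lit 228) (nat_lit 53635121541) (nat_lit 76) (nat_lit 35045116819) (nat_lit 82) (nat_lit 5) (nat_lit 85) (nat_lit 5) (nat_lit 83) (nat_lit 5) (nat_lit 422) (nat_lit 378) (nat_lit 220)) (XT.lf (nat_lit 0) (nat_lit 30197027028) (nat_lit 228) (nat_lit 8807061301) (nat_lit 304) (nat_lit 57034743474)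 (nat_lit 79) (nat_lit 5) (nat_lit 82) (nat_lit 5) (nat_lit 83) (nat_lit 5) (nat_lit 423) (nat_lit 378) (nat_lit 219))))))))
noncomputable def xc107 : XT := (XT.nd (nat_lit 51090) (nat_lit 0) (nat_lit 1444) (XT.nd (nat_lit 50076) (nat_lit 0) (nat_lit 9576) (XT.nd (nat_lit 49608) (nat_lit 0) (nat_lit 13680) (XT.nd (nat_lit 234) (nat_lit 532) (nat_lit 0) (XT.nd (nat_lit 78) (nat_lit 304) (nat_lit 0) (XT.lf (nat_lit 0) (nat_lit 20011650258) (nat_lit 152) (nat_lit 56657032755) (nat_lit 228) (nat_lit 22613877117) (nat_lit 77) (nat_lit 5) (nat_lit 79) (nat_lit 5) (nat_lit 80) (nat_lit 5) (nat_lit 424) (nat_lit 378) (nat_lit 218)) (XT.nd (nat_lit 78) (nat_lit 0) (nat_lit 0) (XT.lf (nat_lit 0) (nat_lit 8808159705) (nat_lit 228) (nat_lit 5311825955) (nat_lit 304) (nat_lit 88538910350) (nat_lit 73) (nat_lit 5) (nat_lit 76) (nat_lit 5) (nat_lit 77) (nat_lit 5) (nat_lit 425) (nat_lit 378) (nat_lit 217)) (XT.lf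 (nat_lit 0) (nat_lit 53516413886) (nat_lit 304) (nat_lit 3938920283) (nat_lit 76) (nat_lit 48703190988) (nat_lit 73) (nat_lit 5) (nat_lit 77) (nat_lit 5) (nat_lit 74) (nat_lit 5) (nat_lit 426) (nat_lit 378) (nat_lit 216)))) (XT.nd (nat_lit 78) (nat_lit 380) (nat_lit 0) (XT.lf (nat_lit 0) (nat_lit 92210850174) (nat_lit 152) (nat_lit 3609844282) (nat_lit 228) (nat_lit 13984300686) (nat_lit 71) (nat_lit 5) (nat_lit 73) (nat_lit 5) (nat_lit 74) (nat_lit 5) (nat_lit 427) (nat_lit 378) (nat_lit 215)) (XT.nd (nat_lit 78) (nat_lit 152) (nat_lit 0) (XT.lf (nat_lit 0) (nat_lit 27423662239) (nat_lit 228) (nat_lit 33183260590) (nat_lit 76) (nat_lit 52979099920) (nat_lit 68) (nat_lit 5) (nat_lit 71) (nat_lit 5) (nat_lit 69) (nat_lit 5) (nat_lit 428) (nat_lit 378) (nat_lit 214)) (XT.lf (nat_lit 0) (nat_lit 67246072387) (nat_lit 152) (nat_lit 4233298256) (nat_lit 228) (nat_lit 46046580687) (nat_lit 66) (nat_lit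 5) (nat_lit 68) (nat_lit 5) (nat_lit 69) (nat_lit 5) (nat_lit 429) (nat_lit 378) (nat_lit 213))))) (XT.nd (nat_lit 234) (nat_lit 0) (nat_lit 152) (XT.nd (nat_lit 78) (nat_lit 0) (nat_lit 76) (XT.lf (nat_lit 0) (nat_lit 2127854110) (nat_lit 1292) (nat_lit 5773291883) (nat_lit 1292) (nat_lit 5773291883) (nat_lit 246) (nat_lit 3) (nat_lit 263) (nat_lit 3) (nat_lit 263) (nat_lit 5) (nat_lit 379) (nat_lit 379) (nat_lit 262)) (XT.nd (nat_lit 78) (nat_lit 0) (nat_lit 0) (XT.lf (nat_lit 0) (nat_lit 4664553521) (nat_lit 1216) (nat_lit 17453909656) (nat_lit 1292) (nat_lit 5905000771) (nat_lit 247) (nat_lit 5) (nat_lit 263) (nat_lit 5) (nat_lit 264) (nat_lit 5) (nat_lit 380) (nat_lit 379) (nat_lit 261)) (XT.lf (nat_lit 76) (nat_lit 5241061950) (nat_lit 0) (nat_lit 173576017) (nat_lit 1292) (nat_lit 23307523528) (nat_lit 248) (nat_lit 5) (nat_lit 247) (nat_lit 5) (nat_lit 264) (nat_lit 5) (nat_lit 381) (nat_lit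 379) (nat_lit 260)))) (XT.nd (nat_lit 78) (nat_lit 0) (nat_lit 76) (XT.lf (nat_lit 0) (nat_lit 6594808930) (nat_lit 1216) (nat_lit 241757114) (nat_lit 1292) (nat_lit 22607454074) (nat_lit 248) (nat_lit 5) (nat_lit 264) (nat_lit 5) (nat_lit 265) (nat_lit 5) (nat_lit 382) (nat_lit 379) (nat_lit 259)) (XT.nd (nat_lit 78) (nat_lit 0) (nat_lit 76) (XT.lf (nat_lit 0) (nat_lit 8223524205) (nat_lit 1216) (nat_lit 5720867178) (nat_lit 1292) (nat_lit 16245897704) (nat_lit 249) (nat_lit 5) (nat_lit 265) (nat_lit 5) (nat_lit 266) (nat_lit 5) (nat_lit 383) (nat_lit 379) (nat_lit 258)) (XT.lf (nat_lit 0) (nat_lit 10279228728) (nat_lit 1216) (nat_lit 11299465301) (nat_lit 1292) (nat_lit 9384814197) (nat_lit 250) (nat_lit 5) (nat_lit 266) (nat_lit 5) (nat_lit 267) (nat_lit 5) (nat_lit 384) (nat_lit 379) (nat_lit 257)))))) (XT.nd (nat_lit 468) (nat_lit 3496) (nat_lit 0) (XT.nd (nat_lit 234) (nat_lit 988) (nat_lit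 0) (XT.nd (nat_lit 78) (nat_lit 0) (nat_lit 0) (XT.lf (nat_lit 0) (nat_lit 12792264160) (nat_lit 1216) (nat_lit 16978414246) (nat_lit 1292) (nat_lit 1994076710) (nat_lit 251) (nat_lit 5) (nat_lit 267) (nat_lit 5) (nat_lit 268) (nat_lit 5) (nat_lit 385) (nat_lit 379) (nat_lit 256)) (XT.nd (nat_lit 78) (nat_lit 0) (nat_lit 76) (XT.lf (nat_lit 76) (nat_lit 9776471695) (nat_lit 0) (nat_lit 6076505451) (nat_lit 1292) (nat_lit 16740429449) (nat_lit 252) (nat_lit 5) (nat_lit 251) (nat_lit 5) (nat_lit 268) (nat_lit 5) (nat_lit 386) (nat_lit 379) (nat_lit 255)) (XT.lf (nat_lit 76) (nat_lit 4668875430) (nat_lit 0) (nat_lit 14793069013) (nat_lit 1292) (nat_lit 13989692515) (nat_lit 253) (nat_lit 5) (nat_lit 252) (nat_lit 5) (nat_lit 269) (nat_lit 5) (nat_lit 387) (nat_lit 379) (nat_lit 254)))) (XT.nd (nat_lit 78) (nat_lit 1140) (nat_lit 0) (XT.lf (nat_lit 0) (nat_lit 23640287912) (nat_lit 1216) (nat_lit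 506088825) (nat_lit 1292) (nat_lit 10194737004) (nat_lit 253) (nat_lit 5) (nat_lit 269) (nat_lit 5) (nat_lit 270) (nat_lit 5) (nat_lit 388) (nat_lit 379) (nat_lit 253)) (XT.nd (nat_lit 78) (nat_lit 1216) (nat_lit 0) (XT.lf (nat_lit 0) (nat_lit 28466240939) (nat_lit 1216) (nat_lit 5665670894) (nat_lit 76) (nat_lit 1129994362) (nat_lit 254) (nat_lit 5) (nat_lit 270) (nat_lit 5) (nat_lit 255) (nat_lit 5) (nat_lit 389) (nat_lit 379) (nat_lit 252)) (XT.lf (nat_lit 0) (nat_lit 25228953004) (nat_lit 1216) (nat_lit 8789989419) (nat_lit 1292) (nat_lit 2195234806) (nat_lit 238) (nat_lit 5) (nat_lit 254) (nat_lit 5) (nat_lit 255) (nat_lit 5) (nat_lit 390) (nat_lit 379) (nat_lit 251))))) (XT.nd (nat_lit 234) (nat_lit 1596) (nat_lit 0) (XT.nd (nat_lit 78) (nat_lit 1216) (nat_lit 0) (XT.lf (nat_lit 0) (nat_lit 3012358197) (nat_lit 684) (nat_lit 16427683994) (nat_lit 76) (nat_lit 17760405068) (nat_lit 229)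 (nat_lit 5) (nat_lit 238) (nat_lit 5) (nat_lit 230) (nat_lit 5) (nat_lit 391) (nat_lit 379) (nat_lit 250)) (XT.nd (nat_lit 78) (nat_lit 608) (nat_lit 0) (XT.lf (nat_lit 0) (nat_lit 8861849713) (nat_lit 684) (nat_lit 21980380160) (nat_lit 76) (nat_lit 7380343465) (nat_lit 221) (nat_lit 5) (nat_lit 230) (nat_lit 5) (nat_lit 222) (nat_lit 5) (nat_lit 392) (nat_lit 379) (nat_lit 249)) (XT.lf (nat_lit 0) (nat_lit 11621747712) (nat_lit 608) (nat_lit 3855373943) (nat_lit 684) (nat_lit 23804486969) (nat_lit 213) (nat_lit 5) (nat_lit 221) (nat_lit 5) (nat_lit 222) (nat_lit 5) (nat_lit 393) (nat_lit 379) (nat_lit 248)))) (XT.nd (nat_lit 156) (nat_lit 532) (nat_lit 0) (XT.nd (nat_lit 78) (nat_lit 532) (nat_lit 0) (XT.lf (nat_lit 0) (nat_lit 6867671015) (nat_lit 532) (nat_lit 16080139556) (nat_lit 608) (nat_lit 17430047483) (nat_lit 206) (nat_lit 5) (nat_lit 213) (nat_lit 5) (nat_lit 214) (nat_lit 5) (nat_lit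 394) (nat_lit 379) (nat_lit 247)) (XT.lf (nat_lit 0) (nat_lit 2054915991) (nat_lit 532) (nat_lit 29195723540) (nat_lit 608) (nat_lit 10264524145) (nat_lit 199) (nat_lit 5) (nat_lit 206) (nat_lit 5) (nat_lit 207) (nat_lit 5) (nat_lit 395) (nat_lit 379) (nat_lit 246))) (XT.nd (nat_lit 78) (nat_lit 532) (nat_lit 0) (XT.lf (nat_lit 0) (nat_lit 39927882862) (nat_lit 532) (nat_lit 541583768) (nat_lit 608) (nat_lit 2224844045) (nat_lit 199) (nat_lit 5) (nat_lit 206) (nat_lit 5) (nat_lit 207) (nat_lit 5) (nat_lit 396) (nat_lit 379) (nat_lit 245)) (XT.lf (nat_lit 0) (nat_lit 6728913464) (nat_lit 532) (nat_lit 7800528266) (nat_lit 76) (nat_lit 29382179980) (nat_lit 192) (nat_lit 5) (nat_lit 199) (nat_lit 5) (nat_lit 193) (nat_lit 5) (nat_lit 397) (nat_lit 379) (nat_lit 244))))))) (XT.nd (nat_lit 936) (nat_lit 3420) (nat_lit 0) (XT.nd (nat_lit 468) (nat_lit 1976) (nat_lit 0) (XT.nd (nat_lit 234) (nat_lit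 1292) (nat_lit 0) (XT.nd (nat_lit 78) (nat_lit 912) (nat_lit 0) (XT.lf (nat_lit 0) (nat_lit 16579550287) (nat_lit 608) (nat_lit 12932007188) (nat_lit 76) (nat_lit 15662725421) (nat_lit 185) (nat_lit 5) (nat_lit 193) (nat_lit 5) (nat_lit 186) (nat_lit 5) (nat_lit 398) (nat_lit 379) (nat_lit 243)) (XT.nd (nat_lit 78) (nat_lit 456) (nat_lit 0) (XT.lf (nat_lit 0) (nat_lit 27427701182) (nat_lit 532) (nat_lit 18140736938) (nat_lit 76) (nat_lit 916491062) (nat_lit 179) (nat_lit 5) (nat_lit 186) (nat_lit 5) (nat_lit 180) (nat_lit 5) (nat_lit 399) (nat_lit 379) (nat_lit 242)) (XT.lf (nat_lit 0) (nat_lit 24266750962) (nat_lit 456) (nat_lit 15212939099) (nat_lit 532) (nat_lit 8361576245) (nat_lit 173) (nat_lit 5) (nat_lit 179) (nat_lit 5) (nat_lit 180) (nat_lit 5) (nat_lit 400) (nat_lit 379) (nat_lit 241)))) (XT.nd (nat_lit 78) (nat_lit 836) (nat_lit 0) (XT.lf (nat_lit 0) (nat_lit 3356542622) (nat_lit 456)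 (nat_lit 29142186326) (nat_lit 76) (nat_lit 16749555359) (nat_lit 167) (nat_lit 5) (nat_lit 173) (nat_lit 5) (nat_lit 168) (nat_lit 5) (nat_lit 401) (nat_lit 379) (nat_lit 240)) (XT.nd (nat_lit 78) (nat_lit 380) (nat_lit 0) (XT.lf (nat_lit 0) (nat_lit 15808303241) (nat_lit 456) (nat_lit 227633892) (nat_lit 532) (nat_lit 34670784706) (nat_lit 161) (nat_lit 5) (nat_lit 167) (nat_lit 5) (nat_lit 168) (nat_lit 5) (nat_lit 402) (nat_lit 379) (nat_lit 239)) (XT.lf (nat_lit 0) (nat_lit 11274933268) (nat_lit 380) (nat_lit 18805479992) (nat_lit 456) (nat_lit 22135735834) (nat_lit 156) (nat_lit 5) (nat_lit 161) (nat_lit 5) (nat_lit 162) (nat_lit 5) (nat_lit 403) (nat_lit 379) (nat_lit 238))))) (XT.nd (nat_lit 234) (nat_lit 1140) (nat_lit 0) (XT.nd (nat_lit 78) (nat_lit 456) (nat_lit 0) (XT.lf (nat_lit 0) (nat_lit 6672087365) (nat_lit 380) (nat_lit 38724072454) (nat_lit 456) (nat_lit 8387817641) (nat_lit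 151) (nat_lit 5) (nat_lit 156) (nat_lit 5) (nat_lit 157) (nat_lit 5) (nat_lit 404) (nat_lit 379) (nat_lit 237)) (XT.nd (nat_lit 78) (nat_lit 0) (nat_lit 0) (XT.lf (nat_lit 0) (nat_lit 1884004819) (nat_lit 380) (nat_lit 4675480914) (nat_lit 456) (nat_lit 48850068673) (nat_lit 145) (nat_lit 5) (nat_lit 150) (nat_lit 5) (nat_lit 151) (nat_lit 5) (nat_lit 405) (nat_lit 379) (nat_lit 236)) (XT.lf (nat_lit 0) (nat_lit 22867354901) (nat_lit 456) (nat_lit 3180502317) (nat_lit 76) (nat_lit 31042462353) (nat_lit 145) (nat_lit 5) (nat_lit 151) (nat_lit 5) (nat_lit 146) (nat_lit 5) (nat_lit 406) (nat_lit 379) (nat_lit 235)))) (XT.nd (nat_lit 78) (nat_lit 760) (nat_lit 0) (XT.lf (nat_lit 0) (nat_lit 40618165513) (nat_lit 456) (nat_lit 8318356490) (nat_lit 76) (nat_lit 9899775514) (nat_lit 140) (nat_lit 5) (nat_lit 146) (nat_lit 5) (nat_lit 141) (nat_lit 5) (nat_lit 407) (nat_lit 379) (nat_lit 234)) (XT.nd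 (nat_lit 78) (nat_lit 456) (nat_lit 0) (XT.lf (nat_lit 0) (nat_lit 46947671906) (nat_lit 304) (nat_lit 13052939959) (nat_lit 380) (nat_lit 646640554) (nat_lit 136) (nat_lit 5) (nat_lit 140) (nat_lit 5) (nat_lit 141) (nat_lit 5) (nat_lit 408) (nat_lit 379) (nat_lit 233)) (XT.lf (nat_lit 0) (nat_lit 18198736683) (nat_lit 456) (nat_lit 19499269413) (nat_lit 76) (nat_lit 24823334090) (nat_lit 130) (nat_lit 5) (nat_lit 136) (nat_lit 5) (nat_lit 131) (nat_lit 5) (nat_lit 409) (nat_lit 379) (nat_lit 232)))))) (XT.nd (nat_lit 468) (nat_lit 1520) (nat_lit 0) (XT.nd (nat_lit 234) (nat_lit 912) (nat_lit 0) (XT.nd (nat_lit 78) (nat_lit 684) (nat_lit 0) (XT.lf (nat_lit 0) (nat_lit 38622826892) (nat_lit 380) (nat_lit 25474972184) (nat_lit 76) (nat_lit 371647472) (nat_lit 126) (nat_lit 5) (nat_lit 131) (nat_lit 5) (nat_lit 127) (nat_lit 5) (nat_lit 410) (nat_lit 379) (nat_lit 231)) (XT.nd (nat_lit 78) (nat_lit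 380) (nat_lit 0) (XT.lf (nat_lit 0) (nat_lit 34599896805) (nat_lit 304) (nat_lit 26381127815) (nat_lit 380) (nat_lit 5506547285) (nat_lit 122) (nat_lit 5) (nat_lit 126) (nat_lit 5) (nat_lit 127) (nat_lit 5) (nat_lit 411) (nat_lit 379) (nat_lit 230)) (XT.lf (nat_lit 0) (nat_lit 16226057767) (nat_lit 380) (nat_lit 38680414680) (nat_lit 76) (nat_lit 13675015944) (nat_lit 117) (nat_lit 5) (nat_lit 122) (nat_lit 5) (nat_lit 118) (nat_lit 5) (nat_lit 412) (nat_lit 379) (nat_lit 229)))) (XT.nd (nat_lit 78) (nat_lit 608) (nat_lit 0) (XT.lf (nat_lit 0) (nat_lit 24830679621) (nat_lit 304) (nat_lit 14935503413) (nat_lit 380) (nat_lit 30987239523) (nat_lit 113) (nat_lit 5) (nat_lit 117) (nat_lit 5) (nat_lit 118) (nat_lit 5) (nat_lit 413) (nat_lit 379) (nat_lit 228)) (XT.nd (nat_lit 78) (nat_lit 380) (nat_lit 0) (XT.lf (nat_lit 0) (nat_lit 19414595261) (nat_lit 228) (nat_lit 45914665182) (nat_lit 304) (nat_lit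 7679315255) (nat_lit 110) (nat_lit 5) (nat_lit 113) (nat_lit 5) (nat_lit 114) (nat_lit 5) (nat_lit 414) (nat_lit 379) (nat_lit 227)) (XT.lf (nat_lit 0) (nat_lit 13559878930) (nat_lit 304) (nat_lit 3662316199) (nat_lit 380) (nat_lit 58126771893) (nat_lit 105) (nat_lit 5) (nat_lit 109) (nat_lit 5) (nat_lit 110) (nat_lit 5) (nat_lit 415) (nat_lit 379) (nat_lit 226))))) (XT.nd (nat_lit 234) (nat_lit 988) (nat_lit 0) (XT.nd (nat_lit 78) (nat_lit 304) (nat_lit 0) (XT.lf (nat_lit 0) (nat_lit 7061164396) (nat_lit 228) (nat_lit 37164039932) (nat_lit 304) (nat_lit 33548435866) (nat_lit 102) (nat_lit 5) (nat_lit 105) (nat_lit 5) (nat_lit 106) (nat_lit 5) (nat_lit 416) (nat_lit 379) (nat_lit 225)) (XT.nd (nat_lit 78) (nat_lit 76) (nat_lit 0) (XT.lf (nat_lit 0) (nat_lit 238102033) (nat_lit 228) (nat_lit 73083468550) (nat_lit 304) (nat_lit 6975680785) (nat_lit 99) (nat_lit 5) (nat_lit 102) (nat_lit 5) (nat_lit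 103) (nat_lit 5) (nat_lit 417) (nat_lit 379) (nat_lit 224)) (XT.lf (nat_lit 0) (nat_lit 21625205272) (nat_lit 304) (nat_lit 7298616249) (nat_lit 76) (nat_lit 53983952679) (nat_lit 98) (nat_lit 5) (nat_lit 102) (nat_lit 5) (nat_lit 99) (nat_lit 5) (nat_lit 418) (nat_lit 379) (nat_lit 223)))) (XT.nd (nat_lit 156) (nat_lit 532) (nat_lit 0) (XT.nd (nat_lit 78) (nat_lit 228) (nat_lit 0) (XT.lf (nat_lit 0) (nat_lit 52362706491) (nat_lit 304) (nat_lit 15401912602) (nat_lit 76) (nat_lit 17856607413) (nat_lit 95) (nat_lit 5) (nat_lit 99) (nat_lit 5) (nat_lit 96) (nat_lit 5) (nat_lit 419) (nat_lit 379) (nat_lit 222)) (XT.lf (nat_lit 0) (nat_lit 64255127367) (nat_lit 228) (nat_lit 21365197448) (nat_lit 304) (nat_lit 2820529805) (nat_lit 92) (nat_lit 5) (nat_lit 95) (nat_lit 5) (nat_lit 96) (nat_lit 5) (nat_lit 420) (nat_lit 379) (nat_lit 221))) (XT.nd (nat_lit 78) (nat_lit 228) (nat_lit 0) (XT.lf (nat_lit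 0) (nat_lit 29555728979) (nat_lit 304) (nat_lit 33984372087) (nat_lit 76) (nat_lit 27823410843) (nat_lit 88) (nat_lit 5) (nat_lit 92) (nat_lit 5) (nat_lit 89) (nat_lit 5) (nat_lit 421) (nat_lit 379) (nat_lit 220)) (XT.lf (nat_lit 0) (nat_lit 49825021135) (nat_lit 228) (nat_lit 14611896541) (nat_lit 304) (nat_lit 29966213511) (nat_lit 85) (nat_lit 5) (nat_lit 88) (nat_lit 5) (nat_lit 89) (nat_lit 5) (nat_lit 422) (nat_lit 379) (nat_lit 219))))))))
noncomputable def xc108 : XT := (XT.nd (nat_lit 51090) (nat_lit 0) (nat_lit 1824) (XT.nd (nat_lit 50154) (nat_lit 0) (nat_lit 9956) (XT.nd (nat_lit 468) (nat_lit 228) (nat_lit 0) (XT.nd (nat_lit 234) (nat_lit 456) (nat_lit 0) (XT.nd (nat_lit 78) (nat_lit 380) (nat_lit 0) (XT.lf (nat_lit 0) (nat_lit 4513257956) (nat_lit 228) (nat_lit 56207543331) (nat_lit 76) (nat_lit 36839526004) (nat_lit 82) (nat_lit 5) (nat_lit 85) (nat_lit 5) (nat_lit 83) (nat_lit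 5) (nat_lit 423) (nat_lit 379) (nat_lit 218)) (XT.nd (nat_lit 78) (nat_lit 152) (nat_lit 0) (XT.lf (nat_lit 0) (nat_lit 31813078621) (nat_lit 228) (nat_lit 9204342796) (nat_lit 304) (nat_lit 59821447309) (nat_lit 79) (nat_lit 5) (nat_lit 82) (nat_lit 5) (nat_lit 83) (nat_lit 5) (nat_lit 424) (nat_lit 379) (nat_lit 217)) (XT.lf (nat_lit 0) (nat_lit 21116836712) (nat_lit 152) (nat_lit 59446802827) (nat_lit 228) (nat_lit 23681192634) (nat_lit 77) (nat_lit 5) (nat_lit 79) (nat_lit 5) (nat_lit 80) (nat_lit 5) (nat_lit 425) (nat_lit 379) (nat_lit 216)))) (XT.nd (nat_lit 78) (nat_lit 152) (nat_lit 0) (XT.lf (nat_lit 0) (nat_lit 9351384175) (nat_lit 228) (nat_lit 5534771579) (nat_lit 304) (nat_lit 92903870416) (nat_lit 73) (nat_lit 5) (nat_lit 76) (nat_lit 5) (nat_lit 77) (nat_lit 5) (nat_lit 426) (nat_lit 379) (nat_lit 215)) (XT.nd (nat_lit 78) (nat_lit 152) (nat_lit 0) (XT.lf (nat_lit 0) (nat_lit 56249930530)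 (nat_lit 304) (nat_lit 4036608021) (nat_lit 76) (nat_lit 51178172921) (nat_lit 73) (nat_lit 5) (nat_lit 77) (nat_lit 5) (nat_lit 74) (nat_lit 5) (nat_lit 427) (nat_lit 379) (nat_lit 214)) (XT.lf (nat_lit 0) (nat_lit 96917805740) (nat_lit 152) (nat_lit 3749798744) (nat_lit 228) (nat_lit 14625955525) (nat_lit 71) (nat_lit 5) (nat_lit 73) (nat_lit 5) (nat_lit 74) (nat_lit 5) (nat_lit 428) (nat_lit 379) (nat_lit 213))))) (XT.nd (nat_lit 49452) (nat_lit 0) (nat_lit 13604) (XT.nd (nat_lit 49296) (nat_lit 0) (nat_lit 13528) (XT.lf (nat_lit 0) (nat_lit 28849890998) (nat_lit 228) (nat_lit 34746412635) (nat_lit 76) (nat_lit 55667360902) (nat_lit 68) (nat_lit 5) (nat_lit 71) (nat_lit 5) (nat_lit 69) (nat_lit 5) (nat_lit 429) (nat_lit 379) (nat_lit 212)) (XT.nd (nat_lit 78) (nat_lit 0) (nat_lit 76) (XT.lf (nat_lit 0) (nat_lit 2374409986) (nat_lit 1292) (nat_lit 5989742853) (nat_lit 1292) (nat_lit 5989742853)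 (nat_lit 246) (nat_lit 3) (nat_lit 263) (nat_lit 3) (nat_lit 263) (nat_lit 5) (nat_lit 380) (nat_lit 380) (nat_lit 260)) (XT.lf (nat_lit 0) (nat_lit 5164876405) (nat_lit 1216) (nat_lit 18176924576) (nat_lit 1292) (nat_lit 6074710581) (nat_lit 247) (nat_lit 5) (nat_lit 263) (nat_lit 5) (nat_lit 264) (nat_lit 5) (nat_lit 381) (nat_lit 380) (nat_lit 259)))) (XT.nd (nat_lit 78) (nat_lit 0) (nat_lit 76) (XT.lf (nat_lit 76) (nat_lit 5648505047) (nat_lit 0) (nat_lit 292638785) (nat_lit 1292) (nat_lit 24209345161) (nat_lit 248) (nat_lit 5) (nat_lit 247) (nat_lit 5) (nat_lit 264) (nat_lit 5) (nat_lit 382) (nat_lit 380) (nat_lit 258)) (XT.nd (nat_lit 78) (nat_lit 0) (nat_lit 76) (XT.lf (nat_lit 0) (nat_lit 7167133079) (nat_lit 1216) (nat_lit 106957679) (nat_lit 1292) (nat_lit 23634750608) (nat_lit 248) (nat_lit 5) (nat_lit 264) (nat_lit 5) (nat_lit 265) (nat_lit 5) (nat_lit 383) (nat_lit 380) (nat_lit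 257)) (XT.lf (nat_lit 0) (nat_lit 8866241501) (nat_lit 1216) (nat_lit 5856301747) (nat_lit 1292) (nat_lit 16970216684) (nat_lit 249) (nat_lit 5) (nat_lit 265) (nat_lit 5) (nat_lit 266) (nat_lit 5) (nat_lit 384) (nat_lit 380) (nat_lit 256)))))) (XT.nd (nat_lit 468) (nat_lit 3876) (nat_lit 0) (XT.nd (nat_lit 234) (nat_lit 0) (nat_lit 152) (XT.nd (nat_lit 78) (nat_lit 0) (nat_lit 76) (XT.lf (nat_lit 0) (nat_lit 11014384727) (nat_lit 1216) (nat_lit 11710669558) (nat_lit 1292) (nat_lit 9779900774) (nat_lit 250) (nat_lit 5) (nat_lit 266) (nat_lit 5) (nat_lit 267) (nat_lit 5) (nat_lit 385) (nat_lit 380) (nat_lit 255)) (XT.nd (nat_lit 78) (nat_lit 0) (nat_lit 0) (XT.lf (nat_lit 0) (nat_lit 13643371551) (nat_lit 1216) (nat_lit 17670919410) (nat_lit 1292) (nat_lit 2032268761) (nat_lit 251) (nat_lit 5) (nat_lit 267) (nat_lit 5) (nat_lit 268) (nat_lit 5) (nat_lit 386) (nat_lit 380) (nat_lit 254)) (XT.lf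 (nat_lit 76) (nat_lit 10417227208) (nat_lit 0) (nat_lit 6431282289) (nat_lit 1292) (nat_lit 17368396803) (nat_lit 252) (nat_lit 5) (nat_lit 251) (nat_lit 5) (nat_lit 268) (nat_lit 5) (nat_lit 387) (nat_lit 380) (nat_lit 253)))) (XT.nd (nat_lit 78) (nat_lit 0) (nat_lit 76) (XT.lf (nat_lit 76) (nat_lit 5056365513) (nat_lit 0) (nat_lit 15572912860) (nat_lit 1292) (nat_lit 14489033219) (nat_lit 253) (nat_lit 5) (nat_lit 252) (nat_lit 5) (nat_lit 269) (nat_lit 5) (nat_lit 388) (nat_lit 380) (nat_lit 252)) (XT.nd (nat_lit 78) (nat_lit 0) (nat_lit 76) (XT.lf (nat_lit 0) (nat_lit 25006921711) (nat_lit 1216) (nat_lit 378688637) (nat_lit 1292) (nat_lit 10666944200) (nat_lit 253) (nat_lit 5) (nat_lit 269) (nat_lit 5) (nat_lit 270) (nat_lit 5) (nat_lit 389) (nat_lit 380) (nat_lit 251)) (XT.lf (nat_lit 0) (nat_lit 30066528744) (nat_lit 1216) (nat_lit 5794958719) (nat_lit 76) (nat_lit 1158132104) (nat_lit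 254) (nat_lit 5) (nat_lit 270) (nat_lit 5) (nat_lit 255) (nat_lit 5) (nat_lit 390) (nat_lit 380) (nat_lit 250))))) (XT.nd (nat_lit 234) (nat_lit 1672) (nat_lit 0) (XT.nd (nat_lit 78) (nat_lit 1292) (nat_lit 0) (XT.lf (nat_lit 0) (nat_lit 26639982117) (nat_lit 1216) (nat_lit 9249893636) (nat_lit 1292) (nat_lit 2129841546) (nat_lit 238) (nat_lit 5) (nat_lit 254) (nat_lit 5) (nat_lit 255) (nat_lit 5) (nat_lit 391) (nat_lit 380) (nat_lit 249)) (XT.nd (nat_lit 78) (nat_lit 608) (nat_lit 0) (XT.lf (nat_lit 0) (nat_lit 3327807663) (nat_lit 684) (nat_lit 17095218844) (nat_lit 76) (nat_lit 18632434180) (nat_lit 229) (nat_lit 5) (nat_lit 238) (nat_lit 5) (nat_lit 230) (nat_lit 5) (nat_lit 392) (nat_lit 380) (nat_lit 248)) (XT.lf (nat_lit 0) (nat_lit 9463274816) (nat_lit 684) (nat_lit 22925060051) (nat_lit 76) (nat_lit 7740556217) (nat_lit 221) (nat_lit 5) (nat_lit 230) (nat_lit 5) (nat_lit 222) (nat_lit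 5) (nat_lit 393) (nat_lit 380) (nat_lit 247)))) (XT.nd (nat_lit 78) (nat_lit 1064) (nat_lit 0) (XT.lf (nat_lit 0) (nat_lit 12352750115) (nat_lit 608) (nat_lit 4050461667) (nat_lit 684) (nat_lit 24837852212) (nat_lit 213) (nat_lit 5) (nat_lit 221) (nat_lit 5) (nat_lit 222) (nat_lit 5) (nat_lit 394) (nat_lit 380) (nat_lit 246)) (XT.nd (nat_lit 78) (nat_lit 532) (nat_lit 0) (XT.lf (nat_lit 0) (nat_lit 7361186438) (nat_lit 532) (nat_lit 16880421395) (nat_lit 608) (nat_lit 18150695646) (nat_lit 206) (nat_lit 5) (nat_lit 213) (nat_lit 5) (nat_lit 214) (nat_lit 5) (nat_lit 395) (nat_lit 380) (nat_lit 245)) (XT.lf (nat_lit 0) (nat_lit 2307775373) (nat_lit 532) (nat_lit 30646308205) (nat_lit 608) (nat_lit 10632558275) (nat_lit 199) (nat_lit 5) (nat_lit 206) (nat_lit 5) (nat_lit 207) (nat_lit 5) (nat_lit 396) (nat_lit 380) (nat_lit 244))))))) (XT.nd (nat_lit 936) (nat_lit 3648) (nat_lit 0) (XT.nd (nat_lit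 468) (nat_lit 2052) (nat_lit 0) (XT.nd (nat_lit 234) (nat_lit 1368) (nat_lit 0) (XT.nd (nat_lit 78) (nat_lit 1064) (nat_lit 0) (XT.lf (nat_lit 0) (nat_lit 42067242321) (nat_lit 532) (nat_lit 559899612) (nat_lit 608) (nat_lit 2197808078) (nat_lit 199) (nat_lit 5) (nat_lit 206) (nat_lit 5) (nat_lit 207) (nat_lit 5) (nat_lit 397) (nat_lit 380) (nat_lit 243)) (XT.nd (nat_lit 78) (nat_lit 532) (nat_lit 0) (XT.lf (nat_lit 0) (nat_lit 7195949574) (nat_lit 532) (nat_lit 8045164541) (nat_lit 76) (nat_lit 30862124609) (nat_lit 192) (nat_lit 5) (nat_lit 199) (nat_lit 5) (nat_lit 193) (nat_lit 5) (nat_lit 398) (nat_lit 380) (nat_lit 242)) (XT.lf (nat_lit 0) (nat_lit 17534406094) (nat_lit 608) (nat_lit 13433717886) (nat_lit 76) (nat_lit 16461052561) (nat_lit 185) (nat_lit 5) (nat_lit 193) (nat_lit 5) (nat_lit 186) (nat_lit 5) (nat_lit 399) (nat_lit 380) (nat_lit 241)))) (XT.nd (nat_lit 78) (nat_lit 912) (nat_lit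 0) (XT.lf (nat_lit 0) (nat_lit 28920510615) (nat_lit 532) (nat_lit 18903545641) (nat_lit 76) (nat_lit 981434606) (nat_lit 179) (nat_lit 5) (nat_lit 186) (nat_lit 5) (nat_lit 180) (nat_lit 5) (nat_lit 400) (nat_lit 380) (nat_lit 240)) (XT.nd (nat_lit 78) (nat_lit 456) (nat_lit 0) (XT.lf (nat_lit 0) (nat_lit 25620182383) (nat_lit 456) (nat_lit 15950481110) (nat_lit 532) (nat_lit 8659116414) (nat_lit 173) (nat_lit 5) (nat_lit 179) (nat_lit 5) (nat_lit 180) (nat_lit 5) (nat_lit 401) (nat_lit 380) (nat_lit 239)) (XT.lf (nat_lit 0) (nat_lit 3638494337) (nat_lit 456) (nat_lit 30457676970) (nat_lit 76) (nat_lit 17611066450) (nat_lit 167) (nat_lit 5) (nat_lit 173) (nat_lit 5) (nat_lit 168) (nat_lit 5) (nat_lit 402) (nat_lit 380) (nat_lit 238))))) (XT.nd (nat_lit 234) (nat_lit 836) (nat_lit 0) (XT.nd (nat_lit 78) (nat_lit 760) (nat_lit 0) (XT.lf (nat_lit 0) (nat_lit 16736277605) (nat_lit 456) (nat_lit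 211468767) (nat_lit 532) (nat_lit 36290975922) (nat_lit 161) (nat_lit 5) (nat_lit 167) (nat_lit 5) (nat_lit 168) (nat_lit 5) (nat_lit 403) (nat_lit 380) (nat_lit 237)) (XT.nd (nat_lit 78) (nat_lit 380) (nat_lit 0) (XT.lf (nat_lit 0) (nat_lit 11975278842) (nat_lit 380) (nat_lit 19715494039) (nat_lit 456) (nat_lit 23132959914) (nat_lit 156) (nat_lit 5) (nat_lit 161) (nat_lit 5) (nat_lit 162) (nat_lit 5) (nat_lit 404) (nat_lit 380) (nat_lit 236)) (XT.lf (nat_lit 0) (nat_lit 7141223870) (nat_lit 380) (nat_lit 40627598981) (nat_lit 456) (nat_lit 8701235844) (nat_lit 151) (nat_lit 5) (nat_lit 156) (nat_lit 5) (nat_lit 157) (nat_lit 5) (nat_lit 405) (nat_lit 380) (nat_lit 235)))) (XT.nd (nat_lit 78) (nat_lit 380) (nat_lit 0) (XT.lf (nat_lit 0) (nat_lit 2111890993) (nat_lit 380) (nat_lit 4875811022) (nat_lit 456) (nat_lit 51189293275) (nat_lit 145) (nat_lit 5) (nat_lit 150) (nat_lit 5) (nat_lit 151)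 (nat_lit 5) (nat_lit 406) (nat_lit 380) (nat_lit 234)) (XT.nd (nat_lit 78) (nat_lit 380) (nat_lit 0) (XT.lf (nat_lit 0) (nat_lit 24106497388) (nat_lit 456) (nat_lit 3209621447) (nat_lit 76) (nat_lit 32625815305) (nat_lit 145) (nat_lit 5) (nat_lit 151) (nat_lit 5) (nat_lit 146) (nat_lit 5) (nat_lit 407) (nat_lit 380) (nat_lit 233)) (XT.lf (nat_lit 0) (nat_lit 42741825246) (nat_lit 456) (nat_lit 8605616898) (nat_lit 76) (nat_lit 10427860879) (nat_lit 140) (nat_lit 5) (nat_lit 146) (nat_lit 5) (nat_lit 141) (nat_lit 5) (nat_lit 408) (nat_lit 380) (nat_lit 232)))))) (XT.nd (nat_lit 468) (nat_lit 1596) (nat_lit 0) (XT.nd (nat_lit 234) (nat_lit 988) (nat_lit 0) (XT.nd (nat_lit 78) (nat_lit 760) (nat_lit 0) (XT.lf (nat_lit 0) (nat_lit 49420024980) (nat_lit 304) (nat_lit 13670153483) (nat_lit 380) (nat_lit 586724948) (nat_lit 136) (nat_lit 5) (nat_lit 140) (nat_lit 5) (nat_lit 141) (nat_lit 5) (nat_lit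 409) (nat_lit 380) (nat_lit 231)) (XT.nd (nat_lit 78) (nat_lit 304) (nat_lit 0) (XT.lf (nat_lit 0) (nat_lit 19196342401) (nat_lit 456) (nat_lit 20348774168) (nat_lit 76) (nat_lit 26099636937) (nat_lit 130) (nat_lit 5) (nat_lit 136) (nat_lit 5) (nat_lit 131) (nat_lit 5) (nat_lit 410) (nat_lit 380) (nat_lit 230)) (XT.lf (nat_lit 0) (nat_lit 40638991387) (nat_lit 380) (nat_lit 26624653418) (nat_lit 76) (nat_lit 426700876) (nat_lit 126) (nat_lit 5) (nat_lit 131) (nat_lit 5) (nat_lit 127) (nat_lit 5) (nat_lit 411) (nat_lit 380) (nat_lit 229)))) (XT.nd (nat_lit 78) (nat_lit 684) (nat_lit 0) (XT.lf (nat_lit 0) (nat_lit 36450402653) (nat_lit 304) (nat_lit 27661806052) (nat_lit 380) (nat_lit 5697256381) (nat_lit 122) (nat_lit 5) (nat_lit 126) (nat_lit 5) (nat_lit 127) (nat_lit 5) (nat_lit 412) (nat_lit 380) (nat_lit 228)) (XT.nd (nat_lit 78) (nat_lit 304) (nat_lit 0) (XT.lf (nat_lit 0) (nat_lit 17117888047)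 (nat_lit 380) (nat_lit 40493700534) (nat_lit 76) (nat_lit 14396538596) (nat_lit 117) (nat_lit 5) (nat_lit 122) (nat_lit 5) (nat_lit 118) (nat_lit 5) (nat_lit 413) (nat_lit 380) (nat_lit 227)) (XT.lf (nat_lit 0) (nat_lit 26189487641) (nat_lit 304) (nat_lit 15642824608) (nat_lit 380) (nat_lit 32456427964) (nat_lit 113) (nat_lit 5) (nat_lit 117) (nat_lit 5) (nat_lit 118) (nat_lit 5) (nat_lit 414) (nat_lit 380) (nat_lit 226))))) (XT.nd (nat_lit 234) (nat_lit 760) (nat_lit 0) (XT.nd (nat_lit 78) (nat_lit 608) (nat_lit 0) (XT.lf (nat_lit 0) (nat_lit 20501155052) (nat_lit 228) (nat_lit 48170157385) (nat_lit 304) (nat_lit 7985406406) (nat_lit 110) (nat_lit 5) (nat_lit 113) (nat_lit 5) (nat_lit 114) (nat_lit 5) (nat_lit 415) (nat_lit 380) (nat_lit 225)) (XT.nd (nat_lit 78) (nat_lit 228) (nat_lit 0) (XT.lf (nat_lit 0) (nat_lit 14351875661) (nat_lit 304) (nat_lit 3805244134) (nat_lit 380) (nat_lit 60957064514)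 (nat_lit 105) (nat_lit 5) (nat_lit 109) (nat_lit 5) (nat_lit 110) (nat_lit 5) (nat_lit 416) (nat_lit 380) (nat_lit 224)) (XT.lf (nat_lit 0) (nat_lit 7526749407) (nat_lit 228) (nat_lit 38981464642) (nat_lit 304) (nat_lit 35151939844) (nat_lit 102) (nat_lit 5) (nat_lit 105) (nat_lit 5) (nat_lit 106) (nat_lit 5) (nat_lit 417) (nat_lit 380) (nat_lit 223)))) (XT.nd (nat_lit 156) (nat_lit 456) (nat_lit 0) (XT.nd (nat_lit 78) (nat_lit 76) (nat_lit 0) (XT.lf (nat_lit 0) (nat_lit 361033785) (nat_lit 228) (nat_lit 76696388756) (nat_lit 304) (nat_lit 7252583121) (nat_lit 99) (nat_lit 5) (nat_lit 102) (nat_lit 5) (nat_lit 103) (nat_lit 5) (nat_lit 418) (nat_lit 380) (nat_lit 222)) (XT.lf (nat_lit 0) (nat_lit 22773588424) (nat_lit 304) (nat_lit 7556457582) (nat_lit 76) (nat_lit 56721089282) (nat_lit 98) (nat_lit 5) (nat_lit 102) (nat_lit 5) (nat_lit 99) (nat_lit 5) (nat_lit 419) (nat_lit 380) (nat_lit 221)))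 (XT.nd (nat_lit 78) (nat_lit 228) (nat_lit 0) (XT.lf (nat_lit 0) (nat_lit 55046144066) (nat_lit 304) (nat_lit 16066403174) (nat_lit 76) (nat_lit 18787768252) (nat_lit 95) (nat_lit 5) (nat_lit 99) (nat_lit 5) (nat_lit 96) (nat_lit 5) (nat_lit 420) (nat_lit 380) (nat_lit 220)) (XT.lf (nat_lit 0) (nat_lit 67570461646) (nat_lit 228) (nat_lit 22394058072) (nat_lit 304) (nat_lit 2896469634) (nat_lit 92) (nat_lit 5) (nat_lit 95) (nat_lit 5) (nat_lit 96) (nat_lit 5) (nat_lit 421) (nat_lit 380) (nat_lit 219))))))))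
noncomputable def xc109 : XT := (XT.nd (nat_lit 51168) (nat_lit 0) (nat_lit 1824) (XT.nd (nat_lit 50232) (nat_lit 0) (nat_lit 10260) (XT.nd (nat_lit 468) (nat_lit 152) (nat_lit 0) (XT.nd (nat_lit 234) (nat_lit 684) (nat_lit 0) (XT.nd (nat_lit 78) (nat_lit 456) (nat_lit 0) (XT.lf (nat_lit 0) (nat_lit 31095639076) (nat_lit 304) (nat_lit 35581219652) (nat_lit 76) (nat_lit 29252953381) (nat_lit 88) (nat_lit 5) (nat_lit 92) (nat_lit 5) (nat_lit 89) (nat_lit 5) (nat_lit 422) (nat_lit 380) (nat_lit 218)) (XT.nd (nat_lit 78) (nat_lit 228) (nat_lit 0) (XT.lf (nat_lit 0) (nat_lit 52415708786) (nat_lit 228) (nat_lit 15303175997) (nat_lit 304) (nat_lit 31402588194) (nat_lit 85) (nat_lit 5) (nat_lit 88) (nat_lit 5) (nat_lit 89) (nat_lit 5) (nat_lit 423) (nat_lit 380) (nat_lit 217)) (XT.lf (nat_lit 0) (nat_lit 4798071149) (nat_lit 228) (nat_lit 58918751076) (nat_lit 76) (nat_lit 38719736629) (nat_lit 82) (nat_lit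 5) (nat_lit 85) (nat_lit 5) (nat_lit 83) (nat_lit 5) (nat_lit 424) (nat_lit 380) (nat_lit 216)))) (XT.nd (nat_lit 78) (nat_lit 456) (nat_lit 0) (XT.lf (nat_lit 0) (nat_lit 33500059302) (nat_lit 228) (nat_lit 9625492751) (nat_lit 304) (nat_lit 62753532519) (nat_lit 79) (nat_lit 5) (nat_lit 82) (nat_lit 5) (nat_lit 83) (nat_lit 5) (nat_lit 425) (nat_lit 380) (nat_lit 215)) (XT.nd (nat_lit 78) (nat_lit 304) (nat_lit 0) (XT.lf (nat_lit 0) (nat_lit 22267557405) (nat_lit 152) (nat_lit 62380066719) (nat_lit 228) (nat_lit 24807766244) (nat_lit 77) (nat_lit 5) (nat_lit 79) (nat_lit 5) (nat_lit 80) (nat_lit 5) (nat_lit 426) (nat_lit 380) (nat_lit 214)) (XT.lf (nat_lit 0) (nat_lit 9912210967) (nat_lit 228) (nat_lit 5772829274) (nat_lit 304) (nat_lit 97492841305) (nat_lit 73) (nat_lit 5) (nat_lit 76) (nat_lit 5) (nat_lit 77) (nat_lit 5) (nat_lit 427) (nat_lit 380) (nat_lit 213))))) (XT.nd (nat_lit 49530)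 (nat_lit 0) (nat_lit 13376) (XT.nd (nat_lit 78) (nat_lit 152) (nat_lit 0) (XT.lf (nat_lit 0) (nat_lit 59114758984) (nat_lit 304) (nat_lit 4148408240) (nat_lit 76) (nat_lit 53773201644) (nat_lit 73) (nat_lit 5) (nat_lit 77) (nat_lit 5) (nat_lit 74) (nat_lit 5) (nat_lit 428) (nat_lit 380) (nat_lit 212)) (XT.nd (nat_lit 49374) (nat_lit 0) (nat_lit 13300) (XT.lf (nat_lit 0) (nat_lit 101851145513) (nat_lit 152) (nat_lit 3900519744) (nat_lit 228) (nat_lit 15305044506) (nat_lit 71) (nat_lit 5) (nat_lit 73) (nat_lit 5) (nat_lit 74) (nat_lit 5) (nat_lit 429) (nat_lit 380) (nat_lit 211)) (XT.lf (nat_lit 0) (nat_lit 2620262613) (nat_lit 1292) (nat_lit 6223730111) (nat_lit 1292) (nat_lit 6223730111) (nat_lit 246) (nat_lit 3) (nat_lit 263) (nat_lit 3) (nat_lit 263) (nat_lit 5) (nat_lit 381) (nat_lit 381) (nat_lit 258)))) (XT.nd (nat_lit 78) (nat_lit 0) (nat_lit 0) (XT.lf (nat_lit 0) (nat_lit 5665383452) (nat_lit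 1216) (nat_lit 18950006123) (nat_lit 1292) (nat_lit 6264577422) (nat_lit 247) (nat_lit 5) (nat_lit 263) (nat_lit 5) (nat_lit 264) (nat_lit 5) (nat_lit 382) (nat_lit 381) (nat_lit 257)) (XT.nd (nat_lit 78) (nat_lit 0) (nat_lit 76) (XT.lf (nat_lit 76) (nat_lit 6062803314) (nat_lit 0) (nat_lit 407392237) (nat_lit 1292) (nat_lit 25180760679) (nat_lit 248) (nat_lit 5) (nat_lit 247) (nat_lit 5) (nat_lit 264) (nat_lit 5) (nat_lit 383) (nat_lit 381) (nat_lit 256)) (XT.lf (nat_lit 76) (nat_lit 21341998) (nat_lit 0) (nat_lit 7724383456) (nat_lit 1292) (nat_lit 24701858168) (nat_lit 249) (nat_lit 5) (nat_lit 248) (nat_lit 5) (nat_lit 265) (nat_lit 5) (nat_lit 384) (nat_lit 381) (nat_lit 255)))))) (XT.nd (nat_lit 468) (nat_lit 3268) (nat_lit 0) (XT.nd (nat_lit 234) (nat_lit 0) (nat_lit 152) (XT.nd (nat_lit 78) (nat_lit 0) (nat_lit 76) (XT.lf (nat_lit 0) (nat_lit 9519568166) (nat_lit 1216) (nat_lit 6012510222)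 (nat_lit 1292) (nat_lit 17738930778) (nat_lit 249) (nat_lit 5) (nat_lit 265) (nat_lit 5) (nat_lit 266) (nat_lit 5) (nat_lit 385) (nat_lit 381) (nat_lit 254)) (XT.nd (nat_lit 78) (nat_lit 0) (nat_lit 76) (XT.lf (nat_lit 0) (nat_lit 11765733952) (nat_lit 1216) (nat_lit 12156730013) (nat_lit 1292) (nat_lit 10201635829) (nat_lit 250) (nat_lit 5) (nat_lit 266) (nat_lit 5) (nat_lit 267) (nat_lit 5) (nat_lit 386) (nat_lit 381) (nat_lit 253)) (XT.lf (nat_lit 0) (nat_lit 14517371588) (nat_lit 1216) (nat_lit 18412591867) (nat_lit 1292) (nat_lit 2078089198) (nat_lit 251) (nat_lit 5) (nat_lit 267) (nat_lit 5) (nat_lit 268) (nat_lit 5) (nat_lit 387) (nat_lit 381) (nat_lit 252)))) (XT.nd (nat_lit 78) (nat_lit 0) (nat_lit 76) (XT.lf (nat_lit 76) (nat_lit 11075895307) (nat_lit 0) (nat_lit 6799060976) (nat_lit 1292) (nat_lit 18047198396) (nat_lit 252) (nat_lit 5) (nat_lit 251) (nat_lit 5) (nat_lit 268) (nat_lit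 5) (nat_lit 388) (nat_lit 381) (nat_lit 251)) (XT.nd (nat_lit 78) (nat_lit 0) (nat_lit 76) (XT.lf (nat_lit 76) (nat_lit 5448908335) (nat_lit 0) (nat_lit 16388012377) (nat_lit 1292) (nat_lit 15031948443) (nat_lit 253) (nat_lit 5) (nat_lit 252) (nat_lit 5) (nat_lit 269) (nat_lit 5) (nat_lit 389) (nat_lit 381) (nat_lit 250)) (XT.lf (nat_lit 0) (nat_lit 26424723037) (nat_lit 1216) (nat_lit 259115468) (nat_lit 1292) (nat_lit 11166250907) (nat_lit 253) (nat_lit 5) (nat_lit 269) (nat_lit 5) (nat_lit 270) (nat_lit 5) (nat_lit 390) (nat_lit 381) (nat_lit 249))))) (XT.nd (nat_lit 234) (nat_lit 1748) (nat_lit 0) (XT.nd (nat_lit 78) (nat_lit 1900) (nat_lit 0) (XT.lf (nat_lit 0) (nat_lit 31730377411) (nat_lit 1216) (nat_lit 5945027998) (nat_lit 76) (nat_lit 1190313561) (nat_lit 254) (nat_lit 5) (nat_lit 270) (nat_lit 5) (nat_lit 255) (nat_lit 5) (nat_lit 391) (nat_lit 381) (nat_lit 248)) (XT.nd (nat_lit 78)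 (nat_lit 684) (nat_lit 0) (XT.lf (nat_lit 0) (nat_lit 28107656020) (nat_lit 1216) (nat_lit 9730896024) (nat_lit 1292) (nat_lit 2077462875) (nat_lit 238) (nat_lit 5) (nat_lit 254) (nat_lit 5) (nat_lit 255) (nat_lit 5) (nat_lit 392) (nat_lit 381) (nat_lit 247)) (XT.lf (nat_lit 0) (nat_lit 3643705126) (nat_lit 684) (nat_lit 17810433891) (nat_lit 76) (nat_lit 19549551453) (nat_lit 229) (nat_lit 5) (nat_lit 238) (nat_lit 5) (nat_lit 230) (nat_lit 5) (nat_lit 393) (nat_lit 381) (nat_lit 246)))) (XT.nd (nat_lit 78) (nat_lit 1140) (nat_lit 0) (XT.lf (nat_lit 0) (nat_lit 10080050909) (nat_lit 684) (nat_lit 23931322924) (nat_lit 76) (nat_lit 8119598158) (nat_lit 221) (nat_lit 5) (nat_lit 230) (nat_lit 5) (nat_lit 222) (nat_lit 5) (nat_lit 394) (nat_lit 381) (nat_lit 245)) (XT.nd (nat_lit 78) (nat_lit 532) (nat_lit 0) (XT.lf (nat_lit 0) (nat_lit 13106364961) (nat_lit 608) (nat_lit 4255088175) (nat_lit 684)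 (nat_lit 25937468990) (nat_lit 213) (nat_lit 5) (nat_lit 221) (nat_lit 5) (nat_lit 222) (nat_lit 5) (nat_lit 395) (nat_lit 381) (nat_lit 244)) (XT.lf (nat_lit 0) (nat_lit 7865419793) (nat_lit 532) (nat_lit 17721063654) (nat_lit 608) (nat_lit 18921401212) (nat_lit 206) (nat_lit 5) (nat_lit 213) (nat_lit 5) (nat_lit 214) (nat_lit 5) (nat_lit 396) (nat_lit 381) (nat_lit 243))))))) (XT.nd (nat_lit 936) (nat_lit 3800) (nat_lit 0) (XT.nd (nat_lit 468) (nat_lit 2128) (nat_lit 0) (XT.nd (nat_lit 234) (nat_lit 1444) (nat_lit 0) (XT.nd (nat_lit 78) (nat_lit 532) (nat_lit 0) (XT.lf (nat_lit 0) (nat_lit 2559321585) (nat_lit 532) (nat_lit 32170277573) (nat_lit 608) (nat_lit 11032492695) (nat_lit 199) (nat_lit 5) (nat_lit 206) (nat_lit 5) (nat_lit 207) (nat_lit 5) (nat_lit 397) (nat_lit 381) (nat_lit 242)) (XT.nd (nat_lit 78) (nat_lit 532) (nat_lit 0) (XT.lf (nat_lit 0) (nat_lit 44300278194) (nat_lit 532)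 (nat_lit 579945981) (nat_lit 608) (nat_lit 2182276107) (nat_lit 199) (nat_lit 5) (nat_lit 206) (nat_lit 5) (nat_lit 207) (nat_lit 5) (nat_lit 398) (nat_lit 381) (nat_lit 241)) (XT.lf (nat_lit 0) (nat_lit 7674196428) (nat_lit 532) (nat_lit 8315549627) (nat_lit 76) (nat_lit 32415059075) (nat_lit 192) (nat_lit 5) (nat_lit 199) (nat_lit 5) (nat_lit 193) (nat_lit 5) (nat_lit 399) (nat_lit 381) (nat_lit 240)))) (XT.nd (nat_lit 78) (nat_lit 912) (nat_lit 0) (XT.lf (nat_lit 0) (nat_lit 18525301720) (nat_lit 608) (nat_lit 13973984587) (nat_lit 76) (nat_lit 17297883755) (nat_lit 185) (nat_lit 5) (nat_lit 193) (nat_lit 5) (nat_lit 186) (nat_lit 5) (nat_lit 400) (nat_lit 381) (nat_lit 239)) (XT.nd (nat_lit 78) (nat_lit 456) (nat_lit 0) (XT.lf (nat_lit 0) (nat_lit 30476671632) (nat_lit 532) (nat_lit 19717903745) (nat_lit 76) (nat_lit 1047847824) (nat_lit 179) (nat_lit 5) (nat_lit 186) (nat_lit 5) (nat_lit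 180) (nat_lit 5) (nat_lit 401) (nat_lit 381) (nat_lit 238)) (XT.lf (nat_lit 0) (nat_lit 27028260775) (nat_lit 456) (nat_lit 16727048299) (nat_lit 532) (nat_lit 8982740132) (nat_lit 173) (nat_lit 5) (nat_lit 179) (nat_lit 5) (nat_lit 180) (nat_lit 5) (nat_lit 402) (nat_lit 381) (nat_lit 237))))) (XT.nd (nat_lit 234) (nat_lit 836) (nat_lit 0) (XT.nd (nat_lit 78) (nat_lit 836) (nat_lit 0) (XT.lf (nat_lit 0) (nat_lit 3923933415) (nat_lit 456) (nat_lit 31852108508) (nat_lit 76) (nat_lit 18513418705) (nat_lit 167) (nat_lit 5) (nat_lit 173) (nat_lit 5) (nat_lit 168) (nat_lit 5) (nat_lit 403) (nat_lit 381) (nat_lit 236)) (XT.nd (nat_lit 78) (nat_lit 380) (nat_lit 0) (XT.lf (nat_lit 0) (nat_lit 17697861736) (nat_lit 456) (nat_lit 197056428) (nat_lit 532) (nat_lit 38002714723) (nat_lit 161) (nat_lit 5) (nat_lit 167) (nat_lit 5) (nat_lit 168) (nat_lit 5) (nat_lit 404) (nat_lit 381) (nat_lit 235)) (XT.lf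 (nat_lit 0) (nat_lit 12697942022) (nat_lit 380) (nat_lit 20673822072) (nat_lit 456) (nat_lit 24190231299) (nat_lit 156) (nat_lit 5) (nat_lit 161) (nat_lit 5) (nat_lit 162) (nat_lit 5) (nat_lit 405) (nat_lit 381) (nat_lit 234)))) (XT.nd (nat_lit 78) (nat_lit 456) (nat_lit 0) (XT.lf (nat_lit 0) (nat_lit 7621216707) (nat_lit 380) (nat_lit 42629339841) (nat_lit 456) (nat_lit 9040177292) (nat_lit 151) (nat_lit 5) (nat_lit 156) (nat_lit 5) (nat_lit 157) (nat_lit 5) (nat_lit 406) (nat_lit 381) (nat_lit 233)) (XT.nd (nat_lit 78) (nat_lit 0) (nat_lit 0) (XT.lf (nat_lit 0) (nat_lit 2338742625) (nat_lit 380) (nat_lit 5089266936) (nat_lit 456) (nat_lit 53655080994) (nat_lit 145) (nat_lit 5) (nat_lit 150) (nat_lit 5) (nat_lit 151) (nat_lit 5) (nat_lit 407) (nat_lit 381) (nat_lit 232)) (XT.lf (nat_lit 0) (nat_lit 25398692772) (nat_lit 456) (nat_lit 3252273960) (nat_lit 76) (nat_lit 34285432451) (nat_lit 145)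 (nat_lit 5) (nat_lit 151) (nat_lit 5) (nat_lit 146) (nat_lit 5) (nat_lit 408) (nat_lit 381) (nat_lit 231)))))) (XT.nd (nat_lit 468) (nat_lit 1672) (nat_lit 0) (XT.nd (nat_lit 234) (nat_lit 988) (nat_lit 0) (XT.nd (nat_lit 78) (nat_lit 760) (nat_lit 0) (XT.lf (nat_lit 0) (nat_lit 44963044814) (nat_lit 456) (nat_lit 8919201672) (nat_lit 76) (nat_lit 10979273505) (nat_lit 140) (nat_lit 5) (nat_lit 146) (nat_lit 5) (nat_lit 141) (nat_lit 5) (nat_lit 409) (nat_lit 381) (nat_lit 230)) (XT.nd (nat_lit 78) (nat_lit 456) (nat_lit 0) (XT.lf (nat_lit 0) (nat_lit 52004377230) (nat_lit 304) (nat_lit 14321521952) (nat_lit 380) (nat_lit 532389872) (nat_lit 136) (nat_lit 5) (nat_lit 140) (nat_lit 5) (nat_lit 141) (nat_lit 5) (nat_lit 410) (nat_lit 381) (nat_lit 229)) (XT.lf (nat_lit 0) (nat_lit 20235677782) (nat_lit 456) (nat_lit 21252418122) (nat_lit 76) (nat_lit 27436488300) (nat_lit 130) (nat_lit 5) (nat_lit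 136) (nat_lit 5) (nat_lit 131) (nat_lit 5) (nat_lit 411) (nat_lit 381) (nat_lit 228)))) (XT.nd (nat_lit 78) (nat_lit 684) (nat_lit 0) (XT.lf (nat_lit 0) (nat_lit 42748059460) (nat_lit 380) (nat_lit 27843353323) (nat_lit 76) (nat_lit 481116220) (nat_lit 126) (nat_lit 5) (nat_lit 131) (nat_lit 5) (nat_lit 127) (nat_lit 5) (nat_lit 412) (nat_lit 381) (nat_lit 227)) (XT.nd (nat_lit 78) (nat_lit 380) (nat_lit 0) (XT.lf (nat_lit 0) (nat_lit 38382229823) (nat_lit 304) (nat_lit 29010086238) (nat_lit 380) (nat_lit 5905367937) (nat_lit 122) (nat_lit 5) (nat_lit 126) (nat_lit 5) (nat_lit 127) (nat_lit 5) (nat_lit 413) (nat_lit 381) (nat_lit 226)) (XT.lf (nat_lit 0) (nat_lit 18046823168) (nat_lit 380) (nat_lit 42408875465) (nat_lit 76) (nat_lit 15150625710) (nat_lit 117) (nat_lit 5) (nat_lit 122) (nat_lit 5) (nat_lit 118) (nat_lit 5) (nat_lit 414) (nat_lit 381) (nat_lit 225))))) (XT.nd (nat_lit 234) (nat_lit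 760) (nat_lit 0) (XT.nd (nat_lit 78) (nat_lit 608) (nat_lit 0) (XT.lf (nat_lit 0) (nat_lit 27605333033) (nat_lit 304) (nat_lit 16389179920) (nat_lit 380) (nat_lit 34006529603) (nat_lit 113) (nat_lit 5) (nat_lit 117) (nat_lit 5) (nat_lit 118) (nat_lit 5) (nat_lit 415) (nat_lit 381) (nat_lit 224)) (XT.nd (nat_lit 78) (nat_lit 380) (nat_lit 0) (XT.lf (nat_lit 0) (nat_lit 21631274054) (nat_lit 228) (nat_lit 50542165431) (nat_lit 304) (nat_lit 8314042158) (nat_lit 110) (nat_lit 5) (nat_lit 113) (nat_lit 5) (nat_lit 114) (nat_lit 5) (nat_lit 416) (nat_lit 381) (nat_lit 223)) (XT.lf (nat_lit 0) (nat_lit 15172873331) (nat_lit 304) (nat_lit 3959054753) (nat_lit 380) (nat_lit 63935941800) (nat_lit 105) (nat_lit 5) (nat_lit 109) (nat_lit 5) (nat_lit 110) (nat_lit 5) (nat_lit 417) (nat_lit 381) (nat_lit 222)))) (XT.nd (nat_lit 156) (nat_lit 304) (nat_lit 0) (XT.nd (nat_lit 78) (nat_lit 228) (nat_lit 0) (XT.lf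 (nat_lit 0) (nat_lit 8005151995) (nat_lit 228) (nat_lit 40893551673) (nat_lit 304) (nat_lit 36842491199) (nat_lit 102) (nat_lit 5) (nat_lit 105) (nat_lit 5) (nat_lit 106) (nat_lit 5) (nat_lit 418) (nat_lit 381) (nat_lit 221)) (XT.lf (nat_lit 0) (nat_lit 479789918) (nat_lit 228) (nat_lit 80493790306) (nat_lit 304) (nat_lit 7550013453) (nat_lit 99) (nat_lit 5) (nat_lit 102) (nat_lit 5) (nat_lit 103) (nat_lit 5) (nat_lit 419) (nat_lit 381) (nat_lit 220))) (XT.nd (nat_lit 78) (nat_lit 228) (nat_lit 0) (XT.lf (nat_lit 0) (nat_lit 23973150283) (nat_lit 304) (nat_lit 7837147146) (nat_lit 76) (nat_lit 59591555510) (nat_lit 98) (nat_lit 5) (nat_lit 102) (nat_lit 5) (nat_lit 99) (nat_lit 5) (nat_lit 420) (nat_lit 381) (nat_lit 219)) (XT.lf (nat_lit 0) (nat_lit 57857682336) (nat_lit 304) (nat_lit 16773936432) (nat_lit 76) (nat_lit 19761923529) (nat_lit 95) (nat_lit 5) (nat_lit 99) (nat_lit 5) (nat_lit 96)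 (nat_lit 5) (nat_lit 421) (nat_lit 381) (nat_lit 218))))))))
noncomputable def xc110 : XT := (XT.nd (nat_lit 51246) (nat_lit 0) (nat_lit 1672) (XT.nd (nat_lit 50310) (nat_lit 0) (nat_lit 10108) (XT.nd (nat_lit 468) (nat_lit 304) (nat_lit 0) (XT.nd (nat_lit 234) (nat_lit 608) (nat_lit 0) (XT.nd (nat_lit 78) (nat_lit 532) (nat_lit 0) (XT.lf (nat_lit 0) (nat_lit 71042025917) (nat_lit 228) (nat_lit 23478024694) (nat_lit 304) (nat_lit 2982257595) (nat_lit 92) (nat_lit 5) (nat_lit 95) (nat_lit 5) (nat_lit 96) (nat_lit 5) (nat_lit 422) (nat_lit 381) (nat_lit 217)) (XT.nd (nat_lit 78) (nat_lit 228) (nat_lit 0) (XT.lf (nat_lit 0) (nat_lit 32706769009) (nat_lit 304) (nat_lit 37267427083) (nat_lit 76) (nat_lit 30750405581) (nat_lit 88) (nat_lit 5) (nat_lit 92) (nat_lit 5) (nat_lit 89) (nat_lit 5) (nat_lit 423) (nat_lit 381) (nat_lit 216)) (XT.lf (nat_lit 0) (nat_lit 55126686148) (nat_lit 228) (nat_lit 16032674597)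 (nat_lit 304) (nat_lit 32916539834) (nat_lit 85) (nat_lit 5) (nat_lit 88) (nat_lit 5) (nat_lit 89) (nat_lit 5) (nat_lit 424) (nat_lit 381) (nat_lit 215)))) (XT.nd (nat_lit 78) (nat_lit 380) (nat_lit 0) (XT.lf (nat_lit 0) (nat_lit 5091625767) (nat_lit 228) (nat_lit 61774739041) (nat_lit 76) (nat_lit 40690403121) (nat_lit 82) (nat_lit 5) (nat_lit 85) (nat_lit 5) (nat_lit 83) (nat_lit 5) (nat_lit 425) (nat_lit 381) (nat_lit 214)) (XT.nd (nat_lit 78) (nat_lit 152) (nat_lit 0) (XT.lf (nat_lit 0) (nat_lit 35262433469) (nat_lit 228) (nat_lit 10071332302) (nat_lit 304) (nat_lit 65837706057) (nat_lit 79) (nat_lit 5) (nat_lit 82) (nat_lit 5) (nat_lit 83) (nat_lit 5) (nat_lit 426) (nat_lit 381) (nat_lit 213)) (XT.lf (nat_lit 0) (nat_lit 23466993197) (nat_lit 152) (nat_lit 65463626744) (nat_lit 228) (nat_lit 25996013039) (nat_lit 77) (nat_lit 5) (nat_lit 79) (nat_lit 5) (nat_lit 80) (nat_lit 5) (nat_lit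 427) (nat_lit 381) (nat_lit 212))))) (XT.nd (nat_lit 49608) (nat_lit 0) (nat_lit 13224) (XT.nd (nat_lit 78) (nat_lit 0) (nat_lit 0) (XT.lf (nat_lit 0) (nat_lit 10492408892) (nat_lit 228) (nat_lit 6026386036) (nat_lit 304) (nat_lit 102316487785) (nat_lit 73) (nat_lit 5) (nat_lit 76) (nat_lit 5) (nat_lit 77) (nat_lit 5) (nat_lit 428) (nat_lit 381) (nat_lit 211)) (XT.nd (nat_lit 49452) (nat_lit 0) (nat_lit 13148) (XT.lf (nat_lit 0) (nat_lit 62117963534) (nat_lit 304) (nat_lit 4274168623) (nat_lit 76) (nat_lit 56494623700) (nat_lit 73) (nat_lit 5) (nat_lit 77) (nat_lit 5) (nat_lit 74) (nat_lit 5) (nat_lit 429) (nat_lit 381) (nat_lit 210)) (XT.lf (nat_lit 0) (nat_lit 2866588331) (nat_lit 1292) (nat_lit 6475506289) (nat_lit 1292) (nat_lit 6475506289) (nat_lit 246) (nat_lit 3) (nat_lit 263) (nat_lit 3) (nat_lit 263) (nat_lit 5) (nat_lit 382) (nat_lit 382) (nat_lit 256)))) (XT.nd (nat_lit 78) (nat_lit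 0) (nat_lit 0) (XT.lf (nat_lit 0) (nat_lit 6168392513) (nat_lit 1216) (nat_lit 19774363860) (nat_lit 1292) (nat_lit 6474524037) (nat_lit 247) (nat_lit 5) (nat_lit 263) (nat_lit 5) (nat_lit 264) (nat_lit 5) (nat_lit 383) (nat_lit 382) (nat_lit 255)) (XT.nd (nat_lit 78) (nat_lit 0) (nat_lit 76) (XT.lf (nat_lit 76) (nat_lit 6485556191) (nat_lit 0) (nat_lit 518575011) (nat_lit 1292) (nat_lit 26222971737) (nat_lit 248) (nat_lit 5) (nat_lit 247) (nat_lit 5) (nat_lit 264) (nat_lit 5) (nat_lit 384) (nat_lit 382) (nat_lit 254)) (XT.lf (nat_lit 76) (nat_lit 145658678) (nat_lit 0) (nat_lit 8188112011) (nat_lit 1292) (nat_lit 25730085226) (nat_lit 249) (nat_lit 5) (nat_lit 248) (nat_lit 5) (nat_lit 265) (nat_lit 5) (nat_lit 385) (nat_lit 382) (nat_lit 253)))))) (XT.nd (nat_lit 468) (nat_lit 3268) (nat_lit 0) (XT.nd (nat_lit 234) (nat_lit 0) (nat_lit 152) (XT.nd (nat_lit 78) (nat_lit 0) (nat_lit 76) (XT.lf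 (nat_lit 0) (nat_lit 10186035999) (nat_lit 1216) (nat_lit 6189229509) (nat_lit 1292) (nat_lit 18553499322) (nat_lit 249) (nat_lit 5) (nat_lit 265) (nat_lit 5) (nat_lit 266) (nat_lit 5) (nat_lit 386) (nat_lit 382) (nat_lit 252)) (XT.nd (nat_lit 78) (nat_lit 0) (nat_lit 76) (XT.lf (nat_lit 0) (nat_lit 12535997964) (nat_lit 1216) (nat_lit 12638060370) (nat_lit 1292) (nat_lit 10650710833) (nat_lit 250) (nat_lit 5) (nat_lit 266) (nat_lit 5) (nat_lit 267) (nat_lit 5) (nat_lit 387) (nat_lit 382) (nat_lit 251)) (XT.lf (nat_lit 0) (nat_lit 15417236955) (nat_lit 1216) (nat_lit 19204538001) (nat_lit 1292) (nat_lit 2131387760) (nat_lit 251) (nat_lit 5) (nat_lit 267) (nat_lit 5) (nat_lit 268) (nat_lit 5) (nat_lit 388) (nat_lit 382) (nat_lit 250)))) (XT.nd (nat_lit 78) (nat_lit 0) (nat_lit 76) (XT.lf (nat_lit 76) (nat_lit 11754684845) (nat_lit 0) (nat_lit 7180932004) (nat_lit 1292) (nat_lit 18777568976) (nat_lit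 252) (nat_lit 5) (nat_lit 251) (nat_lit 5) (nat_lit 268) (nat_lit 5) (nat_lit 389) (nat_lit 382) (nat_lit 249)) (XT.nd (nat_lit 78) (nat_lit 0) (nat_lit 76) (XT.lf (nat_lit 76) (nat_lit 5848088034) (nat_lit 0) (nat_lit 17240477734) (nat_lit 1292) (nat_lit 15618886965) (nat_lit 253) (nat_lit 5) (nat_lit 252) (nat_lit 5) (nat_lit 269) (nat_lit 5) (nat_lit 390) (nat_lit 382) (nat_lit 248)) (XT.lf (nat_lit 0) (nat_lit 27897846029) (nat_lit 1216) (nat_lit 146440765) (nat_lit 1292) (nat_lit 11693687714) (nat_lit 253) (nat_lit 5) (nat_lit 269) (nat_lit 5) (nat_lit 270) (nat_lit 5) (nat_lit 391) (nat_lit 382) (nat_lit 247))))) (XT.nd (nat_lit 234) (nat_lit 1748) (nat_lit 0) (XT.nd (nat_lit 78) (nat_lit 1900) (nat_lit 0) (XT.lf (nat_lit 0) (nat_lit 33462494676) (nat_lit 1216) (nat_lit 6115586738) (nat_lit 76) (nat_lit 1226495771) (nat_lit 254) (nat_lit 5) (nat_lit 270) (nat_lit 5) (nat_lit 255) (nat_lit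 5) (nat_lit 392) (nat_lit 382) (nat_lit 246)) (XT.nd (nat_lit 78) (nat_lit 684) (nat_lit 0) (XT.lf (nat_lit 0) (nat_lit 29636099861) (nat_lit 1216) (nat_lit 10234227861) (nat_lit 1292) (nat_lit 2037235567) (nat_lit 238) (nat_lit 5) (nat_lit 254) (nat_lit 5) (nat_lit 255) (nat_lit 5) (nat_lit 393) (nat_lit 382) (nat_lit 245)) (XT.lf (nat_lit 0) (nat_lit 3961497711) (nat_lit 684) (nat_lit 18574383344) (nat_lit 76) (nat_lit 20513873074) (nat_lit 229) (nat_lit 5) (nat_lit 238) (nat_lit 5) (nat_lit 230) (nat_lit 5) (nat_lit 394) (nat_lit 382) (nat_lit 244)))) (XT.nd (nat_lit 78) (nat_lit 1140) (nat_lit 0) (XT.lf (nat_lit 0) (nat_lit 10714314091) (nat_lit 684) (nat_lit 25000913897) (nat_lit 76) (nat_lit 8518334647) (nat_lit 221) (nat_lit 5) (nat_lit 230) (nat_lit 5) (nat_lit 222) (nat_lit 5) (nat_lit 395) (nat_lit 382) (nat_lit 243)) (XT.nd (nat_lit 78) (nat_lit 532) (nat_lit 0) (XT.lf (nat_lit 0)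 (nat_lit 13885018665) (nat_lit 608) (nat_lit 4469750453) (nat_lit 684) (nat_lit 27105294065) (nat_lit 213) (nat_lit 5) (nat_lit 221) (nat_lit 5) (nat_lit 222) (nat_lit 5) (nat_lit 396) (nat_lit 382) (nat_lit 242)) (XT.lf (nat_lit 0) (nat_lit 8382204645) (nat_lit 532) (nat_lit 18604052156) (nat_lit 608) (nat_lit 19743363139) (nat_lit 206) (nat_lit 5) (nat_lit 213) (nat_lit 5) (nat_lit 214) (nat_lit 5) (nat_lit 397) (nat_lit 382) (nat_lit 241))))))) (XT.nd (nat_lit 936) (nat_lit 3800) (nat_lit 0) (XT.nd (nat_lit 468) (nat_lit 2128) (nat_lit 0) (XT.nd (nat_lit 234) (nat_lit 1444) (nat_lit 0) (XT.nd (nat_lit 78) (nat_lit 532) (nat_lit 0) (XT.lf (nat_lit 0) (nat_lit 2810786480) (nat_lit 532) (nat_lit 33771221346) (nat_lit 608) (nat_lit 11464667449) (nat_lit 199) (nat_lit 5) (nat_lit 206) (nat_lit 5) (nat_lit 207) (nat_lit 5) (nat_lit 398) (nat_lit 382) (nat_lit 240)) (XT.nd (nat_lit 78) (nat_lit 532)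 (nat_lit 0) (XT.lf (nat_lit 0) (nat_lit 46632910023) (nat_lit 532) (nat_lit 601733655) (nat_lit 608) (nat_lit 2177628122) (nat_lit 199) (nat_lit 5) (nat_lit 206) (nat_lit 5) (nat_lit 207) (nat_lit 5) (nat_lit 399) (nat_lit 382) (nat_lit 239)) (XT.lf (nat_lit 0) (nat_lit 8165343325) (nat_lit 532) (nat_lit 8611714282) (nat_lit 76) (nat_lit 34044726528) (nat_lit 192) (nat_lit 5) (nat_lit 199) (nat_lit 5) (nat_lit 193) (nat_lit 5) (nat_lit 400) (nat_lit 382) (nat_lit 238)))) (XT.nd (nat_lit 78) (nat_lit 912) (nat_lit 0) (XT.lf (nat_lit 0) (nat_lit 19555127189) (nat_lit 608) (nat_lit 14553482733) (nat_lit 76) (nat_lit 18175275509) (nat_lit 185) (nat_lit 5) (nat_lit 193) (nat_lit 5) (nat_lit 186) (nat_lit 5) (nat_lit 401) (nat_lit 382) (nat_lit 237)) (XT.nd (nat_lit 78) (nat_lit 456) (nat_lit 0) (XT.lf (nat_lit 0) (nat_lit 32100401346) (nat_lit 532) (nat_lit 20585142081) (nat_lit 76) (nat_lit 1115969456)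 (nat_lit 179) (nat_lit 5) (nat_lit 186) (nat_lit 5) (nat_lit 180) (nat_lit 5) (nat_lit 402) (nat_lit 382) (nat_lit 236)) (XT.lf (nat_lit 0) (nat_lit 28494929390) (nat_lit 456) (nat_lit 17544392218) (nat_lit 532) (nat_lit 9332709699) (nat_lit 173) (nat_lit 5) (nat_lit 179) (nat_lit 5) (nat_lit 180) (nat_lit 5) (nat_lit 403) (nat_lit 382) (nat_lit 235))))) (XT.nd (nat_lit 234) (nat_lit 836) (nat_lit 0) (XT.nd (nat_lit 78) (nat_lit 836) (nat_lit 0) (XT.lf (nat_lit 0) (nat_lit 4214020663) (nat_lit 456) (nat_lit 33328203901) (nat_lit 76) (nat_lit 19458861914) (nat_lit 167) (nat_lit 5) (nat_lit 173) (nat_lit 5) (nat_lit 168) (nat_lit 5) (nat_lit 404) (nat_lit 382) (nat_lit 234)) (XT.nd (nat_lit 78) (nat_lit 380) (nat_lit 0) (XT.lf (nat_lit 0) (nat_lit 18695925119) (nat_lit 456) (nat_lit 184246413) (nat_lit 532) (nat_lit 39809598763) (nat_lit 161) (nat_lit 5) (nat_lit 167) (nat_lit 5) (nat_lit 168)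 (nat_lit 5) (nat_lit 405) (nat_lit 382) (nat_lit 233)) (XT.lf (nat_lit 0) (nat_lit 13445219385) (nat_lit 380) (nat_lit 21682618237) (nat_lit 456) (nat_lit 25309605350) (nat_lit 156) (nat_lit 5) (nat_lit 161) (nat_lit 5) (nat_lit 162) (nat_lit 5) (nat_lit 406) (nat_lit 382) (nat_lit 232)))) (XT.nd (nat_lit 78) (nat_lit 456) (nat_lit 0) (XT.lf (nat_lit 0) (nat_lit 8113780168) (nat_lit 380) (nat_lit 44733923305) (nat_lit 456) (nat_lit 9405002171) (nat_lit 151) (nat_lit 5) (nat_lit 156) (nat_lit 5) (nat_lit 157) (nat_lit 5) (nat_lit 407) (nat_lit 382) (nat_lit 231)) (XT.nd (nat_lit 78) (nat_lit 0) (nat_lit 0) (XT.lf (nat_lit 0) (nat_lit 2565663504) (nat_lit 380) (nat_lit 5316215872) (nat_lit 456) (nat_lit 56252867293) (nat_lit 145) (nat_lit 5) (nat_lit 150) (nat_lit 5) (nat_lit 151) (nat_lit 5) (nat_lit 408) (nat_lit 382) (nat_lit 230)) (XT.lf (nat_lit 0) (nat_lit 26747421528) (nat_lit 456) (nat_lit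 3308013681) (nat_lit 76) (nat_lit 36025396935) (nat_lit 145) (nat_lit 5) (nat_lit 151) (nat_lit 5) (nat_lit 146) (nat_lit 5) (nat_lit 409) (nat_lit 382) (nat_lit 229)))))) (XT.nd (nat_lit 468) (nat_lit 1672) (nat_lit 0) (XT.nd (nat_lit 234) (nat_lit 988) (nat_lit 0) (XT.nd (nat_lit 78) (nat_lit 760) (nat_lit 0) (XT.lf (nat_lit 0) (nat_lit 47287503908) (nat_lit 456) (nat_lit 9259314980) (nat_lit 76) (nat_lit 11555465827) (nat_lit 140) (nat_lit 5) (nat_lit 146) (nat_lit 5) (nat_lit 141) (nat_lit 5) (nat_lit 410) (nat_lit 382) (nat_lit 228)) (XT.nd (nat_lit 78) (nat_lit 456) (nat_lit 0) (XT.lf (nat_lit 0) (nat_lit 54707408790) (nat_lit 304) (nat_lit 15008446843) (nat_lit 380) (nat_lit 483117009) (nat_lit 136) (nat_lit 5) (nat_lit 140) (nat_lit 5) (nat_lit 141) (nat_lit 5) (nat_lit 411) (nat_lit 382) (nat_lit 227)) (XT.lf (nat_lit 0) (nat_lit 21319587079) (nat_lit 456) (nat_lit 22211823832) (nat_lit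 76) (nat_lit 28837219307) (nat_lit 130) (nat_lit 5) (nat_lit 136) (nat_lit 5) (nat_lit 131) (nat_lit 5) (nat_lit 412) (nat_lit 382) (nat_lit 226)))) (XT.nd (nat_lit 78) (nat_lit 684) (nat_lit 0) (XT.lf (nat_lit 0) (nat_lit 44955411190) (nat_lit 380) (nat_lit 29133450452) (nat_lit 76) (nat_lit 535176838) (nat_lit 126) (nat_lit 5) (nat_lit 131) (nat_lit 5) (nat_lit 127) (nat_lit 5) (nat_lit 413) (nat_lit 382) (nat_lit 225)) (XT.nd (nat_lit 78) (nat_lit 380) (nat_lit 0) (XT.lf (nat_lit 0) (nat_lit 40400486019) (nat_lit 304) (nat_lit 30429016747) (nat_lit 380) (nat_lit 6131020676) (nat_lit 122) (nat_lit 5) (nat_lit 126) (nat_lit 5) (nat_lit 127) (nat_lit 5) (nat_lit 414) (nat_lit 382) (nat_lit 224)) (XT.lf (nat_lit 0) (nat_lit 19015414411) (nat_lit 380) (nat_lit 44429990353) (nat_lit 76) (nat_lit 15939231994) (nat_lit 117) (nat_lit 5) (nat_lit 122) (nat_lit 5) (nat_lit 118) (nat_lit 5) (nat_lit 415)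 (nat_lit 382) (nat_lit 223))))) (XT.nd (nat_lit 234) (nat_lit 760) (nat_lit 0) (XT.nd (nat_lit 78) (nat_lit 608) (nat_lit 0) (XT.lf (nat_lit 0) (nat_lit 29082081327) (nat_lit 304) (nat_lit 17176180033) (nat_lit 380) (nat_lit 35640897117) (nat_lit 113) (nat_lit 5) (nat_lit 117) (nat_lit 5) (nat_lit 118) (nat_lit 5) (nat_lit 416) (nat_lit 382) (nat_lit 222)) (XT.nd (nat_lit 78) (nat_lit 380) (nat_lit 0) (XT.lf (nat_lit 0) (nat_lit 22808131407) (nat_lit 228) (nat_lit 53036167286) (nat_lit 304) (nat_lit 8665676630) (nat_lit 110) (nat_lit 5) (nat_lit 113) (nat_lit 5) (nat_lit 114) (nat_lit 5) (nat_lit 417) (nat_lit 382) (nat_lit 221)) (XT.lf (nat_lit 0) (nat_lit 16025307371) (nat_lit 304) (nat_lit 4123944826) (nat_lit 380) (nat_lit 67070175680) (nat_lit 105) (nat_lit 5) (nat_lit 109) (nat_lit 5) (nat_lit 110) (nat_lit 5) (nat_lit 418) (nat_lit 382) (nat_lit 220)))) (XT.nd (nat_lit 156) (nat_lit 304)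 (nat_lit 0) (XT.nd (nat_lit 78) (nat_lit 228) (nat_lit 0) (XT.lf (nat_lit 0) (nat_lit 8497985665) (nat_lit 228) (nat_lit 42904681682) (nat_lit 304) (nat_lit 38623803389) (nat_lit 102) (nat_lit 5) (nat_lit 105) (nat_lit 5) (nat_lit 106) (nat_lit 5) (nat_lit 419) (nat_lit 382) (nat_lit 219)) (XT.lf (nat_lit 0) (nat_lit 595121314) (nat_lit 228) (nat_lit 84484540694) (nat_lit 304) (nat_lit 7868376871) (nat_lit 99) (nat_lit 5) (nat_lit 102) (nat_lit 5) (nat_lit 103) (nat_lit 5) (nat_lit 420) (nat_lit 382) (nat_lit 218))) (XT.nd (nat_lit 78) (nat_lit 228) (nat_lit 0) (XT.lf (nat_lit 0) (nat_lit 25227029963) (nat_lit 304) (nat_lit 8140901724) (nat_lit 76) (nat_lit 62602345769) (nat_lit 98) (nat_lit 5) (nat_lit 102) (nat_lit 5) (nat_lit 99) (nat_lit 5) (nat_lit 421) (nat_lit 382) (nat_lit 217)) (XT.lf (nat_lit 0) (nat_lit 60804290776) (nat_lit 304) (nat_lit 17525751710) (nat_lit 76) (nat_lit 20781554276)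 (nat_lit 95) (nat_lit 5) (nat_lit 99) (nat_lit 5) (nat_lit 96) (nat_lit 5) (nat_lit 422) (nat_lit 382) (nat_lit 216))))))))
noncomputable def xc111 : XT := (XT.nd (nat_lit 51480) (nat_lit 0) (nat_lit 608) (XT.nd (nat_lit 50466) (nat_lit 0) (nat_lit 8740) (XT.nd (nat_lit 49998) (nat_lit 0) (nat_lit 12844) (XT.nd (nat_lit 234) (nat_lit 608) (nat_lit 0) (XT.nd (nat_lit 78) (nat_lit 532) (nat_lit 0) (XT.lf (nat_lit 0) (nat_lit 74678518314) (nat_lit 228) (nat_lit 24619512069) (nat_lit 304) (nat_lit 3077823518) (nat_lit 92) (nat_lit 5) (nat_lit 95) (nat_lit 5) (nat_lit 96) (nat_lit 5) (nat_lit 423) (nat_lit 382) (nat_lit 215)) (XT.nd (nat_lit 78) (nat_lit 228) (nat_lit 0) (XT.lf (nat_lit 0) (nat_lit 34393216738) (nat_lit 304) (nat_lit 39046577530) (nat_lit 76) (nat_lit 32319494595) (nat_lit 88) (nat_lit 5) (nat_lit 92) (nat_lit 5) (nat_lit 89) (nat_lit 5) (nat_lit 424) (nat_lit 382) (nat_lit 214))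 (XT.lf (nat_lit 0) (nat_lit 57964827188) (nat_lit 228) (nat_lit 16801963474) (nat_lit 304) (nat_lit 34511411932) (nat_lit 85) (nat_lit 5) (nat_lit 88) (nat_lit 5) (nat_lit 89) (nat_lit 5) (nat_lit 425) (nat_lit 382) (nat_lit 213)))) (XT.nd (nat_lit 78) (nat_lit 380) (nat_lit 0) (XT.lf (nat_lit 0) (nat_lit 5394870150) (nat_lit 228) (nat_lit 64781889065) (nat_lit 76) (nat_lit 42756378751) (nat_lit 82) (nat_lit 5) (nat_lit 85) (nat_lit 5) (nat_lit 83) (nat_lit 5) (nat_lit 426) (nat_lit 382) (nat_lit 212)) (XT.nd (nat_lit 78) (nat_lit 152) (nat_lit 0) (XT.lf (nat_lit 0) (nat_lit 37104803398) (nat_lit 228) (nat_lit 10542758248) (nat_lit 304) (nat_lit 69081062481) (nat_lit 79) (nat_lit 5) (nat_lit 82) (nat_lit 5) (nat_lit 83) (nat_lit 5) (nat_lit 427) (nat_lit 382) (nat_lit 211)) (XT.lf (nat_lit 0) (nat_lit 24718399928) (nat_lit 152) (nat_lit 68704659954) (nat_lit 228) (nat_lit 27248519798) (nat_lit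 77) (nat_lit 5) (nat_lit 79) (nat_lit 5) (nat_lit 80) (nat_lit 5) (nat_lit 428) (nat_lit 382) (nat_lit 210))))) (XT.nd (nat_lit 234) (nat_lit 0) (nat_lit 152) (XT.nd (nat_lit 78) (nat_lit 0) (nat_lit 76) (XT.lf (nat_lit 0) (nat_lit 3114509663) (nat_lit 1292) (nat_lit 6745394686) (nat_lit 1292) (nat_lit 6745394686) (nat_lit 246) (nat_lit 3) (nat_lit 263) (nat_lit 3) (nat_lit 263) (nat_lit 5) (nat_lit 383) (nat_lit 383) (nat_lit 254)) (XT.nd (nat_lit 78) (nat_lit 0) (nat_lit 0) (XT.lf (nat_lit 0) (nat_lit 6676122695) (nat_lit 1216) (nat_lit 20651388113) (nat_lit 1292) (nat_lit 6704570187) (nat_lit 247) (nat_lit 5) (nat_lit 263) (nat_lit 5) (nat_lit 264) (nat_lit 5) (nat_lit 384) (nat_lit 383) (nat_lit 253)) (XT.lf (nat_lit 76) (nat_lit 6918326257) (nat_lit 0) (nat_lit 626873978) (nat_lit 1292) (nat_lit 27337451866) (nat_lit 248) (nat_lit 5) (nat_lit 247) (nat_lit 5) (nat_lit 264) (nat_lit 5) (nat_lit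 385) (nat_lit 383) (nat_lit 252)))) (XT.nd (nat_lit 78) (nat_lit 0) (nat_lit 76) (XT.lf (nat_lit 76) (nat_lit 264732615) (nat_lit 0) (nat_lit 8667820906) (nat_lit 1292) (nat_lit 26828956063) (nat_lit 249) (nat_lit 5) (nat_lit 248) (nat_lit 5) (nat_lit 265) (nat_lit 5) (nat_lit 386) (nat_lit 383) (nat_lit 251)) (XT.nd (nat_lit 78) (nat_lit 0) (nat_lit 76) (XT.lf (nat_lit 0) (nat_lit 10868117321) (nat_lit 1216) (nat_lit 6386304386) (nat_lit 1292) (nat_lit 19415525312) (nat_lit 249) (nat_lit 5) (nat_lit 265) (nat_lit 5) (nat_lit 266) (nat_lit 5) (nat_lit 387) (nat_lit 383) (nat_lit 250)) (XT.lf (nat_lit 0) (nat_lit 13327856651) (nat_lit 1216) (nat_lit 13155218587) (nat_lit 1292) (nat_lit 11127911419) (nat_lit 250) (nat_lit 5) (nat_lit 266) (nat_lit 5) (nat_lit 267) (nat_lit 5) (nat_lit 388) (nat_lit 383) (nat_lit 249)))))) (XT.nd (nat_lit 468) (nat_lit 3496) (nat_lit 0) (XT.nd (nat_lit 234) (nat_lit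 988) (nat_lit 0) (XT.nd (nat_lit 78) (nat_lit 0) (nat_lit 0) (XT.lf (nat_lit 0) (nat_lit 16345919019) (nat_lit 1216) (nat_lit 20048045211) (nat_lit 1292) (nat_lit 2192056108) (nat_lit 251) (nat_lit 5) (nat_lit 267) (nat_lit 5) (nat_lit 268) (nat_lit 5) (nat_lit 389) (nat_lit 383) (nat_lit 248)) (XT.nd (nat_lit 78) (nat_lit 0) (nat_lit 76) (XT.lf (nat_lit 76) (nat_lit 12455793032) (nat_lit 0) (nat_lit 7577999448) (nat_lit 1292) (nat_lit 19560448023) (nat_lit 252) (nat_lit 5) (nat_lit 251) (nat_lit 5) (nat_lit 268) (nat_lit 5) (nat_lit 390) (nat_lit 383) (nat_lit 247)) (XT.lf (nat_lit 76) (nat_lit 6255444165) (nat_lit 0) (nat_lit 18132492313) (nat_lit 1292) (nat_lit 16250480837) (nat_lit 253) (nat_lit 5) (nat_lit 252) (nat_lit 5) (nat_lit 269) (nat_lit 5) (nat_lit 391) (nat_lit 383) (nat_lit 246)))) (XT.nd (nat_lit 78) (nat_lit 1140) (nat_lit 0) (XT.lf (nat_lit 0) (nat_lit 29430504172) (nat_lit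 1216) (nat_lit 39812258) (nat_lit 1292) (nat_lit 12250366894) (nat_lit 253) (nat_lit 5) (nat_lit 269) (nat_lit 5) (nat_lit 270) (nat_lit 5) (nat_lit 392) (nat_lit 383) (nat_lit 245)) (XT.nd (nat_lit 78) (nat_lit 1216) (nat_lit 0) (XT.lf (nat_lit 0) (nat_lit 35267681445) (nat_lit 1216) (nat_lit 6306452098) (nat_lit 76) (nat_lit 1266656416) (nat_lit 254) (nat_lit 5) (nat_lit 270) (nat_lit 5) (nat_lit 255) (nat_lit 5) (nat_lit 393) (nat_lit 383) (nat_lit 244)) (XT.lf (nat_lit 0) (nat_lit 31229524845) (nat_lit 1216) (nat_lit 10761165590) (nat_lit 1292) (nat_lit 2008393987) (nat_lit 238) (nat_lit 5) (nat_lit 254) (nat_lit 5) (nat_lit 255) (nat_lit 5) (nat_lit 394) (nat_lit 383) (nat_lit 243))))) (XT.nd (nat_lit 234) (nat_lit 1596) (nat_lit 0) (XT.nd (nat_lit 78) (nat_lit 1216) (nat_lit 0) (XT.lf (nat_lit 0) (nat_lit 4282572441) (nat_lit 684) (nat_lit 19388297758) (nat_lit 76) (nat_lit 21527633891)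 (nat_lit 229) (nat_lit 5) (nat_lit 238) (nat_lit 5) (nat_lit 230) (nat_lit 5) (nat_lit 395) (nat_lit 383) (nat_lit 242)) (XT.nd (nat_lit 78) (nat_lit 608) (nat_lit 0) (XT.lf (nat_lit 0) (nat_lit 11368180032) (nat_lit 684) (nat_lit 26135789366) (nat_lit 76) (nat_lit 8937681385) (nat_lit 221) (nat_lit 5) (nat_lit 230) (nat_lit 5) (nat_lit 222) (nat_lit 5) (nat_lit 396) (nat_lit 383) (nat_lit 241)) (XT.lf (nat_lit 0) (nat_lit 14691138492) (nat_lit 608) (nat_lit 4694968469) (nat_lit 684) (nat_lit 28343508089) (nat_lit 213) (nat_lit 5) (nat_lit 221) (nat_lit 5) (nat_lit 222) (nat_lit 5) (nat_lit 397) (nat_lit 383) (nat_lit 240)))) (XT.nd (nat_lit 156) (nat_lit 532) (nat_lit 0) (XT.nd (nat_lit 78) (nat_lit 532) (nat_lit 0) (XT.lf (nat_lit 0) (nat_lit 8913345591) (nat_lit 532) (nat_lit 19531475008) (nat_lit 608) (nat_lit 20617961561) (nat_lit 206) (nat_lit 5) (nat_lit 213) (nat_lit 5) (nat_lit 214)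 (nat_lit 5) (nat_lit 398) (nat_lit 383) (nat_lit 239)) (XT.lf (nat_lit 0) (nat_lit 3063342870) (nat_lit 532) (nat_lit 35452916103) (nat_lit 608) (nat_lit 11929556259) (nat_lit 199) (nat_lit 5) (nat_lit 206) (nat_lit 5) (nat_lit 207) (nat_lit 5) (nat_lit 399) (nat_lit 383) (nat_lit 238))) (XT.nd (nat_lit 78) (nat_lit 532) (nat_lit 0) (XT.lf (nat_lit 0) (nat_lit 49071238444) (nat_lit 532) (nat_lit 625280995) (nat_lit 608) (nat_lit 2183324229) (nat_lit 199) (nat_lit 5) (nat_lit 206) (nat_lit 5) (nat_lit 207) (nat_lit 5) (nat_lit 400) (nat_lit 383) (nat_lit 237)) (XT.lf (nat_lit 0) (nat_lit 8671059086) (nat_lit 532) (nat_lit 8933807636) (nat_lit 76) (nat_lit 35755048568) (nat_lit 192) (nat_lit 5) (nat_lit 199) (nat_lit 5) (nat_lit 193) (nat_lit 5) (nat_lit 401) (nat_lit 383) (nat_lit 236))))))) (XT.nd (nat_lit 936) (nat_lit 3420) (nat_lit 0) (XT.nd (nat_lit 468) (nat_lit 1976) (nat_lit 0) (XT.nd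 (nat_lit 234) (nat_lit 1292) (nat_lit 0) (XT.nd (nat_lit 78) (nat_lit 912) (nat_lit 0) (XT.lf (nat_lit 0) (nat_lit 20626815868) (nat_lit 608) (nat_lit 15173037974) (nat_lit 76) (nat_lit 19095374944) (nat_lit 185) (nat_lit 5) (nat_lit 193) (nat_lit 5) (nat_lit 186) (nat_lit 5) (nat_lit 402) (nat_lit 383) (nat_lit 235)) (XT.nd (nat_lit 78) (nat_lit 456) (nat_lit 0) (XT.lf (nat_lit 0) (nat_lit 33796030150) (nat_lit 532) (nat_lit 21506773923) (nat_lit 76) (nat_lit 1186034814) (nat_lit 179) (nat_lit 5) (nat_lit 186) (nat_lit 5) (nat_lit 180) (nat_lit 5) (nat_lit 403) (nat_lit 383) (nat_lit 234)) (XT.lf (nat_lit 0) (nat_lit 30024216065) (nat_lit 456) (nat_lit 18404370564) (nat_lit 532) (nat_lit 9709397393) (nat_lit 173) (nat_lit 5) (nat_lit 179) (nat_lit 5) (nat_lit 180) (nat_lit 5) (nat_lit 404) (nat_lit 383) (nat_lit 233)))) (XT.nd (nat_lit 78) (nat_lit 836) (nat_lit 0) (XT.lf (nat_lit 0) (nat_lit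 4509883217) (nat_lit 456) (nat_lit 34888936062) (nat_lit 76) (nat_lit 20449739046) (nat_lit 167) (nat_lit 5) (nat_lit 173) (nat_lit 5) (nat_lit 168) (nat_lit 5) (nat_lit 405) (nat_lit 383) (nat_lit 232)) (XT.nd (nat_lit 78) (nat_lit 380) (nat_lit 0) (XT.lf (nat_lit 0) (nat_lit 19733370169) (nat_lit 456) (nat_lit 172902873) (nat_lit 532) (nat_lit 41715496663) (nat_lit 161) (nat_lit 5) (nat_lit 167) (nat_lit 5) (nat_lit 168) (nat_lit 5) (nat_lit 406) (nat_lit 383) (nat_lit 231)) (XT.lf (nat_lit 0) (nat_lit 14219412564) (nat_lit 380) (nat_lit 22744168706) (nat_lit 456) (nat_lit 26493328234) (nat_lit 156) (nat_lit 5) (nat_lit 161) (nat_lit 5) (nat_lit 162) (nat_lit 5) (nat_lit 407) (nat_lit 383) (nat_lit 230))))) (XT.nd (nat_lit 234) (nat_lit 1140) (nat_lit 0) (XT.nd (nat_lit 78) (nat_lit 456) (nat_lit 0) (XT.lf (nat_lit 0) (nat_lit 8620605344) (nat_lit 380) (nat_lit 46946235319) (nat_lit 456) (nat_lit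 9796173834) (nat_lit 151) (nat_lit 5) (nat_lit 156) (nat_lit 5) (nat_lit 157) (nat_lit 5) (nat_lit 408) (nat_lit 383) (nat_lit 229)) (XT.nd (nat_lit 78) (nat_lit 0) (nat_lit 0) (XT.lf (nat_lit 0) (nat_lit 2793705181) (nat_lit 380) (nat_lit 5557070285) (nat_lit 456) (nat_lit 58988442403) (nat_lit 145) (nat_lit 5) (nat_lit 150) (nat_lit 5) (nat_lit 151) (nat_lit 5) (nat_lit 409) (nat_lit 383) (nat_lit 228)) (XT.lf (nat_lit 0) (nat_lit 28156261191) (nat_lit 456) (nat_lit 3376476518) (nat_lit 76) (nat_lit 37849970966) (nat_lit 145) (nat_lit 5) (nat_lit 151) (nat_lit 5) (nat_lit 146) (nat_lit 5) (nat_lit 410) (nat_lit 383) (nat_lit 227)))) (XT.nd (nat_lit 78) (nat_lit 760) (nat_lit 0) (XT.lf (nat_lit 0) (nat_lit 49721091669) (nat_lit 456) (nat_lit 9626274584) (nat_lit 76) (nat_lit 12157936303) (nat_lit 140) (nat_lit 5) (nat_lit 146) (nat_lit 5) (nat_lit 141) (nat_lit 5) (nat_lit 411) (nat_lit 383)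 (nat_lit 226)) (XT.nd (nat_lit 78) (nat_lit 456) (nat_lit 0) (XT.lf (nat_lit 0) (nat_lit 57536033379) (nat_lit 304) (nat_lit 15732428181) (nat_lit 380) (nat_lit 438436255) (nat_lit 136) (nat_lit 5) (nat_lit 140) (nat_lit 5) (nat_lit 141) (nat_lit 5) (nat_lit 412) (nat_lit 383) (nat_lit 225)) (XT.lf (nat_lit 0) (nat_lit 22450986304) (nat_lit 456) (nat_lit 23228795798) (nat_lit 76) (nat_lit 30305299402) (nat_lit 130) (nat_lit 5) (nat_lit 136) (nat_lit 5) (nat_lit 131) (nat_lit 5) (nat_lit 413) (nat_lit 383) (nat_lit 224)))))) (XT.nd (nat_lit 468) (nat_lit 1520) (nat_lit 0) (XT.nd (nat_lit 234) (nat_lit 912) (nat_lit 0) (XT.nd (nat_lit 78) (nat_lit 684) (nat_lit 0) (XT.lf (nat_lit 0) (nat_lit 47266627333) (nat_lit 380) (nat_lit 30497541990) (nat_lit 76) (nat_lit 589150925) (nat_lit 126) (nat_lit 5) (nat_lit 131) (nat_lit 5) (nat_lit 127) (nat_lit 5) (nat_lit 414) (nat_lit 383) (nat_lit 223)) (XT.nd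 (nat_lit 78) (nat_lit 380) (nat_lit 0) (XT.lf (nat_lit 0) (nat_lit 42510437490) (nat_lit 304) (nat_lit 31921829216) (nat_lit 380) (nat_lit 6374428255) (nat_lit 122) (nat_lit 5) (nat_lit 126) (nat_lit 5) (nat_lit 127) (nat_lit 5) (nat_lit 415) (nat_lit 383) (nat_lit 222)) (XT.lf (nat_lit 0) (nat_lit 20026275911) (nat_lit 380) (nat_lit 46561395644) (nat_lit 76) (nat_lit 16764379532) (nat_lit 117) (nat_lit 5) (nat_lit 122) (nat_lit 5) (nat_lit 118) (nat_lit 5) (nat_lit 416) (nat_lit 383) (nat_lit 221)))) (XT.nd (nat_lit 78) (nat_lit 608) (nat_lit 0) (XT.lf (nat_lit 0) (nat_lit 30623697088) (nat_lit 304) (nat_lit 18005547871) (nat_lit 380) (nat_lit 37363115247) (nat_lit 113) (nat_lit 5) (nat_lit 117) (nat_lit 5) (nat_lit 118) (nat_lit 5) (nat_lit 417) (nat_lit 383) (nat_lit 220)) (XT.nd (nat_lit 78) (nat_lit 380) (nat_lit 0) (XT.lf (nat_lit 0) (nat_lit 24034972127) (nat_lit 228) (nat_lit 55657947155)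 (nat_lit 304) (nat_lit 9040849228) (nat_lit 110) (nat_lit 5) (nat_lit 113) (nat_lit 5) (nat_lit 114) (nat_lit 5) (nat_lit 418) (nat_lit 383) (nat_lit 219)) (XT.lf (nat_lit 0) (nat_lit 16911643373) (nat_lit 304) (nat_lit 4300153256) (nat_lit 380) (nat_lit 70366937787) (nat_lit 105) (nat_lit 5) (nat_lit 109) (nat_lit 5) (nat_lit 110) (nat_lit 5) (nat_lit 419) (nat_lit 383) (nat_lit 218))))) (XT.nd (nat_lit 234) (nat_lit 988) (nat_lit 0) (XT.nd (nat_lit 78) (nat_lit 304) (nat_lit 0) (XT.lf (nat_lit 0) (nat_lit 9006854173) (nat_lit 228) (nat_lit 45019487127) (nat_lit 304) (nat_lit 40499834946) (nat_lit 102) (nat_lit 5) (nat_lit 105) (nat_lit 5) (nat_lit 106) (nat_lit 5) (nat_lit 420) (nat_lit 383) (nat_lit 217)) (XT.nd (nat_lit 78) (nat_lit 76) (nat_lit 0) (XT.lf (nat_lit 0) (nat_lit 707727175) (nat_lit 228) (nat_lit 88677983940) (nat_lit 304) (nat_lit 8208156481) (nat_lit 99) (nat_lit 5) (nat_lit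 102) (nat_lit 5) (nat_lit 103) (nat_lit 5) (nat_lit 421) (nat_lit 383) (nat_lit 216)) (XT.lf (nat_lit 0) (nat_lit 26538469594) (nat_lit 304) (nat_lit 8468034991) (nat_lit 76) (nat_lit 65760773700) (nat_lit 98) (nat_lit 5) (nat_lit 102) (nat_lit 5) (nat_lit 99) (nat_lit 5) (nat_lit 422) (nat_lit 383) (nat_lit 215)))) (XT.nd (nat_lit 156) (nat_lit 532) (nat_lit 0) (XT.nd (nat_lit 78) (nat_lit 228) (nat_lit 0) (XT.lf (nat_lit 0) (nat_lit 63893234859) (nat_lit 304) (nat_lit 18323235175) (nat_lit 76) (nat_lit 21849234776) (nat_lit 95) (nat_lit 5) (nat_lit 99) (nat_lit 5) (nat_lit 96) (nat_lit 5) (nat_lit 423) (nat_lit 383) (nat_lit 214)) (XT.lf (nat_lit 0) (nat_lit 78488989446) (nat_lit 228) (nat_lit 25821087346) (nat_lit 304) (nat_lit 3183146025) (nat_lit 92) (nat_lit 5) (nat_lit 95) (nat_lit 5) (nat_lit 96) (nat_lit 5) (nat_lit 424) (nat_lit 383) (nat_lit 213))) (XT.nd (nat_lit 78) (nat_lit 228)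 (nat_lit 0) (XT.lf (nat_lit 0) (nat_lit 36159235197) (nat_lit 304) (nat_lit 40922515560) (nat_lit 76) (nat_lit 33964103098) (nat_lit 88) (nat_lit 5) (nat_lit 92) (nat_lit 5) (nat_lit 89) (nat_lit 5) (nat_lit 425) (nat_lit 383) (nat_lit 212)) (XT.lf (nat_lit 0) (nat_lit 60937269665) (nat_lit 228) (nat_lit 17612723913) (nat_lit 304) (nat_lit 36190764938) (nat_lit 85) (nat_lit 5) (nat_lit 88) (nat_lit 5) (nat_lit 89) (nat_lit 5) (nat_lit 426) (nat_lit 383) (nat_lit 211))))))))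
noncomputable def xc112 : XT := (XT.nd (nat_lit 51480) (nat_lit 0) (nat_lit 228) (XT.nd (nat_lit 50544) (nat_lit 0) (nat_lit 7144) (XT.nd (nat_lit 50076) (nat_lit 0) (nat_lit 12920) (XT.nd (nat_lit 49842) (nat_lit 0) (nat_lit 12768) (XT.nd (nat_lit 78) (nat_lit 228) (nat_lit 0) (XT.lf (nat_lit 0) (nat_lit 5708752518) (nat_lit 228) (nat_lit 67946981769) (nat_lit 76) (nat_lit 44922728731) (nat_lit 82) (nat_lit 5) (nat_lit 85) (nat_lit 5) (nat_lit 83) (nat_lit 5) (nat_lit 427) (nat_lit 383) (nat_lit 210)) (XT.nd (nat_lit 49686) (nat_lit 0) (nat_lit 12692) (XT.lf (nat_lit 0) (nat_lit 39031924072) (nat_lit 228) (nat_lit 11040743626) (nat_lit 304) (nat_lit 72491098482) (nat_lit 79) (nat_lit 5) (nat_lit 82) (nat_lit 5) (nat_lit 83) (nat_lit 5) (nat_lit 428) (nat_lit 383) (nat_lit 209)) (XT.lf (nat_lit 0) (nat_lit 3365103097) (nat_lit 1292) (nat_lit 7033787398) (nat_lit 1292) (nat_lit 7033787398) (nat_lit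 246) (nat_lit 3) (nat_lit 263) (nat_lit 3) (nat_lit 263) (nat_lit 5) (nat_lit 384) (nat_lit 384) (nat_lit 252)))) (XT.nd (nat_lit 78) (nat_lit 0) (nat_lit 0) (XT.lf (nat_lit 0) (nat_lit 7190709380) (nat_lit 1216) (nat_lit 21582647823) (nat_lit 1292) (nat_lit 6954828128) (nat_lit 247) (nat_lit 5) (nat_lit 263) (nat_lit 5) (nat_lit 264) (nat_lit 5) (nat_lit 385) (nat_lit 384) (nat_lit 251)) (XT.nd (nat_lit 78) (nat_lit 0) (nat_lit 76) (XT.lf (nat_lit 76) (nat_lit 7362648244) (nat_lit 0) (nat_lit 732929891) (nat_lit 1292) (nat_lit 28525940370) (nat_lit 248) (nat_lit 5) (nat_lit 247) (nat_lit 5) (nat_lit 264) (nat_lit 5) (nat_lit 386) (nat_lit 384) (nat_lit 250)) (XT.lf (nat_lit 76) (nat_lit 379366981) (nat_lit 0) (nat_lit 9164979112) (nat_lit 1292) (nat_lit 28000214819) (nat_lit 249) (nat_lit 5) (nat_lit 248) (nat_lit 5) (nat_lit 265) (nat_lit 5) (nat_lit 387) (nat_lit 384) (nat_lit 249))))) (XT.nd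 (nat_lit 234) (nat_lit 0) (nat_lit 152) (XT.nd (nat_lit 78) (nat_lit 0) (nat_lit 76) (XT.lf (nat_lit 0) (nat_lit 11568239308) (nat_lit 1216) (nat_lit 6603681648) (nat_lit 1292) (nat_lit 20326756022) (nat_lit 249) (nat_lit 5) (nat_lit 265) (nat_lit 5) (nat_lit 266) (nat_lit 5) (nat_lit 388) (nat_lit 384) (nat_lit 248)) (XT.nd (nat_lit 78) (nat_lit 0) (nat_lit 76) (XT.lf (nat_lit 0) (nat_lit 14143962670) (nat_lit 1216) (nat_lit 13708902599) (nat_lit 1292) (nat_lit 11634116555) (nat_lit 250) (nat_lit 5) (nat_lit 266) (nat_lit 5) (nat_lit 267) (nat_lit 5) (nat_lit 389) (nat_lit 384) (nat_lit 247)) (XT.lf (nat_lit 0) (nat_lit 17306362558) (nat_lit 1216) (nat_lit 20944579271) (nat_lit 1292) (nat_lit 2260025316) (nat_lit 251) (nat_lit 5) (nat_lit 267) (nat_lit 5) (nat_lit 268) (nat_lit 5) (nat_lit 390) (nat_lit 384) (nat_lit 246)))) (XT.nd (nat_lit 78) (nat_lit 0) (nat_lit 76) (XT.lf (nat_lit 76) (nat_lit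 13181416193) (nat_lit 0) (nat_lit 7991385446) (nat_lit 1292) (nat_lit 20396974369) (nat_lit 252) (nat_lit 5) (nat_lit 251) (nat_lit 5) (nat_lit 268) (nat_lit 5) (nat_lit 391) (nat_lit 384) (nat_lit 245)) (XT.nd (nat_lit 78) (nat_lit 0) (nat_lit 76) (XT.lf (nat_lit 76) (nat_lit 6672480981) (nat_lit 0) (nat_lit 19066319371) (nat_lit 1292) (nat_lit 16927539594) (nat_lit 253) (nat_lit 5) (nat_lit 252) (nat_lit 5) (nat_lit 269) (nat_lit 5) (nat_lit 392) (nat_lit 384) (nat_lit 244)) (XT.lf (nat_lit 76) (nat_lit 62778670) (nat_lit 0) (nat_lit 30964811856) (nat_lit 1292) (nat_lit 12775308488) (nat_lit 254) (nat_lit 5) (nat_lit 253) (nat_lit 5) (nat_lit 270) (nat_lit 5) (nat_lit 393) (nat_lit 384) (nat_lit 243)))))) (XT.nd (nat_lit 468) (nat_lit 2508) (nat_lit 0) (XT.nd (nat_lit 234) (nat_lit 1748) (nat_lit 0) (XT.nd (nat_lit 78) (nat_lit 1900) (nat_lit 0) (XT.lf (nat_lit 0) (nat_lit 37150849677) (nat_lit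 1216) (nat_lit 6517544338) (nat_lit 76) (nat_lit 1310792735) (nat_lit 254) (nat_lit 5) (nat_lit 270) (nat_lit 5) (nat_lit 255) (nat_lit 5) (nat_lit 394) (nat_lit 384) (nat_lit 242)) (XT.nd (nat_lit 78) (nat_lit 684) (nat_lit 0) (XT.lf (nat_lit 0) (nat_lit 32892243709) (nat_lit 1216) (nat_lit 11313034605) (nat_lit 1292) (nat_lit 1990261888) (nat_lit 238) (nat_lit 5) (nat_lit 254) (nat_lit 5) (nat_lit 255) (nat_lit 5) (nat_lit 395) (nat_lit 384) (nat_lit 241)) (XT.lf (nat_lit 0) (nat_lit 4608265548) (nat_lit 684) (nat_lit 20253581350) (nat_lit 76) (nat_lit 22593192152) (nat_lit 229) (nat_lit 5) (nat_lit 238) (nat_lit 5) (nat_lit 230) (nat_lit 5) (nat_lit 396) (nat_lit 384) (nat_lit 240)))) (XT.nd (nat_lit 78) (nat_lit 1140) (nat_lit 0) (XT.lf (nat_lit 0) (nat_lit 12043754782) (nat_lit 684) (nat_lit 27338116045) (nat_lit 76) (nat_lit 9378606275) (nat_lit 221) (nat_lit 5) (nat_lit 230) (nat_lit 5)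 (nat_lit 222) (nat_lit 5) (nat_lit 397) (nat_lit 384) (nat_lit 239)) (XT.nd (nat_lit 78) (nat_lit 532) (nat_lit 0) (XT.lf (nat_lit 0) (nat_lit 15527163802) (nat_lit 608) (nat_lit 4931286501) (nat_lit 684) (nat_lit 29654515076) (nat_lit 213) (nat_lit 5) (nat_lit 221) (nat_lit 5) (nat_lit 222) (nat_lit 5) (nat_lit 398) (nat_lit 384) (nat_lit 238)) (XT.lf (nat_lit 0) (nat_lit 9460628031) (nat_lit 532) (nat_lit 20505527438) (nat_lit 608) (nat_lit 21546755571) (nat_lit 206) (nat_lit 5) (nat_lit 213) (nat_lit 5) (nat_lit 214) (nat_lit 5) (nat_lit 399) (nat_lit 384) (nat_lit 237))))) (XT.nd (nat_lit 234) (nat_lit 1444) (nat_lit 0) (XT.nd (nat_lit 78) (nat_lit 532) (nat_lit 0) (XT.lf (nat_lit 0) (nat_lit 3318112795) (nat_lit 532) (nat_lit 37219333963) (nat_lit 608) (nat_lit 12427762359) (nat_lit 199) (nat_lit 5) (nat_lit 206) (nat_lit 5) (nat_lit 207) (nat_lit 5) (nat_lit 400) (nat_lit 384) (nat_lit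 236)) (XT.nd (nat_lit 78) (nat_lit 532) (nat_lit 0) (XT.lf (nat_lit 0) (nat_lit 51621564920) (nat_lit 532) (nat_lit 650613669) (nat_lit 608) (nat_lit 2198898334) (nat_lit 199) (nat_lit 5) (nat_lit 206) (nat_lit 5) (nat_lit 207) (nat_lit 5) (nat_lit 401) (nat_lit 384) (nat_lit 235)) (XT.lf (nat_lit 0) (nat_lit 9193000788) (nat_lit 532) (nat_lit 9282092249) (nat_lit 76) (nat_lit 37550134976) (nat_lit 192) (nat_lit 5) (nat_lit 199) (nat_lit 5) (nat_lit 193) (nat_lit 5) (nat_lit 402) (nat_lit 384) (nat_lit 234)))) (XT.nd (nat_lit 78) (nat_lit 912) (nat_lit 0) (XT.lf (nat_lit 0) (nat_lit 21743356044) (nat_lit 608) (nat_lit 15833622846) (nat_lit 76) (nat_lit 20060425470) (nat_lit 185) (nat_lit 5) (nat_lit 193) (nat_lit 5) (nat_lit 186) (nat_lit 5) (nat_lit 403) (nat_lit 384) (nat_lit 233)) (XT.nd (nat_lit 78) (nat_lit 456) (nat_lit 0) (XT.lf (nat_lit 0) (nat_lit 35568016453) (nat_lit 532) (nat_lit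 22484493334) (nat_lit 76) (nat_lit 1258277040) (nat_lit 179) (nat_lit 5) (nat_lit 186) (nat_lit 5) (nat_lit 180) (nat_lit 5) (nat_lit 404) (nat_lit 384) (nat_lit 232)) (XT.lf (nat_lit 0) (nat_lit 31620247916) (nat_lit 456) (nat_lit 19308950756) (nat_lit 532) (nat_lit 10113281964) (nat_lit 173) (nat_lit 5) (nat_lit 179) (nat_lit 5) (nat_lit 180) (nat_lit 5) (nat_lit 405) (nat_lit 384) (nat_lit 231))))))) (XT.nd (nat_lit 936) (nat_lit 2660) (nat_lit 0) (XT.nd (nat_lit 468) (nat_lit 2128) (nat_lit 0) (XT.nd (nat_lit 234) (nat_lit 836) (nat_lit 0) (XT.nd (nat_lit 78) (nat_lit 836) (nat_lit 0) (XT.lf (nat_lit 0) (nat_lit 4812621388) (nat_lit 456) (nat_lit 36537529773) (nat_lit 76) (nat_lit 21488492697) (nat_lit 167) (nat_lit 5) (nat_lit 173) (nat_lit 5) (nat_lit 168) (nat_lit 5) (nat_lit 406) (nat_lit 384) (nat_lit 230)) (XT.nd (nat_lit 78) (nat_lit 380) (nat_lit 0) (XT.lf (nat_lit 0) (nat_lit 20813144160)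 (nat_lit 456) (nat_lit 162903246) (nat_lit 532) (nat_lit 43724553095) (nat_lit 161) (nat_lit 5) (nat_lit 167) (nat_lit 5) (nat_lit 168) (nat_lit 5) (nat_lit 407) (nat_lit 384) (nat_lit 229)) (XT.lf (nat_lit 0) (nat_lit 15022838711) (nat_lit 380) (nat_lit 23860896015) (nat_lit 456) (nat_lit 27743838290) (nat_lit 156) (nat_lit 5) (nat_lit 161) (nat_lit 5) (nat_lit 162) (nat_lit 5) (nat_lit 408) (nat_lit 384) (nat_lit 228)))) (XT.nd (nat_lit 78) (nat_lit 456) (nat_lit 0) (XT.lf (nat_lit 0) (nat_lit 9143369096) (nat_lit 380) (nat_lit 49271429940) (nat_lit 456) (nat_lit 10214256045) (nat_lit 151) (nat_lit 5) (nat_lit 156) (nat_lit 5) (nat_lit 157) (nat_lit 5) (nat_lit 409) (nat_lit 384) (nat_lit 227)) (XT.nd (nat_lit 78) (nat_lit 0) (nat_lit 0) (XT.lf (nat_lit 0) (nat_lit 3023874342) (nat_lit 380) (nat_lit 5812287625) (nat_lit 456) (nat_lit 61867961345) (nat_lit 145) (nat_lit 5) (nat_lit 150) (nat_lit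 5) (nat_lit 151) (nat_lit 5) (nat_lit 410) (nat_lit 384) (nat_lit 226)) (XT.lf (nat_lit 0) (nat_lit 29628898366) (nat_lit 456) (nat_lit 3457374858) (nat_lit 76) (nat_lit 39763607095) (nat_lit 145) (nat_lit 5) (nat_lit 151) (nat_lit 5) (nat_lit 146) (nat_lit 5) (nat_lit 411) (nat_lit 384) (nat_lit 225))))) (XT.nd (nat_lit 234) (nat_lit 988) (nat_lit 0) (XT.nd (nat_lit 78) (nat_lit 760) (nat_lit 0) (XT.lf (nat_lit 0) (nat_lit 52269924090) (nat_lit 456) (nat_lit 10020507908) (nat_lit 76) (nat_lit 12788234193) (nat_lit 140) (nat_lit 5) (nat_lit 146) (nat_lit 5) (nat_lit 141) (nat_lit 5) (nat_lit 412) (nat_lit 384) (nat_lit 224)) (XT.nd (nat_lit 78) (nat_lit 456) (nat_lit 0) (XT.lf (nat_lit 0) (nat_lit 60497419310) (nat_lit 304) (nat_lit 16495066821) (nat_lit 380) (nat_lit 397921238) (nat_lit 136) (nat_lit 5) (nat_lit 140) (nat_lit 5) (nat_lit 141) (nat_lit 5) (nat_lit 413) (nat_lit 384) (nat_lit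 223)) (XT.lf (nat_lit 0) (nat_lit 23632873370) (nat_lit 456) (nat_lit 24305320190) (nat_lit 76) (nat_lit 31844345896) (nat_lit 130) (nat_lit 5) (nat_lit 136) (nat_lit 5) (nat_lit 131) (nat_lit 5) (nat_lit 414) (nat_lit 384) (nat_lit 222)))) (XT.nd (nat_lit 78) (nat_lit 684) (nat_lit 0) (XT.lf (nat_lit 0) (nat_lit 49687505715) (nat_lit 380) (nat_lit 31938445406) (nat_lit 76) (nat_lit 643293501) (nat_lit 126) (nat_lit 5) (nat_lit 131) (nat_lit 5) (nat_lit 127) (nat_lit 5) (nat_lit 415) (nat_lit 384) (nat_lit 221)) (XT.nd (nat_lit 78) (nat_lit 380) (nat_lit 0) (XT.lf (nat_lit 0) (nat_lit 44717525959) (nat_lit 304) (nat_lit 33491944831) (nat_lit 380) (nat_lit 6635876693) (nat_lit 122) (nat_lit 5) (nat_lit 126) (nat_lit 5) (nat_lit 127) (nat_lit 5) (nat_lit 416) (nat_lit 384) (nat_lit 220)) (XT.lf (nat_lit 0) (nat_lit 21082093815) (nat_lit 380) (nat_lit 48807747307) (nat_lit 76) (nat_lit 17628163987)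 (nat_lit 117) (nat_lit 5) (nat_lit 122) (nat_lit 5) (nat_lit 118) (nat_lit 5) (nat_lit 417) (nat_lit 384) (nat_lit 219)))))) (XT.nd (nat_lit 468) (nat_lit 1216) (nat_lit 0) (XT.nd (nat_lit 234) (nat_lit 532) (nat_lit 0) (XT.nd (nat_lit 78) (nat_lit 608) (nat_lit 0) (XT.lf (nat_lit 0) (nat_lit 32234257628) (nat_lit 304) (nat_lit 18879121261) (nat_lit 380) (nat_lit 39177006405) (nat_lit 113) (nat_lit 5) (nat_lit 117) (nat_lit 5) (nat_lit 118) (nat_lit 5) (nat_lit 418) (nat_lit 384) (nat_lit 218)) (XT.nd (nat_lit 78) (nat_lit 380) (nat_lit 0) (XT.lf (nat_lit 0) (nat_lit 25315119055) (nat_lit 228) (nat_lit 58413607782) (nat_lit 304) (nat_lit 9440183087) (nat_lit 110) (nat_lit 5) (nat_lit 113) (nat_lit 5) (nat_lit 114) (nat_lit 5) (nat_lit 419) (nat_lit 384) (nat_lit 217)) (XT.lf (nat_lit 0) (nat_lit 17834387113) (nat_lit 304) (nat_lit 4487960183) (nat_lit 380) (nat_lit 73833813769) (nat_lit 105)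 (nat_lit 5) (nat_lit 109) (nat_lit 5) (nat_lit 110) (nat_lit 5) (nat_lit 420) (nat_lit 384) (nat_lit 216)))) (XT.nd (nat_lit 78) (nat_lit 304) (nat_lit 0) (XT.lf (nat_lit 0) (nat_lit 9533359444) (nat_lit 228) (nat_lit 47242861810) (nat_lit 304) (nat_lit 42474796207) (nat_lit 102) (nat_lit 5) (nat_lit 105) (nat_lit 5) (nat_lit 106) (nat_lit 5) (nat_lit 421) (nat_lit 384) (nat_lit 215)) (XT.nd (nat_lit 78) (nat_lit 76) (nat_lit 0) (XT.lf (nat_lit 0) (nat_lit 818260741) (nat_lit 228) (nat_lit 93083961333) (nat_lit 304) (nat_lit 8569911939) (nat_lit 99) (nat_lit 5) (nat_lit 102) (nat_lit 5) (nat_lit 103) (nat_lit 5) (nat_lit 422) (nat_lit 384) (nat_lit 214)) (XT.lf (nat_lit 0) (nat_lit 27910824486) (nat_lit 304) (nat_lit 8818954366) (nat_lit 76) (nat_lit 69074490973) (nat_lit 98) (nat_lit 5) (nat_lit 102) (nat_lit 5) (nat_lit 99) (nat_lit 5) (nat_lit 423) (nat_lit 384) (nat_lit 213))))) (XT.nd (nat_lit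 234) (nat_lit 456) (nat_lit 0) (XT.nd (nat_lit 78) (nat_lit 532) (nat_lit 0) (XT.lf (nat_lit 0) (nat_lit 67132095736) (nat_lit 304) (nat_lit 19167919274) (nat_lit 76) (nat_lit 22967640084) (nat_lit 95) (nat_lit 5) (nat_lit 99) (nat_lit 5) (nat_lit 96) (nat_lit 5) (nat_lit 424) (nat_lit 384) (nat_lit 212)) (XT.nd (nat_lit 78) (nat_lit 304) (nat_lit 0) (XT.lf (nat_lit 0) (nat_lit 82482867685) (nat_lit 228) (nat_lit 27085474751) (nat_lit 304) (nat_lit 3298250112) (nat_lit 92) (nat_lit 5) (nat_lit 95) (nat_lit 5) (nat_lit 96) (nat_lit 5) (nat_lit 425) (nat_lit 384) (nat_lit 211)) (XT.lf (nat_lit 0) (nat_lit 38009244687) (nat_lit 304) (nat_lit 42899352589) (nat_lit 76) (nat_lit 35688279930) (nat_lit 88) (nat_lit 5) (nat_lit 92) (nat_lit 5) (nat_lit 89) (nat_lit 5) (nat_lit 426) (nat_lit 384) (nat_lit 210)))) (XT.nd (nat_lit 49842) (nat_lit 0) (nat_lit 12464) (XT.nd (nat_lit 78) (nat_lit 228) (nat_lit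 0) (XT.lf (nat_lit 0) (nat_lit 64051435749) (nat_lit 228) (nat_lit 18466749918) (nat_lit 304) (nat_lit 37958382467) (nat_lit 85) (nat_lit 5) (nat_lit 88) (nat_lit 5) (nat_lit 89) (nat_lit 5) (nat_lit 427) (nat_lit 384) (nat_lit 209)) (XT.lf (nat_lit 0) (nat_lit 6034225392) (nat_lit 228) (nat_lit 71277209090) (nat_lit 76) (nat_lit 47194743663) (nat_lit 82) (nat_lit 5) (nat_lit 85) (nat_lit 5) (nat_lit 83) (nat_lit 5) (nat_lit 428) (nat_lit 384) (nat_lit 208))) (XT.nd (nat_lit 78) (nat_lit 0) (nat_lit 76) (XT.lf (nat_lit 0) (nat_lit 3619406280) (nat_lit 1292) (nat_lit 7341143867) (nat_lit 1292) (nat_lit 7341143867) (nat_lit 246) (nat_lit 3) (nat_lit 263) (nat_lit 3) (nat_lit 263) (nat_lit 5) (nat_lit 385) (nat_lit 385) (nat_lit 250)) (XT.lf (nat_lit 0) (nat_lit 7714218137) (nat_lit 1216) (nat_lit 22569889333) (nat_lit 1292) (nat_lit 7225498724) (nat_lit 247) (nat_lit 5) (nat_lit 263) (nat_lit 5)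 (nat_lit 264) (nat_lit 5) (nat_lit 386) (nat_lit 385) (nat_lit 249))))))))
noncomputable def xc113 : XT := (XT.nd (nat_lit 1872) (nat_lit 5016) (nat_lit 0) (XT.nd (nat_lit 936) (nat_lit 5320) (nat_lit 0) (XT.nd (nat_lit 468) (nat_lit 1976) (nat_lit 0) (XT.nd (nat_lit 234) (nat_lit 0) (nat_lit 228) (XT.nd (nat_lit 78) (nat_lit 0) (nat_lit 76) (XT.lf (nat_lit 76) (nat_lit 7820037503) (nat_lit 0) (nat_lit 837342566) (nat_lit 1292) (nat_lit 29790437761) (nat_lit 248) (nat_lit 5) (nat_lit 247) (nat_lit 5) (nat_lit 264) (nat_lit 5) (nat_lit 387) (nat_lit 385) (nat_lit 248)) (XT.nd (nat_lit 78) (nat_lit 0) (nat_lit 76) (XT.lf (nat_lit 76) (nat_lit 490306064) (nat_lit 0) (nat_lit 9681066762) (nat_lit 1292) (nat_lit 29245859078) (nat_lit 249) (nat_lit 5) (nat_lit 248) (nat_lit 5) (nat_lit 265) (nat_lit 5) (nat_lit 388) (nat_lit 385) (nat_lit 247)) (XT.lf (nat_lit 0) (nat_lit 12288797415) (nat_lit 1216)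 (nat_lit 6841404998) (nat_lit 1292) (nat_lit 21289084249) (nat_lit 249) (nat_lit 5) (nat_lit 265) (nat_lit 5) (nat_lit 266) (nat_lit 5) (nat_lit 389) (nat_lit 385) (nat_lit 246)))) (XT.nd (nat_lit 78) (nat_lit 0) (nat_lit 76) (XT.lf (nat_lit 0) (nat_lit 14986955077) (nat_lit 1216) (nat_lit 14299946897) (nat_lit 1292) (nat_lit 12170298178) (nat_lit 250) (nat_lit 5) (nat_lit 266) (nat_lit 5) (nat_lit 267) (nat_lit 5) (nat_lit 390) (nat_lit 385) (nat_lit 245)) (XT.nd (nat_lit 78) (nat_lit 0) (nat_lit 0) (XT.lf (nat_lit 0) (nat_lit 18301519768) (nat_lit 1216) (nat_lit 21895782656) (nat_lit 1292) (nat_lit 2335263682) (nat_lit 251) (nat_lit 5) (nat_lit 267) (nat_lit 5) (nat_lit 268) (nat_lit 5) (nat_lit 391) (nat_lit 385) (nat_lit 244)) (XT.lf (nat_lit 76) (nat_lit 13933760027) (nat_lit 0) (nat_lit 8422234560) (nat_lit 1292) (nat_lit 21288481994) (nat_lit 252) (nat_lit 5) (nat_lit 251) (nat_lit 5)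 (nat_lit 268) (nat_lit 5) (nat_lit 392) (nat_lit 385) (nat_lit 243))))) (XT.nd (nat_lit 234) (nat_lit 2356) (nat_lit 0) (XT.nd (nat_lit 78) (nat_lit 0) (nat_lit 76) (XT.lf (nat_lit 76) (nat_lit 7100676103) (nat_lit 0) (nat_lit 20044308756) (nat_lit 1292) (nat_lit 17651045567) (nat_lit 253) (nat_lit 5) (nat_lit 252) (nat_lit 5) (nat_lit 269) (nat_lit 5) (nat_lit 393) (nat_lit 385) (nat_lit 242)) (XT.nd (nat_lit 78) (nat_lit 0) (nat_lit 76) (XT.lf (nat_lit 76) (nat_lit 161530756) (nat_lit 0) (nat_lit 32531698687) (nat_lit 1292) (nat_lit 13296339899) (nat_lit 254) (nat_lit 5) (nat_lit 253) (nat_lit 5) (nat_lit 270) (nat_lit 5) (nat_lit 394) (nat_lit 385) (nat_lit 241)) (XT.lf (nat_lit 0) (nat_lit 39117039924) (nat_lit 1216) (nat_lit 6748881542) (nat_lit 76) (nat_lit 1358920579) (nat_lit 254) (nat_lit 5) (nat_lit 270) (nat_lit 5) (nat_lit 255) (nat_lit 5) (nat_lit 395) (nat_lit 385) (nat_lit 240))))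 (XT.nd (nat_lit 78) (nat_lit 1292) (nat_lit 0) (XT.lf (nat_lit 0) (nat_lit 34628685937) (nat_lit 1216) (nat_lit 11891213080) (nat_lit 1292) (nat_lit 1982245006) (nat_lit 238) (nat_lit 5) (nat_lit 254) (nat_lit 5) (nat_lit 255) (nat_lit 5) (nat_lit 396) (nat_lit 385) (nat_lit 239)) (XT.nd (nat_lit 78) (nat_lit 608) (nat_lit 0) (XT.lf (nat_lit 0) (nat_lit 4939871101) (nat_lit 684) (nat_lit 21171810263) (nat_lit 76) (nat_lit 23713034586) (nat_lit 229) (nat_lit 5) (nat_lit 238) (nat_lit 5) (nat_lit 230) (nat_lit 5) (nat_lit 397) (nat_lit 385) (nat_lit 238)) (XT.lf (nat_lit 0) (nat_lit 12743145014) (nat_lit 684) (nat_lit 28610271017) (nat_lit 76) (nat_lit 9842131438) (nat_lit 221) (nat_lit 5) (nat_lit 230) (nat_lit 5) (nat_lit 222) (nat_lit 5) (nat_lit 398) (nat_lit 385) (nat_lit 237)))))) (XT.nd (nat_lit 468) (nat_lit 2584) (nat_lit 0) (XT.nd (nat_lit 234) (nat_lit 1064) (nat_lit 0) (XT.nd (nat_lit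 78) (nat_lit 1064) (nat_lit 0) (XT.lf (nat_lit 0) (nat_lit 16395556808) (nat_lit 608) (nat_lit 5179274507) (nat_lit 684) (nat_lit 31040942946) (nat_lit 213) (nat_lit 5) (nat_lit 221) (nat_lit 5) (nat_lit 222) (nat_lit 5) (nat_lit 399) (nat_lit 385) (nat_lit 236)) (XT.nd (nat_lit 78) (nat_lit 532) (nat_lit 0) (XT.lf (nat_lit 0) (nat_lit 10025827379) (nat_lit 532) (nat_lit 21528516898) (nat_lit 608) (nat_lit 22531481950) (nat_lit 206) (nat_lit 5) (nat_lit 213) (nat_lit 5) (nat_lit 214) (nat_lit 5) (nat_lit 400) (nat_lit 385) (nat_lit 235)) (XT.lf (nat_lit 0) (nat_lit 3576175152) (nat_lit 532) (nat_lit 39074651731) (nat_lit 608) (nat_lit 12960015137) (nat_lit 199) (nat_lit 5) (nat_lit 206) (nat_lit 5) (nat_lit 207) (nat_lit 5) (nat_lit 401) (nat_lit 385) (nat_lit 234)))) (XT.nd (nat_lit 78) (nat_lit 1064) (nat_lit 0) (XT.lf (nat_lit 0) (nat_lit 54290411468) (nat_lit 532) (nat_lit 677764419) (nat_lit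 608) (nat_lit 2223952450) (nat_lit 199) (nat_lit 5) (nat_lit 206) (nat_lit 5) (nat_lit 207) (nat_lit 5) (nat_lit 402) (nat_lit 385) (nat_lit 233)) (XT.nd (nat_lit 78) (nat_lit 532) (nat_lit 0) (XT.lf (nat_lit 0) (nat_lit 9732822027) (nat_lit 532) (nat_lit 9656939929) (nat_lit 76) (nat_lit 39434293862) (nat_lit 192) (nat_lit 5) (nat_lit 199) (nat_lit 5) (nat_lit 193) (nat_lit 5) (nat_lit 403) (nat_lit 385) (nat_lit 232)) (XT.lf (nat_lit 0) (nat_lit 22907802198) (nat_lit 608) (nat_lit 16536354305) (nat_lit 76) (nat_lit 21072772619) (nat_lit 185) (nat_lit 5) (nat_lit 193) (nat_lit 5) (nat_lit 186) (nat_lit 5) (nat_lit 404) (nat_lit 385) (nat_lit 231))))) (XT.nd (nat_lit 234) (nat_lit 1216) (nat_lit 0) (XT.nd (nat_lit 78) (nat_lit 912) (nat_lit 0) (XT.lf (nat_lit 0) (nat_lit 37420961308) (nat_lit 532) (nat_lit 23520174432) (nat_lit 76) (nat_lit 1332928294) (nat_lit 179) (nat_lit 5) (nat_lit 186)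 (nat_lit 5) (nat_lit 180) (nat_lit 5) (nat_lit 405) (nat_lit 385) (nat_lit 230)) (XT.nd (nat_lit 78) (nat_lit 456) (nat_lit 0) (XT.lf (nat_lit 0) (nat_lit 33287265798) (nat_lit 456) (nat_lit 20260213862) (nat_lit 532) (nat_lit 10544945792) (nat_lit 173) (nat_lit 5) (nat_lit 179) (nat_lit 5) (nat_lit 180) (nat_lit 5) (nat_lit 406) (nat_lit 385) (nat_lit 229)) (XT.lf (nat_lit 0) (nat_lit 5123315052) (nat_lit 456) (nat_lit 38277464681) (nat_lit 76) (nat_lit 22577671708) (nat_lit 167) (nat_lit 5) (nat_lit 173) (nat_lit 5) (nat_lit 168) (nat_lit 5) (nat_lit 407) (nat_lit 385) (nat_lit 228)))) (XT.nd (nat_lit 78) (nat_lit 760) (nat_lit 0) (XT.lf (nat_lit 0) (nat_lit 21938250786) (nat_lit 456) (nat_lit 154137050) (nat_lit 532) (nat_lit 45841194898) (nat_lit 161) (nat_lit 5) (nat_lit 167) (nat_lit 5) (nat_lit 168) (nat_lit 5) (nat_lit 408) (nat_lit 385) (nat_lit 227)) (XT.nd (nat_lit 78) (nat_lit 380)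 (nat_lit 0) (XT.lf (nat_lit 0) (nat_lit 15857840528) (nat_lit 380) (nat_lit 25035363830) (nat_lit 456) (nat_lit 29063768203) (nat_lit 156) (nat_lit 5) (nat_lit 161) (nat_lit 5) (nat_lit 162) (nat_lit 5) (nat_lit 409) (nat_lit 385) (nat_lit 226)) (XT.lf (nat_lit 0) (nat_lit 9683742526) (nat_lit 380) (nat_lit 51714940535) (nat_lit 456) (nat_lit 10659910815) (nat_lit 151) (nat_lit 5) (nat_lit 156) (nat_lit 5) (nat_lit 157) (nat_lit 5) (nat_lit 410) (nat_lit 385) (nat_lit 225))))))) (XT.nd (nat_lit 936) (nat_lit 1292) (nat_lit 0) (XT.nd (nat_lit 468) (nat_lit 1824) (nat_lit 0) (XT.nd (nat_lit 234) (nat_lit 1064) (nat_lit 0) (XT.nd (nat_lit 78) (nat_lit 380) (nat_lit 0) (XT.lf (nat_lit 0) (nat_lit 3257139626) (nat_lit 380) (nat_lit 6082370330) (nat_lit 456) (nat_lit 64897955169) (nat_lit 145) (nat_lit 5) (nat_lit 150) (nat_lit 5) (nat_lit 151) (nat_lit 5) (nat_lit 411) (nat_lit 385) (nat_lit 224))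 (XT.nd (nat_lit 78) (nat_lit 380) (nat_lit 0) (XT.lf (nat_lit 0) (nat_lit 31169140668) (nat_lit 456) (nat_lit 3550492594) (nat_lit 76) (nat_lit 41770959859) (nat_lit 145) (nat_lit 5) (nat_lit 151) (nat_lit 5) (nat_lit 146) (nat_lit 5) (nat_lit 412) (nat_lit 385) (nat_lit 223)) (XT.lf (nat_lit 0) (nat_lit 54940361644) (nat_lit 456) (nat_lit 10442548810) (nat_lit 76) (nat_lit 13447964337) (nat_lit 140) (nat_lit 5) (nat_lit 146) (nat_lit 5) (nat_lit 141) (nat_lit 5) (nat_lit 413) (nat_lit 385) (nat_lit 222)))) (XT.nd (nat_lit 78) (nat_lit 760) (nat_lit 0) (XT.lf (nat_lit 0) (nat_lit 63599010694) (nat_lit 304) (nat_lit 17298067082) (nat_lit 380) (nat_lit 361185255) (nat_lit 136) (nat_lit 5) (nat_lit 140) (nat_lit 5) (nat_lit 141) (nat_lit 5) (nat_lit 414) (nat_lit 385) (nat_lit 221)) (XT.nd (nat_lit 78) (nat_lit 304) (nat_lit 0) (XT.lf (nat_lit 0) (nat_lit 24868338129) (nat_lit 456) (nat_lit 25443565431)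 (nat_lit 76) (nat_lit 33458133735) (nat_lit 130) (nat_lit 5) (nat_lit 136) (nat_lit 5) (nat_lit 131) (nat_lit 5) (nat_lit 415) (nat_lit 385) (nat_lit 220)) (XT.lf (nat_lit 0) (nat_lit 52224077840) (nat_lit 380) (nat_lit 33459201071) (nat_lit 76) (nat_lit 697848225) (nat_lit 126) (nat_lit 5) (nat_lit 131) (nat_lit 5) (nat_lit 127) (nat_lit 5) (nat_lit 416) (nat_lit 385) (nat_lit 219))))) (XT.nd (nat_lit 234) (nat_lit 836) (nat_lit 0) (XT.nd (nat_lit 78) (nat_lit 684) (nat_lit 0) (XT.lf (nat_lit 0) (nat_lit 47027385562) (nat_lit 304) (nat_lit 35142981216) (nat_lit 380) (nat_lit 6915722252) (nat_lit 122) (nat_lit 5) (nat_lit 126) (nat_lit 5) (nat_lit 127) (nat_lit 5) (nat_lit 417) (nat_lit 385) (nat_lit 218)) (XT.nd (nat_lit 78) (nat_lit 304) (nat_lit 0) (XT.lf (nat_lit 0) (nat_lit 22185635339) (nat_lit 380) (nat_lit 51174013930) (nat_lit 76) (nat_lit 18532760828) (nat_lit 117) (nat_lit 5) (nat_lit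 122) (nat_lit 5) (nat_lit 118) (nat_lit 5) (nat_lit 418) (nat_lit 385) (nat_lit 217)) (XT.lf (nat_lit 0) (nat_lit 33917966596) (nat_lit 304) (nat_lit 19798856006) (nat_lit 380) (nat_lit 41086637129) (nat_lit 113) (nat_lit 5) (nat_lit 117) (nat_lit 5) (nat_lit 118) (nat_lit 5) (nat_lit 419) (nat_lit 385) (nat_lit 216)))) (XT.nd (nat_lit 78) (nat_lit 608) (nat_lit 0) (XT.lf (nat_lit 0) (nat_lit 26651984597) (nat_lit 228) (nat_lit 61309583654) (nat_lit 304) (nat_lit 9864383985) (nat_lit 110) (nat_lit 5) (nat_lit 113) (nat_lit 5) (nat_lit 114) (nat_lit 5) (nat_lit 420) (nat_lit 385) (nat_lit 215)) (XT.nd (nat_lit 78) (nat_lit 228) (nat_lit 0) (XT.lf (nat_lit 0) (nat_lit 18796094290) (nat_lit 304) (nat_lit 4687686323) (nat_lit 380) (nat_lit 77478818826) (nat_lit 105) (nat_lit 5) (nat_lit 109) (nat_lit 5) (nat_lit 110) (nat_lit 5) (nat_lit 421) (nat_lit 385) (nat_lit 214)) (XT.lf (nat_lit 0) (nat_lit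 10079109105) (nat_lit 228) (nat_lit 49579971184) (nat_lit 304) (nat_lit 44553156891) (nat_lit 102) (nat_lit 5) (nat_lit 105) (nat_lit 5) (nat_lit 106) (nat_lit 5) (nat_lit 422) (nat_lit 385) (nat_lit 213)))))) (XT.nd (nat_lit 50232) (nat_lit 0) (nat_lit 12236) (XT.nd (nat_lit 234) (nat_lit 760) (nat_lit 0) (XT.nd (nat_lit 78) (nat_lit 304) (nat_lit 0) (XT.lf (nat_lit 0) (nat_lit 927334510) (nat_lit 228) (nat_lit 97712833500) (nat_lit 304) (nat_lit 8954278405) (nat_lit 99) (nat_lit 5) (nat_lit 102) (nat_lit 5) (nat_lit 103) (nat_lit 5) (nat_lit 423) (nat_lit 385) (nat_lit 212)) (XT.nd (nat_lit 78) (nat_lit 228) (nat_lit 0) (XT.lf (nat_lit 0) (nat_lit 29347573341) (nat_lit 304) (nat_lit 9194158433) (nat_lit 76) (nat_lit 72551506758) (nat_lit 98) (nat_lit 5) (nat_lit 102) (nat_lit 5) (nat_lit 99) (nat_lit 5) (nat_lit 424) (nat_lit 385) (nat_lit 211)) (XT.lf (nat_lit 0) (nat_lit 70528790440) (nat_lit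 304) (nat_lit 20061482892) (nat_lit 76) (nat_lit 24139553671) (nat_lit 95) (nat_lit 5) (nat_lit 99) (nat_lit 5) (nat_lit 96) (nat_lit 5) (nat_lit 425) (nat_lit 385) (nat_lit 210)))) (XT.nd (nat_lit 78) (nat_lit 532) (nat_lit 0) (XT.lf (nat_lit 0) (nat_lit 86669985009) (nat_lit 228) (nat_lit 28415560767) (nat_lit 304) (nat_lit 3423205053) (nat_lit 92) (nat_lit 5) (nat_lit 95) (nat_lit 5) (nat_lit 96) (nat_lit 5) (nat_lit 426) (nat_lit 385) (nat_lit 209)) (XT.nd (nat_lit 78) (nat_lit 228) (nat_lit 0) (XT.lf (nat_lit 0) (nat_lit 39947845452) (nat_lit 304) (nat_lit 44981473280) (nat_lit 76) (nat_lit 37496251003) (nat_lit 88) (nat_lit 5) (nat_lit 92) (nat_lit 5) (nat_lit 89) (nat_lit 5) (nat_lit 427) (nat_lit 385) (nat_lit 208)) (XT.lf (nat_lit 0) (nat_lit 67315052980) (nat_lit 228) (nat_lit 19365951187) (nat_lit 304) (nat_lit 39818278264) (nat_lit 85) (nat_lit 5) (nat_lit 88) (nat_lit 5) (nat_lit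 89) (nat_lit 5) (nat_lit 428) (nat_lit 385) (nat_lit 207))))) (XT.nd (nat_lit 234) (nat_lit 0) (nat_lit 152) (XT.nd (nat_lit 78) (nat_lit 0) (nat_lit 76) (XT.lf (nat_lit 0) (nat_lit 3878424692) (nat_lit 1292) (nat_lit 7667989813) (nat_lit 1292) (nat_lit 7667989813) (nat_lit 246) (nat_lit 3) (nat_lit 263) (nat_lit 3) (nat_lit 263) (nat_lit 5) (nat_lit 386) (nat_lit 386) (nat_lit 248)) (XT.nd (nat_lit 78) (nat_lit 0) (nat_lit 0) (XT.lf (nat_lit 0) (nat_lit 8248657650) (nat_lit 1216) (nat_lit 23615036062) (nat_lit 1292) (nat_lit 7516868164) (nat_lit 247) (nat_lit 5) (nat_lit 263) (nat_lit 5) (nat_lit 264) (nat_lit 5) (nat_lit 387) (nat_lit 386) (nat_lit 247)) (XT.lf (nat_lit 76) (nat_lit 8291997970) (nat_lit 0) (nat_lit 940675617) (nat_lit 1292) (nat_lit 31133202617) (nat_lit 248) (nat_lit 5) (nat_lit 247) (nat_lit 5) (nat_lit 264) (nat_lit 5) (nat_lit 388) (nat_lit 386) (nat_lit 246)))) (XT.nd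 (nat_lit 156) (nat_lit 0) (nat_lit 152) (XT.nd (nat_lit 78) (nat_lit 0) (nat_lit 76) (XT.lf (nat_lit 76) (nat_lit 598241535) (nat_lit 0) (nat_lit 10217581501) (nat_lit 1292) (nat_lit 30568137082) (nat_lit 249) (nat_lit 5) (nat_lit 248) (nat_lit 5) (nat_lit 265) (nat_lit 5) (nat_lit 389) (nat_lit 386) (nat_lit 245)) (XT.lf (nat_lit 0) (nat_lit 13032168026) (nat_lit 1216) (nat_lit 7099610638) (nat_lit 1292) (nat_lit 22304550185) (nat_lit 249) (nat_lit 5) (nat_lit 265) (nat_lit 5) (nat_lit 266) (nat_lit 5) (nat_lit 390) (nat_lit 386) (nat_lit 244))) (XT.nd (nat_lit 78) (nat_lit 0) (nat_lit 76) (XT.lf (nat_lit 0) (nat_lit 15859472241) (nat_lit 1216) (nat_lit 14929319904) (nat_lit 1292) (nat_lit 12737521292) (nat_lit 250) (nat_lit 5) (nat_lit 266) (nat_lit 5) (nat_lit 267) (nat_lit 5) (nat_lit 391) (nat_lit 386) (nat_lit 243)) (XT.lf (nat_lit 0) (nat_lit 19334363632) (nat_lit 1216) (nat_lit 22903473759)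 (nat_lit 1292) (nat_lit 2417774803) (nat_lit 251) (nat_lit 5) (nat_lit 267) (nat_lit 5) (nat_lit 268) (nat_lit 5) (nat_lit 392) (nat_lit 386) (nat_lit 242))))))))
noncomputable def xc114 : XT := (XT.nd (nat_lit 1872) (nat_lit 2888) (nat_lit 0) (XT.nd (nat_lit 936) (nat_lit 4712) (nat_lit 0) (XT.nd (nat_lit 468) (nat_lit 2812) (nat_lit 0) (XT.nd (nat_lit 234) (nat_lit 1672) (nat_lit 0) (XT.nd (nat_lit 78) (nat_lit 0) (nat_lit 76) (XT.lf (nat_lit 76) (nat_lit 14715049411) (nat_lit 0) (nat_lit 8871718026) (nat_lit 1292) (nat_lit 22236496938) (nat_lit 252) (nat_lit 5) (nat_lit 251) (nat_lit 5) (nat_lit 268) (nat_lit 5) (nat_lit 393) (nat_lit 386) (nat_lit 241)) (XT.nd (nat_lit 78) (nat_lit 0) (nat_lit 76) (XT.lf (nat_lit 76) (nat_lit 7541488659) (nat_lit 0) (nat_lit 21068903710) (nat_lit 1292) (nat_lit 18422150221) (nat_lit 253) (nat_lit 5) (nat_lit 252) (nat_lit 5) (nat_lit 269) (nat_lit 5) (nat_lit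 394) (nat_lit 386) (nat_lit 240)) (XT.lf (nat_lit 76) (nat_lit 256331242) (nat_lit 0) (nat_lit 34175196309) (nat_lit 1292) (nat_lit 13854368674) (nat_lit 254) (nat_lit 5) (nat_lit 253) (nat_lit 5) (nat_lit 270) (nat_lit 5) (nat_lit 395) (nat_lit 386) (nat_lit 239)))) (XT.nd (nat_lit 78) (nat_lit 1900) (nat_lit 0) (XT.lf (nat_lit 0) (nat_lit 41171438645) (nat_lit 1216) (nat_lit 7000575040) (nat_lit 76) (nat_lit 1411073599) (nat_lit 254) (nat_lit 5) (nat_lit 270) (nat_lit 5) (nat_lit 255) (nat_lit 5) (nat_lit 396) (nat_lit 386) (nat_lit 238)) (XT.nd (nat_lit 78) (nat_lit 684) (nat_lit 0) (XT.lf (nat_lit 0) (nat_lit 36443412790) (nat_lit 1216) (nat_lit 12497135860) (nat_lit 1292) (nat_lit 1983824398) (nat_lit 238) (nat_lit 5) (nat_lit 254) (nat_lit 5) (nat_lit 255) (nat_lit 5) (nat_lit 397) (nat_lit 386) (nat_lit 237)) (XT.lf (nat_lit 0) (nat_lit 5278649034) (nat_lit 684) (nat_lit 22144731701) (nat_lit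 76) (nat_lit 24889781849) (nat_lit 229) (nat_lit 5) (nat_lit 238) (nat_lit 5) (nat_lit 230) (nat_lit 5) (nat_lit 398) (nat_lit 386) (nat_lit 236))))) (XT.nd (nat_lit 234) (nat_lit 1064) (nat_lit 0) (XT.nd (nat_lit 78) (nat_lit 1140) (nat_lit 0) (XT.lf (nat_lit 0) (nat_lit 13468467790) (nat_lit 684) (nat_lit 29954842772) (nat_lit 76) (nat_lit 10329335379) (nat_lit 221) (nat_lit 5) (nat_lit 230) (nat_lit 5) (nat_lit 222) (nat_lit 5) (nat_lit 399) (nat_lit 386) (nat_lit 235)) (XT.nd (nat_lit 78) (nat_lit 532) (nat_lit 0) (XT.lf (nat_lit 0) (nat_lit 17298812940) (nat_lit 608) (nat_lit 5439529554) (nat_lit 684) (nat_lit 32505645074) (nat_lit 213) (nat_lit 5) (nat_lit 221) (nat_lit 5) (nat_lit 222) (nat_lit 5) (nat_lit 400) (nat_lit 386) (nat_lit 234)) (XT.lf (nat_lit 0) (nat_lit 10610717791) (nat_lit 532) (nat_lit 22602868446) (nat_lit 608) (nat_lit 23574054778) (nat_lit 206) (nat_lit 5) (nat_lit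 213) (nat_lit 5) (nat_lit 214) (nat_lit 5) (nat_lit 401) (nat_lit 386) (nat_lit 233)))) (XT.nd (nat_lit 78) (nat_lit 532) (nat_lit 0) (XT.lf (nat_lit 0) (nat_lit 3838572770) (nat_lit 532) (nat_lit 41023260572) (nat_lit 608) (nat_lit 13527167512) (nat_lit 199) (nat_lit 5) (nat_lit 206) (nat_lit 5) (nat_lit 207) (nat_lit 5) (nat_lit 402) (nat_lit 386) (nat_lit 232)) (XT.nd (nat_lit 78) (nat_lit 532) (nat_lit 0) (XT.lf (nat_lit 0) (nat_lit 57084540479) (nat_lit 532) (nat_lit 706772882) (nat_lit 608) (nat_lit 2258151614) (nat_lit 199) (nat_lit 5) (nat_lit 206) (nat_lit 5) (nat_lit 207) (nat_lit 5) (nat_lit 403) (nat_lit 386) (nat_lit 231)) (XT.lf (nat_lit 0) (nat_lit 10292180770) (nat_lit 532) (nat_lit 10058828256) (nat_lit 76) (nat_lit 41412042239) (nat_lit 192) (nat_lit 5) (nat_lit 199) (nat_lit 5) (nat_lit 193) (nat_lit 5) (nat_lit 404) (nat_lit 386) (nat_lit 230)))))) (XT.nd (nat_lit 468) (nat_lit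 1976) (nat_lit 0) (XT.nd (nat_lit 234) (nat_lit 1292) (nat_lit 0) (XT.nd (nat_lit 78) (nat_lit 912) (nat_lit 0) (XT.lf (nat_lit 0) (nat_lit 24123286051) (nat_lit 608) (nat_lit 17282492036) (nat_lit 76) (nat_lit 22134870094) (nat_lit 185) (nat_lit 5) (nat_lit 193) (nat_lit 5) (nat_lit 186) (nat_lit 5) (nat_lit 405) (nat_lit 386) (nat_lit 229)) (XT.nd (nat_lit 78) (nat_lit 456) (nat_lit 0) (XT.lf (nat_lit 0) (nat_lit 39359623008) (nat_lit 532) (nat_lit 24615871526) (nat_lit 76) (nat_lit 1410220878) (nat_lit 179) (nat_lit 5) (nat_lit 186) (nat_lit 5) (nat_lit 180) (nat_lit 5) (nat_lit 406) (nat_lit 386) (nat_lit 228)) (XT.lf (nat_lit 0) (nat_lit 35029638598) (nat_lit 456) (nat_lit 21260358857) (nat_lit 532) (nat_lit 11005072655) (nat_lit 173) (nat_lit 5) (nat_lit 179) (nat_lit 5) (nat_lit 180) (nat_lit 5) (nat_lit 407) (nat_lit 386) (nat_lit 227)))) (XT.nd (nat_lit 78) (nat_lit 836) (nat_lit 0)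 (XT.lf (nat_lit 0) (nat_lit 5443029643) (nat_lit 456) (nat_lit 40112479339) (nat_lit 76) (nat_lit 23719937947) (nat_lit 167) (nat_lit 5) (nat_lit 173) (nat_lit 5) (nat_lit 168) (nat_lit 5) (nat_lit 408) (nat_lit 386) (nat_lit 226)) (XT.nd (nat_lit 78) (nat_lit 380) (nat_lit 0) (XT.lf (nat_lit 0) (nat_lit 23111761436) (nat_lit 456) (nat_lit 146504803) (nat_lit 532) (nat_lit 48070138225) (nat_lit 161) (nat_lit 5) (nat_lit 167) (nat_lit 5) (nat_lit 168) (nat_lit 5) (nat_lit 409) (nat_lit 386) (nat_lit 225)) (XT.lf (nat_lit 0) (nat_lit 16726795939) (nat_lit 380) (nat_lit 26270282147) (nat_lit 456) (nat_lit 30455947995) (nat_lit 156) (nat_lit 5) (nat_lit 161) (nat_lit 5) (nat_lit 162) (nat_lit 5) (nat_lit 410) (nat_lit 386) (nat_lit 224))))) (XT.nd (nat_lit 234) (nat_lit 1140) (nat_lit 0) (XT.nd (nat_lit 78) (nat_lit 456) (nat_lit 0) (XT.lf (nat_lit 0) (nat_lit 10243399018) (nat_lit 380) (nat_lit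 54282491732) (nat_lit 456) (nat_lit 11133896802) (nat_lit 151) (nat_lit 5) (nat_lit 156) (nat_lit 5) (nat_lit 157) (nat_lit 5) (nat_lit 411) (nat_lit 386) (nat_lit 223)) (XT.nd (nat_lit 78) (nat_lit 0) (nat_lit 0) (XT.lf (nat_lit 0) (nat_lit 3494437937) (nat_lit 380) (nat_lit 6367866011) (nat_lit 456) (nat_lit 68085343409) (nat_lit 145) (nat_lit 5) (nat_lit 150) (nat_lit 5) (nat_lit 151) (nat_lit 5) (nat_lit 412) (nat_lit 386) (nat_lit 222)) (XT.lf (nat_lit 0) (nat_lit 32780928661) (nat_lit 456) (nat_lit 3655680710) (nat_lit 76) (nat_lit 43876897792) (nat_lit 145) (nat_lit 5) (nat_lit 151) (nat_lit 5) (nat_lit 146) (nat_lit 5) (nat_lit 413) (nat_lit 386) (nat_lit 221)))) (XT.nd (nat_lit 78) (nat_lit 760) (nat_lit 0) (XT.lf (nat_lit 0) (nat_lit 57739027208) (nat_lit 456) (nat_lit 10893034987) (nat_lit 76) (nat_lit 14138791974) (nat_lit 140) (nat_lit 5) (nat_lit 146) (nat_lit 5) (nat_lit 141) (nat_lit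 5) (nat_lit 414) (nat_lit 386) (nat_lit 220)) (XT.nd (nat_lit 78) (nat_lit 456) (nat_lit 0) (XT.lf (nat_lit 0) (nat_lit 66848548910) (nat_lit 304) (nat_lit 18143239752) (nat_lit 380) (nat_lit 327877584) (nat_lit 136) (nat_lit 5) (nat_lit 140) (nat_lit 5) (nat_lit 141) (nat_lit 5) (nat_lit 415) (nat_lit 386) (nat_lit 219)) (XT.lf (nat_lit 0) (nat_lit 26160572350) (nat_lit 456) (nat_lit 26645883595) (nat_lit 76) (nat_lit 35150605540) (nat_lit 130) (nat_lit 5) (nat_lit 136) (nat_lit 5) (nat_lit 131) (nat_lit 5) (nat_lit 416) (nat_lit 386) (nat_lit 218))))))) (XT.nd (nat_lit 50856) (nat_lit 0) (nat_lit 9804) (XT.nd (nat_lit 468) (nat_lit 988) (nat_lit 0) (XT.nd (nat_lit 234) (nat_lit 912) (nat_lit 0) (XT.nd (nat_lit 78) (nat_lit 684) (nat_lit 0) (XT.lf (nat_lit 0) (nat_lit 54882625804) (nat_lit 380) (nat_lit 35063075768) (nat_lit 76) (nat_lit 753049071) (nat_lit 126) (nat_lit 5) (nat_lit 131) (nat_lit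 5) (nat_lit 127) (nat_lit 5) (nat_lit 417) (nat_lit 386) (nat_lit 217)) (XT.nd (nat_lit 78) (nat_lit 380) (nat_lit 0) (XT.lf (nat_lit 0) (nat_lit 49445859879) (nat_lit 304) (nat_lit 36878759884) (nat_lit 380) (nat_lit 7214389747) (nat_lit 122) (nat_lit 5) (nat_lit 126) (nat_lit 5) (nat_lit 127) (nat_lit 5) (nat_lit 418) (nat_lit 386) (nat_lit 216)) (XT.lf (nat_lit 0) (nat_lit 23339757770) (nat_lit 380) (nat_lit 53665484927) (nat_lit 76) (nat_lit 19480431651) (nat_lit 117) (nat_lit 5) (nat_lit 122) (nat_lit 5) (nat_lit 118) (nat_lit 5) (nat_lit 419) (nat_lit 386) (nat_lit 215)))) (XT.nd (nat_lit 78) (nat_lit 608) (nat_lit 0) (XT.lf (nat_lit 0) (nat_lit 35679167499) (nat_lit 304) (nat_lit 20766829356) (nat_lit 380) (nat_lit 43096325361) (nat_lit 113) (nat_lit 5) (nat_lit 117) (nat_lit 5) (nat_lit 118) (nat_lit 5) (nat_lit 420) (nat_lit 386) (nat_lit 214)) (XT.nd (nat_lit 78) (nat_lit 380) (nat_lit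 0) (XT.lf (nat_lit 0) (nat_lit 28049082320) (nat_lit 228) (nat_lit 64352655111) (nat_lit 304) (nat_lit 10314239686) (nat_lit 110) (nat_lit 5) (nat_lit 113) (nat_lit 5) (nat_lit 114) (nat_lit 5) (nat_lit 421) (nat_lit 386) (nat_lit 213)) (XT.lf (nat_lit 0) (nat_lit 19799380021) (nat_lit 304) (nat_lit 4899692526) (nat_lit 380) (nat_lit 81310414524) (nat_lit 105) (nat_lit 5) (nat_lit 109) (nat_lit 5) (nat_lit 110) (nat_lit 5) (nat_lit 422) (nat_lit 386) (nat_lit 212))))) (XT.nd (nat_lit 234) (nat_lit 456) (nat_lit 0) (XT.nd (nat_lit 78) (nat_lit 304) (nat_lit 0) (XT.lf (nat_lit 0) (nat_lit 10645723688) (nat_lit 228) (nat_lit 52036263424) (nat_lit 304) (nat_lit 46739654530) (nat_lit 102) (nat_lit 5) (nat_lit 105) (nat_lit 5) (nat_lit 106) (nat_lit 5) (nat_lit 423) (nat_lit 386) (nat_lit 211)) (XT.nd (nat_lit 78) (nat_lit 76) (nat_lit 0) (XT.lf (nat_lit 0) (nat_lit 1035525029) (nat_lit 228) (nat_lit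 102575503838) (nat_lit 304) (nat_lit 9361965903) (nat_lit 99) (nat_lit 5) (nat_lit 102) (nat_lit 5) (nat_lit 103) (nat_lit 5) (nat_lit 424) (nat_lit 386) (nat_lit 210)) (XT.lf (nat_lit 0) (nat_lit 30852328544) (nat_lit 304) (nat_lit 9594234926) (nat_lit 76) (nat_lit 76200207933) (nat_lit 98) (nat_lit 5) (nat_lit 102) (nat_lit 5) (nat_lit 99) (nat_lit 5) (nat_lit 425) (nat_lit 386) (nat_lit 209)))) (XT.nd (nat_lit 78) (nat_lit 228) (nat_lit 0) (XT.lf (nat_lit 0) (nat_lit 74091592699) (nat_lit 304) (nat_lit 21005752189) (nat_lit 76) (nat_lit 25367875193) (nat_lit 95) (nat_lit 5) (nat_lit 99) (nat_lit 5) (nat_lit 96) (nat_lit 5) (nat_lit 426) (nat_lit 386) (nat_lit 208)) (XT.nd (nat_lit 49998) (nat_lit 0) (nat_lit 11704) (XT.lf (nat_lit 0) (nat_lit 91060603478) (nat_lit 228) (nat_lit 29814399829) (nat_lit 304) (nat_lit 3558122617) (nat_lit 92) (nat_lit 5) (nat_lit 95) (nat_lit 5) (nat_lit 96) (nat_lit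 5) (nat_lit 427) (nat_lit 386) (nat_lit 207)) (XT.lf (nat_lit 0) (nat_lit 4143137852) (nat_lit 1292) (nat_lit 8014916516) (nat_lit 1292) (nat_lit 8014916516) (nat_lit 246) (nat_lit 3) (nat_lit 263) (nat_lit 3) (nat_lit 263) (nat_lit 5) (nat_lit 387) (nat_lit 387) (nat_lit 246)))))) (XT.nd (nat_lit 468) (nat_lit 1976) (nat_lit 0) (XT.nd (nat_lit 234) (nat_lit 0) (nat_lit 152) (XT.nd (nat_lit 78) (nat_lit 0) (nat_lit 0) (XT.lf (nat_lit 0) (nat_lit 8795991762) (nat_lit 1216) (nat_lit 24720189010) (nat_lit 1292) (nat_lit 7829305226) (nat_lit 247) (nat_lit 5) (nat_lit 263) (nat_lit 5) (nat_lit 264) (nat_lit 5) (nat_lit 388) (nat_lit 387) (nat_lit 245)) (XT.nd (nat_lit 78) (nat_lit 0) (nat_lit 76) (XT.lf (nat_lit 76) (nat_lit 8780029697) (nat_lit 0) (nat_lit 1043460802) (nat_lit 1292) (nat_lit 32556749794) (nat_lit 248) (nat_lit 5) (nat_lit 247) (nat_lit 5) (nat_lit 264) (nat_lit 5) (nat_lit 389) (nat_lit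 387) (nat_lit 244)) (XT.lf (nat_lit 76) (nat_lit 703818163) (nat_lit 0) (nat_lit 10776044614) (nat_lit 1292) (nat_lit 31969546249) (nat_lit 249) (nat_lit 5) (nat_lit 248) (nat_lit 5) (nat_lit 265) (nat_lit 5) (nat_lit 390) (nat_lit 387) (nat_lit 243)))) (XT.nd (nat_lit 78) (nat_lit 0) (nat_lit 76) (XT.lf (nat_lit 0) (nat_lit 13800720409) (nat_lit 1216) (nat_lit 7378523497) (nat_lit 1292) (nat_lit 23375343884) (nat_lit 249) (nat_lit 5) (nat_lit 265) (nat_lit 5) (nat_lit 266) (nat_lit 5) (nat_lit 391) (nat_lit 387) (nat_lit 242)) (XT.nd (nat_lit 78) (nat_lit 0) (nat_lit 76) (XT.lf (nat_lit 0) (nat_lit 16764164138) (nat_lit 1216) (nat_lit 15598122102) (nat_lit 1292) (nat_lit 13336944480) (nat_lit 250) (nat_lit 5) (nat_lit 266) (nat_lit 5) (nat_lit 267) (nat_lit 5) (nat_lit 392) (nat_lit 387) (nat_lit 241)) (XT.lf (nat_lit 0) (nat_lit 20407900748) (nat_lit 1216) (nat_lit 23969646966) (nat_lit 1292)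 (nat_lit 2507595912) (nat_lit 251) (nat_lit 5) (nat_lit 267) (nat_lit 5) (nat_lit 268) (nat_lit 5) (nat_lit 393) (nat_lit 387) (nat_lit 240))))) (XT.nd (nat_lit 234) (nat_lit 2280) (nat_lit 0) (XT.nd (nat_lit 78) (nat_lit 0) (nat_lit 76) (XT.lf (nat_lit 76) (nat_lit 15527537830) (nat_lit 0) (nat_lit 9341037930) (nat_lit 1292) (nat_lit 23242735250) (nat_lit 252) (nat_lit 5) (nat_lit 251) (nat_lit 5) (nat_lit 268) (nat_lit 5) (nat_lit 394) (nat_lit 387) (nat_lit 239)) (XT.nd (nat_lit 78) (nat_lit 0) (nat_lit 76) (XT.lf (nat_lit 76) (nat_lit 7996366947) (nat_lit 0) (nat_lit 22142647777) (nat_lit 1292) (nat_lit 19242171451) (nat_lit 253) (nat_lit 5) (nat_lit 252) (nat_lit 5) (nat_lit 269) (nat_lit 5) (nat_lit 395) (nat_lit 387) (nat_lit 238)) (XT.lf (nat_lit 76) (nat_lit 347808982) (nat_lit 0) (nat_lit 35899296430) (nat_lit 1292) (nat_lit 14450227044) (nat_lit 254) (nat_lit 5) (nat_lit 253) (nat_lit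 5) (nat_lit 270) (nat_lit 5) (nat_lit 396) (nat_lit 387) (nat_lit 237)))) (XT.nd (nat_lit 156) (nat_lit 1292) (nat_lit 0) (XT.nd (nat_lit 78) (nat_lit 1216) (nat_lit 0) (XT.lf (nat_lit 0) (nat_lit 43319395361) (nat_lit 1216) (nat_lit 7272825490) (nat_lit 76) (nat_lit 1467302554) (nat_lit 254) (nat_lit 5) (nat_lit 270) (nat_lit 5) (nat_lit 255) (nat_lit 5) (nat_lit 397) (nat_lit 387) (nat_lit 236)) (XT.lf (nat_lit 0) (nat_lit 38341132233) (nat_lit 1216) (nat_lit 13132298436) (nat_lit 1292) (nat_lit 1994550440) (nat_lit 238) (nat_lit 5) (nat_lit 254) (nat_lit 5) (nat_lit 255) (nat_lit 5) (nat_lit 398) (nat_lit 387) (nat_lit 235))) (XT.nd (nat_lit 78) (nat_lit 608) (nat_lit 0) (XT.lf (nat_lit 0) (nat_lit 5625832622) (nat_lit 684) (nat_lit 23174263910) (nat_lit 76) (nat_lit 26126194329) (nat_lit 229) (nat_lit 5) (nat_lit 238) (nat_lit 5) (nat_lit 230) (nat_lit 5) (nat_lit 399) (nat_lit 387) (nat_lit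 234)) (XT.lf (nat_lit 0) (nat_lit 14221859911) (nat_lit 684) (nat_lit 31374633169) (nat_lit 76) (nat_lit 10841355317) (nat_lit 221) (nat_lit 5) (nat_lit 230) (nat_lit 5) (nat_lit 222) (nat_lit 5) (nat_lit 400) (nat_lit 387) (nat_lit 233))))))))
noncomputable def xc115 : XT := (XT.nd (nat_lit 1950) (nat_lit 304) (nat_lit 0) (XT.nd (nat_lit 936) (nat_lit 3952) (nat_lit 0) (XT.nd (nat_lit 468) (nat_lit 2584) (nat_lit 0) (XT.nd (nat_lit 234) (nat_lit 1064) (nat_lit 0) (XT.nd (nat_lit 78) (nat_lit 1064) (nat_lit 0) (XT.lf (nat_lit 0) (nat_lit 18239470858) (nat_lit 608) (nat_lit 5712677297) (nat_lit 684) (nat_lit 34051702820) (nat_lit 213) (nat_lit 5) (nat_lit 221) (nat_lit 5) (nat_lit 222) (nat_lit 5) (nat_lit 401) (nat_lit 387) (nat_lit 232)) (XT.nd (nat_lit 78) (nat_lit 532) (nat_lit 0) (XT.lf (nat_lit 0) (nat_lit 11217080478) (nat_lit 532) (nat_lit 23731130420) (nat_lit 608) (nat_lit 24676565889)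 (nat_lit 206) (nat_lit 5) (nat_lit 213) (nat_lit 5) (nat_lit 214) (nat_lit 5) (nat_lit 402) (nat_lit 387) (nat_lit 231)) (XT.lf (nat_lit 0) (nat_lit 4106318968) (nat_lit 532) (nat_lit 43069776212) (nat_lit 608) (nat_lit 14130194023) (nat_lit 199) (nat_lit 5) (nat_lit 206) (nat_lit 5) (nat_lit 207) (nat_lit 5) (nat_lit 403) (nat_lit 387) (nat_lit 230)))) (XT.nd (nat_lit 78) (nat_lit 1064) (nat_lit 0) (XT.lf (nat_lit 0) (nat_lit 60010974703) (nat_lit 532) (nat_lit 737685442) (nat_lit 608) (nat_lit 2301219324) (nat_lit 199) (nat_lit 5) (nat_lit 206) (nat_lit 5) (nat_lit 207) (nat_lit 5) (nat_lit 404) (nat_lit 387) (nat_lit 229)) (XT.nd (nat_lit 78) (nat_lit 532) (nat_lit 0) (XT.lf (nat_lit 0) (nat_lit 10872746853) (nat_lit 532) (nat_lit 10488337770) (nat_lit 76) (nat_lit 43488117080) (nat_lit 192) (nat_lit 5) (nat_lit 199) (nat_lit 5) (nat_lit 193) (nat_lit 5) (nat_lit 405) (nat_lit 387) (nat_lit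 228)) (XT.lf (nat_lit 0) (nat_lit 25393027445) (nat_lit 608) (nat_lit 18073437513) (nat_lit 76) (nat_lit 23249286020) (nat_lit 185) (nat_lit 5) (nat_lit 193) (nat_lit 5) (nat_lit 186) (nat_lit 5) (nat_lit 406) (nat_lit 387) (nat_lit 227))))) (XT.nd (nat_lit 234) (nat_lit 1216) (nat_lit 0) (XT.nd (nat_lit 78) (nat_lit 912) (nat_lit 0) (XT.lf (nat_lit 0) (nat_lit 41388931719) (nat_lit 532) (nat_lit 25773820089) (nat_lit 76) (nat_lit 1490388311) (nat_lit 179) (nat_lit 5) (nat_lit 186) (nat_lit 5) (nat_lit 180) (nat_lit 5) (nat_lit 407) (nat_lit 387) (nat_lit 226)) (XT.nd (nat_lit 78) (nat_lit 456) (nat_lit 0) (XT.lf (nat_lit 0) (nat_lit 36851877454) (nat_lit 456) (nat_lit 22311707232) (nat_lit 532) (nat_lit 11494446082) (nat_lit 173) (nat_lit 5) (nat_lit 179) (nat_lit 5) (nat_lit 180) (nat_lit 5) (nat_lit 408) (nat_lit 387) (nat_lit 225)) (XT.lf (nat_lit 0) (nat_lit 5772821795) (nat_lit 456) (nat_lit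 42046576253) (nat_lit 76) (nat_lit 24918073305) (nat_lit 167) (nat_lit 5) (nat_lit 173) (nat_lit 5) (nat_lit 168) (nat_lit 5) (nat_lit 409) (nat_lit 387) (nat_lit 224)))) (XT.nd (nat_lit 78) (nat_lit 760) (nat_lit 0) (XT.lf (nat_lit 0) (nat_lit 24336826252) (nat_lit 456) (nat_lit 139917028) (nat_lit 532) (nat_lit 50416396684) (nat_lit 161) (nat_lit 5) (nat_lit 167) (nat_lit 5) (nat_lit 168) (nat_lit 5) (nat_lit 410) (nat_lit 387) (nat_lit 223)) (XT.nd (nat_lit 78) (nat_lit 380) (nat_lit 0) (XT.lf (nat_lit 0) (nat_lit 17632127468) (nat_lit 380) (nat_lit 27568512922) (nat_lit 456) (nat_lit 31923408780) (nat_lit 156) (nat_lit 5) (nat_lit 161) (nat_lit 5) (nat_lit 162) (nat_lit 5) (nat_lit 411) (nat_lit 387) (nat_lit 222)) (XT.lf (nat_lit 0) (nat_lit 10824021908) (nat_lit 380) (nat_lit 56980112164) (nat_lit 456) (nat_lit 11637068238) (nat_lit 151) (nat_lit 5) (nat_lit 156) (nat_lit 5) (nat_lit 157)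 (nat_lit 5) (nat_lit 412) (nat_lit 387) (nat_lit 221)))))) (XT.nd (nat_lit 468) (nat_lit 2052) (nat_lit 0) (XT.nd (nat_lit 234) (nat_lit 1064) (nat_lit 0) (XT.nd (nat_lit 78) (nat_lit 380) (nat_lit 0) (XT.lf (nat_lit 0) (nat_lit 3736680315) (nat_lit 380) (nat_lit 6669367850) (nat_lit 456) (nat_lit 71437447751) (nat_lit 145) (nat_lit 5) (nat_lit 150) (nat_lit 5) (nat_lit 151) (nat_lit 5) (nat_lit 413) (nat_lit 387) (nat_lit 220)) (XT.nd (nat_lit 78) (nat_lit 380) (nat_lit 0) (XT.lf (nat_lit 0) (nat_lit 34468347847) (nat_lit 456) (nat_lit 3772853395) (nat_lit 76) (nat_lit 46086515870) (nat_lit 145) (nat_lit 5) (nat_lit 151) (nat_lit 5) (nat_lit 146) (nat_lit 5) (nat_lit 414) (nat_lit 387) (nat_lit 219)) (XT.lf (nat_lit 0) (nat_lit 60672824357) (nat_lit 456) (nat_lit 11372705997) (nat_lit 76) (nat_lit 14862447599) (nat_lit 140) (nat_lit 5) (nat_lit 146) (nat_lit 5) (nat_lit 141) (nat_lit 5) (nat_lit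 415) (nat_lit 387) (nat_lit 218)))) (XT.nd (nat_lit 78) (nat_lit 760) (nat_lit 0) (XT.lf (nat_lit 0) (nat_lit 70254094435) (nat_lit 304) (nat_lit 19032505428) (nat_lit 380) (nat_lit 297680139) (nat_lit 136) (nat_lit 5) (nat_lit 140) (nat_lit 5) (nat_lit 141) (nat_lit 5) (nat_lit 416) (nat_lit 387) (nat_lit 217)) (XT.nd (nat_lit 78) (nat_lit 304) (nat_lit 0) (XT.lf (nat_lit 0) (nat_lit 27512879711) (nat_lit 456) (nat_lit 27914812598) (nat_lit 76) (nat_lit 36925881957) (nat_lit 130) (nat_lit 5) (nat_lit 136) (nat_lit 5) (nat_lit 131) (nat_lit 5) (nat_lit 417) (nat_lit 387) (nat_lit 216)) (XT.lf (nat_lit 0) (nat_lit 57669699563) (nat_lit 380) (nat_lit 36753567101) (nat_lit 76) (nat_lit 809121873) (nat_lit 126) (nat_lit 5) (nat_lit 131) (nat_lit 5) (nat_lit 127) (nat_lit 5) (nat_lit 418) (nat_lit 387) (nat_lit 215))))) (XT.nd (nat_lit 234) (nat_lit 1064) (nat_lit 0) (XT.nd (nat_lit 78) (nat_lit 684)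 (nat_lit 0) (XT.lf (nat_lit 0) (nat_lit 51979019122) (nat_lit 304) (nat_lit 38703314303) (nat_lit 380) (nat_lit 7532371259) (nat_lit 122) (nat_lit 5) (nat_lit 126) (nat_lit 5) (nat_lit 127) (nat_lit 5) (nat_lit 419) (nat_lit 387) (nat_lit 214)) (XT.nd (nat_lit 78) (nat_lit 304) (nat_lit 0) (XT.lf (nat_lit 0) (nat_lit 24547417464) (nat_lit 380) (nat_lit 56287779855) (nat_lit 76) (nat_lit 20473530586) (nat_lit 117) (nat_lit 5) (nat_lit 122) (nat_lit 5) (nat_lit 118) (nat_lit 5) (nat_lit 420) (nat_lit 387) (nat_lit 213)) (XT.lf (nat_lit 0) (nat_lit 37522357233) (nat_lit 304) (nat_lit 21785243886) (nat_lit 380) (nat_lit 45210648546) (nat_lit 113) (nat_lit 5) (nat_lit 117) (nat_lit 5) (nat_lit 118) (nat_lit 5) (nat_lit 421) (nat_lit 387) (nat_lit 212)))) (XT.nd (nat_lit 156) (nat_lit 456) (nat_lit 0) (XT.nd (nat_lit 78) (nat_lit 380) (nat_lit 0) (XT.lf (nat_lit 0) (nat_lit 29510038471) (nat_lit 228)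 (nat_lit 67549963399) (nat_lit 304) (nat_lit 10790619700) (nat_lit 110) (nat_lit 5) (nat_lit 113) (nat_lit 5) (nat_lit 114) (nat_lit 5) (nat_lit 422) (nat_lit 387) (nat_lit 211)) (XT.lf (nat_lit 0) (nat_lit 20846928175) (nat_lit 304) (nat_lit 5124379544) (nat_lit 380) (nat_lit 85337526866) (nat_lit 105) (nat_lit 5) (nat_lit 109) (nat_lit 5) (nat_lit 110) (nat_lit 5) (nat_lit 423) (nat_lit 387) (nat_lit 210))) (XT.nd (nat_lit 78) (nat_lit 228) (nat_lit 0) (XT.lf (nat_lit 0) (nat_lit 11234843549) (nat_lit 228) (nat_lit 54617481294) (nat_lit 304) (nat_lit 49039303736) (nat_lit 102) (nat_lit 5) (nat_lit 105) (nat_lit 5) (nat_lit 106) (nat_lit 5) (nat_lit 424) (nat_lit 387) (nat_lit 209)) (XT.lf (nat_lit 0) (nat_lit 1143377283) (nat_lit 228) (nat_lit 107683443350) (nat_lit 304) (nat_lit 9793759054) (nat_lit 99) (nat_lit 5) (nat_lit 102) (nat_lit 5) (nat_lit 103) (nat_lit 5) (nat_lit 425) (nat_lit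 387) (nat_lit 208))))))) (XT.nd (nat_lit 50934) (nat_lit 0) (nat_lit 5472) (XT.nd (nat_lit 50466) (nat_lit 0) (nat_lit 11704) (XT.nd (nat_lit 50232) (nat_lit 0) (nat_lit 11552) (XT.nd (nat_lit 78) (nat_lit 228) (nat_lit 0) (XT.lf (nat_lit 0) (nat_lit 32428846590) (nat_lit 304) (nat_lit 10019859208) (nat_lit 76) (nat_lit 80029380088) (nat_lit 98) (nat_lit 5) (nat_lit 102) (nat_lit 5) (nat_lit 99) (nat_lit 5) (nat_lit 426) (nat_lit 387) (nat_lit 207)) (XT.nd (nat_lit 50076) (nat_lit 0) (nat_lit 11476) (XT.lf (nat_lit 0) (nat_lit 77829154408) (nat_lit 304) (nat_lit 22002702068) (nat_lit 76) (nat_lit 26655628444) (nat_lit 95) (nat_lit 5) (nat_lit 99) (nat_lit 5) (nat_lit 96) (nat_lit 5) (nat_lit 427) (nat_lit 387) (nat_lit 206)) (XT.lf (nat_lit 0) (nat_lit 4414505108) (nat_lit 1292) (nat_lit 8382580449) (nat_lit 1292) (nat_lit 8382580449) (nat_lit 246) (nat_lit 3) (nat_lit 263) (nat_lit 3) (nat_lit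 263) (nat_lit 5) (nat_lit 388) (nat_lit 388) (nat_lit 244)))) (XT.nd (nat_lit 78) (nat_lit 0) (nat_lit 0) (XT.lf (nat_lit 0) (nat_lit 9358150743) (nat_lit 1216) (nat_lit 25887628070) (nat_lit 1292) (nat_lit 8163259062) (nat_lit 247) (nat_lit 5) (nat_lit 263) (nat_lit 5) (nat_lit 264) (nat_lit 5) (nat_lit 389) (nat_lit 388) (nat_lit 243)) (XT.nd (nat_lit 78) (nat_lit 0) (nat_lit 76) (XT.lf (nat_lit 76) (nat_lit 9285636016) (nat_lit 0) (nat_lit 1146202010) (nat_lit 1292) (nat_lit 34063849910) (nat_lit 248) (nat_lit 5) (nat_lit 247) (nat_lit 5) (nat_lit 264) (nat_lit 5) (nat_lit 390) (nat_lit 388) (nat_lit 242)) (XT.lf (nat_lit 76) (nat_lit 807639049) (nat_lit 0) (nat_lit 11358006969) (nat_lit 1292) (nat_lit 33452832915) (nat_lit 249) (nat_lit 5) (nat_lit 248) (nat_lit 5) (nat_lit 265) (nat_lit 5) (nat_lit 391) (nat_lit 388) (nat_lit 241))))) (XT.nd (nat_lit 234) (nat_lit 0) (nat_lit 152) (XT.nd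 (nat_lit 78) (nat_lit 0) (nat_lit 76) (XT.lf (nat_lit 0) (nat_lit 14596828069) (nat_lit 1216) (nat_lit 7678454050) (nat_lit 1292) (nat_lit 24503808302) (nat_lit 249) (nat_lit 5) (nat_lit 265) (nat_lit 5) (nat_lit 266) (nat_lit 5) (nat_lit 392) (nat_lit 388) (nat_lit 240)) (XT.nd (nat_lit 78) (nat_lit 0) (nat_lit 76) (XT.lf (nat_lit 0) (nat_lit 17703704122) (nat_lit 1216) (nat_lit 16307584852) (nat_lit 1292) (nat_lit 13969820842) (nat_lit 250) (nat_lit 5) (nat_lit 266) (nat_lit 5) (nat_lit 267) (nat_lit 5) (nat_lit 393) (nat_lit 388) (nat_lit 239)) (XT.lf (nat_lit 0) (nat_lit 21525183707) (nat_lit 1216) (nat_lit 25096473549) (nat_lit 1292) (nat_lit 2604796450) (nat_lit 251) (nat_lit 5) (nat_lit 267) (nat_lit 5) (nat_lit 268) (nat_lit 5) (nat_lit 394) (nat_lit 388) (nat_lit 238)))) (XT.nd (nat_lit 78) (nat_lit 0) (nat_lit 76) (XT.lf (nat_lit 76) (nat_lit 16373516488) (nat_lit 0) (nat_lit 9831431326)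 (nat_lit 1292) (nat_lit 24309101913) (nat_lit 252) (nat_lit 5) (nat_lit 251) (nat_lit 5) (nat_lit 268) (nat_lit 5) (nat_lit 395) (nat_lit 388) (nat_lit 237)) (XT.nd (nat_lit 78) (nat_lit 0) (nat_lit 76) (XT.lf (nat_lit 76) (nat_lit 8466755685) (nat_lit 0) (nat_lit 23268191849) (nat_lit 1292) (nat_lit 20112591786) (nat_lit 253) (nat_lit 5) (nat_lit 252) (nat_lit 5) (nat_lit 269) (nat_lit 5) (nat_lit 396) (nat_lit 388) (nat_lit 236)) (XT.lf (nat_lit 76) (nat_lit 436547438) (nat_lit 0) (nat_lit 37708175361) (nat_lit 1292) (nat_lit 15084883464) (nat_lit 254) (nat_lit 5) (nat_lit 253) (nat_lit 5) (nat_lit 270) (nat_lit 5) (nat_lit 397) (nat_lit 388) (nat_lit 235)))))) (XT.nd (nat_lit 468) (nat_lit 2964) (nat_lit 0) (XT.nd (nat_lit 234) (nat_lit 1748) (nat_lit 0) (XT.nd (nat_lit 78) (nat_lit 1900) (nat_lit 0) (XT.lf (nat_lit 0) (nat_lit 45566439763) (nat_lit 1216) (nat_lit 7565919551) (nat_lit 76)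 (nat_lit 1527674733) (nat_lit 254) (nat_lit 5) (nat_lit 270) (nat_lit 5) (nat_lit 255) (nat_lit 5) (nat_lit 398) (nat_lit 388) (nat_lit 234)) (XT.nd (nat_lit 78) (nat_lit 684) (nat_lit 0) (XT.lf (nat_lit 0) (nat_lit 40326713836) (nat_lit 1216) (nat_lit 13798261008) (nat_lit 1292) (nat_lit 2014037439) (nat_lit 238) (nat_lit 5) (nat_lit 254) (nat_lit 5) (nat_lit 255) (nat_lit 5) (nat_lit 399) (nat_lit 388) (nat_lit 233)) (XT.lf (nat_lit 0) (nat_lit 5982635488) (nat_lit 684) (nat_lit 24262496945) (nat_lit 76) (nat_lit 27425178319) (nat_lit 229) (nat_lit 5) (nat_lit 238) (nat_lit 5) (nat_lit 230) (nat_lit 5) (nat_lit 400) (nat_lit 388) (nat_lit 232)))) (XT.nd (nat_lit 78) (nat_lit 1140) (nat_lit 0) (XT.lf (nat_lit 0) (nat_lit 15005486903) (nat_lit 684) (nat_lit 32872660299) (nat_lit 76) (nat_lit 11379389676) (nat_lit 221) (nat_lit 5) (nat_lit 230) (nat_lit 5) (nat_lit 222) (nat_lit 5) (nat_lit 401)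 (nat_lit 388) (nat_lit 231)) (XT.nd (nat_lit 78) (nat_lit 532) (nat_lit 0) (XT.lf (nat_lit 0) (nat_lit 19220122197) (nat_lit 608) (nat_lit 5999373535) (nat_lit 684) (nat_lit 35682428998) (nat_lit 213) (nat_lit 5) (nat_lit 221) (nat_lit 5) (nat_lit 222) (nat_lit 5) (nat_lit 402) (nat_lit 388) (nat_lit 230)) (XT.lf (nat_lit 0) (nat_lit 11846711642) (nat_lit 532) (nat_lit 24915980412) (nat_lit 608) (nat_lit 25841286131) (nat_lit 206) (nat_lit 5) (nat_lit 213) (nat_lit 5) (nat_lit 214) (nat_lit 5) (nat_lit 403) (nat_lit 388) (nat_lit 229))))) (XT.nd (nat_lit 234) (nat_lit 1900) (nat_lit 0) (XT.nd (nat_lit 78) (nat_lit 532) (nat_lit 0) (XT.lf (nat_lit 0) (nat_lit 4380403678) (nat_lit 532) (nat_lit 45219049704) (nat_lit 608) (nat_lit 14770189561) (nat_lit 199) (nat_lit 5) (nat_lit 206) (nat_lit 5) (nat_lit 207) (nat_lit 5) (nat_lit 404) (nat_lit 388) (nat_lit 228)) (XT.nd (nat_lit 78) (nat_lit 532)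 (nat_lit 0) (XT.lf (nat_lit 0) (nat_lit 63077017497) (nat_lit 532) (nat_lit 770555125) (nat_lit 608) (nat_lit 2352933468) (nat_lit 199) (nat_lit 5) (nat_lit 206) (nat_lit 5) (nat_lit 207) (nat_lit 5) (nat_lit 405) (nat_lit 388) (nat_lit 227)) (XT.lf (nat_lit 0) (nat_lit 11476209179) (nat_lit 532) (nat_lit 10946149761) (nat_lit 76) (nat_lit 45667486861) (nat_lit 192) (nat_lit 5) (nat_lit 199) (nat_lit 5) (nat_lit 193) (nat_lit 5) (nat_lit 406) (nat_lit 388) (nat_lit 226)))) (XT.nd (nat_lit 156) (nat_lit 912) (nat_lit 0) (XT.nd (nat_lit 78) (nat_lit 456) (nat_lit 0) (XT.lf (nat_lit 0) (nat_lit 26720345114) (nat_lit 608) (nat_lit 18910733765) (nat_lit 76) (nat_lit 24418709433) (nat_lit 185) (nat_lit 5) (nat_lit 193) (nat_lit 5) (nat_lit 186) (nat_lit 5) (nat_lit 407) (nat_lit 388) (nat_lit 225)) (XT.lf (nat_lit 0) (nat_lit 43514004209) (nat_lit 532) (nat_lit 26996438518) (nat_lit 76) (nat_lit 1573666357)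 (nat_lit 179) (nat_lit 5) (nat_lit 186) (nat_lit 5) (nat_lit 180) (nat_lit 5) (nat_lit 408) (nat_lit 388) (nat_lit 224))) (XT.nd (nat_lit 78) (nat_lit 456) (nat_lit 0) (XT.lf (nat_lit 0) (nat_lit 38758649945) (nat_lit 456) (nat_lit 23416707953) (nat_lit 532) (nat_lit 12013948245) (nat_lit 173) (nat_lit 5) (nat_lit 179) (nat_lit 5) (nat_lit 180) (nat_lit 5) (nat_lit 409) (nat_lit 388) (nat_lit 223)) (XT.lf (nat_lit 0) (nat_lit 6113744671) (nat_lit 456) (nat_lit 44084027920) (nat_lit 76) (nat_lit 26174986913) (nat_lit 167) (nat_lit 5) (nat_lit 173) (nat_lit 5) (nat_lit 168) (nat_lit 5) (nat_lit 410) (nat_lit 388) (nat_lit 222))))))))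
noncomputable def xc116 : XT := (XT.nd (nat_lit 51948) (nat_lit 0) (nat_lit 2128) (XT.nd (nat_lit 936) (nat_lit 1140) (nat_lit 0) (XT.nd (nat_lit 468) (nat_lit 2052) (nat_lit 0) (XT.nd (nat_lit 234) (nat_lit 836) (nat_lit 0) (XT.nd (nat_lit 78) (nat_lit 760) (nat_lit 0) (XT.lf (nat_lit 0) (nat_lit 25616685020) (nat_lit 456) (nat_lit 134293364) (nat_lit 532) (nat_lit 52885290484) (nat_lit 161) (nat_lit 5) (nat_lit 167) (nat_lit 5) (nat_lit 168) (nat_lit 5) (nat_lit 411) (nat_lit 388) (nat_lit 221)) (XT.nd (nat_lit 78) (nat_lit 380) (nat_lit 0) (XT.lf (nat_lit 0) (nat_lit 18576311376) (nat_lit 380) (nat_lit 28933076135) (nat_lit 456) (nat_lit 33469387278) (nat_lit 156) (nat_lit 5) (nat_lit 161) (nat_lit 5) (nat_lit 162) (nat_lit 5) (nat_lit 412) (nat_lit 388) (nat_lit 220)) (XT.lf (nat_lit 0) (nat_lit 11427311837) (nat_lit 380) (nat_lit 59814148018) (nat_lit 456) (nat_lit 12170374345) (nat_lit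 151) (nat_lit 5) (nat_lit 156) (nat_lit 5) (nat_lit 157) (nat_lit 5) (nat_lit 413) (nat_lit 388) (nat_lit 219)))) (XT.nd (nat_lit 78) (nat_lit 380) (nat_lit 0) (XT.lf (nat_lit 0) (nat_lit 3984757397) (nat_lit 380) (nat_lit 6987515189) (nat_lit 456) (nat_lit 74962006916) (nat_lit 145) (nat_lit 5) (nat_lit 150) (nat_lit 5) (nat_lit 151) (nat_lit 5) (nat_lit 414) (nat_lit 388) (nat_lit 218)) (XT.nd (nat_lit 78) (nat_lit 380) (nat_lit 0) (XT.lf (nat_lit 0) (nat_lit 36235640752) (nat_lit 456) (nat_lit 3901984635) (nat_lit 76) (nat_lit 48405148411) (nat_lit 145) (nat_lit 5) (nat_lit 151) (nat_lit 5) (nat_lit 146) (nat_lit 5) (nat_lit 415) (nat_lit 388) (nat_lit 217)) (XT.lf (nat_lit 0) (nat_lit 63748956087) (nat_lit 456) (nat_lit 11882401852) (nat_lit 76) (nat_lit 15620731908) (nat_lit 140) (nat_lit 5) (nat_lit 146) (nat_lit 5) (nat_lit 141) (nat_lit 5) (nat_lit 416) (nat_lit 388) (nat_lit 216)))))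 (XT.nd (nat_lit 234) (nat_lit 988) (nat_lit 0) (XT.nd (nat_lit 78) (nat_lit 760) (nat_lit 0) (XT.lf (nat_lit 0) (nat_lit 73824049114) (nat_lit 304) (nat_lit 19967898217) (nat_lit 380) (nat_lit 270304443) (nat_lit 136) (nat_lit 5) (nat_lit 140) (nat_lit 5) (nat_lit 141) (nat_lit 5) (nat_lit 417) (nat_lit 388) (nat_lit 215)) (XT.nd (nat_lit 78) (nat_lit 304) (nat_lit 0) (XT.lf (nat_lit 0) (nat_lit 28928685822) (nat_lit 456) (nat_lit 29253079145) (nat_lit 76) (nat_lit 38788272326) (nat_lit 130) (nat_lit 5) (nat_lit 136) (nat_lit 5) (nat_lit 131) (nat_lit 5) (nat_lit 418) (nat_lit 388) (nat_lit 214)) (XT.lf (nat_lit 0) (nat_lit 60592134626) (nat_lit 380) (nat_lit 38534408763) (nat_lit 76) (nat_lit 866285766) (nat_lit 126) (nat_lit 5) (nat_lit 131) (nat_lit 5) (nat_lit 127) (nat_lit 5) (nat_lit 419) (nat_lit 388) (nat_lit 213)))) (XT.nd (nat_lit 78) (nat_lit 684) (nat_lit 0) (XT.lf (nat_lit 0) (nat_lit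 54633177559) (nat_lit 304) (nat_lit 40620898544) (nat_lit 380) (nat_lit 7870225218) (nat_lit 122) (nat_lit 5) (nat_lit 126) (nat_lit 5) (nat_lit 127) (nat_lit 5) (nat_lit 420) (nat_lit 388) (nat_lit 212)) (XT.nd (nat_lit 78) (nat_lit 304) (nat_lit 0) (XT.lf (nat_lit 0) (nat_lit 25811678863) (nat_lit 380) (nat_lit 59046858808) (nat_lit 76) (nat_lit 21514510837) (nat_lit 117) (nat_lit 5) (nat_lit 122) (nat_lit 5) (nat_lit 118) (nat_lit 5) (nat_lit 421) (nat_lit 388) (nat_lit 211)) (XT.lf (nat_lit 0) (nat_lit 39452199683) (nat_lit 304) (nat_lit 22856431759) (nat_lit 380) (nat_lit 47434452553) (nat_lit 113) (nat_lit 5) (nat_lit 117) (nat_lit 5) (nat_lit 118) (nat_lit 5) (nat_lit 422) (nat_lit 388) (nat_lit 210)))))) (XT.nd (nat_lit 50544) (nat_lit 0) (nat_lit 11324) (XT.nd (nat_lit 234) (nat_lit 304) (nat_lit 0) (XT.nd (nat_lit 78) (nat_lit 608) (nat_lit 0) (XT.lf (nat_lit 0) (nat_lit 31038603465)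 (nat_lit 228) (nat_lit 70909026677) (nat_lit 304) (nat_lit 11294475428) (nat_lit 110) (nat_lit 5) (nat_lit 113) (nat_lit 5) (nat_lit 114) (nat_lit 5) (nat_lit 423) (nat_lit 388) (nat_lit 209)) (XT.nd (nat_lit 78) (nat_lit 228) (nat_lit 0) (XT.lf (nat_lit 0) (nat_lit 21941500573) (nat_lit 304) (nat_lit 5362187993) (nat_lit 380) (nat_lit 89569565673) (nat_lit 105) (nat_lit 5) (nat_lit 109) (nat_lit 5) (nat_lit 110) (nat_lit 5) (nat_lit 424) (nat_lit 388) (nat_lit 208)) (XT.lf (nat_lit 0) (nat_lit 11848135547) (nat_lit 228) (nat_lit 57329674814) (nat_lit 304) (nat_lit 51457406320) (nat_lit 102) (nat_lit 5) (nat_lit 105) (nat_lit 5) (nat_lit 106) (nat_lit 5) (nat_lit 425) (nat_lit 388) (nat_lit 207)))) (XT.nd (nat_lit 78) (nat_lit 76) (nat_lit 0) (XT.lf (nat_lit 0) (nat_lit 1251408735) (nat_lit 228) (nat_lit 113048716942) (nat_lit 304) (nat_lit 10250517170) (nat_lit 99) (nat_lit 5) (nat_lit 102)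 (nat_lit 5) (nat_lit 103) (nat_lit 5) (nat_lit 426) (nat_lit 388) (nat_lit 206)) (XT.nd (nat_lit 50154) (nat_lit 0) (nat_lit 11248) (XT.lf (nat_lit 0) (nat_lit 34081038688) (nat_lit 304) (nat_lit 10471793244) (nat_lit 76) (nat_lit 84048229371) (nat_lit 98) (nat_lit 5) (nat_lit 102) (nat_lit 5) (nat_lit 99) (nat_lit 5) (nat_lit 427) (nat_lit 388) (nat_lit 205)) (XT.lf (nat_lit 0) (nat_lit 4693471055) (nat_lit 1292) (nat_lit 8771703220) (nat_lit 1292) (nat_lit 8771703220) (nat_lit 246) (nat_lit 3) (nat_lit 263) (nat_lit 3) (nat_lit 263) (nat_lit 5) (nat_lit 389) (nat_lit 389) (nat_lit 242))))) (XT.nd (nat_lit 234) (nat_lit 0) (nat_lit 152) (XT.nd (nat_lit 78) (nat_lit 0) (nat_lit 0) (XT.lf (nat_lit 0) (nat_lit 9937041856) (nat_lit 1216) (nat_lit 27119814109) (nat_lit 1292) (nat_lit 8519257457) (nat_lit 247) (nat_lit 5) (nat_lit 263) (nat_lit 5) (nat_lit 264) (nat_lit 5) (nat_lit 390) (nat_lit 389)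 (nat_lit 241)) (XT.nd (nat_lit 78) (nat_lit 0) (nat_lit 76) (XT.lf (nat_lit 76) (nat_lit 9810330364) (nat_lit 0) (nat_lit 1249378928) (nat_lit 1292) (nat_lit 35657530049) (nat_lit 248) (nat_lit 5) (nat_lit 247) (nat_lit 5) (nat_lit 264) (nat_lit 5) (nat_lit 391) (nat_lit 389) (nat_lit 240)) (XT.lf (nat_lit 76) (nat_lit 910270415) (nat_lit 0) (nat_lit 11965054822) (nat_lit 1292) (nat_lit 35020993249) (nat_lit 249) (nat_lit 5) (nat_lit 248) (nat_lit 5) (nat_lit 265) (nat_lit 5) (nat_lit 392) (nat_lit 389) (nat_lit 239)))) (XT.nd (nat_lit 78) (nat_lit 0) (nat_lit 76) (XT.lf (nat_lit 0) (nat_lit 15422879576) (nat_lit 1216) (nat_lit 7999795689) (nat_lit 1292) (nat_lit 25692442911) (nat_lit 249) (nat_lit 5) (nat_lit 265) (nat_lit 5) (nat_lit 266) (nat_lit 5) (nat_lit 393) (nat_lit 389) (nat_lit 238)) (XT.nd (nat_lit 78) (nat_lit 0) (nat_lit 76) (XT.lf (nat_lit 0) (nat_lit 18680800238) (nat_lit 1216)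 (nat_lit 17059069896) (nat_lit 1292) (nat_lit 14637499311) (nat_lit 250) (nat_lit 5) (nat_lit 266) (nat_lit 5) (nat_lit 267) (nat_lit 5) (nat_lit 394) (nat_lit 389) (nat_lit 237)) (XT.lf (nat_lit 0) (nat_lit 22689323094) (nat_lit 1216) (nat_lit 26286303335) (nat_lit 1292) (nat_lit 2709476856) (nat_lit 251) (nat_lit 5) (nat_lit 267) (nat_lit 5) (nat_lit 268) (nat_lit 5) (nat_lit 395) (nat_lit 389) (nat_lit 236))))))) (XT.nd (nat_lit 936) (nat_lit 5016) (nat_lit 0) (XT.nd (nat_lit 468) (nat_lit 2812) (nat_lit 0) (XT.nd (nat_lit 234) (nat_lit 1672) (nat_lit 0) (XT.nd (nat_lit 78) (nat_lit 0) (nat_lit 76) (XT.lf (nat_lit 76) (nat_lit 17255323167) (nat_lit 0) (nat_lit 10344174321) (nat_lit 1292) (nat_lit 25437690704) (nat_lit 252) (nat_lit 5) (nat_lit 251) (nat_lit 5) (nat_lit 268) (nat_lit 5) (nat_lit 396) (nat_lit 389) (nat_lit 235)) (XT.nd (nat_lit 78) (nat_lit 0) (nat_lit 76) (XT.lf (nat_lit 76)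 (nat_lit 8954102894) (nat_lit 0) (nat_lit 24448301381) (nat_lit 1292) (nat_lit 21035057442) (nat_lit 253) (nat_lit 5) (nat_lit 252) (nat_lit 5) (nat_lit 269) (nat_lit 5) (nat_lit 397) (nat_lit 389) (nat_lit 234)) (XT.lf (nat_lit 76) (nat_lit 523089555) (nat_lit 0) (nat_lit 39606204637) (nat_lit 1292) (nat_lit 15759440623) (nat_lit 254) (nat_lit 5) (nat_lit 253) (nat_lit 5) (nat_lit 270) (nat_lit 5) (nat_lit 398) (nat_lit 389) (nat_lit 233)))) (XT.nd (nat_lit 78) (nat_lit 1900) (nat_lit 0) (XT.lf (nat_lit 0) (nat_lit 47918298834) (nat_lit 1216) (nat_lit 7880227126) (nat_lit 76) (nat_lit 1592273483) (nat_lit 254) (nat_lit 5) (nat_lit 270) (nat_lit 5) (nat_lit 255) (nat_lit 5) (nat_lit 399) (nat_lit 389) (nat_lit 232)) (XT.nd (nat_lit 78) (nat_lit 684) (nat_lit 0) (XT.lf (nat_lit 0) (nat_lit 42405203715) (nat_lit 1216) (nat_lit 14496652652) (nat_lit 1292) (nat_lit 2041958790) (nat_lit 238) (nat_lit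 5) (nat_lit 254) (nat_lit 5) (nat_lit 255) (nat_lit 5) (nat_lit 400) (nat_lit 389) (nat_lit 231)) (XT.lf (nat_lit 0) (nat_lit 6350258179) (nat_lit 684) (nat_lit 25411694210) (nat_lit 76) (nat_lit 28789792585) (nat_lit 229) (nat_lit 5) (nat_lit 238) (nat_lit 5) (nat_lit 230) (nat_lit 5) (nat_lit 401) (nat_lit 389) (nat_lit 230))))) (XT.nd (nat_lit 234) (nat_lit 1064) (nat_lit 0) (XT.nd (nat_lit 78) (nat_lit 1140) (nat_lit 0) (XT.lf (nat_lit 0) (nat_lit 15821551721) (nat_lit 684) (nat_lit 34452162223) (nat_lit 76) (nat_lit 11944700741) (nat_lit 221) (nat_lit 5) (nat_lit 230) (nat_lit 5) (nat_lit 222) (nat_lit 5) (nat_lit 402) (nat_lit 389) (nat_lit 229)) (XT.nd (nat_lit 78) (nat_lit 532) (nat_lit 0) (XT.lf (nat_lit 0) (nat_lit 20243421094) (nat_lit 608) (nat_lit 6300305815) (nat_lit 684) (nat_lit 37401372249) (nat_lit 213) (nat_lit 5) (nat_lit 221) (nat_lit 5) (nat_lit 222) (nat_lit 5) (nat_lit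 403) (nat_lit 389) (nat_lit 228)) (XT.lf (nat_lit 0) (nat_lit 12501430118) (nat_lit 532) (nat_lit 26160231561) (nat_lit 608) (nat_lit 27070667397) (nat_lit 206) (nat_lit 5) (nat_lit 213) (nat_lit 5) (nat_lit 214) (nat_lit 5) (nat_lit 404) (nat_lit 389) (nat_lit 227)))) (XT.nd (nat_lit 78) (nat_lit 532) (nat_lit 0) (XT.lf (nat_lit 0) (nat_lit 4661799156) (nat_lit 532) (nat_lit 47476178771) (nat_lit 608) (nat_lit 15448368732) (nat_lit 199) (nat_lit 5) (nat_lit 206) (nat_lit 5) (nat_lit 207) (nat_lit 5) (nat_lit 405) (nat_lit 389) (nat_lit 226)) (XT.nd (nat_lit 78) (nat_lit 532) (nat_lit 0) (XT.lf (nat_lit 0) (nat_lit 66290273414) (nat_lit 532) (nat_lit 805441530) (nat_lit 608) (nat_lit 2413122706) (nat_lit 199) (nat_lit 5) (nat_lit 206) (nat_lit 5) (nat_lit 207) (nat_lit 5) (nat_lit 406) (nat_lit 389) (nat_lit 225)) (XT.lf (nat_lit 0) (nat_lit 12104282662) (nat_lit 532) (nat_lit 11433044643) (nat_lit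 76) (nat_lit 47955363632) (nat_lit 192) (nat_lit 5) (nat_lit 199) (nat_lit 5) (nat_lit 193) (nat_lit 5) (nat_lit 407) (nat_lit 389) (nat_lit 224)))))) (XT.nd (nat_lit 468) (nat_lit 2280) (nat_lit 0) (XT.nd (nat_lit 234) (nat_lit 1292) (nat_lit 0) (XT.nd (nat_lit 78) (nat_lit 912) (nat_lit 0) (XT.lf (nat_lit 0) (nat_lit 28108667400) (nat_lit 608) (nat_lit 19796065806) (nat_lit 76) (nat_lit 25645957025) (nat_lit 185) (nat_lit 5) (nat_lit 193) (nat_lit 5) (nat_lit 186) (nat_lit 5) (nat_lit 408) (nat_lit 389) (nat_lit 223)) (XT.nd (nat_lit 78) (nat_lit 456) (nat_lit 0) (XT.lf (nat_lit 0) (nat_lit 45740158755) (nat_lit 532) (nat_lit 28286330671) (nat_lit 76) (nat_lit 1660294010) (nat_lit 179) (nat_lit 5) (nat_lit 186) (nat_lit 5) (nat_lit 180) (nat_lit 5) (nat_lit 409) (nat_lit 389) (nat_lit 222)) (XT.lf (nat_lit 0) (nat_lit 40754794340) (nat_lit 456) (nat_lit 24577942768) (nat_lit 532) (nat_lit 12564559361)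 (nat_lit 173) (nat_lit 5) (nat_lit 179) (nat_lit 5) (nat_lit 180) (nat_lit 5) (nat_lit 410) (nat_lit 389) (nat_lit 221)))) (XT.nd (nat_lit 78) (nat_lit 836) (nat_lit 0) (XT.lf (nat_lit 0) (nat_lit 6466853026) (nat_lit 456) (nat_lit 46229383832) (nat_lit 76) (nat_lit 27493722600) (nat_lit 167) (nat_lit 5) (nat_lit 173) (nat_lit 5) (nat_lit 168) (nat_lit 5) (nat_lit 411) (nat_lit 389) (nat_lit 220)) (XT.nd (nat_lit 78) (nat_lit 380) (nat_lit 0) (XT.lf (nat_lit 0) (nat_lit 26954677961) (nat_lit 456) (nat_lit 129561760) (nat_lit 532) (nat_lit 55482456565) (nat_lit 161) (nat_lit 5) (nat_lit 167) (nat_lit 5) (nat_lit 168) (nat_lit 5) (nat_lit 412) (nat_lit 389) (nat_lit 219)) (XT.lf (nat_lit 0) (nat_lit 19561886613) (nat_lit 380) (nat_lit 30367156307) (nat_lit 456) (nat_lit 35097331072) (nat_lit 156) (nat_lit 5) (nat_lit 161) (nat_lit 5) (nat_lit 162) (nat_lit 5) (nat_lit 413) (nat_lit 389) (nat_lit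 218))))) (XT.nd (nat_lit 234) (nat_lit 1444) (nat_lit 0) (XT.nd (nat_lit 78) (nat_lit 456) (nat_lit 0) (XT.lf (nat_lit 0) (nat_lit 12054993831) (nat_lit 380) (nat_lit 62791277411) (nat_lit 456) (nat_lit 12734859225) (nat_lit 151) (nat_lit 5) (nat_lit 156) (nat_lit 5) (nat_lit 157) (nat_lit 5) (nat_lit 414) (nat_lit 389) (nat_lit 217)) (XT.nd (nat_lit 78) (nat_lit 0) (nat_lit 0) (XT.lf (nat_lit 0) (nat_lit 4239544533) (nat_lit 380) (nat_lit 7322994302) (nat_lit 456) (nat_lit 78667192774) (nat_lit 145) (nat_lit 5) (nat_lit 150) (nat_lit 5) (nat_lit 151) (nat_lit 5) (nat_lit 415) (nat_lit 389) (nat_lit 216)) (XT.lf (nat_lit 0) (nat_lit 38087219174) (nat_lit 456) (nat_lit 4043105246) (nat_lit 76) (nat_lit 50838382473) (nat_lit 145) (nat_lit 5) (nat_lit 151) (nat_lit 5) (nat_lit 146) (nat_lit 5) (nat_lit 416) (nat_lit 389) (nat_lit 215)))) (XT.nd (nat_lit 156) (nat_lit 760) (nat_lit 0) (XT.nd (nat_lit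 78) (nat_lit 304) (nat_lit 0) (XT.lf (nat_lit 0) (nat_lit 66974944037) (nat_lit 456) (nat_lit 12423062130) (nat_lit 76) (nat_lit 16415520820) (nat_lit 140) (nat_lit 5) (nat_lit 146) (nat_lit 5) (nat_lit 141) (nat_lit 5) (nat_lit 417) (nat_lit 389) (nat_lit 214)) (XT.lf (nat_lit 0) (nat_lit 77567178970) (nat_lit 304) (nat_lit 20951569787) (nat_lit 380) (nat_lit 245488867) (nat_lit 136) (nat_lit 5) (nat_lit 140) (nat_lit 5) (nat_lit 141) (nat_lit 5) (nat_lit 418) (nat_lit 389) (nat_lit 213))) (XT.nd (nat_lit 78) (nat_lit 304) (nat_lit 0) (XT.lf (nat_lit 0) (nat_lit 30411548345) (nat_lit 456) (nat_lit 30663602414) (nat_lit 76) (nat_lit 40742285735) (nat_lit 130) (nat_lit 5) (nat_lit 136) (nat_lit 5) (nat_lit 131) (nat_lit 5) (nat_lit 419) (nat_lit 389) (nat_lit 212)) (XT.lf (nat_lit 0) (nat_lit 63657070232) (nat_lit 380) (nat_lit 40409576644) (nat_lit 76) (nat_lit 924754521) (nat_lit 126) (nat_lit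 5) (nat_lit 131) (nat_lit 5) (nat_lit 127) (nat_lit 5) (nat_lit 420) (nat_lit 389) (nat_lit 211))))))))
noncomputable def xc117 : XT := (XT.nd (nat_lit 52026) (nat_lit 0) (nat_lit 228) (XT.nd (nat_lit 51090) (nat_lit 0) (nat_lit 7600) (XT.nd (nat_lit 468) (nat_lit 228) (nat_lit 0) (XT.nd (nat_lit 234) (nat_lit 836) (nat_lit 0) (XT.nd (nat_lit 78) (nat_lit 684) (nat_lit 0) (XT.lf (nat_lit 0) (nat_lit 57414911250) (nat_lit 304) (nat_lit 42635996555) (nat_lit 380) (nat_lit 8228575841) (nat_lit 122) (nat_lit 5) (nat_lit 126) (nat_lit 5) (nat_lit 127) (nat_lit 5) (nat_lit 421) (nat_lit 389) (nat_lit 210)) (XT.nd (nat_lit 78) (nat_lit 304) (nat_lit 0) (XT.lf (nat_lit 0) (nat_lit 27135723601) (nat_lit 380) (nat_lit 61949033911) (nat_lit 76) (nat_lit 22605931365) (nat_lit 117) (nat_lit 5) (nat_lit 122) (nat_lit 5) (nat_lit 118) (nat_lit 5) (nat_lit 422) (nat_lit 389) (nat_lit 209)) (XT.lf (nat_lit 0)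 (nat_lit 41473539453) (nat_lit 304) (nat_lit 23982859405) (nat_lit 380) (nat_lit 49772861421) (nat_lit 113) (nat_lit 5) (nat_lit 117) (nat_lit 5) (nat_lit 118) (nat_lit 5) (nat_lit 423) (nat_lit 389) (nat_lit 208)))) (XT.nd (nat_lit 78) (nat_lit 608) (nat_lit 0) (XT.lf (nat_lit 0) (nat_lit 32638663407) (nat_lit 228) (nat_lit 74437757021) (nat_lit 304) (nat_lit 11826840690) (nat_lit 110) (nat_lit 5) (nat_lit 113) (nat_lit 5) (nat_lit 114) (nat_lit 5) (nat_lit 424) (nat_lit 389) (nat_lit 207)) (XT.nd (nat_lit 78) (nat_lit 228) (nat_lit 0) (XT.lf (nat_lit 0) (nat_lit 23085946114) (nat_lit 304) (nat_lit 5613598500) (nat_lit 380) (nat_lit 94016445284) (nat_lit 105) (nat_lit 5) (nat_lit 109) (nat_lit 5) (nat_lit 110) (nat_lit 5) (nat_lit 425) (nat_lit 389) (nat_lit 206)) (XT.lf (nat_lit 0) (nat_lit 12487299530) (nat_lit 228) (nat_lit 60179214750) (nat_lit 304) (nat_lit 53999562257) (nat_lit 102) (nat_lit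 5) (nat_lit 105) (nat_lit 5) (nat_lit 106) (nat_lit 5) (nat_lit 426) (nat_lit 389) (nat_lit 205))))) (XT.nd (nat_lit 50388) (nat_lit 0) (nat_lit 11248) (XT.nd (nat_lit 50232) (nat_lit 0) (nat_lit 11172) (XT.lf (nat_lit 0) (nat_lit 1360113038) (nat_lit 228) (nat_lit 118684011223) (nat_lit 304) (nat_lit 10733174696) (nat_lit 99) (nat_lit 5) (nat_lit 102) (nat_lit 5) (nat_lit 103) (nat_lit 5) (nat_lit 427) (nat_lit 389) (nat_lit 204)) (XT.nd (nat_lit 78) (nat_lit 0) (nat_lit 76) (XT.lf (nat_lit 0) (nat_lit 4980970633) (nat_lit 1292) (nat_lit 9183071825) (nat_lit 1292) (nat_lit 9183071825) (nat_lit 246) (nat_lit 3) (nat_lit 263) (nat_lit 3) (nat_lit 263) (nat_lit 5) (nat_lit 390) (nat_lit 390) (nat_lit 240)) (XT.lf (nat_lit 0) (nat_lit 10534559323) (nat_lit 1216) (nat_lit 28419391784) (nat_lit 1292) (nat_lit 8897905538) (nat_lit 247) (nat_lit 5) (nat_lit 263) (nat_lit 5) (nat_lit 264) (nat_lit 5)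 (nat_lit 391) (nat_lit 390) (nat_lit 239)))) (XT.nd (nat_lit 78) (nat_lit 0) (nat_lit 76) (XT.lf (nat_lit 76) (nat_lit 10355642844) (nat_lit 0) (nat_lit 1353450431) (nat_lit 1292) (nat_lit 37341075616) (nat_lit 248) (nat_lit 5) (nat_lit 247) (nat_lit 5) (nat_lit 264) (nat_lit 5) (nat_lit 392) (nat_lit 390) (nat_lit 238)) (XT.nd (nat_lit 78) (nat_lit 0) (nat_lit 76) (XT.lf (nat_lit 76) (nat_lit 1012245989) (nat_lit 0) (nat_lit 12598815504) (nat_lit 1292) (nat_lit 36677275282) (nat_lit 249) (nat_lit 5) (nat_lit 248) (nat_lit 5) (nat_lit 265) (nat_lit 5) (nat_lit 393) (nat_lit 390) (nat_lit 237)) (XT.lf (nat_lit 0) (nat_lit 16281288954) (nat_lit 1216) (nat_lit 8343022605) (nat_lit 1292) (nat_lit 26943907863) (nat_lit 249) (nat_lit 5) (nat_lit 265) (nat_lit 5) (nat_lit 266) (nat_lit 5) (nat_lit 394) (nat_lit 390) (nat_lit 236)))))) (XT.nd (nat_lit 468) (nat_lit 3876) (nat_lit 0) (XT.nd (nat_lit 234)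 (nat_lit 0) (nat_lit 152) (XT.nd (nat_lit 78) (nat_lit 0) (nat_lit 76) (XT.lf (nat_lit 0) (nat_lit 19698206154) (nat_lit 1216) (nat_lit 17854069469) (nat_lit 1292) (nat_lit 15341426364) (nat_lit 250) (nat_lit 5) (nat_lit 266) (nat_lit 5) (nat_lit 267) (nat_lit 5) (nat_lit 395) (nat_lit 390) (nat_lit 235)) (XT.nd (nat_lit 78) (nat_lit 0) (nat_lit 0) (XT.lf (nat_lit 0) (nat_lit 23903499182) (nat_lit 1216) (nat_lit 27541667127) (nat_lit 1292) (nat_lit 2821767554) (nat_lit 251) (nat_lit 5) (nat_lit 267) (nat_lit 5) (nat_lit 268) (nat_lit 5) (nat_lit 396) (nat_lit 390) (nat_lit 234)) (XT.lf (nat_lit 76) (nat_lit 18175350872) (nat_lit 0) (nat_lit 10880586146) (nat_lit 1292) (nat_lit 26630784941) (nat_lit 252) (nat_lit 5) (nat_lit 251) (nat_lit 5) (nat_lit 268) (nat_lit 5) (nat_lit 397) (nat_lit 390) (nat_lit 233)))) (XT.nd (nat_lit 78) (nat_lit 0) (nat_lit 76) (XT.lf (nat_lit 76) (nat_lit 9459866473)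 (nat_lit 0) (nat_lit 25685863788) (nat_lit 1292) (nat_lit 22011378175) (nat_lit 253) (nat_lit 5) (nat_lit 252) (nat_lit 5) (nat_lit 269) (nat_lit 5) (nat_lit 398) (nat_lit 390) (nat_lit 232)) (XT.nd (nat_lit 78) (nat_lit 0) (nat_lit 76) (XT.lf (nat_lit 76) (nat_lit 607942215) (nat_lit 0) (nat_lit 41597962042) (nat_lit 1292) (nat_lit 16475134183) (nat_lit 254) (nat_lit 5) (nat_lit 253) (nat_lit 5) (nat_lit 270) (nat_lit 5) (nat_lit 399) (nat_lit 390) (nat_lit 231)) (XT.lf (nat_lit 0) (nat_lit 50380914077) (nat_lit 1216) (nat_lit 8216199115) (nat_lit 76) (nat_lit 1661197827) (nat_lit 254) (nat_lit 5) (nat_lit 270) (nat_lit 5) (nat_lit 255) (nat_lit 5) (nat_lit 400) (nat_lit 390) (nat_lit 230))))) (XT.nd (nat_lit 234) (nat_lit 1672) (nat_lit 0) (XT.nd (nat_lit 78) (nat_lit 1292) (nat_lit 0) (XT.lf (nat_lit 0) (nat_lit 44581839581) (nat_lit 1216) (nat_lit 15229175619) (nat_lit 1292) (nat_lit 2078042652)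 (nat_lit 238) (nat_lit 5) (nat_lit 254) (nat_lit 5) (nat_lit 255) (nat_lit 5) (nat_lit 401) (nat_lit 390) (nat_lit 229)) (XT.nd (nat_lit 78) (nat_lit 608) (nat_lit 0) (XT.lf (nat_lit 0) (nat_lit 6729894367) (nat_lit 684) (nat_lit 26624294719) (nat_lit 76) (nat_lit 30223255322) (nat_lit 229) (nat_lit 5) (nat_lit 238) (nat_lit 5) (nat_lit 230) (nat_lit 5) (nat_lit 402) (nat_lit 390) (nat_lit 228)) (XT.lf (nat_lit 0) (nat_lit 16672303206) (nat_lit 684) (nat_lit 36116601544) (nat_lit 76) (nat_lit 12538617484) (nat_lit 221) (nat_lit 5) (nat_lit 230) (nat_lit 5) (nat_lit 222) (nat_lit 5) (nat_lit 403) (nat_lit 390) (nat_lit 227)))) (XT.nd (nat_lit 78) (nat_lit 1064) (nat_lit 0) (XT.lf (nat_lit 0) (nat_lit 21312093542) (nat_lit 608) (nat_lit 6616195123) (nat_lit 684) (nat_lit 39212322314) (nat_lit 213) (nat_lit 5) (nat_lit 221) (nat_lit 5) (nat_lit 222) (nat_lit 5) (nat_lit 404) (nat_lit 390) (nat_lit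 226)) (XT.nd (nat_lit 78) (nat_lit 532) (nat_lit 0) (XT.lf (nat_lit 0) (nat_lit 13183084747) (nat_lit 532) (nat_lit 27466839173) (nat_lit 608) (nat_lit 28367345401) (nat_lit 206) (nat_lit 5) (nat_lit 213) (nat_lit 5) (nat_lit 214) (nat_lit 5) (nat_lit 405) (nat_lit 390) (nat_lit 225)) (XT.lf (nat_lit 0) (nat_lit 4951465344) (nat_lit 532) (nat_lit 49846519757) (nat_lit 608) (nat_lit 16166065802) (nat_lit 199) (nat_lit 5) (nat_lit 206) (nat_lit 5) (nat_lit 207) (nat_lit 5) (nat_lit 406) (nat_lit 390) (nat_lit 224))))))) (XT.nd (nat_lit 936) (nat_lit 2888) (nat_lit 0) (XT.nd (nat_lit 468) (nat_lit 2052) (nat_lit 0) (XT.nd (nat_lit 234) (nat_lit 1368) (nat_lit 0) (XT.nd (nat_lit 78) (nat_lit 1064) (nat_lit 0) (XT.lf (nat_lit 0) (nat_lit 69658669208) (nat_lit 532) (nat_lit 842410794) (nat_lit 608) (nat_lit 2481663254) (nat_lit 199) (nat_lit 5) (nat_lit 206) (nat_lit 5) (nat_lit 207) (nat_lit 5) (nat_lit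 407) (nat_lit 390) (nat_lit 223)) (XT.nd (nat_lit 78) (nat_lit 532) (nat_lit 0) (XT.lf (nat_lit 0) (nat_lit 12758714957) (nat_lit 532) (nat_lit 11949900862) (nat_lit 76) (nat_lit 50357215648) (nat_lit 192) (nat_lit 5) (nat_lit 199) (nat_lit 5) (nat_lit 193) (nat_lit 5) (nat_lit 408) (nat_lit 390) (nat_lit 222)) (XT.lf (nat_lit 0) (nat_lit 29561542974) (nat_lit 608) (nat_lit 20731261707) (nat_lit 76) (nat_lit 26933980155) (nat_lit 185) (nat_lit 5) (nat_lit 193) (nat_lit 5) (nat_lit 186) (nat_lit 5) (nat_lit 409) (nat_lit 390) (nat_lit 221)))) (XT.nd (nat_lit 78) (nat_lit 912) (nat_lit 0) (XT.lf (nat_lit 0) (nat_lit 48072930262) (nat_lit 532) (nat_lit 29646289134) (nat_lit 76) (nat_lit 1750514457) (nat_lit 179) (nat_lit 5) (nat_lit 186) (nat_lit 5) (nat_lit 180) (nat_lit 5) (nat_lit 410) (nat_lit 390) (nat_lit 220)) (XT.nd (nat_lit 78) (nat_lit 456) (nat_lit 0) (XT.lf (nat_lit 0) (nat_lit 42845333964)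 (nat_lit 456) (nat_lit 25798131896) (nat_lit 532) (nat_lit 13147357582) (nat_lit 173) (nat_lit 5) (nat_lit 179) (nat_lit 5) (nat_lit 180) (nat_lit 5) (nat_lit 411) (nat_lit 390) (nat_lit 219)) (XT.lf (nat_lit 0) (nat_lit 6833208033) (nat_lit 456) (nat_lit 48487478436) (nat_lit 76) (nat_lit 28877466637) (nat_lit 167) (nat_lit 5) (nat_lit 173) (nat_lit 5) (nat_lit 168) (nat_lit 5) (nat_lit 412) (nat_lit 390) (nat_lit 218))))) (XT.nd (nat_lit 234) (nat_lit 836) (nat_lit 0) (XT.nd (nat_lit 78) (nat_lit 760) (nat_lit 0) (XT.lf (nat_lit 0) (nat_lit 28354256475) (nat_lit 456) (nat_lit 125657741) (nat_lit 532) (nat_lit 58213859717) (nat_lit 161) (nat_lit 5) (nat_lit 167) (nat_lit 5) (nat_lit 168) (nat_lit 5) (nat_lit 413) (nat_lit 390) (nat_lit 217)) (XT.nd (nat_lit 78) (nat_lit 380) (nat_lit 0) (XT.lf (nat_lit 0) (nat_lit 20591463637) (nat_lit 380) (nat_lit 31874109464) (nat_lit 456) (nat_lit 36810904591)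 (nat_lit 156) (nat_lit 5) (nat_lit 161) (nat_lit 5) (nat_lit 162) (nat_lit 5) (nat_lit 414) (nat_lit 390) (nat_lit 216)) (XT.lf (nat_lit 0) (nat_lit 12708824160) (nat_lit 380) (nat_lit 65918525628) (nat_lit 456) (nat_lit 13331662198) (nat_lit 151) (nat_lit 5) (nat_lit 156) (nat_lit 5) (nat_lit 157) (nat_lit 5) (nat_lit 415) (nat_lit 390) (nat_lit 215)))) (XT.nd (nat_lit 78) (nat_lit 380) (nat_lit 0) (XT.lf (nat_lit 0) (nat_lit 4501906582) (nat_lit 380) (nat_lit 7676539348) (nat_lit 456) (nat_lit 82561627707) (nat_lit 145) (nat_lit 5) (nat_lit 150) (nat_lit 5) (nat_lit 151) (nat_lit 5) (nat_lit 416) (nat_lit 390) (nat_lit 214)) (XT.nd (nat_lit 78) (nat_lit 380) (nat_lit 0) (XT.lf (nat_lit 0) (nat_lit 40027676625) (nat_lit 456) (nat_lit 4196300308) (nat_lit 76) (nat_lit 53392071793) (nat_lit 145) (nat_lit 5) (nat_lit 151) (nat_lit 5) (nat_lit 146) (nat_lit 5) (nat_lit 417) (nat_lit 390) (nat_lit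 213)) (XT.lf (nat_lit 0) (nat_lit 70358648288) (nat_lit 456) (nat_lit 12995725609) (nat_lit 76) (nat_lit 17248770618) (nat_lit 140) (nat_lit 5) (nat_lit 146) (nat_lit 5) (nat_lit 141) (nat_lit 5) (nat_lit 418) (nat_lit 390) (nat_lit 212)))))) (XT.nd (nat_lit 468) (nat_lit 836) (nat_lit 0) (XT.nd (nat_lit 234) (nat_lit 988) (nat_lit 0) (XT.nd (nat_lit 78) (nat_lit 760) (nat_lit 0) (XT.lf (nat_lit 0) (nat_lit 81492637600) (nat_lit 304) (nat_lit 21985793773) (nat_lit 380) (nat_lit 222996148) (nat_lit 136) (nat_lit 5) (nat_lit 140) (nat_lit 5) (nat_lit 141) (nat_lit 5) (nat_lit 419) (nat_lit 390) (nat_lit 211)) (XT.nd (nat_lit 78) (nat_lit 304) (nat_lit 0) (XT.lf (nat_lit 0) (nat_lit 31965167243) (nat_lit 456) (nat_lit 32149498464) (nat_lit 76) (nat_lit 42792642464) (nat_lit 130) (nat_lit 5) (nat_lit 136) (nat_lit 5) (nat_lit 131) (nat_lit 5) (nat_lit 420) (nat_lit 390) (nat_lit 210)) (XT.lf (nat_lit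 0) (nat_lit 66871968075) (nat_lit 380) (nat_lit 42383295787) (nat_lit 76) (nat_lit 984737795) (nat_lit 126) (nat_lit 5) (nat_lit 131) (nat_lit 5) (nat_lit 127) (nat_lit 5) (nat_lit 421) (nat_lit 390) (nat_lit 209)))) (XT.nd (nat_lit 78) (nat_lit 684) (nat_lit 0) (XT.lf (nat_lit 0) (nat_lit 60331076145) (nat_lit 304) (nat_lit 44753332061) (nat_lit 380) (nat_lit 8608112898) (nat_lit 122) (nat_lit 5) (nat_lit 126) (nat_lit 5) (nat_lit 127) (nat_lit 5) (nat_lit 422) (nat_lit 390) (nat_lit 208)) (XT.nd (nat_lit 78) (nat_lit 304) (nat_lit 0) (XT.lf (nat_lit 0) (nat_lit 28522859708) (nat_lit 380) (nat_lit 65000981900) (nat_lit 76) (nat_lit 23750463747) (nat_lit 117) (nat_lit 5) (nat_lit 122) (nat_lit 5) (nat_lit 118) (nat_lit 5) (nat_lit 423) (nat_lit 390) (nat_lit 207)) (XT.lf (nat_lit 0) (nat_lit 43591415778) (nat_lit 304) (nat_lit 25167132587) (nat_lit 380) (nat_lit 52231287930) (nat_lit 113) (nat_lit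 5) (nat_lit 117) (nat_lit 5) (nat_lit 118) (nat_lit 5) (nat_lit 424) (nat_lit 390) (nat_lit 206))))) (XT.nd (nat_lit 50466) (nat_lit 0) (nat_lit 10944) (XT.nd (nat_lit 78) (nat_lit 608) (nat_lit 0) (XT.lf (nat_lit 0) (nat_lit 34314251697) (nat_lit 228) (nat_lit 78144478442) (nat_lit 304) (nat_lit 12388832603) (nat_lit 110) (nat_lit 5) (nat_lit 113) (nat_lit 5) (nat_lit 114) (nat_lit 5) (nat_lit 425) (nat_lit 390) (nat_lit 205)) (XT.nd (nat_lit 78) (nat_lit 228) (nat_lit 0) (XT.lf (nat_lit 0) (nat_lit 24283209870) (nat_lit 304) (nat_lit 5879132038) (nat_lit 380) (nat_lit 98688606620) (nat_lit 105) (nat_lit 5) (nat_lit 109) (nat_lit 5) (nat_lit 110) (nat_lit 5) (nat_lit 426) (nat_lit 390) (nat_lit 204)) (XT.lf (nat_lit 0) (nat_lit 13154074671) (nat_lit 228) (nat_lit 63172806957) (nat_lit 304) (nat_lit 56671681523) (nat_lit 102) (nat_lit 5) (nat_lit 105) (nat_lit 5) (nat_lit 106) (nat_lit 5) (nat_lit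 427) (nat_lit 390) (nat_lit 203)))) (XT.nd (nat_lit 156) (nat_lit 0) (nat_lit 76) (XT.nd (nat_lit 78) (nat_lit 0) (nat_lit 76) (XT.lf (nat_lit 0) (nat_lit 5277933926) (nat_lit 1292) (nat_lit 9617539199) (nat_lit 1292) (nat_lit 9617539199) (nat_lit 246) (nat_lit 3) (nat_lit 263) (nat_lit 3) (nat_lit 263) (nat_lit 5) (nat_lit 391) (nat_lit 391) (nat_lit 238)) (XT.lf (nat_lit 0) (nat_lit 11152593752) (nat_lit 1216) (nat_lit 29789193093) (nat_lit 1292) (nat_lit 9299884904) (nat_lit 247) (nat_lit 5) (nat_lit 263) (nat_lit 5) (nat_lit 264) (nat_lit 5) (nat_lit 392) (nat_lit 391) (nat_lit 237))) (XT.nd (nat_lit 78) (nat_lit 0) (nat_lit 76) (XT.lf (nat_lit 76) (nat_lit 10923126539) (nat_lit 0) (nat_lit 1458857698) (nat_lit 1292) (nat_lit 39118033310) (nat_lit 248) (nat_lit 5) (nat_lit 247) (nat_lit 5) (nat_lit 264) (nat_lit 5) (nat_lit 393) (nat_lit 391) (nat_lit 236)) (XT.lf (nat_lit 76) (nat_lit 1114071035)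 (nat_lit 0) (nat_lit 13260963029) (nat_lit 1292) (nat_lit 38425182013) (nat_lit 249) (nat_lit 5) (nat_lit 248) (nat_lit 5) (nat_lit 265) (nat_lit 5) (nat_lit 394) (nat_lit 391) (nat_lit 235))))))))
noncomputable def xc118 : XT := (XT.nd (nat_lit 1872) (nat_lit 2660) (nat_lit 0) (XT.nd (nat_lit 936) (nat_lit 4636) (nat_lit 0) (XT.nd (nat_lit 468) (nat_lit 3268) (nat_lit 0) (XT.nd (nat_lit 234) (nat_lit 0) (nat_lit 152) (XT.nd (nat_lit 78) (nat_lit 0) (nat_lit 76) (XT.lf (nat_lit 0) (nat_lit 17174505692) (nat_lit 1216) (nat_lit 8708688140) (nat_lit 1292) (nat_lit 28261028704) (nat_lit 249) (nat_lit 5) (nat_lit 265) (nat_lit 5) (nat_lit 266) (nat_lit 5) (nat_lit 395) (nat_lit 391) (nat_lit 234)) (XT.nd (nat_lit 78) (nat_lit 0) (nat_lit 76) (XT.lf (nat_lit 0) (nat_lit 20758731795) (nat_lit 1216) (nat_lit 18694207027) (nat_lit 1292) (nat_lit 16083148101) (nat_lit 250) (nat_lit 5) (nat_lit 266) (nat_lit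 5) (nat_lit 267) (nat_lit 5) (nat_lit 396) (nat_lit 391) (nat_lit 233)) (XT.lf (nat_lit 0) (nat_lit 25170973401) (nat_lit 1216) (nat_lit 28865279848) (nat_lit 1292) (nat_lit 2941828136) (nat_lit 251) (nat_lit 5) (nat_lit 267) (nat_lit 5) (nat_lit 268) (nat_lit 5) (nat_lit 397) (nat_lit 391) (nat_lit 232)))) (XT.nd (nat_lit 78) (nat_lit 0) (nat_lit 76) (XT.lf (nat_lit 76) (nat_lit 19136056325) (nat_lit 0) (nat_lit 11442033240) (nat_lit 1292) (nat_lit 27890859065) (nat_lit 252) (nat_lit 5) (nat_lit 251) (nat_lit 5) (nat_lit 268) (nat_lit 5) (nat_lit 398) (nat_lit 391) (nat_lit 231)) (XT.nd (nat_lit 78) (nat_lit 0) (nat_lit 76) (XT.lf (nat_lit 76) (nat_lit 9985520509) (nat_lit 0) (nat_lit 26983896059) (nat_lit 1292) (nat_lit 23043527910) (nat_lit 253) (nat_lit 5) (nat_lit 252) (nat_lit 5) (nat_lit 269) (nat_lit 5) (nat_lit 399) (nat_lit 391) (nat_lit 230)) (XT.lf (nat_lit 76) (nat_lit 691580306)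 (nat_lit 0) (nat_lit 43688243067) (nat_lit 1292) (nat_lit 17233332189) (nat_lit 254) (nat_lit 5) (nat_lit 253) (nat_lit 5) (nat_lit 270) (nat_lit 5) (nat_lit 400) (nat_lit 391) (nat_lit 229))))) (XT.nd (nat_lit 234) (nat_lit 1748) (nat_lit 0) (XT.nd (nat_lit 78) (nat_lit 1900) (nat_lit 0) (XT.lf (nat_lit 0) (nat_lit 52960458921) (nat_lit 1216) (nat_lit 8574365654) (nat_lit 76) (nat_lit 1734562181) (nat_lit 254) (nat_lit 5) (nat_lit 270) (nat_lit 5) (nat_lit 255) (nat_lit 5) (nat_lit 401) (nat_lit 391) (nat_lit 228)) (XT.nd (nat_lit 78) (nat_lit 684) (nat_lit 0) (XT.lf (nat_lit 0) (nat_lit 46862065964) (nat_lit 1216) (nat_lit 15997609759) (nat_lit 1292) (nat_lit 2122068071) (nat_lit 238) (nat_lit 5) (nat_lit 254) (nat_lit 5) (nat_lit 255) (nat_lit 5) (nat_lit 402) (nat_lit 391) (nat_lit 227)) (XT.lf (nat_lit 0) (nat_lit 7122736732) (nat_lit 684) (nat_lit 27902916074) (nat_lit 76) (nat_lit 31728951518)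 (nat_lit 229) (nat_lit 5) (nat_lit 238) (nat_lit 5) (nat_lit 230) (nat_lit 5) (nat_lit 403) (nat_lit 391) (nat_lit 226)))) (XT.nd (nat_lit 78) (nat_lit 1140) (nat_lit 0) (XT.lf (nat_lit 0) (nat_lit 17560044351) (nat_lit 684) (nat_lit 37869670814) (nat_lit 76) (nat_lit 13162538568) (nat_lit 221) (nat_lit 5) (nat_lit 230) (nat_lit 5) (nat_lit 222) (nat_lit 5) (nat_lit 404) (nat_lit 391) (nat_lit 225)) (XT.nd (nat_lit 78) (nat_lit 532) (nat_lit 0) (XT.lf (nat_lit 0) (nat_lit 22428946648) (nat_lit 608) (nat_lit 6947797638) (nat_lit 684) (nat_lit 41119316165) (nat_lit 213) (nat_lit 5) (nat_lit 221) (nat_lit 5) (nat_lit 222) (nat_lit 5) (nat_lit 405) (nat_lit 391) (nat_lit 224)) (XT.lf (nat_lit 0) (nat_lit 13893561546) (nat_lit 532) (nat_lit 28838907694) (nat_lit 608) (nat_lit 29734143179) (nat_lit 206) (nat_lit 5) (nat_lit 213) (nat_lit 5) (nat_lit 214) (nat_lit 5) (nat_lit 406) (nat_lit 391) (nat_lit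 223)))))) (XT.nd (nat_lit 468) (nat_lit 2128) (nat_lit 0) (XT.nd (nat_lit 234) (nat_lit 1444) (nat_lit 0) (XT.nd (nat_lit 78) (nat_lit 532) (nat_lit 0) (XT.lf (nat_lit 0) (nat_lit 5250354920) (nat_lit 532) (nat_lit 52335700209) (nat_lit 608) (nat_lit 16924735199) (nat_lit 199) (nat_lit 5) (nat_lit 206) (nat_lit 5) (nat_lit 207) (nat_lit 5) (nat_lit 407) (nat_lit 391) (nat_lit 222)) (XT.nd (nat_lit 78) (nat_lit 532) (nat_lit 0) (XT.lf (nat_lit 0) (nat_lit 73190475344) (nat_lit 532) (nat_lit 881535586) (nat_lit 608) (nat_lit 2558476042) (nat_lit 199) (nat_lit 5) (nat_lit 206) (nat_lit 5) (nat_lit 207) (nat_lit 5) (nat_lit 408) (nat_lit 391) (nat_lit 221)) (XT.lf (nat_lit 0) (nat_lit 13441293029) (nat_lit 532) (nat_lit 12497694305) (nat_lit 76) (nat_lit 52878780589) (nat_lit 192) (nat_lit 5) (nat_lit 199) (nat_lit 5) (nat_lit 193) (nat_lit 5) (nat_lit 409) (nat_lit 391) (nat_lit 220)))) (XT.nd (nat_lit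 78) (nat_lit 912) (nat_lit 0) (XT.lf (nat_lit 0) (nat_lit 31082651601) (nat_lit 608) (nat_lit 21718294281) (nat_lit 76) (nat_lit 28285872159) (nat_lit 185) (nat_lit 5) (nat_lit 193) (nat_lit 5) (nat_lit 186) (nat_lit 5) (nat_lit 410) (nat_lit 391) (nat_lit 219)) (XT.nd (nat_lit 78) (nat_lit 456) (nat_lit 0) (XT.lf (nat_lit 0) (nat_lit 50518085681) (nat_lit 532) (nat_lit 31079299219) (nat_lit 76) (nat_lit 1844576004) (nat_lit 179) (nat_lit 5) (nat_lit 186) (nat_lit 5) (nat_lit 180) (nat_lit 5) (nat_lit 411) (nat_lit 391) (nat_lit 218)) (XT.lf (nat_lit 0) (nat_lit 45035491735) (nat_lit 456) (nat_lit 27080140069) (nat_lit 532) (nat_lit 13763519342) (nat_lit 173) (nat_lit 5) (nat_lit 179) (nat_lit 5) (nat_lit 180) (nat_lit 5) (nat_lit 412) (nat_lit 391) (nat_lit 217))))) (XT.nd (nat_lit 234) (nat_lit 836) (nat_lit 0) (XT.nd (nat_lit 78) (nat_lit 836) (nat_lit 0) (XT.lf (nat_lit 0) (nat_lit 7213881908)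 (nat_lit 456) (nat_lit 50863440033) (nat_lit 76) (nat_lit 30329555757) (nat_lit 167) (nat_lit 5) (nat_lit 173) (nat_lit 5) (nat_lit 168) (nat_lit 5) (nat_lit 413) (nat_lit 391) (nat_lit 216)) (XT.nd (nat_lit 78) (nat_lit 380) (nat_lit 0) (XT.lf (nat_lit 0) (nat_lit 29818993894) (nat_lit 456) (nat_lit 122523752) (nat_lit 532) (nat_lit 61085804697) (nat_lit 161) (nat_lit 5) (nat_lit 167) (nat_lit 5) (nat_lit 168) (nat_lit 5) (nat_lit 414) (nat_lit 391) (nat_lit 215)) (XT.lf (nat_lit 0) (nat_lit 21667733138) (nat_lit 380) (nat_lit 33457470577) (nat_lit 456) (nat_lit 38613995822) (nat_lit 156) (nat_lit 5) (nat_lit 161) (nat_lit 5) (nat_lit 162) (nat_lit 5) (nat_lit 415) (nat_lit 391) (nat_lit 214)))) (XT.nd (nat_lit 78) (nat_lit 456) (nat_lit 0) (XT.lf (nat_lit 0) (nat_lit 13390597012) (nat_lit 380) (nat_lit 69203281248) (nat_lit 456) (nat_lit 13962018561) (nat_lit 151) (nat_lit 5) (nat_lit 156)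 (nat_lit 5) (nat_lit 157) (nat_lit 5) (nat_lit 416) (nat_lit 391) (nat_lit 213)) (XT.nd (nat_lit 78) (nat_lit 0) (nat_lit 0) (XT.lf (nat_lit 0) (nat_lit 4772702430) (nat_lit 380) (nat_lit 8048933510) (nat_lit 456) (nat_lit 86654403237) (nat_lit 145) (nat_lit 5) (nat_lit 150) (nat_lit 5) (nat_lit 151) (nat_lit 5) (nat_lit 417) (nat_lit 391) (nat_lit 212)) (XT.lf (nat_lit 0) (nat_lit 42061801040) (nat_lit 456) (nat_lit 4361706979) (nat_lit 76) (nat_lit 56072351297) (nat_lit 145) (nat_lit 5) (nat_lit 151) (nat_lit 5) (nat_lit 146) (nat_lit 5) (nat_lit 418) (nat_lit 391) (nat_lit 211))))))) (XT.nd (nat_lit 51324) (nat_lit 0) (nat_lit 6764) (XT.nd (nat_lit 468) (nat_lit 532) (nat_lit 0) (XT.nd (nat_lit 234) (nat_lit 988) (nat_lit 0) (XT.nd (nat_lit 78) (nat_lit 760) (nat_lit 0) (XT.lf (nat_lit 0) (nat_lit 73908287776) (nat_lit 456) (nat_lit 13601530368) (nat_lit 76) (nat_lit 18122523213) (nat_lit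 140) (nat_lit 5) (nat_lit 146) (nat_lit 5) (nat_lit 141) (nat_lit 5) (nat_lit 419) (nat_lit 391) (nat_lit 210)) (XT.nd (nat_lit 78) (nat_lit 456) (nat_lit 0) (XT.lf (nat_lit 0) (nat_lit 85609990280) (nat_lit 304) (nat_lit 23072970533) (nat_lit 380) (nat_lit 202611114) (nat_lit 136) (nat_lit 5) (nat_lit 140) (nat_lit 5) (nat_lit 141) (nat_lit 5) (nat_lit 420) (nat_lit 391) (nat_lit 209)) (XT.lf (nat_lit 0) (nat_lit 33593395202) (nat_lit 456) (nat_lit 33714085341) (nat_lit 76) (nat_lit 44944285873) (nat_lit 130) (nat_lit 5) (nat_lit 136) (nat_lit 5) (nat_lit 131) (nat_lit 5) (nat_lit 421) (nat_lit 391) (nat_lit 208)))) (XT.nd (nat_lit 78) (nat_lit 684) (nat_lit 0) (XT.lf (nat_lit 0) (nat_lit 70244631632) (nat_lit 380) (nat_lit 44460048161) (nat_lit 76) (nat_lit 1046442302) (nat_lit 126) (nat_lit 5) (nat_lit 131) (nat_lit 5) (nat_lit 127) (nat_lit 5) (nat_lit 422) (nat_lit 391) (nat_lit 207)) (XT.nd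 (nat_lit 78) (nat_lit 380) (nat_lit 0) (XT.lf (nat_lit 0) (nat_lit 63388826624) (nat_lit 304) (nat_lit 46977879097) (nat_lit 380) (nat_lit 9009591799) (nat_lit 122) (nat_lit 5) (nat_lit 126) (nat_lit 5) (nat_lit 127) (nat_lit 5) (nat_lit 423) (nat_lit 391) (nat_lit 206)) (XT.lf (nat_lit 0) (nat_lit 29976530972) (nat_lit 380) (nat_lit 68209757792) (nat_lit 76) (nat_lit 24950899238) (nat_lit 117) (nat_lit 5) (nat_lit 122) (nat_lit 5) (nat_lit 118) (nat_lit 5) (nat_lit 424) (nat_lit 391) (nat_lit 205))))) (XT.nd (nat_lit 50622) (nat_lit 0) (nat_lit 10412) (XT.nd (nat_lit 78) (nat_lit 228) (nat_lit 0) (XT.lf (nat_lit 0) (nat_lit 45811076682) (nat_lit 304) (nat_lit 26412001880) (nat_lit 380) (nat_lit 54815445014) (nat_lit 113) (nat_lit 5) (nat_lit 117) (nat_lit 5) (nat_lit 118) (nat_lit 5) (nat_lit 425) (nat_lit 391) (nat_lit 204)) (XT.nd (nat_lit 50466) (nat_lit 0) (nat_lit 10336) (XT.lf (nat_lit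 0) (nat_lit 36069560761) (nat_lit 228) (nat_lit 82037945964) (nat_lit 304) (nat_lit 12981652807) (nat_lit 110) (nat_lit 5) (nat_lit 113) (nat_lit 5) (nat_lit 114) (nat_lit 5) (nat_lit 426) (nat_lit 391) (nat_lit 203)) (XT.lf (nat_lit 0) (nat_lit 5585290724) (nat_lit 1292) (nat_lit 10076025031) (nat_lit 1292) (nat_lit 10076025031) (nat_lit 246) (nat_lit 3) (nat_lit 263) (nat_lit 3) (nat_lit 263) (nat_lit 5) (nat_lit 392) (nat_lit 392) (nat_lit 236)))) (XT.nd (nat_lit 78) (nat_lit 0) (nat_lit 0) (XT.lf (nat_lit 0) (nat_lit 11793041092) (nat_lit 1216) (nat_lit 31232241608) (nat_lit 1292) (nat_lit 9725953153) (nat_lit 247) (nat_lit 5) (nat_lit 263) (nat_lit 5) (nat_lit 264) (nat_lit 5) (nat_lit 393) (nat_lit 392) (nat_lit 235)) (XT.nd (nat_lit 78) (nat_lit 0) (nat_lit 76) (XT.lf (nat_lit 76) (nat_lit 11514363639) (nat_lit 0) (nat_lit 1566027109) (nat_lit 1292) (nat_lit 40992215169) (nat_lit 248)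 (nat_lit 5) (nat_lit 247) (nat_lit 5) (nat_lit 264) (nat_lit 5) (nat_lit 394) (nat_lit 392) (nat_lit 234)) (XT.lf (nat_lit 76) (nat_lit 1216226057) (nat_lit 0) (nat_lit 13953223651) (nat_lit 1292) (nat_lit 40268475550) (nat_lit 249) (nat_lit 5) (nat_lit 248) (nat_lit 5) (nat_lit 265) (nat_lit 5) (nat_lit 395) (nat_lit 392) (nat_lit 233)))))) (XT.nd (nat_lit 468) (nat_lit 3800) (nat_lit 0) (XT.nd (nat_lit 234) (nat_lit 0) (nat_lit 152) (XT.nd (nat_lit 78) (nat_lit 0) (nat_lit 76) (XT.lf (nat_lit 0) (nat_lit 18105024438) (nat_lit 1216) (nat_lit 9097423594) (nat_lit 1292) (nat_lit 29646801634) (nat_lit 249) (nat_lit 5) (nat_lit 265) (nat_lit 5) (nat_lit 266) (nat_lit 5) (nat_lit 396) (nat_lit 392) (nat_lit 232)) (XT.nd (nat_lit 78) (nat_lit 0) (nat_lit 76) (XT.lf (nat_lit 0) (nat_lit 21865253721) (nat_lit 1216) (nat_lit 19581238543) (nat_lit 1292) (nat_lit 16864312690) (nat_lit 250) (nat_lit 5)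 (nat_lit 266) (nat_lit 5) (nat_lit 267) (nat_lit 5) (nat_lit 397) (nat_lit 392) (nat_lit 231)) (XT.lf (nat_lit 0) (nat_lit 26495099630) (nat_lit 1216) (nat_lit 30260044398) (nat_lit 1292) (nat_lit 3069846712) (nat_lit 251) (nat_lit 5) (nat_lit 267) (nat_lit 5) (nat_lit 268) (nat_lit 5) (nat_lit 398) (nat_lit 392) (nat_lit 230)))) (XT.nd (nat_lit 78) (nat_lit 0) (nat_lit 76) (XT.lf (nat_lit 76) (nat_lit 20139968357) (nat_lit 0) (nat_lit 12029933348) (nat_lit 1292) (nat_lit 29220581045) (nat_lit 252) (nat_lit 5) (nat_lit 251) (nat_lit 5) (nat_lit 268) (nat_lit 5) (nat_lit 399) (nat_lit 392) (nat_lit 229)) (XT.nd (nat_lit 78) (nat_lit 0) (nat_lit 76) (XT.lf (nat_lit 76) (nat_lit 10532561352) (nat_lit 0) (nat_lit 28345552614) (nat_lit 1292) (nat_lit 24133646097) (nat_lit 253) (nat_lit 5) (nat_lit 252) (nat_lit 5) (nat_lit 269) (nat_lit 5) (nat_lit 400) (nat_lit 392) (nat_lit 228)) (XT.lf (nat_lit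 76) (nat_lit 774450461) (nat_lit 0) (nat_lit 45882072837) (nat_lit 1292) (nat_lit 18035535121) (nat_lit 254) (nat_lit 5) (nat_lit 253) (nat_lit 5) (nat_lit 270) (nat_lit 5) (nat_lit 401) (nat_lit 392) (nat_lit 227))))) (XT.nd (nat_lit 234) (nat_lit 2280) (nat_lit 0) (XT.nd (nat_lit 78) (nat_lit 1900) (nat_lit 0) (XT.lf (nat_lit 0) (nat_lit 55663356371) (nat_lit 1216) (nat_lit 8955334806) (nat_lit 76) (nat_lit 1812496151) (nat_lit 254) (nat_lit 5) (nat_lit 270) (nat_lit 5) (nat_lit 255) (nat_lit 5) (nat_lit 402) (nat_lit 392) (nat_lit 226)) (XT.nd (nat_lit 78) (nat_lit 684) (nat_lit 0) (XT.lf (nat_lit 0) (nat_lit 49251549674) (nat_lit 1216) (nat_lit 16803817105) (nat_lit 1292) (nat_lit 2173861529) (nat_lit 238) (nat_lit 5) (nat_lit 254) (nat_lit 5) (nat_lit 255) (nat_lit 5) (nat_lit 403) (nat_lit 392) (nat_lit 225)) (XT.lf (nat_lit 0) (nat_lit 7529982544) (nat_lit 684) (nat_lit 29250358132) (nat_lit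 76) (nat_lit 33310440754) (nat_lit 229) (nat_lit 5) (nat_lit 238) (nat_lit 5) (nat_lit 230) (nat_lit 5) (nat_lit 404) (nat_lit 392) (nat_lit 224)))) (XT.nd (nat_lit 156) (nat_lit 1064) (nat_lit 0) (XT.nd (nat_lit 78) (nat_lit 608) (nat_lit 0) (XT.lf (nat_lit 0) (nat_lit 18487140433) (nat_lit 684) (nat_lit 39715298747) (nat_lit 76) (nat_lit 13817935528) (nat_lit 221) (nat_lit 5) (nat_lit 230) (nat_lit 5) (nat_lit 222) (nat_lit 5) (nat_lit 405) (nat_lit 392) (nat_lit 223)) (XT.lf (nat_lit 0) (nat_lit 23596877817) (nat_lit 608) (nat_lit 7295906576) (nat_lit 684) (nat_lit 43126644998) (nat_lit 213) (nat_lit 5) (nat_lit 221) (nat_lit 5) (nat_lit 222) (nat_lit 5) (nat_lit 406) (nat_lit 392) (nat_lit 222))) (XT.nd (nat_lit 78) (nat_lit 532) (nat_lit 0) (XT.lf (nat_lit 0) (nat_lit 14634790699) (nat_lit 532) (nat_lit 30279698033) (nat_lit 608) (nat_lit 31174075288) (nat_lit 206) (nat_lit 5) (nat_lit 213)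 (nat_lit 5) (nat_lit 214) (nat_lit 5) (nat_lit 407) (nat_lit 392) (nat_lit 221)) (XT.lf (nat_lit 0) (nat_lit 5559418070) (nat_lit 532) (nat_lit 54949632126) (nat_lit 608) (nat_lit 17725952555) (nat_lit 199) (nat_lit 5) (nat_lit 206) (nat_lit 5) (nat_lit 207) (nat_lit 5) (nat_lit 408) (nat_lit 392) (nat_lit 220))))))))
noncomputable def xc119 : XT := (XT.nd (nat_lit 52416) (nat_lit 0) (nat_lit 988) (XT.nd (nat_lit 936) (nat_lit 2052) (nat_lit 0) (XT.nd (nat_lit 468) (nat_lit 2052) (nat_lit 0) (XT.nd (nat_lit 234) (nat_lit 1368) (nat_lit 0) (XT.nd (nat_lit 78) (nat_lit 1064) (nat_lit 0) (XT.lf (nat_lit 0) (nat_lit 76894328068) (nat_lit 532) (nat_lit 922895134) (nat_lit 608) (nat_lit 2643524222) (nat_lit 199) (nat_lit 5) (nat_lit 206) (nat_lit 5) (nat_lit 207) (nat_lit 5) (nat_lit 409) (nat_lit 392) (nat_lit 219)) (XT.nd (nat_lit 78) (nat_lit 532) (nat_lit 0) (XT.lf (nat_lit 0) (nat_lit 14153849585)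 (nat_lit 532) (nat_lit 13077498204) (nat_lit 76) (nat_lit 55526079399) (nat_lit 192) (nat_lit 5) (nat_lit 199) (nat_lit 5) (nat_lit 193) (nat_lit 5) (nat_lit 410) (nat_lit 392) (nat_lit 218)) (XT.lf (nat_lit 0) (nat_lit 32675815000) (nat_lit 608) (nat_lit 22759283360) (nat_lit 76) (nat_lit 29704875968) (nat_lit 185) (nat_lit 5) (nat_lit 193) (nat_lit 5) (nat_lit 186) (nat_lit 5) (nat_lit 411) (nat_lit 392) (nat_lit 217)))) (XT.nd (nat_lit 78) (nat_lit 912) (nat_lit 0) (XT.lf (nat_lit 0) (nat_lit 53081639767) (nat_lit 532) (nat_lit 32588543660) (nat_lit 76) (nat_lit 1942732990) (nat_lit 179) (nat_lit 5) (nat_lit 186) (nat_lit 5) (nat_lit 180) (nat_lit 5) (nat_lit 412) (nat_lit 392) (nat_lit 216)) (XT.nd (nat_lit 78) (nat_lit 456) (nat_lit 0) (XT.lf (nat_lit 0) (nat_lit 47330704936) (nat_lit 456) (nat_lit 28426982970) (nat_lit 532) (nat_lit 14414320144) (nat_lit 173) (nat_lit 5) (nat_lit 179) (nat_lit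 5) (nat_lit 180) (nat_lit 5) (nat_lit 413) (nat_lit 392) (nat_lit 215)) (XT.lf (nat_lit 0) (nat_lit 7609962375) (nat_lit 456) (nat_lit 53362700628) (nat_lit 76) (nat_lit 31853485507) (nat_lit 167) (nat_lit 5) (nat_lit 173) (nat_lit 5) (nat_lit 168) (nat_lit 5) (nat_lit 414) (nat_lit 392) (nat_lit 214))))) (XT.nd (nat_lit 234) (nat_lit 836) (nat_lit 0) (XT.nd (nat_lit 78) (nat_lit 760) (nat_lit 0) (XT.lf (nat_lit 0) (nat_lit 31352596283) (nat_lit 456) (nat_lit 120108555) (nat_lit 532) (nat_lit 64104949348) (nat_lit 161) (nat_lit 5) (nat_lit 167) (nat_lit 5) (nat_lit 168) (nat_lit 5) (nat_lit 415) (nat_lit 392) (nat_lit 213)) (XT.nd (nat_lit 78) (nat_lit 380) (nat_lit 0) (XT.lf (nat_lit 0) (nat_lit 22793474734) (nat_lit 380) (nat_lit 35120961465) (nat_lit 456) (nat_lit 40510723732) (nat_lit 156) (nat_lit 5) (nat_lit 161) (nat_lit 5) (nat_lit 162) (nat_lit 5) (nat_lit 416) (nat_lit 392) (nat_lit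 212)) (XT.lf (nat_lit 0) (nat_lit 14102151029) (nat_lit 380) (nat_lit 72653313192) (nat_lit 456) (nat_lit 14627260762) (nat_lit 151) (nat_lit 5) (nat_lit 156) (nat_lit 5) (nat_lit 157) (nat_lit 5) (nat_lit 417) (nat_lit 392) (nat_lit 211)))) (XT.nd (nat_lit 78) (nat_lit 380) (nat_lit 0) (XT.lf (nat_lit 0) (nat_lit 5052789270) (nat_lit 380) (nat_lit 8441010294) (nat_lit 456) (nat_lit 90955099947) (nat_lit 145) (nat_lit 5) (nat_lit 150) (nat_lit 5) (nat_lit 151) (nat_lit 5) (nat_lit 418) (nat_lit 392) (nat_lit 210)) (XT.nd (nat_lit 78) (nat_lit 380) (nat_lit 0) (XT.lf (nat_lit 0) (nat_lit 44194587766) (nat_lit 456) (nat_lit 4539512650) (nat_lit 76) (nat_lit 58885652231) (nat_lit 145) (nat_lit 5) (nat_lit 151) (nat_lit 5) (nat_lit 146) (nat_lit 5) (nat_lit 419) (nat_lit 392) (nat_lit 209)) (XT.lf (nat_lit 0) (nat_lit 77632461416) (nat_lit 456) (nat_lit 14241714350) (nat_lit 76) (nat_lit 19038911564)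 (nat_lit 140) (nat_lit 5) (nat_lit 146) (nat_lit 5) (nat_lit 141) (nat_lit 5) (nat_lit 420) (nat_lit 392) (nat_lit 208)))))) (XT.nd (nat_lit 50934) (nat_lit 0) (nat_lit 10108) (XT.nd (nat_lit 234) (nat_lit 988) (nat_lit 0) (XT.nd (nat_lit 78) (nat_lit 760) (nat_lit 0) (XT.lf (nat_lit 0) (nat_lit 89929238819) (nat_lit 304) (nat_lit 24215632277) (nat_lit 380) (nat_lit 184138638) (nat_lit 136) (nat_lit 5) (nat_lit 140) (nat_lit 5) (nat_lit 141) (nat_lit 5) (nat_lit 421) (nat_lit 392) (nat_lit 207)) (XT.nd (nat_lit 78) (nat_lit 304) (nat_lit 0) (XT.lf (nat_lit 0) (nat_lit 35300248269) (nat_lit 456) (nat_lit 35360888886) (nat_lit 76) (nat_lit 47202394757) (nat_lit 130) (nat_lit 5) (nat_lit 136) (nat_lit 5) (nat_lit 131) (nat_lit 5) (nat_lit 422) (nat_lit 392) (nat_lit 206)) (XT.lf (nat_lit 0) (nat_lit 73783226164) (nat_lit 380) (nat_lit 46644581257) (nat_lit 76) (nat_lit 1110072913) (nat_lit 126)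 (nat_lit 5) (nat_lit 131) (nat_lit 5) (nat_lit 127) (nat_lit 5) (nat_lit 423) (nat_lit 392) (nat_lit 205)))) (XT.nd (nat_lit 78) (nat_lit 684) (nat_lit 0) (XT.lf (nat_lit 0) (nat_lit 66595634552) (nat_lit 304) (nat_lit 49314873218) (nat_lit 380) (nat_lit 9433833979) (nat_lit 122) (nat_lit 5) (nat_lit 126) (nat_lit 5) (nat_lit 127) (nat_lit 5) (nat_lit 424) (nat_lit 392) (nat_lit 204)) (XT.nd (nat_lit 78) (nat_lit 304) (nat_lit 0) (XT.lf (nat_lit 0) (nat_lit 31500326481) (nat_lit 380) (nat_lit 71582809670) (nat_lit 76) (nat_lit 26210156040) (nat_lit 117) (nat_lit 5) (nat_lit 122) (nat_lit 5) (nat_lit 118) (nat_lit 5) (nat_lit 425) (nat_lit 392) (nat_lit 203)) (XT.lf (nat_lit 0) (nat_lit 48137993432) (nat_lit 304) (nat_lit 27720368563) (nat_lit 380) (nat_lit 57531358024) (nat_lit 113) (nat_lit 5) (nat_lit 117) (nat_lit 5) (nat_lit 118) (nat_lit 5) (nat_lit 426) (nat_lit 392) (nat_lit 202))))) (XT.nd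 (nat_lit 234) (nat_lit 0) (nat_lit 152) (XT.nd (nat_lit 78) (nat_lit 0) (nat_lit 76) (XT.lf (nat_lit 0) (nat_lit 5903974853) (nat_lit 1292) (nat_lit 10559516870) (nat_lit 1292) (nat_lit 10559516870) (nat_lit 246) (nat_lit 3) (nat_lit 263) (nat_lit 3) (nat_lit 263) (nat_lit 5) (nat_lit 393) (nat_lit 393) (nat_lit 234)) (XT.nd (nat_lit 78) (nat_lit 0) (nat_lit 0) (XT.lf (nat_lit 0) (nat_lit 12457811199) (nat_lit 1216) (nat_lit 32751757417) (nat_lit 1292) (nat_lit 10176943784) (nat_lit 247) (nat_lit 5) (nat_lit 263) (nat_lit 5) (nat_lit 264) (nat_lit 5) (nat_lit 394) (nat_lit 393) (nat_lit 233)) (XT.lf (nat_lit 76) (nat_lit 12130971411) (nat_lit 0) (nat_lit 1675372932) (nat_lit 1292) (nat_lit 42967703654) (nat_lit 248) (nat_lit 5) (nat_lit 247) (nat_lit 5) (nat_lit 264) (nat_lit 5) (nat_lit 395) (nat_lit 393) (nat_lit 232)))) (XT.nd (nat_lit 156) (nat_lit 0) (nat_lit 152) (XT.nd (nat_lit 78) (nat_lit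 0) (nat_lit 76) (XT.lf (nat_lit 76) (nat_lit 1319170213) (nat_lit 0) (nat_lit 14677381406) (nat_lit 1292) (nat_lit 42211182264) (nat_lit 249) (nat_lit 5) (nat_lit 248) (nat_lit 5) (nat_lit 265) (nat_lit 5) (nat_lit 396) (nat_lit 393) (nat_lit 231)) (XT.lf (nat_lit 0) (nat_lit 19075394444) (nat_lit 1216) (nat_lit 9509937447) (nat_lit 1292) (nat_lit 31104399308) (nat_lit 249) (nat_lit 5) (nat_lit 265) (nat_lit 5) (nat_lit 266) (nat_lit 5) (nat_lit 397) (nat_lit 393) (nat_lit 230))) (XT.nd (nat_lit 78) (nat_lit 0) (nat_lit 76) (XT.lf (nat_lit 0) (nat_lit 23020725328) (nat_lit 1216) (nat_lit 20517054361) (nat_lit 1292) (nat_lit 17686673162) (nat_lit 250) (nat_lit 5) (nat_lit 266) (nat_lit 5) (nat_lit 267) (nat_lit 5) (nat_lit 398) (nat_lit 393) (nat_lit 229)) (XT.lf (nat_lit 0) (nat_lit 27879335391) (nat_lit 1216) (nat_lit 31729056194) (nat_lit 1292) (nat_lit 3206039429) (nat_lit 251) (nat_lit 5)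 (nat_lit 267) (nat_lit 5) (nat_lit 268) (nat_lit 5) (nat_lit 399) (nat_lit 393) (nat_lit 228))))))) (XT.nd (nat_lit 936) (nat_lit 5016) (nat_lit 0) (XT.nd (nat_lit 468) (nat_lit 2812) (nat_lit 0) (XT.nd (nat_lit 234) (nat_lit 1672) (nat_lit 0) (XT.nd (nat_lit 78) (nat_lit 0) (nat_lit 76) (XT.lf (nat_lit 76) (nat_lit 21189696222) (nat_lit 0) (nat_lit 12645759671) (nat_lit 1292) (nat_lit 30622815564) (nat_lit 252) (nat_lit 5) (nat_lit 251) (nat_lit 5) (nat_lit 268) (nat_lit 5) (nat_lit 400) (nat_lit 393) (nat_lit 227)) (XT.nd (nat_lit 78) (nat_lit 0) (nat_lit 76) (XT.lf (nat_lit 76) (nat_lit 11102513518) (nat_lit 0) (nat_lit 29774133422) (nat_lit 1292) (nat_lit 25284039779) (nat_lit 253) (nat_lit 5) (nat_lit 252) (nat_lit 5) (nat_lit 269) (nat_lit 5) (nat_lit 401) (nat_lit 393) (nat_lit 226)) (XT.lf (nat_lit 76) (nat_lit 856974471) (nat_lit 0) (nat_lit 48184718536) (nat_lit 1292) (nat_lit 18883376570)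 (nat_lit 254) (nat_lit 5) (nat_lit 253) (nat_lit 5) (nat_lit 270) (nat_lit 5) (nat_lit 402) (nat_lit 393) (nat_lit 225)))) (XT.nd (nat_lit 78) (nat_lit 1900) (nat_lit 0) (XT.lf (nat_lit 0) (nat_lit 58496296982) (nat_lit 1216) (nat_lit 9359791677) (nat_lit 76) (nat_lit 1895144416) (nat_lit 254) (nat_lit 5) (nat_lit 270) (nat_lit 5) (nat_lit 255) (nat_lit 5) (nat_lit 403) (nat_lit 393) (nat_lit 224)) (XT.nd (nat_lit 78) (nat_lit 684) (nat_lit 0) (XT.lf (nat_lit 0) (nat_lit 51756195559) (nat_lit 1216) (nat_lit 17649746606) (nat_lit 1292) (nat_lit 2233293885) (nat_lit 238) (nat_lit 5) (nat_lit 254) (nat_lit 5) (nat_lit 255) (nat_lit 5) (nat_lit 404) (nat_lit 393) (nat_lit 223)) (XT.lf (nat_lit 0) (nat_lit 7952839019) (nat_lit 684) (nat_lit 30669607334) (nat_lit 76) (nat_lit 34971465432) (nat_lit 229) (nat_lit 5) (nat_lit 238) (nat_lit 5) (nat_lit 230) (nat_lit 5) (nat_lit 405) (nat_lit 393) (nat_lit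 222))))) (XT.nd (nat_lit 234) (nat_lit 1064) (nat_lit 0) (XT.nd (nat_lit 78) (nat_lit 1140) (nat_lit 0) (XT.lf (nat_lit 0) (nat_lit 19456027036) (nat_lit 684) (nat_lit 41657657238) (nat_lit 76) (nat_lit 14506356143) (nat_lit 221) (nat_lit 5) (nat_lit 230) (nat_lit 5) (nat_lit 222) (nat_lit 5) (nat_lit 406) (nat_lit 393) (nat_lit 221)) (XT.nd (nat_lit 78) (nat_lit 532) (nat_lit 0) (XT.lf (nat_lit 0) (nat_lit 24818883918) (nat_lit 608) (nat_lit 7661354109) (nat_lit 684) (nat_lit 45238862078) (nat_lit 213) (nat_lit 5) (nat_lit 221) (nat_lit 5) (nat_lit 222) (nat_lit 5) (nat_lit 407) (nat_lit 393) (nat_lit 220)) (XT.lf (nat_lit 0) (nat_lit 15408753432) (nat_lit 532) (nat_lit 31792635273) (nat_lit 608) (nat_lit 32690352703) (nat_lit 206) (nat_lit 5) (nat_lit 213) (nat_lit 5) (nat_lit 214) (nat_lit 5) (nat_lit 408) (nat_lit 393) (nat_lit 219)))) (XT.nd (nat_lit 78) (nat_lit 532) (nat_lit 0) (XT.lf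 (nat_lit 0) (nat_lit 5879607028) (nat_lit 532) (nat_lit 57694525893) (nat_lit 608) (nat_lit 18571416257) (nat_lit 199) (nat_lit 5) (nat_lit 206) (nat_lit 5) (nat_lit 207) (nat_lit 5) (nat_lit 409) (nat_lit 393) (nat_lit 218)) (XT.nd (nat_lit 78) (nat_lit 532) (nat_lit 0) (XT.lf (nat_lit 0) (nat_lit 80779252142) (nat_lit 532) (nat_lit 966575281) (nat_lit 608) (nat_lit 2736810979) (nat_lit 199) (nat_lit 5) (nat_lit 206) (nat_lit 5) (nat_lit 207) (nat_lit 5) (nat_lit 410) (nat_lit 393) (nat_lit 217)) (XT.lf (nat_lit 0) (nat_lit 14898269414) (nat_lit 532) (nat_lit 13690483485) (nat_lit 76) (nat_lit 58305430790) (nat_lit 192) (nat_lit 5) (nat_lit 199) (nat_lit 5) (nat_lit 193) (nat_lit 5) (nat_lit 411) (nat_lit 393) (nat_lit 216)))))) (XT.nd (nat_lit 468) (nat_lit 2280) (nat_lit 0) (XT.nd (nat_lit 234) (nat_lit 1292) (nat_lit 0) (XT.nd (nat_lit 78) (nat_lit 912) (nat_lit 0) (XT.lf (nat_lit 0) (nat_lit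 34345007853) (nat_lit 608) (nat_lit 23856498653) (nat_lit 76) (nat_lit 31194392058) (nat_lit 185) (nat_lit 5) (nat_lit 193) (nat_lit 5) (nat_lit 186) (nat_lit 5) (nat_lit 412) (nat_lit 393) (nat_lit 215)) (XT.nd (nat_lit 78) (nat_lit 456) (nat_lit 0) (XT.lf (nat_lit 0) (nat_lit 55769871235) (nat_lit 532) (nat_lit 34177408014) (nat_lit 76) (nat_lit 2045246678) (nat_lit 179) (nat_lit 5) (nat_lit 186) (nat_lit 5) (nat_lit 180) (nat_lit 5) (nat_lit 413) (nat_lit 393) (nat_lit 214)) (XT.lf (nat_lit 0) (nat_lit 49736640287) (nat_lit 456) (nat_lit 29841834067) (nat_lit 532) (nat_lit 15101135775) (nat_lit 173) (nat_lit 5) (nat_lit 179) (nat_lit 5) (nat_lit 180) (nat_lit 5) (nat_lit 414) (nat_lit 393) (nat_lit 213)))) (XT.nd (nat_lit 78) (nat_lit 836) (nat_lit 0) (XT.lf (nat_lit 0) (nat_lit 8022556975) (nat_lit 456) (nat_lit 55991006720) (nat_lit 76) (nat_lit 33452918932) (nat_lit 167) (nat_lit 5) (nat_lit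 173) (nat_lit 5) (nat_lit 168) (nat_lit 5) (nat_lit 415) (nat_lit 393) (nat_lit 212)) (XT.nd (nat_lit 78) (nat_lit 380) (nat_lit 0) (XT.lf (nat_lit 0) (nat_lit 32958913349) (nat_lit 456) (nat_lit 118366695) (nat_lit 532) (nat_lit 67278318735) (nat_lit 161) (nat_lit 5) (nat_lit 167) (nat_lit 5) (nat_lit 168) (nat_lit 5) (nat_lit 416) (nat_lit 393) (nat_lit 211)) (XT.lf (nat_lit 0) (nat_lit 23971565649) (nat_lit 380) (nat_lit 36868499207) (nat_lit 456) (nat_lit 42505446420) (nat_lit 156) (nat_lit 5) (nat_lit 161) (nat_lit 5) (nat_lit 162) (nat_lit 5) (nat_lit 417) (nat_lit 393) (nat_lit 210))))) (XT.nd (nat_lit 234) (nat_lit 1444) (nat_lit 0) (XT.nd (nat_lit 78) (nat_lit 456) (nat_lit 0) (XT.lf (nat_lit 0) (nat_lit 14845375738) (nat_lit 380) (nat_lit 76276788721) (nat_lit 456) (nat_lit 15328819966) (nat_lit 151) (nat_lit 5) (nat_lit 156) (nat_lit 5) (nat_lit 157) (nat_lit 5) (nat_lit 418) (nat_lit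 393) (nat_lit 209)) (XT.nd (nat_lit 78) (nat_lit 0) (nat_lit 0) (XT.lf (nat_lit 0) (nat_lit 5343026663) (nat_lit 380) (nat_lit 8853655011) (nat_lit 456) (nat_lit 95473808730) (nat_lit 145) (nat_lit 5) (nat_lit 150) (nat_lit 5) (nat_lit 151) (nat_lit 5) (nat_lit 419) (nat_lit 393) (nat_lit 208)) (XT.lf (nat_lit 0) (nat_lit 46431252913) (nat_lit 456) (nat_lit 4729953428) (nat_lit 76) (nat_lit 61838717945) (nat_lit 145) (nat_lit 5) (nat_lit 151) (nat_lit 5) (nat_lit 146) (nat_lit 5) (nat_lit 420) (nat_lit 393) (nat_lit 207)))) (XT.nd (nat_lit 156) (nat_lit 760) (nat_lit 0) (XT.nd (nat_lit 78) (nat_lit 304) (nat_lit 0) (XT.lf (nat_lit 0) (nat_lit 81540169974) (nat_lit 456) (nat_lit 14917616361) (nat_lit 76) (nat_lit 20000165252) (nat_lit 140) (nat_lit 5) (nat_lit 146) (nat_lit 5) (nat_lit 141) (nat_lit 5) (nat_lit 421) (nat_lit 393) (nat_lit 206)) (XT.lf (nat_lit 0) (nat_lit 94460847268) (nat_lit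 304) (nat_lit 25416448554) (nat_lit 380) (nat_lit 167401778) (nat_lit 136) (nat_lit 5) (nat_lit 140) (nat_lit 5) (nat_lit 141) (nat_lit 5) (nat_lit 422) (nat_lit 393) (nat_lit 205))) (XT.nd (nat_lit 78) (nat_lit 304) (nat_lit 0) (XT.lf (nat_lit 0) (nat_lit 37089916744) (nat_lit 456) (nat_lit 37093649229) (nat_lit 76) (nat_lit 49572396209) (nat_lit 130) (nat_lit 5) (nat_lit 136) (nat_lit 5) (nat_lit 131) (nat_lit 5) (nat_lit 423) (nat_lit 393) (nat_lit 204)) (XT.lf (nat_lit 0) (nat_lit 77496299446) (nat_lit 380) (nat_lit 48941917520) (nat_lit 76) (nat_lit 1175833699) (nat_lit 126) (nat_lit 5) (nat_lit 131) (nat_lit 5) (nat_lit 127) (nat_lit 5) (nat_lit 424) (nat_lit 393) (nat_lit 203))))))))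
noncomputable def xc120 : XT := (XT.nd (nat_lit 52416) (nat_lit 0) (nat_lit 684) (XT.nd (nat_lit 51480) (nat_lit 0) (nat_lit 4256) (XT.nd (nat_lit 51012) (nat_lit 0) (nat_lit 10032) (XT.nd (nat_lit 50778) (nat_lit 0) (nat_lit 9880) (XT.nd (nat_lit 78) (nat_lit 380) (nat_lit 0) (XT.lf (nat_lit 0) (nat_lit 69959308884) (nat_lit 304) (nat_lit 51769823378) (nat_lit 380) (nat_lit 9881727575) (nat_lit 122) (nat_lit 5) (nat_lit 126) (nat_lit 5) (nat_lit 127) (nat_lit 5) (nat_lit 425) (nat_lit 393) (nat_lit 202)) (XT.nd (nat_lit 50622) (nat_lit 0) (nat_lit 9804) (XT.lf (nat_lit 0) (nat_lit 33097990387) (nat_lit 380) (nat_lit 75127994587) (nat_lit 76) (nat_lit 27531286826) (nat_lit 117) (nat_lit 5) (nat_lit 122) (nat_lit 5) (nat_lit 118) (nat_lit 5) (nat_lit 426) (nat_lit 393) (nat_lit 201)) (XT.lf (nat_lit 0) (nat_lit 6234928329) (nat_lit 1292) (nat_lit 11069071478) (nat_lit 1292) (nat_lit 11069071478)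 (nat_lit 246) (nat_lit 3) (nat_lit 263) (nat_lit 3) (nat_lit 263) (nat_lit 5) (nat_lit 394) (nat_lit 394) (nat_lit 232)))) (XT.nd (nat_lit 78) (nat_lit 0) (nat_lit 0) (XT.lf (nat_lit 0) (nat_lit 13148836047) (nat_lit 1216) (nat_lit 34351162729) (nat_lit 1292) (nat_lit 10653766460) (nat_lit 247) (nat_lit 5) (nat_lit 263) (nat_lit 5) (nat_lit 264) (nat_lit 5) (nat_lit 395) (nat_lit 394) (nat_lit 231)) (XT.nd (nat_lit 78) (nat_lit 0) (nat_lit 76) (XT.lf (nat_lit 76) (nat_lit 12774608045) (nat_lit 0) (nat_lit 1787299826) (nat_lit 1292) (nat_lit 45048857749) (nat_lit 248) (nat_lit 5) (nat_lit 247) (nat_lit 5) (nat_lit 264) (nat_lit 5) (nat_lit 396) (nat_lit 394) (nat_lit 230)) (XT.lf (nat_lit 76) (nat_lit 1423344464) (nat_lit 0) (nat_lit 15435283649) (nat_lit 1292) (nat_lit 44257598915) (nat_lit 249) (nat_lit 5) (nat_lit 248) (nat_lit 5) (nat_lit 265) (nat_lit 5) (nat_lit 397) (nat_lit 394) (nat_lit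 229))))) (XT.nd (nat_lit 234) (nat_lit 0) (nat_lit 152) (XT.nd (nat_lit 78) (nat_lit 0) (nat_lit 76) (XT.lf (nat_lit 0) (nat_lit 20088228824) (nat_lit 1216) (nat_lit 9947014975) (nat_lit 1292) (nat_lit 32637177179) (nat_lit 249) (nat_lit 5) (nat_lit 265) (nat_lit 5) (nat_lit 266) (nat_lit 5) (nat_lit 398) (nat_lit 394) (nat_lit 228)) (XT.nd (nat_lit 78) (nat_lit 0) (nat_lit 76) (XT.lf (nat_lit 0) (nat_lit 24228186920) (nat_lit 1216) (nat_lit 21503681584) (nat_lit 1292) (nat_lit 18552090573) (nat_lit 250) (nat_lit 5) (nat_lit 266) (nat_lit 5) (nat_lit 267) (nat_lit 5) (nat_lit 399) (nat_lit 394) (nat_lit 227)) (XT.lf (nat_lit 0) (nat_lit 29327252981) (nat_lit 1216) (nat_lit 33275608393) (nat_lit 1292) (nat_lit 3350650135) (nat_lit 251) (nat_lit 5) (nat_lit 267) (nat_lit 5) (nat_lit 268) (nat_lit 5) (nat_lit 400) (nat_lit 394) (nat_lit 226)))) (XT.nd (nat_lit 78) (nat_lit 0) (nat_lit 76) (XT.lf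 (nat_lit 76) (nat_lit 22287937902) (nat_lit 0) (nat_lit 13291045075) (nat_lit 1292) (nat_lit 32100627967) (nat_lit 252) (nat_lit 5) (nat_lit 251) (nat_lit 5) (nat_lit 268) (nat_lit 5) (nat_lit 401) (nat_lit 394) (nat_lit 225)) (XT.nd (nat_lit 78) (nat_lit 0) (nat_lit 76) (XT.lf (nat_lit 76) (nat_lit 11696935428) (nat_lit 0) (nat_lit 31273092407) (nat_lit 1292) (nat_lit 26497186326) (nat_lit 253) (nat_lit 5) (nat_lit 252) (nat_lit 5) (nat_lit 269) (nat_lit 5) (nat_lit 402) (nat_lit 394) (nat_lit 224)) (XT.lf (nat_lit 76) (nat_lit 939552435) (nat_lit 0) (nat_lit 50601702359) (nat_lit 1292) (nat_lit 19778624484) (nat_lit 254) (nat_lit 5) (nat_lit 253) (nat_lit 5) (nat_lit 270) (nat_lit 5) (nat_lit 403) (nat_lit 394) (nat_lit 223)))))) (XT.nd (nat_lit 468) (nat_lit 2508) (nat_lit 0) (XT.nd (nat_lit 234) (nat_lit 1748) (nat_lit 0) (XT.nd (nat_lit 78) (nat_lit 1900) (nat_lit 0) (XT.lf (nat_lit 0) (nat_lit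 61466257221) (nat_lit 1216) (nat_lit 9788497933) (nat_lit 76) (nat_lit 1982666677) (nat_lit 254) (nat_lit 5) (nat_lit 270) (nat_lit 5) (nat_lit 255) (nat_lit 5) (nat_lit 404) (nat_lit 394) (nat_lit 222)) (XT.nd (nat_lit 78) (nat_lit 684) (nat_lit 0) (XT.lf (nat_lit 0) (nat_lit 54382162616) (nat_lit 1216) (nat_lit 18537439057) (nat_lit 1292) (nat_lit 2300277653) (nat_lit 238) (nat_lit 5) (nat_lit 254) (nat_lit 5) (nat_lit 255) (nat_lit 5) (nat_lit 405) (nat_lit 394) (nat_lit 221)) (XT.lf (nat_lit 0) (nat_lit 8392528451) (nat_lit 684) (nat_lit 32163841710) (nat_lit 76) (nat_lit 36715959465) (nat_lit 229) (nat_lit 5) (nat_lit 238) (nat_lit 5) (nat_lit 230) (nat_lit 5) (nat_lit 406) (nat_lit 394) (nat_lit 220)))) (XT.nd (nat_lit 78) (nat_lit 1140) (nat_lit 0) (XT.lf (nat_lit 0) (nat_lit 20469218031) (nat_lit 684) (nat_lit 43701169173) (nat_lit 76) (nat_lit 15229427998) (nat_lit 221) (nat_lit 5) (nat_lit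 230) (nat_lit 5) (nat_lit 222) (nat_lit 5) (nat_lit 407) (nat_lit 394) (nat_lit 219)) (XT.nd (nat_lit 78) (nat_lit 532) (nat_lit 0) (XT.lf (nat_lit 0) (nat_lit 26098070481) (nat_lit 608) (nat_lit 8045013383) (nat_lit 684) (nat_lit 47460791422) (nat_lit 213) (nat_lit 5) (nat_lit 221) (nat_lit 5) (nat_lit 222) (nat_lit 5) (nat_lit 408) (nat_lit 394) (nat_lit 218)) (XT.lf (nat_lit 0) (nat_lit 16217488788) (nat_lit 532) (nat_lit 33381316778) (nat_lit 608) (nat_lit 34286388388) (nat_lit 206) (nat_lit 5) (nat_lit 213) (nat_lit 5) (nat_lit 214) (nat_lit 5) (nat_lit 409) (nat_lit 394) (nat_lit 217))))) (XT.nd (nat_lit 234) (nat_lit 1444) (nat_lit 0) (XT.nd (nat_lit 78) (nat_lit 532) (nat_lit 0) (XT.lf (nat_lit 0) (nat_lit 6211880399) (nat_lit 532) (nat_lit 60576904940) (nat_lit 608) (nat_lit 19462949495) (nat_lit 199) (nat_lit 5) (nat_lit 206) (nat_lit 5) (nat_lit 207) (nat_lit 5) (nat_lit 410) (nat_lit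 394) (nat_lit 216)) (XT.nd (nat_lit 78) (nat_lit 532) (nat_lit 0) (XT.lf (nat_lit 0) (nat_lit 84854684292) (nat_lit 532) (nat_lit 1012668571) (nat_lit 608) (nat_lit 2838377647) (nat_lit 199) (nat_lit 5) (nat_lit 206) (nat_lit 5) (nat_lit 207) (nat_lit 5) (nat_lit 411) (nat_lit 394) (nat_lit 215)) (XT.lf (nat_lit 0) (nat_lit 15676495674) (nat_lit 532) (nat_lit 14337919560) (nat_lit 76) (nat_lit 61223466429) (nat_lit 192) (nat_lit 5) (nat_lit 199) (nat_lit 5) (nat_lit 193) (nat_lit 5) (nat_lit 412) (nat_lit 394) (nat_lit 214)))) (XT.nd (nat_lit 78) (nat_lit 912) (nat_lit 0) (XT.lf (nat_lit 0) (nat_lit 36094368997) (nat_lit 608) (nat_lit 25012363155) (nat_lit 76) (nat_lit 32757986755) (nat_lit 185) (nat_lit 5) (nat_lit 193) (nat_lit 5) (nat_lit 186) (nat_lit 5) (nat_lit 413) (nat_lit 394) (nat_lit 213)) (XT.nd (nat_lit 78) (nat_lit 456) (nat_lit 0) (XT.lf (nat_lit 0) (nat_lit 58589339382) (nat_lit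 532) (nat_lit 35849486733) (nat_lit 76) (nat_lit 2152386145) (nat_lit 179) (nat_lit 5) (nat_lit 186) (nat_lit 5) (nat_lit 180) (nat_lit 5) (nat_lit 414) (nat_lit 394) (nat_lit 212)) (XT.lf (nat_lit 0) (nat_lit 52259209357) (nat_lit 456) (nat_lit 31328031846) (nat_lit 532) (nat_lit 15825443923) (nat_lit 173) (nat_lit 5) (nat_lit 179) (nat_lit 5) (nat_lit 180) (nat_lit 5) (nat_lit 415) (nat_lit 394) (nat_lit 211))))))) (XT.nd (nat_lit 51636) (nat_lit 0) (nat_lit 6612) (XT.nd (nat_lit 468) (nat_lit 1444) (nat_lit 0) (XT.nd (nat_lit 234) (nat_lit 836) (nat_lit 0) (XT.nd (nat_lit 78) (nat_lit 836) (nat_lit 0) (XT.lf (nat_lit 0) (nat_lit 8452797279) (nat_lit 456) (nat_lit 58754431034) (nat_lit 76) (nat_lit 35131695627) (nat_lit 167) (nat_lit 5) (nat_lit 173) (nat_lit 5) (nat_lit 168) (nat_lit 5) (nat_lit 416) (nat_lit 394) (nat_lit 210)) (XT.nd (nat_lit 78) (nat_lit 380) (nat_lit 0) (XT.lf (nat_lit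 0) (nat_lit 34641949493) (nat_lit 456) (nat_lit 117258011) (nat_lit 532) (nat_lit 70613320313) (nat_lit 161) (nat_lit 5) (nat_lit 167) (nat_lit 5) (nat_lit 168) (nat_lit 5) (nat_lit 417) (nat_lit 394) (nat_lit 209)) (XT.lf (nat_lit 0) (nat_lit 25204989444) (nat_lit 380) (nat_lit 38704205046) (nat_lit 456) (nat_lit 44602769991) (nat_lit 156) (nat_lit 5) (nat_lit 161) (nat_lit 5) (nat_lit 162) (nat_lit 5) (nat_lit 418) (nat_lit 394) (nat_lit 208)))) (XT.nd (nat_lit 78) (nat_lit 456) (nat_lit 0) (XT.lf (nat_lit 0) (nat_lit 15622217911) (nat_lit 380) (nat_lit 80082292438) (nat_lit 456) (nat_lit 16068228008) (nat_lit 151) (nat_lit 5) (nat_lit 156) (nat_lit 5) (nat_lit 157) (nat_lit 5) (nat_lit 419) (nat_lit 394) (nat_lit 207)) (XT.nd (nat_lit 78) (nat_lit 0) (nat_lit 0) (XT.lf (nat_lit 0) (nat_lit 5644280428) (nat_lit 380) (nat_lit 9287806426) (nat_lit 456) (nat_lit 100221153394) (nat_lit 145) (nat_lit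 5) (nat_lit 150) (nat_lit 5) (nat_lit 151) (nat_lit 5) (nat_lit 420) (nat_lit 394) (nat_lit 206)) (XT.lf (nat_lit 0) (nat_lit 48777247086) (nat_lit 456) (nat_lit 4933312908) (nat_lit 76) (nat_lit 64938620374) (nat_lit 145) (nat_lit 5) (nat_lit 151) (nat_lit 5) (nat_lit 146) (nat_lit 5) (nat_lit 421) (nat_lit 394) (nat_lit 205))))) (XT.nd (nat_lit 234) (nat_lit 304) (nat_lit 0) (XT.nd (nat_lit 78) (nat_lit 760) (nat_lit 0) (XT.lf (nat_lit 0) (nat_lit 85640838780) (nat_lit 456) (nat_lit 15630677491) (nat_lit 76) (nat_lit 21008616244) (nat_lit 140) (nat_lit 5) (nat_lit 146) (nat_lit 5) (nat_lit 141) (nat_lit 5) (nat_lit 422) (nat_lit 394) (nat_lit 204)) (XT.nd (nat_lit 78) (nat_lit 456) (nat_lit 0) (XT.lf (nat_lit 0) (nat_lit 99215768550) (nat_lit 304) (nat_lit 26678232128) (nat_lit 380) (nat_lit 152240082) (nat_lit 136) (nat_lit 5) (nat_lit 140) (nat_lit 5) (nat_lit 141) (nat_lit 5) (nat_lit 423)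 (nat_lit 394) (nat_lit 203)) (XT.lf (nat_lit 0) (nat_lit 38966776356) (nat_lit 456) (nat_lit 38916327970) (nat_lit 76) (nat_lit 52059979026) (nat_lit 130) (nat_lit 5) (nat_lit 136) (nat_lit 5) (nat_lit 131) (nat_lit 5) (nat_lit 424) (nat_lit 394) (nat_lit 202)))) (XT.nd (nat_lit 50778) (nat_lit 0) (nat_lit 9120) (XT.lf (nat_lit 0) (nat_lit 81392803283) (nat_lit 380) (nat_lit 51357364598) (nat_lit 76) (nat_lit 1243928912) (nat_lit 126) (nat_lit 5) (nat_lit 131) (nat_lit 5) (nat_lit 127) (nat_lit 5) (nat_lit 425) (nat_lit 394) (nat_lit 201)) (XT.nd (nat_lit 78) (nat_lit 0) (nat_lit 76) (XT.lf (nat_lit 0) (nat_lit 6579105342) (nat_lit 1292) (nat_lit 11605816448) (nat_lit 1292) (nat_lit 11605816448) (nat_lit 246) (nat_lit 3) (nat_lit 263) (nat_lit 3) (nat_lit 263) (nat_lit 5) (nat_lit 395) (nat_lit 395) (nat_lit 230)) (XT.lf (nat_lit 0) (nat_lit 13868077657) (nat_lit 1216) (nat_lit 36034088159) (nat_lit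 1292) (nat_lit 11157407605) (nat_lit 247) (nat_lit 5) (nat_lit 263) (nat_lit 5) (nat_lit 264) (nat_lit 5) (nat_lit 396) (nat_lit 395) (nat_lit 229)))))) (XT.nd (nat_lit 468) (nat_lit 2584) (nat_lit 0) (XT.nd (nat_lit 234) (nat_lit 0) (nat_lit 228) (XT.nd (nat_lit 78) (nat_lit 0) (nat_lit 76) (XT.lf (nat_lit 76) (nat_lit 13446978414) (nat_lit 0) (nat_lit 1902205178) (nat_lit 1292) (nat_lit 47240320059) (nat_lit 248) (nat_lit 5) (nat_lit 247) (nat_lit 5) (nat_lit 264) (nat_lit 5) (nat_lit 397) (nat_lit 395) (nat_lit 228)) (XT.nd (nat_lit 78) (nat_lit 0) (nat_lit 76) (XT.lf (nat_lit 76) (nat_lit 1529174490) (nat_lit 0) (nat_lit 16228846627) (nat_lit 1292) (nat_lit 46412299757) (nat_lit 249) (nat_lit 5) (nat_lit 248) (nat_lit 5) (nat_lit 265) (nat_lit 5) (nat_lit 398) (nat_lit 395) (nat_lit 227)) (XT.lf (nat_lit 0) (nat_lit 21146213651) (nat_lit 1216) (nat_lit 10409518246) (nat_lit 1292) (nat_lit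 34248680398) (nat_lit 249) (nat_lit 5) (nat_lit 265) (nat_lit 5) (nat_lit 266) (nat_lit 5) (nat_lit 399) (nat_lit 395) (nat_lit 226)))) (XT.nd (nat_lit 78) (nat_lit 0) (nat_lit 76) (XT.lf (nat_lit 0) (nat_lit 25490775700) (nat_lit 1216) (nat_lit 22543286982) (nat_lit 1292) (nat_lit 19462537507) (nat_lit 250) (nat_lit 5) (nat_lit 266) (nat_lit 5) (nat_lit 267) (nat_lit 5) (nat_lit 400) (nat_lit 395) (nat_lit 225)) (XT.nd (nat_lit 78) (nat_lit 0) (nat_lit 0) (XT.lf (nat_lit 0) (nat_lit 30842550615) (nat_lit 1216) (nat_lit 34903197782) (nat_lit 1292) (nat_lit 3503950202) (nat_lit 251) (nat_lit 5) (nat_lit 267) (nat_lit 5) (nat_lit 268) (nat_lit 5) (nat_lit 401) (nat_lit 395) (nat_lit 224)) (XT.lf (nat_lit 76) (nat_lit 23437488419) (nat_lit 0) (nat_lit 13967386372) (nat_lit 1292) (nat_lit 33657288957) (nat_lit 252) (nat_lit 5) (nat_lit 251) (nat_lit 5) (nat_lit 268) (nat_lit 5) (nat_lit 402) (nat_lit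 395) (nat_lit 223))))) (XT.nd (nat_lit 234) (nat_lit 2964) (nat_lit 0) (XT.nd (nat_lit 78) (nat_lit 0) (nat_lit 76) (XT.lf (nat_lit 76) (nat_lit 12317425042) (nat_lit 0) (nat_lit 32846046179) (nat_lit 1292) (nat_lit 27775736853) (nat_lit 253) (nat_lit 5) (nat_lit 252) (nat_lit 5) (nat_lit 269) (nat_lit 5) (nat_lit 403) (nat_lit 395) (nat_lit 222)) (XT.nd (nat_lit 78) (nat_lit 0) (nat_lit 76) (XT.lf (nat_lit 76) (nat_lit 1022565648) (nat_lit 0) (nat_lit 53138815048) (nat_lit 1292) (nat_lit 20723182997) (nat_lit 254) (nat_lit 5) (nat_lit 253) (nat_lit 5) (nat_lit 270) (nat_lit 5) (nat_lit 404) (nat_lit 395) (nat_lit 221)) (XT.lf (nat_lit 0) (nat_lit 64580518281) (nat_lit 1216) (nat_lit 10242291693) (nat_lit 76) (nat_lit 2075237689) (nat_lit 254) (nat_lit 5) (nat_lit 270) (nat_lit 5) (nat_lit 255) (nat_lit 5) (nat_lit 405) (nat_lit 395) (nat_lit 220)))) (XT.nd (nat_lit 156) (nat_lit 1216) (nat_lit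 0) (XT.nd (nat_lit 78) (nat_lit 684) (nat_lit 0) (XT.lf (nat_lit 0) (nat_lit 57135880524) (nat_lit 1216) (nat_lit 19469032208) (nat_lit 1292) (nat_lit 2374764619) (nat_lit 238) (nat_lit 5) (nat_lit 254) (nat_lit 5) (nat_lit 255) (nat_lit 5) (nat_lit 406) (nat_lit 395) (nat_lit 219)) (XT.lf (nat_lit 0) (nat_lit 8850293178) (nat_lit 684) (nat_lit 33736436526) (nat_lit 76) (nat_lit 38548057448) (nat_lit 229) (nat_lit 5) (nat_lit 238) (nat_lit 5) (nat_lit 230) (nat_lit 5) (nat_lit 407) (nat_lit 395) (nat_lit 218))) (XT.nd (nat_lit 78) (nat_lit 608) (nat_lit 0) (XT.lf (nat_lit 0) (nat_lit 21529313530) (nat_lit 684) (nat_lit 45850517041) (nat_lit 76) (nat_lit 15988862254) (nat_lit 221) (nat_lit 5) (nat_lit 230) (nat_lit 5) (nat_lit 222) (nat_lit 5) (nat_lit 408) (nat_lit 395) (nat_lit 217)) (XT.lf (nat_lit 0) (nat_lit 27437660959) (nat_lit 608) (nat_lit 8447800623) (nat_lit 684) (nat_lit 49797537334)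 (nat_lit 213) (nat_lit 5) (nat_lit 221) (nat_lit 5) (nat_lit 222) (nat_lit 5) (nat_lit 409) (nat_lit 395) (nat_lit 216))))))))
noncomputable def xc121 : XT := (XT.nd (nat_lit 52650) (nat_lit 0) (nat_lit 456) (XT.nd (nat_lit 936) (nat_lit 1140) (nat_lit 0) (XT.nd (nat_lit 468) (nat_lit 2584) (nat_lit 0) (XT.nd (nat_lit 234) (nat_lit 1520) (nat_lit 0) (XT.nd (nat_lit 78) (nat_lit 532) (nat_lit 0) (XT.lf (nat_lit 0) (nat_lit 17063100357) (nat_lit 532) (nat_lit 35049520704) (nat_lit 608) (nat_lit 35965803545) (nat_lit 206) (nat_lit 5) (nat_lit 213) (nat_lit 5) (nat_lit 214) (nat_lit 5) (nat_lit 410) (nat_lit 395) (nat_lit 215)) (XT.nd (nat_lit 78) (nat_lit 0) (nat_lit 0) (XT.lf (nat_lit 0) (nat_lit 6557207317) (nat_lit 532) (nat_lit 63603621165) (nat_lit 608) (nat_lit 20402502797) (nat_lit 199) (nat_lit 5) (nat_lit 206) (nat_lit 5) (nat_lit 207) (nat_lit 5) (nat_lit 411) (nat_lit 395) (nat_lit 214))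 (XT.lf (nat_lit 0) (nat_lit 89130497456) (nat_lit 532) (nat_lit 1061274360) (nat_lit 608) (nat_lit 2948302080) (nat_lit 199) (nat_lit 5) (nat_lit 206) (nat_lit 5) (nat_lit 207) (nat_lit 5) (nat_lit 412) (nat_lit 395) (nat_lit 213)))) (XT.nd (nat_lit 78) (nat_lit 988) (nat_lit 0) (XT.lf (nat_lit 0) (nat_lit 16490536140) (nat_lit 532) (nat_lit 15021175538) (nat_lit 76) (nat_lit 64287146871) (nat_lit 192) (nat_lit 5) (nat_lit 199) (nat_lit 5) (nat_lit 193) (nat_lit 5) (nat_lit 413) (nat_lit 395) (nat_lit 212)) (XT.nd (nat_lit 78) (nat_lit 456) (nat_lit 0) (XT.lf (nat_lit 0) (nat_lit 37928212845) (nat_lit 608) (nat_lit 26229457113) (nat_lit 76) (nat_lit 34399400917) (nat_lit 185) (nat_lit 5) (nat_lit 193) (nat_lit 5) (nat_lit 186) (nat_lit 5) (nat_lit 414) (nat_lit 395) (nat_lit 211)) (XT.lf (nat_lit 0) (nat_lit 61546901213) (nat_lit 532) (nat_lit 37608589929) (nat_lit 76) (nat_lit 2264429156) (nat_lit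 179) (nat_lit 5) (nat_lit 186) (nat_lit 5) (nat_lit 180) (nat_lit 5) (nat_lit 415) (nat_lit 395) (nat_lit 210))))) (XT.nd (nat_lit 234) (nat_lit 1216) (nat_lit 0) (XT.nd (nat_lit 78) (nat_lit 912) (nat_lit 0) (XT.lf (nat_lit 0) (nat_lit 54904584388) (nat_lit 456) (nat_lit 32889087475) (nat_lit 532) (nat_lit 16588826195) (nat_lit 173) (nat_lit 5) (nat_lit 179) (nat_lit 5) (nat_lit 180) (nat_lit 5) (nat_lit 416) (nat_lit 395) (nat_lit 209)) (XT.nd (nat_lit 78) (nat_lit 456) (nat_lit 0) (XT.lf (nat_lit 0) (nat_lit 8901842998) (nat_lit 456) (nat_lit 61659385218) (nat_lit 76) (nat_lit 36893841177) (nat_lit 167) (nat_lit 5) (nat_lit 173) (nat_lit 5) (nat_lit 168) (nat_lit 5) (nat_lit 417) (nat_lit 395) (nat_lit 208)) (XT.lf (nat_lit 0) (nat_lit 36405875065) (nat_lit 456) (nat_lit 116747199) (nat_lit 532) (nat_lit 74117760154) (nat_lit 161) (nat_lit 5) (nat_lit 167) (nat_lit 5) (nat_lit 168) (nat_lit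 5) (nat_lit 418) (nat_lit 395) (nat_lit 207)))) (XT.nd (nat_lit 78) (nat_lit 836) (nat_lit 0) (XT.lf (nat_lit 0) (nat_lit 26496844823) (nat_lit 380) (nat_lit 40632413828) (nat_lit 456) (nat_lit 46807558149) (nat_lit 156) (nat_lit 5) (nat_lit 161) (nat_lit 5) (nat_lit 162) (nat_lit 5) (nat_lit 419) (nat_lit 395) (nat_lit 206)) (XT.nd (nat_lit 78) (nat_lit 456) (nat_lit 0) (XT.lf (nat_lit 0) (nat_lit 16434687887) (nat_lit 380) (nat_lit 84078846316) (nat_lit 456) (nat_lit 16847119720) (nat_lit 151) (nat_lit 5) (nat_lit 156) (nat_lit 5) (nat_lit 157) (nat_lit 5) (nat_lit 420) (nat_lit 395) (nat_lit 205)) (XT.lf (nat_lit 0) (nat_lit 5957426359) (nat_lit 380) (nat_lit 9744458574) (nat_lit 456) (nat_lit 105208314671) (nat_lit 145) (nat_lit 5) (nat_lit 150) (nat_lit 5) (nat_lit 151) (nat_lit 5) (nat_lit 421) (nat_lit 395) (nat_lit 204)))))) (XT.nd (nat_lit 51246) (nat_lit 0) (nat_lit 8892) (XT.nd (nat_lit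 234) (nat_lit 456) (nat_lit 0) (XT.nd (nat_lit 78) (nat_lit 684) (nat_lit 0) (XT.lf (nat_lit 0) (nat_lit 51238269556) (nat_lit 456) (nat_lit 5149921238) (nat_lit 76) (nat_lit 68192777272) (nat_lit 145) (nat_lit 5) (nat_lit 151) (nat_lit 5) (nat_lit 146) (nat_lit 5) (nat_lit 422) (nat_lit 395) (nat_lit 203)) (XT.nd (nat_lit 78) (nat_lit 304) (nat_lit 0) (XT.lf (nat_lit 0) (nat_lit 89944341314) (nat_lit 456) (nat_lit 16382442940) (nat_lit 76) (nat_lit 22066704860) (nat_lit 140) (nat_lit 5) (nat_lit 146) (nat_lit 5) (nat_lit 141) (nat_lit 5) (nat_lit 423) (nat_lit 395) (nat_lit 202)) (XT.lf (nat_lit 0) (nat_lit 104205472097) (nat_lit 304) (nat_lit 28003945228) (nat_lit 380) (nat_lit 138508064) (nat_lit 136) (nat_lit 5) (nat_lit 140) (nat_lit 5) (nat_lit 141) (nat_lit 5) (nat_lit 424) (nat_lit 395) (nat_lit 201)))) (XT.nd (nat_lit 50856) (nat_lit 0) (nat_lit 8816) (XT.lf (nat_lit 0) (nat_lit 40935399776)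 (nat_lit 456) (nat_lit 40833116051) (nat_lit 76) (nat_lit 54671107688) (nat_lit 130) (nat_lit 5) (nat_lit 136) (nat_lit 5) (nat_lit 131) (nat_lit 5) (nat_lit 425) (nat_lit 395) (nat_lit 200)) (XT.nd (nat_lit 78) (nat_lit 0) (nat_lit 76) (XT.lf (nat_lit 0) (nat_lit 6937476116) (nat_lit 1292) (nat_lit 12170952074) (nat_lit 1292) (nat_lit 12170952074) (nat_lit 246) (nat_lit 3) (nat_lit 263) (nat_lit 3) (nat_lit 263) (nat_lit 5) (nat_lit 396) (nat_lit 396) (nat_lit 228)) (XT.lf (nat_lit 0) (nat_lit 14617535788) (nat_lit 1216) (nat_lit 37804379681) (nat_lit 1292) (nat_lit 11688931339) (nat_lit 247) (nat_lit 5) (nat_lit 263) (nat_lit 5) (nat_lit 264) (nat_lit 5) (nat_lit 397) (nat_lit 396) (nat_lit 227))))) (XT.nd (nat_lit 234) (nat_lit 0) (nat_lit 228) (XT.nd (nat_lit 78) (nat_lit 0) (nat_lit 76) (XT.lf (nat_lit 76) (nat_lit 14149839777) (nat_lit 0) (nat_lit 2020481297) (nat_lit 1292) (nat_lit 49547024880)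 (nat_lit 248) (nat_lit 5) (nat_lit 247) (nat_lit 5) (nat_lit 264) (nat_lit 5) (nat_lit 398) (nat_lit 396) (nat_lit 226)) (XT.nd (nat_lit 78) (nat_lit 0) (nat_lit 76) (XT.lf (nat_lit 76) (nat_lit 1637073398) (nat_lit 0) (nat_lit 17060061108) (nat_lit 1292) (nat_lit 48680144583) (nat_lit 249) (nat_lit 5) (nat_lit 248) (nat_lit 5) (nat_lit 265) (nat_lit 5) (nat_lit 399) (nat_lit 396) (nat_lit 225)) (XT.lf (nat_lit 0) (nat_lit 22252116974) (nat_lit 1216) (nat_lit 10898386469) (nat_lit 1292) (nat_lit 35942651252) (nat_lit 249) (nat_lit 5) (nat_lit 265) (nat_lit 5) (nat_lit 266) (nat_lit 5) (nat_lit 400) (nat_lit 396) (nat_lit 224)))) (XT.nd (nat_lit 78) (nat_lit 0) (nat_lit 76) (XT.lf (nat_lit 0) (nat_lit 26811735740) (nat_lit 1216) (nat_lit 23638180419) (nat_lit 1292) (nat_lit 20420101939) (nat_lit 250) (nat_lit 5) (nat_lit 266) (nat_lit 5) (nat_lit 267) (nat_lit 5) (nat_lit 401) (nat_lit 396) (nat_lit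 223)) (XT.nd (nat_lit 78) (nat_lit 0) (nat_lit 0) (XT.lf (nat_lit 0) (nat_lit 32429063619) (nat_lit 1216) (nat_lit 36615531340) (nat_lit 1292) (nat_lit 3666238470) (nat_lit 251) (nat_lit 5) (nat_lit 267) (nat_lit 5) (nat_lit 268) (nat_lit 5) (nat_lit 402) (nat_lit 396) (nat_lit 222)) (XT.lf (nat_lit 76) (nat_lit 24641248211) (nat_lit 0) (nat_lit 14676448700) (nat_lit 1292) (nat_lit 35296280018) (nat_lit 252) (nat_lit 5) (nat_lit 251) (nat_lit 5) (nat_lit 268) (nat_lit 5) (nat_lit 403) (nat_lit 396) (nat_lit 221))))))) (XT.nd (nat_lit 936) (nat_lit 3724) (nat_lit 0) (XT.nd (nat_lit 468) (nat_lit 2736) (nat_lit 0) (XT.nd (nat_lit 234) (nat_lit 2356) (nat_lit 0) (XT.nd (nat_lit 78) (nat_lit 0) (nat_lit 76) (XT.lf (nat_lit 76) (nat_lit 12965625403) (nat_lit 0) (nat_lit 34496783092) (nat_lit 1292) (nat_lit 29122520258) (nat_lit 253) (nat_lit 5) (nat_lit 252) (nat_lit 5) (nat_lit 269) (nat_lit 5) (nat_lit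 404) (nat_lit 396) (nat_lit 220)) (XT.nd (nat_lit 78) (nat_lit 0) (nat_lit 76) (XT.lf (nat_lit 76) (nat_lit 1106379275) (nat_lit 0) (nat_lit 55802130015) (nat_lit 1292) (nat_lit 21719094790) (nat_lit 254) (nat_lit 5) (nat_lit 253) (nat_lit 5) (nat_lit 270) (nat_lit 5) (nat_lit 405) (nat_lit 396) (nat_lit 219)) (XT.lf (nat_lit 0) (nat_lit 67846685419) (nat_lit 1216) (nat_lit 10722087786) (nat_lit 76) (nat_lit 2173047354) (nat_lit 254) (nat_lit 5) (nat_lit 270) (nat_lit 5) (nat_lit 255) (nat_lit 5) (nat_lit 406) (nat_lit 396) (nat_lit 218)))) (XT.nd (nat_lit 78) (nat_lit 1292) (nat_lit 0) (XT.lf (nat_lit 0) (nat_lit 60024066639) (nat_lit 1216) (nat_lit 20446766084) (nat_lit 1292) (nat_lit 2456743741) (nat_lit 238) (nat_lit 5) (nat_lit 254) (nat_lit 5) (nat_lit 255) (nat_lit 5) (nat_lit 407) (nat_lit 396) (nat_lit 217)) (XT.nd (nat_lit 78) (nat_lit 608) (nat_lit 0) (XT.lf (nat_lit 0) (nat_lit 9327400404)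 (nat_lit 684) (nat_lit 35390970579) (nat_lit 76) (nat_lit 40472104321) (nat_lit 229) (nat_lit 5) (nat_lit 238) (nat_lit 5) (nat_lit 230) (nat_lit 5) (nat_lit 408) (nat_lit 396) (nat_lit 216)) (XT.lf (nat_lit 0) (nat_lit 22639007866) (nat_lit 684) (nat_lit 48110652334) (nat_lit 76) (nat_lit 16786457616) (nat_lit 221) (nat_lit 5) (nat_lit 230) (nat_lit 5) (nat_lit 222) (nat_lit 5) (nat_lit 409) (nat_lit 396) (nat_lit 215))))) (XT.nd (nat_lit 234) (nat_lit 1064) (nat_lit 0) (XT.nd (nat_lit 78) (nat_lit 1064) (nat_lit 0) (XT.lf (nat_lit 0) (nat_lit 28841006097) (nat_lit 608) (nat_lit 8870677340) (nat_lit 684) (nat_lit 52254494781) (nat_lit 213) (nat_lit 5) (nat_lit 221) (nat_lit 5) (nat_lit 222) (nat_lit 5) (nat_lit 410) (nat_lit 396) (nat_lit 214)) (XT.nd (nat_lit 78) (nat_lit 532) (nat_lit 0) (XT.lf (nat_lit 0) (nat_lit 17947762976) (nat_lit 532) (nat_lit 36801214958) (nat_lit 608) (nat_lit 37732434528)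 (nat_lit 206) (nat_lit 5) (nat_lit 213) (nat_lit 5) (nat_lit 214) (nat_lit 5) (nat_lit 411) (nat_lit 396) (nat_lit 213)) (XT.lf (nat_lit 0) (nat_lit 6916571445) (nat_lit 532) (nat_lit 66781871137) (nat_lit 608) (nat_lit 21392157033) (nat_lit 199) (nat_lit 5) (nat_lit 206) (nat_lit 5) (nat_lit 207) (nat_lit 5) (nat_lit 412) (nat_lit 396) (nat_lit 212)))) (XT.nd (nat_lit 78) (nat_lit 1064) (nat_lit 0) (XT.lf (nat_lit 0) (nat_lit 93617025912) (nat_lit 532) (nat_lit 1112498948) (nat_lit 608) (nat_lit 3066697275) (nat_lit 199) (nat_lit 5) (nat_lit 206) (nat_lit 5) (nat_lit 207) (nat_lit 5) (nat_lit 413) (nat_lit 396) (nat_lit 211)) (XT.nd (nat_lit 78) (nat_lit 532) (nat_lit 0) (XT.lf (nat_lit 0) (nat_lit 17342469461) (nat_lit 532) (nat_lit 15741721844) (nat_lit 76) (nat_lit 67503778247) (nat_lit 192) (nat_lit 5) (nat_lit 199) (nat_lit 5) (nat_lit 193) (nat_lit 5) (nat_lit 414) (nat_lit 396) (nat_lit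 210)) (XT.lf (nat_lit 0) (nat_lit 39851041082) (nat_lit 608) (nat_lit 27510522531) (nat_lit 76) (nat_lit 36122559012) (nat_lit 185) (nat_lit 5) (nat_lit 193) (nat_lit 5) (nat_lit 186) (nat_lit 5) (nat_lit 415) (nat_lit 396) (nat_lit 209)))))) (XT.nd (nat_lit 468) (nat_lit 1140) (nat_lit 0) (XT.nd (nat_lit 234) (nat_lit 1216) (nat_lit 0) (XT.nd (nat_lit 78) (nat_lit 912) (nat_lit 0) (XT.lf (nat_lit 0) (nat_lit 64649729142) (nat_lit 532) (nat_lit 39458750818) (nat_lit 76) (nat_lit 2381663043) (nat_lit 179) (nat_lit 5) (nat_lit 186) (nat_lit 5) (nat_lit 180) (nat_lit 5) (nat_lit 416) (nat_lit 396) (nat_lit 208)) (XT.nd (nat_lit 78) (nat_lit 456) (nat_lit 0) (XT.lf (nat_lit 0) (nat_lit 57679214572) (nat_lit 456) (nat_lit 34528692902) (nat_lit 532) (nat_lit 17392970522) (nat_lit 173) (nat_lit 5) (nat_lit 179) (nat_lit 5) (nat_lit 180) (nat_lit 5) (nat_lit 417) (nat_lit 396) (nat_lit 207)) (XT.lf (nat_lit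 0) (nat_lit 9370886037) (nat_lit 456) (nat_lit 64712633511) (nat_lit 76) (nat_lit 38743577017) (nat_lit 167) (nat_lit 5) (nat_lit 173) (nat_lit 5) (nat_lit 168) (nat_lit 5) (nat_lit 418) (nat_lit 396) (nat_lit 206)))) (XT.nd (nat_lit 78) (nat_lit 760) (nat_lit 0) (XT.lf (nat_lit 0) (nat_lit 38255037841) (nat_lit 456) (nat_lit 116803413) (nat_lit 532) (nat_lit 77799860247) (nat_lit 161) (nat_lit 5) (nat_lit 167) (nat_lit 5) (nat_lit 168) (nat_lit 5) (nat_lit 419) (nat_lit 396) (nat_lit 205)) (XT.nd (nat_lit 78) (nat_lit 380) (nat_lit 0) (XT.lf (nat_lit 0) (nat_lit 27850354554) (nat_lit 380) (nat_lit 42657683979) (nat_lit 456) (nat_lit 49124942550) (nat_lit 156) (nat_lit 5) (nat_lit 161) (nat_lit 5) (nat_lit 162) (nat_lit 5) (nat_lit 420) (nat_lit 396) (nat_lit 204)) (XT.lf (nat_lit 0) (nat_lit 17284865891) (nat_lit 380) (nat_lit 88275930815) (nat_lit 456) (nat_lit 17667235626) (nat_lit 151) (nat_lit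 5) (nat_lit 156) (nat_lit 5) (nat_lit 157) (nat_lit 5) (nat_lit 421) (nat_lit 396) (nat_lit 203))))) (XT.nd (nat_lit 234) (nat_lit 304) (nat_lit 0) (XT.nd (nat_lit 78) (nat_lit 380) (nat_lit 0) (XT.lf (nat_lit 0) (nat_lit 6283353831) (nat_lit 380) (nat_lit 10224662752) (nat_lit 456) (nat_lit 110447055672) (nat_lit 145) (nat_lit 5) (nat_lit 150) (nat_lit 5) (nat_lit 151) (nat_lit 5) (nat_lit 422) (nat_lit 396) (nat_lit 202)) (XT.nd (nat_lit 78) (nat_lit 380) (nat_lit 0) (XT.lf (nat_lit 0) (nat_lit 53820282912) (nat_lit 456) (nat_lit 5380154429) (nat_lit 76) (nat_lit 71608970221) (nat_lit 145) (nat_lit 5) (nat_lit 151) (nat_lit 5) (nat_lit 146) (nat_lit 5) (nat_lit 423) (nat_lit 396) (nat_lit 201)) (XT.lf (nat_lit 0) (nat_lit 94461023773) (nat_lit 456) (nat_lit 17174564248) (nat_lit 76) (nat_lit 23176985958) (nat_lit 140) (nat_lit 5) (nat_lit 146) (nat_lit 5) (nat_lit 141) (nat_lit 5) (nat_lit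 424) (nat_lit 396) (nat_lit 200)))) (XT.nd (nat_lit 51012) (nat_lit 0) (nat_lit 8436) (XT.nd (nat_lit 50934) (nat_lit 0) (nat_lit 8360) (XT.lf (nat_lit 0) (nat_lit 109441972567) (nat_lit 304) (nat_lit 29396706202) (nat_lit 380) (nat_lit 126073810) (nat_lit 136) (nat_lit 5) (nat_lit 140) (nat_lit 5) (nat_lit 141) (nat_lit 5) (nat_lit 425) (nat_lit 396) (nat_lit 199)) (XT.lf (nat_lit 0) (nat_lit 7311030655) (nat_lit 1292) (nat_lit 12765753468) (nat_lit 1292) (nat_lit 12765753468) (nat_lit 246) (nat_lit 3) (nat_lit 263) (nat_lit 3) (nat_lit 263) (nat_lit 5) (nat_lit 397) (nat_lit 397) (nat_lit 226))) (XT.nd (nat_lit 78) (nat_lit 0) (nat_lit 0) (XT.lf (nat_lit 0) (nat_lit 15399255432) (nat_lit 1216) (nat_lit 39666106252) (nat_lit 1292) (nat_lit 12249480721) (nat_lit 247) (nat_lit 5) (nat_lit 263) (nat_lit 5) (nat_lit 264) (nat_lit 5) (nat_lit 398) (nat_lit 397) (nat_lit 225)) (XT.lf (nat_lit 76)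 (nat_lit 14885007450) (nat_lit 0) (nat_lit 2142517480) (nat_lit 1292) (nat_lit 51974207252) (nat_lit 248) (nat_lit 5) (nat_lit 247) (nat_lit 5) (nat_lit 264) (nat_lit 5) (nat_lit 399) (nat_lit 397) (nat_lit 224))))))))
noncomputable def xc122 : XT := (XT.nd (nat_lit 1872) (nat_lit 380) (nat_lit 0) (XT.nd (nat_lit 936) (nat_lit 5168) (nat_lit 0) (XT.nd (nat_lit 468) (nat_lit 2660) (nat_lit 0) (XT.nd (nat_lit 234) (nat_lit 0) (nat_lit 228) (XT.nd (nat_lit 78) (nat_lit 0) (nat_lit 76) (XT.lf (nat_lit 76) (nat_lit 1747444242) (nat_lit 0) (nat_lit 17930998087) (nat_lit 1292) (nat_lit 51066287719) (nat_lit 249) (nat_lit 5) (nat_lit 248) (nat_lit 5) (nat_lit 265) (nat_lit 5) (nat_lit 400) (nat_lit 397) (nat_lit 223)) (XT.nd (nat_lit 78) (nat_lit 0) (nat_lit 76) (XT.lf (nat_lit 0) (nat_lit 23408797779) (nat_lit 1216) (nat_lit 11414636687) (nat_lit 1292) (nat_lit 37723037178) (nat_lit 249) (nat_lit 5)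 (nat_lit 265) (nat_lit 5) (nat_lit 266) (nat_lit 5) (nat_lit 401) (nat_lit 397) (nat_lit 222)) (XT.lf (nat_lit 0) (nat_lit 28194427973) (nat_lit 1216) (nat_lit 24790818771) (nat_lit 1292) (nat_lit 21426991441) (nat_lit 250) (nat_lit 5) (nat_lit 266) (nat_lit 5) (nat_lit 267) (nat_lit 5) (nat_lit 402) (nat_lit 397) (nat_lit 221)))) (XT.nd (nat_lit 78) (nat_lit 0) (nat_lit 0) (XT.lf (nat_lit 0) (nat_lit 34090775733) (nat_lit 1216) (nat_lit 38416533456) (nat_lit 1292) (nat_lit 3837841330) (nat_lit 251) (nat_lit 5) (nat_lit 267) (nat_lit 5) (nat_lit 268) (nat_lit 5) (nat_lit 403) (nat_lit 397) (nat_lit 220)) (XT.nd (nat_lit 78) (nat_lit 0) (nat_lit 76) (XT.lf (nat_lit 76) (nat_lit 25902231593) (nat_lit 0) (nat_lit 15419970010) (nat_lit 1292) (nat_lit 37021299564) (nat_lit 252) (nat_lit 5) (nat_lit 251) (nat_lit 5) (nat_lit 268) (nat_lit 5) (nat_lit 404) (nat_lit 397) (nat_lit 219)) (XT.lf (nat_lit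 76) (nat_lit 13643230128) (nat_lit 0) (nat_lit 36229272682) (nat_lit 1292) (nat_lit 30540547914) (nat_lit 253) (nat_lit 5) (nat_lit 252) (nat_lit 5) (nat_lit 269) (nat_lit 5) (nat_lit 405) (nat_lit 397) (nat_lit 218))))) (XT.nd (nat_lit 234) (nat_lit 1900) (nat_lit 0) (XT.nd (nat_lit 78) (nat_lit 1140) (nat_lit 0) (XT.lf (nat_lit 76) (nat_lit 1191344809) (nat_lit 0) (nat_lit 58598018116) (nat_lit 1292) (nat_lit 22768543990) (nat_lit 254) (nat_lit 5) (nat_lit 253) (nat_lit 5) (nat_lit 270) (nat_lit 5) (nat_lit 406) (nat_lit 397) (nat_lit 217)) (XT.nd (nat_lit 78) (nat_lit 1216) (nat_lit 0) (XT.lf (nat_lit 0) (nat_lit 71272707875) (nat_lit 1216) (nat_lit 11228878351) (nat_lit 76) (nat_lit 2276300884) (nat_lit 254) (nat_lit 5) (nat_lit 270) (nat_lit 5) (nat_lit 255) (nat_lit 5) (nat_lit 407) (nat_lit 397) (nat_lit 216)) (XT.lf (nat_lit 0) (nat_lit 63053743520) (nat_lit 1216) (nat_lit 21472988530)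 (nat_lit 1292) (nat_lit 2546239333) (nat_lit 238) (nat_lit 5) (nat_lit 254) (nat_lit 5) (nat_lit 255) (nat_lit 5) (nat_lit 408) (nat_lit 397) (nat_lit 215)))) (XT.nd (nat_lit 78) (nat_lit 1216) (nat_lit 0) (XT.lf (nat_lit 0) (nat_lit 9825146902) (nat_lit 684) (nat_lit 37131233146) (nat_lit 76) (nat_lit 42492665547) (nat_lit 229) (nat_lit 5) (nat_lit 238) (nat_lit 5) (nat_lit 230) (nat_lit 5) (nat_lit 409) (nat_lit 397) (nat_lit 214)) (XT.nd (nat_lit 78) (nat_lit 608) (nat_lit 0) (XT.lf (nat_lit 0) (nat_lit 23801097633) (nat_lit 684) (nat_lit 50486805759) (nat_lit 76) (nat_lit 17624104533) (nat_lit 221) (nat_lit 5) (nat_lit 230) (nat_lit 5) (nat_lit 222) (nat_lit 5) (nat_lit 410) (nat_lit 397) (nat_lit 213)) (XT.lf (nat_lit 0) (nat_lit 30311593445) (nat_lit 608) (nat_lit 9314652644) (nat_lit 684) (nat_lit 54837360637) (nat_lit 213) (nat_lit 5) (nat_lit 221) (nat_lit 5) (nat_lit 222) (nat_lit 5)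 (nat_lit 411) (nat_lit 397) (nat_lit 212)))))) (XT.nd (nat_lit 468) (nat_lit 2584) (nat_lit 0) (XT.nd (nat_lit 234) (nat_lit 1520) (nat_lit 0) (XT.nd (nat_lit 78) (nat_lit 532) (nat_lit 0) (XT.lf (nat_lit 0) (nat_lit 18873729447) (nat_lit 532) (nat_lit 38640566608) (nat_lit 608) (nat_lit 39590340431) (nat_lit 206) (nat_lit 5) (nat_lit 213) (nat_lit 5) (nat_lit 214) (nat_lit 5) (nat_lit 412) (nat_lit 397) (nat_lit 211)) (XT.nd (nat_lit 78) (nat_lit 0) (nat_lit 0) (XT.lf (nat_lit 0) (nat_lit 7290974858) (nat_lit 532) (nat_lit 70119213142) (nat_lit 608) (nat_lit 22434126875) (nat_lit 199) (nat_lit 5) (nat_lit 206) (nat_lit 5) (nat_lit 207) (nat_lit 5) (nat_lit 413) (nat_lit 397) (nat_lit 210)) (XT.lf (nat_lit 0) (nat_lit 98325091342) (nat_lit 532) (nat_lit 1166455751) (nat_lit 608) (nat_lit 3193710226) (nat_lit 199) (nat_lit 5) (nat_lit 206) (nat_lit 5) (nat_lit 207) (nat_lit 5) (nat_lit 414) (nat_lit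 397) (nat_lit 209)))) (XT.nd (nat_lit 78) (nat_lit 988) (nat_lit 0) (XT.lf (nat_lit 0) (nat_lit 18234451451) (nat_lit 532) (nat_lit 16501132226) (nat_lit 76) (nat_lit 70881029773) (nat_lit 192) (nat_lit 5) (nat_lit 199) (nat_lit 5) (nat_lit 193) (nat_lit 5) (nat_lit 415) (nat_lit 397) (nat_lit 208)) (XT.nd (nat_lit 78) (nat_lit 456) (nat_lit 0) (XT.lf (nat_lit 0) (nat_lit 41867554674) (nat_lit 608) (nat_lit 28858468215) (nat_lit 76) (nat_lit 37931578618) (nat_lit 185) (nat_lit 5) (nat_lit 193) (nat_lit 5) (nat_lit 186) (nat_lit 5) (nat_lit 416) (nat_lit 397) (nat_lit 207)) (XT.lf (nat_lit 0) (nat_lit 67905329311) (nat_lit 532) (nat_lit 41404233840) (nat_lit 76) (nat_lit 2504385586) (nat_lit 179) (nat_lit 5) (nat_lit 186) (nat_lit 5) (nat_lit 180) (nat_lit 5) (nat_lit 417) (nat_lit 397) (nat_lit 206))))) (XT.nd (nat_lit 234) (nat_lit 1216) (nat_lit 0) (XT.nd (nat_lit 78) (nat_lit 912) (nat_lit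 0) (XT.lf (nat_lit 0) (nat_lit 60589842842) (nat_lit 456) (nat_lit 36250729410) (nat_lit 532) (nat_lit 18239673939) (nat_lit 173) (nat_lit 5) (nat_lit 179) (nat_lit 5) (nat_lit 180) (nat_lit 5) (nat_lit 418) (nat_lit 397) (nat_lit 205)) (XT.nd (nat_lit 78) (nat_lit 456) (nat_lit 0) (XT.lf (nat_lit 0) (nat_lit 9861154501) (nat_lit 456) (nat_lit 67921307393) (nat_lit 76) (nat_lit 40685330727) (nat_lit 167) (nat_lit 5) (nat_lit 173) (nat_lit 5) (nat_lit 168) (nat_lit 5) (nat_lit 419) (nat_lit 397) (nat_lit 204)) (XT.lf (nat_lit 0) (nat_lit 40193974787) (nat_lit 456) (nat_lit 117399915) (nat_lit 532) (nat_lit 81668276920) (nat_lit 161) (nat_lit 5) (nat_lit 167) (nat_lit 5) (nat_lit 168) (nat_lit 5) (nat_lit 420) (nat_lit 397) (nat_lit 203)))) (XT.nd (nat_lit 78) (nat_lit 836) (nat_lit 0) (XT.lf (nat_lit 0) (nat_lit 29268874540) (nat_lit 380) (nat_lit 44784808051) (nat_lit 456) (nat_lit 51560333890)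 (nat_lit 156) (nat_lit 5) (nat_lit 161) (nat_lit 5) (nat_lit 162) (nat_lit 5) (nat_lit 421) (nat_lit 397) (nat_lit 202)) (XT.nd (nat_lit 78) (nat_lit 456) (nat_lit 0) (XT.lf (nat_lit 0) (nat_lit 18174908379) (nat_lit 380) (nat_lit 92683507114) (nat_lit 456) (nat_lit 18530424999) (nat_lit 151) (nat_lit 5) (nat_lit 156) (nat_lit 5) (nat_lit 157) (nat_lit 5) (nat_lit 422) (nat_lit 397) (nat_lit 201)) (XT.lf (nat_lit 0) (nat_lit 6622969282) (nat_lit 380) (nat_lit 10729529675) (nat_lit 456) (nat_lit 115949748834) (nat_lit 145) (nat_lit 5) (nat_lit 150) (nat_lit 5) (nat_lit 151) (nat_lit 5) (nat_lit 423) (nat_lit 397) (nat_lit 200))))))) (XT.nd (nat_lit 51870) (nat_lit 0) (nat_lit 2052) (XT.nd (nat_lit 51402) (nat_lit 0) (nat_lit 8284) (XT.nd (nat_lit 51168) (nat_lit 0) (nat_lit 8132) (XT.nd (nat_lit 78) (nat_lit 380) (nat_lit 0) (XT.lf (nat_lit 0) (nat_lit 56529528239) (nat_lit 456) (nat_lit 5624433922)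 (nat_lit 76) (nat_lit 75195363481) (nat_lit 145) (nat_lit 5) (nat_lit 151) (nat_lit 5) (nat_lit 146) (nat_lit 5) (nat_lit 424) (nat_lit 397) (nat_lit 199)) (XT.nd (nat_lit 51012) (nat_lit 0) (nat_lit 8056) (XT.lf (nat_lit 0) (nat_lit 99201730647) (nat_lit 456) (nat_lit 18008801904) (nat_lit 76) (nat_lit 24342135350) (nat_lit 140) (nat_lit 5) (nat_lit 146) (nat_lit 5) (nat_lit 141) (nat_lit 5) (nat_lit 425) (nat_lit 397) (nat_lit 198)) (XT.lf (nat_lit 0) (nat_lit 7700782398) (nat_lit 1292) (nat_lit 13391572924) (nat_lit 1292) (nat_lit 13391572924) (nat_lit 246) (nat_lit 3) (nat_lit 263) (nat_lit 3) (nat_lit 263) (nat_lit 5) (nat_lit 398) (nat_lit 398) (nat_lit 224)))) (XT.nd (nat_lit 78) (nat_lit 0) (nat_lit 0) (XT.lf (nat_lit 0) (nat_lit 16215334172) (nat_lit 1216) (nat_lit 41623568106) (nat_lit 1292) (nat_lit 12840279305) (nat_lit 247) (nat_lit 5) (nat_lit 263) (nat_lit 5) (nat_lit 264) (nat_lit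 5) (nat_lit 399) (nat_lit 398) (nat_lit 223)) (XT.nd (nat_lit 78) (nat_lit 0) (nat_lit 76) (XT.lf (nat_lit 76) (nat_lit 15654360484) (nat_lit 0) (nat_lit 2268701965) (nat_lit 1292) (nat_lit 54527412968) (nat_lit 248) (nat_lit 5) (nat_lit 247) (nat_lit 5) (nat_lit 264) (nat_lit 5) (nat_lit 400) (nat_lit 398) (nat_lit 222)) (XT.lf (nat_lit 76) (nat_lit 1860682371) (nat_lit 0) (nat_lit 18843814588) (nat_lit 1292) (nat_lit 53576187962) (nat_lit 249) (nat_lit 5) (nat_lit 248) (nat_lit 5) (nat_lit 265) (nat_lit 5) (nat_lit 401) (nat_lit 398) (nat_lit 221))))) (XT.nd (nat_lit 234) (nat_lit 0) (nat_lit 152) (XT.nd (nat_lit 78) (nat_lit 0) (nat_lit 76) (XT.lf (nat_lit 0) (nat_lit 24619214954) (nat_lit 1216) (nat_lit 11959364797) (nat_lit 1292) (nat_lit 39593999345) (nat_lit 249) (nat_lit 5) (nat_lit 265) (nat_lit 5) (nat_lit 266) (nat_lit 5) (nat_lit 402) (nat_lit 398) (nat_lit 220)) (XT.nd (nat_lit 78)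 (nat_lit 0) (nat_lit 76) (XT.lf (nat_lit 0) (nat_lit 29642340253) (nat_lit 1216) (nat_lit 26003810351) (nat_lit 1292) (nat_lit 22485537753) (nat_lit 250) (nat_lit 5) (nat_lit 266) (nat_lit 5) (nat_lit 267) (nat_lit 5) (nat_lit 403) (nat_lit 398) (nat_lit 219)) (XT.lf (nat_lit 0) (nat_lit 35831830559) (nat_lit 1216) (nat_lit 40310353825) (nat_lit 1292) (nat_lit 4019112931) (nat_lit 251) (nat_lit 5) (nat_lit 267) (nat_lit 5) (nat_lit 268) (nat_lit 5) (nat_lit 404) (nat_lit 398) (nat_lit 218)))) (XT.nd (nat_lit 78) (nat_lit 0) (nat_lit 76) (XT.lf (nat_lit 76) (nat_lit 27223575347) (nat_lit 0) (nat_lit 16199765677) (nat_lit 1292) (nat_lit 38836269799) (nat_lit 252) (nat_lit 5) (nat_lit 251) (nat_lit 5) (nat_lit 268) (nat_lit 5) (nat_lit 405) (nat_lit 398) (nat_lit 217)) (XT.nd (nat_lit 78) (nat_lit 0) (nat_lit 76) (XT.lf (nat_lit 76) (nat_lit 14351988873) (nat_lit 0) (nat_lit 38047675486) (nat_lit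 1292) (nat_lit 32033018978) (nat_lit 253) (nat_lit 5) (nat_lit 252) (nat_lit 5) (nat_lit 269) (nat_lit 5) (nat_lit 406) (nat_lit 398) (nat_lit 216)) (XT.lf (nat_lit 76) (nat_lit 1277802363) (nat_lit 0) (nat_lit 61533163103) (nat_lit 1292) (nat_lit 23873859590) (nat_lit 254) (nat_lit 5) (nat_lit 253) (nat_lit 5) (nat_lit 270) (nat_lit 5) (nat_lit 407) (nat_lit 398) (nat_lit 215)))))) (XT.nd (nat_lit 468) (nat_lit 2964) (nat_lit 0) (XT.nd (nat_lit 234) (nat_lit 1748) (nat_lit 0) (XT.nd (nat_lit 78) (nat_lit 1900) (nat_lit 0) (XT.lf (nat_lit 0) (nat_lit 74866899446) (nat_lit 1216) (nat_lit 11763733766) (nat_lit 76) (nat_lit 2385219023) (nat_lit 254) (nat_lit 5) (nat_lit 270) (nat_lit 5) (nat_lit 255) (nat_lit 5) (nat_lit 408) (nat_lit 398) (nat_lit 214)) (XT.nd (nat_lit 78) (nat_lit 684) (nat_lit 0) (XT.lf (nat_lit 0) (nat_lit 66232257045) (nat_lit 1216) (nat_lit 22550160987) (nat_lit 1292) (nat_lit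 2643309490) (nat_lit 238) (nat_lit 5) (nat_lit 254) (nat_lit 5) (nat_lit 255) (nat_lit 5) (nat_lit 409) (nat_lit 398) (nat_lit 213)) (XT.lf (nat_lit 0) (nat_lit 10344863637) (nat_lit 684) (nat_lit 38961231572) (nat_lit 76) (nat_lit 44614537835) (nat_lit 229) (nat_lit 5) (nat_lit 238) (nat_lit 5) (nat_lit 230) (nat_lit 5) (nat_lit 410) (nat_lit 398) (nat_lit 212)))) (XT.nd (nat_lit 78) (nat_lit 1140) (nat_lit 0) (XT.lf (nat_lit 0) (nat_lit 25018489815) (nat_lit 684) (nat_lit 52984498254) (nat_lit 76) (nat_lit 18503789611) (nat_lit 221) (nat_lit 5) (nat_lit 230) (nat_lit 5) (nat_lit 222) (nat_lit 5) (nat_lit 411) (nat_lit 398) (nat_lit 211)) (XT.nd (nat_lit 78) (nat_lit 532) (nat_lit 0) (XT.lf (nat_lit 0) (nat_lit 31853057056) (nat_lit 608) (nat_lit 9780785674) (nat_lit 684) (nat_lit 57552145781) (nat_lit 213) (nat_lit 5) (nat_lit 221) (nat_lit 5) (nat_lit 222) (nat_lit 5) (nat_lit 412) (nat_lit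 398) (nat_lit 210)) (XT.lf (nat_lit 0) (nat_lit 19843337300) (nat_lit 532) (nat_lit 40571951766) (nat_lit 608) (nat_lit 41543811354) (nat_lit 206) (nat_lit 5) (nat_lit 213) (nat_lit 5) (nat_lit 214) (nat_lit 5) (nat_lit 413) (nat_lit 398) (nat_lit 209))))) (XT.nd (nat_lit 234) (nat_lit 1900) (nat_lit 0) (XT.nd (nat_lit 78) (nat_lit 532) (nat_lit 0) (XT.lf (nat_lit 0) (nat_lit 7681441824) (nat_lit 532) (nat_lit 73623585090) (nat_lit 608) (nat_lit 23530764731) (nat_lit 199) (nat_lit 5) (nat_lit 206) (nat_lit 5) (nat_lit 207) (nat_lit 5) (nat_lit 414) (nat_lit 398) (nat_lit 208)) (XT.nd (nat_lit 78) (nat_lit 532) (nat_lit 0) (XT.lf (nat_lit 0) (nat_lit 103266029931) (nat_lit 532) (nat_lit 1223265482) (nat_lit 608) (nat_lit 3329520986) (nat_lit 199) (nat_lit 5) (nat_lit 206) (nat_lit 5) (nat_lit 207) (nat_lit 5) (nat_lit 415) (nat_lit 398) (nat_lit 207)) (XT.lf (nat_lit 0) (nat_lit 19168721431) (nat_lit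 532) (nat_lit 17301086152) (nat_lit 76) (nat_lit 74426952114) (nat_lit 192) (nat_lit 5) (nat_lit 199) (nat_lit 5) (nat_lit 193) (nat_lit 5) (nat_lit 416) (nat_lit 398) (nat_lit 206)))) (XT.nd (nat_lit 156) (nat_lit 912) (nat_lit 0) (XT.nd (nat_lit 78) (nat_lit 456) (nat_lit 0) (XT.lf (nat_lit 0) (nat_lit 43982666228) (nat_lit 608) (nat_lit 30276375351) (nat_lit 76) (nat_lit 39830780365) (nat_lit 185) (nat_lit 5) (nat_lit 193) (nat_lit 5) (nat_lit 186) (nat_lit 5) (nat_lit 417) (nat_lit 398) (nat_lit 205)) (XT.lf (nat_lit 0) (nat_lit 71321560595) (nat_lit 532) (nat_lit 43449543473) (nat_lit 76) (nat_lit 2632905901) (nat_lit 179) (nat_lit 5) (nat_lit 186) (nat_lit 5) (nat_lit 180) (nat_lit 5) (nat_lit 418) (nat_lit 398) (nat_lit 204))) (XT.nd (nat_lit 78) (nat_lit 456) (nat_lit 0) (XT.lf (nat_lit 0) (nat_lit 63643523230) (nat_lit 456) (nat_lit 38059276641) (nat_lit 532) (nat_lit 19130845745) (nat_lit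 173) (nat_lit 5) (nat_lit 179) (nat_lit 5) (nat_lit 180) (nat_lit 5) (nat_lit 419) (nat_lit 398) (nat_lit 203)) (XT.lf (nat_lit 0) (nat_lit 10373916682) (nat_lit 456) (nat_lit 71292921249) (nat_lit 76) (nat_lit 42723746794) (nat_lit 167) (nat_lit 5) (nat_lit 173) (nat_lit 5) (nat_lit 168) (nat_lit 5) (nat_lit 420) (nat_lit 398) (nat_lit 202))))))))
noncomputable def xc123 : XT := (XT.nd (nat_lit 53040) (nat_lit 0) (nat_lit 456) (XT.nd (nat_lit 52026) (nat_lit 0) (nat_lit 2584) (XT.nd (nat_lit 51558) (nat_lit 0) (nat_lit 7752) (XT.nd (nat_lit 234) (nat_lit 456) (nat_lit 0) (XT.nd (nat_lit 78) (nat_lit 760) (nat_lit 0) (XT.lf (nat_lit 0) (nat_lit 42227424143) (nat_lit 456) (nat_lit 118513748) (nat_lit 532) (nat_lit 85732120390) (nat_lit 161) (nat_lit 5) (nat_lit 167) (nat_lit 5) (nat_lit 168) (nat_lit 5) (nat_lit 421) (nat_lit 398) (nat_lit 201)) (XT.nd (nat_lit 78) (nat_lit 380) (nat_lit 0) (XT.lf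 (nat_lit 0) (nat_lit 30755903082) (nat_lit 380) (nat_lit 47018823848) (nat_lit 456) (nat_lit 54119433770) (nat_lit 156) (nat_lit 5) (nat_lit 161) (nat_lit 5) (nat_lit 162) (nat_lit 5) (nat_lit 422) (nat_lit 398) (nat_lit 200)) (XT.lf (nat_lit 0) (nat_lit 19107054426) (nat_lit 380) (nat_lit 97312040527) (nat_lit 456) (nat_lit 19438649280) (nat_lit 151) (nat_lit 5) (nat_lit 156) (nat_lit 5) (nat_lit 157) (nat_lit 5) (nat_lit 423) (nat_lit 398) (nat_lit 199)))) (XT.nd (nat_lit 51168) (nat_lit 0) (nat_lit 7676) (XT.lf (nat_lit 0) (nat_lit 6977199614) (nat_lit 380) (nat_lit 11260231815) (nat_lit 456) (nat_lit 121729404420) (nat_lit 145) (nat_lit 5) (nat_lit 150) (nat_lit 5) (nat_lit 151) (nat_lit 5) (nat_lit 424) (nat_lit 398) (nat_lit 198)) (XT.nd (nat_lit 78) (nat_lit 0) (nat_lit 76) (XT.lf (nat_lit 0) (nat_lit 8107771822) (nat_lit 1292) (nat_lit 14049842529) (nat_lit 1292) (nat_lit 14049842529)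 (nat_lit 246) (nat_lit 3) (nat_lit 263) (nat_lit 3) (nat_lit 263) (nat_lit 5) (nat_lit 399) (nat_lit 399) (nat_lit 222)) (XT.lf (nat_lit 0) (nat_lit 17067929423) (nat_lit 1216) (nat_lit 43681305732) (nat_lit 1292) (nat_lit 13462632997) (nat_lit 247) (nat_lit 5) (nat_lit 263) (nat_lit 5) (nat_lit 264) (nat_lit 5) (nat_lit 400) (nat_lit 399) (nat_lit 221))))) (XT.nd (nat_lit 234) (nat_lit 0) (nat_lit 228) (XT.nd (nat_lit 78) (nat_lit 0) (nat_lit 76) (XT.lf (nat_lit 76) (nat_lit 16459847362) (nat_lit 0) (nat_lit 2399423784) (nat_lit 1292) (nat_lit 57212509561) (nat_lit 248) (nat_lit 5) (nat_lit 247) (nat_lit 5) (nat_lit 264) (nat_lit 5) (nat_lit 401) (nat_lit 399) (nat_lit 220)) (XT.nd (nat_lit 78) (nat_lit 0) (nat_lit 76) (XT.lf (nat_lit 76) (nat_lit 1977177638) (nat_lit 0) (nat_lit 19800759601) (nat_lit 1292) (nat_lit 56215619453) (nat_lit 249) (nat_lit 5) (nat_lit 248) (nat_lit 5) (nat_lit 265)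 (nat_lit 5) (nat_lit 402) (nat_lit 399) (nat_lit 219)) (XT.lf (nat_lit 0) (nat_lit 25886436278) (nat_lit 1216) (nat_lit 12533746892) (nat_lit 1292) (nat_lit 41559921813) (nat_lit 249) (nat_lit 5) (nat_lit 265) (nat_lit 5) (nat_lit 266) (nat_lit 5) (nat_lit 403) (nat_lit 399) (nat_lit 218)))) (XT.nd (nat_lit 78) (nat_lit 0) (nat_lit 76) (XT.lf (nat_lit 0) (nat_lit 31159097521) (nat_lit 1216) (nat_lit 27279919817) (nat_lit 1292) (nat_lit 23598201705) (nat_lit 250) (nat_lit 5) (nat_lit 266) (nat_lit 5) (nat_lit 267) (nat_lit 5) (nat_lit 404) (nat_lit 399) (nat_lit 217)) (XT.nd (nat_lit 78) (nat_lit 0) (nat_lit 0) (XT.lf (nat_lit 0) (nat_lit 37656543210) (nat_lit 1216) (nat_lit 42301376002) (nat_lit 1292) (nat_lit 4210435502) (nat_lit 251) (nat_lit 5) (nat_lit 267) (nat_lit 5) (nat_lit 268) (nat_lit 5) (nat_lit 405) (nat_lit 399) (nat_lit 216)) (XT.lf (nat_lit 76) (nat_lit 28608547469) (nat_lit 0)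 (nat_lit 17017733249) (nat_lit 1292) (nat_lit 40745344293) (nat_lit 252) (nat_lit 5) (nat_lit 251) (nat_lit 5) (nat_lit 268) (nat_lit 5) (nat_lit 406) (nat_lit 399) (nat_lit 215)))))) (XT.nd (nat_lit 468) (nat_lit 3192) (nat_lit 0) (XT.nd (nat_lit 234) (nat_lit 2356) (nat_lit 0) (XT.nd (nat_lit 78) (nat_lit 0) (nat_lit 76) (XT.lf (nat_lit 76) (nat_lit 15093712795) (nat_lit 0) (nat_lit 39956353292) (nat_lit 1292) (nat_lit 33603326315) (nat_lit 253) (nat_lit 5) (nat_lit 252) (nat_lit 5) (nat_lit 269) (nat_lit 5) (nat_lit 407) (nat_lit 399) (nat_lit 214)) (XT.nd (nat_lit 78) (nat_lit 0) (nat_lit 76) (XT.lf (nat_lit 76) (nat_lit 1366082788) (nat_lit 0) (nat_lit 64614577795) (nat_lit 1292) (nat_lit 25037519372) (nat_lit 254) (nat_lit 5) (nat_lit 253) (nat_lit 5) (nat_lit 270) (nat_lit 5) (nat_lit 408) (nat_lit 399) (nat_lit 213)) (XT.lf (nat_lit 0) (nat_lit 78637959771) (nat_lit 1216) (nat_lit 12327803898)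 (nat_lit 76) (nat_lit 2500038336) (nat_lit 254) (nat_lit 5) (nat_lit 270) (nat_lit 5) (nat_lit 255) (nat_lit 5) (nat_lit 409) (nat_lit 399) (nat_lit 212)))) (XT.nd (nat_lit 78) (nat_lit 1292) (nat_lit 0) (XT.lf (nat_lit 0) (nat_lit 69567295157) (nat_lit 1216) (nat_lit 23680864529) (nat_lit 1292) (nat_lit 2748044752) (nat_lit 238) (nat_lit 5) (nat_lit 254) (nat_lit 5) (nat_lit 255) (nat_lit 5) (nat_lit 410) (nat_lit 399) (nat_lit 211)) (XT.nd (nat_lit 78) (nat_lit 608) (nat_lit 0) (XT.lf (nat_lit 0) (nat_lit 10887920325) (nat_lit 684) (nat_lit 40885199517) (nat_lit 76) (nat_lit 46842760428) (nat_lit 229) (nat_lit 5) (nat_lit 238) (nat_lit 5) (nat_lit 230) (nat_lit 5) (nat_lit 411) (nat_lit 399) (nat_lit 210)) (XT.lf (nat_lit 0) (nat_lit 26294210043) (nat_lit 684) (nat_lit 55609552833) (nat_lit 76) (nat_lit 19427600272) (nat_lit 221) (nat_lit 5) (nat_lit 230) (nat_lit 5) (nat_lit 222) (nat_lit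 5) (nat_lit 412) (nat_lit 399) (nat_lit 209))))) (XT.nd (nat_lit 234) (nat_lit 1520) (nat_lit 0) (XT.nd (nat_lit 78) (nat_lit 1064) (nat_lit 0) (XT.lf (nat_lit 0) (nat_lit 33469187405) (nat_lit 608) (nat_lit 10270188130) (nat_lit 684) (nat_lit 60405188092) (nat_lit 213) (nat_lit 5) (nat_lit 221) (nat_lit 5) (nat_lit 222) (nat_lit 5) (nat_lit 413) (nat_lit 399) (nat_lit 208)) (XT.nd (nat_lit 78) (nat_lit 532) (nat_lit 0) (XT.lf (nat_lit 0) (nat_lit 20859015622) (nat_lit 532) (nat_lit 42599965978) (nat_lit 608) (nat_lit 43597377343) (nat_lit 206) (nat_lit 5) (nat_lit 213) (nat_lit 5) (nat_lit 214) (nat_lit 5) (nat_lit 414) (nat_lit 399) (nat_lit 207)) (XT.lf (nat_lit 0) (nat_lit 8089022507) (nat_lit 532) (nat_lit 77303323339) (nat_lit 608) (nat_lit 24684565109) (nat_lit 199) (nat_lit 5) (nat_lit 206) (nat_lit 5) (nat_lit 207) (nat_lit 5) (nat_lit 415) (nat_lit 399) (nat_lit 206)))) (XT.nd (nat_lit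 156) (nat_lit 988) (nat_lit 0) (XT.nd (nat_lit 78) (nat_lit 532) (nat_lit 0) (XT.lf (nat_lit 0) (nat_lit 108451720563) (nat_lit 532) (nat_lit 1283056370) (nat_lit 608) (nat_lit 3474341932) (nat_lit 199) (nat_lit 5) (nat_lit 206) (nat_lit 5) (nat_lit 207) (nat_lit 5) (nat_lit 416) (nat_lit 399) (nat_lit 205)) (XT.lf (nat_lit 0) (nat_lit 20147608665) (nat_lit 532) (nat_lit 18143371584) (nat_lit 76) (nat_lit 78149996637) (nat_lit 192) (nat_lit 5) (nat_lit 199) (nat_lit 5) (nat_lit 193) (nat_lit 5) (nat_lit 417) (nat_lit 399) (nat_lit 204))) (XT.nd (nat_lit 78) (nat_lit 456) (nat_lit 0) (XT.lf (nat_lit 0) (nat_lit 46201512755) (nat_lit 608) (nat_lit 31767503621) (nat_lit 76) (nat_lit 41824698354) (nat_lit 185) (nat_lit 5) (nat_lit 193) (nat_lit 5) (nat_lit 186) (nat_lit 5) (nat_lit 418) (nat_lit 399) (nat_lit 203)) (XT.lf (nat_lit 0) (nat_lit 74906654333) (nat_lit 532) (nat_lit 45599433746) (nat_lit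 76) (nat_lit 2767545333) (nat_lit 179) (nat_lit 5) (nat_lit 186) (nat_lit 5) (nat_lit 180) (nat_lit 5) (nat_lit 419) (nat_lit 399) (nat_lit 202))))))) (XT.nd (nat_lit 52104) (nat_lit 0) (nat_lit 2584) (XT.nd (nat_lit 51636) (nat_lit 0) (nat_lit 7296) (XT.nd (nat_lit 234) (nat_lit 760) (nat_lit 0) (XT.nd (nat_lit 78) (nat_lit 912) (nat_lit 0) (XT.lf (nat_lit 0) (nat_lit 66847638843) (nat_lit 456) (nat_lit 39958622115) (nat_lit 532) (nat_lit 20068511034) (nat_lit 173) (nat_lit 5) (nat_lit 179) (nat_lit 5) (nat_lit 180) (nat_lit 5) (nat_lit 420) (nat_lit 399) (nat_lit 201)) (XT.nd (nat_lit 78) (nat_lit 456) (nat_lit 0) (XT.lf (nat_lit 0) (nat_lit 10910485038) (nat_lit 456) (nat_lit 74835389067) (nat_lit 76) (nat_lit 44863697881) (nat_lit 167) (nat_lit 5) (nat_lit 173) (nat_lit 5) (nat_lit 168) (nat_lit 5) (nat_lit 421) (nat_lit 399) (nat_lit 200)) (XT.lf (nat_lit 0) (nat_lit 44360337859) (nat_lit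 456) (nat_lit 120125456) (nat_lit 532) (nat_lit 90000975501) (nat_lit 161) (nat_lit 5) (nat_lit 167) (nat_lit 5) (nat_lit 168) (nat_lit 5) (nat_lit 422) (nat_lit 399) (nat_lit 199)))) (XT.nd (nat_lit 78) (nat_lit 380) (nat_lit 0) (XT.lf (nat_lit 0) (nat_lit 32315090358) (nat_lit 380) (nat_lit 49365026170) (nat_lit 456) (nat_lit 56808247350) (nat_lit 156) (nat_lit 5) (nat_lit 161) (nat_lit 5) (nat_lit 162) (nat_lit 5) (nat_lit 423) (nat_lit 399) (nat_lit 198)) (XT.nd (nat_lit 51246) (nat_lit 0) (nat_lit 7220) (XT.lf (nat_lit 0) (nat_lit 20083632207) (nat_lit 380) (nat_lit 102172525145) (nat_lit 456) (nat_lit 20393985854) (nat_lit 151) (nat_lit 5) (nat_lit 156) (nat_lit 5) (nat_lit 157) (nat_lit 5) (nat_lit 424) (nat_lit 399) (nat_lit 197)) (XT.lf (nat_lit 0) (nat_lit 8533069987) (nat_lit 1292) (nat_lit 14742077022) (nat_lit 1292) (nat_lit 14742077022) (nat_lit 246) (nat_lit 3) (nat_lit 263) (nat_lit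 3) (nat_lit 263) (nat_lit 5) (nat_lit 400) (nat_lit 400) (nat_lit 220))))) (XT.nd (nat_lit 234) (nat_lit 0) (nat_lit 152) (XT.nd (nat_lit 78) (nat_lit 0) (nat_lit 0) (XT.lf (nat_lit 0) (nat_lit 17959265615) (nat_lit 1216) (nat_lit 45844109541) (nat_lit 1292) (nat_lit 14117932200) (nat_lit 247) (nat_lit 5) (nat_lit 263) (nat_lit 5) (nat_lit 264) (nat_lit 5) (nat_lit 401) (nat_lit 400) (nat_lit 219)) (XT.nd (nat_lit 78) (nat_lit 0) (nat_lit 76) (XT.lf (nat_lit 76) (nat_lit 17303491751) (nat_lit 0) (nat_lit 2535074539) (nat_lit 1292) (nat_lit 60035698254) (nat_lit 248) (nat_lit 5) (nat_lit 247) (nat_lit 5) (nat_lit 264) (nat_lit 5) (nat_lit 402) (nat_lit 400) (nat_lit 218)) (XT.lf (nat_lit 76) (nat_lit 2097316474) (nat_lit 0) (nat_lit 20804180150) (nat_lit 1292) (nat_lit 58990683503) (nat_lit 249) (nat_lit 5) (nat_lit 248) (nat_lit 5) (nat_lit 265) (nat_lit 5) (nat_lit 403) (nat_lit 400) (nat_lit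 217)))) (XT.nd (nat_lit 78) (nat_lit 0) (nat_lit 76) (XT.lf (nat_lit 0) (nat_lit 27213647503) (nat_lit 1216) (nat_lit 13139040908) (nat_lit 1292) (nat_lit 43625421307) (nat_lit 249) (nat_lit 5) (nat_lit 265) (nat_lit 5) (nat_lit 266) (nat_lit 5) (nat_lit 404) (nat_lit 400) (nat_lit 216)) (XT.nd (nat_lit 78) (nat_lit 0) (nat_lit 76) (XT.lf (nat_lit 0) (nat_lit 32748472130) (nat_lit 1216) (nat_lit 28622073584) (nat_lit 1292) (nat_lit 24767578516) (nat_lit 250) (nat_lit 5) (nat_lit 266) (nat_lit 5) (nat_lit 267) (nat_lit 5) (nat_lit 405) (nat_lit 400) (nat_lit 215)) (XT.lf (nat_lit 0) (nat_lit 39569412207) (nat_lit 1216) (nat_lit 44394226649) (nat_lit 1292) (nat_lit 4412219794) (nat_lit 251) (nat_lit 5) (nat_lit 267) (nat_lit 5) (nat_lit 268) (nat_lit 5) (nat_lit 406) (nat_lit 400) (nat_lit 214)))))) (XT.nd (nat_lit 468) (nat_lit 3344) (nat_lit 0) (XT.nd (nat_lit 234) (nat_lit 1672) (nat_lit 0)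 (XT.nd (nat_lit 78) (nat_lit 0) (nat_lit 76) (XT.lf (nat_lit 76) (nat_lit 30060556117) (nat_lit 0) (nat_lit 17875857361) (nat_lit 1292) (nat_lit 42752916273) (nat_lit 252) (nat_lit 5) (nat_lit 251) (nat_lit 5) (nat_lit 268) (nat_lit 5) (nat_lit 407) (nat_lit 400) (nat_lit 213)) (XT.nd (nat_lit 78) (nat_lit 0) (nat_lit 76) (XT.lf (nat_lit 76) (nat_lit 15870280048) (nat_lit 0) (nat_lit 41959879828) (nat_lit 1292) (nat_lit 35255063051) (nat_lit 253) (nat_lit 5) (nat_lit 252) (nat_lit 5) (nat_lit 269) (nat_lit 5) (nat_lit 408) (nat_lit 400) (nat_lit 212)) (XT.lf (nat_lit 76) (nat_lit 1456509654) (nat_lit 0) (nat_lit 67849621004) (nat_lit 1292) (nat_lit 26262154345) (nat_lit 254) (nat_lit 5) (nat_lit 253) (nat_lit 5) (nat_lit 270) (nat_lit 5) (nat_lit 409) (nat_lit 400) (nat_lit 211)))) (XT.nd (nat_lit 78) (nat_lit 1900) (nat_lit 0) (XT.lf (nat_lit 0) (nat_lit 82594996402) (nat_lit 1216) (nat_lit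 12922319666) (nat_lit 76) (nat_lit 2621011557) (nat_lit 254) (nat_lit 5) (nat_lit 270) (nat_lit 5) (nat_lit 255) (nat_lit 5) (nat_lit 410) (nat_lit 400) (nat_lit 210)) (XT.nd (nat_lit 78) (nat_lit 684) (nat_lit 0) (XT.lf (nat_lit 0) (nat_lit 73066907316) (nat_lit 1216) (nat_lit 24867806162) (nat_lit 1292) (nat_lit 2860566978) (nat_lit 238) (nat_lit 5) (nat_lit 254) (nat_lit 5) (nat_lit 255) (nat_lit 5) (nat_lit 411) (nat_lit 400) (nat_lit 209)) (XT.lf (nat_lit 0) (nat_lit 11455729952) (nat_lit 684) (nat_lit 42907605857) (nat_lit 76) (nat_lit 49182626977) (nat_lit 229) (nat_lit 5) (nat_lit 238) (nat_lit 5) (nat_lit 230) (nat_lit 5) (nat_lit 412) (nat_lit 400) (nat_lit 208))))) (XT.nd (nat_lit 234) (nat_lit 1596) (nat_lit 0) (XT.nd (nat_lit 78) (nat_lit 1140) (nat_lit 0) (XT.lf (nat_lit 0) (nat_lit 27631411010) (nat_lit 684) (nat_lit 58368107269) (nat_lit 76) (nat_lit 20397729656) (nat_lit 221)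 (nat_lit 5) (nat_lit 230) (nat_lit 5) (nat_lit 222) (nat_lit 5) (nat_lit 413) (nat_lit 400) (nat_lit 207)) (XT.nd (nat_lit 78) (nat_lit 532) (nat_lit 0) (XT.lf (nat_lit 0) (nat_lit 35163941557) (nat_lit 608) (nat_lit 10784026944) (nat_lit 684) (nat_lit 63403166338) (nat_lit 213) (nat_lit 5) (nat_lit 221) (nat_lit 5) (nat_lit 222) (nat_lit 5) (nat_lit 414) (nat_lit 400) (nat_lit 206)) (XT.lf (nat_lit 0) (nat_lit 21923291987) (nat_lit 532) (nat_lit 44729435137) (nat_lit 608) (nat_lit 45755818021) (nat_lit 206) (nat_lit 5) (nat_lit 213) (nat_lit 5) (nat_lit 214) (nat_lit 5) (nat_lit 415) (nat_lit 400) (nat_lit 205)))) (XT.nd (nat_lit 156) (nat_lit 1064) (nat_lit 0) (XT.nd (nat_lit 78) (nat_lit 0) (nat_lit 0) (XT.lf (nat_lit 0) (nat_lit 8514796619) (nat_lit 532) (nat_lit 81167182471) (nat_lit 608) (nat_lit 25898169457) (nat_lit 199) (nat_lit 5) (nat_lit 206) (nat_lit 5) (nat_lit 207) (nat_lit 5)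 (nat_lit 416) (nat_lit 400) (nat_lit 204)) (XT.lf (nat_lit 0) (nat_lit 113894614197) (nat_lit 532) (nat_lit 1345964393) (nat_lit 608) (nat_lit 3628417212) (nat_lit 199) (nat_lit 5) (nat_lit 206) (nat_lit 5) (nat_lit 207) (nat_lit 5) (nat_lit 417) (nat_lit 400) (nat_lit 203))) (XT.nd (nat_lit 78) (nat_lit 532) (nat_lit 0) (XT.lf (nat_lit 0) (nat_lit 21173538906) (nat_lit 532) (nat_lit 19029888122) (nat_lit 76) (nat_lit 82059035623) (nat_lit 192) (nat_lit 5) (nat_lit 199) (nat_lit 5) (nat_lit 193) (nat_lit 5) (nat_lit 418) (nat_lit 400) (nat_lit 202)) (XT.lf (nat_lit 0) (nat_lit 48529468861) (nat_lit 608) (nat_lit 33335297851) (nat_lit 76) (nat_lit 43918091070) (nat_lit 185) (nat_lit 5) (nat_lit 193) (nat_lit 5) (nat_lit 186) (nat_lit 5) (nat_lit 419) (nat_lit 400) (nat_lit 201))))))))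
noncomputable def xc124 : XT := (XT.nd (nat_lit 53118) (nat_lit 0) (nat_lit 836) (XT.nd (nat_lit 52182) (nat_lit 0) (nat_lit 2736) (XT.nd (nat_lit 51714) (nat_lit 0) (nat_lit 6916) (XT.nd (nat_lit 234) (nat_lit 836) (nat_lit 0) (XT.nd (nat_lit 78) (nat_lit 912) (nat_lit 0) (XT.lf (nat_lit 0) (nat_lit 78669234858) (nat_lit 532) (nat_lit 47858918448) (nat_lit 76) (nat_lit 2908638370) (nat_lit 179) (nat_lit 5) (nat_lit 186) (nat_lit 5) (nat_lit 180) (nat_lit 5) (nat_lit 420) (nat_lit 400) (nat_lit 200)) (XT.nd (nat_lit 78) (nat_lit 456) (nat_lit 0) (XT.lf (nat_lit 0) (nat_lit 70209920515) (nat_lit 456) (nat_lit 41953271263) (nat_lit 532) (nat_lit 21054814592) (nat_lit 173) (nat_lit 5) (nat_lit 179) (nat_lit 5) (nat_lit 180) (nat_lit 5) (nat_lit 421) (nat_lit 400) (nat_lit 199)) (XT.lf (nat_lit 0) (nat_lit 11472220194) (nat_lit 456) (nat_lit 78557042200) (nat_lit 76) (nat_lit 47110296605) (nat_lit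 167) (nat_lit 5) (nat_lit 173) (nat_lit 5) (nat_lit 168) (nat_lit 5) (nat_lit 422) (nat_lit 400) (nat_lit 198)))) (XT.nd (nat_lit 78) (nat_lit 380) (nat_lit 0) (XT.lf (nat_lit 0) (nat_lit 46597894443) (nat_lit 456) (nat_lit 122218822) (nat_lit 532) (nat_lit 94484923680) (nat_lit 161) (nat_lit 5) (nat_lit 167) (nat_lit 5) (nat_lit 168) (nat_lit 5) (nat_lit 423) (nat_lit 400) (nat_lit 197)) (XT.nd (nat_lit 51324) (nat_lit 0) (nat_lit 6840) (XT.lf (nat_lit 0) (nat_lit 33950248161) (nat_lit 380) (nat_lit 51828979183) (nat_lit 456) (nat_lit 59633096807) (nat_lit 156) (nat_lit 5) (nat_lit 161) (nat_lit 5) (nat_lit 162) (nat_lit 5) (nat_lit 424) (nat_lit 400) (nat_lit 196)) (XT.lf (nat_lit 0) (nat_lit 8977782056) (nat_lit 1292) (nat_lit 15469876898) (nat_lit 1292) (nat_lit 15469876898) (nat_lit 246) (nat_lit 3) (nat_lit 263) (nat_lit 3) (nat_lit 263) (nat_lit 5) (nat_lit 401) (nat_lit 401) (nat_lit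 218))))) (XT.nd (nat_lit 234) (nat_lit 0) (nat_lit 152) (XT.nd (nat_lit 78) (nat_lit 0) (nat_lit 0) (XT.lf (nat_lit 0) (nat_lit 18891641341) (nat_lit 1216) (nat_lit 48117030231) (nat_lit 1292) (nat_lit 14807654254) (nat_lit 247) (nat_lit 5) (nat_lit 263) (nat_lit 5) (nat_lit 264) (nat_lit 5) (nat_lit 402) (nat_lit 401) (nat_lit 217)) (XT.nd (nat_lit 78) (nat_lit 0) (nat_lit 76) (XT.lf (nat_lit 76) (nat_lit 18187398331) (nat_lit 0) (nat_lit 2676050095) (nat_lit 1292) (nat_lit 63003526900) (nat_lit 248) (nat_lit 5) (nat_lit 247) (nat_lit 5) (nat_lit 264) (nat_lit 5) (nat_lit 403) (nat_lit 401) (nat_lit 216)) (XT.lf (nat_lit 76) (nat_lit 2221483844) (nat_lit 0) (nat_lit 21856527543) (nat_lit 1292) (nat_lit 61907821376) (nat_lit 249) (nat_lit 5) (nat_lit 248) (nat_lit 5) (nat_lit 265) (nat_lit 5) (nat_lit 404) (nat_lit 401) (nat_lit 215)))) (XT.nd (nat_lit 78) (nat_lit 0) (nat_lit 76) (XT.lf (nat_lit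 0) (nat_lit 28604161544) (nat_lit 1216) (nat_lit 13776588574) (nat_lit 1292) (nat_lit 45795357590) (nat_lit 249) (nat_lit 5) (nat_lit 265) (nat_lit 5) (nat_lit 266) (nat_lit 5) (nat_lit 405) (nat_lit 401) (nat_lit 214)) (XT.nd (nat_lit 78) (nat_lit 0) (nat_lit 76) (XT.lf (nat_lit 0) (nat_lit 34414394360) (nat_lit 1216) (nat_lit 30033365722) (nat_lit 1292) (nat_lit 25996403452) (nat_lit 250) (nat_lit 5) (nat_lit 266) (nat_lit 5) (nat_lit 267) (nat_lit 5) (nat_lit 406) (nat_lit 401) (nat_lit 213)) (XT.lf (nat_lit 0) (nat_lit 41575131647) (nat_lit 1216) (nat_lit 46593785461) (nat_lit 1292) (nat_lit 4624905628) (nat_lit 251) (nat_lit 5) (nat_lit 267) (nat_lit 5) (nat_lit 268) (nat_lit 5) (nat_lit 407) (nat_lit 401) (nat_lit 212)))))) (XT.nd (nat_lit 468) (nat_lit 2812) (nat_lit 0) (XT.nd (nat_lit 234) (nat_lit 1672) (nat_lit 0) (XT.nd (nat_lit 78) (nat_lit 0) (nat_lit 76) (XT.lf (nat_lit 76) (nat_lit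 31583158775) (nat_lit 0) (nat_lit 18776214810) (nat_lit 1292) (nat_lit 44863627633) (nat_lit 252) (nat_lit 5) (nat_lit 251) (nat_lit 5) (nat_lit 268) (nat_lit 5) (nat_lit 408) (nat_lit 401) (nat_lit 211)) (XT.nd (nat_lit 78) (nat_lit 0) (nat_lit 76) (XT.lf (nat_lit 76) (nat_lit 16683641319) (nat_lit 0) (nat_lit 44063051935) (nat_lit 1292) (nat_lit 36992029736) (nat_lit 253) (nat_lit 5) (nat_lit 252) (nat_lit 5) (nat_lit 269) (nat_lit 5) (nat_lit 409) (nat_lit 401) (nat_lit 210)) (XT.lf (nat_lit 76) (nat_lit 1549401103) (nat_lit 0) (nat_lit 71246015268) (nat_lit 1292) (nat_lit 27550553676) (nat_lit 254) (nat_lit 5) (nat_lit 253) (nat_lit 5) (nat_lit 270) (nat_lit 5) (nat_lit 410) (nat_lit 401) (nat_lit 209)))) (XT.nd (nat_lit 78) (nat_lit 1900) (nat_lit 0) (XT.lf (nat_lit 0) (nat_lit 86747547712) (nat_lit 1216) (nat_lit 13548594899) (nat_lit 76) (nat_lit 2748407988) (nat_lit 254) (nat_lit 5) (nat_lit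 270) (nat_lit 5) (nat_lit 255) (nat_lit 5) (nat_lit 411) (nat_lit 401) (nat_lit 208)) (XT.nd (nat_lit 78) (nat_lit 684) (nat_lit 0) (XT.lf (nat_lit 0) (nat_lit 76739524701) (nat_lit 1216) (nat_lit 26113825410) (nat_lit 1292) (nat_lit 2981028423) (nat_lit 238) (nat_lit 5) (nat_lit 254) (nat_lit 5) (nat_lit 255) (nat_lit 5) (nat_lit 412) (nat_lit 401) (nat_lit 207)) (XT.lf (nat_lit 0) (nat_lit 12049753285) (nat_lit 684) (nat_lit 45033164258) (nat_lit 76) (nat_lit 51639698034) (nat_lit 229) (nat_lit 5) (nat_lit 238) (nat_lit 5) (nat_lit 230) (nat_lit 5) (nat_lit 413) (nat_lit 401) (nat_lit 206))))) (XT.nd (nat_lit 234) (nat_lit 1064) (nat_lit 0) (XT.nd (nat_lit 78) (nat_lit 1140) (nat_lit 0) (XT.lf (nat_lit 0) (nat_lit 29033381075) (nat_lit 684) (nat_lit 61266627639) (nat_lit 76) (nat_lit 21416481781) (nat_lit 221) (nat_lit 5) (nat_lit 230) (nat_lit 5) (nat_lit 222) (nat_lit 5) (nat_lit 414) (nat_lit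 401) (nat_lit 205)) (XT.nd (nat_lit 78) (nat_lit 532) (nat_lit 0) (XT.lf (nat_lit 0) (nat_lit 36941453628) (nat_lit 608) (nat_lit 11323527073) (nat_lit 684) (nat_lit 66553114988) (nat_lit 213) (nat_lit 5) (nat_lit 221) (nat_lit 5) (nat_lit 222) (nat_lit 5) (nat_lit 415) (nat_lit 401) (nat_lit 204)) (XT.lf (nat_lit 0) (nat_lit 23038799520) (nat_lit 532) (nat_lit 46965426948) (nat_lit 608) (nat_lit 48024172923) (nat_lit 206) (nat_lit 5) (nat_lit 213) (nat_lit 5) (nat_lit 214) (nat_lit 5) (nat_lit 416) (nat_lit 401) (nat_lit 203)))) (XT.nd (nat_lit 78) (nat_lit 532) (nat_lit 0) (XT.lf (nat_lit 0) (nat_lit 8959877027) (nat_lit 532) (nat_lit 85224356075) (nat_lit 608) (nat_lit 27174371438) (nat_lit 199) (nat_lit 5) (nat_lit 206) (nat_lit 5) (nat_lit 207) (nat_lit 5) (nat_lit 417) (nat_lit 401) (nat_lit 202)) (XT.nd (nat_lit 78) (nat_lit 532) (nat_lit 0) (XT.lf (nat_lit 0) (nat_lit 119607764504) (nat_lit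 532) (nat_lit 1412133547) (nat_lit 608) (nat_lit 3792022366) (nat_lit 199) (nat_lit 5) (nat_lit 206) (nat_lit 5) (nat_lit 207) (nat_lit 5) (nat_lit 418) (nat_lit 401) (nat_lit 201)) (XT.lf (nat_lit 0) (nat_lit 22249041074) (nat_lit 532) (nat_lit 19962650518) (nat_lit 76) (nat_lit 86163383463) (nat_lit 192) (nat_lit 5) (nat_lit 199) (nat_lit 5) (nat_lit 193) (nat_lit 5) (nat_lit 419) (nat_lit 401) (nat_lit 200))))))) (XT.nd (nat_lit 52338) (nat_lit 0) (nat_lit 912) (XT.nd (nat_lit 51870) (nat_lit 0) (nat_lit 6080) (XT.nd (nat_lit 234) (nat_lit 456) (nat_lit 0) (XT.nd (nat_lit 78) (nat_lit 912) (nat_lit 0) (XT.lf (nat_lit 0) (nat_lit 50972160415) (nat_lit 608) (nat_lit 34983395214) (nat_lit 76) (nat_lit 46115952809) (nat_lit 185) (nat_lit 5) (nat_lit 193) (nat_lit 5) (nat_lit 186) (nat_lit 5) (nat_lit 420) (nat_lit 401) (nat_lit 199)) (XT.nd (nat_lit 78) (nat_lit 456) (nat_lit 0) (XT.lf (nat_lit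 0) (nat_lit 82618340871) (nat_lit 532) (nat_lit 50233282071) (nat_lit 76) (nat_lit 3056533572) (nat_lit 179) (nat_lit 5) (nat_lit 186) (nat_lit 5) (nat_lit 180) (nat_lit 5) (nat_lit 421) (nat_lit 401) (nat_lit 198)) (XT.lf (nat_lit 0) (nat_lit 73738466183) (nat_lit 456) (nat_lit 44047957993) (nat_lit 532) (nat_lit 22092025169) (nat_lit 173) (nat_lit 5) (nat_lit 179) (nat_lit 5) (nat_lit 180) (nat_lit 5) (nat_lit 422) (nat_lit 401) (nat_lit 197)))) (XT.nd (nat_lit 51480) (nat_lit 0) (nat_lit 6004) (XT.lf (nat_lit 0) (nat_lit 12060534972) (nat_lit 456) (nat_lit 82466648214) (nat_lit 76) (nat_lit 49468907880) (nat_lit 167) (nat_lit 5) (nat_lit 173) (nat_lit 5) (nat_lit 168) (nat_lit 5) (nat_lit 423) (nat_lit 401) (nat_lit 196)) (XT.nd (nat_lit 78) (nat_lit 0) (nat_lit 76) (XT.lf (nat_lit 0) (nat_lit 9443050814) (nat_lit 1292) (nat_lit 16234931762) (nat_lit 1292) (nat_lit 16234931762) (nat_lit 246)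 (nat_lit 3) (nat_lit 263) (nat_lit 3) (nat_lit 263) (nat_lit 5) (nat_lit 402) (nat_lit 402) (nat_lit 216)) (XT.lf (nat_lit 0) (nat_lit 19867436510) (nat_lit 1216) (nat_lit 50505389873) (nat_lit 1292) (nat_lit 15533366168) (nat_lit 247) (nat_lit 5) (nat_lit 263) (nat_lit 5) (nat_lit 264) (nat_lit 5) (nat_lit 403) (nat_lit 402) (nat_lit 215))))) (XT.nd (nat_lit 234) (nat_lit 0) (nat_lit 228) (XT.nd (nat_lit 78) (nat_lit 0) (nat_lit 76) (XT.lf (nat_lit 76) (nat_lit 19113758717) (nat_lit 0) (nat_lit 2822752217) (nat_lit 1292) (nat_lit 66122903909) (nat_lit 248) (nat_lit 5) (nat_lit 247) (nat_lit 5) (nat_lit 264) (nat_lit 5) (nat_lit 404) (nat_lit 402) (nat_lit 214)) (XT.nd (nat_lit 78) (nat_lit 0) (nat_lit 76) (XT.lf (nat_lit 76) (nat_lit 2350065107) (nat_lit 0) (nat_lit 22960363793) (nat_lit 1292) (nat_lit 64973828044) (nat_lit 249) (nat_lit 5) (nat_lit 248) (nat_lit 5) (nat_lit 265) (nat_lit 5)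 (nat_lit 405) (nat_lit 402) (nat_lit 213)) (XT.lf (nat_lit 0) (nat_lit 30061427821) (nat_lit 1216) (nat_lit 14447817659) (nat_lit 1292) (nat_lit 48074844487) (nat_lit 249) (nat_lit 5) (nat_lit 265) (nat_lit 5) (nat_lit 266) (nat_lit 5) (nat_lit 406) (nat_lit 402) (nat_lit 212)))) (XT.nd (nat_lit 78) (nat_lit 0) (nat_lit 76) (XT.lf (nat_lit 0) (nat_lit 36160963170) (nat_lit 1216) (nat_lit 31517064357) (nat_lit 1292) (nat_lit 27287557874) (nat_lit 250) (nat_lit 5) (nat_lit 266) (nat_lit 5) (nat_lit 267) (nat_lit 5) (nat_lit 407) (nat_lit 402) (nat_lit 211)) (XT.nd (nat_lit 78) (nat_lit 0) (nat_lit 0) (XT.lf (nat_lit 0) (nat_lit 43678603722) (nat_lit 1216) (nat_lit 48905195804) (nat_lit 1292) (nat_lit 4848962560) (nat_lit 251) (nat_lit 5) (nat_lit 267) (nat_lit 5) (nat_lit 268) (nat_lit 5) (nat_lit 408) (nat_lit 402) (nat_lit 210)) (XT.lf (nat_lit 76) (nat_lit 33180071682) (nat_lit 0) (nat_lit 19720979819)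 (nat_lit 1292) (nat_lit 47082378672) (nat_lit 252) (nat_lit 5) (nat_lit 251) (nat_lit 5) (nat_lit 268) (nat_lit 5) (nat_lit 409) (nat_lit 402) (nat_lit 209)))))) (XT.nd (nat_lit 468) (nat_lit 3192) (nat_lit 0) (XT.nd (nat_lit 234) (nat_lit 2356) (nat_lit 0) (XT.nd (nat_lit 78) (nat_lit 0) (nat_lit 76) (XT.lf (nat_lit 76) (nat_lit 17535825443) (nat_lit 0) (nat_lit 46270901235) (nat_lit 1292) (nat_lit 38818242137) (nat_lit 253) (nat_lit 5) (nat_lit 252) (nat_lit 5) (nat_lit 269) (nat_lit 5) (nat_lit 410) (nat_lit 402) (nat_lit 208)) (XT.nd (nat_lit 78) (nat_lit 0) (nat_lit 76) (XT.lf (nat_lit 76) (nat_lit 1645071581) (nat_lit 0) (nat_lit 74811865433) (nat_lit 1292) (nat_lit 28905670126) (nat_lit 254) (nat_lit 5) (nat_lit 253) (nat_lit 5) (nat_lit 270) (nat_lit 5) (nat_lit 411) (nat_lit 402) (nat_lit 207)) (XT.lf (nat_lit 0) (nat_lit 91105606721) (nat_lit 1216) (nat_lit 14208028499) (nat_lit 76)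 (nat_lit 2882513969) (nat_lit 254) (nat_lit 5) (nat_lit 270) (nat_lit 5) (nat_lit 255) (nat_lit 5) (nat_lit 412) (nat_lit 402) (nat_lit 206)))) (XT.nd (nat_lit 78) (nat_lit 1292) (nat_lit 0) (XT.lf (nat_lit 0) (nat_lit 80593981225) (nat_lit 1216) (nat_lit 27421901206) (nat_lit 1292) (nat_lit 3109610997) (nat_lit 238) (nat_lit 5) (nat_lit 254) (nat_lit 5) (nat_lit 255) (nat_lit 5) (nat_lit 413) (nat_lit 402) (nat_lit 205)) (XT.nd (nat_lit 78) (nat_lit 608) (nat_lit 0) (XT.lf (nat_lit 0) (nat_lit 12671503385) (nat_lit 684) (nat_lit 47266843431) (nat_lit 76) (nat_lit 54219814189) (nat_lit 229) (nat_lit 5) (nat_lit 238) (nat_lit 5) (nat_lit 230) (nat_lit 5) (nat_lit 414) (nat_lit 402) (nat_lit 204)) (XT.lf (nat_lit 0) (nat_lit 30503553090) (nat_lit 684) (nat_lit 64311922746) (nat_lit 76) (nat_lit 22486276973) (nat_lit 221) (nat_lit 5) (nat_lit 230) (nat_lit 5) (nat_lit 222) (nat_lit 5) (nat_lit 415)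 (nat_lit 402) (nat_lit 203))))) (XT.nd (nat_lit 234) (nat_lit 1520) (nat_lit 0) (XT.nd (nat_lit 78) (nat_lit 1064) (nat_lit 0) (XT.lf (nat_lit 0) (nat_lit 38806045579) (nat_lit 608) (nat_lit 11889974432) (nat_lit 684) (nat_lit 69862439973) (nat_lit 213) (nat_lit 5) (nat_lit 221) (nat_lit 5) (nat_lit 222) (nat_lit 5) (nat_lit 416) (nat_lit 402) (nat_lit 202)) (XT.nd (nat_lit 78) (nat_lit 532) (nat_lit 0) (XT.lf (nat_lit 0) (nat_lit 24208284106) (nat_lit 532) (nat_lit 49313262971) (nat_lit 608) (nat_lit 50407752544) (nat_lit 206) (nat_lit 5) (nat_lit 213) (nat_lit 5) (nat_lit 214) (nat_lit 5) (nat_lit 417) (nat_lit 402) (nat_lit 201)) (XT.lf (nat_lit 0) (nat_lit 9425413352) (nat_lit 532) (nat_lit 89484498578) (nat_lit 608) (nat_lit 28516122670) (nat_lit 199) (nat_lit 5) (nat_lit 206) (nat_lit 5) (nat_lit 207) (nat_lit 5) (nat_lit 418) (nat_lit 402) (nat_lit 200)))) (XT.nd (nat_lit 156) (nat_lit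 988) (nat_lit 0) (XT.nd (nat_lit 78) (nat_lit 532) (nat_lit 0) (XT.lf (nat_lit 0) (nat_lit 125604859847) (nat_lit 532) (nat_lit 1481716128) (nat_lit 608) (nat_lit 3965464113) (nat_lit 199) (nat_lit 5) (nat_lit 206) (nat_lit 5) (nat_lit 207) (nat_lit 5) (nat_lit 419) (nat_lit 402) (nat_lit 199)) (XT.lf (nat_lit 0) (nat_lit 23376754100) (nat_lit 532) (nat_lit 20943792558) (nat_lit 76) (nat_lit 90472818902) (nat_lit 192) (nat_lit 5) (nat_lit 199) (nat_lit 5) (nat_lit 193) (nat_lit 5) (nat_lit 420) (nat_lit 402) (nat_lit 198))) (XT.nd (nat_lit 78) (nat_lit 456) (nat_lit 0) (XT.lf (nat_lit 0) (nat_lit 53535478741) (nat_lit 608) (nat_lit 36715632976) (nat_lit 76) (nat_lit 48423525674) (nat_lit 185) (nat_lit 5) (nat_lit 193) (nat_lit 5) (nat_lit 186) (nat_lit 5) (nat_lit 421) (nat_lit 402) (nat_lit 197)) (XT.lf (nat_lit 0) (nat_lit 86763447729) (nat_lit 532) (nat_lit 52728091481) (nat_lit 76) (nat_lit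 3211594521) (nat_lit 179) (nat_lit 5) (nat_lit 186) (nat_lit 5) (nat_lit 180) (nat_lit 5) (nat_lit 422) (nat_lit 402) (nat_lit 196))))))))
noncomputable def xc125 : XT := (XT.nd (nat_lit 105066) (nat_lit 0) (nat_lit 1444) (XT.nd (nat_lit 52416) (nat_lit 0) (nat_lit 912) (XT.nd (nat_lit 51948) (nat_lit 0) (nat_lit 5852) (XT.nd (nat_lit 51714) (nat_lit 0) (nat_lit 5624) (XT.nd (nat_lit 51558) (nat_lit 0) (nat_lit 5548) (XT.lf (nat_lit 0) (nat_lit 77441761049) (nat_lit 456) (nat_lit 46247655818) (nat_lit 532) (nat_lit 23182540121) (nat_lit 173) (nat_lit 5) (nat_lit 179) (nat_lit 5) (nat_lit 180) (nat_lit 5) (nat_lit 423) (nat_lit 402) (nat_lit 195)) (XT.nd (nat_lit 78) (nat_lit 0) (nat_lit 76) (XT.lf (nat_lit 0) (nat_lit 9930060184) (nat_lit 1292) (nat_lit 17039023946) (nat_lit 1292) (nat_lit 17039023946) (nat_lit 246) (nat_lit 3) (nat_lit 263) (nat_lit 3) (nat_lit 263) (nat_lit 5) (nat_lit 403)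 (nat_lit 403) (nat_lit 214)) (XT.lf (nat_lit 0) (nat_lit 20889119540) (nat_lit 1216) (nat_lit 53014793725) (nat_lit 1292) (nat_lit 16296727630) (nat_lit 247) (nat_lit 5) (nat_lit 263) (nat_lit 5) (nat_lit 264) (nat_lit 5) (nat_lit 404) (nat_lit 403) (nat_lit 213)))) (XT.nd (nat_lit 78) (nat_lit 0) (nat_lit 76) (XT.lf (nat_lit 76) (nat_lit 20084857510) (nat_lit 0) (nat_lit 2975590162) (nat_lit 1292) (nat_lit 69401113199) (nat_lit 248) (nat_lit 5) (nat_lit 247) (nat_lit 5) (nat_lit 264) (nat_lit 5) (nat_lit 405) (nat_lit 403) (nat_lit 212)) (XT.nd (nat_lit 78) (nat_lit 0) (nat_lit 76) (XT.lf (nat_lit 76) (nat_lit 2483447791) (nat_lit 0) (nat_lit 24118368262) (nat_lit 1292) (nat_lit 68195866928) (nat_lit 249) (nat_lit 5) (nat_lit 248) (nat_lit 5) (nat_lit 265) (nat_lit 5) (nat_lit 406) (nat_lit 403) (nat_lit 211)) (XT.lf (nat_lit 0) (nat_lit 31589041798) (nat_lit 1216) (nat_lit 15154244511) (nat_lit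 1292) (nat_lit 50469261558) (nat_lit 249) (nat_lit 5) (nat_lit 265) (nat_lit 5) (nat_lit 266) (nat_lit 5) (nat_lit 407) (nat_lit 403) (nat_lit 210))))) (XT.nd (nat_lit 234) (nat_lit 0) (nat_lit 152) (XT.nd (nat_lit 78) (nat_lit 0) (nat_lit 76) (XT.lf (nat_lit 0) (nat_lit 37992457216) (nat_lit 1216) (nat_lit 33076618571) (nat_lit 1292) (nat_lit 28644075676) (nat_lit 250) (nat_lit 5) (nat_lit 266) (nat_lit 5) (nat_lit 267) (nat_lit 5) (nat_lit 408) (nat_lit 403) (nat_lit 209)) (XT.nd (nat_lit 78) (nat_lit 0) (nat_lit 0) (XT.lf (nat_lit 0) (nat_lit 45884951589) (nat_lit 1216) (nat_lit 51333876067) (nat_lit 1292) (nat_lit 5084890644) (nat_lit 251) (nat_lit 5) (nat_lit 267) (nat_lit 5) (nat_lit 268) (nat_lit 5) (nat_lit 409) (nat_lit 403) (nat_lit 208)) (XT.lf (nat_lit 76) (nat_lit 34855179545) (nat_lit 0) (nat_lit 20712429506) (nat_lit 1292) (nat_lit 49414338564) (nat_lit 252) (nat_lit 5) (nat_lit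 251) (nat_lit 5) (nat_lit 268) (nat_lit 5) (nat_lit 410) (nat_lit 403) (nat_lit 207)))) (XT.nd (nat_lit 78) (nat_lit 0) (nat_lit 76) (XT.lf (nat_lit 76) (nat_lit 18428945112) (nat_lit 0) (nat_lit 48588706346) (nat_lit 1292) (nat_lit 40737939654) (nat_lit 253) (nat_lit 5) (nat_lit 252) (nat_lit 5) (nat_lit 269) (nat_lit 5) (nat_lit 411) (nat_lit 403) (nat_lit 206)) (XT.nd (nat_lit 78) (nat_lit 0) (nat_lit 76) (XT.lf (nat_lit 76) (nat_lit 1743833480) (nat_lit 0) (nat_lit 78555678115) (nat_lit 1292) (nat_lit 30330625982) (nat_lit 254) (nat_lit 5) (nat_lit 253) (nat_lit 5) (nat_lit 270) (nat_lit 5) (nat_lit 412) (nat_lit 403) (nat_lit 205)) (XT.lf (nat_lit 0) (nat_lit 95679645899) (nat_lit 1216) (nat_lit 14902106890) (nat_lit 76) (nat_lit 3023633393) (nat_lit 254) (nat_lit 5) (nat_lit 270) (nat_lit 5) (nat_lit 255) (nat_lit 5) (nat_lit 413) (nat_lit 403) (nat_lit 204)))))) (XT.nd (nat_lit 468) (nat_lit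 1064) (nat_lit 0) (XT.nd (nat_lit 234) (nat_lit 1672) (nat_lit 0) (XT.nd (nat_lit 78) (nat_lit 1292) (nat_lit 0) (XT.lf (nat_lit 0) (nat_lit 84639535424) (nat_lit 1216) (nat_lit 28795159102) (nat_lit 1292) (nat_lit 3246525700) (nat_lit 238) (nat_lit 5) (nat_lit 254) (nat_lit 5) (nat_lit 255) (nat_lit 5) (nat_lit 414) (nat_lit 403) (nat_lit 203)) (XT.nd (nat_lit 78) (nat_lit 608) (nat_lit 0) (XT.lf (nat_lit 0) (nat_lit 13322550151) (nat_lit 684) (nat_lit 49613878083) (nat_lit 76) (nat_lit 56929109891) (nat_lit 229) (nat_lit 5) (nat_lit 238) (nat_lit 5) (nat_lit 230) (nat_lit 5) (nat_lit 415) (nat_lit 403) (nat_lit 202)) (XT.lf (nat_lit 0) (nat_lit 32045513476) (nat_lit 684) (nat_lit 67511159450) (nat_lit 76) (nat_lit 23609657583) (nat_lit 221) (nat_lit 5) (nat_lit 230) (nat_lit 5) (nat_lit 222) (nat_lit 5) (nat_lit 416) (nat_lit 403) (nat_lit 201)))) (XT.nd (nat_lit 78) (nat_lit 1064) (nat_lit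 0) (XT.lf (nat_lit 0) (nat_lit 40762238351) (nat_lit 608) (nat_lit 12484718962) (nat_lit 684) (nat_lit 73338935427) (nat_lit 213) (nat_lit 5) (nat_lit 221) (nat_lit 5) (nat_lit 222) (nat_lit 5) (nat_lit 417) (nat_lit 403) (nat_lit 200)) (XT.nd (nat_lit 78) (nat_lit 532) (nat_lit 0) (XT.lf (nat_lit 0) (nat_lit 25434611791) (nat_lit 532) (nat_lit 51778531267) (nat_lit 608) (nat_lit 52912150127) (nat_lit 206) (nat_lit 5) (nat_lit 213) (nat_lit 5) (nat_lit 214) (nat_lit 5) (nat_lit 418) (nat_lit 403) (nat_lit 199)) (XT.lf (nat_lit 0) (nat_lit 9912595560) (nat_lit 532) (nat_lit 93957748177) (nat_lit 608) (nat_lit 29926538926) (nat_lit 199) (nat_lit 5) (nat_lit 206) (nat_lit 5) (nat_lit 207) (nat_lit 5) (nat_lit 419) (nat_lit 403) (nat_lit 198))))) (XT.nd (nat_lit 51870) (nat_lit 0) (nat_lit 4636) (XT.nd (nat_lit 78) (nat_lit 1064) (nat_lit 0) (XT.lf (nat_lit 0) (nat_lit 131900256688) (nat_lit 532)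 (nat_lit 1554873049) (nat_lit 608) (nat_lit 4149080293) (nat_lit 199) (nat_lit 5) (nat_lit 206) (nat_lit 5) (nat_lit 207) (nat_lit 5) (nat_lit 420) (nat_lit 403) (nat_lit 197)) (XT.nd (nat_lit 78) (nat_lit 532) (nat_lit 0) (XT.lf (nat_lit 0) (nat_lit 24559433957) (nat_lit 532) (nat_lit 21975571315) (nat_lit 76) (nat_lit 94997608388) (nat_lit 192) (nat_lit 5) (nat_lit 199) (nat_lit 5) (nat_lit 193) (nat_lit 5) (nat_lit 421) (nat_lit 403) (nat_lit 196)) (XT.lf (nat_lit 0) (nat_lit 56225595359) (nat_lit 608) (nat_lit 38536056803) (nat_lit 76) (nat_lit 50846312140) (nat_lit 185) (nat_lit 5) (nat_lit 193) (nat_lit 5) (nat_lit 186) (nat_lit 5) (nat_lit 422) (nat_lit 403) (nat_lit 195)))) (XT.nd (nat_lit 156) (nat_lit 0) (nat_lit 76) (XT.nd (nat_lit 78) (nat_lit 0) (nat_lit 76) (XT.lf (nat_lit 0) (nat_lit 10440038776) (nat_lit 1292) (nat_lit 17884032374) (nat_lit 1292) (nat_lit 17884032374) (nat_lit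 246) (nat_lit 3) (nat_lit 263) (nat_lit 3) (nat_lit 263) (nat_lit 5) (nat_lit 404) (nat_lit 404) (nat_lit 212)) (XT.lf (nat_lit 0) (nat_lit 21959254613) (nat_lit 1216) (nat_lit 55651142806) (nat_lit 1292) (nat_lit 17099494309) (nat_lit 247) (nat_lit 5) (nat_lit 263) (nat_lit 5) (nat_lit 264) (nat_lit 5) (nat_lit 405) (nat_lit 404) (nat_lit 211))) (XT.nd (nat_lit 78) (nat_lit 0) (nat_lit 76) (XT.lf (nat_lit 76) (nat_lit 21103078486) (nat_lit 0) (nat_lit 3134982217) (nat_lit 1292) (nat_lit 72845830169) (nat_lit 248) (nat_lit 5) (nat_lit 247) (nat_lit 5) (nat_lit 264) (nat_lit 5) (nat_lit 406) (nat_lit 404) (nat_lit 210)) (XT.lf (nat_lit 76) (nat_lit 2622023291) (nat_lit 0) (nat_lit 25333344525) (nat_lit 1292) (nat_lit 71581485656) (nat_lit 249) (nat_lit 5) (nat_lit 248) (nat_lit 5) (nat_lit 265) (nat_lit 5) (nat_lit 407) (nat_lit 404) (nat_lit 209))))))) (XT.nd (nat_lit 936) (nat_lit 1064) (nat_lit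 0) (XT.nd (nat_lit 468) (nat_lit 3268) (nat_lit 0) (XT.nd (nat_lit 234) (nat_lit 0) (nat_lit 152) (XT.nd (nat_lit 78) (nat_lit 0) (nat_lit 76) (XT.lf (nat_lit 0) (nat_lit 33190754736) (nat_lit 1216) (nat_lit 15897476890) (nat_lit 1292) (nat_lit 52984266447) (nat_lit 249) (nat_lit 5) (nat_lit 265) (nat_lit 5) (nat_lit 266) (nat_lit 5) (nat_lit 408) (nat_lit 404) (nat_lit 208)) (XT.nd (nat_lit 78) (nat_lit 0) (nat_lit 76) (XT.lf (nat_lit 0) (nat_lit 39913346189) (nat_lit 1216) (nat_lit 34715665823) (nat_lit 1292) (nat_lit 30069150125) (nat_lit 250) (nat_lit 5) (nat_lit 266) (nat_lit 5) (nat_lit 267) (nat_lit 5) (nat_lit 409) (nat_lit 404) (nat_lit 207)) (XT.lf (nat_lit 0) (nat_lit 48199532665) (nat_lit 1216) (nat_lit 53885531749) (nat_lit 1292) (nat_lit 5333221303) (nat_lit 251) (nat_lit 5) (nat_lit 267) (nat_lit 5) (nat_lit 268) (nat_lit 5) (nat_lit 410) (nat_lit 404) (nat_lit 206)))) (XT.nd (nat_lit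 78) (nat_lit 0) (nat_lit 76) (XT.lf (nat_lit 76) (nat_lit 36612545579) (nat_lit 0) (nat_lit 21752949572) (nat_lit 1292) (nat_lit 51864956588) (nat_lit 252) (nat_lit 5) (nat_lit 251) (nat_lit 5) (nat_lit 268) (nat_lit 5) (nat_lit 411) (nat_lit 404) (nat_lit 205)) (XT.nd (nat_lit 78) (nat_lit 0) (nat_lit 76) (XT.lf (nat_lit 76) (nat_lit 19365202705) (nat_lit 0) (nat_lit 51022005652) (nat_lit 1292) (nat_lit 42755594378) (nat_lit 253) (nat_lit 5) (nat_lit 252) (nat_lit 5) (nat_lit 269) (nat_lit 5) (nat_lit 412) (nat_lit 404) (nat_lit 204)) (XT.lf (nat_lit 76) (nat_lit 1845998686) (nat_lit 0) (nat_lit 82486382122) (nat_lit 1292) (nat_lit 31828719503) (nat_lit 254) (nat_lit 5) (nat_lit 253) (nat_lit 5) (nat_lit 270) (nat_lit 5) (nat_lit 413) (nat_lit 404) (nat_lit 203))))) (XT.nd (nat_lit 234) (nat_lit 1748) (nat_lit 0) (XT.nd (nat_lit 78) (nat_lit 1900) (nat_lit 0) (XT.lf (nat_lit 0) (nat_lit 100480643016)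 (nat_lit 1216) (nat_lit 15632406761) (nat_lit 76) (nat_lit 3172088282) (nat_lit 254) (nat_lit 5) (nat_lit 270) (nat_lit 5) (nat_lit 255) (nat_lit 5) (nat_lit 414) (nat_lit 404) (nat_lit 202)) (XT.nd (nat_lit 78) (nat_lit 684) (nat_lit 0) (XT.lf (nat_lit 0) (nat_lit 88885893273) (nat_lit 1216) (nat_lit 30236878812) (nat_lit 1292) (nat_lit 3392012213) (nat_lit 238) (nat_lit 5) (nat_lit 254) (nat_lit 5) (nat_lit 255) (nat_lit 5) (nat_lit 415) (nat_lit 404) (nat_lit 201)) (XT.lf (nat_lit 0) (nat_lit 14004524912) (nat_lit 684) (nat_lit 52079780586) (nat_lit 76) (nat_lit 59774027963) (nat_lit 229) (nat_lit 5) (nat_lit 238) (nat_lit 5) (nat_lit 230) (nat_lit 5) (nat_lit 416) (nat_lit 404) (nat_lit 200)))) (XT.nd (nat_lit 78) (nat_lit 1140) (nat_lit 0) (XT.lf (nat_lit 0) (nat_lit 33663011581) (nat_lit 684) (nat_lit 70871878934) (nat_lit 76) (nat_lit 24789293986) (nat_lit 221) (nat_lit 5) (nat_lit 230)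 (nat_lit 5) (nat_lit 222) (nat_lit 5) (nat_lit 417) (nat_lit 404) (nat_lit 199)) (XT.nd (nat_lit 78) (nat_lit 532) (nat_lit 0) (XT.lf (nat_lit 0) (nat_lit 42814763415) (nat_lit 608) (nat_lit 13109177867) (nat_lit 684) (nat_lit 76990801434) (nat_lit 213) (nat_lit 5) (nat_lit 221) (nat_lit 5) (nat_lit 222) (nat_lit 5) (nat_lit 418) (nat_lit 404) (nat_lit 198)) (XT.lf (nat_lit 0) (nat_lit 26720776375) (nat_lit 532) (nat_lit 54367099688) (nat_lit 608) (nat_lit 55543254191) (nat_lit 206) (nat_lit 5) (nat_lit 213) (nat_lit 5) (nat_lit 214) (nat_lit 5) (nat_lit 419) (nat_lit 404) (nat_lit 197)))))) (XT.nd (nat_lit 52182) (nat_lit 0) (nat_lit 4256) (XT.nd (nat_lit 51948) (nat_lit 0) (nat_lit 4104) (XT.nd (nat_lit 78) (nat_lit 532) (nat_lit 0) (XT.lf (nat_lit 0) (nat_lit 10422657574) (nat_lit 532) (nat_lit 98654750933) (nat_lit 608) (nat_lit 31408906800) (nat_lit 199) (nat_lit 5) (nat_lit 206) (nat_lit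 5) (nat_lit 207) (nat_lit 5) (nat_lit 420) (nat_lit 404) (nat_lit 196)) (XT.nd (nat_lit 78) (nat_lit 532) (nat_lit 0) (XT.lf (nat_lit 0) (nat_lit 138509014509) (nat_lit 532) (nat_lit 1631774175) (nat_lit 608) (nat_lit 4343239952) (nat_lit 199) (nat_lit 5) (nat_lit 206) (nat_lit 5) (nat_lit 207) (nat_lit 5) (nat_lit 421) (nat_lit 404) (nat_lit 195)) (XT.lf (nat_lit 0) (nat_lit 25799960895) (nat_lit 532) (nat_lit 23060371766) (nat_lit 76) (nat_lit 99748530568) (nat_lit 192) (nat_lit 5) (nat_lit 199) (nat_lit 5) (nat_lit 193) (nat_lit 5) (nat_lit 422) (nat_lit 404) (nat_lit 194)))) (XT.nd (nat_lit 78) (nat_lit 0) (nat_lit 76) (XT.lf (nat_lit 0) (nat_lit 10974263466) (nat_lit 1292) (nat_lit 18771936695) (nat_lit 1292) (nat_lit 18771936695) (nat_lit 246) (nat_lit 3) (nat_lit 263) (nat_lit 3) (nat_lit 263) (nat_lit 5) (nat_lit 405) (nat_lit 405) (nat_lit 210)) (XT.nd (nat_lit 78) (nat_lit 0) (nat_lit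 0) (XT.lf (nat_lit 0) (nat_lit 23080509042) (nat_lit 1216) (nat_lit 58420647243) (nat_lit 1292) (nat_lit 17943521449) (nat_lit 247) (nat_lit 5) (nat_lit 263) (nat_lit 5) (nat_lit 264) (nat_lit 5) (nat_lit 406) (nat_lit 405) (nat_lit 209)) (XT.lf (nat_lit 76) (nat_lit 22170910960) (nat_lit 0) (nat_lit 3301357222) (nat_lit 1292) (nat_lit 76465138739) (nat_lit 248) (nat_lit 5) (nat_lit 247) (nat_lit 5) (nat_lit 264) (nat_lit 5) (nat_lit 407) (nat_lit 405) (nat_lit 208))))) (XT.nd (nat_lit 234) (nat_lit 0) (nat_lit 228) (XT.nd (nat_lit 78) (nat_lit 0) (nat_lit 76) (XT.lf (nat_lit 76) (nat_lit 2766188502) (nat_lit 0) (nat_lit 26608227489) (nat_lit 1292) (nat_lit 75138632846) (nat_lit 249) (nat_lit 5) (nat_lit 248) (nat_lit 5) (nat_lit 265) (nat_lit 5) (nat_lit 408) (nat_lit 405) (nat_lit 207)) (XT.nd (nat_lit 78) (nat_lit 0) (nat_lit 76) (XT.lf (nat_lit 0) (nat_lit 34870483718) (nat_lit 1216) (nat_lit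 16679217086) (nat_lit 1292) (nat_lit 55625807943) (nat_lit 249) (nat_lit 5) (nat_lit 265) (nat_lit 5) (nat_lit 266) (nat_lit 5) (nat_lit 409) (nat_lit 405) (nat_lit 206)) (XT.lf (nat_lit 0) (nat_lit 41928302489) (nat_lit 1216) (nat_lit 36438039884) (nat_lit 1292) (nat_lit 31566141115) (nat_lit 250) (nat_lit 5) (nat_lit 266) (nat_lit 5) (nat_lit 267) (nat_lit 5) (nat_lit 410) (nat_lit 405) (nat_lit 205)))) (XT.nd (nat_lit 156) (nat_lit 0) (nat_lit 76) (XT.nd (nat_lit 78) (nat_lit 0) (nat_lit 0) (XT.lf (nat_lit 0) (nat_lit 50627952379) (nat_lit 1216) (nat_lit 56566168318) (nat_lit 1292) (nat_lit 5594518312) (nat_lit 251) (nat_lit 5) (nat_lit 267) (nat_lit 5) (nat_lit 268) (nat_lit 5) (nat_lit 411) (nat_lit 405) (nat_lit 204)) (XT.lf (nat_lit 76) (nat_lit 38456421888) (nat_lit 0) (nat_lit 22845040218) (nat_lit 1292) (nat_lit 54439974119) (nat_lit 252) (nat_lit 5) (nat_lit 251) (nat_lit 5) (nat_lit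 268) (nat_lit 5) (nat_lit 412) (nat_lit 405) (nat_lit 203))) (XT.nd (nat_lit 78) (nat_lit 0) (nat_lit 76) (XT.lf (nat_lit 76) (nat_lit 20346896253) (nat_lit 0) (nat_lit 53576610687) (nat_lit 1292) (nat_lit 44875920801) (nat_lit 253) (nat_lit 5) (nat_lit 252) (nat_lit 5) (nat_lit 269) (nat_lit 5) (nat_lit 413) (nat_lit 405) (nat_lit 202)) (XT.lf (nat_lit 76) (nat_lit 1951880056) (nat_lit 0) (nat_lit 86613349846) (nat_lit 1292) (nat_lit 33403431870) (nat_lit 254) (nat_lit 5) (nat_lit 253) (nat_lit 5) (nat_lit 270) (nat_lit 5) (nat_lit 414) (nat_lit 405) (nat_lit 201))))))))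
noncomputable def xc126 : XT := (XT.nd (nat_lit 105612) (nat_lit 0) (nat_lit 1064) (XT.nd (nat_lit 52728) (nat_lit 0) (nat_lit 532) (XT.nd (nat_lit 468) (nat_lit 532) (nat_lit 0) (XT.nd (nat_lit 234) (nat_lit 1748) (nat_lit 0) (XT.nd (nat_lit 78) (nat_lit 1900) (nat_lit 0) (XT.lf (nat_lit 0) (nat_lit 105520108113) (nat_lit 1216) (nat_lit 16400598098) (nat_lit 76) (nat_lit 3328219426) (nat_lit 254) (nat_lit 5) (nat_lit 270) (nat_lit 5) (nat_lit 255) (nat_lit 5) (nat_lit 415) (nat_lit 405) (nat_lit 200)) (XT.nd (nat_lit 78) (nat_lit 684) (nat_lit 0) (XT.lf (nat_lit 0) (nat_lit 93343231997) (nat_lit 1216) (nat_lit 31750502123) (nat_lit 1292) (nat_lit 3546338655) (nat_lit 238) (nat_lit 5) (nat_lit 254) (nat_lit 5) (nat_lit 255) (nat_lit 5) (nat_lit 416) (nat_lit 405) (nat_lit 199)) (XT.lf (nat_lit 0) (nat_lit 14719125083) (nat_lit 684) (nat_lit 54670353378) (nat_lit 76) (nat_lit 62761334874) (nat_lit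 229) (nat_lit 5) (nat_lit 238) (nat_lit 5) (nat_lit 230) (nat_lit 5) (nat_lit 417) (nat_lit 405) (nat_lit 198)))) (XT.nd (nat_lit 78) (nat_lit 1140) (nat_lit 0) (XT.lf (nat_lit 0) (nat_lit 35359969355) (nat_lit 684) (nat_lit 74402013935) (nat_lit 76) (nat_lit 26027990907) (nat_lit 221) (nat_lit 5) (nat_lit 230) (nat_lit 5) (nat_lit 222) (nat_lit 5) (nat_lit 418) (nat_lit 405) (nat_lit 197)) (XT.nd (nat_lit 78) (nat_lit 532) (nat_lit 0) (XT.lf (nat_lit 0) (nat_lit 44968574734) (nat_lit 608) (nat_lit 13764838988) (nat_lit 684) (nat_lit 80826662807) (nat_lit 213) (nat_lit 5) (nat_lit 221) (nat_lit 5) (nat_lit 222) (nat_lit 5) (nat_lit 419) (nat_lit 405) (nat_lit 196)) (XT.lf (nat_lit 0) (nat_lit 28069907253) (nat_lit 532) (nat_lit 57085129826) (nat_lit 608) (nat_lit 58307261851) (nat_lit 206) (nat_lit 5) (nat_lit 213) (nat_lit 5) (nat_lit 214) (nat_lit 5) (nat_lit 420) (nat_lit 405) (nat_lit 195)))))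 (XT.nd (nat_lit 52026) (nat_lit 0) (nat_lit 3648) (XT.nd (nat_lit 78) (nat_lit 0) (nat_lit 0) (XT.lf (nat_lit 0) (nat_lit 10956880917) (nat_lit 532) (nat_lit 103586686074) (nat_lit 608) (nat_lit 32966690849) (nat_lit 199) (nat_lit 5) (nat_lit 206) (nat_lit 5) (nat_lit 207) (nat_lit 5) (nat_lit 421) (nat_lit 405) (nat_lit 194)) (XT.nd (nat_lit 51870) (nat_lit 0) (nat_lit 3572) (XT.lf (nat_lit 0) (nat_lit 145446932343) (nat_lit 532) (nat_lit 1712598687) (nat_lit 608) (nat_lit 4548343578) (nat_lit 199) (nat_lit 5) (nat_lit 206) (nat_lit 5) (nat_lit 207) (nat_lit 5) (nat_lit 422) (nat_lit 405) (nat_lit 193)) (XT.lf (nat_lit 0) (nat_lit 11534063035) (nat_lit 1292) (nat_lit 19704821696) (nat_lit 1292) (nat_lit 19704821696) (nat_lit 246) (nat_lit 3) (nat_lit 263) (nat_lit 3) (nat_lit 263) (nat_lit 5) (nat_lit 406) (nat_lit 406) (nat_lit 208)))) (XT.nd (nat_lit 78) (nat_lit 0) (nat_lit 0) (XT.lf (nat_lit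 0) (nat_lit 24255660750) (nat_lit 1216) (nat_lit 61329840419) (nat_lit 1292) (nat_lit 18830767747) (nat_lit 247) (nat_lit 5) (nat_lit 263) (nat_lit 5) (nat_lit 264) (nat_lit 5) (nat_lit 407) (nat_lit 406) (nat_lit 207)) (XT.nd (nat_lit 78) (nat_lit 0) (nat_lit 76) (XT.lf (nat_lit 76) (nat_lit 23290956327) (nat_lit 0) (nat_lit 3475156052) (nat_lit 1292) (nat_lit 80267549474) (nat_lit 248) (nat_lit 5) (nat_lit 247) (nat_lit 5) (nat_lit 264) (nat_lit 5) (nat_lit 408) (nat_lit 406) (nat_lit 206)) (XT.lf (nat_lit 76) (nat_lit 2916347401) (nat_lit 0) (nat_lit 27946090778) (nat_lit 1292) (nat_lit 78875675969) (nat_lit 249) (nat_lit 5) (nat_lit 248) (nat_lit 5) (nat_lit 265) (nat_lit 5) (nat_lit 409) (nat_lit 406) (nat_lit 205)))))) (XT.nd (nat_lit 468) (nat_lit 3268) (nat_lit 0) (XT.nd (nat_lit 234) (nat_lit 0) (nat_lit 152) (XT.nd (nat_lit 78) (nat_lit 0) (nat_lit 76) (XT.lf (nat_lit 0) (nat_lit 36632321959)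 (nat_lit 1216) (nat_lit 17501265335) (nat_lit 1292) (nat_lit 58400139767) (nat_lit 249) (nat_lit 5) (nat_lit 265) (nat_lit 5) (nat_lit 266) (nat_lit 5) (nat_lit 410) (nat_lit 406) (nat_lit 204)) (XT.nd (nat_lit 78) (nat_lit 0) (nat_lit 76) (XT.lf (nat_lit 0) (nat_lit 44042213296) (nat_lit 1216) (nat_lit 38247779310) (nat_lit 1292) (nat_lit 33138582849) (nat_lit 250) (nat_lit 5) (nat_lit 266) (nat_lit 5) (nat_lit 267) (nat_lit 5) (nat_lit 411) (nat_lit 406) (nat_lit 203)) (XT.lf (nat_lit 0) (nat_lit 53176078416) (nat_lit 1216) (nat_lit 59382104835) (nat_lit 1292) (nat_lit 5869378870) (nat_lit 251) (nat_lit 5) (nat_lit 267) (nat_lit 5) (nat_lit 268) (nat_lit 5) (nat_lit 412) (nat_lit 406) (nat_lit 202)))) (XT.nd (nat_lit 78) (nat_lit 0) (nat_lit 76) (XT.lf (nat_lit 76) (nat_lit 40391260244) (nat_lit 0) (nat_lit 23991322311) (nat_lit 1292) (nat_lit 57145437408) (nat_lit 252) (nat_lit 5) (nat_lit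 251) (nat_lit 5) (nat_lit 268) (nat_lit 5) (nat_lit 413) (nat_lit 406) (nat_lit 201)) (XT.nd (nat_lit 78) (nat_lit 0) (nat_lit 76) (XT.lf (nat_lit 76) (nat_lit 21376425567) (nat_lit 0) (nat_lit 56258620135) (nat_lit 1292) (nat_lit 47103886187) (nat_lit 253) (nat_lit 5) (nat_lit 252) (nat_lit 5) (nat_lit 269) (nat_lit 5) (nat_lit 414) (nat_lit 406) (nat_lit 200)) (XT.lf (nat_lit 76) (nat_lit 2061792821) (nat_lit 0) (nat_lit 90946419712) (nat_lit 1292) (nat_lit 35058434658) (nat_lit 254) (nat_lit 5) (nat_lit 253) (nat_lit 5) (nat_lit 270) (nat_lit 5) (nat_lit 415) (nat_lit 406) (nat_lit 199))))) (XT.nd (nat_lit 234) (nat_lit 1748) (nat_lit 0) (XT.nd (nat_lit 78) (nat_lit 1900) (nat_lit 0) (XT.lf (nat_lit 0) (nat_lit 110810111655) (nat_lit 1216) (nat_lit 17208447504) (nat_lit 76) (nat_lit 3492387069) (nat_lit 254) (nat_lit 5) (nat_lit 270) (nat_lit 5) (nat_lit 255) (nat_lit 5) (nat_lit 416) (nat_lit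 406) (nat_lit 198)) (XT.nd (nat_lit 78) (nat_lit 684) (nat_lit 0) (XT.lf (nat_lit 0) (nat_lit 98022224945) (nat_lit 1216) (nat_lit 33339641170) (nat_lit 1292) (nat_lit 3709801467) (nat_lit 238) (nat_lit 5) (nat_lit 254) (nat_lit 5) (nat_lit 255) (nat_lit 5) (nat_lit 417) (nat_lit 406) (nat_lit 197)) (XT.lf (nat_lit 0) (nat_lit 15468118912) (nat_lit 684) (nat_lit 57391702125) (nat_lit 76) (nat_lit 65898136777) (nat_lit 229) (nat_lit 5) (nat_lit 238) (nat_lit 5) (nat_lit 230) (nat_lit 5) (nat_lit 418) (nat_lit 406) (nat_lit 196)))) (XT.nd (nat_lit 78) (nat_lit 1140) (nat_lit 0) (XT.lf (nat_lit 0) (nat_lit 37140491355) (nat_lit 684) (nat_lit 78109906970) (nat_lit 76) (nat_lit 27328694055) (nat_lit 221) (nat_lit 5) (nat_lit 230) (nat_lit 5) (nat_lit 222) (nat_lit 5) (nat_lit 419) (nat_lit 406) (nat_lit 195)) (XT.nd (nat_lit 78) (nat_lit 532) (nat_lit 0) (XT.lf (nat_lit 0) (nat_lit 47228861201) (nat_lit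 608) (nat_lit 14453264364) (nat_lit 684) (nat_lit 84855588964) (nat_lit 213) (nat_lit 5) (nat_lit 221) (nat_lit 5) (nat_lit 222) (nat_lit 5) (nat_lit 420) (nat_lit 406) (nat_lit 194)) (XT.lf (nat_lit 0) (nat_lit 29485277499) (nat_lit 532) (nat_lit 59939091673) (nat_lit 608) (nat_lit 61210692926) (nat_lit 206) (nat_lit 5) (nat_lit 213) (nat_lit 5) (nat_lit 214) (nat_lit 5) (nat_lit 421) (nat_lit 406) (nat_lit 193))))))) (XT.nd (nat_lit 936) (nat_lit 1900) (nat_lit 0) (XT.nd (nat_lit 468) (nat_lit 608) (nat_lit 0) (XT.nd (nat_lit 234) (nat_lit 0) (nat_lit 152) (XT.nd (nat_lit 78) (nat_lit 0) (nat_lit 76) (XT.lf (nat_lit 0) (nat_lit 12120821874) (nat_lit 1292) (nat_lit 20684881979) (nat_lit 1292) (nat_lit 20684881979) (nat_lit 246) (nat_lit 3) (nat_lit 263) (nat_lit 3) (nat_lit 263) (nat_lit 5) (nat_lit 407) (nat_lit 407) (nat_lit 206)) (XT.nd (nat_lit 78) (nat_lit 0) (nat_lit 0) (XT.lf (nat_lit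 0) (nat_lit 25487605925) (nat_lit 1216) (nat_lit 64385593949) (nat_lit 1292) (nat_lit 19763299537) (nat_lit 247) (nat_lit 5) (nat_lit 263) (nat_lit 5) (nat_lit 264) (nat_lit 5) (nat_lit 408) (nat_lit 407) (nat_lit 205)) (XT.lf (nat_lit 76) (nat_lit 24465934817) (nat_lit 0) (nat_lit 3656833101) (nat_lit 1292) (nat_lit 84262018827) (nat_lit 248) (nat_lit 5) (nat_lit 247) (nat_lit 5) (nat_lit 264) (nat_lit 5) (nat_lit 409) (nat_lit 407) (nat_lit 204)))) (XT.nd (nat_lit 78) (nat_lit 0) (nat_lit 76) (XT.lf (nat_lit 76) (nat_lit 3072912594) (nat_lit 0) (nat_lit 29350154424) (nat_lit 1292) (nat_lit 82801420295) (nat_lit 249) (nat_lit 5) (nat_lit 248) (nat_lit 5) (nat_lit 265) (nat_lit 5) (nat_lit 410) (nat_lit 407) (nat_lit 203)) (XT.nd (nat_lit 78) (nat_lit 0) (nat_lit 76) (XT.lf (nat_lit 0) (nat_lit 38480549445) (nat_lit 1216) (nat_lit 18365523517) (nat_lit 1292) (nat_lit 61313835124) (nat_lit 249)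 (nat_lit 5) (nat_lit 265) (nat_lit 5) (nat_lit 266) (nat_lit 5) (nat_lit 411) (nat_lit 407) (nat_lit 202)) (XT.lf (nat_lit 0) (nat_lit 46260193061) (nat_lit 1216) (nat_lit 40149136469) (nat_lit 1292) (nat_lit 34790191972) (nat_lit 250) (nat_lit 5) (nat_lit 266) (nat_lit 5) (nat_lit 267) (nat_lit 5) (nat_lit 412) (nat_lit 407) (nat_lit 201))))) (XT.nd (nat_lit 234) (nat_lit 988) (nat_lit 0) (XT.nd (nat_lit 78) (nat_lit 0) (nat_lit 0) (XT.lf (nat_lit 0) (nat_lit 55850055506) (nat_lit 1216) (nat_lit 62339988399) (nat_lit 1292) (nat_lit 6158434790) (nat_lit 251) (nat_lit 5) (nat_lit 267) (nat_lit 5) (nat_lit 268) (nat_lit 5) (nat_lit 413) (nat_lit 407) (nat_lit 200)) (XT.nd (nat_lit 78) (nat_lit 0) (nat_lit 76) (XT.lf (nat_lit 76) (nat_lit 42421723266) (nat_lit 0) (nat_lit 25194543831) (nat_lit 1292) (nat_lit 59987711167) (nat_lit 252) (nat_lit 5) (nat_lit 251) (nat_lit 5) (nat_lit 268) (nat_lit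 5) (nat_lit 414) (nat_lit 407) (nat_lit 199)) (XT.lf (nat_lit 76) (nat_lit 22456298547) (nat_lit 0) (nat_lit 59074434510) (nat_lit 1292) (nat_lit 49444721626) (nat_lit 253) (nat_lit 5) (nat_lit 252) (nat_lit 5) (nat_lit 269) (nat_lit 5) (nat_lit 415) (nat_lit 407) (nat_lit 198)))) (XT.nd (nat_lit 78) (nat_lit 1140) (nat_lit 0) (XT.lf (nat_lit 76) (nat_lit 2176055943) (nat_lit 0) (nat_lit 95495919722) (nat_lit 1292) (nat_lit 36797597837) (nat_lit 254) (nat_lit 5) (nat_lit 253) (nat_lit 5) (nat_lit 270) (nat_lit 5) (nat_lit 416) (nat_lit 407) (nat_lit 197)) (XT.nd (nat_lit 78) (nat_lit 1216) (nat_lit 0) (XT.lf (nat_lit 0) (nat_lit 116363313960) (nat_lit 1216) (nat_lit 18057821807) (nat_lit 76) (nat_lit 3664971657) (nat_lit 254) (nat_lit 5) (nat_lit 270) (nat_lit 5) (nat_lit 255) (nat_lit 5) (nat_lit 417) (nat_lit 407) (nat_lit 196)) (XT.lf (nat_lit 0) (nat_lit 102934067574) (nat_lit 1216) (nat_lit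 35008087121) (nat_lit 1292) (nat_lit 3882725444) (nat_lit 238) (nat_lit 5) (nat_lit 254) (nat_lit 5) (nat_lit 255) (nat_lit 5) (nat_lit 418) (nat_lit 407) (nat_lit 195)))))) (XT.nd (nat_lit 52494) (nat_lit 0) (nat_lit 2660) (XT.nd (nat_lit 52260) (nat_lit 0) (nat_lit 2508) (XT.nd (nat_lit 78) (nat_lit 1216) (nat_lit 0) (XT.lf (nat_lit 0) (nat_lit 16253350322) (nat_lit 684) (nat_lit 60250249660) (nat_lit 76) (nat_lit 69191896368) (nat_lit 229) (nat_lit 5) (nat_lit 238) (nat_lit 5) (nat_lit 230) (nat_lit 5) (nat_lit 419) (nat_lit 407) (nat_lit 194)) (XT.nd (nat_lit 78) (nat_lit 608) (nat_lit 0) (XT.lf (nat_lit 0) (nat_lit 39008875136) (nat_lit 684) (nat_lit 82004329611) (nat_lit 76) (nat_lit 28694497104) (nat_lit 221) (nat_lit 5) (nat_lit 230) (nat_lit 5) (nat_lit 222) (nat_lit 5) (nat_lit 420) (nat_lit 407) (nat_lit 193)) (XT.lf (nat_lit 0) (nat_lit 49601059573) (nat_lit 608) (nat_lit 15176093955)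 (nat_lit 684) (nat_lit 89087114913) (nat_lit 213) (nat_lit 5) (nat_lit 221) (nat_lit 5) (nat_lit 222) (nat_lit 5) (nat_lit 421) (nat_lit 407) (nat_lit 192)))) (XT.nd (nat_lit 78) (nat_lit 0) (nat_lit 76) (XT.lf (nat_lit 0) (nat_lit 12735983772) (nat_lit 1292) (nat_lit 21714426938) (nat_lit 1292) (nat_lit 21714426938) (nat_lit 246) (nat_lit 3) (nat_lit 263) (nat_lit 3) (nat_lit 263) (nat_lit 5) (nat_lit 408) (nat_lit 408) (nat_lit 204)) (XT.nd (nat_lit 78) (nat_lit 0) (nat_lit 0) (XT.lf (nat_lit 0) (nat_lit 26779366845) (nat_lit 1216) (nat_lit 67595133519) (nat_lit 1292) (nat_lit 20743295264) (nat_lit 247) (nat_lit 5) (nat_lit 263) (nat_lit 5) (nat_lit 264) (nat_lit 5) (nat_lit 409) (nat_lit 408) (nat_lit 203)) (XT.lf (nat_lit 76) (nat_lit 25698692487) (nat_lit 0) (nat_lit 3846857745) (nat_lit 1292) (nat_lit 88457969546) (nat_lit 248) (nat_lit 5) (nat_lit 247) (nat_lit 5) (nat_lit 264) (nat_lit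 5) (nat_lit 410) (nat_lit 408) (nat_lit 202))))) (XT.nd (nat_lit 234) (nat_lit 0) (nat_lit 228) (XT.nd (nat_lit 78) (nat_lit 0) (nat_lit 76) (XT.lf (nat_lit 76) (nat_lit 3236306816) (nat_lit 0) (nat_lit 30823792855) (nat_lit 1292) (nat_lit 86925128976) (nat_lit 249) (nat_lit 5) (nat_lit 248) (nat_lit 5) (nat_lit 265) (nat_lit 5) (nat_lit 411) (nat_lit 408) (nat_lit 201)) (XT.nd (nat_lit 78) (nat_lit 0) (nat_lit 76) (XT.lf (nat_lit 0) (nat_lit 40419643935) (nat_lit 1216) (nat_lit 19273999163) (nat_lit 1292) (nat_lit 64373802045) (nat_lit 249) (nat_lit 5) (nat_lit 265) (nat_lit 5) (nat_lit 266) (nat_lit 5) (nat_lit 412) (nat_lit 408) (nat_lit 200)) (XT.lf (nat_lit 0) (nat_lit 48587596455) (nat_lit 1216) (nat_lit 42146587118) (nat_lit 1292) (nat_lit 36524876157) (nat_lit 250) (nat_lit 5) (nat_lit 266) (nat_lit 5) (nat_lit 267) (nat_lit 5) (nat_lit 413) (nat_lit 408) (nat_lit 199)))) (XT.nd (nat_lit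 156) (nat_lit 0) (nat_lit 76) (XT.nd (nat_lit 78) (nat_lit 0) (nat_lit 0) (XT.lf (nat_lit 0) (nat_lit 58656320792) (nat_lit 1216) (nat_lit 65446809427) (nat_lit 1292) (nat_lit 6462353788) (nat_lit 251) (nat_lit 5) (nat_lit 267) (nat_lit 5) (nat_lit 268) (nat_lit 5) (nat_lit 414) (nat_lit 408) (nat_lit 198)) (XT.lf (nat_lit 76) (nat_lit 44552696060) (nat_lit 0) (nat_lit 26457586582) (nat_lit 1292) (nat_lit 62973492996) (nat_lit 252) (nat_lit 5) (nat_lit 251) (nat_lit 5) (nat_lit 268) (nat_lit 5) (nat_lit 415) (nat_lit 408) (nat_lit 197))) (XT.nd (nat_lit 78) (nat_lit 0) (nat_lit 76) (XT.lf (nat_lit 76) (nat_lit 23589137693) (nat_lit 0) (nat_lit 62030771536) (nat_lit 1292) (nat_lit 51903933790) (nat_lit 253) (nat_lit 5) (nat_lit 252) (nat_lit 5) (nat_lit 269) (nat_lit 5) (nat_lit 416) (nat_lit 408) (nat_lit 196)) (XT.lf (nat_lit 76) (nat_lit 2294993416) (nat_lit 0) (nat_lit 100272692148) (nat_lit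 1292) (nat_lit 38624998315) (nat_lit 254) (nat_lit 5) (nat_lit 253) (nat_lit 5) (nat_lit 270) (nat_lit 5) (nat_lit 417) (nat_lit 408) (nat_lit 195))))))))
noncomputable def xc127 : XT := (XT.nd (nat_lit 158808) (nat_lit 0) (nat_lit 1292) (XT.nd (nat_lit 53118) (nat_lit 0) (nat_lit 684) (XT.nd (nat_lit 52650) (nat_lit 0) (nat_lit 1444) (XT.nd (nat_lit 52416) (nat_lit 0) (nat_lit 1292) (XT.nd (nat_lit 78) (nat_lit 1900) (nat_lit 0) (XT.lf (nat_lit 0) (nat_lit 122192995960) (nat_lit 1216) (nat_lit 18950691970) (nat_lit 76) (nat_lit 3846374648) (nat_lit 254) (nat_lit 5) (nat_lit 270) (nat_lit 5) (nat_lit 255) (nat_lit 5) (nat_lit 418) (nat_lit 408) (nat_lit 194)) (XT.nd (nat_lit 78) (nat_lit 684) (nat_lit 0) (XT.lf (nat_lit 0) (nat_lit 108090504632) (nat_lit 1216) (nat_lit 36759819270) (nat_lit 1292) (nat_lit 4065463896) (nat_lit 238) (nat_lit 5) (nat_lit 254) (nat_lit 5) (nat_lit 255) (nat_lit 5)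 (nat_lit 419) (nat_lit 408) (nat_lit 193)) (XT.lf (nat_lit 0) (nat_lit 17076743883) (nat_lit 684) (nat_lit 63252750741) (nat_lit 76) (nat_lit 72650450599) (nat_lit 229) (nat_lit 5) (nat_lit 238) (nat_lit 5) (nat_lit 230) (nat_lit 5) (nat_lit 420) (nat_lit 408) (nat_lit 192)))) (XT.nd (nat_lit 78) (nat_lit 0) (nat_lit 76) (XT.lf (nat_lit 0) (nat_lit 13381055800) (nat_lit 1292) (nat_lit 22795886026) (nat_lit 1292) (nat_lit 22795886026) (nat_lit 246) (nat_lit 3) (nat_lit 263) (nat_lit 3) (nat_lit 263) (nat_lit 5) (nat_lit 409) (nat_lit 409) (nat_lit 202)) (XT.nd (nat_lit 78) (nat_lit 0) (nat_lit 0) (XT.lf (nat_lit 0) (nat_lit 28134099924) (nat_lit 1216) (nat_lit 70966055612) (nat_lit 1292) (nat_lit 21773050277) (nat_lit 247) (nat_lit 5) (nat_lit 263) (nat_lit 5) (nat_lit 264) (nat_lit 5) (nat_lit 410) (nat_lit 409) (nat_lit 201)) (XT.lf (nat_lit 76) (nat_lit 26992208453) (nat_lit 0) (nat_lit 4045715816)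 (nat_lit 1292) (nat_lit 92865312266) (nat_lit 248) (nat_lit 5) (nat_lit 247) (nat_lit 5) (nat_lit 264) (nat_lit 5) (nat_lit 411) (nat_lit 409) (nat_lit 200))))) (XT.nd (nat_lit 234) (nat_lit 0) (nat_lit 228) (XT.nd (nat_lit 78) (nat_lit 0) (nat_lit 76) (XT.lf (nat_lit 76) (nat_lit 3406964417) (nat_lit 0) (nat_lit 32370543232) (nat_lit 1292) (nat_lit 91256544305) (nat_lit 249) (nat_lit 5) (nat_lit 248) (nat_lit 5) (nat_lit 265) (nat_lit 5) (nat_lit 412) (nat_lit 409) (nat_lit 199)) (XT.nd (nat_lit 78) (nat_lit 0) (nat_lit 76) (XT.lf (nat_lit 0) (nat_lit 42454292362) (nat_lit 1216) (nat_lit 20228809751) (nat_lit 1292) (nat_lit 67587299553) (nat_lit 249) (nat_lit 5) (nat_lit 265) (nat_lit 5) (nat_lit 266) (nat_lit 5) (nat_lit 413) (nat_lit 409) (nat_lit 198)) (XT.lf (nat_lit 0) (nat_lit 51030031826) (nat_lit 1216) (nat_lit 44244840579) (nat_lit 1292) (nat_lit 38346743172) (nat_lit 250) (nat_lit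 5) (nat_lit 266) (nat_lit 5) (nat_lit 267) (nat_lit 5) (nat_lit 414) (nat_lit 409) (nat_lit 197)))) (XT.nd (nat_lit 78) (nat_lit 0) (nat_lit 0) (XT.lf (nat_lit 0) (nat_lit 61601619835) (nat_lit 1216) (nat_lit 68709917797) (nat_lit 1292) (nat_lit 6781840873) (nat_lit 251) (nat_lit 5) (nat_lit 267) (nat_lit 5) (nat_lit 268) (nat_lit 5) (nat_lit 415) (nat_lit 409) (nat_lit 196)) (XT.nd (nat_lit 78) (nat_lit 0) (nat_lit 76) (XT.lf (nat_lit 76) (nat_lit 46789298328) (nat_lit 0) (nat_lit 27783473221) (nat_lit 1292) (nat_lit 66109828662) (nat_lit 252) (nat_lit 5) (nat_lit 251) (nat_lit 5) (nat_lit 268) (nat_lit 5) (nat_lit 416) (nat_lit 409) (nat_lit 195)) (XT.lf (nat_lit 76) (nat_lit 24777686840) (nat_lit 0) (nat_lit 65134682267) (nat_lit 1292) (nat_lit 54487317401) (nat_lit 253) (nat_lit 5) (nat_lit 252) (nat_lit 5) (nat_lit 269) (nat_lit 5) (nat_lit 417) (nat_lit 409) (nat_lit 194)))))) (XT.nd (nat_lit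 52728) (nat_lit 0) (nat_lit 760) (XT.nd (nat_lit 52494) (nat_lit 0) (nat_lit 608) (XT.nd (nat_lit 78) (nat_lit 1140) (nat_lit 0) (XT.lf (nat_lit 76) (nat_lit 2418935537) (nat_lit 0) (nat_lit 105288119444) (nat_lit 1292) (nat_lit 40544929034) (nat_lit 254) (nat_lit 5) (nat_lit 253) (nat_lit 5) (nat_lit 270) (nat_lit 5) (nat_lit 418) (nat_lit 409) (nat_lit 193)) (XT.nd (nat_lit 78) (nat_lit 1216) (nat_lit 0) (XT.lf (nat_lit 0) (nat_lit 128313091383) (nat_lit 1216) (nat_lit 19889137292) (nat_lit 76) (nat_lit 4037019374) (nat_lit 254) (nat_lit 5) (nat_lit 270) (nat_lit 5) (nat_lit 255) (nat_lit 5) (nat_lit 419) (nat_lit 409) (nat_lit 192)) (XT.lf (nat_lit 0) (nat_lit 113503858597) (nat_lit 1216) (nat_lit 38599014581) (nat_lit 1292) (nat_lit 4258398932) (nat_lit 238) (nat_lit 5) (nat_lit 254) (nat_lit 5) (nat_lit 255) (nat_lit 5) (nat_lit 420) (nat_lit 409) (nat_lit 191)))) (XT.nd (nat_lit 78) (nat_lit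 0) (nat_lit 76) (XT.lf (nat_lit 0) (nat_lit 14057612299) (nat_lit 1292) (nat_lit 23931814333) (nat_lit 1292) (nat_lit 23931814333) (nat_lit 246) (nat_lit 3) (nat_lit 263) (nat_lit 3) (nat_lit 263) (nat_lit 5) (nat_lit 410) (nat_lit 410) (nat_lit 200)) (XT.nd (nat_lit 78) (nat_lit 0) (nat_lit 0) (XT.lf (nat_lit 0) (nat_lit 29555104003) (nat_lit 1216) (nat_lit 74506345165) (nat_lit 1292) (nat_lit 22854981929) (nat_lit 247) (nat_lit 5) (nat_lit 263) (nat_lit 5) (nat_lit 264) (nat_lit 5) (nat_lit 411) (nat_lit 410) (nat_lit 199)) (XT.lf (nat_lit 76) (nat_lit 28349602406) (nat_lit 0) (nat_lit 4253911071) (nat_lit 1292) (nat_lit 97494468348) (nat_lit 248) (nat_lit 5) (nat_lit 247) (nat_lit 5) (nat_lit 264) (nat_lit 5) (nat_lit 412) (nat_lit 410) (nat_lit 198))))) (XT.nd (nat_lit 234) (nat_lit 0) (nat_lit 228) (XT.nd (nat_lit 78) (nat_lit 0) (nat_lit 76) (XT.lf (nat_lit 76) (nat_lit 3585332829) (nat_lit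 0) (nat_lit 33994114143) (nat_lit 1292) (nat_lit 95805910188) (nat_lit 249) (nat_lit 5) (nat_lit 248) (nat_lit 5) (nat_lit 265) (nat_lit 5) (nat_lit 413) (nat_lit 410) (nat_lit 197)) (XT.nd (nat_lit 78) (nat_lit 0) (nat_lit 76) (XT.lf (nat_lit 0) (nat_lit 44589402653) (nat_lit 1216) (nat_lit 21232187318) (nat_lit 1292) (nat_lit 70961954694) (nat_lit 249) (nat_lit 5) (nat_lit 265) (nat_lit 5) (nat_lit 266) (nat_lit 5) (nat_lit 414) (nat_lit 410) (nat_lit 196)) (XT.lf (nat_lit 0) (nat_lit 53593375184) (nat_lit 1216) (nat_lit 46448850503) (nat_lit 1292) (nat_lit 40260110450) (nat_lit 250) (nat_lit 5) (nat_lit 266) (nat_lit 5) (nat_lit 267) (nat_lit 5) (nat_lit 415) (nat_lit 410) (nat_lit 195)))) (XT.nd (nat_lit 156) (nat_lit 0) (nat_lit 76) (XT.nd (nat_lit 78) (nat_lit 0) (nat_lit 0) (XT.lf (nat_lit 0) (nat_lit 64693023278) (nat_lit 1216) (nat_lit 72137039899) (nat_lit 1292) (nat_lit 7117639851)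 (nat_lit 251) (nat_lit 5) (nat_lit 267) (nat_lit 5) (nat_lit 268) (nat_lit 5) (nat_lit 416) (nat_lit 410) (nat_lit 194)) (XT.lf (nat_lit 76) (nat_lit 49136897000) (nat_lit 0) (nat_lit 29175374601) (nat_lit 1292) (nat_lit 69404128274) (nat_lit 252) (nat_lit 5) (nat_lit 251) (nat_lit 5) (nat_lit 268) (nat_lit 5) (nat_lit 417) (nat_lit 410) (nat_lit 193))) (XT.nd (nat_lit 78) (nat_lit 0) (nat_lit 76) (XT.lf (nat_lit 76) (nat_lit 26024818132) (nat_lit 0) (nat_lit 68393567995) (nat_lit 1292) (nat_lit 57200968462) (nat_lit 253) (nat_lit 5) (nat_lit 252) (nat_lit 5) (nat_lit 269) (nat_lit 5) (nat_lit 418) (nat_lit 410) (nat_lit 192)) (XT.lf (nat_lit 76) (nat_lit 2548220138) (nat_lit 0) (nat_lit 110554151437) (nat_lit 1292) (nat_lit 42561908641) (nat_lit 254) (nat_lit 5) (nat_lit 253) (nat_lit 5) (nat_lit 270) (nat_lit 5) (nat_lit 419) (nat_lit 410) (nat_lit 191))))))) (XT.nd (nat_lit 53430) (nat_lit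 0) (nat_lit 0) (XT.nd (nat_lit 468) (nat_lit 0) (nat_lit 0) (XT.nd (nat_lit 234) (nat_lit 0) (nat_lit 152) (XT.nd (nat_lit 78) (nat_lit 0) (nat_lit 76) (XT.lf (nat_lit 0) (nat_lit 14767298999) (nat_lit 1292) (nat_lit 25124898479) (nat_lit 1292) (nat_lit 25124898479) (nat_lit 246) (nat_lit 3) (nat_lit 263) (nat_lit 3) (nat_lit 263) (nat_lit 5) (nat_lit 411) (nat_lit 411) (nat_lit 198)) (XT.nd (nat_lit 78) (nat_lit 0) (nat_lit 0) (XT.lf (nat_lit 0) (nat_lit 31045828891) (nat_lit 1216) (nat_lit 78224394190) (nat_lit 1292) (nat_lit 23991635006) (nat_lit 247) (nat_lit 5) (nat_lit 263) (nat_lit 5) (nat_lit 264) (nat_lit 5) (nat_lit 412) (nat_lit 411) (nat_lit 197)) (XT.lf (nat_lit 76) (nat_lit 29774142417) (nat_lit 0) (nat_lit 4471966682) (nat_lit 1292) (nat_lit 102356394006) (nat_lit 248) (nat_lit 5) (nat_lit 247) (nat_lit 5) (nat_lit 264) (nat_lit 5) (nat_lit 413) (nat_lit 411) (nat_lit 196)))) (XT.nd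 (nat_lit 78) (nat_lit 0) (nat_lit 76) (XT.lf (nat_lit 76) (nat_lit 3771874020) (nat_lit 0) (nat_lit 35698394680) (nat_lit 1292) (nat_lit 100583995872) (nat_lit 249) (nat_lit 5) (nat_lit 248) (nat_lit 5) (nat_lit 265) (nat_lit 5) (nat_lit 414) (nat_lit 411) (nat_lit 195)) (XT.nd (nat_lit 78) (nat_lit 0) (nat_lit 76) (XT.lf (nat_lit 0) (nat_lit 46830116027) (nat_lit 1216) (nat_lit 22286483378) (nat_lit 1292) (nat_lit 74505780469) (nat_lit 249) (nat_lit 5) (nat_lit 265) (nat_lit 5) (nat_lit 266) (nat_lit 5) (nat_lit 415) (nat_lit 411) (nat_lit 194)) (XT.lf (nat_lit 0) (nat_lit 56283784775) (nat_lit 1216) (nat_lit 48763826267) (nat_lit 1292) (nat_lit 42269515174) (nat_lit 250) (nat_lit 5) (nat_lit 266) (nat_lit 5) (nat_lit 267) (nat_lit 5) (nat_lit 416) (nat_lit 411) (nat_lit 193))))) (XT.nd (nat_lit 52728) (nat_lit 380) (nat_lit 0) (XT.nd (nat_lit 78) (nat_lit 0) (nat_lit 0) (XT.lf (nat_lit 0) (nat_lit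 67937944240) (nat_lit 1216) (nat_lit 75736296621) (nat_lit 1292) (nat_lit 7470534936) (nat_lit 251) (nat_lit 5) (nat_lit 267) (nat_lit 5) (nat_lit 268) (nat_lit 5) (nat_lit 417) (nat_lit 411) (nat_lit 192)) (XT.nd (nat_lit 78) (nat_lit 0) (nat_lit 76) (XT.lf (nat_lit 76) (nat_lit 51601119406) (nat_lit 0) (nat_lit 30636617452) (nat_lit 1292) (nat_lit 72864183375) (nat_lit 252) (nat_lit 5) (nat_lit 251) (nat_lit 5) (nat_lit 268) (nat_lit 5) (nat_lit 418) (nat_lit 411) (nat_lit 191)) (XT.lf (nat_lit 76) (nat_lit 27333539266) (nat_lit 0) (nat_lit 71815197972) (nat_lit 1292) (nat_lit 60051298237) (nat_lit 253) (nat_lit 5) (nat_lit 252) (nat_lit 5) (nat_lit 269) (nat_lit 5) (nat_lit 419) (nat_lit 411) (nat_lit 190)))) (XT.nd (nat_lit 78) (nat_lit 0) (nat_lit 76) (XT.lf (nat_lit 0) (nat_lit 15511837268) (nat_lit 1292) (nat_lit 26377962840) (nat_lit 1292) (nat_lit 26377962840) (nat_lit 246) (nat_lit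 3) (nat_lit 263) (nat_lit 3) (nat_lit 263) (nat_lit 5) (nat_lit 412) (nat_lit 412) (nat_lit 196)) (XT.nd (nat_lit 78) (nat_lit 0) (nat_lit 0) (XT.lf (nat_lit 0) (nat_lit 32609884226) (nat_lit 1216) (nat_lit 82129021398) (nat_lit 1292) (nat_lit 25185687487) (nat_lit 247) (nat_lit 5) (nat_lit 263) (nat_lit 5) (nat_lit 264) (nat_lit 5) (nat_lit 413) (nat_lit 412) (nat_lit 195)) (XT.lf (nat_lit 76) (nat_lit 31269253067) (nat_lit 0) (nat_lit 4700426746) (nat_lit 1292) (nat_lit 107462605760) (nat_lit 248) (nat_lit 5) (nat_lit 247) (nat_lit 5) (nat_lit 264) (nat_lit 5) (nat_lit 414) (nat_lit 412) (nat_lit 194)))))) (XT.nd (nat_lit 53118) (nat_lit 0) (nat_lit 0) (XT.nd (nat_lit 234) (nat_lit 152) (nat_lit 0) (XT.nd (nat_lit 78) (nat_lit 0) (nat_lit 76) (XT.lf (nat_lit 76) (nat_lit 3967065952) (nat_lit 0) (nat_lit 37487463919) (nat_lit 1292) (nat_lit 105602120994) (nat_lit 249) (nat_lit 5) (nat_lit 248)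 (nat_lit 5) (nat_lit 265) (nat_lit 5) (nat_lit 415) (nat_lit 412) (nat_lit 193)) (XT.nd (nat_lit 78) (nat_lit 0) (nat_lit 76) (XT.lf (nat_lit 0) (nat_lit 49181819780) (nat_lit 1216) (nat_lit 23394174162) (nat_lit 1292) (nat_lit 78227194698) (nat_lit 249) (nat_lit 5) (nat_lit 265) (nat_lit 5) (nat_lit 266) (nat_lit 5) (nat_lit 416) (nat_lit 412) (nat_lit 192)) (XT.lf (nat_lit 0) (nat_lit 59107716265) (nat_lit 1216) (nat_lit 51195245008) (nat_lit 1292) (nat_lit 44379724902) (nat_lit 250) (nat_lit 5) (nat_lit 266) (nat_lit 5) (nat_lit 267) (nat_lit 5) (nat_lit 417) (nat_lit 412) (nat_lit 191)))) (XT.nd (nat_lit 52728) (nat_lit 380) (nat_lit 0) (XT.lf (nat_lit 0) (nat_lit 71344156461) (nat_lit 1216) (nat_lit 79516222315) (nat_lit 1292) (nat_lit 7841352469) (nat_lit 251) (nat_lit 5) (nat_lit 267) (nat_lit 5) (nat_lit 268) (nat_lit 5) (nat_lit 418) (nat_lit 412) (nat_lit 190)) (XT.nd (nat_lit 78) (nat_lit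 0) (nat_lit 76) (XT.lf (nat_lit 0) (nat_lit 16293028515) (nat_lit 1292) (nat_lit 27693976118) (nat_lit 1292) (nat_lit 27693976118) (nat_lit 246) (nat_lit 3) (nat_lit 263) (nat_lit 3) (nat_lit 263) (nat_lit 5) (nat_lit 413) (nat_lit 413) (nat_lit 194)) (XT.lf (nat_lit 0) (nat_lit 34251048632) (nat_lit 1216) (nat_lit 86229492874) (nat_lit 1292) (nat_lit 26439956650) (nat_lit 247) (nat_lit 5) (nat_lit 263) (nat_lit 5) (nat_lit 264) (nat_lit 5) (nat_lit 414) (nat_lit 413) (nat_lit 193))))) (XT.nd (nat_lit 53040) (nat_lit 76) (nat_lit 0) (XT.nd (nat_lit 78) (nat_lit 0) (nat_lit 76) (XT.lf (nat_lit 76) (nat_lit 32838523910) (nat_lit 0) (nat_lit 4939857816) (nat_lit 1292) (nat_lit 112825207299) (nat_lit 248) (nat_lit 5) (nat_lit 247) (nat_lit 5) (nat_lit 264) (nat_lit 5) (nat_lit 415) (nat_lit 413) (nat_lit 192)) (XT.nd (nat_lit 78) (nat_lit 0) (nat_lit 76) (XT.lf (nat_lit 76) (nat_lit 4171404039) (nat_lit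 0) (nat_lit 39365600839) (nat_lit 1292) (nat_lit 110872181990) (nat_lit 249) (nat_lit 5) (nat_lit 248) (nat_lit 5) (nat_lit 265) (nat_lit 5) (nat_lit 416) (nat_lit 413) (nat_lit 191)) (XT.lf (nat_lit 0) (nat_lit 51650160611) (nat_lit 1216) (nat_lit 24557866195) (nat_lit 1292) (nat_lit 82135039881) (nat_lit 249) (nat_lit 5) (nat_lit 265) (nat_lit 5) (nat_lit 266) (nat_lit 5) (nat_lit 417) (nat_lit 413) (nat_lit 190)))) (XT.nd (nat_lit 156) (nat_lit 0) (nat_lit 76) (XT.nd (nat_lit 78) (nat_lit 0) (nat_lit 76) (XT.lf (nat_lit 0) (nat_lit 17112758746) (nat_lit 1292) (nat_lit 29076058267) (nat_lit 1292) (nat_lit 29076058267) (nat_lit 246) (nat_lit 3) (nat_lit 263) (nat_lit 3) (nat_lit 263) (nat_lit 5) (nat_lit 414) (nat_lit 414) (nat_lit 192)) (XT.lf (nat_lit 0) (nat_lit 35973279246) (nat_lit 1216) (nat_lit 90535543850) (nat_lit 1292) (nat_lit 27757405539) (nat_lit 247) (nat_lit 5) (nat_lit 263) (nat_lit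 5) (nat_lit 264) (nat_lit 5) (nat_lit 415) (nat_lit 414) (nat_lit 191))) (XT.nd (nat_lit 53118) (nat_lit 0) (nat_lit 0) (XT.lf (nat_lit 76) (nat_lit 34485718305) (nat_lit 0) (nat_lit 5190850464) (nat_lit 1292) (nat_lit 118456917779) (nat_lit 248) (nat_lit 5) (nat_lit 247) (nat_lit 5) (nat_lit 264) (nat_lit 5) (nat_lit 416) (nat_lit 414) (nat_lit 190)) (XT.lf (nat_lit 0) (nat_lit 37780721604) (nat_lit 1216) (nat_lit 95057401616) (nat_lit 1292) (nat_lit 29141149790) (nat_lit 247) (nat_lit 5) (nat_lit 263) (nat_lit 5) (nat_lit 264) (nat_lit 5) (nat_lit 416) (nat_lit 415) (nat_lit 189))))))))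

set_option maxRecDepth 10000000 in
noncomputable def Tp : PT := (PT.nd (nat_lit 9255636) (PT.nd (nat_lit 8619078) (PT.nd (nat_lit 7981584) (PT.nd (nat_lit 7291752) pc0 pc1) (PT.nd (nat_lit 371826) pc2 pc3)) (PT.nd (nat_lit 371436) (PT.nd (nat_lit 212082) pc4 pc5) (PT.nd (nat_lit 158574) pc6 pc7))) (PT.nd (nat_lit 370500) (PT.nd (nat_lit 211380) (PT.nd (nat_lit 106002) pc8 pc9) (PT.nd (nat_lit 54678) pc10 pc11)) (PT.nd (nat_lit 268554) (PT.nd (nat_lit 108420) pc12 pc13) (PT.nd (nat_lit 313638) pc14 pc15))))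

set_option maxRecDepth 10000000 in
noncomputable def Tx : XT := (XT.nd (nat_lit 15544464) (nat_lit 0) (nat_lit 228) XT.nil (XT.nd (nat_lit 6532032) (nat_lit 0) (nat_lit 0) (XT.nd (nat_lit 2970864) (nat_lit 0) (nat_lit 1292) (XT.nd (nat_lit 2017938) (nat_lit 0) (nat_lit 456) (XT.nd (nat_lit 1430520) (nat_lit 0) (nat_lit 228) (XT.nd (nat_lit 955968) (nat_lit 0) (nat_lit 152) (XT.nd (nat_lit 688662) (nat_lit 0) (nat_lit 0) (XT.nd (nat_lit 425100) (nat_lit 0) (nat_lit 0) (XT.nd (nat_lit 317850) (nat_lit 0) (nat_lit 0) xc0 xc1) (XT.nd (nat_lit 157794) (nat_lit 0) (nat_lit 0) xc2 xc3)) (XT.nd (nat_lit 159276) (nat_lit 0) (nat_lit 76) (XT.nd (nat_lit 54522) (nat_lit 0) (nat_lit 0) xc4 xc5) (XT.nd (nat_lit 54054) (nat_lit 0) (nat_lit 76) xc6 xc7))) (XT.nd (nat_lit 263406) (nat_lit 0) (nat_lit 0) (XT.nd (nat_lit 156936) (nat_lit 0) (nat_lit 0) (XT.nd (nat_lit 103506) (nat_lit 0) (nat_lit 0) xc8 xc9)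 (XT.nd (nat_lit 53274) (nat_lit 0) (nat_lit 0) xc10 xc11)) (XT.nd (nat_lit 105768) (nat_lit 0) (nat_lit 76) (XT.nd (nat_lit 52962) (nat_lit 0) (nat_lit 0) xc12 xc13) (XT.nd (nat_lit 52728) (nat_lit 0) (nat_lit 0) xc14 xc15)))) (XT.nd (nat_lit 319956) (nat_lit 0) (nat_lit 152) (XT.nd (nat_lit 160680) (nat_lit 0) (nat_lit 0) (XT.nd (nat_lit 56238) (nat_lit 0) (nat_lit 0) (XT.nd (nat_lit 52416) (nat_lit 0) (nat_lit 228) xc16 xc17) (XT.nd (nat_lit 52260) (nat_lit 0) (nat_lit 0) xc18 xc19)) (XT.nd (nat_lit 103740) (nat_lit 0) (nat_lit 152) (XT.nd (nat_lit 51948) (nat_lit 0) (nat_lit 76) xc20 xc21) (XT.nd (nat_lit 3822) (nat_lit 456) (nat_lit 0) xc22 xc23))) (XT.nd (nat_lit 157872) (nat_lit 0) (nat_lit 76) (XT.nd (nat_lit 55302) (nat_lit 0) (nat_lit 0) (XT.nd (nat_lit 51480) (nat_lit 0) (nat_lit 76) xc24 xc25) (XT.nd (nat_lit 51324) (nat_lit 0) (nat_lit 0) xc26 xc27)) (XT.nd (nat_lit 54834) (nat_lit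 0) (nat_lit 0) (XT.nd (nat_lit 3822) (nat_lit 0) (nat_lit 0) xc28 xc29) (XT.nd (nat_lit 50856) (nat_lit 0) (nat_lit 380) xc30 xc31))))) (XT.nd (nat_lit 478218) (nat_lit 0) (nat_lit 380) (XT.nd (nat_lit 263562) (nat_lit 0) (nat_lit 152) (XT.nd (nat_lit 155532) (nat_lit 0) (nat_lit 152) (XT.nd (nat_lit 101244) (nat_lit 0) (nat_lit 76) (XT.nd (nat_lit 50700) (nat_lit 0) (nat_lit 0) xc32 xc33) (XT.nd (nat_lit 3822) (nat_lit 1140) (nat_lit 0) xc34 xc35)) (XT.nd (nat_lit 54054) (nat_lit 0) (nat_lit 0) (XT.nd (nat_lit 3822) (nat_lit 304) (nat_lit 0) xc36 xc37) (XT.nd (nat_lit 50076) (nat_lit 0) (nat_lit 2280) xc38 xc39))) (XT.nd (nat_lit 107562) (nat_lit 0) (nat_lit 76) (XT.nd (nat_lit 53742) (nat_lit 0) (nat_lit 76) (XT.nd (nat_lit 49920) (nat_lit 0) (nat_lit 1520) xc40 xc41) (XT.nd (nat_lit 49920) (nat_lit 0) (nat_lit 912) xc42 xc43)) (XT.nd (nat_lit 53586) (nat_lit 0) (nat_lit 76) (XT.nd (nat_lit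 49764) (nat_lit 0) (nat_lit 608) xc44 xc45) (XT.nd (nat_lit 49608) (nat_lit 0) (nat_lit 304) xc46 xc47)))) (XT.nd (nat_lit 259662) (nat_lit 0) (nat_lit 228) (XT.nd (nat_lit 152490) (nat_lit 0) (nat_lit 76) (XT.nd (nat_lit 53274) (nat_lit 0) (nat_lit 0) (XT.nd (nat_lit 49452) (nat_lit 0) (nat_lit 228) xc48 xc49) (XT.nd (nat_lit 49530) (nat_lit 0) (nat_lit 76) xc50 xc51)) (XT.nd (nat_lit 53508) (nat_lit 0) (nat_lit 0) (XT.nd (nat_lit 3822) (nat_lit 4408) (nat_lit 0) xc52 xc53) (XT.nd (nat_lit 3822) (nat_lit 3724) (nat_lit 0) xc54 xc55))) (XT.nd (nat_lit 107328) (nat_lit 0) (nat_lit 76) (XT.nd (nat_lit 53586) (nat_lit 0) (nat_lit 0) (XT.nd (nat_lit 3822) (nat_lit 2660) (nat_lit 0) xc56 xc57) (XT.nd (nat_lit 3822) (nat_lit 2052) (nat_lit 0) xc58 xc59)) (XT.nd (nat_lit 53742) (nat_lit 0) (nat_lit 76) (XT.nd (nat_lit 3822) (nat_lit 1216) (nat_lit 0) xc60 xc61) (XT.nd (nat_lit 3822) (nat_lit 608) (nat_lit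 0) xc62 xc63)))))) (XT.nd (nat_lit 1116180) (nat_lit 0) (nat_lit 1976) (XT.nd (nat_lit 529230) (nat_lit 0) (nat_lit 760) (XT.nd (nat_lit 263562) (nat_lit 0) (nat_lit 304) (XT.nd (nat_lit 108264) (nat_lit 0) (nat_lit 76) (XT.nd (nat_lit 54054) (nat_lit 0) (nat_lit 76) (XT.nd (nat_lit 50232) (nat_lit 0) (nat_lit 3648) xc64 xc65) (XT.nd (nat_lit 50310) (nat_lit 0) (nat_lit 1824) xc66 xc67)) (XT.nd (nat_lit 54210) (nat_lit 0) (nat_lit 76) (XT.nd (nat_lit 50388) (nat_lit 0) (nat_lit 532) xc68 xc69) (XT.nd (nat_lit 50466) (nat_lit 0) (nat_lit 76) xc70 xc71))) (XT.nd (nat_lit 109044) (nat_lit 0) (nat_lit 76) (XT.nd (nat_lit 54444) (nat_lit 0) (nat_lit 0) (XT.nd (nat_lit 3822) (nat_lit 2280) (nat_lit 0) xc72 xc73) (XT.nd (nat_lit 3822) (nat_lit 532) (nat_lit 0) xc74 xc75)) (XT.nd (nat_lit 54600) (nat_lit 0) (nat_lit 76) (XT.nd (nat_lit 50778) (nat_lit 0) (nat_lit 1900) xc76 xc77) (XT.nd (nat_lit 50856)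 (nat_lit 0) (nat_lit 304) xc78 xc79)))) (XT.nd (nat_lit 268242) (nat_lit 0) (nat_lit 532) (XT.nd (nat_lit 110136) (nat_lit 0) (nat_lit 228) (XT.nd (nat_lit 54990) (nat_lit 0) (nat_lit 76) (XT.nd (nat_lit 3822) (nat_lit 2356) (nat_lit 0) xc80 xc81) (XT.nd (nat_lit 51246) (nat_lit 0) (nat_lit 2508) xc82 xc83)) (XT.nd (nat_lit 102726) (nat_lit 0) (nat_lit 76) (XT.nd (nat_lit 51324) (nat_lit 0) (nat_lit 0) xc84 xc85) (XT.nd (nat_lit 3822) (nat_lit 1900) (nat_lit 0) xc86 xc87))) (XT.nd (nat_lit 158964) (nat_lit 0) (nat_lit 380) (XT.nd (nat_lit 55380) (nat_lit 0) (nat_lit 76) (XT.nd (nat_lit 51558) (nat_lit 0) (nat_lit 836) xc88 xc89) (XT.nd (nat_lit 51714) (nat_lit 0) (nat_lit 228) xc90 xc91)) (XT.nd (nat_lit 55692) (nat_lit 0) (nat_lit 0) (XT.nd (nat_lit 51870) (nat_lit 0) (nat_lit 912) xc92 xc93) (XT.nd (nat_lit 51948) (nat_lit 0) (nat_lit 228) xc94 xc95))))) (XT.nd (nat_lit 745992) (nat_lit 0)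 (nat_lit 2508) (XT.nd (nat_lit 370734) (nat_lit 0) (nat_lit 988) (XT.nd (nat_lit 160524) (nat_lit 0) (nat_lit 456) (XT.nd (nat_lit 104286) (nat_lit 0) (nat_lit 304) (XT.nd (nat_lit 52104) (nat_lit 0) (nat_lit 152) xc96 xc97) (XT.nd (nat_lit 3822) (nat_lit 1596) (nat_lit 0) xc98 xc99)) (XT.nd (nat_lit 104910) (nat_lit 0) (nat_lit 304) (XT.nd (nat_lit 52416) (nat_lit 0) (nat_lit 152) xc100 xc101) (XT.nd (nat_lit 52572) (nat_lit 0) (nat_lit 152) xc102 xc103))) (XT.nd (nat_lit 162474) (nat_lit 0) (nat_lit 684) (XT.nd (nat_lit 56550) (nat_lit 0) (nat_lit 380) (XT.nd (nat_lit 52728) (nat_lit 0) (nat_lit 912) xc104 xc105) (XT.nd (nat_lit 52884) (nat_lit 0) (nat_lit 152) xc106 xc107)) (XT.nd (nat_lit 106158) (nat_lit 0) (nat_lit 380) (XT.nd (nat_lit 53040) (nat_lit 0) (nat_lit 228) xc108 xc109) (XT.nd (nat_lit 53196) (nat_lit 0) (nat_lit 304) xc110 xc111)))) (XT.nd (nat_lit 531024) (nat_lit 0) (nat_lit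 2888) (XT.nd (nat_lit 264342) (nat_lit 0) (nat_lit 1444) (XT.nd (nat_lit 156702) (nat_lit 0) (nat_lit 988) (XT.nd (nat_lit 103116) (nat_lit 0) (nat_lit 456) xc112 xc113) (XT.nd (nat_lit 53742) (nat_lit 0) (nat_lit 228) xc114 xc115)) (XT.nd (nat_lit 158106) (nat_lit 0) (nat_lit 912) (XT.nd (nat_lit 53898) (nat_lit 0) (nat_lit 76) xc116 xc117) (XT.nd (nat_lit 54210) (nat_lit 0) (nat_lit 228) xc118 xc119))) (XT.nd (nat_lit 371436) (nat_lit 0) (nat_lit 2964) (XT.nd (nat_lit 210522) (nat_lit 0) (nat_lit 1748) (XT.nd (nat_lit 105066) (nat_lit 0) (nat_lit 988) xc120 xc121) (XT.nd (nat_lit 54756) (nat_lit 0) (nat_lit 380) xc122 xc123)) (XT.nd (nat_lit 265200) (nat_lit 0) (nat_lit 3268) (XT.nd (nat_lit 106470) (nat_lit 0) (nat_lit 1292) xc124 xc125) (XT.nd (nat_lit 159588) (nat_lit 0) (nat_lit 2280) xc126 xc127))))))) XT.nil))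

set_option maxRecDepth 10000000 in
noncomputable def Te : XT := XT.nil

set_option maxRecDepth 10000000 in
noncomputable def Tz : ZL := (ZL.cons (nat_lit 76) (nat_lit 6) (nat_lit 284888263781813962442) (ZL.cons (nat_lit 228) (nat_lit 3) (nat_lit 139063646208939633718) (ZL.cons (nat_lit 304) (nat_lit 6) (nat_lit 271700575972612819038) (ZL.cons (nat_lit 380) (nat_lit 6) (nat_lit 265592812740192554274) (ZL.cons (nat_lit 456) (nat_lit 3) (nat_lit 132640238312752495173) (ZL.cons (nat_lit 532) (nat_lit 6) (nat_lit 259179661346151276272) (ZL.cons (nat_lit 608) (nat_lit 6) (nat_lit 253383604383886548926) (ZL.cons (nat_lit 684) (nat_lit 3) (nat_lit 126543070708758720211) (ZL.cons (nat_lit 760) (nat_lit 6) (nat_lit 247297744573508585214) (ZL.cons (nat_lit 836) (nat_lit 6) (nat_lit 241800688916877070514) (ZL.cons (nat_lit 912) (nat_lit 3) (nat_lit 120758695426834197874) (ZL.cons (nat_lit 988) (nat_lit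 6) (nat_lit 236028780477413980080) (ZL.cons (nat_lit 1064) (nat_lit 6) (nat_lit 230818845324801875310) (ZL.cons (nat_lit 1140) (nat_lit 3) (nat_lit 115274518822777759196) (ZL.cons (nat_lit 1216) (nat_lit 6) (nat_lit 225348413414559165306) (ZL.cons (nat_lit 1292) (nat_lit 6) (nat_lit 220414525345779691406) (ZL.cons (nat_lit 1368) (nat_lit 3) (nat_lit 110078782825629675741) (ZL.cons (nat_lit 1444) (nat_lit 6) (nat_lit 215233942873561243812) (ZL.cons (nat_lit 1520) (nat_lit 6) (nat_lit 210565822170089370610) (ZL.cons (nat_lit 1596) (nat_lit 3) (nat_lit 105160549325749285341) (ZL.cons (nat_lit 1672) (nat_lit 6) (nat_lit 205664295431443903746) (ZL.cons (nat_lit 1748) (nat_lit 6) (nat_lit 201252445586682827128) (ZL.cons (nat_lit 1824) (nat_lit 3) (nat_lit 100509687784488651695) (ZL.cons (nat_lit 1900) (nat_lit 6) (nat_lit 196620003249683696682) (ZL.cons (nat_lit 1976) (nat_lit 6) (nat_lit 192455703777564765512)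 (ZL.cons (nat_lit 2052) (nat_lit 3) (nat_lit 96116866166065466689) (ZL.cons (nat_lit 2128) (nat_lit 6) (nat_lit 188083189331839887782) (ZL.cons (nat_lit 2204) (nat_lit 6) (nat_lit 184158492003571771692) (ZL.cons (nat_lit 2280) (nat_lit 3) (nat_lit 91973545313484061020) (ZL.cons (nat_lit 2356) (nat_lit 6) (nat_lit 180450295829878327688) (ZL.cons (nat_lit 2432) (nat_lit 6) (nat_lit 180037559808890249798) (ZL.cons (nat_lit 2508) (nat_lit 6) (nat_lit 176345288470896561830) (ZL.cons (nat_lit 2584) (nat_lit 3) (nat_lit 88071976913256066796) (ZL.cons (nat_lit 2660) (nat_lit 6) (nat_lit 172861485490753739836) (ZL.cons (nat_lit 2736) (nat_lit 6) (nat_lit 172468403566003189466) (ZL.cons (nat_lit 2812) (nat_lit 6) (nat_lit 169002157717219348504) (ZL.cons (nat_lit 2888) (nat_lit 3) (nat_lit 84405205218426613186) (ZL.cons (nat_lit 2964) (nat_lit 6) (nat_lit 165736963313853982514) (ZL.cons (nat_lit 3040) (nat_lit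 6) (nat_lit 165362599575996315494) (ZL.cons (nat_lit 3116) (nat_lit 6) (nat_lit 162116761909954226092) (ZL.cons (nat_lit 3192) (nat_lit 3) (nat_lit 80967072726231340602) (ZL.cons (nat_lit 3268) (nat_lit 6) (nat_lit 159065169253807810334) (ZL.cons (nat_lit 3344) (nat_lit 6) (nat_lit 158708632360610032220) (ZL.cons (nat_lit 3420) (nat_lit 6) (nat_lit 156200555910756719614) (ZL.cons (nat_lit 3496) (nat_lit 6) (nat_lit 155678380507362528902) (ZL.cons (nat_lit 3572) (nat_lit 3) (nat_lit 77752230035828147838) (ZL.cons (nat_lit 3648) (nat_lit 6) (nat_lit 152836175007355296240) (ZL.cons (nat_lit 3724) (nat_lit 6) (nat_lit 152496616061452650416) (ZL.cons (nat_lit 3800) (nat_lit 6) (nat_lit 150175248704635936062) (ZL.cons (nat_lit 3876) (nat_lit 6) (nat_lit 149677938796641468720) (ZL.cons (nat_lit 3952) (nat_lit 3) (nat_lit 74756150143222528061) (ZL.cons (nat_lit 4028) (nat_lit 6) (nat_lit 147041717140877962052)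 (ZL.cons (nat_lit 4104) (nat_lit 6) (nat_lit 146718327668589727936) (ZL.cons (nat_lit 4180) (nat_lit 6) (nat_lit 144581674375934122070) (ZL.cons (nat_lit 4256) (nat_lit 6) (nat_lit 144108045892129867456) (ZL.cons (nat_lit 4332) (nat_lit 3) (nat_lit 71975147465019022969) (ZL.cons (nat_lit 4408) (nat_lit 6) (nat_lit 142291953257131511056) (ZL.cons (nat_lit 4484) (nat_lit 6) (nat_lit 141675240000454855970) (ZL.cons (nat_lit 4560) (nat_lit 6) (nat_lit 141367250026847013954) (ZL.cons (nat_lit 4636) (nat_lit 6) (nat_lit 139414117598584514880) (ZL.cons (nat_lit 4712) (nat_lit 6) (nat_lit 138963042852104272392) (ZL.cons (nat_lit 4788) (nat_lit 3) (nat_lit 69406401920294125947) (ZL.cons (nat_lit 4864) (nat_lit 6) (nat_lit 137319295061752486226) (ZL.cons (nat_lit 4940) (nat_lit 6) (nat_lit 136731949103012814718) (ZL.cons (nat_lit 5016) (nat_lit 6) (nat_lit 136438625318624393748) (ZL.cons (nat_lit 5092)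 (nat_lit 6) (nat_lit 135385784717252027086) (ZL.cons (nat_lit 5168) (nat_lit 6) (nat_lit 134668656651598613652) (ZL.cons (nat_lit 5244) (nat_lit 6) (nat_lit 134239061654950763662) (ZL.cons (nat_lit 5320) (nat_lit 3) (nat_lit 67047988441039181595) (ZL.cons (nat_lit 5396) (nat_lit 6) (nat_lit 132768252896786873480) (ZL.cons (nat_lit 5472) (nat_lit 6) (nat_lit 132208875793225281564) (ZL.cons (nat_lit 5548) (nat_lit 6) (nat_lit 131929519808093452072) (ZL.cons (nat_lit 5624) (nat_lit 6) (nat_lit 131026213067732804344) (ZL.cons (nat_lit 5700) (nat_lit 6) (nat_lit 130343233957586696308) (ZL.cons (nat_lit 5776) (nat_lit 6) (nat_lit 129934095865541124890) (ZL.cons (nat_lit 5852) (nat_lit 3) (nat_lit 64898912326640847935) (ZL.cons (nat_lit 5928) (nat_lit 6) (nat_lit 129438389450557706076) (ZL.cons (nat_lit 6004) (nat_lit 6) (nat_lit 128637694143664439834) (ZL.cons (nat_lit 6080) (nat_lit 6) (nat_lit 128104954045034352296)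 (ZL.cons (nat_lit 6156) (nat_lit 6) (nat_lit 127838900725861181350) (ZL.cons (nat_lit 6232) (nat_lit 6) (nat_lit 127088195542377744862) (ZL.cons (nat_lit 6308) (nat_lit 6) (nat_lit 126437739247000499118) (ZL.cons (nat_lit 6384) (nat_lit 6) (nat_lit 126048083921242812052) (ZL.cons (nat_lit 6460) (nat_lit 3) (nat_lit 62959150907164535063) (ZL.cons (nat_lit 6536) (nat_lit 6) (nat_lit 125691048871342595454) (ZL.cons (nat_lit 6612) (nat_lit 6) (nat_lit 124928481912396627606) (ZL.cons (nat_lit 6688) (nat_lit 6) (nat_lit 124421110389891782334) (ZL.cons (nat_lit 6764) (nat_lit 6) (nat_lit 124167726276393524288) (ZL.cons (nat_lit 6840) (nat_lit 6) (nat_lit 124442927590866050780) (ZL.cons (nat_lit 6916) (nat_lit 6) (nat_lit 123573588571378442832) (ZL.cons (nat_lit 6992) (nat_lit 6) (nat_lit 122954106385304875456) (ZL.cons (nat_lit 7068) (nat_lit 6) (nat_lit 122583006075059459204) (ZL.cons (nat_lit 7144)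 (nat_lit 3) (nat_lit 61229702034237471542) (ZL.cons (nat_lit 7220) (nat_lit 6) (nat_lit 123340859983613642870) (ZL.cons (nat_lit 7296) (nat_lit 6) (nat_lit 122369833287419711020) (ZL.cons (nat_lit 7372) (nat_lit 6) (nat_lit 121643579040804503544) (ZL.cons (nat_lit 7448) (nat_lit 6) (nat_lit 121160368066990365188) (ZL.cons (nat_lit 7524) (nat_lit 6) (nat_lit 120919049863658690862) (ZL.cons (nat_lit 7600) (nat_lit 6) (nat_lit 121314349976511006620) (ZL.cons (nat_lit 7676) (nat_lit 6) (nat_lit 120486408053189475242) (ZL.cons (nat_lit 7752) (nat_lit 6) (nat_lit 119896425018833696786) (ZL.cons (nat_lit 7828) (nat_lit 6) (nat_lit 119542996151933300356) (ZL.cons (nat_lit 7904) (nat_lit 3) (nat_lit 59712639977593071075) (ZL.cons (nat_lit 7980) (nat_lit 6) (nat_lit 120404625583150166048) (ZL.cons (nat_lit 8056) (nat_lit 6) (nat_lit 119479838253441659524) (ZL.cons (nat_lit 8132) (nat_lit 6) (nat_lit 118788167542379557166)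 (ZL.cons (nat_lit 8208) (nat_lit 6) (nat_lit 118327966614937520636) (ZL.cons (nat_lit 8284) (nat_lit 6) (nat_lit 118098139754621640326) (ZL.cons (nat_lit 8360) (nat_lit 3) (nat_lit 58954815639000919652) (ZL.cons (nat_lit 8436) (nat_lit 6) (nat_lit 117978457500229926972) (ZL.cons (nat_lit 8512) (nat_lit 6) (nat_lit 118185100038871875900) (ZL.cons (nat_lit 8588) (nat_lit 6) (nat_lit 118530050899972071678) (ZL.cons (nat_lit 8664) (nat_lit 6) (nat_lit 119014131395104562392) (ZL.cons (nat_lit 8740) (nat_lit 6) (nat_lit 119638494096876806356) (ZL.cons (nat_lit 8816) (nat_lit 6) (nat_lit 118621473046799752072) (ZL.cons (nat_lit 8892) (nat_lit 6) (nat_lit 117832956929350674568) (ZL.cons (nat_lit 8968) (nat_lit 6) (nat_lit 117271068325202314136) (ZL.cons (nat_lit 9044) (nat_lit 6) (nat_lit 116934469404344793726) (ZL.cons (nat_lit 9120) (nat_lit 3) (nat_lit 58411179370388035811) (ZL.cons (nat_lit 9196)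 (nat_lit 6) (nat_lit 116493286487343670884) (ZL.cons (nat_lit 9272) (nat_lit 6) (nat_lit 116634380242911250604) (ZL.cons (nat_lit 9348) (nat_lit 6) (nat_lit 116916903691559666186) (ZL.cons (nat_lit 9424) (nat_lit 6) (nat_lit 117341529508166651950) (ZL.cons (nat_lit 9500) (nat_lit 6) (nat_lit 117909268706581272150) (ZL.cons (nat_lit 9576) (nat_lit 6) (nat_lit 117028518868763646886) (ZL.cons (nat_lit 9652) (nat_lit 6) (nat_lit 116369784858228311308) (ZL.cons (nat_lit 9728) (nat_lit 6) (nat_lit 115931498260664466996) (ZL.cons (nat_lit 9804) (nat_lit 6) (nat_lit 115712615536554104792) (ZL.cons (nat_lit 9880) (nat_lit 3) (nat_lit 57606606454472465742) (ZL.cons (nat_lit 9956) (nat_lit 6) (nat_lit 115285480442284423536) (ZL.cons (nat_lit 10032) (nat_lit 6) (nat_lit 115502455107858469910) (ZL.cons (nat_lit 10108) (nat_lit 6) (nat_lit 115864653512013675478) (ZL.cons (nat_lit 10184) (nat_lit 6) (nat_lit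 116372938031902790728) (ZL.cons (nat_lit 10260) (nat_lit 6) (nat_lit 115621970300998907390) (ZL.cons (nat_lit 10336) (nat_lit 6) (nat_lit 115086838297048087932) (ZL.cons (nat_lit 10412) (nat_lit 6) (nat_lit 114766267896231401826) (ZL.cons (nat_lit 10488) (nat_lit 3) (nat_lit 57329747917844880863) (ZL.cons (nat_lit 10564) (nat_lit 6) (nat_lit 114135188970799426062) (ZL.cons (nat_lit 10640) (nat_lit 6) (nat_lit 114283337414145384768) (ZL.cons (nat_lit 10716) (nat_lit 6) (nat_lit 114579987035226221128) (ZL.cons (nat_lit 10792) (nat_lit 6) (nat_lit 115025844142663556182) (ZL.cons (nat_lit 10868) (nat_lit 6) (nat_lit 114398478418344188964) (ZL.cons (nat_lit 10944) (nat_lit 6) (nat_lit 113981062611140527712) (ZL.cons (nat_lit 11020) (nat_lit 6) (nat_lit 113772602873892563710) (ZL.cons (nat_lit 11096) (nat_lit 3) (nat_lit 56590383519619218380) (ZL.cons (nat_lit 11172) (nat_lit 6) (nat_lit 113256647949244903414)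 (ZL.cons (nat_lit 11248) (nat_lit 6) (nat_lit 113484471348097652106) (ZL.cons (nat_lit 11324) (nat_lit 6) (nat_lit 113864779672460617952) (ZL.cons (nat_lit 11400) (nat_lit 6) (nat_lit 113355130144888408940) (ZL.cons (nat_lit 11476) (nat_lit 6) (nat_lit 113049825001253469792) (ZL.cons (nat_lit 11552) (nat_lit 3) (nat_lit 56474068662273572945) (ZL.cons (nat_lit 11628) (nat_lit 6) (nat_lit 112419942214431072318) (ZL.cons (nat_lit 11704) (nat_lit 6) (nat_lit 112575498079944328958) (ZL.cons (nat_lit 11780) (nat_lit 6) (nat_lit 112886980182079207136) (ZL.cons (nat_lit 11856) (nat_lit 6) (nat_lit 112489441318075720228) (ZL.cons (nat_lit 11932) (nat_lit 6) (nat_lit 112290908234982421180) (ZL.cons (nat_lit 12008) (nat_lit 3) (nat_lit 55885614026596214990) (ZL.cons (nat_lit 12084) (nat_lit 6) (nat_lit 111850903008699219966) (ZL.cons (nat_lit 12160) (nat_lit 6) (nat_lit 112090117577494606092) (ZL.cons (nat_lit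 12236) (nat_lit 6) (nat_lit 111799350774032759284) (ZL.cons (nat_lit 12312) (nat_lit 3) (nat_lit 55851252683822892069) (ZL.cons (nat_lit 12388) (nat_lit 6) (nat_lit 111308960908002217728) (ZL.cons (nat_lit 12464) (nat_lit 6) (nat_lit 111472294566791137200) (ZL.cons (nat_lit 12540) (nat_lit 6) (nat_lit 111283215440035614294) (ZL.cons (nat_lit 12616) (nat_lit 3) (nat_lit 55474190719759164689) (ZL.cons (nat_lit 12692) (nat_lit 6) (nat_lit 111032040142800458864) (ZL.cons (nat_lit 12768) (nat_lit 3) (nat_lit 55469903211215955552) (ZL.cons (nat_lit 12844) (nat_lit 6) (nat_lit 110768306080703545660) (ZL.cons (nat_lit 12920) (nat_lit 1) (nat_lit 18446744073709551617) ZL.nil)))))))))))))))))))))))))))))))))))))))))))))))))))))))))))))))))))))))))))))))))))))))))))))))))))))))))))))))))))))))))))))))))))))))))))))))))))))))))))))))))))))))))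

noncomputable def vl : XL := ⟨(nat_lit 0), (nat_lit 76), (nat_lit 84867707), (nat_lit 152), (nat_lit 249793595), (nat_lit 76), (nat_lit 84867707), (nat_lit 1), (nat_lit 5), (nat_lit 2), (nat_lit 4), (nat_lit 1), (nat_lit 4), (nat_lit 0), (nat_lit 0), (nat_lit 0)⟩

noncomputable def cp0 : Nat := (nat_lit 1168826654585219258793167033764808431956026627057303347646717128439274162536422468617372673388290991644240397412242778771620181005522869273794047125448973075238158043412617246154495870047516407791177041521899277732914404873433673592936563057930900114664325316825630835769022842405189062192167173768026116007139679383933781006836232877533594763729905376632563276576631000046110881672155726353540127945345727703241803537404931563432387595089685834081695550256247178252314440913316174824209158849465829174955521796333669451696712529612091214437740817045719800723041569249399672526036174490165600620818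66027575338674154944115543427362864600488598592853460202153901404680182245352793208033732554109068643085186131596681352543942766692128069350207751135089370115386274436348861183354945427001558928164396788697185034462325780527340505343314975497458548806546234663201738350102179959252157275400261461921879227206273513782393454031340934202580573334841119342872752020729951779164826423179322632784761251958431934991156727525221794407702021089425633475158163480386513270270646810277859031346521231309529555634610342610164167350473206260911033335765232829504837613454592858214267932077369457838741653870570562128337763205504206974743244708934773603930693060451606992413977551420527902112108086133218272643664963519391004745128374547676284956344455608256870257690614286752080285339107216868038163957258284047759870709166515242517727324540509587765995407199319682326491495197272320654292514705874779894983315614601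51221139015818604760498828927978762013819249129816946786224724055519691966085668277542584836950576544292669113164860335516742431189752657093536601846634256000400850494314748021899436880790604506259463064062784562779052620215719235625497565927897170731912254094958479801566304944354449232222711603568637543086266596964223494868964761365220174247931615363720332291748594273086663136176572790835672938080393978833443329370956811302116751475114670006408648971496062271707121546033542267890739942881266815450560398435081632907017376290743449276506374728143788965500301085924380042843956365642352141048853874833817629689621495601290967070794119216476088873934054561772711128436495643392930104113699786975759669528832294805747054128223463286630550298069772132032082417831477840617946732911683248213570616520131871087982548609161059196850263096121205479340831609460500487366888084801587566055327578097574058035869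18181127283376711761867008220097538257294874198976878373908181464503236382631983156371748443208403999866957990680922995609784188303607281953402124655920019547498711137970484400961110404650714287531908323085931778809857289529947871684219317494613694780067938819002552675699652556082704671708759755481434443802244975011235690184706126980756365537516598215704824456204969964804274015142934121682371548980955319721732801516533010334223025642834488174803738021634671678241416230953524791007067439413054330880074452072433804796579548870639206103853173225069668138529982203589477553842629722490339438648215143973469431490039897857105704360909229441042546109785250183711360853908636341274537414554474617088636893049749487048769872392583620275581335716658074930397353610982483613750499980570293160604255885781430197670764591966724556043360182806062261224041080882223691825276698027825544457812569786210526630421042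50657571054405625800096135782852538919123202799034262730741765156845136644115005495894310499683860799434731625715662438797184346710840635141435225397357730161968785798017624468115542902137041221674353283487743739041925362559815827535261240926609838322641353955271700636006595678327207223421925212763609266541560206300640795663854080603243739712747620144536523245637342451711288354326032380429948646135692313802355321358980488428348818604393913274184879345647922244888164201231754614199859725331804508080575473387497179700551172192303186124605209577389390340090899012643543162726603765543872757760)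

noncomputable def cp1 : Nat := (nat_lit 17454725484378056441993726608849356977339138167976454365330004699185917532338769430206335109025853387070542870711009844741451755505198333561950876530996599834439296378353716800483088596821101829076531973756671205238221315104742002052578114585995302973536134258565620899906021904322089095392207704347470444150723942102343766988690696899731859831107897609786688985492386877859335859670682089701470744975554224550917419486888552935376674434617943038325902509212714292704059107973888062885107632246195802975290758692653565425843628770515906389404084336284705112698459026768254418631958923998608332311906087832127476786478772164449335533170898641032768553321373198558408525440084678910515172924163253341686122764630268514944508087165988856119143719040689670609145982899805606391606350092620861524216916393844689973661888172762971760535941193507056129349962683736065813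59046789958087794431243565114876278541384378624934793012417979487907045911393752514120889672326566617844682187205174722177500253431827487112393217256210050375699802821796968589831209144539987931603427189914041441431084723853711615336756158043976119510635359014233586063941388822981006602229481319399113708386797472737042109403545033485549861832550795632041986274783917613829213985888392525873754828344066698207883345120718203780333331459932470479120998076357783031136528362366823651804581375998483976187916861795491614368458230203174255576223587616554548608355077342350612916196833857250606936197484645893710927495114485541843819842356963261795732480177570959989307248570899261833646265334236771334948104673852435487258338039677073838323818815662156794514231048924781492166172640323883999912042529486576244771587414680434086966713180094935638292104707319503268555026584307905343244319955554261266270462263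25328052999803532094587640589355303788038917877829822871967589636057699214563370809440602769210309396949227813208798298265946674160494140284859351538318285677113702255266994667307294132386020266475064180702683497155958091750234111805225672485461998965975962070392794975252336403416805685785418015167233732386202392830976983925856615776628697303477648462851265489085469401848642445652180160761155696215893123400620455548070734087781648307627615756844243320682651717855064128669312261441692545235794144917812629729948744660826726008650552239077422290605550489962526902623575501971465901466711945211692011524039224733784762918785726578725448279996847226197766855078674480002902049967578815602050670796807414513646329716897016472862532416915443052652293272147059672317132190377608964365910198515026504302433864144680954618328826518953716941506734184510958116061417907745118381172121791353403660439973137046634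42717757830433405560681551792459328692060799436091364887746403876156033141725517460244609601772384810353257350486177523524041118094311905622225249758595925946437020968200220385002598220741425289160657661428380154746500161194074154066533119118788260939319667262450155807530128288258107171158512031338331968952143153564225116623376398204319030726448107914471498231741756954491739212518765110383082551742276805027566188702069209602305366118910500822605154564413054833672077694217642782500221974736100579899751764099075669653208346232912669264296288446310986370355749266193707328110634129454474074600535900139848615011992601592672738726444353626720900705749388724100851065298732304642902583074230332130035618608674373020457095945868731100544300670382450833239608994891136134479951748570921445346010830136834335284577939382204927369985076705927835643615960516433722433994366734774883499155673729014973263942109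21325407657684105211267313843721023653166548231020520068228303973158691843952438167651715595022569076874669642177345752352319102502113284256113985879709729088693516252643940587492718421517601814544780129879038619623692012284022383673591647782111606787878315961095590063250518958080944373496708904708824617054631493492303101772316313604448496746284503004472577352477895907983192286761882368121154751683951998350218615312050962325062589997900709046161840970126983327765530594963967471255032841274148603666735828067436332662422236263783714318953592380336065581026342363521333078154396881440265450797641137195696224481163295037530938001668433481231629377778485612101623440267684393342204709705434375841073429997860850863266904908110488122452688904016994258764393352181636759110103856387447513153692044358676979494826039973329840870862733806222587642662085149785641457106091554075080571392729856141961226848871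00489280429990347644573874500473400864134052359321516193664597401466076809491700124670195202161833223851919655152639445029410933249178306199191289184804432977510503992817797859632468284401088868545365678253979203338338900575649629721086976492470273989700488253640784385786689909597124437046598870335420660317633032452227026571964367633089953004067980792579559376015868904844718648300594768995148312147736909004128952398647224200818859491878132180474036488525133002678884310941459258469166660542144579429438456452804918591205139511156695063955356694811102875837221826696601341991072127925134694299455083556977083707434947250813021839205433917962549871065032209597688394313267448227303621043064038224501414303255969461867784922947963685728617266763483921444910452578858708844504778782053000578073768260863985519768164757813738241037590396815966284834382822416167135752660426291161034236116878893496324276007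87749130858134442919633508796358678942459516348618159531058121049681912042995226700379625452357189256397626780900541096843649264790182678760881719874431291805350094653606204513340238610729412461454812880357776154274331475447243649161083899227675381330315471397708277575849389710896151449071777851892153571798052935339351689814166587919597066760941883325060221171801527222742267942838534034518079224042691879147316118554765636403168353237034957541061703313734588262105811746607060353856450669936044618851823684586244732358014580928566252382560228700344963361644749631798445562026128252630307405295255073020960563030795644444553115690429863905405435327383397560703129989547909975136095724809206643815274163595850512570775476285010067569296357717790714001329628890142870502180902992703208849794066140991520534509081625779200017267626152299255772811824772192690523959226017374447285635589369517302807940251163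09514011403980939669093416331925586692250954425282770952553622629726564468802150262361238269781732367180607499315695199565614815259161190632566839610441425038962094557150891313539588978568886686336039241867559315532890673053082878654366495989634011367137849899352639847205669875474586835075530293268734462339786452176215369461209768645299462510988429749248819466218847589958239578573045611999153926917712533051624035044374107562356196027791591925264843168871260193520368080625963566463201310112274110163276874037948851259923208702371497529885301371399325965015531555357940157293561341241894201114273229570908609220084034897686848134976817883390766046024556660665375497002059644784795986320395814487098673355980113473591778988229868368779259537164289473597096433521707020330997703279184143267574617688933039661440948748395167056804059955443394572873014424739299825791342968314738492253031919022860982707879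93179545407201433300293709209515408406053264294815413579622898519422994036908155238889808064342487285219327799884723440568512636914658245005944908544243769974796895571781443302897866354149287956990668164159031027685637506108877329665553087915358842418466257505394672431252644439986595586934613000356495214451129788536056657454997840474235521957827101322505727906868342022430168685441044501829816831158775973524674195786062307946181099440015083266538733888467047045107451781263205676840127503874577199235172911042336710994791653009727896897361706209886013393298620307316280484077381762537237671394956245456563268000671088839322596003395062715225441824960856414202299231723854290996455922443973339646869602802789801060043092285108223082810492824288918354891090948241527739806600293546516539291062016696531949475708824930528406859029098974467168235483721596664800917417975163551322197201549481797515149226563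93634525545460372606365207958696463474804996556894441544112981115792778977115905673609568690042308326182246779222088825848200023244318580129177634798539335043817329072292454203789485470266537305093722462042683077185188615898704162470596543454897422907029314722457612371476612960840764333370526777293452865064436326240601765016269535742153235143543252706388114327247617585097441325348047886863355639211010825932233126195209438717532242213701219523678478293097847550075561987813870443082247322520335379191092288627992042252008984896704169154664369246421648707151089949246575656665942815178551800397595315784190966530746369671957232157346178865915279478429267847393811829988455559113501124692326065034723089488614917381412673895956548269735352524234875115098105295227315938656654033602686359884278590084496287915080725984084339026727385694208)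

noncomputable def rc0 : Nat := (nat_lit 17454725484378056441993726608849356977339138167976454365330004699185917532338769430206335109025853387070542870711009844741451755505198333561950876530996599834439296378353716800483088596821101829076531973756671205238221315104742002052578114585995302973536134258565620899906021904322089095392207704347470444150723942102343766988690696899731859831107897609786688985492386877859335859670682089701470744975554224550917419486888552935376674434617943038325902509212714292704059107973888062885107632246195802975290758692653565425843628770515906389404084336284705112698459026768254418631958923998608332311906087832127476786478772164449335533170898641032768553321373198558408525440084678910515172924163253341686122764630268514944508087165988856119143719040689670609145982899805606391606350092620861524216916393844689973661888172762971760535941193507056129349962683736065813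59046789958087794431243565114876278541384378624934793012417979487907045911393752514120889672326566617844682187205174722177500253431827487112393217256210050375699802821796968589831209144539987931603427189914041441431084723853711615336756158043976119510635359014233586063941388822981006602229481319399113708386797472737042109403545033485549861832550795632041986274783917613829213985888392525873754828344066698207883345120718203780333331459932470479120998076357783031136528362366823651804581375998483976187916861795491614368458230203174255576223587616554548608355077342350612916196833857250606936197484645893710927495114485541843819842356963261795732480177570959989307248570899261833646265334236771334948104673852435487258338039677073838323818815662156794514231048924781492166172640323883999912042529486576244771587414680434086966713180094935638292104707319503268555026584307905343244319955554261266270462263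25328052999803532094587640589355303788038917877829822871967589636057699214563370809440602769210309396949227813208798298265946674160494140284859351538318285677113702255266994667307294132386020266475064180702683497155958091750234111805225672485461998965975962070392794975252336403416805685785418015167233732386202392830976983925856615776628697303477648462851265489085469401848642445652180160761155696215893123400620455548070734087781648307627615756844243320682651717855064128669312261441692545235794144917812629729948744660826726008650552239077422290605550489962526902623575501971465901466711945211692011524039224733784762918785726578725448279996847226197766855078674480002902049967578815602050670796807414513646329716897016472862532416915443052652293272147059672317132190377608964365910198515026504302433864144680954618328826518953716941506734184510958116061417907745118381172121791353403660439973137046634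42717757830433405560681551792459328692060799436091364887746403876156033141725517460244609601772384810353257350486177523524041118094311905622225249758595925946437020968200220385002598220741425289160657661428380154746500161194074154066533119118788260939319667262450155807530128288258107171158512031338331968952143153564225116623376398204319030726448107914471498231741756954491739212518765110383082551742276805027566188702069209602305366118910500822605154564413054833672077694217642782500221974736100579899751764099075669653208346232912669264296288446310986370355749266193707328110634129454474074600535900139848615011992601592672738726444353626720900705749388724100851065298732304642902583074230332130035618608674373020457095945868731100544300670382450833239608994891136134479951748570921445346010830136834335284577939382204927369985076705927835643615960516433722433994366734774883499155673729014973263942109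21325407657684105211267313843721023653166548231020520068228303973158691843952438167651715595022569076874669642177345752352319102502113284256113985879709729088693516252643940587492718421517601814544780129879038619623692012284022383673591647782111606787878315961095590063250518958080944373496708904708824617054631493492303101772316313604448496746284503004472577352477895907983192286761882368121154751683951998350218615312050962325062589997900709046161840970126983327765530594963967471255032841274148603666735828067436332662422236263783714318953592380336065581026342363521333078154396881440265450797641137195696224481163295037530938001668433481231629377778485612101623440267684393342204709705434375841073429997860850863266904908110488122452688904016994258764393352181636759110103856387447513153692044358676979494826039973329840870862733806222587642662085149785641457106091554075080571392729856141961226848871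00489280429990347644573874500473400864134052359321516193664597401466076809491700124670195202161833223851919655152639445029410933249178306199191289184804432977510503992817797859632468284401088868545365678253979203338338900575649629721086976492470273989700488253640784385786689909597124437046598870335420660317633032452227026571964367633089953004067980792579559376015868904844718648300594768995148312147736909004128952398647224200818859491878132180474036488525133002678884310941459258469166660542144579429438456452804918591205139511156695063955356694811102875837221826696601341991072127925134694299455083556977083707434947250813021839205433917962549871065032209597688394313267448227303621043064038224501414303255969461867784922947963685728617266763483921444910452578858708844504778782053000578073768260863985519768164757813738241037590396815966284834382822416167135752660426291161034236116878893496324276007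87749130858134442919633508796358678942459516348618159531058121049681912042995226700379625452357189256397626780900541096843649264790182678760881719874431291805350094653606204513340238610729412461454812880357776154274331475447243649161083899227675381330315471397708277575849389710896151449071777851892153571798052935339351689814166587919597066760941883325060221171801527222742267942838534034518079224042691879147316118554765636403168353237034957541061703313734588262105811746607060353856450669936044618851823684586244732358014580928566252382560228700344963361644749631798445562026128252630307405295255073020960563030795644444553115690429863905405435327383397560703129989547909975136095724809206643815274163595850512570775476285010067569296357717790714001329628890142870502180902992703208849794066140991520534509081625779200017267626152299255772811824772192690523959226017374447285635589369517302807940251163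09514011403980939669093416331925586692250954425282770952553622629726564468802150262361238269781732367180607499315695199565614815259161190632566839610441425038962094557150891313539588978568886686336039241867559315532890673053082878654366495989634011367137849899352639847205669875474586835075530293268734462339786452176215369461209768645299462510988429749248819466218847589958239578573045611999153926917712533051624035044374107562356196027791591925264843168871260193520368080625963566463201310112274110163276874037948851259923208702371497529885301371399325965015531555357940157293561341241894201114273229570908609220084034897686848134976817883390766046024556660665375497002059644784795986320395814487098673355980113473591778988229868368779259537164289473597096433521707020330997703279184143267574617688933039661440948748395167056804059955443394572873014424739299825791342968314738492253031919022860982707879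93179545407201433300293709209515408406053264294815413579622898519422994036908155238889808064342487285219327799884723440568512636914658245005944908544243769974796895571781443302897866354149287956990668164159031027685637506108877329665553087915358842418466257505394672431252644439986595586934613000356495214451129788536056657454997840474235521957827101322505727906868342022430168685441044501829816831158775973524674195786062307946181099440015083266538733888467047045107451781263205676840127503874577199235172911042336710994791653009727896897361706209886013393298620307316280484077381762537237671394956245456563268000671088839322596003395062715225441824960856414202299231723854290996455922443973339646869602802789801060043092285108223082810492824288918354891090948241527739806600293546516539291062016696531949475708824930528406859029098974467168235483721596664800917417975163551322197201549481797515149226563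93634525545460372606365207958696463474804996556894441544112981115792778977115905673609568690042308326182246779222088825848200023244318580129177634798539335043817329072292454203789485470266537305093722462042683077185188615898704162470596543454897422907029314722457612371476612960840764333370526777293452865064436326240601765016269535742153235143543252706388114327247617585097441325348047886863355639211010825932233126195209438717532242213701219523678478293097847550075561987813870443082247322520335379191092288627992042252008984896704169154664369246421648707151089949246575656665942815178551800397595315784190966530746369671957232157346178865915279478429267847393811829988455559113501124692326065034723089488614917381412673895956548269735352524234875115098105295227315938656654033602686359884278590084496287915080725984084339026727385694208)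

end Vale.Agent.Lib.P154.PChain.BG.S5
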